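import Mathlib

/-!
# Torus isolation and richness for helper341's alphabet (S0059, #23911 (2)-(4))

`F` finite field with `q ^ 2` elements, `N x = x ^ (q + 1)`.  Words are multilinear in the torus
coordinates: `ev c a = ∑ S, c S * ∏ i ∈ S, a i`.
-/

set_option linter.unusedSectionVars false
set_option autoImplicit false

open scoped BigOperators
open Finset

namespace Crest.Agent.R042.Tor44

section fibre

variable {F : Type*} [Field F] [Fintype F] [DecidableEq F] {q : ℕ}

theorem two_le_q (hF : Fintype.card F = q ^ 2) : 2 ≤ q := by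
  have h1 : 1 < Fintype.card F := Fintype.one_lt_card
  rw [hF] at h1
  by_contra h
  have : q = 0 ∨ q = 1 := by omega
  rcases this with h | h <;> simp [h] at h1

theorem pow_qq (hF : Fintype.card F = q ^ 2) (x : F) : (x ^ q) ^ q = x := by
  rw [← pow_mul, ← pow_two, ← hF]; exact FiniteField.pow_card x

/-- values of the norm -/
theorem N_pow (hF : Fintype.card F = q ^ 2) {x : F} (hx : x ≠ 0) : (x ^ (q + 1)) ^ (q - 1) = 1 := by
  rw [← pow_mul]
  have h2 := two_le_q hF
  have : (q + 1) * (q - 1) = Fintype.card F - 1 := by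
    rw [hF]
    obtain ⟨k, rfl⟩ : ∃ k, q = k + 1 := ⟨q - 1, by omega⟩
    simp only [Nat.add_sub_cancel]
    have : (k + 1) ^ 2 = (k + 1 + 1) * k + 1 := by ring
    rw [this, Nat.add_sub_cancel]
  rw [this]
  exact FiniteField.pow_card_sub_one_eq_one x hx

theorem card_pow_eq_le (n : ℕ) (hn : 0 < n) (η : F) :
    (univ.filter (fun x : F => x ^ n = η)).card ≤ n := by
  classical
  have h : univ.filter (fun x : F => x ^ n = η) ⊆ (Polynomial.nthRoots n η).toFinset := by
    intro x hx
    rw [Multiset.mem_toFinset, Polynomial.mem_nthRoots hn]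
    exact (mem_filter.1 hx).2
  calc (univ.filter (fun x : F => x ^ n = η)).card ≤ ((Polynomial.nthRoots n η).toFinset).card :=
        card_le_card h
    _ ≤ Multiset.card (Polynomial.nthRoots n η) := Multiset.toFinset_card_le _
    _ ≤ n := Polynomial.card_nthRoots n η

/-- **(T1)** the norm fibres have exactly `q + 1` elements -/
theorem card_fibre (hF : Fintype.card F = q ^ 2) {η : F} (hη : η ^ (q - 1) = 1) :
    (univ.filter (fun x : F => x ^ (q + 1) = η)).card = q + 1 := by
  have h2 := two_le_q hF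
  set H : Finset F := univ.filter (fun x : F => x ^ (q - 1) = 1) with hH
  have hHc : H.card ≤ q - 1 := card_pow_eq_le (q - 1) (by omega) 1
  have hmaps : ∀ x ∈ (univ.filter (fun x : F => x ≠ 0)), x ^ (q + 1) ∈ H := by
    intro x hx
    rw [hH, mem_filter]
    exact ⟨mem_univ _, N_pow hF (mem_filter.1 hx).2⟩
  have hsum := Finset.card_eq_sum_card_fiberwise (f := fun x : F => x ^ (q + 1))
    (s := univ.filter (fun x : F => x ≠ 0)) (t := H) hmaps
  have hcard : (univ.filter (fun x : F => x ≠ 0)).card = (q - 1) * (q + 1) := by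
    have : (univ.filter (fun x : F => x ≠ 0)) = univ.erase 0 := by
      ext x; simp
    rw [this, card_erase_of_mem (mem_univ _), card_univ, hF]
    obtain ⟨k, rfl⟩ : ∃ k, q = k + 1 := ⟨q - 1, by omega⟩
    simp only [Nat.add_sub_cancel]
    have : (k + 1) ^ 2 = k * (k + 1 + 1) + 1 := by ring
    rw [this, Nat.add_sub_cancel]
  have hle : ∀ b ∈ H, ((univ.filter (fun x : F => x ≠ 0)).filter (fun x => x ^ (q + 1) = b)).card
      ≤ q + 1 := by
    intro b hb
    refine (card_le_card ?_).trans (card_pow_eq_le (q + 1) (by omega) b)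
    intro x hx
    rw [mem_filter] at hx ⊢
    exact ⟨mem_univ _, hx.2⟩
  have hηH : η ∈ H := by rw [hH, mem_filter]; exact ⟨mem_univ _, hη⟩
  have hη0 : η ≠ 0 := by
    intro h
    rw [h, zero_pow (by omega)] at hη
    exact zero_ne_one hη
  have heq : ((univ.filter (fun x : F => x ≠ 0)).filter (fun x => x ^ (q + 1) = η)) =
      univ.filter (fun x : F => x ^ (q + 1) = η) := by
    ext x
    simp only [mem_filter, mem_univ, true_and]
    constructor
    · exact fun h => h.2
    · intro h
      refine ⟨?_, h⟩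
      intro hx
      rw [hx, zero_pow (by omega)] at h
      exact hη0 h.symm
  rw [← heq]
  apply le_antisymm (hle η hηH)
  by_contra hlt
  push Not at hlt
  have : ∑ b ∈ H, ((univ.filter (fun x : F => x ≠ 0)).filter (fun x => x ^ (q + 1) = b)).card <
      ∑ b ∈ H, (q + 1) := Finset.sum_lt_sum hle ⟨η, hηH, hlt⟩
  rw [← hsum, sum_const, smul_eq_mul, hcard] at this
  have h3 : H.card * (q + 1) ≤ (q - 1) * (q + 1) := Nat.mul_le_mul_right _ hHc
  omega

/-- conjugation on a norm fibre -/
theorem conj_fibre {x η : F} (hη : η ≠ 0) (h : x ^ (q + 1) = η) : x ≠ 0 ∧ x ^ q * x = η := by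
  constructor
  · intro hx
    rw [hx, zero_pow (by omega)] at h
    exact hη h.symm
  · rw [← pow_succ]; exact h

theorem add_pow_q (hF : Fintype.card F = q ^ 2) (x y : F) : (x + y) ^ q = x ^ q + y ^ q := by
  obtain ⟨p, hc, n, hp, hn⟩ := FiniteField.card' F
  have hpf : Fact p.Prime := ⟨hp⟩
  have hd : q ∣ p ^ (n : ℕ) := by
    rw [← hn, hF]; exact dvd_pow_self q (by norm_num)
  obtain ⟨m, -, hm⟩ := (Nat.dvd_prime_pow hp).1 hd
  rw [hm]
  exact add_pow_char_pow x y p m

theorem quad_roots {a b c : F} (ha : a ≠ 0) :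
    (univ.filter (fun x : F => a * x ^ 2 + b * x + c = 0)).card ≤ 2 := by
  classical
  set P : Polynomial F := Polynomial.C a * Polynomial.X ^ 2 + Polynomial.C b * Polynomial.X +
    Polynomial.C c with hP
  have hdeg : P.natDegree = 2 := Polynomial.natDegree_quadratic ha
  have hP0 : P ≠ 0 := by
    intro h
    rw [h] at hdeg
    simp at hdeg
  have h : univ.filter (fun x : F => a * x ^ 2 + b * x + c = 0) ⊆ P.roots.toFinset := by
    intro x hx
    rw [Multiset.mem_toFinset, Polynomial.mem_roots hP0, Polynomial.IsRoot.def]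
    simp only [hP, Polynomial.eval_add, Polynomial.eval_mul, Polynomial.eval_C,
      Polynomial.eval_pow, Polynomial.eval_X]
    exact (mem_filter.1 hx).2
  calc _ ≤ (P.roots.toFinset).card := card_le_card h
    _ ≤ Multiset.card P.roots := Multiset.toFinset_card_le _
    _ ≤ P.natDegree := Polynomial.card_roots' _
    _ = 2 := hdeg

/-- the quadratic equation on a norm fibre -/
theorem quad_count (hF : Fintype.card F = q ^ 2) {α β η : F} (d : F) (hα : α ≠ 0) (hβ : β ≠ 0)
    (hη : η ≠ 0) :
    (univ.filter (fun x : F => x ^ (q + 1) = η ∧ (α + x * β) ^ (q + 1) = d)).card ≤ 2 := by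
  refine (card_le_card ?_).trans (quad_roots (a := α ^ q * β)
    (b := α ^ q * α + η * (β ^ q * β) - d) (c := η * (β ^ q * α)) (mul_ne_zero (pow_ne_zero _ hα) hβ))
  intro x hx
  obtain ⟨h1, h2⟩ := (mem_filter.1 hx).2
  rw [mem_filter]
  refine ⟨mem_univ _, ?_⟩
  obtain ⟨hx0, hxη⟩ := conj_fibre hη h1
  have e1 : (α + x * β) ^ q = α ^ q + x ^ q * β ^ q := by
    rw [add_pow_q hF, mul_pow]
  rw [pow_succ, e1] at h2
  linear_combination x * h2 - (β ^ q * (α + x * β)) * hxη

theorem quad_count_D (hF : Fintype.card F = q ^ 2) {α β η : F} (D : Finset F) (hα : α ≠ 0)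
    (hβ : β ≠ 0) (hη : η ≠ 0) :
    (univ.filter (fun x : F => x ^ (q + 1) = η ∧ (α + x * β) ^ (q + 1) ∈ D)).card ≤ 2 * D.card := by
  classical
  have : univ.filter (fun x : F => x ^ (q + 1) = η ∧ (α + x * β) ^ (q + 1) ∈ D) =
      D.biUnion (fun d => univ.filter (fun x : F => x ^ (q + 1) = η ∧ (α + x * β) ^ (q + 1) = d)) := by
    ext x
    simp only [mem_filter, mem_univ, true_and, mem_biUnion]
    constructor
    · rintro ⟨a, b⟩; exact ⟨_, b, a, rfl⟩
    · rintro ⟨d, b, a, rfl⟩; exact ⟨a, b⟩
  rw [this]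
  calc _ ≤ ∑ d ∈ D, (univ.filter (fun x : F => x ^ (q + 1) = η ∧ (α + x * β) ^ (q + 1) = d)).card :=
        card_biUnion_le
    _ ≤ ∑ d ∈ D, 2 := sum_le_sum fun d _ => quad_count hF d hα hβ hη
    _ = 2 * D.card := by rw [sum_const, smul_eq_mul, mul_comm]

end fibre

/-! ## multilinear words -/

section words

variable {R : Type*} [CommRing R] {ι : Type*} [Fintype ι] [DecidableEq ι]

/-- value of the multilinear polynomial with coefficients `c` -/
def ev (c : Finset ι → R) (a : ι → R) : R := ∑ S : Finset ι, c S * ∏ i ∈ S, a i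

/-- part without `j` -/
def cA (j : ι) (c : Finset ι → R) : Finset ι → R := fun S => if j ∈ S then 0 else c S

/-- coefficient of `a j` -/
def cB (j : ι) (c : Finset ι → R) : Finset ι → R := fun S => if j ∈ S then 0 else c (insert j S)

theorem ev_split (j : ι) (c : Finset ι → R) (a : ι → R) :
    ev c a = ev (cA j c) a + a j * ev (cB j c) a := by
  unfold ev
  rw [← Finset.sum_filter_add_sum_filter_not univ (fun S : Finset ι => j ∉ S)]
  congr 1
  · rw [Finset.sum_filter]
    refine sum_congr rfl fun S _ => ?_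
    unfold cA
    by_cases h : j ∈ S <;> simp [h]
  · rw [mul_sum]
    have : ∑ S : Finset ι, a j * (cB j c S * ∏ i ∈ S, a i) =
        ∑ S ∈ univ.filter (fun S : Finset ι => j ∉ S), c (insert j S) * ∏ i ∈ insert j S, a i := by
      rw [Finset.sum_filter]
      refine sum_congr rfl fun S _ => ?_
      unfold cB
      by_cases h : j ∈ S
      · simp [h]
      · simp only [h, if_false, not_false_eq_true, if_true, prod_insert h]; ring
    rw [this]
    refine Finset.sum_nbij' (fun S => S.erase j) (fun S => insert j S) ?_ ?_ ?_ ?_ ?_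
    · intro S hS
      simp
    · intro S hS
      simp
    · intro S hS
      have : j ∈ S := by simpa using hS
      exact insert_erase this
    · intro S hS
      have : j ∉ S := by simpa using hS
      exact erase_insert this
    · intro S hS
      have : j ∈ S := by simpa using hS
      rw [insert_erase this]

theorem ev_congr {j : ι} {c : Finset ι → R} (hc : ∀ S, j ∈ S → c S = 0) {a b : ι → R}
    (h : ∀ i, i ≠ j → a i = b i) : ev c a = ev c b := by
  unfold ev
  refine sum_congr rfl fun S _ => ?_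
  by_cases hS : j ∈ S
  · rw [hc S hS, zero_mul, zero_mul]
  · congr 1
    refine prod_congr rfl fun i hi => h i ?_
    rintro rfl
    exact hS hi

theorem cA_zero (j : ι) (c : Finset ι → R) (S : Finset ι) (h : j ∈ S) : cA j c S = 0 := by
  simp [cA, h]

theorem cB_zero (j : ι) (c : Finset ι → R) (S : Finset ι) (h : j ∈ S) : cB j c S = 0 := by
  simp [cB, h]

end words

/-! ## Schwartz-Zippel for multilinear words -/

section sz

variable {F : Type*} [Field F] [DecidableEq F] {J : ℕ}

/-- exponent of a squarefree monomial -/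
noncomputable def ind (S : Finset (Fin J)) : Fin J →₀ ℕ := Finsupp.equivFunOnFinite.symm (fun i => if i ∈ S then 1 else 0)

theorem ind_apply (S : Finset (Fin J)) (i : Fin J) : ind S i = if i ∈ S then 1 else 0 := rfl

theorem ind_inj {S T : Finset (Fin J)} (h : ind S = ind T) : S = T := by
  ext i
  have := DFunLike.congr_fun h i
  rw [ind_apply, ind_apply] at this
  by_cases h1 : i ∈ S <;> by_cases h2 : i ∈ T <;> simp_all

theorem ind_sum (S : Finset (Fin J)) : ∑ i, ind S i = S.card := by
  simp [ind_apply]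

/-- the multilinear polynomial -/
noncomputable def pol (c : Finset (Fin J) → F) : MvPolynomial (Fin J) F :=
  ∑ S : Finset (Fin J), MvPolynomial.monomial (ind S) (c S)

theorem eval_pol (c : Finset (Fin J) → F) (a : Fin J → F) : MvPolynomial.eval a (pol c) = ev c a := by
  unfold pol ev
  rw [map_sum]
  refine sum_congr rfl fun S _ => ?_
  rw [MvPolynomial.eval_monomial]
  congr 1
  rw [Finsupp.prod_fintype _ _ (fun i => pow_zero _)]
  simp only [ind_apply]
  rw [← Finset.prod_subset (Finset.subset_univ S)]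
  · refine prod_congr rfl fun i hi => ?_
    simp [hi]
  · intro i _ hi
    simp [hi]

theorem coeff_pol (c : Finset (Fin J) → F) (S : Finset (Fin J)) :
    MvPolynomial.coeff (ind S) (pol c) = c S := by
  unfold pol
  rw [MvPolynomial.coeff_sum]
  simp only [MvPolynomial.coeff_monomial]
  rw [Finset.sum_eq_single S]
  · simp
  · intro T _ hT
    rw [if_neg]
    intro h
    exact hT (ind_inj h)
  · intro h; exact absurd (mem_univ _) h

theorem support_pol (c : Finset (Fin J) → F) {s : Fin J →₀ ℕ} (hs : s ∈ (pol c).support) :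
    ∃ S, c S ≠ 0 ∧ s = ind S := by
  rw [MvPolynomial.mem_support_iff] at hs
  unfold pol at hs
  rw [MvPolynomial.coeff_sum] at hs
  obtain ⟨S, -, hS⟩ := Finset.exists_ne_zero_of_sum_ne_zero hs
  rw [MvPolynomial.coeff_monomial] at hS
  by_cases h : ind S = s
  · rw [if_pos h] at hS; exact ⟨S, hS, h.symm⟩
  · rw [if_neg h] at hS; exact absurd rfl hS

/-- Schwartz-Zippel for multilinear words of degree at most `m` on a grid of side `M` -/
theorem sz {c : Finset (Fin J) → F} (hc : c ≠ 0) {m : ℕ} (hm : ∀ S, m < S.card → c S = 0)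
    (T : Fin J → Finset F) {M : ℕ} (hM : 0 < M) (hT : ∀ i, (T i).card = M) (hJ : 0 < J) :
    ((Fintype.piFinset T).filter (fun a => ev c a = 0)).card ≤ m * M ^ (J - 1) := by
  have hp : pol c ≠ 0 := by
    intro h
    apply hc
    funext S
    rw [← coeff_pol c S, h]
    simp
  have h := MvPolynomial.schwartz_zippel_sup_sum hp T
  simp only [eval_pol] at h
  have hle : ((pol c).support.sup fun s ↦ ∑ i, ((s i : ℚ≥0) / ((T i).card : ℚ≥0))) ≤
      (m : ℚ≥0) / M := by
    refine Finset.sup_le fun s hs => ?_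
    obtain ⟨S, hS, rfl⟩ := support_pol c hs
    have h1 : S.card ≤ m := by
      by_contra hlt
      exact hS (hm S (by omega))
    simp only [hT]
    rw [← Finset.sum_div]
    have h2 : (∑ i, ((ind S i : ℕ) : ℚ≥0)) = (S.card : ℚ≥0) := by
      rw [← Nat.cast_sum, ind_sum]
    rw [h2]
    gcongr
  have h' := h.trans hle
  have hM' : (0 : ℚ≥0) < M := by exact_mod_cast hM
  have hprod : (∏ i, ((T i).card : ℚ≥0)) = (M : ℚ≥0) ^ J := by
    simp [hT]
  rw [hprod, div_le_iff₀ (pow_pos hM' J)] at h'
  have hJ' : (M : ℚ≥0) ^ J = M ^ (J - 1) * M := by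
    rw [← pow_succ]; congr 1; omega
  have h3 : (m : ℚ≥0) / M * M ^ J = m * M ^ (J - 1) := by
    rw [hJ']; field_simp
  rw [h3] at h'
  exact_mod_cast h'

end sz

/-! ## isolation -/

section iso

variable {F : Type*} [Field F] [Fintype F] [DecidableEq F] {q J : ℕ}

/-- the torus coset `{a | N (a j) = η j}` -/
def coset (q : ℕ) (η : Fin J → F) : Finset (Fin J → F) :=
  Fintype.piFinset (fun j => univ.filter (fun x : F => x ^ (q + 1) = η j))

theorem mem_coset {η : Fin J → F} {a : Fin J → F} :
    a ∈ coset q η ↔ ∀ j, a j ^ (q + 1) = η j := by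
  unfold coset; simp [Fintype.mem_piFinset]

theorem card_coset (hF : Fintype.card F = q ^ 2) {η : Fin J → F} (hη : ∀ j, η j ^ (q - 1) = 1) :
    (coset q η).card = (q + 1) ^ J := by
  unfold coset
  rw [Fintype.card_piFinset]
  rw [Finset.prod_congr rfl fun j _ => card_fibre hF (hη j)]
  simp

/-- the fibre count for `a j` with the other coordinates fixed -/
theorem fibre_bound (hF : Fintype.card F = q ^ 2) {η : Fin J → F} (hη : ∀ j, η j ^ (q - 1) = 1)
    (j : Fin J) (c : Finset (Fin J) → F) (D : Finset F) :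
    ((coset q η).filter (fun a => ev (cA j c) a ≠ 0 ∧ ev (cB j c) a ≠ 0 ∧
      (ev c a) ^ (q + 1) ∈ D)).card ≤ 2 * D.card * (q + 1) ^ (J - 1) := by
  classical
  have h2 := two_le_q hF
  have hη0 : ∀ j, η j ≠ 0 := by
    intro j h
    have := hη j
    rw [h, zero_pow (by omega)] at this
    exact zero_ne_one this
  set s := (coset q η).filter (fun a => ev (cA j c) a ≠ 0 ∧ ev (cB j c) a ≠ 0 ∧
      (ev c a) ^ (q + 1) ∈ D) with hs
  have hmain := Finset.card_le_mul_card_image (f := fun a : Fin J → F => Function.update a j 0) s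
    (2 * D.card) ?_
  · refine hmain.trans (Nat.mul_le_mul_left _ ?_)
    have hsub : s.image (fun a : Fin J → F => Function.update a j 0) ⊆
        Fintype.piFinset (fun i => if i = j then {0} else
          univ.filter (fun x : F => x ^ (q + 1) = η i)) := by
      intro b hb
      obtain ⟨a, ha, rfl⟩ := mem_image.1 hb
      rw [Fintype.mem_piFinset]
      intro i
      have ha' := mem_coset.1 (mem_filter.1 ha).1
      by_cases h : i = j
      · subst h; simp
      · simp only [h, if_false, Function.update_of_ne (Ne.symm (Ne.symm h)), mem_filter, mem_univ, true_and]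
        exact ha' i
    refine (card_le_card hsub).trans ?_
    rw [Fintype.card_piFinset]
    rw [← Finset.mul_prod_erase univ _ (mem_univ j)]
    simp only [if_true, card_singleton, one_mul]
    rw [Finset.prod_congr rfl (g := fun _ => q + 1)]
    · rw [prod_const, card_erase_of_mem (mem_univ _), card_univ, Fintype.card_fin]
    · intro i hi
      rw [if_neg (ne_of_mem_erase hi)]
      exact card_fibre hF (hη i)
  · intro b hb
    obtain ⟨a₀, ha₀, hb0⟩ := mem_image.1 hb
    obtain ⟨-, hA, hB, -⟩ := mem_filter.1 ha₀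
    refine le_trans ?_ (quad_count_D hF D hA hB (hη0 j))
    refine Finset.card_le_card_of_injOn (fun a => a j) ?_ ?_
    · intro a ha
      obtain ⟨ha1, ha2⟩ := mem_filter.1 ha
      obtain ⟨hc1, -, -, hc4⟩ := mem_filter.1 ha1
      have hag : ∀ i, i ≠ j → a i = a₀ i := by
        intro i hi
        have := congrFun (ha2.trans hb0.symm) i
        simpa [hi] using this
      have eA : ev (cA j c) a = ev (cA j c) a₀ := ev_congr (cA_zero j c) hag
      have eB : ev (cB j c) a = ev (cB j c) a₀ := ev_congr (cB_zero j c) hag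
      simp only [coe_filter, mem_univ, true_and, Set.mem_ofPred_eq]
      refine ⟨mem_coset.1 hc1 j, ?_⟩
      rw [← eA, ← eB, ← ev_split]
      exact hc4
    · intro a ha b' hb' hab
      have ha2 := (mem_filter.1 ha).2
      have hb2 := (mem_filter.1 hb').2
      funext i
      by_cases h : i = j
      · rw [h]; exact hab
      · have := congrFun (ha2.trans hb2.symm) i
        simpa [h] using this

/-- **(T2) isolation**: a multilinear word of degree at most `m` which is not a monomial has its
norm in `D` on at most `(2 |D| + 2 m) (q + 1) ^ (J - 1)` points of a torus coset -/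
theorem isolation (hF : Fintype.card F = q ^ 2) {η : Fin J → F} (hη : ∀ j, η j ^ (q - 1) = 1)
    (c : Finset (Fin J) → F) {m : ℕ} (hm : ∀ S, m < S.card → c S = 0)
    {S₁ S₂ : Finset (Fin J)} (hS : S₁ ≠ S₂) (h₁ : c S₁ ≠ 0) (h₂ : c S₂ ≠ 0) (D : Finset F) :
    ((coset q η).filter (fun a => (ev c a) ^ (q + 1) ∈ D)).card ≤
      (2 * D.card + 2 * m) * (q + 1) ^ (J - 1) := by
  classical
  -- a variable that separates the two monomials
  obtain ⟨j, S, T, hjS, hjT, hcS, hcT⟩ : ∃ (j : Fin J) (S T : Finset (Fin J)), j ∉ S ∧ j ∈ T ∧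
      c S ≠ 0 ∧ c T ≠ 0 := by
    by_contra hcon
    push Not at hcon
    apply hS
    ext i
    constructor
    · intro hi
      by_contra hn
      exact h₁ (hcon i S₂ S₁ hn hi h₂)
    · intro hi
      by_contra hn
      exact h₂ (hcon i S₁ S₂ hn hi h₁)
  have hJ : 0 < J := lt_of_le_of_lt (Nat.zero_le _) j.isLt
  have hA0 : cA j c ≠ 0 := by
    intro h
    have := congrFun h S
    simp only [cA, hjS, if_false, Pi.zero_apply] at this
    exact hcS this
  have hB0 : cB j c ≠ 0 := by
    intro h
    have := congrFun h (T.erase j)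
    simp only [cB, notMem_erase, if_false, Pi.zero_apply, insert_erase hjT] at this
    exact hcT this
  have hAm : ∀ S, m < S.card → cA j c S = 0 := by
    intro S hS
    unfold cA
    split_ifs
    · rfl
    · exact hm S hS
  have hBm : ∀ S, m < S.card → cB j c S = 0 := by
    intro S hS
    unfold cB
    split_ifs with h
    · rfl
    · apply hm
      rw [card_insert_of_notMem h]; omega
  have hT : ∀ i, (univ.filter (fun x : F => x ^ (q + 1) = η i)).card = q + 1 :=
    fun i => card_fibre hF (hη i)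
  have z1 := sz hA0 hAm _ (by omega : 0 < q + 1) hT hJ
  have z2 := sz hB0 hBm _ (by omega : 0 < q + 1) hT hJ
  have z3 := fibre_bound hF hη j c D
  have hsub : (coset q η).filter (fun a => (ev c a) ^ (q + 1) ∈ D) ⊆
      ((coset q η).filter (fun a => ev (cA j c) a = 0) ∪
        (coset q η).filter (fun a => ev (cB j c) a = 0)) ∪
      (coset q η).filter (fun a => ev (cA j c) a ≠ 0 ∧ ev (cB j c) a ≠ 0 ∧
        (ev c a) ^ (q + 1) ∈ D) := by
    intro a ha
    obtain ⟨h1, h2⟩ := mem_filter.1 ha
    simp only [mem_union, mem_filter]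
    by_cases e1 : ev (cA j c) a = 0
    · exact Or.inl (Or.inl ⟨h1, e1⟩)
    · by_cases e2 : ev (cB j c) a = 0
      · exact Or.inl (Or.inr ⟨h1, e2⟩)
      · exact Or.inr ⟨h1, e1, e2, h2⟩
  calc _ ≤ _ := card_le_card hsub
    _ ≤ (m * (q + 1) ^ (J - 1) + m * (q + 1) ^ (J - 1)) + 2 * D.card * (q + 1) ^ (J - 1) := by
      refine (card_union_le _ _).trans (Nat.add_le_add ((card_union_le _ _).trans ?_) z3)
      exact Nat.add_le_add z1 z2
    _ = (2 * D.card + 2 * m) * (q + 1) ^ (J - 1) := by ring

/-- **(T3)** a monomial word `x * a^S` -/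
def mono (x : F) (S : Finset (Fin J)) : Finset (Fin J) → F := fun T => if T = S then x else 0

theorem ev_mono (x : F) (S : Finset (Fin J)) (a : Fin J → F) : ev (mono x S) a = x * ∏ i ∈ S, a i := by
  unfold ev mono
  rw [Finset.sum_eq_single S]
  · simp
  · intro T _ hT; simp [hT]
  · intro h; exact absurd (mem_univ _) h

theorem mono_norm (x : F) (S : Finset (Fin J)) (a : Fin J → F) :
    (ev (mono x S) a) ^ (q + 1) = x ^ (q + 1) * ∏ i ∈ S, a i ^ (q + 1) := by
  rw [ev_mono, mul_pow, Finset.prod_pow]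

/-- `K = {x | N x ^ k = 1}` -/
def KK (F : Type*) [Field F] [Fintype F] [DecidableEq F] (q k : ℕ) : Finset F :=
  univ.filter (fun x : F => (x ^ (q + 1)) ^ k = 1)

theorem mem_KK {k : ℕ} {x : F} : x ∈ KK F q k ↔ (x ^ (q + 1)) ^ k = 1 := by
  simp [KK]

theorem mono_KK {k : ℕ} (x : F) (S : Finset (Fin J)) {a : Fin J → F} (ha : ∀ i, a i ∈ KK F q k) :
    ev (mono x S) a ∈ KK F q k ↔ x ∈ KK F q k := by
  rw [mem_KK, mem_KK, mono_norm, mul_pow, ← Finset.prod_pow]
  have : ∏ i ∈ S, (a i ^ (q + 1)) ^ k = 1 := Finset.prod_eq_one fun i _ => mem_KK.1 (ha i)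
  rw [this, mul_one]

/-- the non-monomial words meet `K` on at most a fraction `(2k + 2m)/(q+1)` of `K^J` -/
theorem isolation_KK (hF : Fintype.card F = q ^ 2) {k : ℕ} (hk : 0 < k) (hkq : k ∣ q - 1)
    (c : Finset (Fin J) → F) {m : ℕ} (hm : ∀ S, m < S.card → c S = 0)
    {S₁ S₂ : Finset (Fin J)} (hS : S₁ ≠ S₂) (h₁ : c S₁ ≠ 0) (h₂ : c S₂ ≠ 0) :
    (q + 1) * ((Fintype.piFinset (fun _ : Fin J => KK F q k)).filter (fun a => ev c a ∈ KK F q k)).card ≤
      (2 * k + 2 * m) * (Fintype.piFinset (fun _ : Fin J => KK F q k)).card := by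
  classical
  set mu : Finset F := univ.filter (fun x : F => x ^ k = 1) with hmu
  have hmuc : mu.card ≤ k := card_pow_eq_le k hk 1
  have hη : ∀ y ∈ mu, y ^ (q - 1) = 1 := by
    intro y hy
    obtain ⟨t, ht⟩ := hkq
    rw [ht, pow_mul, (mem_filter.1 hy).2, one_pow]
  -- decompose by the norms
  have hJ : 0 < J := by
    rcases Nat.eq_zero_or_pos J with h | h
    · exfalso
      subst h
      apply hS
      ext i
      exact i.elim0
    · exact h
  have dec : ∀ P : (Fin J → F) → Prop, ∀ [DecidablePred P],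
      ((Fintype.piFinset (fun _ : Fin J => KK F q k)).filter P).card =
      ∑ η ∈ Fintype.piFinset (fun _ : Fin J => mu), ((coset q η).filter P).card := by
    intro P _
    rw [Finset.card_eq_sum_card_fiberwise (f := fun a : Fin J → F => fun j => a j ^ (q + 1))
      (t := Fintype.piFinset (fun _ : Fin J => mu))]
    · refine sum_congr rfl fun η hη' => ?_
      congr 1
      ext a
      simp only [mem_filter, mem_coset, Fintype.mem_piFinset, mem_KK]
      constructor
      · rintro ⟨⟨h1, h2⟩, h3⟩
        exact ⟨fun j => congrFun h3 j, h2⟩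
      · rintro ⟨h1, h2⟩
        refine ⟨⟨fun j => ?_, h2⟩, funext h1⟩
        rw [h1 j]
        exact (mem_filter.1 (Fintype.mem_piFinset.1 hη' j)).2
    · intro a ha
      have ha' := (mem_filter.1 ha).1
      rw [Finset.mem_coe, Fintype.mem_piFinset]
      intro j
      have := Fintype.mem_piFinset.1 ha' j
      rw [mem_KK] at this
      simp [hmu, this]
  have hall := dec (fun _ => True)
  simp only [filter_true] at hall
  rw [dec, hall, mul_sum, mul_sum]
  refine sum_le_sum fun η hη' => ?_
  have hη1 : ∀ j, η j ^ (q - 1) = 1 := fun j => hη _ (Fintype.mem_piFinset.1 hη' j)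
  rw [card_coset hF hη1]
  have h := isolation hF hη1 c hm hS h₁ h₂ mu
  have h' : ((coset q η).filter (fun a => ev c a ∈ KK F q k)).card ≤
      ((coset q η).filter (fun a => (ev c a) ^ (q + 1) ∈ mu)).card := by
    refine card_le_card fun a ha => ?_
    rw [mem_filter] at ha ⊢
    refine ⟨ha.1, ?_⟩
    rw [hmu, mem_filter]
    exact ⟨mem_univ _, mem_KK.1 ha.2⟩
  have e : (q + 1) ^ J = (q + 1) * (q + 1) ^ (J - 1) := by
    rw [← pow_succ']; congr 1; omega
  rw [e]
  calc (q + 1) * ((coset q η).filter (fun a => ev c a ∈ KK F q k)).card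
      ≤ (q + 1) * ((2 * mu.card + 2 * m) * (q + 1) ^ (J - 1)) := Nat.mul_le_mul_left _ (h'.trans h)
    _ ≤ (q + 1) * ((2 * k + 2 * m) * (q + 1) ^ (J - 1)) := by gcongr
    _ = (2 * k + 2 * m) * ((q + 1) * (q + 1) ^ (J - 1)) := by ring

end iso

/-! ## richness (second moment) -/

section rich

theorem fib_eq {Y A : Type*} [Fintype Y] [Fintype A] [DecidableEq A] (f : Y → A)
    (h : ∀ a b, ∃ e : Equiv.Perm Y, ∀ y, f y = a → f (e y) = b) (a : A) :
    (univ.filter (fun y => f y = a)).card * Fintype.card A = Fintype.card Y := by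
  classical
  have hle : ∀ a b, (univ.filter (fun y => f y = a)).card ≤ (univ.filter (fun y => f y = b)).card := by
    intro a b
    obtain ⟨e, he⟩ := h a b
    refine Finset.card_le_card_of_injOn (fun y => e y) ?_ (fun x _ y _ hxy => e.injective hxy)
    intro y hy
    simp only [coe_filter, mem_univ, true_and, Set.mem_ofPred_eq] at hy ⊢
    exact he y hy
  have hsum := Finset.card_eq_sum_card_fiberwise (f := f) (s := (univ : Finset Y))
    (t := (univ : Finset A)) (fun _ _ => mem_univ _)
  rw [card_univ] at hsum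
  rw [hsum, Finset.sum_congr rfl fun b _ => le_antisymm (hle b a) (hle a b), sum_const, card_univ,
    smul_eq_mul, mul_comm]

variable {G : Type*} [CommGroup G] [Fintype G] [DecidableEq G] {J : ℕ}

/-- multiply the coordinate `j` by `t` -/
def shift (j : Fin J) (t : G) : Equiv.Perm (Fin J → G) where
  toFun y := Function.update y j (t * y j)
  invFun y := Function.update y j (t⁻¹ * y j)
  left_inv y := by
    funext i
    by_cases h : i = j
    · subst h; simp
    · simp [h]
  right_inv y := by
    funext i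
    by_cases h : i = j
    · subst h; simp
    · simp [h]

theorem prod_shift_mem {j : Fin J} {S : Finset (Fin J)} (hj : j ∈ S) (t : G) (y : Fin J → G) :
    ∏ i ∈ S, shift j t y i = t * ∏ i ∈ S, y i := by
  rw [← Finset.mul_prod_erase S _ hj, ← Finset.mul_prod_erase S (fun i => y i) hj]
  have h1 : shift j t y j = t * y j := by simp [shift]
  have h2 : ∏ i ∈ S.erase j, shift j t y i = ∏ i ∈ S.erase j, y i := by
    refine prod_congr rfl fun i hi => ?_
    simp [shift, ne_of_mem_erase hi]
  rw [h1, h2, mul_assoc]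

theorem prod_shift_not {j : Fin J} {S : Finset (Fin J)} (hj : j ∉ S) (t : G) (y : Fin J → G) :
    ∏ i ∈ S, shift j t y i = ∏ i ∈ S, y i := by
  refine prod_congr rfl fun i hi => ?_
  have : i ≠ j := by rintro rfl; exact hj hi
  simp [shift, this]

theorem one_count {S : Finset (Fin J)} (hS : S.Nonempty) (g : G) :
    (univ.filter (fun y : Fin J → G => ∏ i ∈ S, y i = g)).card * Fintype.card G =
      Fintype.card G ^ J := by
  obtain ⟨j, hj⟩ := hS
  have h := fib_eq (fun y : Fin J → G => ∏ i ∈ S, y i) (fun a b => ⟨shift j (b * a⁻¹), fun y hy => by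
    have hy' : ∏ i ∈ S, y i = a := hy
    show ∏ i ∈ S, shift j (b * a⁻¹) y i = b
    rw [prod_shift_mem hj, hy']; group⟩) g
  rw [h]; simp

theorem two_count {S T : Finset (Fin J)} {j l : Fin J} (hj : j ∈ S) (hj' : j ∉ T) (hl : l ∈ T)
    (hl' : l ∉ S) (g h : G) :
    (univ.filter (fun y : Fin J → G => ∏ i ∈ S, y i = g ∧ ∏ i ∈ T, y i = h)).card *
      Fintype.card G ^ 2 = Fintype.card G ^ J := by
  have h := fib_eq (fun y : Fin J → G => ((∏ i ∈ S, y i, ∏ i ∈ T, y i) : G × G))
    (fun a b => ⟨(shift j (b.1 * a.1⁻¹)).trans (shift l (b.2 * a.2⁻¹)), fun y hy => by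
      have h1 : ∏ i ∈ S, y i = a.1 := congrArg Prod.fst hy
      have h2 : ∏ i ∈ T, y i = a.2 := congrArg Prod.snd hy
      apply Prod.ext
      · show ∏ i ∈ S, shift l (b.2 * a.2⁻¹) (shift j (b.1 * a.1⁻¹) y) i = b.1
        rw [prod_shift_not hl', prod_shift_mem hj, h1]; group
      · show ∏ i ∈ T, shift l (b.2 * a.2⁻¹) (shift j (b.1 * a.1⁻¹) y) i = b.2
        rw [prod_shift_mem hl, prod_shift_not hj', h2]; group⟩) (g, h)
  rw [Fintype.card_prod] at h
  simp only [Prod.mk.injEq] at h
  rw [pow_two, h]; simp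

/-- number of representations of `g` as a product of exactly `r` coordinates -/
def X (r : ℕ) (g : G) (y : Fin J → G) : ℕ :=
  ((powersetCard r (univ : Finset (Fin J))).filter (fun S => ∏ i ∈ S, y i = g)).card

/-- second moment -/
theorem bad_one (r : ℕ) (hr : 0 < r) (g : G) :
    (J.choose r) * (univ.filter (fun y : Fin J → G => X r g y = 0)).card ≤
      Fintype.card G * Fintype.card G ^ J := by
  classical
  obtain ⟨n, hn⟩ : ∃ n : ℤ, n = (J.choose r : ℤ) := ⟨_, rfl⟩
  obtain ⟨κ, hκ⟩ : ∃ κ : ℤ, κ = (Fintype.card G : ℤ) := ⟨_, rfl⟩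
  set P := powersetCard r (univ : Finset (Fin J)) with hP
  have hPc : (P.card : ℤ) = n := by rw [hP, card_powersetCard, card_univ, Fintype.card_fin, hn]
  have hκ0 : 0 < κ := by rw [hκ]; exact_mod_cast Fintype.card_pos
  have hXsum : ∀ y : Fin J → G, (X r g y : ℤ) = ∑ S ∈ P, if ∏ i ∈ S, y i = g then 1 else 0 := by
    intro y
    unfold X
    rw [card_filter]; push_cast; rfl
  -- first moment
  have m1 : κ * ∑ y : Fin J → G, (X r g y : ℤ) = n * κ ^ J := by
    simp only [hXsum]
    rw [sum_comm, mul_sum]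
    rw [Finset.sum_congr rfl (g := fun _ => κ ^ J)]
    · rw [sum_const, nsmul_eq_mul, hPc]
    · intro S hS
      have hne : S.Nonempty := by
        rw [← card_pos, (mem_powersetCard.1 hS).2]; exact hr
      have := one_count hne g (G := G)
      rw [Finset.sum_boole, mul_comm, hκ]
      exact_mod_cast this
  -- second moment
  have m2 : κ ^ 2 * ∑ y : Fin J → G, (X r g y : ℤ) ^ 2 = (n * κ + n * (n - 1)) * κ ^ J := by
    have e1 : ∀ y : Fin J → G, (X r g y : ℤ) ^ 2 = ∑ S ∈ P, ∑ T ∈ P,
        if ∏ i ∈ S, y i = g ∧ ∏ i ∈ T, y i = g then 1 else 0 := by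
      intro y
      rw [pow_two, hXsum, sum_mul_sum]
      refine sum_congr rfl fun S _ => sum_congr rfl fun T _ => ?_
      by_cases a : ∏ i ∈ S, y i = g <;> by_cases b : ∏ i ∈ T, y i = g <;> simp [a, b]
    simp only [e1]
    rw [sum_comm, mul_sum]
    have e2 : ∀ S ∈ P, κ ^ 2 * ∑ y : Fin J → G, ∑ T ∈ P,
        (if ∏ i ∈ S, y i = g ∧ ∏ i ∈ T, y i = g then (1 : ℤ) else 0) =
        (κ + (n - 1)) * κ ^ J := by
      intro S hS
      rw [sum_comm, mul_sum, ← Finset.add_sum_erase P _ hS]
      have hne : S.Nonempty := by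
        rw [← card_pos, (mem_powersetCard.1 hS).2]; exact hr
      have d1 : κ ^ 2 * ∑ y : Fin J → G,
          (if ∏ i ∈ S, y i = g ∧ ∏ i ∈ S, y i = g then (1 : ℤ) else 0) = κ * κ ^ J := by
        simp only [and_self]
        have := one_count hne g (G := G)
        rw [Finset.sum_boole]
        have h' : (((univ.filter (fun y : Fin J → G => ∏ i ∈ S, y i = g)).card : ℕ) : ℤ) * κ =
            κ ^ J := by rw [hκ]; exact_mod_cast this
        rw [← h']; ring
      have d2 : ∀ T ∈ P.erase S, κ ^ 2 * ∑ y : Fin J → G,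
          (if ∏ i ∈ S, y i = g ∧ ∏ i ∈ T, y i = g then (1 : ℤ) else 0) = κ ^ J := by
        intro T hT
        obtain ⟨hTS, hTP⟩ := mem_erase.1 hT
        have cS := (mem_powersetCard.1 hS).2
        have cT := (mem_powersetCard.1 hTP).2
        obtain ⟨j, hj, hj'⟩ : ∃ j ∈ S, j ∉ T := by
          by_contra hcon
          push Not at hcon
          exact hTS (eq_of_subset_of_card_le hcon (by rw [cS, cT])).symm
        obtain ⟨l, hl, hl'⟩ : ∃ l ∈ T, l ∉ S := by
          by_contra hcon
          push Not at hcon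
          exact hTS (eq_of_subset_of_card_le hcon (by rw [cS, cT]))
        have := two_count hj hj' hl hl' g g (G := G)
        rw [Finset.sum_boole, mul_comm, hκ]
        exact_mod_cast this
      rw [d1, Finset.sum_congr rfl d2, sum_const, nsmul_eq_mul]
      have : ((P.erase S).card : ℤ) = n - 1 := by
        rw [card_erase_of_mem hS, ← hPc]
        have : 0 < P.card := card_pos.2 ⟨S, hS⟩
        push_cast [Nat.cast_sub (Nat.one_le_iff_ne_zero.2 this.ne')]
        ring
      rw [this]; ring
    rw [Finset.sum_congr rfl e2, sum_const, nsmul_eq_mul, hPc]; ring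
  -- variance
  have var : ∑ y : Fin J → G, (κ * (X r g y : ℤ) - n) ^ 2 = n * (κ - 1) * κ ^ J := by
    have e : ∀ y : Fin J → G, (κ * (X r g y : ℤ) - n) ^ 2 =
        κ ^ 2 * (X r g y : ℤ) ^ 2 - 2 * n * (κ * (X r g y : ℤ)) + n ^ 2 := by intro y; ring
    simp only [e]
    rw [sum_add_distrib, sum_sub_distrib, ← mul_sum, ← mul_sum, ← mul_sum, m1, m2, sum_const,
      nsmul_eq_mul]
    have : ((univ : Finset (Fin J → G)).card : ℤ) = κ ^ J := by
      rw [card_univ]; simp [hκ]
    rw [this]; ring
  have low : n ^ 2 * ((univ.filter (fun y : Fin J → G => X r g y = 0)).card : ℤ) ≤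
      ∑ y : Fin J → G, (κ * (X r g y : ℤ) - n) ^ 2 := by
    calc n ^ 2 * ((univ.filter (fun y : Fin J → G => X r g y = 0)).card : ℤ)
        = ∑ y ∈ univ.filter (fun y : Fin J → G => X r g y = 0), n ^ 2 := by
          rw [sum_const, nsmul_eq_mul, mul_comm]
      _ = ∑ y ∈ univ.filter (fun y : Fin J → G => X r g y = 0), (κ * (X r g y : ℤ) - n) ^ 2 := by
          refine sum_congr rfl fun y hy => ?_
          rw [(mem_filter.1 hy).2]; push_cast; ring
      _ ≤ _ := sum_le_sum_of_subset_of_nonneg (subset_univ _) fun y _ _ => sq_nonneg _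
  rw [var] at low
  have hn0 : 0 ≤ n := by rw [hn]; positivity
  have hfin : n * ((univ.filter (fun y : Fin J → G => X r g y = 0)).card : ℤ) ≤ κ * κ ^ J := by
    rcases hn0.eq_or_lt with h | h
    · rw [← h, zero_mul]; positivity
    · have hκJ : 0 ≤ κ ^ J := by positivity
      have : n * (n * ((univ.filter (fun y : Fin J → G => X r g y = 0)).card : ℤ)) ≤
          n * (κ * κ ^ J) := by nlinarith
      exact le_of_mul_le_mul_left this h
  rw [hn, hκ] at hfin
  exact_mod_cast hfin

/-- **(T4)** the products of exactly `r` coordinates cover `G` except for few vectors -/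
theorem bad_all (r : ℕ) (hr : 0 < r) :
    (J.choose r) * (univ.filter (fun y : Fin J → G => ∃ g, X r g y = 0)).card ≤
      Fintype.card G ^ 2 * Fintype.card G ^ J := by
  classical
  have : univ.filter (fun y : Fin J → G => ∃ g, X r g y = 0) =
      (univ : Finset G).biUnion (fun g => univ.filter (fun y : Fin J → G => X r g y = 0)) := by
    ext y; simp
  rw [this]
  calc _ ≤ (J.choose r) * ∑ g : G, (univ.filter (fun y : Fin J → G => X r g y = 0)).card :=
        Nat.mul_le_mul_left _ card_biUnion_le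
    _ = ∑ g : G, (J.choose r) * (univ.filter (fun y : Fin J → G => X r g y = 0)).card := mul_sum _ _ _
    _ ≤ ∑ g : G, Fintype.card G * Fintype.card G ^ J := sum_le_sum fun g _ => bad_one r hr g
    _ = Fintype.card G ^ 2 * Fintype.card G ^ J := by
      rw [sum_const, card_univ, smul_eq_mul]; ring

theorem X_ne {r : ℕ} {g : G} {y : Fin J → G} (h : X r g y ≠ 0) :
    ∃ S : Finset (Fin J), S.card = r ∧ ∏ i ∈ S, y i = g := by
  obtain ⟨S, hS⟩ := card_pos.1 (Nat.pos_of_ne_zero h)
  obtain ⟨h1, h2⟩ := mem_filter.1 hS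
  exact ⟨S, (mem_powersetCard.1 h1).2, h2⟩

/-- covered quotients: all pairs of values are taken by one word `c * a^S` -/
theorem rich {r : ℕ} {a b : Fin J → G} (h : ∀ g, X r g (fun i => a i / b i) ≠ 0) (g g' : G) :
    ∃ (c : G) (S : Finset (Fin J)), S.card = r ∧ c * ∏ i ∈ S, a i = g ∧ c * ∏ i ∈ S, b i = g' := by
  obtain ⟨S, hS, hp⟩ := X_ne (h (g / g'))
  rw [Finset.prod_div_distrib] at hp
  refine ⟨g' * (∏ i ∈ S, b i)⁻¹, S, hS, ?_, by group⟩
  have : ∏ i ∈ S, a i = g / g' * ∏ i ∈ S, b i := by rw [← hp, div_mul_cancel]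
  rw [this, div_eq_mul_inv]
  calc g' * (∏ i ∈ S, b i)⁻¹ * (g * g'⁻¹ * ∏ i ∈ S, b i)
      = g * (g' * g'⁻¹) * ((∏ i ∈ S, b i)⁻¹ * ∏ i ∈ S, b i) := by
        simp only [mul_comm, mul_left_comm, mul_assoc]
    _ = g := by group

/-- the number of bad pairs `(a, b)` -/
theorem bad_pairs (r : ℕ) (hr : 0 < r) :
    (J.choose r) * (univ.filter (fun p : (Fin J → G) × (Fin J → G) =>
        ∃ g, X r g (fun i => p.1 i / p.2 i) = 0)).card ≤
      Fintype.card G ^ 2 * (Fintype.card G ^ J * Fintype.card G ^ J) := by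
  classical
  let e : ((Fin J → G) × (Fin J → G)) ≃ ((Fin J → G) × (Fin J → G)) :=
    { toFun := fun p => (fun i => p.1 i / p.2 i, p.2)
      invFun := fun p => (fun i => p.1 i * p.2 i, p.2)
      left_inv := fun p => by ext i <;> simp
      right_inv := fun p => by ext i <;> simp }
  have h1 : (univ.filter (fun p : (Fin J → G) × (Fin J → G) =>
        ∃ g, X r g (fun i => p.1 i / p.2 i) = 0)).card =
      (univ.filter (fun y : Fin J → G => ∃ g, X r g y = 0) ×ˢ (univ : Finset (Fin J → G))).card := by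
    refine Finset.card_bij (fun p _ => e p) ?_ (fun p _ p' _ h => e.injective h) ?_
    · intro p hp
      rw [mem_product, mem_filter]
      exact ⟨⟨mem_univ _, (mem_filter.1 hp).2⟩, mem_univ _⟩
    · intro p hp
      refine ⟨e.symm p, ?_, e.apply_symm_apply p⟩
      rw [mem_filter]
      refine ⟨mem_univ _, ?_⟩
      have h2 : (fun i => (e.symm p).1 i / (e.symm p).2 i) = p.1 :=
        congrArg Prod.fst (e.apply_symm_apply p)
      rw [h2]
      exact (mem_filter.1 (mem_product.1 hp).1).2
  rw [h1, card_product, ← mul_assoc]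
  have h3 : (univ : Finset (Fin J → G)).card = Fintype.card G ^ J := by rw [card_univ]; simp
  rw [h3, ← mul_assoc]
  exact Nat.mul_le_mul_right _ (bad_all r hr)

end rich

end Crest.Agent.R042.Tor44
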