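import Crest.Agent.R042.Tower_767
import Crest.Agent.R042.Tor_44

/-!
Row 42, S0059: the alphabet in the form consumed by the construction (`Tower_767` + `Tor_44`).
-/

set_option autoImplicit false

namespace Crest.Agent.R042.Alph767

open Finset Tower767 Tor44

/-- a digit field `k0` of characteristic two with a small sum-free complete group `K` -/
structure Alph (k0 : Type) [Field k0] [Fintype k0] [DecidableEq k0] (K : Finset k0) (β : ℝ) :
    Prop where
  one : (1 : k0) ∈ K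
  mul : ∀ x ∈ K, ∀ y ∈ K, x * y ∈ K
  inv : ∀ x ∈ K, x⁻¹ ∈ K
  zero : (0 : k0) ∉ K
  neg : ∀ x ∈ K, -x ∈ K
  sumfree : ∀ x ∈ K, ∀ y ∈ K, x + y ∉ K
  complete : ∀ z, z ∉ K → ∃ x ∈ K, ∃ y ∈ K, x + y = z
  small : (K.card : ℝ) ≤ β * Fintype.card k0
  trans : ∀ l c : k0, l ≠ 0 → c ≠ 0 → (((K.filter fun u => l * u + c ∈ K).card : ℕ) : ℝ) ≤ β * K.card
  big : 1 ≤ β * K.card

section
variable {F : Type} [Field F] [Fintype F] [DecidableEq F]

lemma card_KK_le {q k : ℕ} (hk : 0 < k) : (KK F q k).card ≤ k * (q + 1) := by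
  have h : KK F q k ⊆ univ.filter (fun x : F => x ^ ((q + 1) * k) = 1) := by
    intro x hx
    rw [mem_KK] at hx
    rw [mem_filter]
    exact ⟨mem_univ _, by rw [pow_mul]; exact hx⟩
  refine (card_le_card h).trans ((card_pow_eq_le _ (by positivity) 1).trans ?_)
  rw [mul_comm]

lemma card_KK_ge {q k : ℕ} (hF : Fintype.card F = q ^ 2) : q + 1 ≤ (KK F q k).card := by
  rw [← card_fibre hF (η := (1 : F)) (one_pow _)]
  apply card_le_card
  intro x hx
  rw [mem_filter] at hx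
  rw [mem_KK, hx.2, one_pow]

lemma trans_KK {q k : ℕ} (hF : Fintype.card F = q ^ 2) (hk : 0 < k) (l c : F) (hl : l ≠ 0)
    (hc : c ≠ 0) : ((KK F q k).filter fun u => l * u + c ∈ KK F q k).card ≤ 2 * k ^ 2 := by
  set D : Finset F := univ.filter (fun x : F => x ^ k = 1) with hD
  have hDc : D.card ≤ k := card_pow_eq_le k hk 1
  have hsub : ((KK F q k).filter fun u => l * u + c ∈ KK F q k)
      ⊆ D.biUnion fun η => univ.filter fun x : F => x ^ (q + 1) = η ∧ (c + x * l) ^ (q + 1) ∈ D := by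
    intro u hu
    rw [mem_filter, mem_KK, mem_KK] at hu
    rw [mem_biUnion]
    refine ⟨u ^ (q + 1), ?_, ?_⟩
    · rw [hD, mem_filter]; exact ⟨mem_univ _, hu.1⟩
    · rw [mem_filter]
      refine ⟨mem_univ _, rfl, ?_⟩
      rw [hD, mem_filter]
      refine ⟨mem_univ _, ?_⟩
      have e : c + u * l = l * u + c := by ring
      rw [e]; exact hu.2
  refine (card_le_card hsub).trans (card_biUnion_le.trans ?_)
  calc ∑ η ∈ D, (univ.filter fun x : F => x ^ (q + 1) = η ∧ (c + x * l) ^ (q + 1) ∈ D).card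
      ≤ ∑ _η ∈ D, 2 * k := by
        apply sum_le_sum
        intro η hη
        have hη0 : η ≠ 0 := by
          rintro rfl
          rw [hD, mem_filter, zero_pow hk.ne'] at hη
          exact zero_ne_one hη.2
        exact (quad_count_D hF D hc hl hη0).trans (Nat.mul_le_mul_left 2 hDc)
    _ = D.card * (2 * k) := by rw [sum_const, smul_eq_mul]
    _ ≤ k * (2 * k) := Nat.mul_le_mul_right _ hDc
    _ = 2 * k ^ 2 := by ring

end

lemma le_Q (j : ℕ) : j ≤ Q j := by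
  rw [Q]
  exact (Nat.lt_pow_self (by norm_num : 1 < 4)).le.trans (Nat.lt_two_pow_self).le

/-- **the face**: every field with `Q (j+1)` elements -/
theorem alph_of (β : ℝ) (hβ : 0 < β) (hβ1 : β ≤ 1) (j : ℕ) (hj : 8 / β ^ 3 ≤ j)
    (F : Type) [Field F] [Fintype F] [DecidableEq F] (hF : Fintype.card F = Q (j + 1)) :
    Alph F (KK F (Q j ^ 2) (kk j)) β := by
  obtain ⟨hF2, _, hsf, hco⟩ := alphabet j F hF
  have hchar : CharP F 2 := charP_of_card_eq_prime_pow (f := 4 ^ (j + 1)) hF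
  have hk0 := kk_pos j
  obtain ⟨q, hq⟩ : ∃ q, q = Q j ^ 2 := ⟨_, rfl⟩
  obtain ⟨k, hk⟩ : ∃ k, k = kk j := ⟨_, rfl⟩
  rw [← hq, ← hk] at hsf hco ⊢
  rw [← hq] at hF2
  rw [← hk] at hk0
  have hk3 : k ^ 3 ≤ q := by
    rw [hk, hq, pow_two]
    exact (kk_cube j).trans (Nat.mul_le_mul_left _ (Nat.sub_le _ _))
  have hk3' : (k : ℝ) ^ 3 ≤ q := by exact_mod_cast hk3
  have hQ2 := two_le_Q j
  have hqj : (j : ℝ) ≤ q := by
    have : j ≤ q := by rw [hq]; nlinarith [le_Q j]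
    exact_mod_cast this
  have hq8 : 8 ≤ β ^ 3 * q := by
    have h3 : 8 / β ^ 3 ≤ q := hj.trans hqj
    rw [div_le_iff₀ (by positivity)] at h3
    linarith
  have hq1 : (1 : ℝ) ≤ q := by
    have : 1 ≤ q := by rw [hq]; nlinarith
    exact_mod_cast this
  have hkr : (0 : ℝ) < k := by exact_mod_cast hk0
  -- `2 k ≤ β q`
  have h2k : 2 * (k : ℝ) ≤ β * q := by
    have h1 : (2 * (k : ℝ)) ^ 3 ≤ (β * q) ^ 3 := by
      have e1 : (2 * (k : ℝ)) ^ 3 = 8 * (k : ℝ) ^ 3 := by ring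
      have e2 : (β * q) ^ 3 = (β ^ 3 * q) * (q * q) := by ring
      rw [e1, e2]
      have h3 : (8 : ℝ) * (k : ℝ) ^ 3 ≤ 8 * q := by linarith
      have h4 : (8 : ℝ) * q ≤ (β ^ 3 * q) * (q * q) := by
        have h5 : (q : ℝ) ≤ q * q := by nlinarith
        have h6 : (0 : ℝ) ≤ q := by linarith
        calc (8 : ℝ) * q ≤ (β ^ 3 * q) * q := mul_le_mul_of_nonneg_right hq8 h6
          _ ≤ (β ^ 3 * q) * (q * q) := mul_le_mul_of_nonneg_left h5 (by positivity)
      linarith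
    exact le_of_pow_le_pow_left₀ (by norm_num) (by positivity) h1
  have h2k2 : 2 * (k : ℝ) ^ 2 ≤ β * q := by
    have h1 : (2 * (k : ℝ) ^ 2) ^ 3 ≤ (β * q) ^ 3 := by
      have e1 : (2 * (k : ℝ) ^ 2) ^ 3 = 8 * ((k : ℝ) ^ 3 * (k : ℝ) ^ 3) := by ring
      have e2 : (β * q) ^ 3 = (β ^ 3 * q) * (q * q) := by ring
      rw [e1, e2]
      have h3 : (k : ℝ) ^ 3 * (k : ℝ) ^ 3 ≤ q * q := mul_le_mul hk3' hk3' (by positivity) (by linarith)
      calc (8 : ℝ) * ((k : ℝ) ^ 3 * (k : ℝ) ^ 3) ≤ (β ^ 3 * q) * ((k : ℝ) ^ 3 * (k : ℝ) ^ 3) :=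
            mul_le_mul_of_nonneg_right hq8 (by positivity)
        _ ≤ (β ^ 3 * q) * (q * q) := mul_le_mul_of_nonneg_left h3 (by positivity)
    exact le_of_pow_le_pow_left₀ (by norm_num) (by positivity) h1
  have hge : ((q : ℝ) + 1) ≤ (KK F q k).card := by exact_mod_cast card_KK_ge (k := k) hF2
  have hle : ((KK F q k).card : ℝ) ≤ k * (q + 1) := by exact_mod_cast card_KK_le (F := F) (q := q) hk0
  refine ⟨?_, ?_, ?_, ?_, ?_, ?_, ?_, ?_, ?_, ?_⟩
  · rw [mem_KK, one_pow, one_pow]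
  · intro x hx y hy
    rw [mem_KK] at *
    rw [mul_pow, mul_pow, hx, hy, mul_one]
  · intro x hx
    rw [mem_KK] at *
    rw [inv_pow, inv_pow, hx, inv_one]
  · rw [mem_KK, zero_pow (by omega), zero_pow hk0.ne']
    exact zero_ne_one
  · intro x hx
    rwa [CharTwo.neg_eq]
  · intro x hx y hy
    rw [mem_KK] at *
    exact hsf x y hx hy
  · intro z hz
    rw [mem_KK] at hz
    obtain ⟨x, y, hx, hy, hxy⟩ := hco z hz
    exact ⟨x, mem_KK.mpr hx, y, mem_KK.mpr hy, hxy⟩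
  · rw [hF2]
    push_cast
    calc ((KK F q k).card : ℝ) ≤ k * (q + 1) := hle
      _ ≤ k * (2 * q) := mul_le_mul_of_nonneg_left (by linarith) hkr.le
      _ = (2 * k) * q := by ring
      _ ≤ (β * q) * q := mul_le_mul_of_nonneg_right h2k (by linarith)
      _ = β * (q : ℝ) ^ 2 := by ring
  · intro l c hl hc
    have h1 : (((KK F q k).filter fun u => l * u + c ∈ KK F q k).card : ℝ) ≤ 2 * (k : ℝ) ^ 2 := by
      exact_mod_cast trans_KK hF2 hk0 l c hl hc
    refine h1.trans (h2k2.trans (mul_le_mul_of_nonneg_left (by linarith) hβ.le))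
  · have h1 : 1 ≤ β * q := by nlinarith [h2k, (by exact_mod_cast hk0 : (1 : ℝ) ≤ k)]
    exact h1.trans (mul_le_mul_of_nonneg_left (by linarith) hβ.le)

/-- **existence** with an explicit shape of the field size -/
theorem exists_alph (β : ℝ) (hβ : 0 < β) (hβ1 : β ≤ 1) :
    ∃ (k0 : Type) (_ : Field k0) (_ : Fintype k0) (_ : DecidableEq k0) (K : Finset k0),
      CharP k0 2 ∧ Alph k0 K β := by
  classical
  obtain ⟨j, hj⟩ := exists_nat_ge (8 / β ^ 3)
  obtain ⟨F, hf, hft, hF⟩ := exists_field (j + 1)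
  exact ⟨F, hf, hft, Classical.decEq F, _, charP_of_card_eq_prime_pow (f := 4 ^ (j + 1)) hF,
    @alph_of β hβ hβ1 j hj F hf hft (Classical.decEq F) hF⟩

end Crest.Agent.R042.Alph767
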