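import Crest.Agent.R042.SspFin_375

/-! Row 42 / S0059, plan B: assembly with pointwise densities and exceptional pairs
(variant of `SspAsm375.asm` / `SspFin375.ssp_cross`). -/

set_option autoImplicit false
set_option linter.unusedSectionVars false

namespace Crest.Agent.R042.AsmB461

open Finset SspAsm375
open scoped Classical

section dis

variable {J Y Δ : Type*} [Fintype J] [Fintype Y] [Fintype Δ]

lemma ind01 (P : Prop) [Decidable P] : (0 : ℝ) ≤ (if P then (1 : ℝ) else 0) := by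
  split_ifs
  · exact zero_le_one
  · exact le_rfl

/-- good classes: mass at least `1 / (8 |J| |Δ|)`. -/
noncomputable def gdB (dl : J → Y → Δ) (τ : J × Y → ℝ) : Finset (J × Δ) :=
  univ.filter fun c => 0 < cm dl τ c ∧
    1 / 8 ≤ cm dl τ c * (Fintype.card J * Fintype.card Δ)

variable {dl : J → Y → Δ} {τ : J × Y → ℝ}

theorem mass_gdB (h : IsP τ) : 7 / 8 ≤ ∑ c ∈ gdB dl τ, cm dl τ c := by
  have hP := isP_cm (dl := dl) h
  have hC : Nonempty (J × Δ) := by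
    by_contra hne
    rw [not_nonempty_iff] at hne
    have := hP.sum
    simp at this
  have hJ : Nonempty J := ⟨hC.some.1⟩
  have hΔ : Nonempty Δ := ⟨hC.some.2⟩
  have cJ : (0 : ℝ) < Fintype.card J := by exact_mod_cast Fintype.card_pos
  have cΔ : (0 : ℝ) < Fintype.card Δ := by exact_mod_cast Fintype.card_pos
  have h3 : (∑ c ∈ gdB dl τ, cm dl τ c) +
      ∑ c ∈ univ.filter (fun c => ¬ (0 < cm dl τ c ∧
        1 / 8 ≤ cm dl τ c * (Fintype.card J * Fintype.card Δ))), cm dl τ c = 1 := by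
    have h6 := Finset.sum_filter_add_sum_filter_not univ (fun c => 0 < cm dl τ c ∧
        1 / 8 ≤ cm dl τ c * (Fintype.card J * Fintype.card Δ)) (fun c => cm dl τ c)
    rw [hP.sum] at h6
    exact h6
  have h4 : ∑ c ∈ univ.filter (fun c => ¬ (0 < cm dl τ c ∧
        1 / 8 ≤ cm dl τ c * (Fintype.card J * Fintype.card Δ))), cm dl τ c ≤
      ∑ _c : J × Δ, (1 / 8 : ℝ) / (Fintype.card J * Fintype.card Δ) := by
    refine (Finset.sum_le_sum (g := fun _ => (1 / 8 : ℝ) / (Fintype.card J * Fintype.card Δ))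
      ?_).trans (Finset.sum_le_sum_of_subset_of_nonneg (Finset.subset_univ _)
        (fun _ _ _ => by positivity))
    intro c hc
    rw [Finset.mem_filter] at hc
    rw [le_div_iff₀ (by positivity)]
    by_contra h5
    have h5 := lt_of_not_ge h5
    refine hc.2 ⟨?_, h5.le⟩
    by_contra h6
    have h7 : cm dl τ c = 0 := le_antisymm (not_lt.1 h6) (cm_nonneg h.nonneg c)
    rw [h7] at h5
    norm_num at h5
  have h5 : ∑ _c : J × Δ, (1 / 8 : ℝ) / (Fintype.card J * Fintype.card Δ) = 1 / 8 := by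
    rw [Finset.sum_const, Finset.card_univ, Fintype.card_prod, nsmul_eq_mul]
    push_cast
    field_simp
  linarith

theorem dens_cond (h : IsP τ) (M : ℝ) (hM : 0 < M)
    (hτM : ∀ x, τ x * (Fintype.card J * Fintype.card Y) ≤ M) {c : J × Δ}
    (hc : c ∈ gdB dl τ) (y : Y) :
    cond dl τ c y * Fintype.card Y ≤ 8 * M * Fintype.card Δ := by
  unfold gdB at hc
  rw [Finset.mem_filter] at hc
  obtain ⟨-, h0, h1⟩ := hc
  have hJ : Nonempty J := ⟨c.1⟩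
  have hΔ : Nonempty Δ := ⟨c.2⟩
  have hY : Nonempty Y := ⟨y⟩
  have cJ : (0 : ℝ) < Fintype.card J := by exact_mod_cast Fintype.card_pos
  have cΔ : (0 : ℝ) < Fintype.card Δ := by exact_mod_cast Fintype.card_pos
  have cY : (0 : ℝ) < Fintype.card Y := by exact_mod_cast Fintype.card_pos
  have h2 : sub dl τ c y ≤ τ (c.1, y) := by
    unfold sub
    split_ifs
    · exact le_rfl
    · exact h.nonneg _
  have h3 := hτM (c.1, y)
  unfold SspAsm375.cond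
  rw [div_mul_eq_mul_div, div_le_iff₀ h0]
  have h4 : sub dl τ c y * Fintype.card Y * Fintype.card J ≤ M := by
    have := mul_le_mul_of_nonneg_right h2 (by positivity : (0:ℝ) ≤ Fintype.card J * Fintype.card Y)
    nlinarith
  have h5 : M * 1 ≤ M * (8 * (cm dl τ c * (Fintype.card J * Fintype.card Δ))) :=
    mul_le_mul_of_nonneg_left (by linarith) hM.le
  have h6 : sub dl τ c y * Fintype.card Y * Fintype.card J ≤
      8 * M * Fintype.card Δ * cm dl τ c * Fintype.card J := by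
    nlinarith
  exact le_of_mul_le_mul_right h6 cJ

/-- law on classes with data. -/
noncomputable def ttS {Θ : Type*} (dl : J → Y → Δ) (τ : J × Y → ℝ) (S : Finset (J × Δ))
    (θ : J × Δ → Θ) (x : J × Δ × Θ) : ℝ :=
  if (x.1, x.2.1) ∈ S ∧ θ (x.1, x.2.1) = x.2.2 then
    cm dl τ (x.1, x.2.1) / ∑ c ∈ S, cm dl τ c else 0

end dis

section main

variable {J Y Δ Θ κ : Type*} [Fintype J] [Fintype Y] [Fintype Δ] [Fintype Θ]

lemma sum_ttS (dl : J → Y → Δ) (τ : J × Y → ℝ) (S : Finset (J × Δ)) (θ : J × Δ → Θ)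
    (g : J × Δ × Θ → ℝ) :
    ∑ x, ttS dl τ S θ x * g x = ∑ c ∈ S,
      cm dl τ c / (∑ c ∈ S, cm dl τ c) * g (c.1, c.2, θ c) := by
  have e1 : ∑ x, ttS dl τ S θ x * g x =
      ∑ c : J × Δ, ∑ t, ttS dl τ S θ (c.1, c.2, t) * g (c.1, c.2, t) := by
    rw [Fintype.sum_prod_type, Fintype.sum_prod_type]
    refine Finset.sum_congr rfl fun j _ => ?_
    rw [Fintype.sum_prod_type]
  rw [e1, ← Finset.sum_filter_add_sum_filter_not univ (fun c => c ∈ S)]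
  have e2 : ∑ c ∈ univ.filter (fun c => ¬ c ∈ S),
      ∑ t, ttS dl τ S θ (c.1, c.2, t) * g (c.1, c.2, t) = 0 := by
    refine Finset.sum_eq_zero fun c hc => Finset.sum_eq_zero fun t _ => ?_
    rw [Finset.mem_filter] at hc
    unfold ttS
    rw [if_neg, zero_mul]
    rintro ⟨h, _⟩
    exact hc.2 h
  have e3 : univ.filter (fun c => c ∈ S) = S := by
    ext c
    simp
  rw [e2, add_zero, e3]
  refine Finset.sum_congr rfl fun c hc => ?_
  have e4 : ∀ t, ttS dl τ S θ (c.1, c.2, t) * g (c.1, c.2, t) =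
      if θ c = t then cm dl τ c / (∑ c ∈ S, cm dl τ c) * g (c.1, c.2, t) else 0 := by
    intro t
    unfold ttS
    by_cases h : θ c = t
    · rw [if_pos ⟨hc, h⟩, if_pos h]
    · rw [if_neg, if_neg h, zero_mul]
      rintro ⟨_, h'⟩
      exact h h'
  rw [Finset.sum_congr rfl (fun t _ => e4 t), Finset.sum_ite_eq]
  simp

lemma isP_ttS (dl : J → Y → Δ) (τ : J × Y → ℝ) (h : IsP τ) (S : Finset (J × Δ)) (θ : J × Δ → Θ)
    (hB : 7 / 8 ≤ ∑ c ∈ S, cm dl τ c) : IsP (ttS dl τ S θ) := by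
  have hB0 : 0 < ∑ c ∈ S, cm dl τ c := by linarith
  refine ⟨fun x => ?_, ?_⟩
  · unfold ttS
    split_ifs
    · exact div_nonneg (cm_nonneg h.nonneg _) hB0.le
    · exact le_rfl
  · have := sum_ttS dl τ S θ (fun _ => 1)
    simp only [mul_one] at this
    rw [this, ← Finset.sum_div]
    exact div_self hB0.ne'

lemma marg_ttS (dl : J → Y → Δ) (τ : J × Y → ℝ) (h : IsP τ) (S : Finset (J × Δ)) (θ : J × Δ → Θ)
    (hB : 7 / 8 ≤ ∑ c ∈ S, cm dl τ c) (A : Finset J) (m : ℝ)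
    (hm : ∑ j ∈ A, ∑ y, τ (j, y) ≤ m) :
    ∑ j ∈ A, ∑ x : Δ × Θ, ttS dl τ S θ (j, x) ≤ 2 * m := by
  have hB0 : 0 < ∑ c ∈ S, cm dl τ c := by linarith
  have h0 : ∀ j, 0 ≤ ∑ y, τ (j, y) := fun j => Finset.sum_nonneg fun y _ => h.nonneg _
  have hm0 : 0 ≤ m := (Finset.sum_nonneg fun j _ => h0 j).trans hm
  have e1 : ∀ j, ∑ x : Δ × Θ, ttS dl τ S θ (j, x) ≤
      (∑ y, τ (j, y)) / ∑ c ∈ S, cm dl τ c := by
    intro j
    rw [Fintype.sum_prod_type, ← sum_cm_fst (dl := dl) j, Finset.sum_div]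
    refine Finset.sum_le_sum fun d _ => ?_
    have e2 : ∀ t, ttS dl τ S θ (j, d, t) ≤
        if θ (j, d) = t then cm dl τ (j, d) / (∑ c ∈ S, cm dl τ c) else 0 := by
      intro t
      unfold ttS
      by_cases ht : θ (j, d) = t
      · rw [if_pos ht]
        split_ifs
        · exact le_rfl
        · exact div_nonneg (cm_nonneg h.nonneg _) hB0.le
      · rw [if_neg ht, if_neg]
        rintro ⟨_, h'⟩
        exact ht h'
    refine (Finset.sum_le_sum fun t _ => e2 t).trans ?_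
    rw [Finset.sum_ite_eq]
    simp
  refine (Finset.sum_le_sum fun j _ => e1 j).trans ?_
  rw [← Finset.sum_div, div_le_iff₀ hB0]
  nlinarith

/-- **assembly, plan B.** `Bad j μ j'` = the law `μ` at the type pair `j` is exceptional at `j'`;
`Ok x j'` = `j'` is perpendicular to `x` and not dead for the data of `x`. -/
theorem asmB (dl : J → Y → Δ) (τ₁ τ₂ : J × Y → ℝ) (h1 : IsP τ₁) (h2 : IsP τ₂)
    (M : ℝ) (hM : 0 < M)
    (hM1 : ∀ x, τ₁ x * (Fintype.card J * Fintype.card Y) ≤ M)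
    (hM2 : ∀ x, τ₂ x * (Fintype.card J * Fintype.card Y) ≤ M)
    (M' : ℝ) (hM' : 8 * M * Fintype.card Δ ≤ M')
    -- marginals
    (A : κ → Finset J) (m : ℝ)
    (hm1 : ∀ k, ∑ j ∈ A k, ∑ y, τ₁ (j, y) ≤ m)
    (hm2 : ∀ k, ∑ j ∈ A k, ∑ y, τ₂ (j, y) ≤ m)
    -- support
    (Adm : J → Y → Prop)
    (hA1 : ∀ j y, τ₁ (j, y) ≠ 0 → Adm j y) (hA2 : ∀ j y, τ₂ (j, y) ≠ 0 → Adm j y)
    -- local statement
    (Conf : J × Y → J × Y → Prop)
    (Bad : J → (Y → ℝ) → J → Prop) (Ok : J × Δ × Θ → J → Prop) (e : ℝ)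
    (hG : ∀ (c : J × Δ) (μ : Y → ℝ) (p : J → ℝ), IsP μ →
      (∀ y, μ y ≠ 0 → dl c.1 y = c.2 ∧ Adm c.1 y) → (∀ y, μ y * Fintype.card Y ≤ M') →
      IsP p → (∀ k, ∑ j ∈ A k, p j ≤ m) →
      ∃ θ : Θ, ∑ j', p j' * (if Ok (c.1, c.2, θ) j' ∧ Bad c.1 μ j' then 1 else 0) ≤ e)
    (Live : J × Δ × Θ → J × Δ × Θ → Prop)
    (hLive : ∀ x x', Live x x' → Ok x x'.1 ∧ Ok x' x.1)
    (c₀ : ℝ) (hc₀ : 0 ≤ c₀)
    (hLoc : ∀ (c : J × Δ) (μ : Y → ℝ) (θ : Θ) (c' : J × Δ) (μ' : Y → ℝ) (θ' : Θ),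
      IsP μ → (∀ y, μ y ≠ 0 → dl c.1 y = c.2 ∧ Adm c.1 y) → (∀ y, μ y * Fintype.card Y ≤ M') →
      IsP μ' → (∀ y, μ' y ≠ 0 → dl c'.1 y = c'.2 ∧ Adm c'.1 y) →
      (∀ y, μ' y * Fintype.card Y ≤ M') →
      Live (c.1, c.2, θ) (c'.1, c'.2, θ') → ¬ Bad c.1 μ c'.1 → ¬ Bad c'.1 μ' c.1 →
      c₀ ≤ ∑ y, ∑ y', μ y * μ' y' * (if Conf (c.1, y) (c'.1, y') then 1 else 0))
    -- type level statement
    (M₀ : ℝ)
    (hT : ∀ t₁ t₂ : J × Δ × Θ → ℝ, IsP t₁ → IsP t₂ →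
      (∀ k, ∑ j ∈ A k, ∑ x : Δ × Θ, t₁ (j, x) ≤ 2 * m) →
      (∀ k, ∑ j ∈ A k, ∑ x : Δ × Θ, t₂ (j, x) ≤ 2 * m) →
      M₀ ≤ ∑ x, ∑ x', t₁ x * t₂ x' * (if Live x x' then 1 else 0)) :
    (49 / 64 * M₀ - 2 * e) * c₀ ≤
      ∑ x, ∑ x', τ₁ x * τ₂ x' * (if Conf x x' then 1 else 0) := by
  have hB1 := mass_gdB (dl := dl) h1
  have hB2 := mass_gdB (dl := dl) h2
  -- data
  have supp : ∀ (τ : J × Y → ℝ), (∀ j y, τ (j, y) ≠ 0 → Adm j y) → ∀ c y,
      cond dl τ c y ≠ 0 → dl c.1 y = c.2 ∧ Adm c.1 y := by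
    intro τ hA c y hy
    have h3 : sub dl τ c y ≠ 0 := by
      intro h4
      apply hy
      unfold SspAsm375.cond
      rw [h4, zero_div]
    unfold sub at h3
    split_ifs at h3 with h4
    · exact ⟨h4, hA _ _ h3⟩
    · exact absurd rfl h3
  have pos' : ∀ (τ : J × Y → ℝ), ∀ c ∈ gdB dl τ, 0 < cm dl τ c := by
    intro τ c hc
    unfold gdB at hc
    rw [Finset.mem_filter] at hc
    exact hc.2.1
  have data : ∀ (τ τ' : J × Y → ℝ), IsP τ → IsP τ' →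
      (∀ x, τ x * (Fintype.card J * Fintype.card Y) ≤ M) →
      (∀ j y, τ (j, y) ≠ 0 → Adm j y) →
      (∀ k, ∑ j ∈ A k, ∑ y, τ' (j, y) ≤ m) →
      7 / 8 ≤ ∑ c ∈ gdB dl τ, cm dl τ c →
      ∃ θ : J × Δ → Θ, ∀ c ∈ gdB dl τ, ∑ j', (∑ y, τ' (j', y)) *
        (if Ok (c.1, c.2, θ c) j' ∧ Bad c.1 (cond dl τ c) j' then 1 else 0) ≤ e := by
    intro τ τ' hτ hτ' hMτ hA hm hB
    have h5 : ∀ c ∈ gdB dl τ, ∃ θ, ∑ j', (∑ y, τ' (j', y)) *
        (if Ok (c.1, c.2, θ) j' ∧ Bad c.1 (cond dl τ c) j' then 1 else 0) ≤ e := by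
      intro c hc
      refine hG c _ (fun j => ∑ y, τ' (j, y)) (isP_cond hτ (pos' τ c hc)) (supp τ hA c)
        (fun y => (dens_cond hτ M hM hMτ hc y).trans hM') ⟨fun j => ?_, ?_⟩ hm
      · exact Finset.sum_nonneg fun y _ => hτ'.nonneg _
      · rw [← Fintype.sum_prod_type]
        exact hτ'.sum
    have hne : (gdB dl τ).Nonempty := by
      rw [Finset.nonempty_iff_ne_empty]
      intro h0
      rw [h0] at hB
      norm_num at hB
    obtain ⟨c0, hc0⟩ := hne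
    obtain ⟨θ0, -⟩ := h5 c0 hc0
    refine ⟨fun c => if hc : c ∈ gdB dl τ then (h5 c hc).choose else θ0, fun c hc => ?_⟩
    simp only [dif_pos hc]
    exact (h5 c hc).choose_spec
  obtain ⟨θ₁, hθ1⟩ := data τ₁ τ₂ h1 h2 hM1 hA1 hm2 hB1
  obtain ⟨θ₂, hθ2⟩ := data τ₂ τ₁ h2 h1 hM2 hA2 hm1 hB2
  set S1 := gdB dl τ₁ with hS1def
  set S2 := gdB dl τ₂ with hS2def
  set B1 := ∑ c ∈ S1, cm dl τ₁ c with hB1def
  set B2 := ∑ c ∈ S2, cm dl τ₂ c with hB2def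
  have hB10 : 0 < B1 := by linarith
  have hB20 : 0 < B2 := by linarith
  have hB1le : B1 ≤ 1 := by
    rw [← (isP_cm (dl := dl) h1).sum]
    exact Finset.sum_le_sum_of_subset_of_nonneg (Finset.subset_univ _)
      (fun c _ _ => cm_nonneg h1.nonneg c)
  have hB2le : B2 ≤ 1 := by
    rw [← (isP_cm (dl := dl) h2).sum]
    exact Finset.sum_le_sum_of_subset_of_nonneg (Finset.subset_univ _)
      (fun c _ _ => cm_nonneg h2.nonneg c)
  have hTT := hT (ttS dl τ₁ S1 θ₁) (ttS dl τ₂ S2 θ₂) (isP_ttS dl τ₁ h1 S1 θ₁ hB1)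
    (isP_ttS dl τ₂ h2 S2 θ₂ hB2) (fun k => marg_ttS dl τ₁ h1 S1 θ₁ hB1 _ m (hm1 k))
    (fun k => marg_ttS dl τ₂ h2 S2 θ₂ hB2 _ m (hm2 k))
  -- rewrite the live mass
  have e1 : ∑ x, ∑ x', ttS dl τ₁ S1 θ₁ x * ttS dl τ₂ S2 θ₂ x' * (if Live x x' then 1 else 0) =
      (1 / (B1 * B2)) * ∑ c ∈ S1, ∑ c' ∈ S2, cm dl τ₁ c * cm dl τ₂ c' *
        (if Live (c.1, c.2, θ₁ c) (c'.1, c'.2, θ₂ c') then 1 else 0) := by
    have e2 : ∀ x, ∑ x', ttS dl τ₁ S1 θ₁ x * ttS dl τ₂ S2 θ₂ x' *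
          (if Live x x' then (1 : ℝ) else 0) =
        ttS dl τ₁ S1 θ₁ x * ∑ c' ∈ S2, cm dl τ₂ c' / B2 *
          (if Live x (c'.1, c'.2, θ₂ c') then 1 else 0) := by
      intro x
      rw [hB2def, ← sum_ttS dl τ₂ S2 θ₂ (fun x' => if Live x x' then (1 : ℝ) else 0),
        Finset.mul_sum]
      exact Finset.sum_congr rfl fun x' _ => by ring
    rw [Finset.sum_congr rfl (fun x _ => e2 x), sum_ttS dl τ₁ S1 θ₁, ← hB1def, Finset.mul_sum]
    refine Finset.sum_congr rfl fun c _ => ?_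
    rw [Finset.mul_sum, Finset.mul_sum]
    refine Finset.sum_congr rfl fun c' _ => ?_
    field_simp
  set S := ∑ c ∈ S1, ∑ c' ∈ S2, cm dl τ₁ c * cm dl τ₂ c' *
        (if Live (c.1, c.2, θ₁ c) (c'.1, c'.2, θ₂ c') then (1 : ℝ) else 0) with hS
  have hnn : ∀ c c', 0 ≤ cm dl τ₁ c * cm dl τ₂ c' := fun c c' =>
    mul_nonneg (cm_nonneg h1.nonneg _) (cm_nonneg h2.nonneg _)
  have hS0 : 0 ≤ S := by
    refine Finset.sum_nonneg fun c _ => Finset.sum_nonneg fun c' _ => ?_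
    refine mul_nonneg (hnn _ _) ?_
    split_ifs
    · exact zero_le_one
    · exact le_rfl
  rw [e1] at hTT
  have hS1' : 49 / 64 * M₀ ≤ S := by
    have hBB : 49 / 64 ≤ B1 * B2 := by nlinarith
    have h6 : M₀ * (B1 * B2) ≤ S := by
      have h7 : 1 / (B1 * B2) * S = S / (B1 * B2) := by ring
      rw [h7, le_div_iff₀ (by positivity)] at hTT
      exact hTT
    rcases le_or_gt M₀ 0 with h8 | h8
    · nlinarith
    · nlinarith
  -- exceptional masses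
  have marg2 : ∀ (τ : J × Y → ℝ), IsP τ → ∀ (T : Finset (J × Δ)) (g : J → ℝ), (∀ j, 0 ≤ g j) →
      ∑ c ∈ T, cm dl τ c * g c.1 ≤ ∑ j, (∑ y, τ (j, y)) * g j := by
    intro τ hτ T g hg
    refine (Finset.sum_le_sum_of_subset_of_nonneg (Finset.subset_univ T)
      (fun c _ _ => mul_nonneg (cm_nonneg hτ.nonneg _) (hg _))).trans (le_of_eq ?_)
    rw [Fintype.sum_prod_type]
    refine Finset.sum_congr rfl fun j _ => ?_
    rw [← sum_cm_fst (dl := dl) j, Finset.sum_mul]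
  set X1 := ∑ c ∈ S1, ∑ c' ∈ S2, cm dl τ₁ c * cm dl τ₂ c' *
        (if Ok (c.1, c.2, θ₁ c) c'.1 ∧ Bad c.1 (cond dl τ₁ c) c'.1 then (1 : ℝ) else 0) with hX1
  set X2 := ∑ c ∈ S1, ∑ c' ∈ S2, cm dl τ₁ c * cm dl τ₂ c' *
        (if Ok (c'.1, c'.2, θ₂ c') c.1 ∧ Bad c'.1 (cond dl τ₂ c') c.1 then (1 : ℝ) else 0) with hX2
  have he0 : 0 ≤ e ∨ S1 = ∅ := by
    rcases Finset.eq_empty_or_nonempty S1 with h | ⟨c, hc⟩
    · exact Or.inr h
    · left
      refine le_trans ?_ (hθ1 c hc)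
      refine Finset.sum_nonneg fun j _ => mul_nonneg
        (Finset.sum_nonneg fun y _ => h2.nonneg _) (ind01 _)
  have he : 0 ≤ e := by
    rcases he0 with h | h
    · exact h
    · exfalso
      rw [h] at hB1def
      simp at hB1def
      rw [hB1def] at hB10
      exact lt_irrefl _ hB10
  have hX1e : X1 ≤ e := by
    have a1 : X1 ≤ ∑ c ∈ S1, cm dl τ₁ c * e := by
      rw [hX1]
      refine Finset.sum_le_sum fun c hc => ?_
      have a2 : ∑ c' ∈ S2, cm dl τ₁ c * cm dl τ₂ c' *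
          (if Ok (c.1, c.2, θ₁ c) c'.1 ∧ Bad c.1 (cond dl τ₁ c) c'.1 then (1 : ℝ) else 0) =
          cm dl τ₁ c * ∑ c' ∈ S2, cm dl τ₂ c' *
            (if Ok (c.1, c.2, θ₁ c) c'.1 ∧ Bad c.1 (cond dl τ₁ c) c'.1 then (1 : ℝ) else 0) := by
        rw [Finset.mul_sum]
        exact Finset.sum_congr rfl fun c' _ => by ring
      rw [a2]
      refine mul_le_mul_of_nonneg_left ?_ (cm_nonneg h1.nonneg _)
      exact (marg2 τ₂ h2 S2 (fun j => if Ok (c.1, c.2, θ₁ c) j ∧ Bad c.1 (cond dl τ₁ c) j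
        then (1 : ℝ) else 0) (fun j => ind01 _)).trans (hθ1 c hc)
    rw [← Finset.sum_mul] at a1
    nlinarith
  have hX2e : X2 ≤ e := by
    have a1 : X2 ≤ ∑ c' ∈ S2, cm dl τ₂ c' * e := by
      rw [hX2, Finset.sum_comm]
      refine Finset.sum_le_sum fun c' hc' => ?_
      have a2 : ∑ c ∈ S1, cm dl τ₁ c * cm dl τ₂ c' *
          (if Ok (c'.1, c'.2, θ₂ c') c.1 ∧ Bad c'.1 (cond dl τ₂ c') c.1 then (1 : ℝ) else 0) =
          cm dl τ₂ c' * ∑ c ∈ S1, cm dl τ₁ c *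
            (if Ok (c'.1, c'.2, θ₂ c') c.1 ∧ Bad c'.1 (cond dl τ₂ c') c.1 then (1 : ℝ) else 0) := by
        rw [Finset.mul_sum]
        exact Finset.sum_congr rfl fun c _ => by ring
      rw [a2]
      refine mul_le_mul_of_nonneg_left ?_ (cm_nonneg h2.nonneg _)
      exact (marg2 τ₁ h1 S1 (fun j => if Ok (c'.1, c'.2, θ₂ c') j ∧ Bad c'.1 (cond dl τ₂ c') j
        then (1 : ℝ) else 0) (fun j => ind01 _)).trans (hθ2 c' hc')
    rw [← Finset.sum_mul] at a1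
    nlinarith
  -- live and not exceptional
  set G : J × Δ → J × Δ → Prop := fun c c' => Live (c.1, c.2, θ₁ c) (c'.1, c'.2, θ₂ c') ∧
    ¬ Bad c.1 (cond dl τ₁ c) c'.1 ∧ ¬ Bad c'.1 (cond dl τ₂ c') c.1 with hGdef
  set S' := ∑ c ∈ S1, ∑ c' ∈ S2, cm dl τ₁ c * cm dl τ₂ c' *
        (if G c c' then (1 : ℝ) else 0) with hS'
  have hSS : S ≤ S' + X1 + X2 := by
    rw [hS, hS', hX1, hX2, ← Finset.sum_add_distrib, ← Finset.sum_add_distrib]
    refine Finset.sum_le_sum fun c hc => ?_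
    rw [← Finset.sum_add_distrib, ← Finset.sum_add_distrib]
    refine Finset.sum_le_sum fun c' hc' => ?_
    rw [← mul_add, ← mul_add]
    refine mul_le_mul_of_nonneg_left ?_ (hnn _ _)
    by_cases hL : Live (c.1, c.2, θ₁ c) (c'.1, c'.2, θ₂ c')
    · rw [if_pos hL]
      obtain ⟨o1, o2⟩ := hLive _ _ hL
      by_cases b1 : Bad c.1 (cond dl τ₁ c) c'.1
      · have : (if Ok (c.1, c.2, θ₁ c) c'.1 ∧ Bad c.1 (cond dl τ₁ c) c'.1 then (1 : ℝ) else 0) = 1 :=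
          if_pos ⟨o1, b1⟩
        rw [this]
        have i1 := ind01 (G c c')
        have i2 := ind01 (Ok (c'.1, c'.2, θ₂ c') c.1 ∧ Bad c'.1 (cond dl τ₂ c') c.1)
        linarith
      · by_cases b2 : Bad c'.1 (cond dl τ₂ c') c.1
        · have : (if Ok (c'.1, c'.2, θ₂ c') c.1 ∧ Bad c'.1 (cond dl τ₂ c') c.1
              then (1 : ℝ) else 0) = 1 := if_pos ⟨o2, b2⟩
          rw [this]
          have i1 := ind01 (G c c')
          have i2 := ind01 (Ok (c.1, c.2, θ₁ c) c'.1 ∧ Bad c.1 (cond dl τ₁ c) c'.1)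
          linarith
        · have : (if G c c' then (1 : ℝ) else 0) = 1 := if_pos ⟨hL, b1, b2⟩
          rw [this]
          have i1 := ind01 (Ok (c'.1, c'.2, θ₂ c') c.1 ∧ Bad c'.1 (cond dl τ₂ c') c.1)
          have i2 := ind01 (Ok (c.1, c.2, θ₁ c) c'.1 ∧ Bad c.1 (cond dl τ₁ c) c'.1)
          linarith
    · rw [if_neg hL]
      have i1 := ind01 (Ok (c'.1, c'.2, θ₂ c') c.1 ∧ Bad c'.1 (cond dl τ₂ c') c.1)
      have i2 := ind01 (Ok (c.1, c.2, θ₁ c) c'.1 ∧ Bad c.1 (cond dl τ₁ c) c'.1)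
      have i3 := ind01 (G c c')
      linarith
  -- lower bound of the conflict mass
  have e3 : ∑ x, ∑ x', τ₁ x * τ₂ x' * (if Conf x x' then (1 : ℝ) else 0) =
      ∑ c, ∑ c', ∑ y, ∑ y', sub dl τ₁ c y * sub dl τ₂ c' y' *
        (if Conf (c.1, y) (c'.1, y') then 1 else 0) := by
    have f1 : ∀ (τ : J × Y → ℝ) (g : J × Y → ℝ), ∑ x, τ x * g x =
        ∑ c : J × Δ, ∑ y, sub dl τ c y * g (c.1, y) := by
      intro τ g
      rw [Fintype.sum_prod_type, Fintype.sum_prod_type]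
      refine Finset.sum_congr rfl fun j _ => ?_
      rw [Finset.sum_comm]
      refine Finset.sum_congr rfl fun y _ => ?_
      change τ (j, y) * g (j, y) = ∑ x, sub dl τ (j, x) y * g (j, y)
      rw [← Finset.sum_mul, sum_sub]
    have f2 : ∀ x, ∑ x', τ₁ x * τ₂ x' * (if Conf x x' then (1 : ℝ) else 0) =
        τ₁ x * ∑ c' : J × Δ, ∑ y', sub dl τ₂ c' y' * (if Conf x (c'.1, y') then 1 else 0) := by
      intro x
      rw [← f1 τ₂ (fun x' => if Conf x x' then (1 : ℝ) else 0), Finset.mul_sum]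
      exact Finset.sum_congr rfl fun x' _ => by ring
    rw [Finset.sum_congr rfl (fun x _ => f2 x), f1 τ₁]
    refine Finset.sum_congr rfl fun c _ => ?_
    rw [Finset.sum_comm' (s := univ) (t := fun _ => univ) (t' := univ) (s' := fun _ => univ)
      (by simp)]
    refine Finset.sum_congr rfl fun y _ => ?_
    rw [Finset.mul_sum]
    refine Finset.sum_congr rfl fun c' _ => ?_
    rw [Finset.mul_sum]
    exact Finset.sum_congr rfl fun y' _ => by ring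
  rw [e3]
  have e4 : c₀ * S' ≤ ∑ c ∈ S1, ∑ c' ∈ S2, ∑ y, ∑ y',
      sub dl τ₁ c y * sub dl τ₂ c' y' * (if Conf (c.1, y) (c'.1, y') then 1 else 0) := by
    rw [hS', Finset.mul_sum]
    refine Finset.sum_le_sum fun c hc => ?_
    rw [Finset.mul_sum]
    refine Finset.sum_le_sum fun c' hc' => ?_
    have g1 : ∑ y, ∑ y', sub dl τ₁ c y * sub dl τ₂ c' y' *
        (if Conf (c.1, y) (c'.1, y') then (1 : ℝ) else 0) =
        cm dl τ₁ c * cm dl τ₂ c' * ∑ y, ∑ y', cond dl τ₁ c y * cond dl τ₂ c' y' *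
          (if Conf (c.1, y) (c'.1, y') then 1 else 0) := by
      rw [Finset.mul_sum]
      refine Finset.sum_congr rfl fun y _ => ?_
      rw [Finset.mul_sum]
      refine Finset.sum_congr rfl fun y' _ => ?_
      rw [← cm_mul_cond h1 c y, ← cm_mul_cond h2 c' y']
      ring
    rw [g1]
    have g2 := hnn c c'
    have hc1 := pos' τ₁ c hc
    have hc2 := pos' τ₂ c' hc'
    split_ifs with hL
    · have := hLoc c (cond dl τ₁ c) (θ₁ c) c' (cond dl τ₂ c') (θ₂ c') (isP_cond h1 hc1)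
        (supp τ₁ hA1 c) (fun y => (dens_cond h1 M hM hM1 hc y).trans hM') (isP_cond h2 hc2)
        (supp τ₂ hA2 c') (fun y => (dens_cond h2 M hM hM2 hc' y).trans hM')
        hL.1 hL.2.1 hL.2.2
      have := mul_le_mul_of_nonneg_left this g2
      linarith
    · have : 0 ≤ ∑ y, ∑ y', cond dl τ₁ c y * cond dl τ₂ c' y' *
          (if Conf (c.1, y) (c'.1, y') then (1 : ℝ) else 0) := by
        refine Finset.sum_nonneg fun y _ => Finset.sum_nonneg fun y' _ => ?_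
        exact mul_nonneg (mul_nonneg ((isP_cond h1 hc1).nonneg _)
          ((isP_cond h2 hc2).nonneg _)) (ind01 _)
      have := mul_nonneg g2 this
      linarith
  have e5 : ∑ c ∈ S1, ∑ c' ∈ S2, ∑ y, ∑ y',
      sub dl τ₁ c y * sub dl τ₂ c' y' * (if Conf (c.1, y) (c'.1, y') then (1 : ℝ) else 0) ≤
      ∑ c, ∑ c', ∑ y, ∑ y', sub dl τ₁ c y * sub dl τ₂ c' y' *
        (if Conf (c.1, y) (c'.1, y') then 1 else 0) := by
    have pos : ∀ c c', 0 ≤ ∑ y, ∑ y', sub dl τ₁ c y * sub dl τ₂ c' y' *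
        (if Conf (c.1, y) (c'.1, y') then (1 : ℝ) else 0) := by
      intro c c'
      refine Finset.sum_nonneg fun y _ => Finset.sum_nonneg fun y' _ => ?_
      exact mul_nonneg (mul_nonneg (sub_nonneg h1.nonneg _ _) (sub_nonneg h2.nonneg _ _)) (ind01 _)
    refine (Finset.sum_le_sum fun c _ => Finset.sum_le_sum_of_subset_of_nonneg
      (Finset.subset_univ _) (fun c' _ _ => pos c c')).trans ?_
    exact Finset.sum_le_sum_of_subset_of_nonneg (Finset.subset_univ _)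
      (fun c _ _ => Finset.sum_nonneg fun c' _ => pos c c')
  have e6 : (49 / 64 * M₀ - 2 * e) * c₀ ≤ c₀ * S' := by
    have : 49 / 64 * M₀ - 2 * e ≤ S' := by linarith
    nlinarith
  linarith

end main

section fin

open SspFin375

variable {ι 𝓕 : Type*} [Fintype ι] [Fintype 𝓕]
variable {n : ℕ} {d : ℝ} {E : ι × 𝓕 → ι × 𝓕 → Prop}

/-- **supersaturation of the cross kind, plan B.** -/
theorem ssp_crossB [Nonempty ι] [Nonempty 𝓕] (hn : 0 < n) (hd : 0 < d)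
    {Δ Θ : Type*} [Fintype Δ] [Fintype Θ]
    (dl : Jx ι → 𝓕 × 𝓕 → Δ) (w₁ w₂ : (ι × 𝓕) × (ι × 𝓕) → ℝ)
    (h1 : AdmX n d E w₁) (h2 : AdmX n d E w₂)
    (M' : ℝ) (hM' : 8 * (n / d) * Fintype.card Δ ≤ M')
    (Bad : Jx ι → (𝓕 × 𝓕 → ℝ) → Jx ι → Prop) (Ok : Jx ι × Δ × Θ → Jx ι → Prop) (e : ℝ)
    (hG : ∀ (c : Jx ι × Δ) (μ : 𝓕 × 𝓕 → ℝ) (p : Jx ι → ℝ), IsP μ →
      (∀ y, μ y ≠ 0 → dl c.1 y = c.2 ∧ ¬ E (c.1.1.1, y.1) (c.1.1.2, y.2)) →
      (∀ y, μ y * Fintype.card (𝓕 × 𝓕) ≤ M') →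
      IsP p → (∀ i, ∑ j ∈ Ai i, p j ≤ 1 / (d * Fintype.card ι)) →
      ∃ θ : Θ, ∑ j', p j' * (if Ok (c.1, c.2, θ) j' ∧ Bad c.1 μ j' then 1 else 0) ≤ e)
    (Live : Jx ι × Δ × Θ → Jx ι × Δ × Θ → Prop)
    (hLive : ∀ x x', Live x x' → Ok x x'.1 ∧ Ok x' x.1)
    (c₀ : ℝ) (hc₀ : 0 ≤ c₀)
    (hLoc : ∀ (c : Jx ι × Δ) (μ : 𝓕 × 𝓕 → ℝ) (θ : Θ) (c' : Jx ι × Δ) (μ' : 𝓕 × 𝓕 → ℝ) (θ' : Θ),
      IsP μ → (∀ y, μ y ≠ 0 → dl c.1 y = c.2 ∧ ¬ E (c.1.1.1, y.1) (c.1.1.2, y.2)) →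
      (∀ y, μ y * Fintype.card (𝓕 × 𝓕) ≤ M') →
      IsP μ' → (∀ y, μ' y ≠ 0 → dl c'.1 y = c'.2 ∧ ¬ E (c'.1.1.1, y.1) (c'.1.1.2, y.2)) →
      (∀ y, μ' y * Fintype.card (𝓕 × 𝓕) ≤ M') →
      Live (c.1, c.2, θ) (c'.1, c'.2, θ') → ¬ Bad c.1 μ c'.1 → ¬ Bad c'.1 μ' c.1 →
      c₀ ≤ ∑ y, ∑ y', μ y * μ' y' * (if Cf E (ph (c.1, y)) (ph (c'.1, y')) then 1 else 0))
    (M₀ : ℝ)
    (hT : ∀ t₁ t₂ : Jx ι × Δ × Θ → ℝ, IsP t₁ → IsP t₂ →
      (∀ i, ∑ j ∈ Ai i, ∑ x : Δ × Θ, t₁ (j, x) ≤ 2 * (1 / (d * Fintype.card ι))) →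
      (∀ i, ∑ j ∈ Ai i, ∑ x : Δ × Θ, t₂ (j, x) ≤ 2 * (1 / (d * Fintype.card ι))) →
      M₀ ≤ ∑ x, ∑ x', t₁ x * t₂ x' * (if Live x x' then 1 else 0)) :
    d * ((49 / 64 * M₀ - 2 * e) * c₀) * Fintype.card (ι × 𝓕) * (d * Fintype.card (ι × 𝓕)) ≤
      ∑ z, ∑ z', w₁ z * w₂ z' * (if Cf E z z' then 1 else 0) := by
  have hV : (0 : ℝ) < Fintype.card (ι × 𝓕) := by exact_mod_cast Fintype.card_pos
  have key := asmB dl (law d w₁) (law d w₂) (isP_law hd h1) (isP_law hd h2) (n / d)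
    (by positivity) (cap_law hd h1) (cap_law hd h2) M' hM' Ai (1 / (d * Fintype.card ι))
    (marg_law hd h1) (marg_law hd h2) (fun j y => ¬ E (j.1.1, y.1) (j.1.2, y.2))
    (fun j y h => by
      have h3 : w₁ (ph (j, y)) ≠ 0 := by
        intro h4
        apply h
        unfold law
        rw [h4, zero_div]
      exact (h1.supp _ h3).2)
    (fun j y h => by
      have h3 : w₂ (ph (j, y)) ≠ 0 := by
        intro h4
        apply h
        unfold law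
        rw [h4, zero_div]
      exact (h2.supp _ h3).2)
    (fun x x' => Cf E (ph x) (ph x')) Bad Ok e hG Live hLive c₀ hc₀ hLoc M₀ hT
  have e1 : ∑ z, ∑ z', w₁ z * w₂ z' * (if Cf E z z' then (1 : ℝ) else 0) =
      ∑ x, ∑ x', w₁ (ph x) * w₂ (ph x') * (if Cf E (ph x) (ph x') then 1 else 0) := by
    rw [sum_ph (fun z => ∑ z', w₁ z * w₂ z' * (if Cf E z z' then (1 : ℝ) else 0))]
    · refine Finset.sum_congr rfl fun x _ => ?_
      rw [sum_ph (fun z' => w₁ (ph x) * w₂ z' * (if Cf E (ph x) z' then (1 : ℝ) else 0))]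
      intro z' hz'
      refine (h2.supp z' ?_).1
      intro h0
      apply hz'
      rw [h0]
      simp
    · intro z hz
      refine (h1.supp z ?_).1
      intro h0
      apply hz
      refine Finset.sum_eq_zero fun z' _ => ?_
      rw [h0]
      simp
  have e2 : ∑ x, ∑ x', law d w₁ x * law d w₂ x' * (if Cf E (ph x) (ph x') then (1 : ℝ) else 0) =
      (∑ x, ∑ x', w₁ (ph x) * w₂ (ph x') * (if Cf E (ph x) (ph x') then (1 : ℝ) else 0)) /
        (d * Fintype.card (ι × 𝓕)) ^ 2 := by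
    rw [Finset.sum_div]
    refine Finset.sum_congr rfl fun x _ => ?_
    rw [Finset.sum_div]
    refine Finset.sum_congr rfl fun x' _ => ?_
    unfold law
    field_simp
  rw [e1]
  rw [e2, le_div_iff₀ (by positivity)] at key
  refine le_trans (le_of_eq ?_) key
  ring

end fin

end Crest.Agent.R042.AsmB461
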