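import Mathlib

/-! Row 42 base layer: connected finite vertex sets (on a fixed vertex type) and reachability inside
a finite vertex set. `Conn G S` is defeq to the third clause of `IsCliqueMinorModel`. -/

set_option autoImplicit false
set_option linter.unusedSectionVars false

namespace Crest.Agent.R042.Conn353

open Finset SimpleGraph

variable {V : Type*} [DecidableEq V] {G : SimpleGraph V} {S T : Finset V}

/-- `G[S]` is connected (in particular `S` is nonempty). -/
def Conn (G : SimpleGraph V) (S : Finset V) : Prop := (G.induce (S : Set V)).Connected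

/-- `v` can be reached from `u` by a walk whose vertices after `u` are in `S`. -/
def Reach (G : SimpleGraph V) (S : Finset V) (u v : V) : Prop :=
  Relation.ReflTransGen (fun x y => G.Adj x y ∧ y ∈ S) u v

lemma Reach.refl (u : V) : Reach G S u u := Relation.ReflTransGen.refl

lemma Reach.trans {u v w : V} (h : Reach G S u v) (h' : Reach G S v w) : Reach G S u w :=
  Relation.ReflTransGen.trans h h'

lemma Reach.step {u v w : V} (h : Reach G S u v) (ha : G.Adj v w) (hw : w ∈ S) :
    Reach G S u w := Relation.ReflTransGen.tail h ⟨ha, hw⟩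

lemma Reach.single {u v : V} (ha : G.Adj u v) (hv : v ∈ S) : Reach G S u v :=
  Relation.ReflTransGen.single ⟨ha, hv⟩

lemma Reach.mem {u v : V} (h : Reach G S u v) (hu : u ∈ S) : v ∈ S := by
  induction h with
  | refl => exact hu
  | tail _ h _ => exact h.2

lemma Reach.mono (hST : S ⊆ T) {u v : V} (h : Reach G S u v) : Reach G T u v := by
  induction h with
  | refl => exact Relation.ReflTransGen.refl
  | tail _ h2 ih => exact Relation.ReflTransGen.tail ih ⟨h2.1, hST h2.2⟩

lemma Reach.mono_graph {H : SimpleGraph V} (hGH : ∀ x y, G.Adj x y → H.Adj x y) {u v : V}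
    (h : Reach G S u v) : Reach H S u v := by
  induction h with
  | refl => exact Relation.ReflTransGen.refl
  | tail _ h2 ih => exact Relation.ReflTransGen.tail ih ⟨hGH _ _ h2.1, h2.2⟩

lemma Reach.symm {u v : V} (h : Reach G S u v) (hu : u ∈ S) : Reach G S v u := by
  induction h with
  | refl => exact Reach.refl _
  | tail h1 h2 ih =>
    refine Relation.ReflTransGen.head ⟨h2.1.symm, Reach.mem h1 hu⟩ ih

lemma Reach.iff_reachable {u v : V} (hu : u ∈ S) (hv : v ∈ S) :
    Reach G S u v ↔ (G.induce (S : Set V)).Reachable ⟨u, hu⟩ ⟨v, hv⟩ := by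
  constructor
  · intro h
    induction h with
    | refl => exact Reachable.refl _
    | tail h1 h2 ih =>
      have hb := Reach.mem h1 hu
      refine (ih hb).trans ?_
      exact Adj.reachable (by simpa using h2.1)
  · rintro ⟨p⟩
    have key : ∀ (a b : (S : Set V)) (p : (G.induce (S : Set V)).Walk a b),
        Reach G S a.1 b.1 := by
      intro a b p
      induction p with
      | nil => exact Reach.refl _
      | cons h p ih =>
        refine Relation.ReflTransGen.head ⟨by simpa using h, ?_⟩ ih
        exact Subtype.property _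
    exact key _ _ p

lemma conn_iff : Conn G S ↔ S.Nonempty ∧ ∀ u ∈ S, ∀ v ∈ S, Reach G S u v := by
  constructor
  · intro h
    have hne : S.Nonempty := by
      obtain ⟨⟨x, hx⟩⟩ := h.nonempty
      exact ⟨x, hx⟩
    exact ⟨hne, fun u hu v hv => (Reach.iff_reachable hu hv).2 (h.preconnected _ _)⟩
  · rintro ⟨⟨x, hx⟩, h⟩
    unfold Conn
    rw [connected_iff_exists_forall_reachable]
    refine ⟨⟨x, hx⟩, ?_⟩
    rintro ⟨v, hv⟩
    exact (Reach.iff_reachable hx hv).1 (h x hx v hv)

lemma conn_of_reach {u : V} (hu : u ∈ S) (h : ∀ v ∈ S, Reach G S u v) : Conn G S := by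
  rw [conn_iff]
  exact ⟨⟨u, hu⟩, fun a ha b hb => ((h a ha).symm hu).trans (h b hb)⟩

lemma Conn.nonempty (h : Conn G S) : S.Nonempty := (conn_iff.1 h).1

lemma Conn.reach (h : Conn G S) {u v : V} (hu : u ∈ S) (hv : v ∈ S) : Reach G S u v :=
  (conn_iff.1 h).2 u hu v hv

lemma conn_singleton (v : V) : Conn G {v} := by
  refine conn_of_reach (Finset.mem_singleton_self v) ?_
  intro w hw
  rw [Finset.mem_singleton] at hw
  rw [hw]
  exact Reach.refl _

lemma Conn.union (hS : Conn G S) (hT : Conn G T) {x : V} (hxS : x ∈ S) (hxT : x ∈ T) :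
    Conn G (S ∪ T) := by
  refine conn_of_reach (Finset.mem_union_left _ hxS) ?_
  intro v hv
  rcases Finset.mem_union.1 hv with h | h
  · exact (hS.reach hxS h).mono Finset.subset_union_left
  · exact (hT.reach hxT h).mono Finset.subset_union_right

lemma Conn.union_adj (hS : Conn G S) (hT : Conn G T) {x y : V} (hxS : x ∈ S) (hyT : y ∈ T)
    (h : G.Adj x y) : Conn G (S ∪ T) := by
  refine conn_of_reach (Finset.mem_union_left _ hxS) ?_
  intro v hv
  rcases Finset.mem_union.1 hv with h1 | h1
  · exact (hS.reach hxS h1).mono Finset.subset_union_left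
  · exact (Reach.single h (Finset.mem_union_right _ hyT)).trans
      ((hT.reach hyT h1).mono Finset.subset_union_right)

lemma Conn.insert_adj (hS : Conn G S) {x y : V} (hx : x ∈ S) (h : G.Adj x y) :
    Conn G (insert y S) := by
  have := hS.union_adj (conn_singleton (G := G) y) hx (Finset.mem_singleton_self y) h
  rwa [Finset.union_comm, ← Finset.insert_eq] at this

lemma Conn.mono_graph {H : SimpleGraph V} (hGH : ∀ x y, G.Adj x y → H.Adj x y)
    (h : Conn G S) : Conn H S := by
  rw [conn_iff] at h ⊢
  exact ⟨h.1, fun u hu v hv => (h.2 u hu v hv).mono_graph hGH⟩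

/-- the vertex set of a walk is connected. -/
lemma chain_conn : ∀ (l : List V), l ≠ [] → l.IsChain G.Adj → Conn G l.toFinset
  | [], h, _ => absurd rfl h
  | [a], _, _ => by
      have : ([a] : List V).toFinset = {a} := by simp
      rw [this]
      exact conn_singleton a
  | a :: b :: t, _, hc => by
      have ih := chain_conn (b :: t) (by simp) (List.IsChain.tail hc)
      rw [List.toFinset_cons]
      rw [List.isChain_cons_cons] at hc
      exact ih.insert_adj (x := b) (by simp) hc.1.symm

/-- reachability is realised by a walk (list). -/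
lemma Reach.exists_chain {u v : V} (h : Reach G S u v) :
    ∃ l : List V, (u :: l).IsChain G.Adj ∧ (∀ z ∈ l, z ∈ S) ∧ ∃ s, u :: l = s ++ [v] := by
  induction h with
  | refl => exact ⟨[], by simp, by simp, [], rfl⟩
  | tail h1 h2 ih =>
    rename_i b c
    obtain ⟨l, h3, h4, s, h5⟩ := ih
    refine ⟨l ++ [c], ?_, ?_, ⟨u :: l, rfl⟩⟩
    · rw [← List.cons_append, h5, List.append_assoc]
      simp only [List.singleton_append]
      rw [List.isChain_split, ← h5]
      exact ⟨h3, by simp [h2.1]⟩
    · intro z hz
      rcases List.mem_append.1 hz with h | h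
      · exact h4 z h
      · simp only [List.mem_cons, List.not_mem_nil, or_false] at h
        rw [h]; exact h2.2

lemma reach_of_chain : ∀ (l : List V) (u v : V), (u :: l).IsChain G.Adj → (∀ z ∈ l, z ∈ S) →
    v ∈ u :: l → Reach G S u v
  | [], u, v, _, _, hv => by
      simp only [List.mem_cons, List.not_mem_nil, or_false] at hv
      rw [hv]; exact Reach.refl _
  | c :: l, u, v, hc, hS, hv => by
      rw [List.isChain_cons_cons] at hc
      rcases List.mem_cons.1 hv with rfl | hv
      · exact Reach.refl _
      · exact (Reach.single hc.1 (hS c (by simp))).trans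
          (reach_of_chain l c v hc.2 (fun z hz => hS z (by simp [hz])) hv)

/-- a big union of connected sets, each meeting or touching a connected core. -/
lemma conn_biUnion {ι : Type*} [DecidableEq ι] (s : Finset ι) (f : ι → Finset V) (C : Finset V)
    (hC : Conn G C) (hf : ∀ i ∈ s, Conn G (f i))
    (h : ∀ i ∈ s, ∃ x ∈ C, ∃ y ∈ f i, x = y ∨ G.Adj x y) : Conn G (C ∪ s.biUnion f) := by
  obtain ⟨x0, hx0⟩ := hC.nonempty
  refine conn_of_reach (Finset.mem_union_left _ hx0) ?_
  intro v hv
  rcases Finset.mem_union.1 hv with h1 | h1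
  · exact (hC.reach hx0 h1).mono Finset.subset_union_left
  · obtain ⟨i, hi, hvi⟩ := Finset.mem_biUnion.1 h1
    have hsub : f i ⊆ C ∪ s.biUnion f :=
      (Finset.subset_biUnion_of_mem f hi).trans Finset.subset_union_right
    obtain ⟨x, hx, y, hy, hxy⟩ := h i hi
    refine ((hC.reach hx0 hx).mono Finset.subset_union_left).trans ?_
    have hyv : Reach G (C ∪ s.biUnion f) y v := ((hf i hi).reach hy hvi).mono hsub
    rcases hxy with rfl | hxy
    · exact hyv
    · exact (Reach.single hxy (hsub hy)).trans hyv

end Crest.Agent.R042.Conn353
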