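import Mathlib
import Crest.Agent.R042.Conn_353

/-! Row 42, base layer of S0058: path systems, the augmentation lemma (Göring) and Menger's theorem,
relative to a finite vertex set `W` of an arbitrary vertex type. -/

set_option autoImplicit false
set_option linter.unusedSectionVars false

namespace Crest.Agent.R042.Menger353

open Finset

variable {V : Type*} [DecidableEq V]

/-- `l` is an `A`-`B` path of `G[W]`: it meets `A` exactly in its first vertex and `B` exactly in
its last one (a one-vertex path is allowed). -/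
structure IsPath (G : SimpleGraph V) (W A B : Finset V) (l : List V) : Prop where
  sub : ∀ x ∈ l, x ∈ W
  chain : l.IsChain G.Adj
  nodup : l.Nodup
  start : ∃ a t, l = a :: t ∧ a ∈ A ∧ ∀ x ∈ t, x ∉ A
  stop : ∃ s b, l = s ++ [b] ∧ b ∈ B ∧ ∀ x ∈ s, x ∉ B

/-- a finite set of pairwise disjoint `A`-`B` paths of `G[W]`. -/
structure Linkage (G : SimpleGraph V) (W A B : Finset V) (P : Finset (List V)) : Prop where
  path : ∀ l ∈ P, IsPath G W A B l
  disj : ∀ l ∈ P, ∀ l' ∈ P, l ≠ l' → ∀ x ∈ l, x ∉ l'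

/-- `X` meets every `A`-`B` path of `G[W]`. -/
def Separates (G : SimpleGraph V) (W A B X : Finset V) : Prop :=
  ∀ l, IsPath G W A B l → ∃ x ∈ l, x ∈ X

/-- separation of `G[W]`. -/
structure Sep (G : SimpleGraph V) (W A B : Finset V) : Prop where
  union : A ∪ B = W
  nadj : ∀ a ∈ A, a ∉ B → ∀ b ∈ B, b ∉ A → ¬ G.Adj a b

/-- the set of vertices of a system of paths. -/
def verts (P : Finset (List V)) : Finset V := P.biUnion List.toFinset

variable {G : SimpleGraph V} {W A B : Finset V} {P : Finset (List V)}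

lemma mem_verts {x : V} : x ∈ verts P ↔ ∃ l ∈ P, x ∈ l := by
  simp [verts]

/-! ### list lemmas -/

lemma split_last (p : V → Prop) : ∀ (l : List V), (∃ x ∈ l, p x) →
    ∃ l1 x l2, l = l1 ++ x :: l2 ∧ p x ∧ ∀ y ∈ l2, ¬ p y
  | [], h => by simp at h
  | a :: t, h => by
      by_cases ht : ∃ x ∈ t, p x
      · obtain ⟨l1, x, l2, h1, h2, h3⟩ := split_last p t ht
        exact ⟨a :: l1, x, l2, by simp [h1], h2, h3⟩
      · push Not at ht
        obtain ⟨x, hx, hpx⟩ := h
        rcases List.mem_cons.1 hx with rfl | hx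
        · exact ⟨[], x, t, rfl, hpx, ht⟩
        · exact absurd hpx (ht x hx)

lemma split_first (p : V → Prop) : ∀ (l : List V), (∃ x ∈ l, p x) →
    ∃ l1 x l2, l = l1 ++ x :: l2 ∧ p x ∧ ∀ y ∈ l1, ¬ p y
  | [], h => by simp at h
  | a :: t, h => by
      by_cases ha : p a
      · exact ⟨[], a, t, rfl, ha, by simp⟩
      · have ht : ∃ x ∈ t, p x := by
          obtain ⟨x, hx, hpx⟩ := h
          rcases List.mem_cons.1 hx with rfl | hx
          · exact absurd hpx ha
          · exact ⟨x, hx, hpx⟩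
        obtain ⟨l1, x, l2, h1, h2, h3⟩ := split_first p t ht
        refine ⟨a :: l1, x, l2, by simp [h1], h2, ?_⟩
        intro y hy
        rcases List.mem_cons.1 hy with rfl | hy
        · exact ha
        · exact h3 y hy

lemma split_dup : ∀ (l : List V), ¬ l.Nodup →
    ∃ l1 x l2 l3, l = l1 ++ x :: (l2 ++ x :: l3)
  | [], h => by simp at h
  | a :: t, h => by
      by_cases ha : a ∈ t
      · obtain ⟨l2, l3, rfl⟩ := List.append_of_mem ha
        exact ⟨[], a, l2, l3, rfl⟩
      · have ht : ¬ t.Nodup := by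
          intro hn
          exact h (List.nodup_cons.2 ⟨ha, hn⟩)
        obtain ⟨l1, x, l2, l3, h1⟩ := split_dup t ht
        exact ⟨a :: l1, x, l2, l3, by simp [h1]⟩

/-! ### paths -/

/-- every walk from `A` to `B` contains an `A`-`B` path. -/
lemma exists_path_of_chain : ∀ (n : ℕ) (l : List V), l.length ≤ n → (∀ x ∈ l, x ∈ W) →
    l.IsChain G.Adj → (∃ a t, l = a :: t ∧ a ∈ A) → (∃ s b, l = s ++ [b] ∧ b ∈ B) →
    ∃ l', IsPath G W A B l' ∧ ∀ x ∈ l', x ∈ l := by
  intro n
  induction n with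
  | zero =>
    intro l hl _ _ hA _
    obtain ⟨a, t, rfl, _⟩ := hA
    simp at hl
  | succ n ih =>
    intro l hl hW hc hA hB
    by_cases hn : l.Nodup
    swap
    · obtain ⟨l1, x, l2, l3, rfl⟩ := split_dup l hn
      have hc' : (l1 ++ x :: l3).IsChain G.Adj := by
        rw [List.isChain_split] at hc ⊢
        refine ⟨hc.1, ?_⟩
        have := hc.2
        rw [← List.cons_append, List.isChain_split] at this
        exact this.2
      have hsub : ∀ y ∈ l1 ++ x :: l3, y ∈ l1 ++ x :: (l2 ++ x :: l3) := by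
        intro y hy
        simp only [List.mem_append, List.mem_cons] at hy ⊢
        tauto
      obtain ⟨l', h1, h2⟩ := ih (l1 ++ x :: l3) (by
          simp only [List.length_append, List.length_cons] at hl ⊢; omega)
        (fun y hy => hW y (hsub y hy)) hc' (by
          obtain ⟨a, t, hat, ha⟩ := hA
          cases l1 with
          | nil =>
            simp only [List.nil_append, List.cons.injEq] at hat
            exact ⟨x, l3, rfl, hat.1 ▸ ha⟩
          | cons c l1 =>
            simp only [List.cons_append, List.cons.injEq] at hat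
            exact ⟨c, l1 ++ x :: l3, rfl, hat.1 ▸ ha⟩) (by
          obtain ⟨s, b, hsb, hb⟩ := hB
          rcases List.eq_nil_or_concat l3 with rfl | ⟨l4, c, rfl⟩
          · have : (l1 ++ x :: l2) ++ [x] = s ++ [b] := by simpa using hsb
            obtain ⟨_, h⟩ := List.append_inj' this rfl
            simp only [List.cons.injEq, and_true] at h
            exact ⟨l1, x, rfl, h ▸ hb⟩
          · have : (l1 ++ x :: (l2 ++ x :: l4)) ++ [c] = s ++ [b] := by simpa using hsb
            obtain ⟨_, h⟩ := List.append_inj' this rfl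
            simp only [List.cons.injEq, and_true] at h
            exact ⟨l1 ++ x :: l4, c, by simp, h ▸ hb⟩)
      exact ⟨l', h1, fun y hy => hsub y (h2 y hy)⟩
    obtain ⟨a, t, hat, ha⟩ := hA
    by_cases htA : ∃ x ∈ t, x ∈ A
    · obtain ⟨l1, x, l2, h1, h2, h3⟩ := split_last (fun x => x ∈ A) t htA
      have hl' : l = (a :: l1) ++ x :: l2 := by rw [hat, h1]; rfl
      have hsub : ∀ y ∈ x :: l2, y ∈ l := by
        intro y hy; rw [hl']; exact List.mem_append_right _ hy
      obtain ⟨l', h4, h5⟩ := ih (x :: l2) (by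
          rw [hl'] at hl; simp only [List.length_append, List.length_cons] at hl ⊢; omega)
        (fun y hy => hW y (hsub y hy)) (by rw [hl', List.isChain_split] at hc; exact hc.2)
        ⟨x, l2, rfl, h2⟩ (by
          obtain ⟨s, b, hsb, hb⟩ := hB
          rcases List.eq_nil_or_concat l2 with rfl | ⟨l4, c, rfl⟩
          · have : (a :: l1) ++ [x] = s ++ [b] := by rw [← hsb, hl']
            obtain ⟨_, h⟩ := List.append_inj' this rfl
            simp only [List.cons.injEq, and_true] at h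
            exact ⟨[], x, rfl, h ▸ hb⟩
          · have : ((a :: l1) ++ x :: l4) ++ [c] = s ++ [b] := by rw [← hsb, hl']; simp
            obtain ⟨_, h⟩ := List.append_inj' this rfl
            simp only [List.cons.injEq, and_true] at h
            exact ⟨x :: l4, c, by simp, h ▸ hb⟩)
      exact ⟨l', h4, fun y hy => hsub y (h5 y hy)⟩
    push Not at htA
    obtain ⟨s, b, hsb, hb⟩ := hB
    by_cases hsB : ∃ x ∈ s, x ∈ B
    · obtain ⟨l1, x, l2, h1, h2, h3⟩ := split_first (fun x => x ∈ B) s hsB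
      have hl' : l = l1 ++ x :: (l2 ++ [b]) := by rw [hsb, h1]; simp
      have hsub : ∀ y ∈ l1 ++ [x], y ∈ l := by
        intro y hy; rw [hl']
        simp only [List.mem_append, List.mem_cons] at hy ⊢
        tauto
      obtain ⟨l', h4, h5⟩ := ih (l1 ++ [x]) (by
          rw [hl'] at hl; simp only [List.length_append, List.length_cons] at hl ⊢
          simp only [List.length_nil] at hl ⊢; omega)
        (fun y hy => hW y (hsub y hy)) (by rw [hl', List.isChain_split] at hc; exact hc.1)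
        (by
          cases l1 with
          | nil =>
            have : x :: (l2 ++ [b]) = a :: t := by rw [← hat, hl']; rfl
            simp only [List.cons.injEq] at this
            exact ⟨x, [], rfl, this.1 ▸ ha⟩
          | cons c l1 =>
            have : c :: (l1 ++ x :: (l2 ++ [b])) = a :: t := by rw [← hat, hl']; rfl
            simp only [List.cons.injEq] at this
            exact ⟨c, l1 ++ [x], rfl, this.1 ▸ ha⟩) ⟨l1, x, rfl, h2⟩
      exact ⟨l', h4, fun y hy => hsub y (h5 y hy)⟩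
    push Not at hsB
    exact ⟨l, ⟨hW, hc, hn, ⟨a, t, hat, ha, htA⟩, ⟨s, b, hsb, hb, hsB⟩⟩, fun x hx => hx⟩

lemma IsPath.ne_nil {l : List V} (h : IsPath G W A B l) : l ≠ [] := by
  obtain ⟨a, t, rfl, _⟩ := h.start
  simp

/-- an `A`-`B` path contains an initial `A`-`B'` path when `B ⊆ B'`. -/
lemma IsPath.prefix {B' : Finset V} {l : List V} (h : IsPath G W A B l) (hB : B ⊆ B') :
    ∃ l1 l2, l = l1 ++ l2 ∧ IsPath G W A B' l1 := by
  obtain ⟨s, b, hsb, hb, hs⟩ := h.stop
  have hex : ∃ x ∈ l, x ∈ B' := ⟨b, by rw [hsb]; simp, hB hb⟩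
  obtain ⟨l1, x, l2, h1, h2, h3⟩ := split_first (fun x => x ∈ B') l hex
  refine ⟨l1 ++ [x], l2, by simp [h1], ?_⟩
  refine ⟨?_, ?_, ?_, ?_, ⟨l1, x, rfl, h2, h3⟩⟩
  · intro y hy
    apply h.sub
    rw [h1]
    simp only [List.mem_append, List.mem_cons] at hy ⊢
    tauto
  · have := h.chain
    rw [h1, List.isChain_split] at this
    exact this.1
  · have := h.nodup
    rw [h1] at this
    exact this.sublist (by simp)
  · obtain ⟨a, t, hat, ha, ht⟩ := h.start
    cases l1 with
    | nil =>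
      rw [h1] at hat
      simp only [List.nil_append, List.cons.injEq] at hat
      exact ⟨x, [], rfl, hat.1 ▸ ha, by simp⟩
    | cons c l1 =>
      rw [h1] at hat
      simp only [List.cons_append, List.cons.injEq] at hat
      refine ⟨c, l1 ++ [x], rfl, hat.1 ▸ ha, ?_⟩
      intro y hy
      apply ht
      rw [← hat.2]
      simp only [List.mem_append, List.mem_cons] at hy ⊢
      tauto

/-- two decompositions of a path at its last vertex agree. -/
lemma last_unique {s s' : List V} {b b' : V} (h : s ++ [b] = s' ++ [b']) : s = s' ∧ b = b' := by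
  obtain ⟨h1, h2⟩ := List.append_inj' h rfl
  simp only [List.cons.injEq, and_true] at h2
  exact ⟨h1, h2⟩

/-- vertices of a path in `B` are its last vertex. -/
lemma IsPath.mem_B {s : List V} {b x : V} (h : IsPath G W A B (s ++ [b]))
    (hx : x ∈ s ++ [b]) (hxB : x ∈ B) : x = b := by
  obtain ⟨s', b', h1, h2, h3⟩ := h.stop
  obtain ⟨rfl, rfl⟩ := last_unique h1
  rcases List.mem_append.1 hx with hx | hx
  · exact absurd hxB (h3 x hx)
  · simpa using hx

lemma IsPath.last_mem {s : List V} {b : V} (h : IsPath G W A B (s ++ [b])) : b ∈ B := by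
  obtain ⟨s', b', h1, h2, h3⟩ := h.stop
  obtain ⟨rfl, rfl⟩ := last_unique h1
  exact h2

lemma IsPath.init_not {s : List V} {b : V} (h : IsPath G W A B (s ++ [b])) :
    ∀ x ∈ s, x ∉ B := by
  obtain ⟨s', b', h1, h2, h3⟩ := h.stop
  obtain ⟨rfl, rfl⟩ := last_unique h1
  exact h3

lemma IsPath.tail_not {a : V} {t : List V} (h : IsPath G W A B (a :: t)) :
    ∀ x ∈ t, x ∉ A := by
  obtain ⟨a', t', h1, h2, h3⟩ := h.start
  simp only [List.cons.injEq] at h1
  rw [h1.2]; exact h3

lemma IsPath.head_mem {a : V} {t : List V} (h : IsPath G W A B (a :: t)) : a ∈ A := by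
  obtain ⟨a', t', h1, h2, h3⟩ := h.start
  simp only [List.cons.injEq] at h1
  rw [h1.1]; exact h2

/-- all vertices after a given vertex of the path are outside `A`. -/
lemma IsPath.after_not {l1 l2 : List V} {x : V} (h : IsPath G W A B (l1 ++ x :: l2)) :
    ∀ y ∈ l2, y ∉ A := by
  intro y hy
  cases l1 with
  | nil => exact h.tail_not y hy
  | cons c l1 =>
    refine h.tail_not y ?_
    simp [hy]

/-- glueing a path `A`-`B'` with a tail inside `B'` ending in `B`. -/
lemma glue_path {B' : Finset V} {s r : List V} {e : V} (hB : B ⊆ B')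
    (h : IsPath G W A B' (s ++ [e])) (hc : (e :: r).IsChain G.Adj) (hn : (e :: r).Nodup)
    (hW : ∀ x ∈ r, x ∈ W) (hB' : ∀ x ∈ r, x ∈ B') (hA : ∀ x ∈ r, x ∉ A)
    (hlast : ∃ s' b, e :: r = s' ++ [b] ∧ b ∈ B ∧ ∀ x ∈ s', x ∉ B) :
    IsPath G W A B (s ++ e :: r) := by
  have hsB' : ∀ x ∈ s, x ∉ B' := h.init_not
  have heB' : e ∈ B' := h.last_mem
  refine ⟨?_, ?_, ?_, ?_, ?_⟩
  · intro x hx
    simp only [List.mem_append, List.mem_cons] at hx
    rcases hx with hx | rfl | hx
    · exact h.sub x (by simp [hx])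
    · exact h.sub x (by simp)
    · exact hW x hx
  · rw [List.isChain_split]
    exact ⟨h.chain, hc⟩
  · rw [List.nodup_append]
    refine ⟨h.nodup.sublist (by simp), hn, ?_⟩
    intro a ha b hb
    rintro rfl
    rcases List.mem_cons.1 hb with rfl | hb
    · exact hsB' _ ha heB'
    · exact hsB' _ ha (hB' _ hb)
  · obtain ⟨a, t, hat, ha, ht⟩ := h.start
    cases s with
    | nil =>
      simp only [List.nil_append, List.cons.injEq] at hat
      refine ⟨e, r, rfl, hat.1 ▸ ha, hA⟩
    | cons c s =>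
      simp only [List.cons_append, List.cons.injEq] at hat
      refine ⟨c, s ++ e :: r, rfl, hat.1 ▸ ha, ?_⟩
      intro y hy
      simp only [List.mem_append, List.mem_cons] at hy
      rcases hy with hy | rfl | hy
      · exact ht y (by rw [← hat.2]; simp [hy])
      · exact ht y (by rw [← hat.2]; simp)
      · exact hA y hy
  · obtain ⟨s', b, h1, h2, h3⟩ := hlast
    refine ⟨s ++ s', b, by rw [h1]; simp, h2, ?_⟩
    intro y hy
    rcases List.mem_append.1 hy with hy | hy
    · exact fun h => hsB' y hy (hB h)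
    · exact h3 y hy


/-- data of a final segment of a path. -/
lemma IsPath.tail_data {l1 l2 : List V} {x : V} (h : IsPath G W A B (l1 ++ x :: l2)) :
    (x :: l2).IsChain G.Adj ∧ (x :: l2).Nodup ∧ (∀ z ∈ l2, z ∈ W) ∧ (∀ z ∈ l2, z ∉ A) ∧
      ∃ s b, x :: l2 = s ++ [b] ∧ b ∈ B ∧ ∀ z ∈ s, z ∉ B := by
  refine ⟨?_, ?_, ?_, h.after_not, ?_⟩
  · have := h.chain
    rw [List.isChain_split] at this
    exact this.2
  · exact h.nodup.sublist (by simp)
  · intro z hz
    exact h.sub z (by simp [hz])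
  · rcases List.eq_nil_or_concat l2 with rfl | ⟨l3, c, rfl⟩
    · exact ⟨[], x, rfl, h.last_mem, by simp⟩
    · have h' : IsPath G W A B ((l1 ++ x :: l3) ++ [c]) := by simpa using h
      refine ⟨x :: l3, c, by simp, h'.last_mem, ?_⟩
      intro z hz
      apply h'.init_not
      simp only [List.mem_append]
      exact Or.inr hz

/-- Re-ending the paths of a linkage inside a larger target set. -/
lemma glue_linkage {B' : Finset V} {Q : Finset (List V)} (hB : B ⊆ B')
    (hQ : Linkage G W A B' Q) (f : List V → List V)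
    (hf : ∀ s e, s ++ [e] ∈ Q → (e :: f (s ++ [e])).IsChain G.Adj ∧ (e :: f (s ++ [e])).Nodup ∧
      (∀ z ∈ f (s ++ [e]), z ∈ W) ∧ (∀ z ∈ f (s ++ [e]), z ∈ B') ∧ (∀ z ∈ f (s ++ [e]), z ∉ A) ∧
      ∃ s' b, e :: f (s ++ [e]) = s' ++ [b] ∧ b ∈ B ∧ ∀ x ∈ s', x ∉ B)
    (hd : ∀ s e s' e', s ++ [e] ∈ Q → s' ++ [e'] ∈ Q → s ++ [e] ≠ s' ++ [e'] →
      ∀ z ∈ e :: f (s ++ [e]), z ∉ e' :: f (s' ++ [e'])) :
    Linkage G W A B (Q.image fun l => l ++ f l) ∧ (Q.image fun l => l ++ f l).card = Q.card := by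
  have hdisj : ∀ l ∈ Q, ∀ l' ∈ Q, l ≠ l' → ∀ x ∈ l ++ f l, x ∉ l' ++ f l' := by
    intro l hl l' hl' hne x hx hx'
    obtain ⟨s, e, hse, he, hs⟩ := (hQ.path l hl).stop
    obtain ⟨s', e', hse', he', hs'⟩ := (hQ.path l' hl').stop
    have hmem : ∀ z, z ∈ l → z ∈ B' → z = e := by
      intro z hz hz'
      have := hQ.path l hl
      rw [hse] at this hz
      exact this.mem_B hz hz'
    have hmem' : ∀ z, z ∈ l' → z ∈ B' → z = e' := by
      intro z hz hz'
      have := hQ.path l' hl'
      rw [hse'] at this hz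
      exact this.mem_B hz hz'
    have h1 := hf s e (hse ▸ hl)
    have h1' := hf s' e' (hse' ▸ hl')
    have h2 := hd s e s' e' (hse ▸ hl) (hse' ▸ hl') (by rw [← hse, ← hse']; exact hne)
    rw [← hse, ← hse'] at h2
    rw [← hse] at h1
    rw [← hse'] at h1'
    rcases List.mem_append.1 hx with hx | hx <;> rcases List.mem_append.1 hx' with hx' | hx'
    · exact hQ.disj l hl l' hl' hne x hx hx'
    · have := hmem x hx (h1'.2.2.2.1 x hx')
      subst this
      exact h2 x (by simp) (by simp [hx'])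
    · have := hmem' x hx' (h1.2.2.2.1 x hx)
      subst this
      exact h2 x (by simp [hx]) (by simp)
    · exact h2 x (by simp [hx]) (by simp [hx'])
  refine ⟨⟨?_, ?_⟩, ?_⟩
  · intro l hl
    obtain ⟨l0, hl0, rfl⟩ := Finset.mem_image.1 hl
    obtain ⟨s, e, hse, he, hs⟩ := (hQ.path l0 hl0).stop
    subst hse
    obtain ⟨h1, h2, h3, h4, h5, h6⟩ := hf s e hl0
    have := glue_path hB (hQ.path _ hl0) h1 h2 h3 h4 h5 h6
    simpa using this
  · intro l hl l' hl' hne
    obtain ⟨l0, hl0, rfl⟩ := Finset.mem_image.1 hl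
    obtain ⟨l0', hl0', rfl⟩ := Finset.mem_image.1 hl'
    exact hdisj l0 hl0 l0' hl0' (by rintro rfl; exact hne rfl)
  · apply Finset.card_image_of_injOn
    intro l hl l' hl' h
    by_contra hne
    obtain ⟨a, t, hat, _⟩ := (hQ.path l hl).start
    have ha : a ∈ l ++ f l := by rw [hat]; simp
    exact hdisj l hl l' hl' hne a ha (by rw [← show l ++ f l = l' ++ f l' from h]; exact ha)

lemma Linkage.verts_inter_card {Q : Finset (List V)} (hQ : Linkage G W A B Q) :
    (verts Q ∩ B).card = Q.card := by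
  classical
  have hex : ∀ l ∈ Q, ∃ b, ∃ s, l = s ++ [b] := by
    intro l hl
    obtain ⟨s, b, h, _⟩ := (hQ.path l hl).stop
    exact ⟨b, s, h⟩
  choose g hg using hex
  symm
  refine Finset.card_bij (fun l hl => g l hl) ?_ ?_ ?_
  · intro l hl
    obtain ⟨s, hs⟩ := hg l hl
    have := hQ.path l hl
    rw [hs] at this
    rw [Finset.mem_inter, mem_verts]
    have hm : g l hl ∈ l := by
      have : g l hl ∈ s ++ [g l hl] := by simp
      rwa [← hs] at this
    exact ⟨⟨l, hl, hm⟩, this.last_mem⟩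
  · intro l hl l' hl' h
    by_contra hne
    obtain ⟨s, hs⟩ := hg l hl
    obtain ⟨s', hs'⟩ := hg l' hl'
    have hm : g l hl ∈ l := by
      have : g l hl ∈ s ++ [g l hl] := by simp
      rwa [← hs] at this
    have hm' : g l' hl' ∈ l' := by
      have : g l' hl' ∈ s' ++ [g l' hl'] := by simp
      rwa [← hs'] at this
    exact hQ.disj l hl l' hl' hne (g l hl) hm (by rw [h]; exact hm')
  · intro x hx
    simp only [Finset.mem_inter, mem_verts] at hx
    obtain ⟨⟨l, hl, hx⟩, hxB⟩ := hx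
    obtain ⟨s, hs⟩ := hg l hl
    refine ⟨l, hl, ?_⟩
    have := hQ.path l hl
    rw [hs] at this hx
    exact (this.mem_B hx hxB).symm

lemma IsPath.prefix_path {l1 l2 : List V} {x : V} {B' : Finset V}
    (h : IsPath G W A B (l1 ++ x :: l2)) (hx : x ∈ B') (hl : ∀ z ∈ l1, z ∉ B') :
    IsPath G W A B' (l1 ++ [x]) := by
  refine ⟨?_, ?_, ?_, ?_, ⟨l1, x, rfl, hx, hl⟩⟩
  · intro y hy
    apply h.sub
    simp only [List.mem_append, List.mem_cons] at hy ⊢
    tauto
  · have := h.chain
    rw [List.isChain_split] at this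
    exact this.1
  · exact h.nodup.sublist (by simp)
  · obtain ⟨a, t, hat, ha, ht⟩ := h.start
    cases l1 with
    | nil =>
      simp only [List.nil_append, List.cons.injEq] at hat
      exact ⟨x, [], rfl, hat.1 ▸ ha, by simp⟩
    | cons c l1 =>
      simp only [List.cons_append, List.cons.injEq] at hat
      refine ⟨c, l1 ++ [x], rfl, hat.1 ▸ ha, ?_⟩
      intro y hy
      apply ht
      rw [← hat.2]
      simp only [List.mem_append, List.mem_cons] at hy ⊢
      tauto

lemma IsPath.change_target {l : List V} {B' : Finset V} (h : IsPath G W A B l) (hB : B ⊆ B')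
    (hl : ∀ z ∈ l, z ∈ B' → z ∈ B) : IsPath G W A B' l := by
  obtain ⟨s, b, h1, h2, h3⟩ := h.stop
  refine ⟨h.sub, h.chain, h.nodup, h.start, ⟨s, b, h1, hB h2, ?_⟩⟩
  intro z hz hz'
  exact h3 z hz (hl z (by rw [h1]; simp [hz]) hz')


lemma IsPath.before_not {l1 l2 : List V} {x : V} (h : IsPath G W A B (l1 ++ x :: l2)) :
    ∀ y ∈ l1, y ∉ B := by
  obtain ⟨s', b, h1, h2, h3⟩ := h.tail_data.2.2.2.2
  intro y hy
  have h' : IsPath G W A B ((l1 ++ s') ++ [b]) := by
    rw [h1] at h
    simpa using h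
  exact h'.init_not y (by simp [hy])

/-- AUGMENTATION LEMMA (Göring). -/
theorem aug_aux (A : Finset V) (n : ℕ) : ∀ (B : Finset V) (k : ℕ) (P : Finset (List V)),
    (W \ B).card = n → (∀ X, Separates G W A B X → k ≤ X.card) → Linkage G W A B P →
    P.card < k →
    ∃ Q, Linkage G W A B Q ∧ Q.card = P.card + 1 ∧ verts P ∩ A ⊆ verts Q ∩ A ∧
      verts P ∩ B ⊆ verts Q ∩ B := by
  classical
  induction n using Nat.strong_induction_on with
  | _ n ih =>
  intro B k P hn hsep hP hk
  have h1 : ¬ Separates G W A B (verts P ∩ B) := by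
    intro h
    have := hsep _ h
    rw [hP.verts_inter_card] at this
    omega
  unfold Separates at h1
  push Not at h1
  obtain ⟨R, hR, hRE⟩ := h1
  by_cases hx : ∃ x ∈ R, x ∈ verts P
  swap
  · push Not at hx
    have hRP : ∀ l ∈ P, ∀ z ∈ R, z ∉ l := fun l hl z hz hzl => hx z hz (mem_verts.2 ⟨l, hl, hzl⟩)
    refine ⟨insert R P, ⟨?_, ?_⟩, ?_, ?_, ?_⟩
    · intro l hl
      rcases Finset.mem_insert.1 hl with rfl | hl
      · exact hR
      · exact hP.path l hl
    · intro l hl l' hl' hne z hz hz'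
      rcases Finset.mem_insert.1 hl with h1 | h1 <;> rcases Finset.mem_insert.1 hl' with h2 | h2
      · exact hne (h1.trans h2.symm)
      · exact hRP l' h2 z (h1 ▸ hz) hz'
      · exact hRP l h1 z (h2 ▸ hz') hz
      · exact hP.disj l h1 l' h2 hne z hz hz'
    · apply Finset.card_insert_of_notMem
      intro hRP'
      obtain ⟨a, t, hat, _⟩ := hR.start
      exact hRP R hRP' a (by rw [hat]; simp) (by rw [hat]; simp)
    · intro z hz
      rw [Finset.mem_inter, mem_verts] at hz ⊢
      obtain ⟨⟨l, hl, hzl⟩, hzA⟩ := hz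
      exact ⟨⟨l, Finset.mem_insert_of_mem hl, hzl⟩, hzA⟩
    · intro z hz
      rw [Finset.mem_inter, mem_verts] at hz ⊢
      obtain ⟨⟨l, hl, hzl⟩, hzA⟩ := hz
      exact ⟨⟨l, Finset.mem_insert_of_mem hl, hzl⟩, hzA⟩
  obtain ⟨R1, x, R2, hR12, hxP, hR2⟩ := split_last (fun x => x ∈ verts P) R hx
  obtain ⟨P0, hP0, hxP0⟩ := mem_verts.1 hxP
  obtain ⟨P1, P2, hP12⟩ := List.append_of_mem hxP0
  have hP0p := hP.path P0 hP0
  rw [hP12] at hP0p
  rw [hR12] at hR
  have hxB : x ∉ B := by
    intro hxB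
    exact hRE x (by rw [hR12]; simp) (by simp [hxP, hxB])
  obtain ⟨B', hB'⟩ : ∃ B' : Finset V, ∀ z, z ∈ B' ↔ z ∈ B ∨ z = x ∨ z ∈ P2 ∨ z ∈ R2 :=
    ⟨B ∪ (insert x (P2.toFinset ∪ R2.toFinset)), by intro z; simp; tauto⟩
  have hBB' : B ⊆ B' := fun z hz => (hB' z).2 (Or.inl hz)
  have hP0nd : (P1 ++ x :: P2).Nodup := hP0p.nodup
  have hP0v : ∀ z ∈ P1 ++ x :: P2, z ∈ verts P := by
    intro z hz
    exact mem_verts.2 ⟨P0, hP0, by rw [hP12]; exact hz⟩
  have hP1B' : ∀ z ∈ P1, z ∉ B' := by
    intro z hz hzB'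
    rw [hB'] at hzB'
    rw [List.nodup_append] at hP0nd
    rcases hzB' with h | rfl | h | h
    · exact hP0p.before_not z hz h
    · exact hP0nd.2.2 z hz z (by simp) rfl
    · exact hP0nd.2.2 z hz z (by simp [h]) rfl
    · exact hR2 z h (hP0v z (by simp [hz]))
  have hoth : ∀ l ∈ P, l ≠ P0 → ∀ z ∈ l, z ∈ B' → z ∈ B := by
    intro l hl hne z hz hzB'
    rw [hB'] at hzB'
    have hd := hP.disj l hl P0 hP0 hne z hz
    rw [hP12] at hd
    rcases hzB' with h | rfl | h | h
    · exact h
    · exact absurd (by simp) hd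
    · exact absurd (by simp [h]) hd
    · exact absurd (mem_verts.2 ⟨l, hl, hz⟩) (hR2 z h)
  -- the truncated linkage
  have hP'not : P1 ++ [x] ∉ P.erase P0 := by
    intro h
    rw [Finset.mem_erase] at h
    have hd := hP.disj _ h.2 P0 hP0 h.1 x (by simp)
    exact hd (by rw [hP12]; simp)
  obtain ⟨P', hP'def⟩ : ∃ P' : Finset (List V), P' = insert (P1 ++ [x]) (P.erase P0) := ⟨_, rfl⟩
  have hP'mem : ∀ l, l ∈ P' ↔ l = P1 ++ [x] ∨ (l ∈ P ∧ l ≠ P0) := by
    intro l
    rw [hP'def, Finset.mem_insert, Finset.mem_erase]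
    tauto
  have hP'card : P'.card = P.card := by
    rw [hP'def, Finset.card_insert_of_notMem hP'not, Finset.card_erase_add_one hP0]
  have hP' : Linkage G W A B' P' := by
    refine ⟨?_, ?_⟩
    · intro l hl
      rcases (hP'mem l).1 hl with rfl | ⟨hl, hne⟩
      · exact hP0p.prefix_path ((hB' x).2 (by simp)) hP1B'
      · exact (hP.path l hl).change_target hBB' (hoth l hl hne)
    · have h2 : ∀ l ∈ P, l ≠ P0 → ∀ z ∈ l, z ∉ P1 ++ [x] := by
        intro l hl hne z hz hz'
        refine hP.disj l hl P0 hP0 hne z hz ?_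
        rw [hP12]
        simp only [List.mem_append, List.mem_cons] at hz' ⊢
        tauto
      intro l hl l' hl' hne z hz hz'
      rcases (hP'mem l).1 hl with rfl | ⟨hl, hne1⟩ <;>
        rcases (hP'mem l').1 hl' with rfl | ⟨hl', hne2⟩
      · exact hne rfl
      · exact h2 l' hl' hne2 z hz' hz
      · exact h2 l hl hne1 z hz hz'
      · exact hP.disj l hl l' hl' hne z hz hz'
  have hlt : (W \ B').card < n := by
    rw [← hn]
    apply Finset.card_lt_card
    rw [Finset.ssubset_iff_of_subset]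
    · refine ⟨x, ?_, ?_⟩
      · rw [Finset.mem_sdiff]
        exact ⟨hR.sub x (by simp), hxB⟩
      · rw [Finset.mem_sdiff]
        intro h
        exact h.2 ((hB' x).2 (by simp))
    · exact Finset.sdiff_subset_sdiff (le_refl _) hBB'
  have hsep' : ∀ X, Separates G W A B' X → k ≤ X.card := by
    intro X hX
    apply hsep
    intro l hl
    obtain ⟨l1, l2, rfl, h3⟩ := hl.prefix hBB'
    obtain ⟨z, hz, hzX⟩ := hX l1 h3
    exact ⟨z, by simp [hz], hzX⟩
  obtain ⟨Q', hQ', hQ'card, hst, hen⟩ := ih _ hlt B' k P' rfl hsep' hP' (by omega)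
  have hxB' : x ∈ B' := (hB' x).2 (by simp)
  have hxP' : x ∈ verts P' := mem_verts.2 ⟨P1 ++ [x], (hP'mem _).2 (Or.inl rfl), by simp⟩
  -- the ends of `P'`
  have hendP' : ∀ z ∈ verts P' ∩ B', z = x ∨ (∃ l ∈ P, l ≠ P0 ∧ z ∈ l ∧ z ∈ B) := by
    intro z hz
    rw [Finset.mem_inter, mem_verts] at hz
    obtain ⟨⟨l, hl, hzl⟩, hzB'⟩ := hz
    rcases (hP'mem l).1 hl with rfl | ⟨hl', hne⟩
    · exact Or.inl ((hP'.path _ hl).mem_B hzl hzB')
    · exact Or.inr ⟨l, hl', hne, hzl, hoth l hl' hne z hzl hzB'⟩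
  have hdiff : ((verts Q' ∩ B') \ (verts P' ∩ B')).card = 1 := by
    rw [Finset.card_sdiff_of_subset hen, hQ'.verts_inter_card, hP'.verts_inter_card]
    omega
  obtain ⟨y, hy⟩ := Finset.card_eq_one.1 hdiff
  have hyQ : y ∈ verts Q' ∩ B' ∧ y ∉ verts P' ∩ B' := by
    rw [← Finset.mem_sdiff, hy]; simp
  have hendQ : ∀ z ∈ verts Q' ∩ B', z = y ∨ z ∈ verts P' ∩ B' := by
    intro z hz
    by_cases h : z ∈ verts P' ∩ B'
    · exact Or.inr h
    · left
      have : z ∈ (verts Q' ∩ B') \ (verts P' ∩ B') := Finset.mem_sdiff.2 ⟨hz, h⟩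
      rw [hy] at this
      simpa using this
  have hyx : y ≠ x := by
    rintro rfl
    exact hyQ.2 (Finset.mem_inter.2 ⟨hxP', hxB'⟩)
  obtain ⟨Qx, hQx, hxQx⟩ := mem_verts.1 (Finset.mem_inter.1 (hen (Finset.mem_inter.2 ⟨hxP', hxB'⟩))).1
  obtain ⟨Qy, hQy, hyQy⟩ := mem_verts.1 (Finset.mem_inter.1 hyQ.1).1
  have hyB' : y ∈ B' := (Finset.mem_inter.1 hyQ.1).2
  have hQend : ∀ s e, s ++ [e] ∈ Q' → ∀ z ∈ s ++ [e], z ∈ B' → z = e := by
    intro s e h z hz hz'
    exact (hQ'.path _ h).mem_B hz hz'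
  have hQuniq : ∀ l ∈ Q', ∀ l' ∈ Q', ∀ z, z ∈ l → z ∈ l' → l = l' := by
    intro l hl l' hl' z hz hz'
    by_contra hne
    exact hQ'.disj l hl l' hl' hne z hz hz'
  have hQxy : Qx ≠ Qy := by
    rintro rfl
    obtain ⟨s, e, hse, _⟩ := (hQ'.path _ hQx).stop
    subst hse
    have h2 := hQend s e hQx x hxQx hxB'
    have h3 := hQend s e hQx y hyQy hyB'
    exact hyx (h3.trans h2.symm)
  -- the key construction
  have key : ∀ tx ty : List V,
      ((x :: tx).IsChain G.Adj ∧ (x :: tx).Nodup ∧ (∀ z ∈ tx, z ∈ W) ∧ (∀ z ∈ tx, z ∉ A) ∧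
        ∃ s' b, x :: tx = s' ++ [b] ∧ b ∈ B ∧ ∀ z ∈ s', z ∉ B) →
      ((y :: ty).IsChain G.Adj ∧ (y :: ty).Nodup ∧ (∀ z ∈ ty, z ∈ W) ∧ (∀ z ∈ ty, z ∉ A) ∧
        ∃ s' b, y :: ty = s' ++ [b] ∧ b ∈ B ∧ ∀ z ∈ s', z ∉ B) →
      (∀ z ∈ tx, z ∈ P2 ∨ z ∈ R2) → (∀ z ∈ ty, z ∈ P2 ∨ z ∈ R2) →
      (∀ z ∈ x :: tx, z ∉ y :: ty) → (∀ z ∈ P2, z ∈ B → z ∈ y :: ty ∨ z ∈ x :: tx) →
      ∃ Q, Linkage G W A B Q ∧ Q.card = P.card + 1 ∧ verts P ∩ A ⊆ verts Q ∩ A ∧
        verts P ∩ B ⊆ verts Q ∩ B := by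
    intro tx ty htx hty htx2 hty2 hdis hcov
    obtain ⟨f, hfx, hfy, hfo⟩ : ∃ f : List V → List V, f Qx = tx ∧ f Qy = ty ∧
        ∀ l, l ≠ Qx → l ≠ Qy → f l = [] := by
      refine ⟨fun l => if l = Qx then tx else if l = Qy then ty else [], by simp, ?_, ?_⟩
      · simp [hQxy.symm]
      · intro l h h'
        simp [h, h']
    have hotherE : ∀ s e, s ++ [e] ∈ Q' → s ++ [e] ≠ Qx → s ++ [e] ≠ Qy →
        ∃ l ∈ P, l ≠ P0 ∧ e ∈ l ∧ e ∈ B := by
      intro s e h hne1 hne2
      have heB' : e ∈ B' := (hQ'.path _ h).last_mem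
      have hev : e ∈ verts Q' ∩ B' := Finset.mem_inter.2 ⟨mem_verts.2 ⟨_, h, by simp⟩, heB'⟩
      rcases hendQ e hev with rfl | h2
      · exact absurd (hQuniq _ h _ hQy e (by simp) hyQy) hne2
      · rcases hendP' e h2 with rfl | h3
        · exact absurd (hQuniq _ h _ hQx e (by simp) hxQx) hne1
        · exact h3
    have hnot : ∀ e, (∃ l ∈ P, l ≠ P0 ∧ e ∈ l ∧ e ∈ B) → e ≠ x ∧ e ∉ P2 ∧ e ∉ R2 := by
      rintro e ⟨l, hl, hne, hel, heB⟩
      have hd := hP.disj l hl P0 hP0 hne e hel
      rw [hP12] at hd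
      refine ⟨?_, ?_, ?_⟩
      · rintro rfl
        exact hd (by simp)
      · intro h; exact hd (by simp [h])
      · intro h; exact hR2 e h (mem_verts.2 ⟨l, hl, hel⟩)
    have hxend : ∀ s e, s ++ [e] = Qx → e = x := by
      intro s e h
      subst h
      exact (hQend s e hQx x hxQx hxB').symm
    have hyend : ∀ s e, s ++ [e] = Qy → e = y := by
      intro s e h
      subst h
      exact (hQend s e hQy y hyQy hyB').symm
    have hnoty : ∀ s e, s ++ [e] ∈ Q' → s ++ [e] ≠ Qy → e ≠ y := by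
      rintro s e h hne rfl
      exact hne (hQuniq _ h _ hQy e (by simp) hyQy)
    have hG := glue_linkage (G := G) (W := W) (A := A) hBB' hQ' f (by
      intro s e h
      by_cases h1 : s ++ [e] = Qx
      · have := hxend s e h1
        subst this
        rw [h1, hfx]
        exact ⟨htx.1, htx.2.1, htx.2.2.1, fun z hz => (hB' z).2 (by
          rcases htx2 z hz with h | h <;> simp [h]), htx.2.2.2.1, htx.2.2.2.2⟩
      · by_cases h2 : s ++ [e] = Qy
        · have := hyend s e h2
          subst this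
          rw [h2, hfy]
          exact ⟨hty.1, hty.2.1, hty.2.2.1, fun z hz => (hB' z).2 (by
            rcases hty2 z hz with h | h <;> simp [h]), hty.2.2.2.1, hty.2.2.2.2⟩
        · rw [hfo _ h1 h2]
          obtain ⟨l, hl, hne, hel, heB⟩ := hotherE s e h h1 h2
          refine ⟨by simp, by simp, by simp, by simp, by simp, [], e, rfl, heB, by simp⟩) (by
      intro s e s' e' h h' hne z hz hz'
      have hcase : ∀ s e, s ++ [e] ∈ Q' → (s ++ [e] = Qx ∧ e = x) ∨ (s ++ [e] = Qy ∧ e = y) ∨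
          (f (s ++ [e]) = [] ∧ s ++ [e] ≠ Qx ∧ s ++ [e] ≠ Qy ∧ e ≠ x ∧ e ∉ P2 ∧ e ∉ R2 ∧ e ≠ y) := by
        intro s e h
        by_cases h1 : s ++ [e] = Qx
        · exact Or.inl ⟨h1, hxend s e h1⟩
        · by_cases h2 : s ++ [e] = Qy
          · exact Or.inr (Or.inl ⟨h2, hyend s e h2⟩)
          · obtain ⟨h3, h4, h5⟩ := hnot e (hotherE s e h h1 h2)
            exact Or.inr (Or.inr ⟨hfo _ h1 h2, h1, h2, h3, h4, h5, hnoty s e h h2⟩)
      rcases hcase s e h with ⟨h1, h2⟩ | ⟨h1, h2⟩ | ⟨h1, h2, h3, h4, h5, h6, h7⟩ <;>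
        rcases hcase s' e' h' with ⟨h1', h2'⟩ | ⟨h1', h2'⟩ | ⟨h1', h2', h3', h4', h5', h6', h7'⟩
      · exact hne (h1.trans h1'.symm)
      · rw [h1, h2, hfx] at hz
        rw [h1', h2', hfy] at hz'
        exact hdis z hz hz'
      · rw [h1, h2, hfx] at hz
        rw [h1'] at hz'
        simp only [List.mem_cons, List.not_mem_nil, or_false] at hz'
        subst hz'
        rcases List.mem_cons.1 hz with hz | hz
        · exact h4' hz
        · rcases htx2 _ hz with hz | hz
          · exact h5' hz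
          · exact h6' hz
      · rw [h1, h2, hfy] at hz
        rw [h1', h2', hfx] at hz'
        exact hdis z hz' hz
      · exact hne (h1.trans h1'.symm)
      · rw [h1, h2, hfy] at hz
        rw [h1'] at hz'
        simp only [List.mem_cons, List.not_mem_nil, or_false] at hz'
        subst hz'
        rcases List.mem_cons.1 hz with hz | hz
        · exact h7' hz
        · rcases hty2 _ hz with hz | hz
          · exact h5' hz
          · exact h6' hz
      · rw [h1', h2', hfx] at hz'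
        rw [h1] at hz
        simp only [List.mem_cons, List.not_mem_nil, or_false] at hz
        subst hz
        rcases List.mem_cons.1 hz' with hz' | hz'
        · exact h4 hz'
        · rcases htx2 _ hz' with hz' | hz'
          · exact h5 hz'
          · exact h6 hz'
      · rw [h1', h2', hfy] at hz'
        rw [h1] at hz
        simp only [List.mem_cons, List.not_mem_nil, or_false] at hz
        subst hz
        rcases List.mem_cons.1 hz' with hz' | hz'
        · exact h7 hz'
        · rcases hty2 _ hz' with hz' | hz'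
          · exact h5 hz'
          · exact h6 hz'
      · rw [h1] at hz
        rw [h1'] at hz'
        simp only [List.mem_cons, List.not_mem_nil, or_false] at hz hz'
        refine hne (hQuniq _ h _ h' z ?_ ?_)
        · rw [hz]; simp
        · rw [hz']; simp)
    refine ⟨_, hG.1, by rw [hG.2]; omega, ?_, ?_⟩
    · intro z hz
      rw [Finset.mem_inter, mem_verts] at hz
      obtain ⟨⟨l, hl, hzl⟩, hzA⟩ := hz
      have hz' : z ∈ verts P' ∩ A := by
        rw [Finset.mem_inter, mem_verts]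
        refine ⟨?_, hzA⟩
        by_cases hne : l = P0
        · refine ⟨P1 ++ [x], (hP'mem _).2 (Or.inl rfl), ?_⟩
          rw [hne, hP12] at hzl
          have := hP0p.after_not z
          simp only [List.mem_append, List.mem_cons] at hzl ⊢
          rcases hzl with h | h | h
          · exact Or.inl h
          · exact Or.inr (Or.inl h)
          · exact absurd hzA (this h)
        · exact ⟨l, (hP'mem _).2 (Or.inr ⟨hl, hne⟩), hzl⟩
      have hz2 := hst hz'
      rw [Finset.mem_inter, mem_verts] at hz2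
      obtain ⟨⟨l0, hl0, hzl0⟩, _⟩ := hz2
      rw [Finset.mem_inter, mem_verts]
      exact ⟨⟨l0 ++ f l0, Finset.mem_image_of_mem _ hl0, by simp [hzl0]⟩, hzA⟩
    · intro z hz
      rw [Finset.mem_inter, mem_verts] at hz
      obtain ⟨⟨l, hl, hzl⟩, hzB⟩ := hz
      rw [Finset.mem_inter, mem_verts]
      refine ⟨?_, hzB⟩
      by_cases hne : l = P0
      · rw [hne, hP12] at hzl
        have hzP2 : z ∈ P2 := by
          simp only [List.mem_append, List.mem_cons] at hzl
          rcases hzl with h | rfl | h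
          · exact absurd hzB (hP0p.before_not z h)
          · exact absurd hzB hxB
          · exact h
        rcases hcov z hzP2 hzB with h | h
        · refine ⟨Qy ++ f Qy, Finset.mem_image_of_mem _ hQy, ?_⟩
          rcases List.mem_cons.1 h with rfl | h
          · simp [hyQy]
          · simp [hfy, h]
        · refine ⟨Qx ++ f Qx, Finset.mem_image_of_mem _ hQx, ?_⟩
          rcases List.mem_cons.1 h with rfl | h
          · simp [hxQx]
          · simp [hfx, h]
      · have hz' : z ∈ verts P' ∩ B' := by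
          rw [Finset.mem_inter, mem_verts]
          exact ⟨⟨l, (hP'mem _).2 (Or.inr ⟨hl, hne⟩), hzl⟩, hBB' hzB⟩
        have hz2 := hen hz'
        rw [Finset.mem_inter, mem_verts] at hz2
        obtain ⟨⟨l0, hl0, hzl0⟩, _⟩ := hz2
        exact ⟨l0 ++ f l0, Finset.mem_image_of_mem _ hl0, by simp [hzl0]⟩
  have hRx := hR.tail_data
  have hPx := hP0p.tail_data
  have hR2v : ∀ z ∈ R2, z ∉ P1 ++ x :: P2 := fun z hz h => hR2 z hz (hP0v z h)
  by_cases hyP2 : y ∈ P2
  · obtain ⟨P3, P4, hP34⟩ := List.append_of_mem hyP2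
    have hPy : IsPath G W A B ((P1 ++ x :: P3) ++ y :: P4) := by
      rw [hP34] at hP0p
      simpa using hP0p
    refine key R2 P4 hRx hPy.tail_data (fun z hz => Or.inr hz)
      (fun z hz => Or.inl (by rw [hP34]; simp [hz])) ?_ ?_
    · intro z hz hz'
      rcases List.mem_cons.1 hz with rfl | hz
      · rw [hP34] at hP0nd
        rw [List.nodup_append] at hP0nd
        have := hP0nd.2.1
        rw [List.nodup_cons] at this
        exact this.1 (by
          rcases List.mem_cons.1 hz' with h | h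
          · rw [h]; simp
          · simp [h])
      · refine hR2v z hz ?_
        rw [hP34]
        rcases List.mem_cons.1 hz' with h | h
        · rw [h]; simp
        · simp [h]
    · intro z hz hzB
      left
      rw [hP34] at hz
      rcases List.mem_append.1 hz with h | h
      · exact absurd hzB (hPy.before_not z (by simp [h]))
      · exact h
  · by_cases hyR2 : y ∈ R2
    · obtain ⟨R3, R4, hR34⟩ := List.append_of_mem hyR2
      have hRy : IsPath G W A B ((R1 ++ x :: R3) ++ y :: R4) := by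
        rw [hR34] at hR
        simpa using hR
      refine key P2 R4 hPx hRy.tail_data (fun z hz => Or.inl hz)
        (fun z hz => Or.inr (by rw [hR34]; simp [hz])) ?_ (fun z hz _ => Or.inr (by simp [hz]))
      intro z hz hz'
      refine hR2v z ?_ ?_
      · rw [hR34]
        rcases List.mem_cons.1 hz' with h | h
        · rw [h]; simp
        · simp [h]
      · rcases List.mem_cons.1 hz with h | h
        · rw [h]; simp
        · simp [h]
    · have hyB : y ∈ B := by
        rcases (hB' y).1 hyB' with h | h | h | h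
        · exact h
        · exact absurd h hyx
        · exact absurd h hyP2
        · exact absurd h hyR2
      refine key P2 [] hPx ⟨by simp, by simp, by simp, by simp, [], y, rfl, hyB, by simp⟩
        (fun z hz => Or.inl hz) (by simp) ?_ (fun z hz _ => Or.inr (by simp [hz]))
      intro z hz hz'
      simp only [List.mem_cons, List.not_mem_nil, or_false] at hz'
      subst hz'
      rcases List.mem_cons.1 hz with h | h
      · exact hyx h
      · exact hyP2 h


/-- AUGMENTATION LEMMA, iterated: if every `A`-`B` separator of `G[W]` has at least `k` vertices,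
every linkage with at most `k` paths extends to one with exactly `k` paths, keeping all starting
and all final vertices. -/
theorem aug {k : ℕ} (hsep : ∀ X, Separates G W A B X → k ≤ X.card) (hP : Linkage G W A B P)
    (hk : P.card ≤ k) :
    ∃ Q, Linkage G W A B Q ∧ Q.card = k ∧ verts P ∩ A ⊆ verts Q ∩ A ∧
      verts P ∩ B ⊆ verts Q ∩ B := by
  obtain ⟨d, hd⟩ := Nat.exists_eq_add_of_le hk
  induction d generalizing P with
  | zero => exact ⟨P, hP, by omega, le_refl _, le_refl _⟩
  | succ d ih =>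
    obtain ⟨Q, hQ, h1, h2, h3⟩ := aug_aux A _ B k P rfl hsep hP (by omega)
    obtain ⟨Q', hQ', h4, h5, h6⟩ := ih hQ (by omega) (by omega)
    exact ⟨Q', hQ', h4, h2.trans h5, h3.trans h6⟩

theorem menger {k : ℕ} (hsep : ∀ X, Separates G W A B X → k ≤ X.card) :
    ∃ Q, Linkage G W A B Q ∧ Q.card = k := by
  have h0 : Linkage G W A B (∅ : Finset (List V)) := ⟨by simp, by simp⟩
  obtain ⟨Q, hQ, h1, _⟩ := aug hsep h0 (by simp)
  exact ⟨Q, hQ, h1⟩

/-- a separator gives a separation. -/
theorem exists_sep_of_separates {X : Finset V} (hA : A ⊆ W) (hB : B ⊆ W)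
    (hX : Separates G W A B X) :
    ∃ A' B', Sep G W A' B' ∧ A ⊆ A' ∧ B ⊆ B' ∧ A' ∩ B' ⊆ X := by
  classical
  obtain ⟨R, hR⟩ : ∃ R : Finset V, ∀ v, v ∈ R ↔ v ∈ W ∧ ∃ l : List V, l.IsChain G.Adj ∧
      (∀ z ∈ l, z ∈ W) ∧ (∀ z ∈ l, z ∉ X) ∧ (∃ a t, l = a :: t ∧ a ∈ A) ∧
      (∃ s, l = s ++ [v]) := ⟨W.filter _, fun v => Finset.mem_filter⟩
  refine ⟨R ∪ (X ∩ W), W \ R, ⟨?_, ?_⟩, ?_, ?_, ?_⟩
  · ext v
    simp only [Finset.mem_union, Finset.mem_inter, Finset.mem_sdiff]
    have := (hR v)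
    constructor
    · rintro ((h | h) | h)
      · exact (this.1 h).1
      · exact h.2
      · exact h.1
    · intro h
      by_cases h' : v ∈ R
      · exact Or.inl (Or.inl h')
      · exact Or.inr ⟨h, h'⟩
  · intro a ha haB b hb hbA hadj
    simp only [Finset.mem_union, Finset.mem_inter, Finset.mem_sdiff, not_and, not_not, not_or]
      at ha haB hb hbA
    have haW : a ∈ W := by
      rcases ha with h | h
      · exact ((hR a).1 h).1
      · exact h.2
    have haR := haB haW
    obtain ⟨_, l, h1, h2, h3, h4, s, h5⟩ := (hR a).1 haR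
    apply hb.2
    rw [hR]
    refine ⟨hb.1, l ++ [b], ?_, ?_, ?_, ?_, ⟨l, rfl⟩⟩
    · subst h5
      rw [List.append_assoc]
      simp only [List.singleton_append]
      rw [List.isChain_split]
      refine ⟨h1, ?_⟩
      simp [hadj]
    · intro z hz
      rcases List.mem_append.1 hz with h | h
      · exact h2 z h
      · simp only [List.mem_cons, List.not_mem_nil, or_false] at h
        rw [h]; exact hb.1
    · intro z hz
      rcases List.mem_append.1 hz with h | h
      · exact h3 z h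
      · simp only [List.mem_cons, List.not_mem_nil, or_false] at h
        rw [h]
        intro hbX
        exact (hbA.2 hbX) hb.1
    · obtain ⟨a', t, h6, h7⟩ := h4
      exact ⟨a', t ++ [b], by rw [h6]; rfl, h7⟩
  · intro a ha
    rw [Finset.mem_union, Finset.mem_inter]
    by_cases haX : a ∈ X
    · exact Or.inr ⟨haX, hA ha⟩
    · left
      rw [hR]
      refine ⟨hA ha, [a], by simp, ?_, ?_, ⟨a, [], rfl, ha⟩, ⟨[], rfl⟩⟩
      · intro z hz
        simp only [List.mem_cons, List.not_mem_nil, or_false] at hz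
        rw [hz]; exact hA ha
      · intro z hz
        simp only [List.mem_cons, List.not_mem_nil, or_false] at hz
        rw [hz]; exact haX
  · intro b hb
    rw [Finset.mem_sdiff]
    refine ⟨hB hb, ?_⟩
    intro hbR
    obtain ⟨_, l, h1, h2, h3, h4, s, h5⟩ := (hR b).1 hbR
    obtain ⟨l', h6, h7⟩ := exists_path_of_chain (B := B) l.length l (le_refl _) h2 h1 h4
      ⟨s, b, h5, hb⟩
    obtain ⟨x, hx, hxX⟩ := hX l' h6
    exact h3 x (h7 x hx) hxX
  · intro v hv
    simp only [Finset.mem_inter, Finset.mem_union, Finset.mem_sdiff] at hv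
    rcases hv.1 with h | h
    · exact absurd h hv.2.2
    · exact h.1

/-- MENGER: `k` disjoint `A`-`B` paths or a separation of order `< k`. -/
theorem menger_sep (hA : A ⊆ W) (hB : B ⊆ W) (k : ℕ) :
    (∃ Q, Linkage G W A B Q ∧ Q.card = k) ∨
      ∃ A' B', Sep G W A' B' ∧ A ⊆ A' ∧ B ⊆ B' ∧ (A' ∩ B').card < k := by
  by_cases h : ∀ X, Separates G W A B X → k ≤ X.card
  · exact Or.inl (menger h)
  · push Not at h
    obtain ⟨X, hX, hXk⟩ := h
    obtain ⟨A', B', h1, h2, h3, h4⟩ := exists_sep_of_separates hA hB hX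
    exact Or.inr ⟨A', B', h1, h2, h3, lt_of_le_of_lt (Finset.card_le_card h4) hXk⟩

/-- AUG with separations. -/
theorem aug_sep (hA : A ⊆ W) (hB : B ⊆ W) {k : ℕ} (hP : Linkage G W A B P) (hk : P.card ≤ k) :
    (∃ Q, Linkage G W A B Q ∧ Q.card = k ∧ verts P ∩ A ⊆ verts Q ∩ A ∧
      verts P ∩ B ⊆ verts Q ∩ B) ∨
      ∃ A' B', Sep G W A' B' ∧ A ⊆ A' ∧ B ⊆ B' ∧ (A' ∩ B').card < k := by
  by_cases h : ∀ X, Separates G W A B X → k ≤ X.card
  · exact Or.inl (aug h hP hk)
  · push Not at h
    obtain ⟨X, hX, hXk⟩ := h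
    obtain ⟨A', B', h1, h2, h3, h4⟩ := exists_sep_of_separates hA hB hX
    exact Or.inr ⟨A', B', h1, h2, h3, lt_of_le_of_lt (Finset.card_le_card h4) hXk⟩

/-! ### separations -/

lemma Sep.left_sub (h : Sep G W A B) : A ⊆ W := by
  rw [← h.union]; exact Finset.subset_union_left

lemma Sep.right_sub (h : Sep G W A B) : B ⊆ W := by
  rw [← h.union]; exact Finset.subset_union_right

lemma Sep.symm (h : Sep G W A B) : Sep G W B A :=
  ⟨by rw [Finset.union_comm]; exact h.union, fun a ha ha' b hb hb' hadj =>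
    h.nadj b hb hb' a ha ha' hadj.symm⟩

/-- a walk which leaves the left side of a separation passes through the intersection: if its
first vertex is in `A` then either all of it is in `A` or it has an initial segment in `A` ending
in `A ∩ B`. -/
lemma Sep.chain_cases (h : Sep G W A B) : ∀ (l : List V) (a : V), (a :: l).IsChain G.Adj →
    (∀ z ∈ l, z ∈ W) → a ∈ A →
    (∀ z ∈ l, z ∈ A) ∨ ∃ l1 x l2, a :: l = l1 ++ x :: l2 ∧ x ∈ A ∧ x ∈ B ∧ ∀ z ∈ l1, z ∈ A := by
  intro l
  induction l with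
  | nil => intro a _ _ ha; left; simp
  | cons c l ih =>
    intro a hc hW ha
    by_cases haB : a ∈ B
    · exact Or.inr ⟨[], a, c :: l, rfl, ha, haB, by simp⟩
    rw [List.isChain_cons_cons] at hc
    have hcA : c ∈ A := by
      by_contra hcA
      have hcB : c ∈ B := by
        have := hW c (by simp)
        rw [← h.union, Finset.mem_union] at this
        exact this.resolve_left hcA
      exact h.nadj a ha haB c hcB hcA hc.1
    rcases ih c hc.2 (fun z hz => hW z (by simp [hz])) hcA with h1 | ⟨l1, x, l2, h1, h2, h3, h4⟩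
    · left
      intro z hz
      rcases List.mem_cons.1 hz with rfl | hz
      · exact hcA
      · exact h1 z hz
    · right
      refine ⟨a :: l1, x, l2, by rw [h1]; rfl, h2, h3, ?_⟩
      intro z hz
      rcases List.mem_cons.1 hz with rfl | hz
      · exact ha
      · exact h4 z hz

/-- the intersection of a separation separates. -/
lemma Sep.separates {A' B' : Finset V} (h : Sep G W A' B') (hA : A ⊆ A') (hB : B ⊆ B') :
    Separates G W A B (A' ∩ B') := by
  intro l hl
  obtain ⟨a, t, rfl, ha, ht⟩ := hl.start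
  rcases h.chain_cases t a hl.chain (fun z hz => hl.sub z (by simp [hz])) (hA ha) with
    h1 | ⟨l1, x, l2, h1, h2, h3, h4⟩
  · obtain ⟨s, b, h5, h6, h7⟩ := hl.stop
    have hb : b ∈ a :: t := by rw [h5]; simp
    refine ⟨b, hb, Finset.mem_inter.2 ⟨?_, hB h6⟩⟩
    rcases List.mem_cons.1 hb with h | h
    · rw [h]; exact hA ha
    · exact h1 b h
  · exact ⟨x, by rw [h1]; simp, Finset.mem_inter.2 ⟨h2, h3⟩⟩

/-! ### paths and linkages: more API -/

lemma IsPath.conn {l : List V} (h : IsPath G W A B l) : Conn353.Conn G l.toFinset :=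
  Conn353.chain_conn l h.ne_nil h.chain

lemma IsPath.reverse {l : List V} (h : IsPath G W A B l) : IsPath G W B A l.reverse := by
  obtain ⟨a, t, h1, h2, h3⟩ := h.start
  obtain ⟨s, b, h4, h5, h6⟩ := h.stop
  refine ⟨fun x hx => h.sub x (List.mem_reverse.1 hx), ?_, List.nodup_reverse.2 h.nodup,
    ⟨b, s.reverse, by rw [h4]; simp, h5, fun x hx => h6 x (List.mem_reverse.1 hx)⟩,
    ⟨t.reverse, a, by rw [h1]; simp, h2, fun x hx => h3 x (List.mem_reverse.1 hx)⟩⟩
  rw [List.isChain_reverse]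
  exact h.chain.imp (fun _ _ hab => hab.symm)

lemma Linkage.mono {P' : Finset (List V)} (h : Linkage G W A B P) (hs : P' ⊆ P) :
    Linkage G W A B P' :=
  ⟨fun l hl => h.path l (hs hl), fun l hl l' hl' => h.disj l (hs hl) l' (hs hl')⟩

lemma Linkage.reverse (h : Linkage G W A B P) : Linkage G W B A (P.image List.reverse) := by
  refine ⟨?_, ?_⟩
  · intro l hl
    obtain ⟨l0, hl0, rfl⟩ := Finset.mem_image.1 hl
    exact (h.path l0 hl0).reverse
  · intro l hl l' hl' hne x hx hx'
    obtain ⟨l0, hl0, rfl⟩ := Finset.mem_image.1 hl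
    obtain ⟨l0', hl0', rfl⟩ := Finset.mem_image.1 hl'
    exact h.disj l0 hl0 l0' hl0' (by rintro rfl; exact hne rfl) x (List.mem_reverse.1 hx)
      (List.mem_reverse.1 hx')

lemma card_image_reverse : (P.image List.reverse).card = P.card :=
  Finset.card_image_of_injective _ List.reverse_injective

lemma Linkage.verts_inter_card_left (hQ : Linkage G W A B P) : (verts P ∩ A).card = P.card := by
  have h := hQ.reverse.verts_inter_card
  rw [card_image_reverse] at h
  rw [← h]
  congr 1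
  ext x
  simp only [Finset.mem_inter, mem_verts, Finset.mem_image]
  constructor
  · rintro ⟨⟨l, hl, hx⟩, hA⟩
    exact ⟨⟨l.reverse, ⟨l, hl, rfl⟩, List.mem_reverse.2 hx⟩, hA⟩
  · rintro ⟨⟨l, ⟨l0, hl0, rfl⟩, hx⟩, hA⟩
    exact ⟨⟨l0, hl0, List.mem_reverse.1 hx⟩, hA⟩

/-- a linkage as a family indexed by its starting vertices: `f a` is the path starting in `a`
(written `a :: t`), `g a` is its last vertex. -/
lemma Linkage.family (h : Linkage G W A B P) :
    ∃ (f : V → List V) (g : V → V), (∀ a ∈ verts P ∩ A, f a ∈ P ∧ IsPath G W A B (f a) ∧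
      (∃ t, f a = a :: t) ∧ (∃ s, f a = s ++ [g a]) ∧ g a ∈ B ∧ a ∈ f a ∧ g a ∈ f a ∧
      (∀ x ∈ f a, x ∈ A → x = a) ∧ (∀ x ∈ f a, x ∈ B → x = g a)) ∧
      (∀ a ∈ verts P ∩ A, ∀ a' ∈ verts P ∩ A, a ≠ a' → ∀ x ∈ f a, x ∉ f a') ∧
      (∀ l ∈ P, ∃ a ∈ verts P ∩ A, f a = l) ∧ (∀ b ∈ verts P ∩ B, ∃ a ∈ verts P ∩ A, g a = b) ∧
      (∀ a ∈ verts P ∩ A, ∀ a' ∈ verts P ∩ A, g a = g a' → a = a') := by
  classical
  have hex : ∀ a, ∃ (l : List V) (b : V), a ∈ verts P ∩ A → l ∈ P ∧ IsPath G W A B l ∧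
      (∃ t, l = a :: t) ∧ (∃ s, l = s ++ [b]) ∧ b ∈ B ∧ a ∈ l ∧ b ∈ l ∧
      (∀ x ∈ l, x ∈ A → x = a) ∧ (∀ x ∈ l, x ∈ B → x = b) := by
    intro a
    by_cases ha : a ∈ verts P ∩ A
    · rw [Finset.mem_inter, mem_verts] at ha
      obtain ⟨⟨l, hl, hal⟩, haA⟩ := ha
      have hp := h.path l hl
      obtain ⟨c, t, h1, h2, h3⟩ := hp.start
      obtain ⟨s, b, h4, h5, h6⟩ := hp.stop
      have hac : a = c := by
        rw [h1] at hal
        rcases List.mem_cons.1 hal with h | h
        · exact h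
        · exact absurd haA (h3 a h)
      subst hac
      refine ⟨l, b, fun _ => ⟨hl, hp, ⟨t, h1⟩, ⟨s, h4⟩, h5, hal, by rw [h4]; simp, ?_, ?_⟩⟩
      · intro x hx hxA
        rw [h1] at hx
        rcases List.mem_cons.1 hx with h | h
        · exact h
        · exact absurd hxA (h3 x h)
      · intro x hx hxB
        rw [h4] at hp hx
        exact hp.mem_B hx hxB
    · exact ⟨[], a, fun h => absurd h ha⟩
  choose f g hfg using hex
  have hl : ∀ l ∈ P, ∃ a ∈ verts P ∩ A, f a = l := by
    intro l hl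
    obtain ⟨a, t, h1, h2, h3⟩ := (h.path l hl).start
    have ha : a ∈ verts P ∩ A := by
      rw [Finset.mem_inter, mem_verts]
      exact ⟨⟨l, hl, by rw [h1]; simp⟩, h2⟩
    refine ⟨a, ha, ?_⟩
    by_contra hne
    exact h.disj (f a) (hfg a ha).1 l hl hne a (hfg a ha).2.2.2.2.2.1 (by rw [h1]; simp)
  have hdis : ∀ a ∈ verts P ∩ A, ∀ a' ∈ verts P ∩ A, a ≠ a' → ∀ x ∈ f a, x ∉ f a' := by
    intro a ha a' ha' hne
    refine h.disj (f a) (hfg a ha).1 (f a') (hfg a' ha').1 ?_
    intro heq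
    apply hne
    have := (hfg a' ha').2.2.2.2.2.2.2.1 a (by rw [← heq]; exact (hfg a ha).2.2.2.2.2.1)
      (Finset.mem_inter.1 ha).2
    exact this
  refine ⟨f, g, fun a ha => hfg a ha, hdis, hl, ?_, ?_⟩
  · intro b hb
    rw [Finset.mem_inter, mem_verts] at hb
    obtain ⟨⟨l, hlP, hbl⟩, hbB⟩ := hb
    obtain ⟨a, ha, rfl⟩ := hl l hlP
    exact ⟨a, ha, ((hfg a ha).2.2.2.2.2.2.2.2 b hbl hbB).symm⟩
  · intro a ha a' ha' heq
    by_contra hne
    exact hdis a ha a' ha' hne (g a) (hfg a ha).2.2.2.2.2.2.1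
      (by rw [heq]; exact (hfg a' ha').2.2.2.2.2.2.1)

end Crest.Agent.R042.Menger353
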