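import Mathlib
import Crest.Agent.R042.Conn_353
import Crest.Agent.R042.Menger_353
import Crest.Prelude.Def_CliqueMinor

/-! Row 42 / S0058, sec 07 (4)-(8) = 10.8 (port assembly): frozen definitions and interfaces. -/

set_option autoImplicit false
set_option linter.unusedSectionVars false

namespace Crest.Agent.R042.Asm220

open Finset Crest.Agent.R042.Conn353 Crest.Agent.R042.Menger353

variable {V : Type*} [DecidableEq V]

/-- conclusion of Theorem W / W': inside the piece `H`, for `a` roots, `m` pairs and a set of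
blocked vertices, all distinct and in `Y`, there is a rooted `K_a` model and disjoint connected
sets joining the pairs, avoiding the blocked vertices. -/
def Woven (G : SimpleGraph V) (H Y : Finset V) (a c : ℕ) : Prop :=
  ∀ (r : Fin a → V) (m : ℕ) (s t : Fin m → V) (Bl : Finset V),
    Function.Injective r → Function.Injective s → Function.Injective t →
    (∀ i j, r i ≠ s j) → (∀ i j, r i ≠ t j) → (∀ i j, s i ≠ t j) →
    (∀ i, r i ∈ Y) → (∀ i, s i ∈ Y) → (∀ i, t i ∈ Y) → Bl ⊆ Y →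
    (∀ i, r i ∉ Bl) → (∀ i, s i ∉ Bl) → (∀ i, t i ∉ Bl) → 2 * m + Bl.card ≤ 2 * c →
    ∃ (B : Fin a → Finset V) (P : Fin m → Finset V),
      (∀ i, B i ⊆ H ∧ Conn G (B i) ∧ r i ∈ B i) ∧
      (∀ i, P i ⊆ H ∧ Conn G (P i) ∧ s i ∈ P i ∧ t i ∈ P i) ∧
      (∀ i j, i ≠ j → Disjoint (B i) (B j)) ∧
      (∀ i j, i ≠ j → Disjoint (P i) (P j)) ∧
      (∀ i j, Disjoint (B i) (P j)) ∧
      (∀ i, Disjoint (B i) Bl) ∧ (∀ i, Disjoint (P i) Bl) ∧
      (∀ i j, i ≠ j → ∃ x ∈ B i, ∃ y ∈ B j, G.Adj x y)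

/-- the hub `H0` links disjoint pairs of `Y0` by disjoint connected sets avoiding the blocked
vertices, as long as at most `n` vertices are used. -/
def HubLinked (G : SimpleGraph V) (H0 Y0 : Finset V) (n : ℕ) : Prop :=
  ∀ (m : ℕ) (s t : Fin m → V) (Bl : Finset V),
    Function.Injective s → Function.Injective t → (∀ i j, s i ≠ t j) →
    (∀ i, s i ∈ Y0) → (∀ i, t i ∈ Y0) → Bl ⊆ Y0 →
    (∀ i, s i ∉ Bl) → (∀ i, t i ∉ Bl) → 2 * m + Bl.card ≤ n →
    ∃ Q : Fin m → Finset V,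
      (∀ i, Q i ⊆ H0 ∧ Conn G (Q i) ∧ s i ∈ Q i ∧ t i ∈ Q i) ∧
      (∀ i j, i ≠ j → Disjoint (Q i) (Q j)) ∧ (∀ i, Disjoint (Q i) Bl)

/-- index set of the pieces. -/
abbrev Pr (s : ℕ) : Type := {x : Fin s × Fin s // x.1 < x.2}

/-- output of (5)+(6): `D j i` = branch set `i` of the piece `j` united with its leg to the hub,
`y j i` = its arrival in the hub. -/
structure Legs (G : SimpleGraph V) (W H0 Y0 : Finset V) {ι : Type*} (a : ℕ)
    (D : ι → Fin a → Finset V) (y : ι → Fin a → V) : Prop where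
  sub : ∀ j i, D j i ⊆ W
  conn : ∀ j i, Conn G (D j i)
  mem : ∀ j i, y j i ∈ D j i
  memY : ∀ j i, y j i ∈ Y0
  hub : ∀ j i, ∀ x ∈ D j i, x ∈ H0 → x = y j i
  disj : ∀ j i j' i', (j, i) ≠ (j', i') → Disjoint (D j i) (D j' i')
  adj : ∀ j i i', i ≠ i' → ∃ x ∈ D j i, ∃ z ∈ D j i', G.Adj x z

/-- the statement of (5)+(6) (helper153). -/
def LegsStmt : Prop :=
  ∀ {V : Type} [DecidableEq V] (G : SimpleGraph V) {ι : Type} [Fintype ι] [DecidableEq ι]
    (W H0 Y0 : Finset V) (H Y S : ι → Finset V) (a c : ℕ) (P : Finset (List V)),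
    (∀ j, Y j ⊆ H j) → (∀ j, H j ⊆ W) → Y0 ⊆ H0 → H0 ⊆ W →
    (∀ i j, i ≠ j → Disjoint (H i) (H j)) → (∀ j, Disjoint (H j) H0) →
    (∀ j, S j ⊆ Y j) → (∀ j, (S j).card = a) →
    Linkage G (W \ (Finset.univ.biUnion (fun j => H j \ Y j) ∪ (H0 \ Y0)))
      (Finset.univ.biUnion S) Y0 P →
    P.card = a * Fintype.card ι → a * Fintype.card ι ≤ c →
    (∀ j, Woven G (H j) (Y j) a c) →
    ∃ (D : ι → Fin a → Finset V) (y : ι → Fin a → V), Legs G W H0 Y0 a D y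

/-- the statement of (7)+(8) (helper890). -/
def TokensStmt : Prop :=
  ∀ {V : Type} [DecidableEq V] (G : SimpleGraph V) {s g : ℕ}, 2 ≤ s →
    ∀ (W H0 Y0 : Finset V) (D : Pr s → Fin (4 * g) → Finset V) (y : Pr s → Fin (4 * g) → V),
    H0 ⊆ W → Y0 ⊆ H0 → Legs G W H0 Y0 (4 * g) D y →
    HubLinked G H0 Y0 (4 * g * Fintype.card (Pr s)) →
    ∃ B : Fin (s * g) → Finset V, (∀ i, B i ⊆ W) ∧ (∀ i, Conn G (B i)) ∧
      (∀ i j, i ≠ j → Disjoint (B i) (B j)) ∧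
      (∀ i j, i ≠ j → ∃ x ∈ B i, ∃ z ∈ B j, G.Adj x z)

end Crest.Agent.R042.Asm220
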