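import Mathlib
import Crest.Agent.R042.AsmDefs_220

/-! Row 42 / S0058, sec 07 (4): the port paths, and the final assembly from (5)-(8). -/

set_option autoImplicit false
set_option linter.unusedSectionVars false

namespace Crest.Agent.R042.Asm220

open Finset Crest.Agent.R042.Conn353 Crest.Agent.R042.Menger353

variable {V : Type*} [DecidableEq V]

/-- (4) existence of the port paths. -/
theorem ports (G : SimpleGraph V) {ι : Type*} [Fintype ι] [DecidableEq ι]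
    (W Z H0 Y0 : Finset V) (H Y : ι → Finset V) (a θ : ℕ)
    (hYH : ∀ j, Y j ⊆ H j) (hHW : ∀ j, H j ⊆ W) (hY0 : Y0 ⊆ H0) (hH0 : H0 ⊆ W)
    (hd : ∀ i j, i ≠ j → Disjoint (H i) (H j)) (hd0 : ∀ j, Disjoint (H j) H0)
    (hYZ : ∀ j, Disjoint (Y j) Z) (hY0Z : Disjoint Y0 Z)
    (hYc : ∀ j, a ≤ (Y j).card) (hY0c : a * Fintype.card ι ≤ Y0.card)
    (hC2 : ∀ A B, Sep G W A B → (A ∩ B).card ≤ θ → A \ B ⊆ Z ∨ B \ A ⊆ Z)
    (hθ : a * Fintype.card ι + (∑ j, (H j \ Y j).card + (H0 \ Y0).card) ≤ θ) :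
    ∃ (S : ι → Finset V) (P : Finset (List V)), (∀ j, S j ⊆ Y j) ∧ (∀ j, (S j).card = a) ∧
      Linkage G (W \ (Finset.univ.biUnion (fun j => H j \ Y j) ∪ (H0 \ Y0)))
        (Finset.univ.biUnion S) Y0 P ∧ P.card = a * Fintype.card ι := by
  classical
  have hS : ∀ j, ∃ S : Finset V, S ⊆ Y j ∧ S.card = a := fun j =>
    Finset.exists_subset_card_eq (hYc j)
  choose S hSY hSc using hS
  set Zs : Finset V := Finset.univ.biUnion (fun j => H j \ Y j) ∪ (H0 \ Y0) with hZs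
  have hSdis : ∀ i ∈ (Finset.univ : Finset ι), ∀ j ∈ (Finset.univ : Finset ι), i ≠ j →
      Disjoint (S i) (S j) := fun i _ j _ hij =>
    Finset.disjoint_of_subset_left ((hSY i).trans (hYH i))
      (Finset.disjoint_of_subset_right ((hSY j).trans (hYH j)) (hd i j hij))
  have hScard : (Finset.univ.biUnion S).card = a * Fintype.card ι := by
    rw [Finset.card_biUnion hSdis]
    simp [hSc, mul_comm]
  -- membership facts
  have hYnot : ∀ j, ∀ x ∈ Y j, x ∉ Zs := by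
    intro j x hx hxZ
    rw [hZs, Finset.mem_union, Finset.mem_biUnion] at hxZ
    rcases hxZ with ⟨i, -, hi⟩ | h
    · rw [Finset.mem_sdiff] at hi
      by_cases hij : i = j
      · subst hij; exact hi.2 hx
      · exact Finset.disjoint_left.1 (hd i j hij) hi.1 (hYH j hx)
    · rw [Finset.mem_sdiff] at h
      exact Finset.disjoint_left.1 (hd0 j) (hYH j hx) h.1
  have hY0not : ∀ x ∈ Y0, x ∉ Zs := by
    intro x hx hxZ
    rw [hZs, Finset.mem_union, Finset.mem_biUnion] at hxZ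
    rcases hxZ with ⟨i, -, hi⟩ | h
    · rw [Finset.mem_sdiff] at hi
      exact Finset.disjoint_left.1 (hd0 i) hi.1 (hY0 hx)
    · rw [Finset.mem_sdiff] at h
      exact h.2 hx
  have hSW : Finset.univ.biUnion S ⊆ W \ Zs := by
    intro x hx
    rw [Finset.mem_biUnion] at hx
    obtain ⟨j, -, hj⟩ := hx
    rw [Finset.mem_sdiff]
    exact ⟨hHW j (hYH j (hSY j hj)), hYnot j x (hSY j hj)⟩
  have hY0W : Y0 ⊆ W \ Zs := fun x hx => Finset.mem_sdiff.2 ⟨hH0 (hY0 hx), hY0not x hx⟩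
  have hZsW : Zs ⊆ W := by
    rw [hZs]
    refine Finset.union_subset ?_ (Finset.sdiff_subset.trans hH0)
    intro x hx
    rw [Finset.mem_biUnion] at hx
    obtain ⟨j, -, hj⟩ := hx
    exact hHW j (Finset.mem_sdiff.1 hj).1
  have hZsc : Zs.card ≤ ∑ j, (H j \ Y j).card + (H0 \ Y0).card := by
    rw [hZs]
    refine (Finset.card_union_le _ _).trans ?_
    exact Nat.add_le_add_right Finset.card_biUnion_le _
  rcases menger_sep (G := G) hSW hY0W (a * Fintype.card ι) with ⟨P, hP, hPc⟩ |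
    ⟨A', B', hsep, hA', hB', hlt⟩
  · exact ⟨S, P, hSY, hSc, hP, hPc⟩
  · exfalso
    have hsep' : Sep G W (A' ∪ Zs) (B' ∪ Zs) := by
      refine ⟨?_, ?_⟩
      · have h1 := hsep.union
        have : A' ∪ Zs ∪ (B' ∪ Zs) = (A' ∪ B') ∪ Zs := by
          ext x; simp only [Finset.mem_union]; tauto
        rw [this, h1, Finset.sdiff_union_of_subset hZsW]
      · intro x hx hxB y hy hyA hadj
        simp only [Finset.mem_union, not_or] at hx hxB hy hyA
        have hxA' : x ∈ A' := by tauto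
        have hyB' : y ∈ B' := by tauto
        exact hsep.nadj x hxA' hxB.1 y hyB' hyA.1 hadj
    have hcard : ((A' ∪ Zs) ∩ (B' ∪ Zs)).card ≤ θ := by
      have h1 : (A' ∪ Zs) ∩ (B' ∪ Zs) = (A' ∩ B') ∪ Zs := by
        ext x; simp only [Finset.mem_union, Finset.mem_inter]; tauto
      rw [h1]
      refine (Finset.card_union_le _ _).trans ?_
      omega
    -- some port is on the left, some hub vertex on the right
    obtain ⟨x, hxS, hxB⟩ : ∃ x ∈ Finset.univ.biUnion S, x ∉ B' := by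
      by_contra hcon
      push Not at hcon
      have : Finset.univ.biUnion S ⊆ A' ∩ B' := fun x hx =>
        Finset.mem_inter.2 ⟨hA' hx, hcon x hx⟩
      have := Finset.card_le_card this
      omega
    obtain ⟨z, hzY, hzA⟩ : ∃ z ∈ Y0, z ∉ A' := by
      by_contra hcon
      push Not at hcon
      have : Y0 ⊆ A' ∩ B' := fun x hx => Finset.mem_inter.2 ⟨hcon x hx, hB' hx⟩
      have := Finset.card_le_card this
      omega
    have hxZs : x ∉ Zs := (Finset.mem_sdiff.1 (hSW hxS)).2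
    have hzZs : z ∉ Zs := hY0not z hzY
    rcases hC2 _ _ hsep' hcard with h | h
    · have : x ∈ Z := h (Finset.mem_sdiff.2 ⟨Finset.mem_union_left _ (hA' hxS),
        fun h' => (Finset.mem_union.1 h').elim hxB hxZs⟩)
      rw [Finset.mem_biUnion] at hxS
      obtain ⟨j, -, hj⟩ := hxS
      exact Finset.disjoint_left.1 (hYZ j) (hSY j hj) this
    · have : z ∈ Z := h (Finset.mem_sdiff.2 ⟨Finset.mem_union_left _ (hB' hzY),
        fun h' => (Finset.mem_union.1 h').elim hzA hzZs⟩)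
      exact Finset.disjoint_left.1 hY0Z hzY this

/-- the whole port assembly, from the statements of (5)+(6) and (7)+(8). -/
theorem assembly_of (hLegs : LegsStmt) (hTok : TokensStmt)
    {V : Type} [DecidableEq V] (G : SimpleGraph V) {s g : ℕ} (hs : 2 ≤ s)
    (W Z H0 Y0 : Finset V) (H Y : Pr s → Finset V) (θ : ℕ)
    (hYH : ∀ j, Y j ⊆ H j) (hHW : ∀ j, H j ⊆ W) (hY0 : Y0 ⊆ H0) (hH0 : H0 ⊆ W)
    (hd : ∀ i j, i ≠ j → Disjoint (H i) (H j)) (hd0 : ∀ j, Disjoint (H j) H0)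
    (hYZ : ∀ j, Disjoint (Y j) Z) (hY0Z : Disjoint Y0 Z)
    (hYc : ∀ j, 4 * g ≤ (Y j).card) (hY0c : 4 * g * Fintype.card (Pr s) ≤ Y0.card)
    (hC2 : ∀ A B, Sep G W A B → (A ∩ B).card ≤ θ → A \ B ⊆ Z ∨ B \ A ⊆ Z)
    (hθ : 4 * g * Fintype.card (Pr s) + (∑ j, (H j \ Y j).card + (H0 \ Y0).card) ≤ θ)
    (hW : ∀ j, Woven G (H j) (Y j) (4 * g) (4 * g * Fintype.card (Pr s)))
    (hHub : HubLinked G H0 Y0 (4 * g * Fintype.card (Pr s))) :
    ∃ B : Fin (s * g) → Finset V, (∀ i, B i ⊆ W) ∧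
      Crest.CombinatoricsR.GraphMinor.IsCliqueMinorModel G B := by
  obtain ⟨S, P, hSY, hSc, hP, hPc⟩ := ports G W Z H0 Y0 H Y (4 * g) θ hYH hHW hY0 hH0 hd hd0
    hYZ hY0Z hYc hY0c hC2 hθ
  obtain ⟨D, y, hDy⟩ := hLegs G W H0 Y0 H Y S (4 * g) (4 * g * Fintype.card (Pr s)) P hYH hHW
    hY0 hH0 hd hd0 hSY hSc hP hPc le_rfl hW
  obtain ⟨B, hB1, hB2, hB3, hB4⟩ := hTok G hs W H0 Y0 D y hH0 hY0 hDy hHub
  exact ⟨B, hB1, fun i => (hB2 i).nonempty, hB3, hB2, hB4⟩

end Crest.Agent.R042.Asm220
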