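import Mathlib
import Crest.Agent.R042.Conn_353
import Crest.Agent.R042.Menger_353

/-! Row 42 / S0058, sec 03: list colourings on finite vertex sets, `(k,θ)`-critical pairs, their
degrees (C0), hardness (C1), connectivity (C2), the FACT of sec 10.7 and existence. -/

set_option autoImplicit false
set_option linter.unusedSectionVars false

namespace Crest.Agent.R042.Crit374

open Finset Conn353 Menger353

variable {V : Type*} [DecidableEq V] {G : SimpleGraph V}

/-- `c` is a proper colouring of `G[S]`. -/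
def ProperOn (G : SimpleGraph V) (S : Finset V) (c : V → ℕ) : Prop :=
  ∀ u ∈ S, ∀ v ∈ S, G.Adj u v → c u ≠ c v

/-- `G[S]` has a proper colouring from the lists `L`. -/
def ColOn (G : SimpleGraph V) (S : Finset V) (L : V → Finset ℕ) : Prop :=
  ∃ c : V → ℕ, (∀ v ∈ S, c v ∈ L v) ∧ ProperOn G S c

/-- `G[S]` is `q`-choosable ("phi(S) ≤ q"). -/
def Choos (G : SimpleGraph V) (S : Finset V) (q : ℕ) : Prop :=
  ∀ L : V → Finset ℕ, (∀ v ∈ S, q ≤ (L v).card) → ColOn G S L

/-- the colouring `f` of `Z` extends to a proper colouring of `G[S]` with colours from `L`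
outside `Z`. -/
def Ext (G : SimpleGraph V) (S Z : Finset V) (L : V → Finset ℕ) (f : V → ℕ) : Prop :=
  ∃ c : V → ℕ, (∀ v ∈ Z, c v = f v) ∧ (∀ v ∈ S \ Z, c v ∈ L v) ∧ ProperOn G S c

/-- bad instance, for a fixed list assignment. -/
structure BadI (G : SimpleGraph V) (L : V → Finset ℕ) (θ : ℕ) (S Z : Finset V) (f : V → ℕ) :
    Prop where
  sub : Z ⊆ S
  card : Z.card ≤ 2 * θ
  proper : ProperOn G Z f
  bad : ¬ Ext G S Z L f

/-- `(S,Z)` is `(k,θ)`-critical (sec 03). -/
def Crit (G : SimpleGraph V) (S Z : Finset V) (k θ : ℕ) : Prop :=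
  ∃ (L : V → Finset ℕ) (f : V → ℕ), (∀ v ∈ S, k ≤ (L v).card) ∧ BadI G L θ S Z f ∧
    ∀ S', S' ⊂ S → ∀ Z' f', ¬ BadI G L θ S' Z' f'

/-! ### basic facts on list colourings -/

lemma ProperOn.mono {S T : Finset V} (h : S ⊆ T) {c : V → ℕ} (hc : ProperOn G T c) :
    ProperOn G S c := fun u hu v hv => hc u (h hu) v (h hv)

lemma ColOn.mono {S T : Finset V} (h : S ⊆ T) {L : V → Finset ℕ} (hc : ColOn G T L) :
    ColOn G S L := by
  obtain ⟨c, h1, h2⟩ := hc
  exact ⟨c, fun v hv => h1 v (h hv), h2.mono h⟩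

lemma ColOn.mono_list {S : Finset V} {L L' : V → Finset ℕ} (h : ∀ v ∈ S, L v ⊆ L' v)
    (hc : ColOn G S L) : ColOn G S L' := by
  obtain ⟨c, h1, h2⟩ := hc
  exact ⟨c, fun v hv => h v hv (h1 v hv), h2⟩

lemma Choos.mono {S T : Finset V} (h : S ⊆ T) {q : ℕ} (hT : Choos G T q) : Choos G S q := by
  intro L hL
  have := hT (fun v => if v ∈ S then L v else Finset.range q) (by
    intro v hv
    by_cases hvS : v ∈ S
    · simpa [hvS] using hL v hvS
    · simp [hvS])
  refine (this.mono h).mono_list ?_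
  intro v hv
  simp [hv]

lemma Choos.mono_card {S : Finset V} {q q' : ℕ} (h : q ≤ q') (hS : Choos G S q) : Choos G S q' :=
  fun L hL => hS L (fun v hv => h.trans (hL v hv))

lemma not_choos_mono {S T : Finset V} (h : S ⊆ T) {q q' : ℕ} (hq : q' ≤ q)
    (hS : ¬ Choos G S q) : ¬ Choos G T q' := fun hT => hS ((hT.mono h).mono_card hq)

lemma choos_empty (q : ℕ) : Choos G (∅ : Finset V) q :=
  fun L _ => ⟨fun _ => 0, by simp, fun u hu => absurd hu (Finset.notMem_empty u)⟩

lemma nonempty_of_not_choos {S : Finset V} {q : ℕ} (h : ¬ Choos G S q) : S.Nonempty := by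
  rw [Finset.nonempty_iff_ne_empty]
  rintro rfl
  exact h (choos_empty q)

/-- a colouring of `T` and lists on `Q` avoiding the colours of the neighbours in `T`: glue. -/
lemma glue_proper {T Q : Finset V} {c d : V → ℕ} (hd : Disjoint T Q) (hc : ProperOn G T c)
    (hq : ProperOn G Q d) (h : ∀ v ∈ Q, ∀ u ∈ T, G.Adj v u → d v ≠ c u) :
    ProperOn G (T ∪ Q) (fun v => if v ∈ Q then d v else c v) := by
  intro u hu v hv huv
  have hu' : u ∉ Q → u ∈ T := fun h => (Finset.mem_union.1 hu).resolve_right h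
  have hv' : v ∉ Q → v ∈ T := fun h => (Finset.mem_union.1 hv).resolve_right h
  by_cases h1 : u ∈ Q <;> by_cases h2 : v ∈ Q
  · simpa [h1, h2] using hq u h1 v h2 huv
  · simpa [h1, h2] using h u h1 v (hv' h2) huv
  · simpa [h1, h2] using (h v h2 u (hu' h1) huv.symm).symm
  · simpa [h1, h2] using hc u (hu' h1) v (hv' h2) huv

/-- removing the colours of at most `t` neighbours costs at most `t`. -/
lemma card_sdiff_image_ge {L : Finset ℕ} {N : Finset V} (c : V → ℕ) {q t : ℕ} (hL : q ≤ L.card)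
    (hN : N.card ≤ t) : q - t ≤ (L \ N.image c).card := by
  have h1 : (N.image c).card ≤ t := Finset.card_image_le.trans hN
  have h2 := Finset.le_card_sdiff (N.image c) L
  omega

/-- extension of a partial colouring to a choosable set. -/
lemma extend_choos [DecidableRel G.Adj] {T Q : Finset V} {L : V → Finset ℕ} {c : V → ℕ}
    {q t : ℕ} (hd : Disjoint T Q) (hc : ProperOn G T c) (hL : ∀ v ∈ Q, q ≤ (L v).card)
    (ht : ∀ v ∈ Q, (T.filter (G.Adj v)).card ≤ t) (hQ : Choos G Q (q - t)) :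
    ∃ c' : V → ℕ, (∀ v ∈ T, c' v = c v) ∧ (∀ v ∈ Q, c' v ∈ L v) ∧ ProperOn G (T ∪ Q) c' := by
  obtain ⟨d, h1, h2⟩ := hQ (fun v => L v \ (T.filter (G.Adj v)).image c)
    (fun v hv => card_sdiff_image_ge c (hL v hv) (ht v hv))
  refine ⟨fun v => if v ∈ Q then d v else c v, ?_, ?_, ?_⟩
  · intro v hv
    have : v ∉ Q := fun h => Finset.disjoint_left.1 hd hv h
    simp [this]
  · intro v hv
    have := h1 v hv
    simp only [hv, if_true]
    exact (Finset.mem_sdiff.1 this).1
  · refine glue_proper hd hc h2 ?_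
    intro v hv u hu huv heq
    have := (Finset.mem_sdiff.1 (h1 v hv)).2
    apply this
    rw [heq]
    exact Finset.mem_image_of_mem c (Finset.mem_filter.2 ⟨hu, huv⟩)

lemma choos_singleton (v : V) : Choos G {v} 1 := by
  intro L hL
  have h := hL v (Finset.mem_singleton_self v)
  obtain ⟨x, hx⟩ := Finset.card_pos.1 (by omega : 0 < (L v).card)
  refine ⟨fun _ => x, ?_, ?_⟩
  · intro w hw
    rw [Finset.mem_singleton] at hw
    rw [hw]; exact hx
  · intro u hu w hw huw
    rw [Finset.mem_singleton] at hu hw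
    rw [hu, hw] at huw
    exact absurd huw (G.loopless.irrefl v)

/-- a set in which every nonempty subset has a vertex of degree `< q` is `q`-choosable. -/
theorem choos_of_degenerate [DecidableRel G.Adj] {S : Finset V} {q : ℕ} (hq : 1 ≤ q)
    (h : ∀ X, X ⊆ S → X.Nonempty → ∃ x ∈ X, (X.filter (G.Adj x)).card ≤ q - 1) :
    Choos G S q := by
  induction' hn : S.card using Nat.strong_induction_on with n ih generalizing S
  by_cases hS : S = ∅
  · subst hS; exact choos_empty q
  obtain ⟨x, hx, hdx⟩ := h S (le_refl _) (Finset.nonempty_iff_ne_empty.2 hS)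
  have hcard : (S.erase x).card < n := by
    rw [← hn]; exact Finset.card_erase_lt_of_mem hx
  have ih' := ih _ hcard (S := S.erase x)
    (fun X hX hne => h X (hX.trans (Finset.erase_subset _ _)) hne) rfl
  intro L hL
  obtain ⟨c, h1, h2⟩ := ih' L (fun v hv => hL v (Finset.mem_of_mem_erase hv))
  have hd : Disjoint (S.erase x) {x} := by
    rw [Finset.disjoint_singleton_right]; exact Finset.notMem_erase x S
  obtain ⟨c', h3, h4, h5⟩ := extend_choos (q := q) (t := q - 1) (Q := {x}) (L := L) hd h2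
    (by intro v hv; rw [Finset.mem_singleton] at hv; rw [hv]; exact hL x hx)
    (by
      intro v hv; rw [Finset.mem_singleton] at hv; rw [hv]
      exact (Finset.card_le_card (Finset.filter_subset_filter _ (Finset.erase_subset _ _))).trans
        hdx)
    ((choos_singleton x).mono_card (by omega))
  have hun : S.erase x ∪ {x} = S := by
    ext v
    simp only [Finset.mem_union, Finset.mem_erase, Finset.mem_singleton]
    constructor
    · rintro (h | rfl)
      · exact h.2
      · exact hx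
    · intro hv
      by_cases hvx : v = x
      · exact Or.inr hvx
      · exact Or.inl ⟨hvx, hv⟩
  rw [hun] at h5
  refine ⟨c', ?_, h5⟩
  intro v hv
  by_cases hvx : v = x
  · rw [hvx]; exact h4 x (Finset.mem_singleton_self x)
  · have hv' : v ∈ S.erase x := Finset.mem_erase.2 ⟨hvx, hv⟩
    rw [h3 v hv']
    exact h1 v hv'

/-! ### critical pairs -/

variable {S Z : Finset V} {k θ : ℕ}

lemma Crit.sub (h : Crit G S Z k θ) : Z ⊆ S := by
  obtain ⟨L, f, _, hb, _⟩ := h
  exact hb.sub

lemma Crit.card_le (h : Crit G S Z k θ) : Z.card ≤ 2 * θ := by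
  obtain ⟨L, f, _, hb, _⟩ := h
  exact hb.card

lemma ext_of_not_bad {L : V → Finset ℕ} {f : V → ℕ} (h1 : Z ⊆ S) (h2 : Z.card ≤ 2 * θ)
    (h3 : ProperOn G Z f) (h : ¬ BadI G L θ S Z f) : Ext G S Z L f := by
  by_contra h4
  exact h ⟨h1, h2, h3, h4⟩

/-- FACT (general form): if every vertex of a nonempty `Q ⊆ S \ Z` has at most `t` neighbours in
`S \ Q`, then `Q` is hard for lists of size `k - t`. -/
theorem Crit.fact' [DecidableRel G.Adj] (h : Crit G S Z k θ) {Q : Finset V} (hQ : Q ⊆ S \ Z)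
    (hne : Q.Nonempty) {t : ℕ} (ht : ∀ v ∈ Q, ((S \ Q).filter (G.Adj v)).card ≤ t) :
    ¬ Choos G Q (k - t) := by
  intro hC
  obtain ⟨L, f, hL, hb, hmin⟩ := h
  have hQS : Q ⊆ S := hQ.trans Finset.sdiff_subset
  have hss : S \ Q ⊂ S := by
    refine Finset.ssubset_iff_subset_ne.2 ⟨Finset.sdiff_subset, ?_⟩
    intro heq
    obtain ⟨x, hx⟩ := hne
    have : x ∈ S \ Q := by rw [heq]; exact hQS hx
    exact (Finset.mem_sdiff.1 this).2 hx
  have hZ : Z ⊆ S \ Q := by
    intro z hz
    refine Finset.mem_sdiff.2 ⟨hb.sub hz, fun hzQ => ?_⟩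
    exact (Finset.mem_sdiff.1 (hQ hzQ)).2 hz
  obtain ⟨c, h1, h2, h3⟩ := ext_of_not_bad hZ hb.card hb.proper (hmin _ hss Z f)
  have hd : Disjoint (S \ Q) Q := Finset.sdiff_disjoint
  obtain ⟨c', h4, h5, h6⟩ := extend_choos (L := L) hd h3 (fun v hv => hL v (hQS hv)) ht hC
  rw [Finset.sdiff_union_of_subset hQS] at h6
  apply hb.bad
  refine ⟨c', ?_, ?_, h6⟩
  · intro v hv
    rw [h4 v (hZ hv), h1 v hv]
  · intro v hv
    rw [Finset.mem_sdiff] at hv
    by_cases hvQ : v ∈ Q
    · exact h5 v hvQ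
    · have hv' : v ∈ S \ Q := Finset.mem_sdiff.2 ⟨hv.1, hvQ⟩
      rw [h4 v hv']
      exact h2 v (Finset.mem_sdiff.2 ⟨hv', hv.2⟩)

/-- FACT of sec 10.7. -/
theorem Crit.fact [DecidableRel G.Adj] (h : Crit G S Z k θ) {Q : Finset V} (hQ : Q ⊆ S \ Z)
    (hne : Q.Nonempty) {t : ℕ} (ht : ∀ v ∈ Q, (((S \ Z) \ Q).filter (G.Adj v)).card ≤ t) :
    ¬ Choos G Q (k - 2 * θ - t) := by
  have := h.fact' hQ hne (t := 2 * θ + t) (by
    intro v hv
    have hsub : (S \ Q).filter (G.Adj v) ⊆ Z ∪ ((S \ Z) \ Q).filter (G.Adj v) := by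
      intro u hu
      rw [Finset.mem_filter, Finset.mem_sdiff] at hu
      rw [Finset.mem_union, Finset.mem_filter, Finset.mem_sdiff, Finset.mem_sdiff]
      by_cases huZ : u ∈ Z
      · exact Or.inl huZ
      · exact Or.inr ⟨⟨⟨hu.1.1, huZ⟩, hu.1.2⟩, hu.2⟩
    refine (Finset.card_le_card hsub).trans ((Finset.card_union_le _ _).trans ?_)
    exact Nat.add_le_add h.card_le (ht v hv))
  rwa [← Nat.sub_sub] at this

/-- (C1): `S \ Z` is hard for lists of size `k - 2θ`. -/
theorem Crit.hard (h : Crit G S Z k θ) : ¬ Choos G (S \ Z) (k - 2 * θ) := by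
  classical
  intro hC
  obtain ⟨L, f, hL, hb, -⟩ := h
  have hd : Disjoint Z (S \ Z) := Finset.disjoint_sdiff
  obtain ⟨c', h4, h5, h6⟩ := extend_choos (L := L) (t := 2 * θ) (q := k) hd hb.proper
    (fun v hv => hL v (Finset.mem_sdiff.1 hv).1)
    (fun v _ => (Finset.card_le_card (Finset.filter_subset _ _)).trans hb.card) hC
  rw [Finset.union_sdiff_of_subset hb.sub] at h6
  exact hb.bad ⟨c', h4, h5, h6⟩

lemma Crit.nonempty (h : Crit G S Z k θ) : (S \ Z).Nonempty := nonempty_of_not_choos h.hard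

/-- (C0): every vertex of `S \ Z` has at least `k` neighbours in `S`. -/
theorem Crit.deg [DecidableRel G.Adj] (h : Crit G S Z k θ) {v : V} (hv : v ∈ S \ Z) :
    k ≤ (S.filter (G.Adj v)).card := by
  by_contra hlt
  push Not at hlt
  have hQ : ({v} : Finset V) ⊆ S \ Z := Finset.singleton_subset_iff.2 hv
  refine h.fact' hQ (Finset.singleton_nonempty v) (t := k - 1) ?_ ?_
  · intro w hw
    rw [Finset.mem_singleton] at hw
    subst hw
    have : (S \ {w}).filter (G.Adj w) ⊆ S.filter (G.Adj w) :=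
      Finset.filter_subset_filter _ Finset.sdiff_subset
    have := Finset.card_le_card this
    omega
  · exact (choos_singleton v).mono_card (by omega)

/-- the number of neighbours of `v ∈ S \ Z` inside `S \ Z`. -/
theorem Crit.deg' [DecidableRel G.Adj] (h : Crit G S Z k θ) {v : V} (hv : v ∈ S \ Z) :
    k - 2 * θ ≤ ((S \ Z).filter (G.Adj v)).card := by
  have h1 := h.deg hv
  have h2 : S.filter (G.Adj v) ⊆ Z ∪ (S \ Z).filter (G.Adj v) := by
    intro u hu
    rw [Finset.mem_filter] at hu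
    rw [Finset.mem_union, Finset.mem_filter, Finset.mem_sdiff]
    by_cases huZ : u ∈ Z
    · exact Or.inl huZ
    · exact Or.inr ⟨⟨hu.1, huZ⟩, hu.2⟩
  have h3 := (Finset.card_le_card h2).trans (Finset.card_union_le _ _)
  have h4 := h.card_le
  omega

/-- `S \ Z` has more than `k - 2θ` vertices. -/
theorem Crit.card_lt (h : Crit G S Z k θ) (hk : 2 * θ ≤ k) : k - 2 * θ < (S \ Z).card := by
  classical
  obtain ⟨v, hv⟩ := h.nonempty
  refine lt_of_le_of_lt (h.deg' hv) (Finset.card_lt_card ?_)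
  refine Finset.ssubset_iff_subset_ne.2 ⟨Finset.filter_subset _ _, ?_⟩
  intro heq
  have : v ∈ (S \ Z).filter (G.Adj v) := by rw [heq]; exact hv
  exact (G.loopless.irrefl v) (Finset.mem_filter.1 this).2

/-- (C2), one half. -/
theorem Crit.sep_aux (h : Crit G S Z k θ) {A B : Finset V} (hAB : Sep G S A B)
    (hc : (A ∩ B).card ≤ θ) (hA : ¬ A \ B ⊆ Z) (hB : ¬ B \ A ⊆ Z)
    (hZ : (Z ∩ (B \ A)).card ≤ θ) : False := by
  obtain ⟨L, f, hL, hb, hmin⟩ := h
  have hAS := hAB.left_sub
  have hBS := hAB.right_sub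
  have h1 : A ∪ Z ⊂ S := by
    refine Finset.ssubset_iff_subset_ne.2 ⟨Finset.union_subset hAS hb.sub, ?_⟩
    intro heq
    apply hB
    intro x hx
    rw [Finset.mem_sdiff] at hx
    have : x ∈ A ∪ Z := by rw [heq]; exact hBS hx.1
    exact (Finset.mem_union.1 this).resolve_left hx.2
  obtain ⟨ψ, p1, p2, p3⟩ := ext_of_not_bad Finset.subset_union_right hb.card hb.proper
    (hmin _ h1 Z f)
  set Z' : Finset V := (A ∩ B) ∪ (Z ∩ (B \ A)) with hZ'
  have hZ'B : Z' ⊆ B := by
    intro x hx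
    rw [hZ', Finset.mem_union, Finset.mem_inter, Finset.mem_inter, Finset.mem_sdiff] at hx
    tauto
  have hZ'1 : Z' ⊆ A ∪ Z := by
    intro x hx
    rw [hZ', Finset.mem_union, Finset.mem_inter, Finset.mem_inter, Finset.mem_sdiff] at hx
    rw [Finset.mem_union]
    tauto
  have hZ'c : Z'.card ≤ 2 * θ := by
    refine (Finset.card_union_le _ _).trans ?_
    omega
  have h2 : B ⊂ S := by
    refine Finset.ssubset_iff_subset_ne.2 ⟨hBS, ?_⟩
    intro heq
    apply hA
    intro x hx
    rw [Finset.mem_sdiff] at hx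
    exact absurd (by rw [heq]; exact hAS hx.1) hx.2
  obtain ⟨χ, q1, q2, q3⟩ := ext_of_not_bad hZ'B hZ'c (p3.mono hZ'1) (hmin _ h2 Z' ψ)
  -- on `A ∩ B` the two colourings agree
  have hagree : ∀ v ∈ A, v ∈ B → χ v = ψ v := by
    intro v hvA hvB
    exact q1 v (by rw [hZ', Finset.mem_union, Finset.mem_inter]; exact Or.inl ⟨hvA, hvB⟩)
  apply hb.bad
  refine ⟨fun v => if v ∈ B then χ v else ψ v, ?_, ?_, ?_⟩
  · intro v hv
    by_cases hvB : v ∈ B
    · simp only [hvB, if_true]
      have hvZ' : v ∈ Z' := by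
        rw [hZ', Finset.mem_union, Finset.mem_inter, Finset.mem_inter, Finset.mem_sdiff]
        by_cases hvA : v ∈ A
        · exact Or.inl ⟨hvA, hvB⟩
        · exact Or.inr ⟨hv, hvB, hvA⟩
      rw [q1 v hvZ', p1 v hv]
    · simp only [hvB, if_false]
      exact p1 v hv
  · intro v hv
    rw [Finset.mem_sdiff] at hv
    by_cases hvB : v ∈ B
    · simp only [hvB, if_true]
      by_cases hvA : v ∈ A
      · rw [hagree v hvA hvB]
        exact p2 v (Finset.mem_sdiff.2 ⟨Finset.mem_union_left _ hvA, hv.2⟩)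
      · refine q2 v (Finset.mem_sdiff.2 ⟨hvB, ?_⟩)
        rw [hZ', Finset.mem_union, Finset.mem_inter, Finset.mem_inter]
        tauto
    · simp only [hvB, if_false]
      have hvA : v ∈ A := by
        have := hv.1
        rw [← hAB.union, Finset.mem_union] at this
        exact this.resolve_right hvB
      exact p2 v (Finset.mem_sdiff.2 ⟨Finset.mem_union_left _ hvA, hv.2⟩)
  · have hval : ∀ v ∈ A, (if v ∈ B then χ v else ψ v) = ψ v := by
      intro v hvA
      by_cases hvB : v ∈ B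
      · simp only [hvB, if_true]; exact hagree v hvA hvB
      · simp only [hvB, if_false]
    have hval' : ∀ v ∈ B, (if v ∈ B then χ v else ψ v) = χ v := by
      intro v hvB
      simp only [hvB, if_true]
    have key : ∀ u ∈ S, ∀ v ∈ S, G.Adj u v → (u ∈ A ∧ v ∈ A) ∨ (u ∈ B ∧ v ∈ B) := by
      intro u hu v hv huv
      rw [← hAB.union, Finset.mem_union] at hu hv
      have h1 := hAB.nadj
      by_contra hcon
      push Not at hcon
      rcases hu with hu | hu
      · have hvA : v ∉ A := hcon.1 hu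
        have hvB : v ∈ B := hv.resolve_left hvA
        have huB : u ∉ B := fun h => hcon.2 h hvB
        exact h1 u hu huB v hvB hvA huv
      · have hvB : v ∉ B := hcon.2 hu
        have hvA : v ∈ A := hv.resolve_right hvB
        have huA : u ∉ A := fun h => hcon.1 h hvA
        exact h1 v hvA hvB u hu huA huv.symm
    intro u hu v hv huv
    rcases key u hu v hv huv with ⟨h1, h2⟩ | ⟨h1, h2⟩
    · show (if u ∈ B then χ u else ψ u) ≠ (if v ∈ B then χ v else ψ v)
      rw [hval u h1, hval v h2]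
      exact p3 u (Finset.mem_union_left _ h1) v (Finset.mem_union_left _ h2) huv
    · show (if u ∈ B then χ u else ψ u) ≠ (if v ∈ B then χ v else ψ v)
      rw [hval' u h1, hval' v h2]
      exact q3 u h1 v h2 huv

/-- (C2): connectivity of critical pairs. -/
theorem Crit.sep (h : Crit G S Z k θ) {A B : Finset V} (hAB : Sep G S A B)
    (hc : (A ∩ B).card ≤ θ) : A \ B ⊆ Z ∨ B \ A ⊆ Z := by
  by_contra hcon
  push Not at hcon
  have hZ2 := h.card_le
  by_cases hZ : (Z ∩ (B \ A)).card ≤ θ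
  · exact h.sep_aux hAB hc hcon.1 hcon.2 hZ
  · push Not at hZ
    have hsub : (Z ∩ (A \ B)) ∪ (Z ∩ (B \ A)) ⊆ Z :=
      Finset.union_subset Finset.inter_subset_left Finset.inter_subset_left
    have hdis : Disjoint (Z ∩ (A \ B)) (Z ∩ (B \ A)) := by
      rw [Finset.disjoint_left]
      intro x hx hx'
      rw [Finset.mem_inter, Finset.mem_sdiff] at hx hx'
      exact hx.2.2 hx'.2.1
    have hcard := Finset.card_le_card hsub
    rw [Finset.card_union_of_disjoint hdis] at hcard
    refine h.sep_aux hAB.symm (by rw [Finset.inter_comm]; exact hc) hcon.2 hcon.1 ?_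
    omega

/-- EXISTENCE of critical pairs. -/
theorem exists_crit {W : Finset V} (h : ¬ Choos G W k) (θ : ℕ) :
    ∃ S Z, S ⊆ W ∧ Crit G S Z k θ := by
  classical
  unfold Choos at h
  push Not at h
  obtain ⟨L, hL, hbad⟩ := h
  have hex : ∃ n, ∃ S, S ⊆ W ∧ S.card = n ∧ ∃ Z f, BadI G L θ S Z f := by
    refine ⟨W.card, W, le_refl _, rfl, ∅, fun _ => 0, ⟨Finset.empty_subset _, by simp, ?_, ?_⟩⟩
    · intro u hu; exact absurd hu (Finset.notMem_empty u)
    · rintro ⟨c, -, h2, h3⟩
      exact hbad ⟨c, by simpa using h2, h3⟩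
  obtain ⟨S, hSW, hSn, Z, f, hb⟩ := Nat.find_spec hex
  refine ⟨S, Z, hSW, L, f, fun v hv => hL v (hSW hv), hb, ?_⟩
  intro S' hS' Z' f' hb'
  refine Nat.find_min hex (m := S'.card) ?_ ⟨S', hS'.1.trans hSW, rfl, Z', f', hb'⟩
  have h9 := Finset.card_lt_card hS'
  omega

end Crest.Agent.R042.Crit374
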