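import Mathlib

/-! Row 42, sec 02 (Kalton-Roberts): existence of the bipartite expander of degree 3, by counting. -/

set_option autoImplicit false

namespace Crest.Agent.R042.Expander492

open Finset

/-- `choose n s * s! ≤ n^s`, in the reals, and `s^s ≤ e^s s!`. -/
lemma choose_le_real (n s : ℕ) : (n.choose s : ℝ) ≤ (n : ℝ) ^ s / (s.factorial : ℝ) := by
  exact_mod_cast Nat.choose_le_pow_div s n

lemma pow_self_div_factorial_le (s : ℕ) : (s : ℝ) ^ s / (s.factorial : ℝ) ≤ Real.exp s :=
  Real.pow_div_factorial_le_exp (s : ℝ) (Nat.cast_nonneg s) s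

/-- one term of the union bound. -/
lemma term_le {N n m s : ℕ} {ε : ℝ} (hn : n ≤ N * m) (hm : 1 ≤ m) (hs : 1 ≤ s)
    (hε : 4 * Real.exp 2 * (N : ℝ) ^ 2 * ε ≤ 1) (hse : (s : ℝ) ≤ ε * (N * m)) :
    (n.choose s : ℝ) * (m.choose s : ℝ) * ((s : ℝ) / m) ^ (3 * s) ≤ (1 / 4) ^ s := by
  have hm0 : (0 : ℝ) < m := by exact_mod_cast hm
  have hs0 : (0 : ℝ) < s := by exact_mod_cast hs
  have hf : (0 : ℝ) < (s.factorial : ℝ) := by exact_mod_cast Nat.factorial_pos s
  have h1 := choose_le_real n s
  have h2 := choose_le_real m s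
  have h3 := pow_self_div_factorial_le s
  have hnR : (n : ℝ) ≤ N * m := by exact_mod_cast hn
  have h1' : (n.choose s : ℝ) ≤ ((N : ℝ) * m) ^ s / (s.factorial : ℝ) := by
    refine h1.trans ?_
    gcongr
  have hpos : 0 ≤ ((s : ℝ) / m) ^ (3 * s) := by positivity
  calc (n.choose s : ℝ) * (m.choose s : ℝ) * ((s : ℝ) / m) ^ (3 * s)
      ≤ (((N : ℝ) * m) ^ s / (s.factorial : ℝ)) * ((m : ℝ) ^ s / (s.factorial : ℝ))
          * ((s : ℝ) / m) ^ (3 * s) := by
        gcongr
    _ = ((N : ℝ) * s / m) ^ s * (((s : ℝ) ^ s / (s.factorial : ℝ)) ^ 2) := by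
        have h5 : ((s : ℝ) / m) ^ (3 * s) = (((s : ℝ) / m) ^ 3) ^ s := by rw [pow_mul]
        have h6 : ((N : ℝ) * m) ^ s * (m : ℝ) ^ s * (((s : ℝ) / m) ^ 3) ^ s
            = ((N : ℝ) * s / m) ^ s * (s : ℝ) ^ s * (s : ℝ) ^ s := by
          rw [← mul_pow, ← mul_pow, ← mul_pow, ← mul_pow]
          congr 1
          field_simp
        have h7 : (((N : ℝ) * m) ^ s / (s.factorial : ℝ)) * ((m : ℝ) ^ s / (s.factorial : ℝ))
          * ((s : ℝ) / m) ^ (3 * s) = (((N : ℝ) * m) ^ s * (m : ℝ) ^ s * (((s : ℝ) / m) ^ 3) ^ s)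
            / (s.factorial : ℝ) ^ 2 := by
          rw [h5]
          field_simp
        rw [h7, h6]
        field_simp
    _ ≤ ((N : ℝ) * s / m) ^ s * ((Real.exp s) ^ 2) := by
        gcongr
    _ = ((N : ℝ) * s / m * Real.exp 2) ^ s := by
        rw [mul_pow, ← Real.exp_nat_mul, ← Real.exp_nat_mul]
        congr 2
        push_cast
        ring
    _ ≤ (1 / 4) ^ s := by
        have hA : (N : ℝ) * s / m * Real.exp 2 ≤ 1 / 4 := by
          have : (N : ℝ) * s / m ≤ (N : ℝ) * (ε * N) := by
            rw [div_le_iff₀ hm0]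
            have hN0 : (0 : ℝ) ≤ N := Nat.cast_nonneg N
            nlinarith
          have he : (0 : ℝ) < Real.exp 2 := Real.exp_pos 2
          nlinarith
        gcongr

/-- The expander: `card ι ≤ N * card μ`, sets of at most `ε N (card μ)` indices expand. -/
theorem expander {ι μ : Type*} [Fintype ι] [Fintype μ] [DecidableEq ι] [DecidableEq μ]
    (N : ℕ) {ε : ℝ} (hε : 4 * Real.exp 2 * (N : ℝ) ^ 2 * ε ≤ 1)
    (hcard : Fintype.card ι ≤ N * Fintype.card μ) (hμ : 1 ≤ Fintype.card μ) :
    ∃ nbr : ι → Fin 3 → μ, ∀ S : Finset ι, (S.card : ℝ) ≤ ε * (N * Fintype.card μ) →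
      S.card ≤ (S.biUnion fun i => Finset.univ.image (nbr i)).card := by
  classical
  set m := Fintype.card μ with hmdef
  set n := Fintype.card ι with hndef
  have hm0 : (0 : ℝ) < m := by exact_mod_cast hμ
  by_contra hcon
  push Not at hcon
  -- the bad sets
  let box (S : Finset ι) (J : Finset μ) : Finset (ι × Fin 3 → μ) :=
    Fintype.piFinset (fun x => if x.1 ∈ S then J else Finset.univ)
  let M : ℕ := ⌊ε * (N * m)⌋₊
  have hbox : ∀ (S : Finset ι) (J : Finset μ),
      ((box S J).card : ℝ) = ((J.card : ℝ) / m) ^ (3 * S.card) * (m : ℝ) ^ (3 * n) := by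
    intro S J
    have h1 : (box S J).card = ∏ x : ι × Fin 3, (if x.1 ∈ S then J.card else m) := by
      simp only [box, Fintype.card_piFinset]
      refine Finset.prod_congr rfl fun x _ => ?_
      split_ifs <;> simp [hmdef]
    have h2 : (∏ x : ι × Fin 3, (if x.1 ∈ S then J.card else m))
        = J.card ^ (3 * S.card) * m ^ (3 * (n - S.card)) := by
      rw [Fintype.prod_prod_type]
      have key : ∀ i : ι, (∏ r : Fin 3, (if ((i, r) : ι × Fin 3).1 ∈ S then J.card else m))
          = if i ∈ S then J.card ^ 3 else m ^ 3 := by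
        intro i
        by_cases h : i ∈ S <;> simp [h]
      rw [Finset.prod_congr rfl fun i _ => key i]
      rw [Finset.prod_ite]
      simp only [Finset.prod_const, ← pow_mul]
      have hc1 : (Finset.univ.filter fun i => i ∈ S).card = S.card := by simp
      have hc2 : (Finset.univ.filter fun i => ¬ i ∈ S).card = n - S.card := by
        rw [Finset.filter_not, Finset.card_sdiff_of_subset (Finset.filter_subset _ _), hc1]
        simp [hndef]
      rw [hc1, hc2]
    have hSn : S.card ≤ n := by simpa [hndef] using Finset.card_le_univ S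
    rw [h1, h2]
    push_cast
    have h3 : (m : ℝ) ^ (3 * n) = (m : ℝ) ^ (3 * S.card) * (m : ℝ) ^ (3 * (n - S.card)) := by
      rw [← pow_add]; congr 1; omega
    rw [h3, div_pow]
    field_simp
  -- every function is in some box
  have hcover : (Finset.univ : Finset (ι × Fin 3 → μ)) ⊆
      (Finset.Icc 1 M).biUnion fun s =>
        ((Finset.univ : Finset ι).powersetCard s ×ˢ (Finset.univ : Finset μ).powersetCard s).biUnion
          fun p => box p.1 p.2 := by
    intro f _
    obtain ⟨S, hS1, hS2⟩ := hcon (fun i r => f (i, r))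
    have hSM : S.card ≤ M := Nat.le_floor hS1
    have hS0 : 1 ≤ S.card := by
      by_contra h
      have : S.card = 0 := by omega
      omega
    have hSm : S.card ≤ m := by
      by_contra h
      push Not at h
      have h4 : (m : ℝ) < S.card := by exact_mod_cast h
      have he : (1 : ℝ) ≤ Real.exp 2 := Real.one_le_exp (by norm_num)
      rcases Nat.eq_zero_or_pos N with hN | hN
      · subst hN
        have h9 : (S.card : ℝ) ≤ ε * (((0 : ℕ) : ℝ) * m) := hS1
        rw [Nat.cast_zero, zero_mul, mul_zero] at h9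
        have h10 : S.card ≤ 0 := by exact_mod_cast h9
        omega
      · have hN1 : (1 : ℝ) ≤ N := by exact_mod_cast hN
        by_cases hε0 : ε ≤ 0
        · have : ε * (N * m) ≤ 0 := mul_nonpos_of_nonpos_of_nonneg hε0 (by positivity)
          linarith
        · push Not at hε0
          have hNN : (N : ℝ) ≤ (N : ℝ) ^ 2 := by nlinarith
          have h5 : ε * N ≤ 1 := by
            have h6 : (N : ℝ) * ε ≤ (N : ℝ) ^ 2 * ε := by gcongr
            have h7 : (N : ℝ) ^ 2 * ε ≤ Real.exp 2 * ((N : ℝ) ^ 2 * ε) := by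
              have : 0 ≤ (N : ℝ) ^ 2 * ε := by positivity
              nlinarith
            nlinarith [mul_pos (mul_pos (by positivity : (0:ℝ) < (N:ℝ)^2) hε0) (Real.exp_pos 2)]
          have h8 : ε * (N * m) ≤ m := by nlinarith
          linarith
    obtain ⟨J, hJ1, hJ2⟩ := Finset.exists_superset_card_eq
      (s := S.biUnion fun i => Finset.univ.image (fun r => f (i, r))) (n := S.card) hS2.le
      (by simpa [hmdef] using hSm)
    simp only [Finset.mem_biUnion, Finset.mem_Icc, Finset.mem_product, Finset.mem_powersetCard]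
    refine ⟨S.card, ⟨hS0, hSM⟩, (S, J), ⟨⟨Finset.subset_univ _, rfl⟩, ⟨Finset.subset_univ _, hJ2⟩⟩, ?_⟩
    simp only [box, Fintype.mem_piFinset]
    rintro ⟨i, r⟩
    split_ifs with hi
    · apply hJ1
      simp only [Finset.mem_biUnion, Finset.mem_image, Finset.mem_univ, true_and]
      exact ⟨i, hi, r, rfl⟩
    · exact Finset.mem_univ _
  have hcard_le := Finset.card_le_card hcover
  have htot : ((Finset.univ : Finset (ι × Fin 3 → μ)).card : ℝ) = (m : ℝ) ^ (3 * n) := by
    rw [Finset.card_univ, Fintype.card_fun, Fintype.card_prod, Fintype.card_fin]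
    push_cast
    rw [mul_comm]
  have hbound : ((Finset.univ : Finset (ι × Fin 3 → μ)).card : ℝ)
      ≤ ∑ s ∈ Finset.Icc 1 M, (1 / 4 : ℝ) ^ s * (m : ℝ) ^ (3 * n) := by
    calc ((Finset.univ : Finset (ι × Fin 3 → μ)).card : ℝ)
        ≤ (((Finset.Icc 1 M).biUnion fun s =>
        ((Finset.univ : Finset ι).powersetCard s ×ˢ (Finset.univ : Finset μ).powersetCard s).biUnion
          fun p => box p.1 p.2).card : ℝ) := by exact_mod_cast hcard_le
      _ ≤ ∑ s ∈ Finset.Icc 1 M, ((((Finset.univ : Finset ι).powersetCard s ×ˢ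
            (Finset.univ : Finset μ).powersetCard s).biUnion fun p => box p.1 p.2).card : ℝ) := by
          exact_mod_cast Finset.card_biUnion_le
      _ ≤ ∑ s ∈ Finset.Icc 1 M, (1 / 4 : ℝ) ^ s * (m : ℝ) ^ (3 * n) := by
          refine Finset.sum_le_sum fun s hs => ?_
          rw [Finset.mem_Icc] at hs
          have h1 : ((((Finset.univ : Finset ι).powersetCard s ×ˢ
            (Finset.univ : Finset μ).powersetCard s).biUnion fun p => box p.1 p.2).card : ℝ)
              ≤ ∑ p ∈ ((Finset.univ : Finset ι).powersetCard s ×ˢ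
            (Finset.univ : Finset μ).powersetCard s), ((box p.1 p.2).card : ℝ) := by
            exact_mod_cast Finset.card_biUnion_le
          refine h1.trans ?_
          have h2 : ∀ p ∈ ((Finset.univ : Finset ι).powersetCard s ×ˢ
            (Finset.univ : Finset μ).powersetCard s), ((box p.1 p.2).card : ℝ)
              = ((s : ℝ) / m) ^ (3 * s) * (m : ℝ) ^ (3 * n) := by
            rintro ⟨S, J⟩ hp
            rw [Finset.mem_product, Finset.mem_powersetCard, Finset.mem_powersetCard] at hp
            rw [hbox, hp.1.2, hp.2.2]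
          rw [Finset.sum_congr rfl h2, Finset.sum_const, Finset.card_product,
            Finset.card_powersetCard, Finset.card_powersetCard, nsmul_eq_mul]
          push_cast
          rw [← mul_assoc]
          have h3 : (Fintype.card ι : ℕ) = n := rfl
          have hsM : (s : ℝ) ≤ ε * (N * m) := by
            have hM0 : 0 ≤ ε * (N * m) := by
              by_contra hneg
              push Not at hneg
              have : M = 0 := Nat.floor_of_nonpos hneg.le
              omega
            exact (Nat.cast_le.mpr hs.2).trans (Nat.floor_le hM0)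
          have h4 := term_le (N := N) (n := n) (m := m) (s := s) (ε := ε) hcard hμ hs.1 hε hsM
          have h5 : (0 : ℝ) ≤ (m : ℝ) ^ (3 * n) := by positivity
          simp only [Finset.card_univ]
          exact mul_le_mul_of_nonneg_right h4 h5
  have hgeom : ∑ s ∈ Finset.Icc 1 M, (1 / 4 : ℝ) ^ s ≤ 1 / 3 := by
    have : ∀ K : ℕ, ∑ s ∈ Finset.Icc 1 K, (1 / 4 : ℝ) ^ s = 1 / 3 - (1 / 3) * (1 / 4) ^ K := by
      intro K
      induction K with
      | zero => simp
      | succ K ih =>
        rw [Finset.sum_Icc_succ_top (by omega), ih, pow_succ]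
        ring
    rw [this]
    have : (0 : ℝ) ≤ (1 / 3) * (1 / 4) ^ M := by positivity
    linarith
  rw [htot, ← Finset.sum_mul] at hbound
  have hmpos : (0 : ℝ) < (m : ℝ) ^ (3 * n) := by positivity
  nlinarith

end Crest.Agent.R042.Expander492
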