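import Mathlib

/-! Row 42 (S0058), sec 8.1 and the palette of 10.5: random splitting of the colours, by conditional
expectations (no probability theory). -/

set_option autoImplicit false

namespace Crest.Agent.R042.Pal365

open Finset

/-- Derandomised product expectation. -/
theorem derand {κ : Type*} (S : Finset κ) {M : ℕ} (hM : 1 ≤ M) (L : κ → Finset ℕ)
    (x : κ → Fin M → ℝ) (hx : ∀ i a, 0 ≤ x i a) (C : Finset ℕ) :
    ∀ w : κ → ℝ, (∀ i, 0 ≤ w i) → ∃ χ : ℕ → Fin M,
      ∑ i ∈ S, w i * ∏ c ∈ L i ∩ C, x i (χ c) ≤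
        ∑ i ∈ S, w i * ((∑ a, x i a) / M) ^ (L i ∩ C).card := by
  classical
  have hM0 : (0 : ℝ) < M := by exact_mod_cast hM
  induction C using Finset.induction_on with
  | empty =>
    intro w hw
    exact ⟨fun _ => ⟨0, hM⟩, by simp⟩
  | insert c C hc ih =>
    intro w hw
    -- average over the class of `c`
    set r : κ → ℝ := fun i => ((∑ a, x i a) / M) with hr
    have hr0 : ∀ i, 0 ≤ r i := fun i => div_nonneg (Finset.sum_nonneg fun a _ => hx i a) hM0.le
    have key : ∃ a : Fin M, ∑ i ∈ S, w i * (if c ∈ L i then x i a else 1) * r i ^ (L i ∩ C).card ≤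
        ∑ i ∈ S, w i * r i ^ (L i ∩ insert c C).card := by
      by_contra hcon
      push Not at hcon
      have h1 : ∑ _a : Fin M, ∑ i ∈ S, w i * r i ^ (L i ∩ insert c C).card <
          ∑ a : Fin M, ∑ i ∈ S, w i * (if c ∈ L i then x i a else 1) * r i ^ (L i ∩ C).card :=
        Finset.sum_lt_sum_of_nonempty ⟨⟨0, hM⟩, Finset.mem_univ _⟩ fun a _ => hcon a
      rw [Finset.sum_const, Finset.card_univ, Fintype.card_fin, Finset.sum_comm, nsmul_eq_mul,
        Finset.mul_sum] at h1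
      refine absurd h1 (not_lt.2 (Finset.sum_le_sum fun i _ => ?_))
      have h2 : ∑ a : Fin M, w i * (if c ∈ L i then x i a else 1) * r i ^ (L i ∩ C).card =
          w i * (∑ a : Fin M, (if c ∈ L i then x i a else 1)) * r i ^ (L i ∩ C).card := by
        rw [Finset.mul_sum, Finset.sum_mul]
      rw [h2]
      by_cases hci : c ∈ L i
      · have h3 : L i ∩ insert c C = insert c (L i ∩ C) := by
          ext y; simp only [mem_inter, mem_insert]; constructor
          · rintro ⟨h, rfl | h'⟩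
            · exact Or.inl rfl
            · exact Or.inr ⟨h, h'⟩
          · rintro (rfl | ⟨h, h'⟩)
            · exact ⟨hci, Or.inl rfl⟩
            · exact ⟨h, Or.inr h'⟩
        have h4 : c ∉ L i ∩ C := fun h => hc (mem_inter.1 h).2
        rw [h3, card_insert_of_notMem h4, pow_succ]
        simp only [hci, if_true]
        have h5 : ∑ a, x i a = M * r i := by rw [hr]; field_simp
        rw [h5]
        exact le_of_eq (by ring)
      · have h3 : L i ∩ insert c C = L i ∩ C := by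
          ext y; simp only [mem_inter, mem_insert]; constructor
          · rintro ⟨h, rfl | h'⟩
            · exact absurd h hci
            · exact ⟨h, h'⟩
          · rintro ⟨h, h'⟩
            exact ⟨h, Or.inr h'⟩
        rw [h3]
        simp only [hci, if_false, Finset.sum_const, Finset.card_univ, Fintype.card_fin,
          nsmul_eq_mul, mul_one]
        exact le_of_eq (by ring)
    obtain ⟨a, ha⟩ := key
    obtain ⟨χ, hχ⟩ := ih (fun i => w i * (if c ∈ L i then x i a else 1)) fun i =>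
      mul_nonneg (hw i) (by split_ifs; exacts [hx i a, zero_le_one])
    refine ⟨fun y => if y = c then a else χ y, le_trans (le_of_eq ?_) (hχ.trans ha)⟩
    refine Finset.sum_congr rfl fun i _ => ?_
    by_cases hci : c ∈ L i
    · have h3 : L i ∩ insert c C = insert c (L i ∩ C) := by
        ext y; simp only [mem_inter, mem_insert]; constructor
        · rintro ⟨h, rfl | h'⟩
          · exact Or.inl rfl
          · exact Or.inr ⟨h, h'⟩
        · rintro (rfl | ⟨h, h'⟩)
          · exact ⟨hci, Or.inl rfl⟩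
          · exact ⟨h, Or.inr h'⟩
      have h4 : c ∉ L i ∩ C := fun h => hc (mem_inter.1 h).2
      rw [h3, prod_insert h4]
      simp only [hci, if_true]
      rw [mul_assoc]
      congr 2
      refine Finset.prod_congr rfl fun y hy => ?_
      have : y ≠ c := fun h => h4 (h ▸ hy)
      simp [this]
    · have h3 : L i ∩ insert c C = L i ∩ C := by
        ext y; simp only [mem_inter, mem_insert]; constructor
        · rintro ⟨h, rfl | h'⟩
          · exact absurd h hci
          · exact ⟨h, h'⟩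
        · rintro ⟨h, h'⟩
          exact ⟨h, Or.inr h'⟩
      rw [h3]
      simp only [hci, if_false, mul_one]
      congr 1
      refine Finset.prod_congr rfl fun y hy => ?_
      have : y ≠ c := fun h => hc (h ▸ (mem_inter.1 hy).2)
      simp [this]

/-- Global form: all lists at once. -/
theorem derand' {κ : Type*} (S : Finset κ) {M : ℕ} (hM : 1 ≤ M) (L : κ → Finset ℕ)
    (x : κ → Fin M → ℝ) (hx : ∀ i a, 0 ≤ x i a) (w : κ → ℝ) (hw : ∀ i, 0 ≤ w i) :
    ∃ χ : ℕ → Fin M,
      ∑ i ∈ S, w i * ∏ c ∈ L i, x i (χ c) ≤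
        ∑ i ∈ S, w i * ((∑ a, x i a) / M) ^ (L i).card := by
  classical
  obtain ⟨χ, hχ⟩ := derand S hM L x hx (S.biUnion L) w hw
  refine ⟨χ, ?_⟩
  have h : ∀ i ∈ S, L i ∩ S.biUnion L = L i := fun i hi =>
    inter_eq_left.2 (subset_biUnion_of_mem L hi)
  calc ∑ i ∈ S, w i * ∏ c ∈ L i, x i (χ c)
      = ∑ i ∈ S, w i * ∏ c ∈ L i ∩ S.biUnion L, x i (χ c) :=
        Finset.sum_congr rfl fun i hi => by rw [h i hi]
    _ ≤ _ := hχ
    _ = _ := Finset.sum_congr rfl fun i hi => by rw [h i hi]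

lemma prod_ite_class {M : ℕ} (s : Finset ℕ) (χ : ℕ → Fin M) (b : Fin M) (y : ℝ) :
    ∏ c ∈ s, (if χ c = b then y else 1) = y ^ (s.filter fun c => χ c = b).card := by
  classical
  rw [Finset.prod_ite]
  simp

lemma sum_ite_class {M : ℕ} (b : Fin M) (y : ℝ) :
    ∑ a : Fin M, (if a = b then y else 1) = M + (y - 1) := by
  classical
  have h : ∀ a : Fin M, (if a = b then y else (1:ℝ)) = 1 + (if a = b then y - 1 else 0) := by
    intro a; split_ifs <;> ring
  simp_rw [h]
  rw [Finset.sum_add_distrib]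
  simp

/-- lower tail number: `2^(k/2M) (1 - 1/2M)^k ≤ exp (-k/8M)`. -/
lemma low_num {M : ℕ} (hM : 1 ≤ M) (k : ℕ) :
    (2:ℝ) ^ ((k:ℝ) / (2 * M)) * ((M + ((1/2:ℝ) - 1)) / M) ^ k ≤ Real.exp (-(k / (8 * M))) := by
  have hM0 : (0 : ℝ) < M := by exact_mod_cast hM
  have h1 : ((M + ((1/2:ℝ) - 1)) / M) ≤ Real.exp (-(1 / (2 * M))) := by
    have := Real.add_one_le_exp (-(1 / (2 * M)) : ℝ)
    refine le_trans (le_of_eq ?_) this
    field_simp
    ring
  have h0 : 0 ≤ ((M + ((1/2:ℝ) - 1)) / M) := by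
    have : (1:ℝ) ≤ M := by exact_mod_cast hM
    exact div_nonneg (by linarith) hM0.le
  have h2 : ((M + ((1/2:ℝ) - 1)) / M) ^ k ≤ Real.exp (-(k / (2 * M))) := by
    refine (pow_le_pow_left₀ h0 h1 k).trans (le_of_eq ?_)
    rw [← Real.exp_nat_mul]
    congr 1
    ring
  have h3 : (2:ℝ) ^ ((k:ℝ) / (2 * M)) = Real.exp (Real.log 2 * (k / (2 * M))) := by
    rw [Real.rpow_def_of_pos (by norm_num)]
  rw [h3]
  calc Real.exp (Real.log 2 * (k / (2 * M))) * ((M + ((1/2:ℝ) - 1)) / M) ^ k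
      ≤ Real.exp (Real.log 2 * (k / (2 * M))) * Real.exp (-(k / (2 * M))) :=
        mul_le_mul_of_nonneg_left h2 (Real.exp_pos _).le
    _ = Real.exp (-((1 - Real.log 2) * (k / (2 * M)))) := by
        rw [← Real.exp_add]; congr 1; ring
    _ ≤ Real.exp (-(k / (8 * M))) := by
        apply Real.exp_le_exp.2
        have hl := Real.log_two_lt_d9
        have hk : (0:ℝ) ≤ k / (2 * M) := by positivity
        have : (k:ℝ) / (8 * M) = (1/4) * (k / (2 * M)) := by field_simp; ring
        rw [this]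
        nlinarith

/-- upper tail number: `2^(-2k/M) (1 + 1/M)^k ≤ exp (-k/8M)`. -/
lemma up_num {M : ℕ} (hM : 1 ≤ M) (k : ℕ) :
    (2:ℝ) ^ (-(2 * (k:ℝ) / M)) * ((M + ((2:ℝ) - 1)) / M) ^ k ≤ Real.exp (-(k / (8 * M))) := by
  have hM0 : (0 : ℝ) < M := by exact_mod_cast hM
  have h1 : ((M + ((2:ℝ) - 1)) / M) ≤ Real.exp (1 / M) := by
    have := Real.add_one_le_exp (1 / M : ℝ)
    refine le_trans (le_of_eq ?_) this
    field_simp
    ring
  have h0 : 0 ≤ ((M + ((2:ℝ) - 1)) / M) := div_nonneg (by linarith) hM0.le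
  have h2 : ((M + ((2:ℝ) - 1)) / M) ^ k ≤ Real.exp (k / M) := by
    refine (pow_le_pow_left₀ h0 h1 k).trans (le_of_eq ?_)
    rw [← Real.exp_nat_mul]
    congr 1
    ring
  have h3 : (2:ℝ) ^ (-(2 * (k:ℝ) / M)) = Real.exp (Real.log 2 * (-(2 * (k:ℝ) / M))) := by
    rw [Real.rpow_def_of_pos (by norm_num)]
  rw [h3]
  calc Real.exp (Real.log 2 * (-(2 * (k:ℝ) / M))) * ((M + ((2:ℝ) - 1)) / M) ^ k
      ≤ Real.exp (Real.log 2 * (-(2 * (k:ℝ) / M))) * Real.exp (k / M) :=
        mul_le_mul_of_nonneg_left h2 (Real.exp_pos _).le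
    _ = Real.exp (-((2 * Real.log 2 - 1) * (k / M))) := by
        rw [← Real.exp_add]; congr 1; ring
    _ ≤ Real.exp (-(k / (8 * M))) := by
        apply Real.exp_le_exp.2
        have hl := Real.log_two_gt_d9
        have hk : (0:ℝ) ≤ k / M := by positivity
        have : (k:ℝ) / (8 * M) = (1/8) * (k / M) := by field_simp
        rw [this]
        nlinarith

/-- **Palette with both tails** (one class of a uniform `M`-colouring of the colours). -/
theorem palette2 {ι : Type*} (I J : Finset ι) (L : ι → Finset ℕ) (M k : ℕ) (hM : 1 ≤ M)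
    (hI : ∀ i ∈ I, (L i).card = k) (hJ : ∀ i ∈ J, (L i).card = k)
    (hsize : ((I.card + J.card : ℕ) : ℝ) < Real.exp (k / (8 * M))) :
    ∃ P : ℕ → Prop, (∀ i ∈ I, ∀ s : Finset ℕ, (∀ c, c ∈ s ↔ c ∈ L i ∧ P c) → k ≤ 2 * M * s.card) ∧
      (∀ i ∈ J, ∀ s : Finset ℕ, (∀ c, c ∈ s ↔ c ∈ L i ∧ P c) → M * s.card ≤ 2 * k) := by
  classical
  have hM0 : (0 : ℝ) < M := by exact_mod_cast hM
  let b : Fin M := ⟨0, hM⟩
  let y : ι ⊕ ι → ℝ := Sum.elim (fun _ => 1/2) (fun _ => 2)
  let w : ι ⊕ ι → ℝ := Sum.elim (fun _ => (2:ℝ) ^ ((k:ℝ) / (2 * M)))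
    (fun _ => (2:ℝ) ^ (-(2 * (k:ℝ) / M)))
  let L' : ι ⊕ ι → Finset ℕ := Sum.elim L L
  have hy : ∀ j, 0 ≤ y j := by
    rintro (i | i)
    · simp [y]
    · simp [y]
  have hw : ∀ j, 0 < w j := by
    rintro (i | i)
    · simp only [w, Sum.elim_inl]; positivity
    · simp only [w, Sum.elim_inr]; positivity
  obtain ⟨χ, hχ⟩ := derand' (I.disjSum J) hM L' (fun j a => if a = b then y j else 1)
    (fun j a => by split_ifs; exacts [hy j, zero_le_one]) w (fun j => (hw j).le)
  have hexp : ((I.card + J.card : ℕ) : ℝ) * Real.exp (-(k / (8 * M))) < 1 := by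
    rw [Real.exp_neg]
    rw [← div_eq_mul_inv, div_lt_one (Real.exp_pos _)]
    exact hsize
  have hR : ∑ j ∈ I.disjSum J, w j * ((∑ a : Fin M, (if a = b then y j else 1)) / M) ^ (L' j).card ≤
      ((I.card + J.card : ℕ) : ℝ) * Real.exp (-(k / (8 * M))) := by
    rw [Finset.sum_disjSum]
    have e1 : ∑ i ∈ I, w (Sum.inl i) * ((∑ a : Fin M, (if a = b then y (Sum.inl i) else 1)) / M) ^
        (L' (Sum.inl i)).card ≤ I.card * Real.exp (-(k / (8 * M))) := by
      rw [← nsmul_eq_mul]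
      refine Finset.sum_le_card_nsmul _ _ _ fun i hi => ?_
      rw [sum_ite_class]
      simp only [w, y, L', Sum.elim_inl, hI i hi]
      exact low_num hM k
    have e2 : ∑ i ∈ J, w (Sum.inr i) * ((∑ a : Fin M, (if a = b then y (Sum.inr i) else 1)) / M) ^
        (L' (Sum.inr i)).card ≤ J.card * Real.exp (-(k / (8 * M))) := by
      rw [← nsmul_eq_mul]
      refine Finset.sum_le_card_nsmul _ _ _ fun i hi => ?_
      rw [sum_ite_class]
      simp only [w, y, L', Sum.elim_inr, hJ i hi]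
      exact up_num hM k
    push_cast
    rw [add_mul]
    exact add_le_add e1 e2
  have hlt := (hχ.trans hR).trans_lt hexp
  have hterm : ∀ j ∈ I.disjSum J, w j * ∏ c ∈ L' j, (if χ c = b then y j else 1) < 1 := by
    intro j hj
    refine lt_of_le_of_lt ?_ hlt
    exact Finset.single_le_sum (f := fun j => w j * ∏ c ∈ L' j, (if χ c = b then y j else 1))
      (fun i _ => mul_nonneg (hw i).le (Finset.prod_nonneg fun c _ => by
        split_ifs; exacts [hy i, zero_le_one])) hj
  refine ⟨fun c => χ c = b, fun i hi s hs => ?_, fun i hi s hs => ?_⟩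
  · have h := hterm (Sum.inl i) (by simpa using hi)
    rw [prod_ite_class] at h
    have hs' : (L' (Sum.inl i)).filter (fun c => χ c = b) = s := by
      ext c; simp [L', hs c]
    rw [hs'] at h
    simp only [w, y, Sum.elim_inl] at h
    have h' : (2:ℝ) ^ ((k:ℝ) / (2 * M)) < 2 ^ ((s.card : ℝ)) := by
      rw [Real.rpow_natCast]
      have h2 : (0:ℝ) < 2 ^ s.card := by positivity
      rw [one_div, inv_pow] at h
      rwa [← div_eq_mul_inv, div_lt_one h2] at h
    have h3 := (Real.rpow_lt_rpow_left_iff (by norm_num : (1:ℝ) < 2)).1 h'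
    rw [div_lt_iff₀ (by positivity)] at h3
    have h4 : (k:ℝ) ≤ ((2 * M * s.card : ℕ) : ℝ) := by
      push_cast; nlinarith
    exact_mod_cast h4
  · have h := hterm (Sum.inr i) (by simpa using hi)
    rw [prod_ite_class] at h
    have hs' : (L' (Sum.inr i)).filter (fun c => χ c = b) = s := by
      ext c; simp [L', hs c]
    rw [hs'] at h
    simp only [w, y, Sum.elim_inr] at h
    have h' : (2:ℝ) ^ ((s.card : ℝ)) < 2 ^ (2 * (k:ℝ) / M) := by
      rw [Real.rpow_natCast]
      have h2 : (0:ℝ) < 2 ^ (2 * (k:ℝ) / M) := by positivity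
      rw [Real.rpow_neg (by norm_num), mul_comm, ← div_eq_mul_inv, div_lt_one h2] at h
      exact h
    have h3 := (Real.rpow_lt_rpow_left_iff (by norm_num : (1:ℝ) < 2)).1 h'
    rw [lt_div_iff₀ hM0] at h3
    have h4 : ((M * s.card : ℕ) : ℝ) ≤ ((2 * k : ℕ) : ℝ) := by
      push_cast; nlinarith
    exact_mod_cast h4

/-- **8.1 palette splitting**: all `m` classes at once. -/
theorem palette {ι : Type*} (I : Finset ι) (L : ι → Finset ℕ) (m q : ℕ) (hm : 1 ≤ m)
    (hL : ∀ i ∈ I, q ≤ (L i).card)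
    (hsize : ((m * I.card : ℕ) : ℝ) < Real.exp (q / (8 * m))) :
    ∃ χ : ℕ → Fin m, ∀ i ∈ I, ∀ a, q ≤ 2 * m * ((L i).filter fun c => χ c = a).card := by
  classical
  have hM0 : (0 : ℝ) < m := by exact_mod_cast hm
  have hex : ∀ i : ι, ∃ s : Finset ℕ, i ∈ I → s ⊆ L i ∧ s.card = q := by
    intro i
    by_cases hi : i ∈ I
    · obtain ⟨s, h1, h2⟩ := Finset.exists_subset_card_eq (hL i hi)
      exact ⟨s, fun _ => ⟨h1, h2⟩⟩
    · exact ⟨∅, fun h => absurd h hi⟩
  choose T hT using hex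
  let w : ι × Fin m → ℝ := fun _ => (2:ℝ) ^ ((q:ℝ) / (2 * m))
  have hw : ∀ j, 0 < w j := fun j => by simp only [w]; positivity
  obtain ⟨χ, hχ⟩ := derand' (I ×ˢ (univ : Finset (Fin m))) hm (fun j => T j.1)
    (fun j a => if a = j.2 then (1/2 : ℝ) else 1)
    (fun j a => by split_ifs <;> norm_num) w (fun j => (hw j).le)
  refine ⟨χ, fun i hi a => ?_⟩
  have hexp : ((m * I.card : ℕ) : ℝ) * Real.exp (-(q / (8 * m))) < 1 := by
    rw [Real.exp_neg, ← div_eq_mul_inv, div_lt_one (Real.exp_pos _)]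
    exact hsize
  have hR : ∑ j ∈ I ×ˢ (univ : Finset (Fin m)),
      w j * ((∑ a : Fin m, (if a = j.2 then (1/2 : ℝ) else 1)) / m) ^ (T j.1).card ≤
      ((m * I.card : ℕ) : ℝ) * Real.exp (-(q / (8 * m))) := by
    have : (m * I.card : ℕ) = (I ×ˢ (univ : Finset (Fin m))).card := by
      rw [card_product, card_univ, Fintype.card_fin, mul_comm]
    rw [this, ← nsmul_eq_mul]
    refine Finset.sum_le_card_nsmul _ _ _ fun j hj => ?_
    rw [sum_ite_class, (hT j.1 (mem_product.1 hj).1).2]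
    exact low_num hm q
  have hlt := (hχ.trans hR).trans_lt hexp
  have h : w (i, a) * ∏ c ∈ T i, (if χ c = a then (1/2:ℝ) else 1) < 1 := by
    refine lt_of_le_of_lt ?_ hlt
    exact Finset.single_le_sum (f := fun j : ι × Fin m => w j * ∏ c ∈ T j.1,
        (if χ c = j.2 then (1/2:ℝ) else 1))
      (fun j _ => mul_nonneg (hw j).le (Finset.prod_nonneg fun c _ => by
        split_ifs <;> norm_num)) (mem_product.2 (show (i, a).1 ∈ I ∧ (i, a).2 ∈ univ from ⟨hi, mem_univ a⟩))
  rw [prod_ite_class] at h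
  set s := (T i).filter (fun c => χ c = a) with hs
  have h' : (2:ℝ) ^ ((q:ℝ) / (2 * m)) < 2 ^ ((s.card : ℝ)) := by
    rw [Real.rpow_natCast]
    have h2 : (0:ℝ) < 2 ^ s.card := by positivity
    rw [one_div, inv_pow] at h
    rwa [← div_eq_mul_inv, div_lt_one h2] at h
  have h3 := (Real.rpow_lt_rpow_left_iff (by norm_num : (1:ℝ) < 2)).1 h'
  rw [div_lt_iff₀ (by positivity)] at h3
  have h4 : (q:ℝ) ≤ ((2 * m * s.card : ℕ) : ℝ) := by
    push_cast; nlinarith
  have h5 : q ≤ 2 * m * s.card := by exact_mod_cast h4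
  refine h5.trans (Nat.mul_le_mul_left _ (card_le_card ?_))
  exact filter_subset_filter _ (hT i hi).1

end Crest.Agent.R042.Pal365
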