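import Mathlib
import Crest.Agent.R042.Crit_374
import Crest.Agent.R042.Expander_492
import Crest.Agent.R042.Palette_365

/-! Row 42 / S0058, sec 02 + (8.2): the Kalton-Roberts lemma in list form.
If every induced subgraph has fractional chromatic number `≤ a` (`Frac`) and `G[W]` is hard for some
lists, then there are `N` disjoint sets hard for lists of size `k/8`. -/

set_option autoImplicit false
set_option linter.unusedSectionVars false

namespace Crest.Agent.R042.KR492

open Finset Crit374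

variable {V : Type*} [DecidableEq V] {G : SimpleGraph V}

/-- `G[S]` has fractional chromatic number at most `a` (integer form). -/
def Frac (G : SimpleGraph V) (S : Finset V) (a : ℕ) : Prop :=
  ∃ (T : ℕ) (I : Fin T → Finset V), 1 ≤ T ∧
    (∀ i, I i ⊆ S ∧ ∀ u ∈ I i, ∀ v ∈ I i, ¬ G.Adj u v) ∧
    ∀ v ∈ S, T ≤ a * (Finset.univ.filter fun i => v ∈ I i).card

/-- The samples: a finite nonempty family of sets `X ω`, each colourable from `L ∩ C0`, such that
every vertex is missed by a small proportion of them. -/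
theorem samples (W : Finset V) (L : V → Finset ℕ) (C0 : Finset ℕ) (a : ℕ) (ha : 1 ≤ a)
    (hfrac : ∀ S ⊆ W, Frac G S a) (x : ℝ) (hx : ∀ v ∈ W, x ≤ ((L v ∩ C0).card : ℝ)) :
    ∃ (Ω : Type) (_ : Fintype Ω) (_ : DecidableEq Ω) (X : Ω → Finset V), Nonempty Ω ∧
      (∀ ω, ColOn G (X ω) (fun v => L v ∩ C0)) ∧
      ∀ v ∈ W, ((Finset.univ.filter fun ω => v ∉ X ω).card : ℝ)
        ≤ Real.exp (-(x / a)) * Fintype.card Ω := by
  classical
  have hF : ∀ c : ℕ, ∃ (T : ℕ) (I : Fin T → Finset V), 1 ≤ T ∧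
    (∀ i, I i ⊆ W.filter (fun v => c ∈ L v) ∧ ∀ u ∈ I i, ∀ v ∈ I i, ¬ G.Adj u v) ∧
    ∀ v ∈ W.filter (fun v => c ∈ L v), T ≤ a * (Finset.univ.filter fun i => v ∈ I i).card :=
    fun c => hfrac _ (Finset.filter_subset _ _)
  choose T I hT hI hcov using hF
  have ha0 : (0 : ℝ) < a := by exact_mod_cast ha
  refine ⟨(c : {c // c ∈ C0}) → Fin (T c), inferInstance, inferInstance,
    fun ω => W.filter (fun v => ∃ c : {c // c ∈ C0}, v ∈ I c (ω c)), ?_, ?_, ?_⟩
  · exact ⟨fun c => ⟨0, hT c⟩⟩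
  · intro ω
    have hch : ∀ v : V, ∃ c : ℕ, (∃ d : {c // c ∈ C0}, v ∈ I d (ω d)) →
        ∃ hc : c ∈ C0, v ∈ I c (ω ⟨c, hc⟩) := by
      intro v
      by_cases h : ∃ d : {c // c ∈ C0}, v ∈ I d (ω d)
      · obtain ⟨d, hd⟩ := h
        exact ⟨d, fun _ => ⟨d.2, hd⟩⟩
      · exact ⟨0, fun h' => absurd h' h⟩
    choose col hcol using hch
    refine ⟨col, ?_, ?_⟩
    · intro v hv
      obtain ⟨hc, hv'⟩ := hcol v (Finset.mem_filter.mp hv).2
      have := (hI (col v) (ω ⟨col v, hc⟩)).1 hv'
      exact Finset.mem_inter.mpr ⟨(Finset.mem_filter.mp this).2, hc⟩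
    · intro u hu v hv huv heq
      obtain ⟨hcu, hu'⟩ := hcol u (Finset.mem_filter.mp hu).2
      obtain ⟨hcv, hv'⟩ := hcol v (Finset.mem_filter.mp hv).2
      have hv'' : v ∈ I (col u) (ω ⟨col u, hcu⟩) := by
        have : ∀ (d : ℕ) (hd : d ∈ C0), d = col v → v ∈ I d (ω ⟨d, hd⟩) := by
          intro d hd h
          subst h
          exact hv'
        exact this _ hcu heq
      exact (hI (col u) (ω ⟨col u, hcu⟩)).2 u hu' v hv'' huv
  · intro v hv
    have h1 : (Finset.univ.filter fun ω : (c : {c // c ∈ C0}) → Fin (T c) =>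
        v ∉ W.filter (fun v => ∃ c : {c // c ∈ C0}, v ∈ I c (ω c)))
        = Fintype.piFinset (fun c : {c // c ∈ C0} => Finset.univ.filter fun i => v ∉ I c i) := by
      ext ω
      simp [hv]
    rw [h1, Fintype.card_piFinset, Fintype.card_pi]
    push_cast
    simp only [Fintype.card_fin]
    have h2 : ∀ c : {c // c ∈ C0}, ((Finset.univ.filter fun i => v ∉ I c i).card : ℝ)
        ≤ (T c : ℝ) * (if (c : ℕ) ∈ L v then (1 - 1 / (a : ℝ)) else 1) := by
      intro c
      have h3 : (Finset.univ.filter fun i => v ∉ I c i).card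
          + (Finset.univ.filter fun i => v ∈ I c i).card = T c := by
        have := Finset.card_filter_add_card_filter_not (s := (Finset.univ : Finset (Fin (T c))))
          (fun i => v ∈ I c i)
        simp only [Finset.card_univ, Fintype.card_fin] at this
        omega
      have h3' : ((Finset.univ.filter fun i => v ∉ I c i).card : ℝ)
          + ((Finset.univ.filter fun i => v ∈ I c i).card : ℝ) = T c := by exact_mod_cast h3
      split_ifs with hc
      · have h4 := hcov c v (Finset.mem_filter.mpr ⟨hv, hc⟩)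
        have h4' : (T c : ℝ) ≤ a * ((Finset.univ.filter fun i => v ∈ I c i).card : ℝ) := by
          exact_mod_cast h4
        have h5 : (T c : ℝ) / a ≤ ((Finset.univ.filter fun i => v ∈ I c i).card : ℝ) := by
          rw [div_le_iff₀ ha0]
          linarith
        have h6 : (T c : ℝ) * (1 - 1 / (a : ℝ)) = T c - (T c : ℝ) / a := by ring
        linarith
      · have : (0 : ℝ) ≤ ((Finset.univ.filter fun i => v ∈ I c i).card : ℝ) := Nat.cast_nonneg _
        linarith
    have h7 : ∏ c : {c // c ∈ C0}, ((Finset.univ.filter fun i => v ∉ I c i).card : ℝ)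
        ≤ ∏ c : {c // c ∈ C0}, ((T c : ℝ) * (if (c : ℕ) ∈ L v then (1 - 1 / (a : ℝ)) else 1)) :=
      Finset.prod_le_prod (fun _ _ => Nat.cast_nonneg _) (fun c _ => h2 c)
    refine h7.trans ?_
    rw [Finset.prod_mul_distrib]
    have h8 : ∏ c : {c // c ∈ C0}, (if (c : ℕ) ∈ L v then (1 - 1 / (a : ℝ)) else 1)
        = (1 - 1 / (a : ℝ)) ^ (L v ∩ C0).card := by
      rw [Finset.prod_coe_sort C0 (fun c => if c ∈ L v then (1 - 1 / (a : ℝ)) else 1)]
      rw [Finset.prod_ite_mem, Finset.prod_const, Finset.inter_comm]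
    rw [h8]
    have h9 : (1 - 1 / (a : ℝ)) ^ (L v ∩ C0).card ≤ Real.exp (-(x / a)) := by
      have h10 : 0 ≤ 1 - 1 / (a : ℝ) := by
        rw [sub_nonneg, div_le_iff₀ ha0]
        have : (1 : ℝ) ≤ a := by exact_mod_cast ha
        linarith
      have h11 : 1 - 1 / (a : ℝ) ≤ Real.exp (-(1 / a)) := by
        have := Real.add_one_le_exp (-(1 / (a : ℝ)))
        linarith
      calc (1 - 1 / (a : ℝ)) ^ (L v ∩ C0).card
          ≤ (Real.exp (-(1 / a))) ^ (L v ∩ C0).card := by gcongr
        _ = Real.exp (-(((L v ∩ C0).card : ℝ) / a)) := by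
            rw [← Real.exp_nat_mul]
            congr 1
            ring
        _ ≤ Real.exp (-(x / a)) := by
            apply Real.exp_le_exp.mpr
            apply neg_le_neg
            exact div_le_div_of_nonneg_right (hx v hv) ha0.le
    have h12 : (0 : ℝ) ≤ ∏ c : {c // c ∈ C0}, (T c : ℝ) :=
      Finset.prod_nonneg fun _ _ => Nat.cast_nonneg _
    calc (∏ c : {c // c ∈ C0}, (T c : ℝ)) * (1 - 1 / (a : ℝ)) ^ (L v ∩ C0).card
        ≤ (∏ c : {c // c ∈ C0}, (T c : ℝ)) * Real.exp (-(x / a)) := by gcongr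
      _ = Real.exp (-(x / a)) * ∏ c : {c // c ∈ C0}, (T c : ℝ) := mul_comm _ _

/-- Hall: in an expander every small index set has an injective choice of neighbours. -/
theorem hall {ι μ : Type*} [Fintype ι] [DecidableEq ι] [DecidableEq μ] [Nonempty μ]
    (nbr : ι → Fin 3 → μ) {y : ℝ}
    (hexp : ∀ S : Finset ι, (S.card : ℝ) ≤ y →
      S.card ≤ (S.biUnion fun i => Finset.univ.image (nbr i)).card)
    (J : Finset ι) (hJ : (J.card : ℝ) ≤ y) :
    ∃ f : ι → μ, (∀ i ∈ J, ∀ j ∈ J, f i = f j → i = j) ∧ ∀ i ∈ J, ∃ r, nbr i r = f i := by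
  classical
  have h1 : ∀ s : Finset {i // i ∈ J},
      s.card ≤ (s.biUnion fun i => Finset.univ.image (nbr (i : ι))).card := by
    intro s
    have h2 : (s.image (Subtype.val)).card = s.card :=
      Finset.card_image_of_injective _ Subtype.val_injective
    have h3 : ((s.image (Subtype.val)).card : ℝ) ≤ y := by
      refine le_trans ?_ hJ
      rw [Nat.cast_le]
      apply Finset.card_le_card
      intro i hi
      obtain ⟨j, _, rfl⟩ := Finset.mem_image.mp hi
      exact j.2
    have h4 := hexp _ h3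
    rw [h2] at h4
    refine h4.trans (Finset.card_le_card ?_)
    intro m hm
    simp only [Finset.mem_biUnion, Finset.mem_image] at hm ⊢
    obtain ⟨i, ⟨j, hj, rfl⟩, hm⟩ := hm
    exact ⟨j, hj, hm⟩
  obtain ⟨f, hf1, hf2⟩ := (Finset.all_card_le_biUnion_card_iff_exists_injective
    (fun i : {i // i ∈ J} => Finset.univ.image (nbr (i : ι)))).mp h1
  refine ⟨fun i => if h : i ∈ J then f ⟨i, h⟩ else Classical.arbitrary μ, ?_, ?_⟩
  · intro i hi j hj h
    simp only [hi, hj, dite_true] at h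
    have := hf1 h
    simpa using this
  · intro i hi
    have := hf2 ⟨i, hi⟩
    simp only [hi, dite_true]
    simpa using this

/-- KR with the palette given. -/
theorem kr_core (W : Finset V) (L : V → Finset ℕ) (χ : ℕ → Fin 4) (a q N : ℕ) (ha : 1 ≤ a)
    (hfrac : ∀ S ⊆ W, Frac G S a) (x : ℝ)
    (hx : ∀ v ∈ W, x ≤ (((L v).filter fun c => χ c = 0).card : ℝ))
    (hq : ∀ v ∈ W, ∀ r, q ≤ ((L v).filter fun c => χ c = r).card)
    (hbig : 4 * Real.exp 2 * (N : ℝ) ^ 2 ≤ Real.exp (x / a)) (hard : ¬ ColOn G W L) :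
    ∃ X : Fin N → Finset V, (∀ i, X i ⊆ W ∧ ¬ Choos G (X i) q) ∧
      ∀ i j, i ≠ j → Disjoint (X i) (X j) := by
  classical
  set C0 : Finset ℕ := (W.biUnion L).filter (fun c => χ c = 0) with hC0
  have hLC : ∀ v ∈ W, L v ∩ C0 = (L v).filter fun c => χ c = 0 := by
    intro v hv
    ext c
    simp only [hC0, Finset.mem_inter, Finset.mem_filter, Finset.mem_biUnion]
    constructor
    · rintro ⟨h1, _, h2⟩; exact ⟨h1, h2⟩
    · rintro ⟨h1, h2⟩; exact ⟨h1, ⟨v, hv, h1⟩, h2⟩
  obtain ⟨Ω, iF, iD, X, hΩ, hXcol, hXmiss⟩ := samples (G := G) W L C0 a ha hfrac x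
    (fun v hv => by rw [hLC v hv]; exact hx v hv)
  set ε : ℝ := Real.exp (-(x / a)) with hε
  have hε1 : 4 * Real.exp 2 * (N : ℝ) ^ 2 * ε ≤ 1 := by
    have h1 : Real.exp (x / a) * ε = 1 := by
      rw [hε, ← Real.exp_add]; simp
    have h2 : 0 ≤ ε := (Real.exp_pos _).le
    nlinarith
  have hcard : Fintype.card (Fin N × Ω) ≤ N * Fintype.card Ω := by
    rw [Fintype.card_prod, Fintype.card_fin]
  obtain ⟨nbr, hnbr⟩ := Expander492.expander (ι := Fin N × Ω) (μ := Ω) N hε1 hcard
    Fintype.card_pos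
  -- the index sets
  have hI : ∀ v ∈ W, ((Finset.univ.filter fun i : Fin N × Ω => v ∉ X i.2).card : ℝ)
      ≤ ε * (N * Fintype.card Ω) := by
    intro v hv
    have h1 : (Finset.univ.filter fun i : Fin N × Ω => v ∉ X i.2)
        = (Finset.univ : Finset (Fin N)) ×ˢ (Finset.univ.filter fun ω => v ∉ X ω) := by
      ext ⟨b, ω⟩
      simp
    rw [h1, Finset.card_product, Finset.card_univ, Fintype.card_fin]
    push_cast
    have h2 := hXmiss v hv
    have h3 : (0 : ℝ) ≤ N := Nat.cast_nonneg N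
    nlinarith
  have hf : ∀ v : V, ∃ f : Fin N × Ω → Ω, v ∈ W →
      (∀ i, v ∉ X i.2 → ∀ j, v ∉ X j.2 → f i = f j → i = j) ∧
      ∀ i, v ∉ X i.2 → ∃ r, nbr i r = f i := by
    intro v
    by_cases hv : v ∈ W
    · obtain ⟨f, h1, h2⟩ := hall nbr hnbr _ (hI v hv)
      refine ⟨f, fun _ => ⟨?_, ?_⟩⟩
      · intro i hi j hj
        exact h1 i (by simpa using hi) j (by simpa using hj)
      · intro i hi
        exact h2 i (by simpa using hi)
    · exact ⟨fun i => i.2, fun h => absurd h hv⟩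
  choose f hf using hf
  let B (i : Fin N × Ω) (m : Ω) : Finset V := W.filter fun v => v ∉ X i.2 ∧ f v i = m
  have hBhard : ∀ i, ∃ r, ¬ Choos G (B i (nbr i r)) q := by
    intro i
    by_contra hcon
    push Not at hcon
    apply hard
    obtain ⟨c0, hc0, hp0⟩ := hXcol i.2
    -- colour `B i (nbr i r)` from the palette `r+1`
    have hcr : ∀ r : Fin 3, ∃ c : V → ℕ, (∀ v ∈ B i (nbr i r),
        c v ∈ (L v).filter (fun d => χ d = r.succ)) ∧ ProperOn G (B i (nbr i r)) c := by
      intro r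
      apply hcon r (fun v => (L v).filter (fun d => χ d = r.succ))
      intro v hv
      exact hq v (Finset.mem_filter.mp hv).1 _
    choose c hc hp using hcr
    have hr : ∀ v : V, ∃ r : Fin 3, v ∈ W → v ∉ X i.2 → v ∈ B i (nbr i r) := by
      intro v
      by_cases hv : v ∈ W ∧ v ∉ X i.2
      · obtain ⟨r, hr⟩ := (hf v hv.1).2 i hv.2
        refine ⟨r, fun _ _ => ?_⟩
        exact Finset.mem_filter.mpr ⟨hv.1, hv.2, hr.symm⟩
      · exact ⟨0, fun h1 h2 => absurd ⟨h1, h2⟩ hv⟩
    choose r hr using hr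
    refine ⟨fun v => if v ∈ X i.2 then c0 v else c (r v) v, ?_, ?_⟩
    · intro v hv
      by_cases hvX : v ∈ X i.2
      · simp only [hvX, if_true]
        exact (Finset.mem_inter.mp (hc0 v hvX)).1
      · simp only [hvX, if_false]
        exact (Finset.mem_filter.mp (hc (r v) v (hr v hv hvX))).1
    · intro u hu v hv huv
      by_cases huX : u ∈ X i.2 <;> by_cases hvX : v ∈ X i.2
      · simp only [huX, hvX, if_true]
        exact hp0 u huX v hvX huv
      · simp only [huX, hvX, if_true, if_false]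
        intro heq
        have h1 := (Finset.mem_filter.mp (Finset.mem_inter.mp (hc0 u huX)).2).2
        have h2 := (Finset.mem_filter.mp (hc (r v) v (hr v hv hvX))).2
        rw [heq] at h1
        rw [h1] at h2
        exact absurd h2 (Fin.succ_ne_zero _).symm
      · simp only [huX, hvX, if_true, if_false]
        intro heq
        have h1 := (Finset.mem_filter.mp (Finset.mem_inter.mp (hc0 v hvX)).2).2
        have h2 := (Finset.mem_filter.mp (hc (r u) u (hr u hu huX))).2
        rw [heq, h1] at h2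
        exact absurd h2 (Fin.succ_ne_zero _).symm
      · simp only [huX, hvX, if_false]
        intro heq
        have hu1 := hr u hu huX
        have hv1 := hr v hv hvX
        have h1 := (Finset.mem_filter.mp (hc (r u) u hu1)).2
        have h2 := (Finset.mem_filter.mp (hc (r v) v hv1)).2
        rw [heq, h2] at h1
        have h3 : r v = r u := Fin.succ_injective _ h1
        rw [h3] at hv1 heq
        exact hp (r u) u hu1 v hv1 huv heq
  choose r hr using hBhard
  have hΩ' : Nonempty Ω := hΩ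
  obtain ⟨m, hm⟩ := Fintype.exists_le_card_fiber_of_mul_le_card (n := N)
    (fun i : Fin N × Ω => nbr i (r i)) (by
      rw [Fintype.card_prod, Fintype.card_fin, mul_comm])
  obtain ⟨F, hF1, hF2⟩ := Finset.exists_subset_card_eq hm
  let e := F.equivFinOfCardEq hF2
  refine ⟨fun l => B (e.symm l) m, ?_, ?_⟩
  · intro l
    refine ⟨Finset.filter_subset _ _, ?_⟩
    have h1 := hF1 (e.symm l).2
    have h2 : nbr (e.symm l) (r (e.symm l)) = m := by simpa using h1
    have h3 := hr (e.symm l)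
    rw [h2] at h3
    exact h3
  · intro l l' hll
    rw [Finset.disjoint_left]
    intro v hv hv'
    obtain ⟨hvW, hvX, hvf⟩ := Finset.mem_filter.mp hv
    obtain ⟨_, hvX', hvf'⟩ := Finset.mem_filter.mp hv'
    have := (hf v hvW).1 _ hvX _ hvX' (hvf.trans hvf'.symm)
    apply hll
    have h5 : e.symm l = e.symm l' := Subtype.ext this
    exact e.symm.injective h5

/-- LEMMA KR (8.2): `N` disjoint sets hard for lists of size `k/8`. -/
theorem kr_list (G : SimpleGraph V) (W : Finset V) (a k N : ℕ) (ha : 1 ≤ a)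
    (hfrac : ∀ S ⊆ W, Frac G S a)
    (hsize : (4 * W.card : ℝ) < Real.exp (k / 32))
    (hbig : 4 * Real.exp 2 * (N : ℝ) ^ 2 ≤ Real.exp (k / (8 * a)))
    (hard : ¬ Choos G W k) :
    ∃ X : Fin N → Finset V, (∀ i, X i ⊆ W ∧ ¬ Choos G (X i) (k / 8)) ∧
      ∀ i j, i ≠ j → Disjoint (X i) (X j) := by
  unfold Choos at hard
  push Not at hard
  obtain ⟨L, hL, hcol⟩ := hard
  obtain ⟨χ, hχ⟩ := Pal365.palette W L 4 k (by norm_num) hL (by
    push_cast
    have : (8 * 4 : ℝ) = 32 := by norm_num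
    rw [this]
    exact hsize)
  refine kr_core W L χ a (k / 8) N ha hfrac ((k : ℝ) / 8) ?_ ?_ ?_ hcol
  · intro v hv
    have h1 := hχ v hv 0
    have h2 : (k : ℝ) ≤ 2 * 4 * (((L v).filter fun c => χ c = 0).card : ℝ) := by exact_mod_cast h1
    linarith
  · intro v hv r
    have h1 := hχ v hv r
    omega
  · have h1 : (k : ℝ) / 8 / a = k / (8 * a) := by rw [div_div]
    rw [h1]
    exact hbig

end Crest.Agent.R042.KR492
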