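import Mathlib
import Crest.Agent.R042.Conn_353
import Crest.Agent.R042.Menger_353

/-! Row 42 (S0058), section 07 (5): the shortcut of one port path.  A chain of vertices ending
outside the pieces `H j` keeps its vertices outside the pieces (`Out`) and jumps, at most once in
each piece `k ∈ J`, from `en k` to `ex k`. -/

set_option autoImplicit false
set_option linter.unusedSectionVars false
set_option linter.unusedVariables false

namespace Crest.Agent.R042.Short153

open Finset Crest.Agent.R042.Conn353 Crest.Agent.R042.Menger353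

variable {V : Type*} [DecidableEq V] {ι : Type*} [DecidableEq ι]

theorem short_chain (G : SimpleGraph V) (H : ι → Finset V)
    (hdis : ∀ i j, i ≠ j → Disjoint (H i) (H j)) :
    ∀ (n : ℕ) (c : V) (t : List V), (c :: t).length ≤ n → (c :: t).IsChain G.Adj →
    ∀ (b : V) (s : List V), c :: t = s ++ [b] → (∀ j, b ∉ H j) →
    ∃ (Out : Finset V) (J : Finset ι) (en ex : ι → V),
      (∀ z ∈ Out, z ∈ c :: t) ∧ (∀ z ∈ Out, ∀ j, z ∉ H j) ∧
      (∀ k ∈ J, en k ∈ c :: t ∧ ex k ∈ c :: t ∧ en k ∈ H k ∧ ex k ∈ H k) ∧ b ∈ Out ∧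
      ∀ C : ι → Finset V, (∀ k ∈ J, Conn G (C k) ∧ en k ∈ C k ∧ ex k ∈ C k) →
        Conn G (Out ∪ J.biUnion C) ∧ c ∈ Out ∪ J.biUnion C := by
  intro n
  induction n with
  | zero => intro c t h; simp at h
  | succ n ih =>
    intro c t hlen hch b s hst hb
    by_cases hc : ∃ j, c ∈ H j
    · obtain ⟨j, hj⟩ := hc
      obtain ⟨l1, x, l2, h1, h2, h3⟩ := split_last (fun x => x ∈ H j) (c :: t) ⟨c, by simp, hj⟩
      cases l2 with
      | nil =>
        exfalso
        have h4 : l1 ++ [x] = s ++ [b] := by rw [← h1, hst]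
        obtain ⟨_, h5⟩ := last_unique h4
        exact hb j (h5 ▸ h2)
      | cons d l3 =>
        have hlen' : (d :: l3).length ≤ n := by
          have : (c :: t).length = (l1 ++ x :: d :: l3).length := by rw [h1]
          simp only [List.length_append, List.length_cons] at this hlen ⊢
          omega
        rw [h1, List.isChain_split, List.isChain_cons_cons] at hch
        obtain ⟨-, hxd, hch2⟩ := hch
        obtain ⟨s', hs'⟩ : ∃ s', d :: l3 = s' ++ [b] := by
          rcases List.eq_nil_or_concat l3 with h | ⟨l4, e, h⟩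
          · rw [h] at h1 ⊢
            have h4 : (l1 ++ [x]) ++ [d] = s ++ [b] := by rw [← hst, h1]; simp
            obtain ⟨_, h5⟩ := last_unique h4
            exact ⟨[], by rw [h5]; rfl⟩
          · rw [h] at h1 ⊢
            have h4 : (l1 ++ x :: d :: l4) ++ [e] = s ++ [b] := by rw [← hst, h1]; simp
            obtain ⟨_, h5⟩ := last_unique h4
            exact ⟨d :: l4, by rw [h5]; simp⟩
        obtain ⟨Out, J, en, ex, a1, a2, a3, a4, a5⟩ := ih d l3 hlen' hch2 b s' hs' hb
        have hjJ : j ∉ J := fun hjJ => h3 (en j) (a3 j hjJ).1 (a3 j hjJ).2.2.1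
        have hsub : ∀ z ∈ d :: l3, z ∈ c :: t := by
          intro z hz
          rw [h1]
          simp only [List.mem_append, List.mem_cons] at hz ⊢
          tauto
        refine ⟨Out, insert j J, Function.update en j c, Function.update ex j x,
          fun z hz => hsub z (a1 z hz), a2, ?_, a4, ?_⟩
        · intro k hk
          rcases Finset.mem_insert.1 hk with rfl | hk
          · rw [Function.update_self, Function.update_self]
            refine ⟨by simp, ?_, hj, h2⟩
            rw [h1]; simp
          · have hkj : k ≠ j := fun h => hjJ (h ▸ hk)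
            rw [Function.update_of_ne hkj, Function.update_of_ne hkj]
            exact ⟨hsub _ (a3 k hk).1, hsub _ (a3 k hk).2.1, (a3 k hk).2.2⟩
        · intro C hC
          have hCj := hC j (Finset.mem_insert_self _ _)
          rw [Function.update_self, Function.update_self] at hCj
          obtain ⟨b1, b2⟩ := a5 C (by
            intro k hk
            have hkj : k ≠ j := fun h => hjJ (h ▸ hk)
            have := hC k (Finset.mem_insert_of_mem hk)
            rwa [Function.update_of_ne hkj, Function.update_of_ne hkj] at this)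
          have hset : Out ∪ (insert j J).biUnion C = C j ∪ (Out ∪ J.biUnion C) := by
            rw [Finset.biUnion_insert, Finset.union_left_comm]
          rw [hset]
          exact ⟨hCj.1.union_adj b1 hCj.2.2 b2 hxd, Finset.mem_union_left _ hCj.2.1⟩
    · push Not at hc
      cases t with
      | nil =>
        have h4 : [] ++ [c] = s ++ [b] := by rw [← hst]; rfl
        obtain ⟨_, h5⟩ := last_unique h4
        subst h5
        refine ⟨{c}, ∅, fun _ => c, fun _ => c, by simp, ?_, by simp, by simp, ?_⟩
        · intro z hz j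
          rw [Finset.mem_singleton.1 hz]
          exact hc j
        · intro C _
          simp only [Finset.biUnion_empty, Finset.union_empty, Finset.mem_singleton, and_true]
          exact conn_singleton c
      | cons d l3 =>
        have hlen' : (d :: l3).length ≤ n := by
          simp only [List.length_cons] at hlen ⊢
          omega
        rw [List.isChain_cons_cons] at hch
        obtain ⟨hcd, hch2⟩ := hch
        obtain ⟨s', hs'⟩ : ∃ s', d :: l3 = s' ++ [b] := by
          cases s with
          | nil => simp at hst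
          | cons c' s' =>
            simp only [List.cons_append, List.cons.injEq] at hst
            exact ⟨s', hst.2⟩
        obtain ⟨Out, J, en, ex, a1, a2, a3, a4, a5⟩ := ih d l3 hlen' hch2 b s' hs' hb
        refine ⟨insert c Out, J, en, ex, ?_, ?_, ?_, Finset.mem_insert_of_mem a4, ?_⟩
        · intro z hz
          rcases Finset.mem_insert.1 hz with rfl | hz
          · simp
          · exact List.mem_cons_of_mem _ (a1 z hz)
        · intro z hz
          rcases Finset.mem_insert.1 hz with rfl | hz
          · exact hc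
          · exact a2 z hz
        · intro k hk
          exact ⟨List.mem_cons_of_mem _ (a3 k hk).1, List.mem_cons_of_mem _ (a3 k hk).2.1,
            (a3 k hk).2.2⟩
        · intro C hC
          obtain ⟨b1, b2⟩ := a5 C hC
          rw [Finset.insert_union]
          exact ⟨b1.insert_adj b2 hcd.symm, Finset.mem_insert_self _ _⟩

/-- the shortcut of a whole port path: it starts in the piece `H j0`, is left by the rest at its
last vertex `x` of this piece, and ends at `b ∈ Y0`. -/
theorem short_path {G : SimpleGraph V} {H : ι → Finset V}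
    (hdis : ∀ i j, i ≠ j → Disjoint (H i) (H j)) {W' A Y0 : Finset V}
    (hY0 : ∀ j, ∀ z ∈ Y0, z ∉ H j) {l : List V} (hl : IsPath G W' A Y0 l) {j0 : ι} {a : V}
    (ha : a ∈ l) (haj : a ∈ H j0) :
    ∃ (x b : V) (Out : Finset V) (J : Finset ι) (en ex : ι → V), x ∈ l ∧ x ∈ H j0 ∧ j0 ∉ J ∧
      b ∈ l ∧ b ∈ Y0 ∧ (∀ z ∈ l, z ∈ Y0 → z = b) ∧
      (∀ z ∈ Out, z ∈ l) ∧ (∀ z ∈ Out, ∀ j, z ∉ H j) ∧
      (∀ k ∈ J, en k ∈ l ∧ ex k ∈ l ∧ en k ∈ H k ∧ ex k ∈ H k) ∧ b ∈ Out ∧
      ∀ (B : Finset V) (C : ι → Finset V), Conn G B → x ∈ B →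
        (∀ k ∈ J, Conn G (C k) ∧ en k ∈ C k ∧ ex k ∈ C k) →
        Conn G (B ∪ (Out ∪ J.biUnion C)) := by
  obtain ⟨s, b, hsb, hbY, hsY⟩ := hl.stop
  obtain ⟨l1, x, l2, h1, h2, h3⟩ := split_last (fun x => x ∈ H j0) l ⟨a, ha, haj⟩
  cases l2 with
  | nil =>
    exfalso
    have h4 : l1 ++ [x] = s ++ [b] := by rw [← h1, hsb]
    obtain ⟨_, h5⟩ := last_unique h4
    exact hY0 j0 b hbY (h5 ▸ h2)
  | cons d l3 =>
    have hch := hl.chain
    rw [h1, List.isChain_split, List.isChain_cons_cons] at hch
    obtain ⟨-, hxd, hch2⟩ := hch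
    obtain ⟨s', hs'⟩ : ∃ s', d :: l3 = s' ++ [b] := by
      rcases List.eq_nil_or_concat l3 with h | ⟨l4, e, h⟩
      · rw [h] at h1 ⊢
        have h4 : (l1 ++ [x]) ++ [d] = s ++ [b] := by rw [← hsb, h1]; simp
        obtain ⟨_, h5⟩ := last_unique h4
        exact ⟨[], by rw [h5]; rfl⟩
      · rw [h] at h1 ⊢
        have h4 : (l1 ++ x :: d :: l4) ++ [e] = s ++ [b] := by rw [← hsb, h1]; simp
        obtain ⟨_, h5⟩ := last_unique h4
        exact ⟨d :: l4, by rw [h5]; simp⟩
    obtain ⟨Out, J, en, ex, a1, a2, a3, a4, a5⟩ := short_chain G H hdis (d :: l3).length d l3 le_rfl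
      hch2 b s' hs' (fun j => hY0 j b hbY)
    have hsub : ∀ z ∈ d :: l3, z ∈ l := by
      intro z hz
      rw [h1]
      simp only [List.mem_append, List.mem_cons] at hz ⊢
      tauto
    refine ⟨x, b, Out, J, en, ex, ?_, h2, ?_, ?_, hbY, ?_, fun z hz => hsub z (a1 z hz), a2, ?_,
      a4, ?_⟩
    · rw [h1]; simp
    · intro hjJ
      exact h3 (en j0) (a3 j0 hjJ).1 (a3 j0 hjJ).2.2.1
    · rw [hsb]; simp
    · intro z hz hzY
      rw [hsb] at hl hz
      exact hl.mem_B hz hzY
    · intro k hk
      exact ⟨hsub _ (a3 k hk).1, hsub _ (a3 k hk).2.1, (a3 k hk).2.2⟩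
    · intro B C hB hx hC
      obtain ⟨b1, b2⟩ := a5 C hC
      exact hB.union_adj b1 hx b2 hxd

end Crest.Agent.R042.Short153
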