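import Mathlib
import Crest.Agent.R042.AsmDefs_220
import Crest.Agent.R042.Short_153

/-! Row 42 (S0058), section 07 (5)+(6): the legs.  `woven_fam`: a woven piece in family form (pairs
indexed by any finite set, equal ends allowed = blocked vertices).  `legs : LegsStmt`. -/

set_option autoImplicit false
set_option linter.unusedSectionVars false
set_option linter.unusedVariables false

namespace Crest.Agent.R042.Legs153

open Finset Crest.Agent.R042.Conn353 Crest.Agent.R042.Menger353 Crest.Agent.R042.Asm220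
open Crest.Agent.R042.Short153

/-- `Woven` for a family of pairs `(s q, t q)`, `q ∈ K`, where `s q = t q` is allowed. -/
theorem woven_fam {V : Type*} [DecidableEq V] {G : SimpleGraph V} {H Y : Finset V} {a c : ℕ}
    (hW : Woven G H Y a c) (hYH : Y ⊆ H) {κ : Type*} [DecidableEq κ] (K : Finset κ)
    (hK : K.card ≤ c) (r : Fin a → V) (s t : κ → V) (hr : Function.Injective r)
    (hrY : ∀ i, r i ∈ Y) (hsY : ∀ q ∈ K, s q ∈ Y) (htY : ∀ q ∈ K, t q ∈ Y)
    (hst : ∀ q ∈ K, ∀ q' ∈ K, q ≠ q' → s q ≠ s q' ∧ s q ≠ t q' ∧ t q ≠ t q')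
    (hrs : ∀ i, ∀ q ∈ K, r i ≠ s q ∧ r i ≠ t q) :
    ∃ (B : Fin a → Finset V) (C : κ → Finset V),
      (∀ i, B i ⊆ H ∧ Conn G (B i) ∧ r i ∈ B i) ∧
      (∀ q ∈ K, C q ⊆ H ∧ Conn G (C q) ∧ s q ∈ C q ∧ t q ∈ C q) ∧
      (∀ i j, i ≠ j → Disjoint (B i) (B j)) ∧
      (∀ q ∈ K, ∀ q' ∈ K, q ≠ q' → Disjoint (C q) (C q')) ∧
      (∀ i, ∀ q ∈ K, Disjoint (B i) (C q)) ∧
      (∀ i j, i ≠ j → ∃ x ∈ B i, ∃ y ∈ B j, G.Adj x y) := by
  classical
  set M : Finset κ := K.filter (fun q => s q ≠ t q) with hM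
  set Bl : Finset V := (K.filter (fun q => s q = t q)).image s with hBl
  have hMK : ∀ q ∈ M, q ∈ K ∧ s q ≠ t q := fun q hq => by simpa [hM] using hq
  have hBlK : ∀ v ∈ Bl, ∃ q ∈ K, s q = t q ∧ s q = v := by
    intro v hv
    rw [hBl, Finset.mem_image] at hv
    obtain ⟨q, hq, rfl⟩ := hv
    rw [Finset.mem_filter] at hq
    exact ⟨q, hq.1, hq.2, rfl⟩
  let e : Fin M.card ≃ M := M.equivFin.symm
  have heK : ∀ i, (e i : κ) ∈ K := fun i => (hMK _ (e i).2).1
  have hene : ∀ i, s (e i) ≠ t (e i) := fun i => (hMK _ (e i).2).2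
  have heinj : ∀ i j, i ≠ j → (e i : κ) ≠ e j := by
    intro i j hij h
    exact hij (e.injective (Subtype.ext h))
  have hcard : 2 * M.card + Bl.card ≤ 2 * c := by
    have h1 : Bl.card ≤ (K.filter (fun q => s q = t q)).card := Finset.card_image_le
    have h2 : (K.filter (fun q => s q = t q)).card + M.card = K.card := by
      rw [hM]
      exact Finset.card_filter_add_card_filter_not _
    omega
  obtain ⟨B, P, b1, b2, b3, b4, b5, b6, b7, b8⟩ := hW r M.card (fun i => s (e i))
    (fun i => t (e i)) Bl hr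
    (by
      intro i j hij
      by_contra hne
      exact (hst _ (heK i) _ (heK j) (heinj i j hne)).1 hij)
    (by
      intro i j hij
      by_contra hne
      exact (hst _ (heK i) _ (heK j) (heinj i j hne)).2.2 hij)
    (fun i j => (hrs i _ (heK j)).1) (fun i j => (hrs i _ (heK j)).2)
    (by
      intro i j hij
      by_cases hne : i = j
      · subst hne
        exact hene i hij
      · exact (hst _ (heK i) _ (heK j) (heinj i j hne)).2.1 hij)
    hrY (fun i => hsY _ (heK i)) (fun i => htY _ (heK i))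
    (by
      intro v hv
      obtain ⟨q, hq, _, rfl⟩ := hBlK v hv
      exact hsY q hq)
    (by
      intro i hi
      obtain ⟨q, hq, _, h2⟩ := hBlK _ hi
      exact (hrs i q hq).1 h2.symm)
    (by
      intro i hi
      obtain ⟨q, hq, h1, h2⟩ := hBlK _ hi
      by_cases hqe : q = e i
      · exact hene i (hqe ▸ h1)
      · exact (hst _ hq _ (heK i) hqe).1 h2)
    (by
      intro i hi
      obtain ⟨q, hq, h1, h2⟩ := hBlK _ hi
      by_cases hqe : q = e i
      · exact hene i (hqe ▸ h1)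
      · exact (hst _ hq _ (heK i) hqe).2.1 h2)
    hcard
  refine ⟨B, fun q => if h : q ∈ M then P (e.symm ⟨q, h⟩) else {s q}, b1, ?_, b3, ?_, ?_, b8⟩
  · intro q hq
    by_cases h : q ∈ M
    · simp only [h, dite_true]
      have := b2 (e.symm ⟨q, h⟩)
      simpa using this
    · simp only [h, dite_false]
      have hst' : s q = t q := by
        by_contra hne
        exact h (by simp [hM, hq, hne])
      refine ⟨?_, conn_singleton _, by simp, by simp [hst']⟩
      intro x hx
      rw [Finset.mem_singleton.1 hx]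
      exact hYH (hsY q hq)
  · intro q hq q' hq' hne
    by_cases h : q ∈ M <;> by_cases h' : q' ∈ M
    · simp only [h, h', dite_true]
      apply b4
      intro heq
      have := e.symm.injective heq
      exact hne (by simpa using this)
    · simp only [h, h', dite_true, dite_false]
      refine Finset.disjoint_of_subset_right ?_ (b7 _)
      intro x hx
      rw [Finset.mem_singleton.1 hx, hBl]
      refine Finset.mem_image_of_mem _ ?_
      rw [Finset.mem_filter]
      refine ⟨hq', ?_⟩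
      by_contra hne
      exact h' (by simp [hM, hq', hne])
    · simp only [h, h', dite_true, dite_false]
      refine (Finset.disjoint_of_subset_right ?_ (b7 _)).symm
      intro x hx
      rw [Finset.mem_singleton.1 hx, hBl]
      refine Finset.mem_image_of_mem _ ?_
      rw [Finset.mem_filter]
      refine ⟨hq, ?_⟩
      by_contra hne
      exact h (by simp [hM, hq, hne])
    · simp only [h, h', dite_false]
      rw [Finset.disjoint_singleton]
      exact (hst q hq q' hq' hne).1
  · intro i q hq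
    by_cases h : q ∈ M
    · simp only [h, dite_true]
      exact b5 _ _
    · simp only [h, dite_false]
      refine Finset.disjoint_of_subset_right ?_ (b6 _)
      intro x hx
      rw [Finset.mem_singleton.1 hx, hBl]
      refine Finset.mem_image_of_mem _ ?_
      rw [Finset.mem_filter]
      refine ⟨hq, ?_⟩
      by_contra hne
      exact h (by simp [hM, hq, hne])

/-- section 07 (5)+(6). -/
theorem legs : LegsStmt := by
  intro V _ G ι _ _ W H0 Y0 H Y S a c P hYH hHW hY0 hH0 hdis hdis0 hSY hSa hP hPc hac hW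
  classical
  set Z : Finset V := Finset.univ.biUnion (fun j => H j \ Y j) ∪ (H0 \ Y0) with hZ
  set A : Finset V := Finset.univ.biUnion S with hA
  have hSH : ∀ j, S j ⊆ H j := fun j => (hSY j).trans (hYH j)
  -- vertices of `W'`
  have hWY : ∀ j, ∀ z ∈ W \ Z, z ∈ H j → z ∈ Y j := by
    intro j z hz hzH
    by_contra hzY
    refine (Finset.mem_sdiff.1 hz).2 ?_
    rw [hZ]
    refine Finset.mem_union_left _ (Finset.mem_biUnion.2 ⟨j, Finset.mem_univ _, ?_⟩)
    exact Finset.mem_sdiff.2 ⟨hzH, hzY⟩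
  have hWY0 : ∀ z ∈ W \ Z, z ∈ H0 → z ∈ Y0 := by
    intro z hz hzH
    by_contra hzY
    refine (Finset.mem_sdiff.1 hz).2 ?_
    rw [hZ]
    exact Finset.mem_union_right _ (Finset.mem_sdiff.2 ⟨hzH, hzY⟩)
  have hY0H : ∀ j, ∀ z ∈ Y0, z ∉ H j := by
    intro j z hz hzH
    exact Finset.disjoint_left.1 (hdis0 j) hzH (hY0 hz)
  have huniq : ∀ i j v, v ∈ H i → v ∈ H j → i = j := by
    intro i j v hi hj
    by_contra hne
    exact Finset.disjoint_left.1 (hdis i j hne) hi hj
  -- every vertex of `A` starts a path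
  have hAcard : A.card ≤ a * Fintype.card ι := by
    rw [hA]
    refine Finset.card_biUnion_le.trans ?_
    simp [hSa, mul_comm]
  have hAP : A ⊆ verts P := by
    have h1 := hP.verts_inter_card_left
    have h2 : A ⊆ verts P ∩ A := by
      have : verts P ∩ A = A := by
        apply Finset.eq_of_subset_of_card_le Finset.inter_subset_right
        rw [h1, hPc]
        exact hAcard
      rw [this]
    exact fun x hx => Finset.mem_of_mem_inter_left (h2 hx)
  -- indexing of the starts
  let σ : ∀ j, Fin a ≃ S j := fun j => (Fin.castOrderIso (hSa j).symm).toEquiv.trans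
    (S j).equivFin.symm
  have hσA : ∀ j i, ((σ j i : S j) : V) ∈ A := by
    intro j i
    rw [hA]
    exact Finset.mem_biUnion.2 ⟨j, Finset.mem_univ _, (σ j i).2⟩
  have hpath : ∀ q : ι × Fin a, ∃ l ∈ P, ((σ q.1 q.2 : S q.1) : V) ∈ l :=
    fun q => mem_verts.1 (hAP (hσA q.1 q.2))
  choose L hLP hLσ using hpath
  have hLne : ∀ q q' : ι × Fin a, q ≠ q' → L q ≠ L q' := by
    intro q q' hne heq
    obtain ⟨a0, t, h1, h2, h3⟩ := (hP.path _ (hLP q)).start
    have h4 : ∀ z ∈ L q, z ∈ A → z = a0 := by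
      intro z hz hzA
      rw [h1] at hz
      rcases List.mem_cons.1 hz with h | h
      · exact h
      · exact absurd hzA (h3 z h)
    have h5 := h4 _ (hLσ q) (hσA _ _)
    have h6 := h4 _ (by rw [heq]; exact hLσ q') (hσA q'.1 q'.2)
    have h7 : ((σ q.1 q.2 : S q.1) : V) = ((σ q'.1 q'.2 : S q'.1) : V) := by rw [h5, h6]
    have h8 : q.1 = q'.1 := huniq _ _ _ (hSH _ (σ q.1 q.2).2) (h7 ▸ hSH _ (σ q'.1 q'.2).2)
    obtain ⟨j, i⟩ := q
    obtain ⟨j', i'⟩ := q'
    simp only at h8
    subst h8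
    have h9 := (σ j).injective (Subtype.ext h7)
    exact hne (Prod.ext rfl h9)
  have hLdisj : ∀ q q' : ι × Fin a, q ≠ q' → ∀ z ∈ L q, z ∉ L q' :=
    fun q q' hne => hP.disj _ (hLP q) _ (hLP q') (hLne q q' hne)
  -- the shortcuts
  have hshort := fun q : ι × Fin a => short_path (G := G) (H := H) hdis hY0H
    (hP.path _ (hLP q)) (hLσ q) (hSH _ (σ q.1 q.2).2)
  choose x y Out J en ex hxL hxH hJ hyL hyY hlast hOutL hOutH hJs hyOut hconn using hshort
  have hLW : ∀ q, ∀ z ∈ L q, z ∈ W \ Z := fun q => (hP.path _ (hLP q)).sub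
  let K : ι → Finset (ι × Fin a) := fun k => Finset.univ.filter (fun q => k ∈ J q)
  have hKm : ∀ k q, q ∈ K k ↔ k ∈ J q := by intro k q; simp [K]
  have hKc : ∀ k, (K k).card ≤ c := by
    intro k
    refine (Finset.card_le_univ _).trans ?_
    rw [Fintype.card_prod, Fintype.card_fin, mul_comm]
    exact hac
  have hne_of : ∀ {q q' : ι × Fin a} {u v : V}, q ≠ q' → u ∈ L q → v ∈ L q' → u ≠ v := by
    intro q q' u v hne hu hv huv
    exact hLdisj q q' hne u hu (huv ▸ hv)
  have hwov := fun k => woven_fam (hW k) (hYH k) (K k) (hKc k) (fun i => x (k, i))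
    (fun q => en q k) (fun q => ex q k)
    (by
      intro i i' h
      by_contra hne
      exact hne_of (q := (k, i)) (q' := (k, i')) (by simp [hne]) (hxL _) (hxL _) h)
    (fun i => hWY k _ (hLW _ _ (hxL _)) (hxH (k, i)))
    (by
      intro q hq
      have := hJs q k ((hKm k q).1 hq)
      exact hWY k _ (hLW _ _ this.1) this.2.2.1)
    (by
      intro q hq
      have := hJs q k ((hKm k q).1 hq)
      exact hWY k _ (hLW _ _ this.2.1) this.2.2.2)
    (by
      intro q hq q' hq' hne
      have h1 := hJs q k ((hKm k q).1 hq)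
      have h2 := hJs q' k ((hKm k q').1 hq')
      exact ⟨hne_of hne h1.1 h2.1, hne_of hne h1.1 h2.2.1, hne_of hne h1.2.1 h2.2.1⟩)
    (by
      intro i q hq
      have h1 := hJs q k ((hKm k q).1 hq)
      have hne : (k, i) ≠ q := by
        intro h
        subst h
        exact hJ (k, i) ((hKm k _).1 hq)
      exact ⟨hne_of hne (hxL _) h1.1, hne_of hne (hxL _) h1.2.1⟩)
  choose B C hB hC hBB hCC hBC hadj using hwov
  have hBH : ∀ j i, ∀ z ∈ B j i, z ∈ H j := fun j i z hz => (hB j i).1 hz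
  have hCH : ∀ q, ∀ k ∈ J q, ∀ z ∈ C k q, z ∈ H k := fun q k hk z hz =>
    (hC k q ((hKm k q).2 hk)).1 hz
  have hmem : ∀ j i z, z ∈ B j i ∪ (Out (j, i) ∪ (J (j, i)).biUnion (fun k => C k (j, i))) ↔
      z ∈ B j i ∨ z ∈ Out (j, i) ∨ ∃ k ∈ J (j, i), z ∈ C k (j, i) := by
    intro j i z
    rw [Finset.mem_union, Finset.mem_union, Finset.mem_biUnion]
  refine ⟨fun j i => B j i ∪ (Out (j, i) ∪ (J (j, i)).biUnion (fun k => C k (j, i))),
    fun j i => y (j, i), ?_, ?_, ?_, ?_, ?_, ?_, ?_⟩
  · intro j i z hz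
    rcases (hmem j i z).1 hz with h | h | ⟨k, hk, h⟩
    · exact hHW j (hBH _ _ _ h)
    · exact (Finset.mem_sdiff.1 (hLW _ _ (hOutL _ _ h))).1
    · exact hHW k (hCH _ _ hk _ h)
  · intro j i
    exact hconn (j, i) _ _ (hB j i).2.1 (hB j i).2.2
      (fun k hk => (hC k (j, i) ((hKm k _).2 hk)).2)
  · intro j i
    exact (hmem j i _).2 (Or.inr (Or.inl (hyOut _)))
  · intro j i
    exact hyY _
  · intro j i z hz hzH
    rcases (hmem j i z).1 hz with h | h | ⟨k, hk, h⟩
    · exact absurd hzH (Finset.disjoint_left.1 (hdis0 j) (hBH _ _ _ h))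
    · exact hlast _ _ (hOutL _ _ h) (hWY0 _ (hLW _ _ (hOutL _ _ h)) hzH)
    · exact absurd hzH (Finset.disjoint_left.1 (hdis0 k) (hCH _ _ hk _ h))
  · intro j i j' i' hne
    rw [Finset.disjoint_left]
    intro z hz hz'
    rcases (hmem j i z).1 hz with h | h | ⟨k, hk, h⟩ <;>
      rcases (hmem j' i' z).1 hz' with h' | h' | ⟨k', hk', h'⟩
    · have hjj : j = j' := huniq _ _ _ (hBH _ _ _ h) (hBH _ _ _ h')
      subst hjj
      have hii : i ≠ i' := fun h => hne (by rw [h])
      exact Finset.disjoint_left.1 (hBB j i i' hii) h h'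
    · exact hOutH _ _ h' j (hBH _ _ _ h)
    · have hjk : j = k' := huniq _ _ _ (hBH _ _ _ h) (hCH _ _ hk' _ h')
      subst hjk
      exact Finset.disjoint_left.1 (hBC j i _ ((hKm _ _).2 hk')) h h'
    · exact hOutH _ _ h j' (hBH _ _ _ h')
    · exact hLdisj _ _ hne z (hOutL _ _ h) (hOutL _ _ h')
    · exact hOutH _ _ h k' (hCH _ _ hk' _ h')
    · have hjk : k = j' := huniq _ _ _ (hCH _ _ hk _ h) (hBH _ _ _ h')
      subst hjk
      exact Finset.disjoint_left.1 (hBC k i' _ ((hKm _ _).2 hk)) h' h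
    · exact hOutH _ _ h' k (hCH _ _ hk _ h)
    · have hkk : k = k' := huniq _ _ _ (hCH _ _ hk _ h) (hCH _ _ hk' _ h')
      subst hkk
      exact Finset.disjoint_left.1 (hCC k _ ((hKm _ _).2 hk) _ ((hKm _ _).2 hk') hne) h h'
  · intro j i i' hne
    obtain ⟨u, hu, v, hv, huv⟩ := hadj j i i' hne
    exact ⟨u, (hmem j i u).2 (Or.inl hu), v, (hmem j i' v).2 (Or.inl hv), huv⟩

end Crest.Agent.R042.Legs153
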