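import Crest.Agent.R042.RSMain_803

/-! Row 42, sec 01, COROLLARY RS2: fractional covering by stable sets. -/

set_option autoImplicit false
set_option linter.unusedSectionVars false

namespace Crest.Agent.R042.RS803

open Finset Crest.Agent.R042.Conn353
open Crest.CombinatoricsR.GraphMinor

variable {V : Type*} [DecidableEq V]

/-- `2 (1 - 1/(4h))^(3h) < 1`. -/
lemma rho_lt_one {h : ℕ} (hh : 1 ≤ h) : 2 * (1 - 1 / (4 * (h : ℝ))) ^ (3 * h) < 1 := by
  have hh' : (1 : ℝ) ≤ h := by exact_mod_cast hh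
  have h0 : (0 : ℝ) < h := by linarith
  have h1 : 1 - 1 / (4 * (h : ℝ)) ≤ Real.exp (-(1 / (4 * (h : ℝ)))) := by
    have := Real.add_one_le_exp (-(1 / (4 * (h : ℝ))))
    linarith
  have h1' : 0 ≤ 1 - 1 / (4 * (h : ℝ)) := by
    have : 1 / (4 * (h : ℝ)) ≤ 1 := by
      rw [div_le_one (by linarith)]
      linarith
    linarith
  have h2 : (1 - 1 / (4 * (h : ℝ))) ^ (3 * h) ≤ Real.exp (-(3 / 4)) := by
    calc (1 - 1 / (4 * (h : ℝ))) ^ (3 * h) ≤ Real.exp (-(1 / (4 * (h : ℝ)))) ^ (3 * h) :=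
          pow_le_pow_left₀ h1' h1 _
      _ = Real.exp (-(3 / 4)) := by
          rw [← Real.exp_nat_mul]
          congr 1
          push_cast
          field_simp
  have h3 : (2 : ℝ) < Real.exp (3 / 4) := by
    have := Real.quadratic_le_exp_of_nonneg (show (0 : ℝ) ≤ 3 / 4 by norm_num)
    norm_num at this ⊢
    linarith
  have h4 : Real.exp (-(3 / 4)) < 1 / 2 := by
    rw [Real.exp_neg, ← one_div]
    exact one_div_lt_one_div_of_lt (by norm_num) h3
  linarith

/-- RS2: every vertex of `W` is in at least `T/(3h)` of the stable sets. -/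
theorem frac (G : SimpleGraph V) (W : Finset V) (h : ℕ)
    (hmin : ∀ B : Fin (h + 1) → Finset V, (∀ i, B i ⊆ W) → ¬ IsCliqueMinorModel G B) :
    ∃ (T : ℕ) (I : Fin T → Finset V), 1 ≤ T ∧
      (∀ i, I i ⊆ W ∧ ∀ u ∈ I i, ∀ v ∈ I i, ¬ G.Adj u v) ∧
      ∀ v ∈ W, T ≤ 3 * h * (Finset.univ.filter fun i => v ∈ I i).card := by
  classical
  rcases W.eq_empty_or_nonempty with hW | ⟨x0, hx0⟩
  · refine ⟨1, fun _ => ∅, le_rfl, fun i => ⟨empty_subset _, by simp⟩, ?_⟩
    intro v hv
    rw [hW] at hv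
    exact absurd hv (notMem_empty _)
  · -- h ≥ 1
    have hh : 1 ≤ h := by
      by_contra hcon
      have h0 : h = 0 := by omega
      subst h0
      refine hmin (fun _ => {x0}) (fun _ => by simpa using hx0) ⟨?_, ?_, ?_, ?_⟩
      · intro _; exact singleton_nonempty _
      · intro i j hij; exact absurd (Fin.ext (by omega)) hij
      · intro _; exact conn_singleton x0
      · intro i j hij; exact absurd (Fin.ext (by omega)) hij
    have hh' : (1 : ℝ) ≤ h := by exact_mod_cast hh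
    have hhp : (0 : ℝ) < h := by linarith
    -- the choice of the stable sets
    have hpick : ∀ m : V → ℕ, ∃ S ⊆ W, (∀ u ∈ S, ∀ v ∈ S, ¬ G.Adj u v) ∧
        ∑ v ∈ W, (1 / 2 : ℝ) ^ m v ≤ 2 * h * ∑ v ∈ S, (1 / 2 : ℝ) ^ m v := fun m =>
      stable G W h hmin (fun v => (1 / 2 : ℝ) ^ m v) (fun v => by positivity)
    choose f hfW hfs hfw using hpick
    let m : ℕ → V → ℕ := fun n => Nat.rec (fun _ => 0)
      (fun _ mm v => mm v + if v ∈ f mm then 1 else 0) n
    have hm0 : ∀ v, m 0 v = 0 := fun v => rfl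
    have hms : ∀ n v, m (n + 1) v = m n v + if v ∈ f (m n) then 1 else 0 := fun n v => rfl
    -- total weight
    have htot : ∀ n, ∑ v ∈ W, (1 / 2 : ℝ) ^ m n v ≤ W.card * (1 - 1 / (4 * (h : ℝ))) ^ n := by
      intro n
      induction n with
      | zero => simp [hm0]
      | succ n ih =>
        have h1 : ∑ v ∈ W, (1 / 2 : ℝ) ^ m (n + 1) v =
            ∑ v ∈ W, (1 / 2 : ℝ) ^ m n v - (1 / 2) * ∑ v ∈ f (m n), (1 / 2 : ℝ) ^ m n v := by
          have h2 : ∑ v ∈ f (m n), (1 / 2 : ℝ) ^ m n v =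
              ∑ v ∈ W, if v ∈ f (m n) then (1 / 2 : ℝ) ^ m n v else 0 := by
            rw [← sum_filter]
            congr 1
            ext v
            rw [mem_filter]
            exact ⟨fun h => ⟨hfW _ h, h⟩, fun h => h.2⟩
          rw [h2, mul_sum, ← sum_sub_distrib]
          refine sum_congr rfl fun v _ => ?_
          rw [hms]
          by_cases hv : v ∈ f (m n)
          · rw [if_pos hv, if_pos hv, pow_succ]; ring
          · rw [if_neg hv, if_neg hv]; simp
        have h3 := hfw (m n)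
        have h4 : (1 / (2 * (h : ℝ))) * ∑ v ∈ W, (1 / 2 : ℝ) ^ m n v ≤
            ∑ v ∈ f (m n), (1 / 2 : ℝ) ^ m n v := by
          rw [one_div, inv_mul_le_iff₀ (by linarith)]
          exact h3
        have h5 : (1 / (2 * (h : ℝ))) = 2 * (1 / (4 * (h : ℝ))) := by field_simp; norm_num
        have h6 : 0 ≤ 1 - 1 / (4 * (h : ℝ)) := by
          have : 1 / (4 * (h : ℝ)) ≤ 1 := by
            rw [div_le_one (by linarith)]
            linarith
          linarith
        rw [h5] at h4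
        rw [h1, pow_succ]
        have h7 := mul_le_mul_of_nonneg_right ih h6
        nlinarith [h7, h4]
    -- counting
    have hcount : ∀ n v, m n v = ∑ i ∈ range n, if v ∈ f (m i) then 1 else 0 := by
      intro n v
      induction n with
      | zero => simp [hm0]
      | succ n ih => rw [hms, ih, sum_range_succ]
    -- the choice of M
    have hrho := rho_lt_one hh
    have hρ0 : 0 ≤ 2 * (1 - 1 / (4 * (h : ℝ))) ^ (3 * h) := by
      have h6 : 0 ≤ 1 - 1 / (4 * (h : ℝ)) := by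
        have : 1 / (4 * (h : ℝ)) ≤ 1 := by
          rw [div_le_one (by linarith)]
          linarith
        linarith
      positivity
    have hWpos : (0 : ℝ) < W.card := by exact_mod_cast card_pos.2 ⟨x0, hx0⟩
    obtain ⟨n0, hn0⟩ := exists_pow_lt_of_lt_one (show (0 : ℝ) < 1 / W.card by positivity) hrho
    set ρ := 2 * (1 - 1 / (4 * (h : ℝ))) ^ (3 * h) with hρ
    have hM : (W.card : ℝ) * ρ ^ (n0 + 1) < 1 := by
      have h1 : ρ ^ (n0 + 1) ≤ ρ ^ n0 := pow_le_pow_of_le_one hρ0 hrho.le (Nat.le_succ _)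
      have h2 : ρ ^ (n0 + 1) < 1 / W.card := lt_of_le_of_lt h1 hn0
      rw [lt_div_iff₀ hWpos] at h2
      linarith
    set M := n0 + 1 with hMdef
    have hTpos : 1 ≤ 3 * h * M := by
      have : 0 < 3 * h * M := by positivity
      omega
    refine ⟨3 * h * M, fun i => f (m i), hTpos, fun i => ⟨hfW _, hfs _⟩, ?_⟩
    intro v hv
    have hcard : (univ.filter fun i : Fin (3 * h * M) => v ∈ f (m i)).card = m (3 * h * M) v := by
      rw [hcount, card_filter, Fin.sum_univ_eq_sum_range (fun i => if v ∈ f (m i) then 1 else 0)]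
    rw [hcard]
    refine Nat.mul_le_mul_left _ ?_
    rcases Nat.lt_or_ge (m (3 * h * M) v) M with hcon | hcon
    swap
    · exact hcon
    exfalso
    have h1 : (1 / 2 : ℝ) ^ m (3 * h * M) v ≤
        ∑ v ∈ W, (1 / 2 : ℝ) ^ m (3 * h * M) v :=
      single_le_sum (f := fun v => (1 / 2 : ℝ) ^ m (3 * h * M) v)
        (fun v _ => by positivity) hv
    have h2 := htot (3 * h * M)
    have h3 : (1 / 2 : ℝ) ^ M ≤ (1 / 2 : ℝ) ^ m (3 * h * M) v :=
      pow_le_pow_of_le_one (by norm_num) (by norm_num) hcon.le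
    have h4 : (W.card : ℝ) * (1 - 1 / (4 * (h : ℝ))) ^ (3 * h * M) < (1 / 2) ^ M := by
      have h5 : ρ ^ M = 2 ^ M * (1 - 1 / (4 * (h : ℝ))) ^ (3 * h * M) := by
        rw [hρ, mul_pow, ← pow_mul]
      rw [h5] at hM
      have h6 : (0 : ℝ) < 2 ^ M := by positivity
      have h7 : ((1 : ℝ) / 2) ^ M = 1 / 2 ^ M := by rw [one_div_pow]
      rw [h7, lt_div_iff₀ h6]
      linarith
    linarith

/-- RS2 for all subsets (the hypothesis `∀ S ⊆ W, Frac G S (3 * h)` of sec 02 / 8.2). -/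
theorem frac_sub (G : SimpleGraph V) (W : Finset V) (h : ℕ)
    (hmin : ∀ B : Fin (h + 1) → Finset V, (∀ i, B i ⊆ W) → ¬ IsCliqueMinorModel G B) :
    ∀ S ⊆ W, ∃ (T : ℕ) (I : Fin T → Finset V), 1 ≤ T ∧
      (∀ i, I i ⊆ S ∧ ∀ u ∈ I i, ∀ v ∈ I i, ¬ G.Adj u v) ∧
      ∀ v ∈ S, T ≤ 3 * h * (Finset.univ.filter fun i => v ∈ I i).card :=
  fun S hS => frac G S h fun B hB => hmin B fun i => (hB i).trans hS

end Crest.Agent.R042.RS803
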