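import Mathlib
import Crest.Agent.R042.Conn_353

/-! Row 42, item 10.3: the Alon-Seymour-Thomas lemma "small connected set meeting all `A i`, or a
small set cutting them" (BFS in stacked copies of the graph). -/

set_option autoImplicit false
set_option linter.unusedSectionVars false

namespace Crest.Agent.R042.TreeSep136

open Finset Crest.Agent.R042.Conn353

variable {V : Type*} [DecidableEq V] {G : SimpleGraph V}

open Classical in
/-- one BFS step in the stacked graph `W × {0..k}` (level change at vertices of `A (i+1)`). -/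
noncomputable def grow (G : SimpleGraph V) (W : Finset V) (A : ℕ → Finset V) (k : ℕ)
    (B : Finset (V × ℕ)) : Finset (V × ℕ) :=
  (W ×ˢ range (k + 1)).filter (fun w => w ∈ B ∨ (∃ v, (v, w.2) ∈ B ∧ G.Adj v w.1) ∨
    (∃ i, w.2 = i + 1 ∧ (w.1, i) ∈ B ∧ w.1 ∈ A (i + 1)))

open Classical in
/-- the balls. -/
noncomputable def ball (G : SimpleGraph V) (W : Finset V) (A : ℕ → Finset V) (k : ℕ) :
    ℕ → Finset (V × ℕ)
  | 0 => (W ×ˢ range (k + 1)).filter (fun w => w.2 = 0 ∧ w.1 ∈ A 0)
  | j + 1 => grow G W A k (ball G W A k j)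

variable {W : Finset V} {A : ℕ → Finset V} {k : ℕ}

lemma ball_sub (j : ℕ) : ball G W A k j ⊆ W ×ˢ range (k + 1) := by
  classical
  cases j with
  | zero =>
    intro w hw
    simp only [ball, mem_filter] at hw
    exact hw.1
  | succ j =>
    intro w hw
    simp only [ball, grow, mem_filter] at hw
    exact hw.1

lemma ball_mono_succ (j : ℕ) : ball G W A k j ⊆ ball G W A k (j + 1) := by
  classical
  intro w hw
  simp only [ball, grow, mem_filter]
  exact ⟨ball_sub j hw, Or.inl hw⟩

lemma ball_mono {i j : ℕ} (h : i ≤ j) : ball G W A k i ⊆ ball G W A k j := by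
  induction h with
  | refl => exact Subset.refl _
  | step _ ih => exact ih.trans (ball_mono_succ _)

/-- every element of the `j`-th ball comes with a small connected set. -/
lemma ball_tree (j : ℕ) : ∀ w ∈ ball G W A k j,
    ∃ S ⊆ W, Conn G S ∧ w.1 ∈ S ∧ S.card ≤ j + 1 ∧ ∀ i ≤ w.2, ∃ x ∈ S, x ∈ A i := by
  classical
  induction j with
  | zero =>
    intro w hw
    simp only [ball, mem_filter, mem_product] at hw
    refine ⟨{w.1}, by simpa using hw.1.1, conn_singleton _, by simp, by simp, ?_⟩
    intro i hi
    have : i = 0 := by omega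
    subst this
    exact ⟨w.1, by simp, hw.2.2⟩
  | succ j ih =>
    intro w hw
    simp only [ball, grow, mem_filter, mem_product] at hw
    obtain ⟨⟨hwW, _⟩, h | ⟨v, hv, hadj⟩ | ⟨i, hi, hmem, hA⟩⟩ := hw
    · obtain ⟨S, h1, h2, h3, h4, h5⟩ := ih w h
      exact ⟨S, h1, h2, h3, by omega, h5⟩
    · obtain ⟨S, h1, h2, h3, h4, h5⟩ := ih _ hv
      refine ⟨insert w.1 S, ?_, h2.insert_adj h3 hadj, mem_insert_self _ _, ?_, ?_⟩
      · exact insert_subset hwW h1
      · exact (card_insert_le _ _).trans (by omega)
      · intro i hi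
        obtain ⟨x, hx, hxA⟩ := h5 i hi
        exact ⟨x, mem_insert_of_mem hx, hxA⟩
    · obtain ⟨S, h1, h2, h3, h4, h5⟩ := ih _ hmem
      refine ⟨S, h1, h2, h3, by omega, ?_⟩
      intro i' hi'
      rcases Nat.lt_or_ge i' (i + 1) with h | h
      · exact h5 i' (by simpa using Nat.lt_succ_iff.1 h)
      · have : i' = i + 1 := by omega
        subst this
        exact ⟨w.1, h3, hA⟩

/-- **Alon-Seymour-Thomas.** Sets `A 0 .. A (k+1)` (that is `k+2` sets). Either a connected subset of
`W` with at most `r` vertices meets all of them, or a subset `Z` with `r * |Z| ≤ (k+1) |W|` meets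
every connected subset of `W` meeting all of them. -/
theorem tree_or_cut (G : SimpleGraph V) (W : Finset V) (A : ℕ → Finset V) (k r : ℕ) (hr : 1 ≤ r) :
    (∃ S ⊆ W, Conn G S ∧ S.card ≤ r ∧ ∀ i ≤ k + 1, ∃ x ∈ S, x ∈ A i) ∨
    (∃ Z ⊆ W, r * Z.card ≤ (k + 1) * W.card ∧
      ∀ F ⊆ W, Disjoint F Z → Conn G F → ¬ ∀ i ≤ k + 1, ∃ x ∈ F, x ∈ A i) := by
  classical
  by_cases hY : ∃ v ∈ A (k + 1), (v, k) ∈ ball G W A k (r - 1)
  · left
    obtain ⟨v, hvA, hv⟩ := hY
    obtain ⟨S, h1, h2, h3, h4, h5⟩ := ball_tree (r - 1) _ hv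
    refine ⟨S, h1, h2, by omega, ?_⟩
    intro i hi
    rcases Nat.lt_or_ge i (k + 1) with h | h
    · exact h5 i (Nat.lt_succ_iff.1 h)
    · have : i = k + 1 := by omega
      subst this
      exact ⟨v, h3, hvA⟩
  · right
    push Not at hY
    -- layers
    let L : ℕ → Finset (V × ℕ) := fun j =>
      if j = 0 then ball G W A k 0 else ball G W A k j \ ball G W A k (j - 1)
    have hLsub : ∀ j, L j ⊆ ball G W A k j := by
      intro j
      by_cases hj : j = 0
      · simp [L, hj]
      · simp only [L, hj, if_false]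
        exact sdiff_subset
    have hLdisj : ∀ i j, i < j → Disjoint (L i) (L j) := by
      intro i j hij
      have hj : j ≠ 0 := by omega
      rw [Finset.disjoint_left]
      intro w hw hw'
      simp only [L, hj, if_false, mem_sdiff] at hw'
      exact hw'.2 (ball_mono (by omega) (hLsub i hw))
    have hsum : ∑ j ∈ range r, (L j).card ≤ (k + 1) * W.card := by
      rw [← card_biUnion]
      · calc ((range r).biUnion L).card ≤ (W ×ˢ range (k + 1)).card := by
              apply card_le_card
              intro w hw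
              obtain ⟨j, _, hj⟩ := mem_biUnion.1 hw
              exact ball_sub j (hLsub j hj)
          _ = (k + 1) * W.card := by rw [card_product, card_range, mul_comm]
      · intro i _ j _ hij
        rcases Nat.lt_or_gt_of_ne hij with h | h
        · exact hLdisj i j h
        · exact (hLdisj j i h).symm
    obtain ⟨j, hj, hcard⟩ : ∃ j ∈ range r, r * (L j).card ≤ (k + 1) * W.card := by
      by_contra hcon
      push Not at hcon
      have h1 : ∀ j ∈ range r, (k + 1) * W.card < r * (L j).card := hcon
      have h2 : ∑ j ∈ range r, (k + 1) * W.card < ∑ j ∈ range r, r * (L j).card :=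
        sum_lt_sum_of_nonempty ⟨0, by simp; omega⟩ h1
      rw [sum_const, card_range, smul_eq_mul, ← mul_sum] at h2
      have h3 : r * ∑ j ∈ range r, (L j).card ≤ r * ((k + 1) * W.card) :=
        Nat.mul_le_mul_left _ hsum
      omega
    refine ⟨(L j).image Prod.fst, ?_, ?_, ?_⟩
    · intro v hv
      obtain ⟨w, hw, rfl⟩ := mem_image.1 hv
      exact (mem_product.1 (ball_sub j (hLsub j hw))).1
    · exact (Nat.mul_le_mul_left _ card_image_le).trans hcard
    · intro F hFW hFZ hF hall
      have hFZ' : ∀ v ∈ F, ∀ i, (v, i) ∉ L j := by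
        intro v hv i hvi
        exact (Finset.disjoint_left.1 hFZ hv) (mem_image.2 ⟨(v, i), hvi, rfl⟩)
      obtain ⟨a0, ha0, ha0A⟩ := hall 0 (by omega)
      have hbase : (a0, 0) ∈ ball G W A k 0 := by
        simp only [ball, mem_filter, mem_product, mem_range]
        exact ⟨⟨hFW ha0, by omega⟩, trivial, ha0A⟩
      have hj0 : j ≠ 0 := by
        intro h0
        apply hFZ' a0 ha0 0
        simp only [L, h0, if_true]
        exact hbase
      -- everything stays in the ball `j - 1`
      have hstay : ∀ v ∈ F, ∀ i, (v, i) ∈ ball G W A k j → (v, i) ∈ ball G W A k (j - 1) := by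
        intro v hv i hvi
        by_contra hn
        apply hFZ' v hv i
        simp only [L, hj0, if_false, mem_sdiff]
        exact ⟨hvi, hn⟩
      have hjj : j - 1 + 1 = j := by omega
      have hlevel : ∀ i ≤ k, (∃ a ∈ F, (a, i) ∈ ball G W A k (j - 1)) →
          ∀ v ∈ F, (v, i) ∈ ball G W A k (j - 1) := by
        intro i hi ⟨a, ha, haB⟩ v hv
        have hreach := hF.reach ha hv
        induction hreach with
        | refl => exact haB
        | tail h1 h2 ih =>
          rename_i b c
          have hb : b ∈ F := Reach.mem h1 ha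
          have hbB := ih hb
          apply hstay c hv i
          rw [← hjj]
          simp only [ball, grow, mem_filter, mem_product, mem_range]
          exact ⟨⟨hFW hv, by omega⟩, Or.inr (Or.inl ⟨b, hbB, h2.1⟩)⟩
      have hallin : ∀ i ≤ k, ∀ v ∈ F, (v, i) ∈ ball G W A k (j - 1) := by
        intro i
        induction i with
        | zero =>
          intro _
          exact hlevel 0 (by omega) ⟨a0, ha0, ball_mono (by omega) hbase⟩
        | succ i ih =>
          intro hi
          obtain ⟨x, hx, hxA⟩ := hall (i + 1) (by omega)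
          apply hlevel (i + 1) hi
          refine ⟨x, hx, ?_⟩
          apply hstay x hx
          rw [← hjj]
          simp only [ball, grow, mem_filter, mem_product, mem_range]
          exact ⟨⟨hFW hx, by omega⟩, Or.inr (Or.inr ⟨i, rfl, ih (by omega) x hx, hxA⟩)⟩
      obtain ⟨y, hy, hyA⟩ := hall (k + 1) le_rfl
      apply hY y hyA
      have hjr : j < r := by simpa using hj
      exact ball_mono (by omega) (hallin k le_rfl y hy)

end Crest.Agent.R042.TreeSep136
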