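import Mathlib
import Crest.Agent.R042.TreeSep_136

/-! Row 42, item 10.3: Alon-Seymour-Thomas: if every small vertex set leaves a component with more
than half of the vertices then there is a complete minor. -/

set_option autoImplicit false
set_option linter.unusedSectionVars false

namespace Crest.Agent.R042.Covey136

open Finset Crest.Agent.R042.Conn353 Crest.Agent.R042.TreeSep136

variable {V : Type*} [DecidableEq V] {G : SimpleGraph V}

/-- `K` is a component of `G[W \ X]` with more than half of the vertices of `W`. -/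
structure BigComp (G : SimpleGraph V) (W X K : Finset V) : Prop where
  sub : K ⊆ W \ X
  conn : Conn G K
  cl : ∀ x ∈ K, ∀ y ∈ W, G.Adj x y → y ∈ K ∨ y ∈ X
  big : W.card < 2 * K.card

/-- pairwise disjoint, pairwise adjacent connected subsets of `W`. -/
structure IsCovey (G : SimpleGraph V) (W : Finset V) (C : Finset (Finset V)) : Prop where
  sub : ∀ A ∈ C, A ⊆ W
  conn : ∀ A ∈ C, Conn G A
  disj : ∀ A ∈ C, ∀ B ∈ C, A ≠ B → Disjoint A B
  adj : ∀ A ∈ C, ∀ B ∈ C, A ≠ B → ∃ x ∈ A, ∃ y ∈ B, G.Adj x y

structure St (G : SimpleGraph V) (W : Finset V) (r : ℕ) (C : Finset (Finset V))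
    (X K : Finset V) : Prop where
  cov : IsCovey G W C
  Xsub : X ⊆ C.biUnion id
  Xcard : ∀ A ∈ C, (X ∩ A).card ≤ r
  comp : BigComp G W X K
  KC : ∀ A ∈ C, Disjoint A K

variable {W X X' K K' : Finset V}

lemma BigComp.subW (h : BigComp G W X K) : K ⊆ W := h.sub.trans sdiff_subset

lemma BigComp.disjX (h : BigComp G W X K) : Disjoint K X := by
  rw [Finset.disjoint_left]
  intro x hx hxX
  exact (mem_sdiff.1 (h.sub hx)).2 hxX

lemma BigComp.nested (h : BigComp G W X K) (h' : BigComp G W X' K') (hX : X ⊆ X') : K' ⊆ K := by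
  classical
  have hne : (K ∩ K').Nonempty := by
    by_contra hcon
    rw [not_nonempty_iff_eq_empty] at hcon
    have hd : Disjoint K K' := Finset.disjoint_iff_inter_eq_empty.2 hcon
    have h1 : (K ∪ K').card ≤ W.card := card_le_card (union_subset h.subW h'.subW)
    rw [card_union_of_disjoint hd] at h1
    have := h.big
    have := h'.big
    omega
  obtain ⟨z, hz⟩ := hne
  rw [mem_inter] at hz
  intro v hv
  have hreach := h'.conn.reach hz.2 hv
  induction hreach with
  | refl => exact hz.1
  | tail h1 h2 ih =>
    rename_i b c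
    have hb : b ∈ K' := Reach.mem h1 hz.2
    have hbK := ih hb
    rcases h.cl b hbK c (h'.subW hv) h2.1 with h3 | h3
    · exact h3
    · exact absurd (hX h3) (Finset.disjoint_left.1 h'.disjX hv)

lemma St.card_X {r : ℕ} {C : Finset (Finset V)} (h : St G W r C X K) : X.card ≤ r * C.card := by
  classical
  have h1 : X ⊆ C.biUnion (fun A => X ∩ A) := by
    intro x hx
    obtain ⟨A, hA, hxA⟩ := mem_biUnion.1 (h.Xsub hx)
    exact mem_biUnion.2 ⟨A, hA, mem_inter.2 ⟨hx, hxA⟩⟩
  calc X.card ≤ (C.biUnion (fun A => X ∩ A)).card := card_le_card h1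
    _ ≤ ∑ A ∈ C, (X ∩ A).card := card_biUnion_le
    _ ≤ ∑ _A ∈ C, r := sum_le_sum h.Xcard
    _ = r * C.card := by rw [sum_const, smul_eq_mul, mul_comm]

lemma St.XsubW {r : ℕ} {C : Finset (Finset V)} (h : St G W r C X K) : X ⊆ W := by
  intro x hx
  obtain ⟨A, hA, hxA⟩ := mem_biUnion.1 (h.Xsub hx)
  exact h.cov.sub A hA hxA

/-- the step of the Alon-Seymour-Thomas argument. -/
lemma St.step {h r : ℕ} {C : Finset (Finset V)} (hr : 1 ≤ r) (hrn : h * W.card ≤ r * r)
    (hB : ∀ X ⊆ W, X.card ≤ r * h → ∃ K, BigComp G W X K)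
    (hst : St G W r C X K) (hC : C.card < h) :
    ∃ C' X' K', St G W r C' X' K' ∧ C'.card ≤ h ∧
      C'.card + X'.card + 3 * K'.card < C.card + X.card + 3 * K.card := by
  classical
  obtain ⟨k, rfl⟩ : ∃ k, h = k + 1 := ⟨h - 1, by omega⟩
  have hKne : K.Nonempty := hst.comp.conn.nonempty
  -- neighbours of the members in `K`
  let nb : Finset V → Finset V := fun A => K.filter (fun v => ∃ x ∈ A, G.Adj x v)
  let Af : ℕ → Finset V := fun i =>
    if hi : i < C.toList.length then nb (C.toList[i]) else K
  have hAf1 : ∀ A ∈ C, ∃ i ≤ k + 1, Af i = nb A := by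
    intro A hA
    rw [← mem_toList] at hA
    obtain ⟨i, hi, hiA⟩ := List.getElem_of_mem hA
    refine ⟨i, ?_, ?_⟩
    · rw [length_toList] at hi
      omega
    · simp only [Af, hi, dif_pos, hiA]
  have hAf2 : ∀ i, Af i = K ∨ ∃ A ∈ C, Af i = nb A := by
    intro i
    by_cases hi : i < C.toList.length
    · right
      refine ⟨C.toList[i], ?_, ?_⟩
      · rw [← mem_toList]; exact List.getElem_mem hi
      · simp only [Af, hi, dif_pos]
    · left
      simp only [Af, hi, dif_neg, not_false_iff]
  have hKW : K ⊆ W := hst.comp.subW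
  have hXW : X ⊆ W := hst.XsubW
  have hXr : X.card ≤ r * k := by
    have h1 := hst.card_X
    have h2 : r * C.card ≤ r * k := Nat.mul_le_mul_left _ (by omega)
    omega
  rcases tree_or_cut G K Af k r hr with ⟨S, hSK, hSconn, hSr, hSall⟩ | ⟨Z, hZK, hZc, hZ⟩
  · -- a new member
    have hSne := hSconn.nonempty
    have hSX : Disjoint S X := by
      rw [Finset.disjoint_left]
      intro x hx hxX
      exact Finset.disjoint_left.1 hst.comp.disjX (hSK hx) hxX
    have hSC : ∀ A ∈ C, Disjoint S A := by
      intro A hA
      rw [Finset.disjoint_left]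
      intro x hx hxA
      exact Finset.disjoint_left.1 (hst.KC A hA) hxA (hSK hx)
    have hScard : (X ∪ S).card = X.card + S.card := card_union_of_disjoint hSX.symm
    have hScard1 : 1 ≤ S.card := card_pos.2 hSne
    obtain ⟨K', hK'⟩ := hB (X ∪ S) (union_subset hXW (hSK.trans hKW)) (by
      rw [hScard]
      have : r * (k + 1) = r * k + r := by ring
      omega)
    have hK'K : K' ⊆ K := hst.comp.nested hK' subset_union_left
    have hK'S : Disjoint K' S := by
      rw [Finset.disjoint_left]
      intro x hx hxS
      exact Finset.disjoint_left.1 hK'.disjX hx (mem_union_right _ hxS)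
    have hSnot : S ∉ C := by
      intro hS
      obtain ⟨x, hx⟩ := hSne
      exact Finset.disjoint_left.1 (hSC S hS) hx hx
    have hadjS : ∀ A ∈ C, ∃ x ∈ A, ∃ y ∈ S, G.Adj x y := by
      intro A hA
      obtain ⟨i, hi, hiA⟩ := hAf1 A hA
      obtain ⟨y, hy, hyA⟩ := hSall i hi
      rw [hiA] at hyA
      obtain ⟨_, x, hx, hxy⟩ := mem_filter.1 hyA
      exact ⟨x, hx, y, hy, hxy⟩
    refine ⟨insert S C, X ∪ S, K', ⟨⟨?_, ?_, ?_, ?_⟩, ?_, ?_, hK', ?_⟩, ?_, ?_⟩
    · intro A hA
      rcases mem_insert.1 hA with rfl | hA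
      · exact hSK.trans hKW
      · exact hst.cov.sub A hA
    · intro A hA
      rcases mem_insert.1 hA with rfl | hA
      · exact hSconn
      · exact hst.cov.conn A hA
    · intro A hA B hB' hAB
      rcases mem_insert.1 hA with hA | hA
      · rcases mem_insert.1 hB' with hB' | hB'
        · exact absurd (hA.trans hB'.symm) hAB
        · rw [hA]; exact hSC B hB'
      · rcases mem_insert.1 hB' with hB' | hB'
        · rw [hB']; exact (hSC A hA).symm
        · exact hst.cov.disj A hA B hB' hAB
    · intro A hA B hB' hAB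
      rcases mem_insert.1 hA with hA | hA
      · rcases mem_insert.1 hB' with hB' | hB'
        · exact absurd (hA.trans hB'.symm) hAB
        · rw [hA]
          obtain ⟨x, hx, y, hy, hxy⟩ := hadjS B hB'
          exact ⟨y, hy, x, hx, hxy.symm⟩
      · rcases mem_insert.1 hB' with hB' | hB'
        · rw [hB']; exact hadjS A hA
        · exact hst.cov.adj A hA B hB' hAB
    · intro x hx
      rcases mem_union.1 hx with hx | hx
      · obtain ⟨A, hA, hxA⟩ := mem_biUnion.1 (hst.Xsub hx)
        exact mem_biUnion.2 ⟨A, mem_insert_of_mem hA, hxA⟩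
      · exact mem_biUnion.2 ⟨S, mem_insert_self _ _, hx⟩
    · intro A hA
      rcases mem_insert.1 hA with rfl | hA
      · exact (card_le_card inter_subset_right).trans hSr
      · have : (X ∪ S) ∩ A = X ∩ A := by
          ext x
          simp only [mem_inter, mem_union]
          constructor
          · rintro ⟨h1 | h1, h2⟩
            · exact ⟨h1, h2⟩
            · exact absurd h2 (Finset.disjoint_left.1 (hSC A hA) h1)
          · rintro ⟨h1, h2⟩
            exact ⟨Or.inl h1, h2⟩
        rw [this]
        exact hst.Xcard A hA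
    · intro A hA
      rcases mem_insert.1 hA with rfl | hA
      · exact hK'S.symm
      · exact (hst.KC A hA).mono_right hK'K
    · rw [card_insert_of_notMem hSnot]
      omega
    · rw [card_insert_of_notMem hSnot, hScard]
      have h1 : (K' ∪ S).card ≤ K.card := card_le_card (union_subset hK'K hSK)
      rw [card_union_of_disjoint hK'S] at h1
      omega
  · -- a cut
    have hZr : Z.card ≤ r := by
      have h1 : r * Z.card ≤ r * r :=
        hZc.trans ((Nat.mul_le_mul_left _ (card_le_card hKW)).trans hrn)
      exact Nat.le_of_mul_le_mul_left h1 (by omega)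
    have hrk : r * (k + 1) = r * k + r := by ring
    obtain ⟨K1, hK1⟩ := hB (X ∪ Z) (union_subset hXW (hZK.trans hKW)) (by
      have := card_union_le X Z
      omega)
    have hK1K : K1 ⊆ K := hst.comp.nested hK1 subset_union_left
    have hK1Z : Disjoint K1 Z := hK1.disjX.mono_right subset_union_right
    obtain ⟨A, hA, hAK1⟩ : ∃ A ∈ C, ∀ x ∈ K1, x ∉ nb A := by
      by_contra hcon
      push Not at hcon
      apply hZ K1 hK1K hK1Z hK1.conn
      intro i _
      rcases hAf2 i with h1 | ⟨A, hA, h1⟩
      · obtain ⟨x, hx⟩ := hK1.conn.nonempty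
        exact ⟨x, hx, by rw [h1]; exact hK1K hx⟩
      · obtain ⟨x, hx, hxA⟩ := hcon A hA
        exact ⟨x, hx, by rw [h1]; exact hxA⟩
    have hAne := (hst.cov.conn A hA).nonempty
    let D : Finset V := K \ K1
    let D' : Finset V := D.filter (fun v => ∃ c ∈ A, Reach G D c v)
    have hDK : D ⊆ K := sdiff_subset
    have hD'D : D' ⊆ D := filter_subset _ _
    have hD'K : D' ⊆ K := hD'D.trans hDK
    have hnbD' : ∀ x ∈ K, ∀ y ∈ A, G.Adj y x → x ∈ D' := by
      intro x hx y hy hxy
      have hxD : x ∈ D := by
        rw [mem_sdiff]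
        refine ⟨hx, fun hx1 => hAK1 x hx1 ?_⟩
        exact mem_filter.2 ⟨hx, y, hy, hxy⟩
      exact mem_filter.2 ⟨hxD, y, hy, Reach.single hxy hxD⟩
    let Z' : Finset V := Z ∩ D'
    have hZ'D' : Z' ⊆ D' := inter_subset_right
    obtain ⟨K3, hK3⟩ := hB (X ∪ Z') (union_subset hXW ((hZ'D'.trans hD'K).trans hKW)) (by
      have h1 := card_union_le X Z'
      have h2 : Z'.card ≤ Z.card := card_le_card inter_subset_left
      omega)
    have hK3K : K3 ⊆ K := hst.comp.nested hK3 subset_union_left
    have hK1K3 : K1 ⊆ K3 := hK3.nested hK1 (union_subset_union_right inter_subset_left)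
    have hK3D' : Disjoint K3 D' := by
      rw [Finset.disjoint_left]
      intro v hv hvD'
      obtain ⟨u, hu⟩ := hK1.conn.nonempty
      have hreach := hK3.conn.reach hv (hK1K3 hu)
      have key : ∀ w, Reach G K3 v w → w ∈ D' := by
        intro w hw
        induction hw with
        | refl => exact hvD'
        | tail h1 h2 ih =>
          rename_i b c
          have hb3 : b ∈ K3 := Reach.mem h1 hv
          have hcK : c ∈ K := hK3K h2.2
          have hbZ : b ∉ Z := by
            intro hbZ
            exact Finset.disjoint_left.1 hK3.disjX hb3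
              (mem_union_right _ (mem_inter.2 ⟨hbZ, ih⟩))
          have hbD := hD'D ih
          have hcD : c ∈ D := by
            rw [mem_sdiff]
            refine ⟨hcK, fun hc1 => ?_⟩
            rcases hK1.cl c hc1 b (hKW (hDK hbD)) h2.1.symm with h3 | h3
            · exact (mem_sdiff.1 hbD).2 h3
            · rcases mem_union.1 h3 with h3 | h3
              · exact Finset.disjoint_left.1 hst.comp.disjX (hDK hbD) h3
              · exact hbZ h3
          obtain ⟨_, c0, hc0, hr0⟩ := mem_filter.1 ih
          exact mem_filter.2 ⟨hcD, c0, hc0, hr0.step h2.1 hcD⟩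
      exact (mem_sdiff.1 (hD'D (key u hreach))).2 hu
    have hD'A : Disjoint D' A := by
      rw [Finset.disjoint_left]
      intro x hx hxA
      exact Finset.disjoint_left.1 (hst.KC A hA) hxA (hD'K hx)
    have hXK : Disjoint X K := hst.comp.disjX.symm
    have hcard3 : K3.card + D'.card ≤ K.card := by
      rw [← card_union_of_disjoint hK3D']
      exact card_le_card (union_subset hK3K hD'K)
    by_cases hempty : D' = ∅ ∧ X ∩ A = ∅
    · -- drop `A`
      refine ⟨C.erase A, X, K, ⟨⟨?_, ?_, ?_, ?_⟩, ?_, ?_, hst.comp, ?_⟩, ?_, ?_⟩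
      · exact fun B hB' => hst.cov.sub B (mem_of_mem_erase hB')
      · exact fun B hB' => hst.cov.conn B (mem_of_mem_erase hB')
      · exact fun B hB' B' hB'' => hst.cov.disj B (mem_of_mem_erase hB') B' (mem_of_mem_erase hB'')
      · exact fun B hB' B' hB'' => hst.cov.adj B (mem_of_mem_erase hB') B' (mem_of_mem_erase hB'')
      · intro x hx
        obtain ⟨B, hB', hxB⟩ := mem_biUnion.1 (hst.Xsub hx)
        refine mem_biUnion.2 ⟨B, mem_erase.2 ⟨?_, hB'⟩, hxB⟩
        rintro rfl
        have : x ∈ X ∩ B := mem_inter.2 ⟨hx, hxB⟩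
        rw [hempty.2] at this
        exact absurd this (notMem_empty _)
      · exact fun B hB' => hst.Xcard B (mem_of_mem_erase hB')
      · exact fun B hB' => hst.KC B (mem_of_mem_erase hB')
      · rw [card_erase_of_mem hA]; omega
      · rw [card_erase_of_mem hA]
        have : 1 ≤ C.card := card_pos.2 ⟨A, hA⟩
        omega
    · -- enlarge `A`
      let A' : Finset V := A ∪ D'
      have hAA' : A ⊆ A' := subset_union_left
      have hA'conn : Conn G A' := by
        obtain ⟨a0, ha0⟩ := hAne
        refine conn_of_reach (hAA' ha0) ?_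
        intro v hv
        rcases mem_union.1 hv with h1 | h1
        · exact ((hst.cov.conn A hA).reach ha0 h1).mono hAA'
        · obtain ⟨hvD, c, hc, hcv⟩ := mem_filter.1 h1
          refine (((hst.cov.conn A hA).reach ha0 hc).mono hAA').trans ?_
          clear hv h1 hvD
          induction hcv with
          | refl => exact Reach.refl _
          | tail h2 h3 ih =>
            rename_i b e
            refine ih.step h3.1 ?_
            exact mem_union_right _ (mem_filter.2 ⟨h3.2, c, hc, h2.tail h3⟩)
      have hA'E : ∀ E ∈ C, E ≠ A → Disjoint A' E := by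
        intro E hE hEA
        rw [Finset.disjoint_union_left]
        refine ⟨hst.cov.disj A hA E hE (Ne.symm hEA), ?_⟩
        rw [Finset.disjoint_left]
        intro x hx hxE
        exact Finset.disjoint_left.1 (hst.KC E hE) hxE (hD'K hx)
      have hA'not : A' ∉ C.erase A := by
        intro hmem
        obtain ⟨hne, hmem⟩ := mem_erase.1 hmem
        obtain ⟨a0, ha0⟩ := hAne
        exact Finset.disjoint_left.1 (hA'E A' hmem hne) (hAA' ha0) (hAA' ha0)
      refine ⟨insert A' (C.erase A), (X \ A) ∪ Z', K3, ⟨⟨?_, ?_, ?_, ?_⟩, ?_, ?_, ⟨?_, hK3.conn, ?_, hK3.big⟩, ?_⟩, ?_, ?_⟩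
      · intro B hB'
        rcases mem_insert.1 hB' with rfl | hB'
        · exact union_subset (hst.cov.sub A hA) (hD'K.trans hKW)
        · exact hst.cov.sub B (mem_of_mem_erase hB')
      · intro B hB'
        rcases mem_insert.1 hB' with rfl | hB'
        · exact hA'conn
        · exact hst.cov.conn B (mem_of_mem_erase hB')
      · intro B hB' E hE hBE
        rcases mem_insert.1 hB' with h1 | h1
        · rcases mem_insert.1 hE with h2 | h2
          · exact absurd (h1.trans h2.symm) hBE
          · rw [h1]
            exact hA'E E (mem_of_mem_erase h2) (mem_erase.1 h2).1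
        · rcases mem_insert.1 hE with h2 | h2
          · rw [h2]
            exact (hA'E B (mem_of_mem_erase h1) (mem_erase.1 h1).1).symm
          · exact hst.cov.disj B (mem_of_mem_erase h1) E (mem_of_mem_erase h2) hBE
      · intro B hB' E hE hBE
        rcases mem_insert.1 hB' with h1 | h1
        · rcases mem_insert.1 hE with h2 | h2
          · exact absurd (h1.trans h2.symm) hBE
          · obtain ⟨x, hx, y, hy, hxy⟩ :=
              hst.cov.adj A hA E (mem_of_mem_erase h2) (Ne.symm (mem_erase.1 h2).1)
            rw [h1]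
            exact ⟨x, hAA' hx, y, hy, hxy⟩
        · rcases mem_insert.1 hE with h2 | h2
          · obtain ⟨x, hx, y, hy, hxy⟩ :=
              hst.cov.adj B (mem_of_mem_erase h1) A hA (mem_erase.1 h1).1
            rw [h2]
            exact ⟨x, hx, y, hAA' hy, hxy⟩
          · exact hst.cov.adj B (mem_of_mem_erase h1) E (mem_of_mem_erase h2) hBE
      · intro x hx
        rcases mem_union.1 hx with hx | hx
        · obtain ⟨hxX, hxA⟩ := mem_sdiff.1 hx
          obtain ⟨B, hB', hxB⟩ := mem_biUnion.1 (hst.Xsub hxX)
          refine mem_biUnion.2 ⟨B, mem_insert_of_mem (mem_erase.2 ⟨?_, hB'⟩), hxB⟩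
          rintro rfl
          exact hxA hxB
        · exact mem_biUnion.2 ⟨A', mem_insert_self _ _, mem_union_right _ (hZ'D' hx)⟩
      · intro B hB'
        rcases mem_insert.1 hB' with rfl | hB'
        · have hsub : ((X \ A) ∪ Z') ∩ A' ⊆ Z := by
            intro x hx
            obtain ⟨h1, h2⟩ := mem_inter.1 hx
            rcases mem_union.1 h1 with h1 | h1
            · obtain ⟨hxX, hxA⟩ := mem_sdiff.1 h1
              rcases mem_union.1 h2 with h2 | h2
              · exact absurd h2 hxA
              · exact absurd (hD'K h2) (Finset.disjoint_left.1 hXK hxX)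
            · exact (mem_inter.1 h1).1
          exact (card_le_card hsub).trans hZr
        · have hBC := mem_of_mem_erase hB'
          have hsub : ((X \ A) ∪ Z') ∩ B ⊆ X ∩ B := by
            intro x hx
            obtain ⟨h1, h2⟩ := mem_inter.1 hx
            rcases mem_union.1 h1 with h1 | h1
            · exact mem_inter.2 ⟨(mem_sdiff.1 h1).1, h2⟩
            · exact absurd (hD'K (hZ'D' h1)) (Finset.disjoint_left.1 (hst.KC B hBC) h2)
          exact (card_le_card hsub).trans (hst.Xcard B hBC)
      · intro x hx
        obtain ⟨h1, h2⟩ := mem_sdiff.1 (hK3.sub hx)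
        refine mem_sdiff.2 ⟨h1, fun h3 => h2 ?_⟩
        rcases mem_union.1 h3 with h3 | h3
        · exact mem_union_left _ (mem_sdiff.1 h3).1
        · exact mem_union_right _ h3
      · intro x hx y hy hxy
        rcases hK3.cl x hx y hy hxy with h1 | h1
        · exact Or.inl h1
        · right
          rcases mem_union.1 h1 with h1 | h1
          · refine mem_union_left _ (mem_sdiff.2 ⟨h1, fun hyA => ?_⟩)
            exact Finset.disjoint_left.1 hK3D' hx (hnbD' x (hK3K hx) y hyA hxy.symm)
          · exact mem_union_right _ h1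
      · intro B hB'
        rcases mem_insert.1 hB' with rfl | hB'
        · rw [Finset.disjoint_union_left]
          exact ⟨(hst.KC A hA).mono_right hK3K, hK3D'.symm⟩
        · exact (hst.KC B (mem_of_mem_erase hB')).mono_right hK3K
      · rw [card_insert_of_notMem hA'not, card_erase_of_mem hA]
        have : 1 ≤ C.card := card_pos.2 ⟨A, hA⟩
        omega
      · rw [card_insert_of_notMem hA'not, card_erase_of_mem hA]
        have h0 : 1 ≤ C.card := card_pos.2 ⟨A, hA⟩
        have h1 := card_union_le (X \ A) Z'
        have h2 : Z'.card ≤ D'.card := card_le_card hZ'D'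
        have h3 : (X \ A).card + (X ∩ A).card = X.card := by
          rw [add_comm]; exact card_inter_add_card_sdiff X A
        have h4 : 1 ≤ D'.card + (X ∩ A).card := by
          by_contra hcon
          apply hempty
          constructor
          · rw [← card_eq_zero]; omega
          · rw [← card_eq_zero]; omega
        omega

/-- **Alon-Seymour-Thomas.** -/
theorem exists_covey {h r : ℕ} (hr : 1 ≤ r) (hrn : h * W.card ≤ r * r)
    (hB : ∀ X ⊆ W, X.card ≤ r * h → ∃ K, BigComp G W X K) :
    ∃ C : Finset (Finset V), C.card = h ∧ IsCovey G W C := by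
  classical
  have key : ∀ (n : ℕ) (C : Finset (Finset V)) (X K : Finset V), St G W r C X K → C.card ≤ h →
      C.card + X.card + 3 * K.card ≤ n →
      ∃ C : Finset (Finset V), C.card = h ∧ IsCovey G W C := by
    intro n
    induction n with
    | zero =>
      intro C X K hst hC hn
      have : 1 ≤ K.card := card_pos.2 hst.comp.conn.nonempty
      omega
    | succ n ih =>
      intro C X K hst hC hn
      rcases Nat.lt_or_ge C.card h with h1 | h1
      · obtain ⟨C', X', K', hst', hC', hlt⟩ := hst.step hr hrn hB h1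
        exact ih C' X' K' hst' hC' (by omega)
      · exact ⟨C, by omega, hst.cov⟩
  obtain ⟨K, hK⟩ := hB ∅ (empty_subset _) (by simp)
  refine key _ ∅ ∅ K ⟨⟨?_, ?_, ?_, ?_⟩, ?_, ?_, hK, ?_⟩ (by simp) le_rfl
  all_goals simp

end Crest.Agent.R042.Covey136
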