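import Mathlib
import Crest.Agent.R042.Covey_136
import Crest.Agent.R042.Menger_353
import Crest.Agent.R042.Mader_375

/-! Row 42, item 10.3: the Alon-Seymour-Thomas separator theorem, in the form: no `K_H` model in
`G[W]` and `H |W| ≤ r²` give a separation of order `≤ r H` with both sides `≤ 2|W|/3`. -/

set_option autoImplicit false
set_option linter.unusedSectionVars false

namespace Crest.Agent.R042.Sep136

open Finset Crest.Agent.R042.Conn353 Crest.Agent.R042.Menger353 Crest.Agent.R042.Covey136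
open Crest.Agent.R042.Mader375

variable {V : Type*} [DecidableEq V] {G : SimpleGraph V} {W : Finset V}

theorem model_of_covey {C : Finset (Finset V)} {n : ℕ} (hC : C.card = n) (h : IsCovey G W C) :
    Model G W n := by
  classical
  let e := (C.equivFinOfCardEq hC).symm
  refine ⟨fun i => (e i).1, fun i => ⟨h.sub _ (e i).2, (h.conn _ (e i).2).nonempty,
    h.conn _ (e i).2⟩, ?_, ?_⟩
  · intro i j hij
    exact h.disj _ (e i).2 _ (e j).2 (fun heq => hij (e.injective (Subtype.ext heq)))
  · intro i j hij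
    exact h.adj _ (e i).2 _ (e j).2 (fun heq => hij (e.injective (Subtype.ext heq)))

/-- `U` is a union of components of `G[S]`. -/
def Closed (G : SimpleGraph V) (S U : Finset V) : Prop :=
  U ⊆ S ∧ ∀ x ∈ U, ∀ y ∈ S, G.Adj x y → y ∈ U

open Classical in
/-- the component of `v` in `G[S]`. -/
noncomputable def comp (G : SimpleGraph V) (S : Finset V) (v : V) : Finset V :=
  S.filter (fun w => Reach G S v w)

lemma mem_comp {S : Finset V} {v w : V} : w ∈ comp G S v ↔ w ∈ S ∧ Reach G S v w := by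
  simp [comp]

lemma comp_closed (S : Finset V) (v : V) : Closed G S (comp G S v) := by
  refine ⟨fun x hx => (mem_comp.1 hx).1, fun x hx y hy hxy => ?_⟩
  exact mem_comp.2 ⟨hy, (mem_comp.1 hx).2.step hxy hy⟩

lemma self_mem_comp {S : Finset V} {v : V} (hv : v ∈ S) : v ∈ comp G S v :=
  mem_comp.2 ⟨hv, Reach.refl _⟩

lemma comp_conn {S : Finset V} {v : V} (hv : v ∈ S) : Conn G (comp G S v) := by
  refine conn_of_reach (self_mem_comp hv) (fun w hw => ?_)
  have h := (mem_comp.1 hw).2
  clear hw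
  induction h with
  | refl => exact Reach.refl _
  | tail h1 h2 ih =>
    rename_i b c
    exact Reach.step ih h2.1 (mem_comp.2 ⟨h2.2, Reach.step h1 h2.1 h2.2⟩)

lemma Closed.reach {S U : Finset V} (hU : Closed G S U) {v w : V} (h : Reach G S v w)
    (hv : v ∈ U) : w ∈ U := by
  induction h with
  | refl => exact hv
  | tail h1 h2 ih =>
    rename_i b c
    exact hU.2 _ ih _ h2.2 h2.1

lemma Closed.disj_comp {S U : Finset V} (hU : Closed G S U) {v : V} (hv : v ∈ S) (hvU : v ∉ U) :
    Disjoint U (comp G S v) := by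
  rw [Finset.disjoint_left]
  intro x hx hxc
  exact hvU (hU.reach ((mem_comp.1 hxc).2.symm hv) hx)

lemma Closed.union {S U U' : Finset V} (hU : Closed G S U) (hU' : Closed G S U') :
    Closed G S (U ∪ U') := by
  refine ⟨union_subset hU.1 hU'.1, fun x hx y hy hxy => ?_⟩
  rcases mem_union.1 hx with h | h
  · exact mem_union_left _ (hU.2 x h y hy hxy)
  · exact mem_union_right _ (hU'.2 x h y hy hxy)

/-- balanced grouping of components. -/
lemma exists_balanced {S : Finset V} {n : ℕ} (hS : S.card ≤ n)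
    (hc : ∀ v ∈ S, 2 * (comp G S v).card ≤ n) :
    ∃ U, Closed G S U ∧ 3 * U.card ≤ 2 * n ∧ 3 * (S \ U).card ≤ 2 * n := by
  classical
  obtain ⟨U, hU, hmax⟩ := exists_max_image
    (S.powerset.filter (fun U => Closed G S U ∧ 3 * U.card ≤ 2 * n)) Finset.card
    ⟨∅, by simp [Closed]⟩
  simp only [mem_filter, mem_powerset] at hU hmax
  obtain ⟨hUS, hUc, hU3⟩ := hU
  by_cases h1 : 3 * (S \ U).card ≤ 2 * n
  · exact ⟨U, hUc, hU3, h1⟩
  · push Not at h1
    have hne : (S \ U).Nonempty := by
      rw [nonempty_iff_ne_empty]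
      intro h
      rw [h] at h1
      simp at h1
    obtain ⟨v, hv⟩ := hne
    obtain ⟨hvS, hvU⟩ := mem_sdiff.1 hv
    have hcomp := hc v hvS
    have hCS : comp G S v ⊆ S := (comp_closed S v).1
    by_cases h2 : 3 * (comp G S v).card ≤ n
    · exfalso
      have hd := hUc.disj_comp hvS hvU
      have hcard : (U ∪ comp G S v).card = U.card + (comp G S v).card :=
        card_union_of_disjoint hd
      have h3 : (S \ U).card + U.card = S.card := by
        rw [card_sdiff_add_card_eq_card hUS]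
      have h4 := hmax (U ∪ comp G S v) ⟨union_subset hUS hCS,
        hUc.union (comp_closed S v), by omega⟩
      have h5 : 1 ≤ (comp G S v).card := card_pos.2 ⟨v, self_mem_comp hvS⟩
      omega
    · push Not at h2
      refine ⟨comp G S v, comp_closed S v, by omega, ?_⟩
      have h3 : (S \ comp G S v).card + (comp G S v).card = S.card := by
        rw [card_sdiff_add_card_eq_card hCS]
      omega

/-- **Alon-Seymour-Thomas separator theorem.** -/
theorem exists_sep {H r : ℕ} (hr : 1 ≤ r) (hrn : H * W.card ≤ r * r) (hno : ¬ Model G W H) :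
    ∃ A B, Sep G W A B ∧ (A ∩ B).card ≤ r * H ∧ 3 * (A \ B).card ≤ 2 * W.card ∧
      3 * (B \ A).card ≤ 2 * W.card := by
  classical
  have hnot : ¬ ∀ X ⊆ W, X.card ≤ r * H → ∃ K, BigComp G W X K := by
    intro hB
    obtain ⟨C, hC, hcov⟩ := exists_covey hr hrn hB
    exact hno (model_of_covey hC hcov)
  push Not at hnot
  obtain ⟨X, hXW, hXc, hX⟩ := hnot
  obtain ⟨U, hU, hU1, hU2⟩ := exists_balanced (G := G) (S := W \ X) (n := W.card)
    (card_le_card sdiff_subset) (by
      intro v hv
      by_contra hcon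
      push Not at hcon
      refine hX (comp G (W \ X) v) ⟨(comp_closed _ v).1, comp_conn hv, ?_, hcon⟩
      intro x hx y hy hxy
      by_cases hyX : y ∈ X
      · exact Or.inr hyX
      · exact Or.inl ((comp_closed _ v).2 x hx y (mem_sdiff.2 ⟨hy, hyX⟩) hxy))
  have hUX : ∀ x ∈ U, x ∈ W ∧ x ∉ X := fun x hx => mem_sdiff.1 (hU.1 hx)
  have e1 : (U ∪ X) ∩ (W \ U) = X := by
    ext x
    simp only [mem_inter, mem_union, mem_sdiff]
    constructor
    · rintro ⟨h1 | h1, h2, h3⟩
      · exact absurd h1 h3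
      · exact h1
    · intro h1
      exact ⟨Or.inr h1, hXW h1, fun h2 => (hUX x h2).2 h1⟩
  have e2 : (U ∪ X) \ (W \ U) = U := by
    ext x
    simp only [mem_union, mem_sdiff]
    constructor
    · rintro ⟨h1 | h1, h2⟩
      · exact h1
      · by_contra h3
        exact h2 ⟨hXW h1, h3⟩
    · intro h1
      exact ⟨Or.inl h1, fun h2 => h2.2 h1⟩
  have e3 : (W \ U) \ (U ∪ X) = (W \ X) \ U := by
    ext x
    simp only [mem_union, mem_sdiff]
    tauto
  refine ⟨U ∪ X, W \ U, ⟨?_, ?_⟩, ?_, ?_, ?_⟩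
  · ext x
    simp only [mem_union, mem_sdiff]
    constructor
    · rintro ((h1 | h1) | h1)
      · exact (hUX x h1).1
      · exact hXW h1
      · exact h1.1
    · intro h1
      by_cases h2 : x ∈ U
      · exact Or.inl (Or.inl h2)
      · exact Or.inr ⟨h1, h2⟩
  · intro a ha haB b hb hbA hab
    have ha' : a ∈ U := by
      rw [← e2]; exact mem_sdiff.2 ⟨ha, haB⟩
    have hb' : b ∈ (W \ X) \ U := by
      rw [← e3]; exact mem_sdiff.2 ⟨hb, hbA⟩
    obtain ⟨hb1, hb2⟩ := mem_sdiff.1 hb'
    exact hb2 (hU.2 a ha' b hb1 hab)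
  · rw [e1]; exact hXc
  · rw [e2]; exact hU1
  · rw [e3]; exact hU2

/-- edges across a separation. -/
lemma e2_le_add {A B : Finset V} (h : Sep G W A B) : e2 G W ≤ e2 G A + e2 G B := by
  classical
  rw [e2_eq_card, e2_eq_card, e2_eq_card]
  refine (card_le_card ?_).trans (card_union_le _ _)
  intro p hp
  rw [mem_filter, mem_product] at hp
  obtain ⟨⟨h1, h2⟩, h3⟩ := hp
  rw [mem_union, mem_filter, mem_filter, mem_product, mem_product]
  rw [← h.union, mem_union] at h1 h2
  by_cases hA1 : p.1 ∈ A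
  · by_cases hA2 : p.2 ∈ A
    · exact Or.inl ⟨⟨hA1, hA2⟩, h3⟩
    · have hB2 : p.2 ∈ B := h2.resolve_left hA2
      by_cases hB1 : p.1 ∈ B
      · exact Or.inr ⟨⟨hB1, hB2⟩, h3⟩
      · exact absurd h3 (h.nadj _ hA1 hB1 _ hB2 hA2)
  · have hB1 : p.1 ∈ B := h1.resolve_left hA1
    by_cases hB2 : p.2 ∈ B
    · exact Or.inr ⟨⟨hB1, hB2⟩, h3⟩
    · have hA2 : p.2 ∈ A := h2.resolve_right hB2
      exact absurd h3.symm (h.nadj _ hA2 hB2 _ hB1 hA1)

lemma e2_le_sq (S : Finset V) : e2 G S ≤ S.card * S.card := by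
  classical
  rw [e2_eq_card]
  exact (card_filter_le _ _).trans (card_product _ _).le

end Crest.Agent.R042.Sep136
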