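import Mathlib
import Crest.Agent.R042.Sep_136

/-! Row 42, item 10.3: a dense set without `K_{h+1}` model contains a small dense subset. -/

set_option autoImplicit false
set_option linter.unusedSectionVars false

namespace Crest.Agent.R042.SmallDense136

open Finset Crest.Agent.R042.Conn353 Crest.Agent.R042.Menger353 Crest.Agent.R042.Mader375
open Crest.Agent.R042.Sep136

variable {V : Type*} [DecidableEq V] {G : SimpleGraph V} {W : Finset V}

/-- the potential `D (2 m - κ √m)`, `κ = 12 H √H`. -/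
noncomputable def pot (H D m : ℕ) : ℝ := D * (2 * m - 12 * (H * √H) * √m)

lemma pot_le (H D m : ℕ) : pot H D m ≤ 2 * D * m := by
  unfold pot
  have h1 : (0 : ℝ) ≤ D := Nat.cast_nonneg _
  have h2 : (0 : ℝ) ≤ 12 * (H * √H) * √m := by positivity
  nlinarith

lemma le_pot {H D m : ℕ} (hm : 144 * H ^ 3 ≤ m) : (D : ℝ) * m ≤ pot H D m := by
  unfold pot
  have h1 : (0 : ℝ) ≤ D := Nat.cast_nonneg _
  have h2 : (12 * (H * √H)) ≤ √(m : ℝ) := by
    apply Real.le_sqrt_of_sq_le
    have h3 : (√(H : ℝ)) ^ 2 = H := Real.sq_sqrt (Nat.cast_nonneg _)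
    have h4 : (12 * ((H : ℝ) * √H)) ^ 2 = 144 * H ^ 3 := by
      rw [mul_pow, mul_pow, h3]; ring
    rw [h4]
    exact_mod_cast hm
  have h5 : (√(m : ℝ)) ^ 2 = m := Real.sq_sqrt (Nat.cast_nonneg _)
  have h6 : (0 : ℝ) ≤ √(m : ℝ) := Real.sqrt_nonneg _
  have h7 : 12 * (H * √H) * √(m : ℝ) ≤ m := by nlinarith
  nlinarith

/-- the numerical heart. -/
lemma pot_add {s x y z : ℝ} (hs : 0 ≤ s) (hx : 12 * s ≤ x) (hx0 : 0 < x) (hy0 : 0 ≤ y) (hz0 : 0 ≤ z)
    (hy : x ^ 2 ≤ 3 * y ^ 2) (hz : x ^ 2 ≤ 3 * z ^ 2) (hsum : x ^ 2 ≤ y ^ 2 + z ^ 2)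
    (hle : y ^ 2 + z ^ 2 ≤ x ^ 2 + s * x) :
    (2 * y ^ 2 - 6 * s * y) + (2 * z ^ 2 - 6 * s * z) ≤ 2 * x ^ 2 - 6 * s * x := by
  have h1 : (2 / 9) * x ^ 4 ≤ (y * z) ^ 2 := by nlinarith
  have h2 : (7 / 18) * x ^ 2 ≤ y * z := by
    apply le_of_sq_le_sq _ (mul_nonneg hy0 hz0)
    nlinarith [sq_nonneg (x ^ 2)]
  have h3 : (4 / 3) * x ≤ y + z := by
    apply le_of_sq_le_sq _ (add_nonneg hy0 hz0)
    nlinarith
  nlinarith

theorem small_dense_aux {H D : ℕ} (hH : 1 ≤ H) (hno : ¬ Model G W H) (n : ℕ) :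
    ∀ J ⊆ W, J.card = n → 144 * H ^ 3 ≤ J.card → pot H D J.card ≤ e2 G J →
      ∃ J' ⊆ J, J'.Nonempty ∧ J'.card ≤ 576 * H ^ 3 ∧ D * J'.card ≤ e2 G J' := by
  classical
  induction n using Nat.strong_induction_on with
  | _ n ih =>
    intro J hJW hJn hJ hpot
    have hH3 : 1 ≤ H ^ 3 := Nat.one_le_pow _ _ hH
    have hm1 : 1 ≤ J.card := by omega
    by_cases hsmall : J.card ≤ 576 * H ^ 3
    · refine ⟨J, Subset.refl _, card_pos.1 hm1, hsmall, ?_⟩
      have h1 := (le_pot (D := D) hJ).trans hpot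
      exact_mod_cast h1
    · push Not at hsmall
      have hnoJ : ¬ Model G J H := fun h => hno (h.mono hJW)
      obtain ⟨A, B, hsep, hord, hA, hB⟩ := exists_sep (G := G) (W := J) (H := H)
        (r := Nat.sqrt (H * J.card) + 1) (by omega) (Nat.lt_succ_sqrt _).le hnoJ
      have hAJ : A ⊆ J := by rw [← hsep.union]; exact subset_union_left
      have hBJ : B ⊆ J := by rw [← hsep.union]; exact subset_union_right
      have c1 : A.card + B.card = J.card + (A ∩ B).card := by
        rw [← hsep.union, card_union_add_card_inter]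
      have c2 : (A \ B).card + (A ∩ B).card = A.card := by
        rw [add_comm, card_inter_add_card_sdiff]
      have c3 : (B \ A).card + (A ∩ B).card = B.card := by
        rw [inter_comm, add_comm, card_inter_add_card_sdiff]
      -- real numbers
      have hHr : (1 : ℝ) ≤ H := by exact_mod_cast hH
      have hmr : (1 : ℝ) ≤ J.card := by exact_mod_cast hm1
      have sH : (√(H : ℝ)) ^ 2 = H := Real.sq_sqrt (Nat.cast_nonneg _)
      have sm : (√(J.card : ℝ)) ^ 2 = J.card := Real.sq_sqrt (Nat.cast_nonneg _)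
      have sa : (√(A.card : ℝ)) ^ 2 = A.card := Real.sq_sqrt (Nat.cast_nonneg _)
      have sb : (√(B.card : ℝ)) ^ 2 = B.card := Real.sq_sqrt (Nat.cast_nonneg _)
      have sH1 : 1 ≤ √(H : ℝ) := Real.one_le_sqrt.2 hHr
      have sm1 : 1 ≤ √(J.card : ℝ) := Real.one_le_sqrt.2 hmr
      have hr : ((Nat.sqrt (H * J.card) + 1 : ℕ) : ℝ) ≤ 2 * (√H * √(J.card)) := by
        have h1 : ((Nat.sqrt (H * J.card) : ℕ) : ℝ) ≤ √H * √(J.card) := by
          rw [← Real.sqrt_mul (Nat.cast_nonneg _)]
          apply Real.le_sqrt_of_sq_le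
          have := Nat.sqrt_le' (H * J.card)
          exact_mod_cast this
        have h2 : 1 ≤ √(H : ℝ) * √(J.card) := by nlinarith
        push_cast
        linarith
      have hord' : ((A ∩ B).card : ℝ) ≤ (2 * (H * √H)) * √(J.card) := by
        have h1 : ((A ∩ B).card : ℝ) ≤ ((Nat.sqrt (H * J.card) + 1 : ℕ) : ℝ) * H := by
          exact_mod_cast hord
        have h2 : ((Nat.sqrt (H * J.card) + 1 : ℕ) : ℝ) * H ≤ 2 * (√H * √(J.card)) * H :=
          mul_le_mul_of_nonneg_right hr (by linarith)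
        linarith
      have hx : 12 * (2 * (H * √H)) ≤ √(J.card : ℝ) := by
        apply Real.le_sqrt_of_sq_le
        have h4 : (12 * (2 * ((H : ℝ) * √H))) ^ 2 = 576 * H ^ 3 := by
          have : (12 * (2 * ((H : ℝ) * √H))) ^ 2 = 576 * H ^ 2 * (√H) ^ 2 := by ring
          rw [this, sH]; ring
        rw [h4]
        exact_mod_cast hsmall.le
      have c1r : (A.card : ℝ) + B.card = J.card + (A ∩ B).card := by exact_mod_cast c1
      have hAr : (J.card : ℝ) ≤ 3 * A.card := by
        have : J.card ≤ 3 * A.card := by omega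
        exact_mod_cast this
      have hBr : (J.card : ℝ) ≤ 3 * B.card := by
        have : J.card ≤ 3 * B.card := by omega
        exact_mod_cast this
      have hABr : (J.card : ℝ) ≤ A.card + B.card := by
        have : J.card ≤ A.card + B.card := by omega
        exact_mod_cast this
      have key := pot_add (s := 2 * (H * √H)) (x := √(J.card : ℝ)) (y := √(A.card : ℝ))
        (z := √(B.card : ℝ)) (by positivity) hx (by linarith) (Real.sqrt_nonneg _)
        (Real.sqrt_nonneg _) (by rw [sm, sa]; exact hAr) (by rw [sm, sb]; exact hBr)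
        (by rw [sm, sa, sb]; exact hABr) (by rw [sm, sa, sb, c1r]; linarith)
      rw [sm, sa, sb] at key
      have hsum : pot H D A.card + pot H D B.card ≤ pot H D J.card := by
        unfold pot
        have h1 : (0 : ℝ) ≤ D := Nat.cast_nonneg _
        have h2 := mul_le_mul_of_nonneg_left key h1
        linarith
      have he : ((e2 G J : ℕ) : ℝ) ≤ e2 G A + e2 G B := by exact_mod_cast e2_le_add hsep
      -- sizes of the parts
      have hsmallOrd : 12 * (A ∩ B).card ≤ J.card := by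
        have h1 : (12 : ℝ) * (A ∩ B).card ≤ J.card := by
          have h2 : (0 : ℝ) ≤ √(J.card : ℝ) := Real.sqrt_nonneg _
          nlinarith
        exact_mod_cast h1
      have hlow : ∀ S : Finset V, J.card ≤ 3 * S.card → 144 * H ^ 3 ≤ S.card := by
        intro S hS
        omega
      rcases le_total (pot H D A.card) (e2 G A) with h1 | h1
      · obtain ⟨J', h2, h3⟩ := ih A.card (by omega) A (hAJ.trans hJW) rfl
          (hlow A (by omega)) h1
        exact ⟨J', h2.trans hAJ, h3⟩
      · have h2 : pot H D B.card ≤ e2 G B := by linarith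
        obtain ⟨J', h2, h3⟩ := ih B.card (by omega) B (hBJ.trans hJW) rfl
          (hlow B (by omega)) h2
        exact ⟨J', h2.trans hBJ, h3⟩

/-- **(10.3) small dense subset.** `e2` counts ordered adjacent pairs: a set `W` without a
`K_{h+1}` model and with at least `D |W|` edges contains a nonempty set `J` with at most
`1000 (h+1)³` vertices and at least `D |J| / 2` edges. -/
theorem small_dense {h D : ℕ} (hW : W.Nonempty) (hno : ¬ Model G W (h + 1))
    (hE : 2 * D * W.card ≤ e2 G W) :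
    ∃ J ⊆ W, J.Nonempty ∧ J.card ≤ 1000 * (h + 1) ^ 3 ∧ D * J.card ≤ e2 G J := by
  classical
  have h3 : 1 ≤ (h + 1) ^ 3 := Nat.one_le_pow _ _ (by omega)
  by_cases hsmall : W.card ≤ 576 * (h + 1) ^ 3
  · refine ⟨W, Subset.refl _, hW, by omega, ?_⟩
    nlinarith
  · push Not at hsmall
    obtain ⟨J, h1, h2, h4, h5⟩ := small_dense_aux (H := h + 1) (D := D) (by omega) hno W.card W
      (Subset.refl _) rfl (by omega) ((pot_le _ _ _).trans (by exact_mod_cast hE))
    exact ⟨J, h1, h2, by omega, h5⟩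

end Crest.Agent.R042.SmallDense136
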