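import Mathlib
import Crest.Agent.R042.SmallDense_136
import Crest.Agent.R042.LinkDefs_870

/-! Row 42, item 10.4: a dense set contains a hub `J` (every `X ⊆ J` with `|X| ≤ 2q` is linked in
`J`), and without a `K_{h+1}` model a hub with at most `1000 (h+1)³` vertices. The
Thomas-Wollan theorem is used as the hypothesis `TWStmt V`. -/

set_option autoImplicit false
set_option linter.unusedSectionVars false

namespace Crest.Agent.R042.SmallHub136

open Finset Crest.Agent.R042.Conn353 Crest.Agent.R042.Menger353 Crest.Agent.R042.Mader375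
open Crest.Agent.R042.Sep136 Crest.Agent.R042.Link870 Crest.Agent.R042.SmallDense136

variable {V : Type*} [DecidableEq V] {G : SimpleGraph V} {W : Finset V}

/-- the Thomas-Wollan theorem of sec 05 (literal output form of `TW870.tw`). -/
def TWStmt (V : Type*) [DecidableEq V] : Prop :=
  ∀ (G : SimpleGraph V) (W X : Finset V) (k : ℕ), 1 ≤ k → Massed G W X (8 * k) →
    X.card ≤ 2 * k → Linked G W X

lemma dg_le_card (S : Finset V) (v : V) : dg G S v ≤ S.card := by
  classical
  unfold dg
  exact card_filter_le _ _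

/-- **Mader's argument**: a set with average degree `≥ 2γ ≥ 8q` contains a set `J` of minimum
degree `> γ` without a proper separation of order `≤ 2q`. -/
theorem hub_core {J0 : Finset V} {q γ : ℕ} (hq : 1 ≤ q) (hγ : 4 * q ≤ γ) (hne : J0.Nonempty)
    (hE : 2 * γ * J0.card ≤ e2 G J0) :
    ∃ J ⊆ J0, γ < J.card ∧ (∀ v ∈ J, γ < dg G J v) ∧
      ∀ A B, Sep G J A B → (A ∩ B).card ≤ 2 * q → A \ B = ∅ ∨ B \ A = ∅ := by
  classical
  have hJ0c : 1 ≤ J0.card := card_pos.2 hne
  have hsq0 : e2 G J0 ≤ J0.card * J0.card := e2_le_sq J0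
  have h02 : 2 * γ ≤ J0.card := by
    by_contra hcon
    push Not at hcon
    nlinarith
  obtain ⟨J, hJ, hmin⟩ := exists_min_image
    (J0.powerset.filter (fun J => 4 * q ≤ J.card ∧ 2 * γ * J.card < e2 G J + 4 * γ * q))
    Finset.card ⟨J0, by
      simp only [mem_filter, mem_powerset]
      refine ⟨Subset.refl _, by omega, ?_⟩
      have : 1 ≤ γ * q := Nat.one_le_iff_ne_zero.2 (Nat.mul_ne_zero (by omega) (by omega))
      nlinarith⟩
  simp only [mem_filter, mem_powerset] at hJ hmin
  obtain ⟨hJJ, hJc, hJE⟩ := hJ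
  -- a smaller set fails
  have hfail : ∀ S : Finset V, S ⊆ J → S.card < J.card → 4 * q ≤ S.card →
      e2 G S + 4 * γ * q ≤ 2 * γ * S.card := by
    intro S hS hlt h4
    by_contra hcon
    push Not at hcon
    have := hmin S ⟨hS.trans hJJ, h4, hcon⟩
    omega
  have hsq : e2 G J ≤ J.card * J.card := e2_le_sq J
  have hJc' : 4 * q < J.card := by
    rcases Nat.lt_or_ge (4 * q) J.card with h | h
    · exact h
    · exfalso
      have h1 : J.card = 4 * q := by omega
      rw [h1] at hJE hsq
      nlinarith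
  have hdeg : ∀ v ∈ J, γ < dg G J v := by
    intro v hv
    by_contra hcon
    push Not at hcon
    have h3 : e2 G J = e2 G (J.erase v) + 2 * dg G J v := by
      convert e2_erase (G := G) hv
    have h4 : (J.erase v).card = J.card - 1 := card_erase_of_mem hv
    have h5 := hfail (J.erase v) (erase_subset _ _) (by omega) (by omega)
    rw [h4] at h5
    have h6 : 2 * γ * (J.card - 1) + 2 * γ = 2 * γ * J.card := by
      obtain ⟨c, hc⟩ : ∃ c, J.card = c + 1 := ⟨J.card - 1, by omega⟩
      rw [hc, Nat.add_sub_cancel]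
      ring
    omega
  have hne' : J.Nonempty := card_pos.1 (by omega)
  refine ⟨J, hJJ, ?_, hdeg, ?_⟩
  · obtain ⟨v, hv⟩ := hne'
    exact (hdeg v hv).trans_le (dg_le_card J v)
  · intro A B hsep hord
    by_contra hcon
    push Not at hcon
    obtain ⟨hA, hB⟩ := hcon
    have hAJ : A ⊆ J := hsep.left_sub
    have hBJ : B ⊆ J := hsep.right_sub
    have side : ∀ A B : Finset V, Sep G J A B → (A \ B).Nonempty → γ < A.card := by
      intro A B hsep hA
      obtain ⟨v, hv⟩ := hA
      obtain ⟨hvA, hvB⟩ := mem_sdiff.1 hv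
      refine (hdeg v (hsep.left_sub hvA)).trans_le ?_
      unfold dg
      refine card_le_card ?_
      intro w hw
      obtain ⟨hwJ, hvw⟩ := mem_filter.1 hw
      by_contra hwA
      have hwB : w ∈ B := by
        rw [← hsep.union, mem_union] at hwJ
        exact hwJ.resolve_left hwA
      exact hsep.nadj v hvA hvB w hwB hwA hvw
    have hA1 := side A B hsep hA
    have hB1 := side B A hsep.symm hB
    have c1 : A.card + B.card = J.card + (A ∩ B).card := by
      rw [← hsep.union, card_union_add_card_inter]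
    have c2 : (A \ B).card + (A ∩ B).card = A.card := by
      rw [add_comm, card_inter_add_card_sdiff]
    have c3 : (B \ A).card + (A ∩ B).card = B.card := by
      rw [inter_comm, add_comm, card_inter_add_card_sdiff]
    have c4 : 1 ≤ (A \ B).card := card_pos.2 hA
    have c5 : 1 ≤ (B \ A).card := card_pos.2 hB
    have f1 := hfail A hAJ (by omega) (by omega)
    have f2 := hfail B hBJ (by omega) (by omega)
    have f3 : e2 G J ≤ e2 G A + e2 G B := e2_le_add hsep
    have f4 : 2 * γ * A.card + 2 * γ * B.card = 2 * γ * J.card + 2 * γ * (A ∩ B).card := by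
      rw [← mul_add, c1, mul_add]
    have f5 : 2 * γ * (A ∩ B).card ≤ 2 * γ * (2 * q) := Nat.mul_le_mul_left _ hord
    have f6 : 2 * γ * (2 * q) = 4 * γ * q := by ring
    omega

/-- the set of `hub_core` with `γ ≥ 16 q` is massed over every small set. -/
theorem massed_of_core {J X : Finset V} {q γ : ℕ} (hq : 1 ≤ q) (hγ : 16 * q ≤ γ)
    (hJ : γ < J.card) (hdeg : ∀ v ∈ J, γ < dg G J v)
    (hsep : ∀ A B, Sep G J A B → (A ∩ B).card ≤ 2 * q → A \ B = ∅ ∨ B \ A = ∅)
    (hX : X ⊆ J) (hXc : X.card ≤ 2 * q) : Massed G J X (8 * q) := by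
  classical
  refine ⟨hX, ?_, ?_⟩
  · have h1 : ∑ v ∈ J \ X, (Link870.nb G J v).card ≤ rho G J (J \ X) :=
      sum_nb_le_rho sdiff_subset
    have h2 : ∀ v ∈ J \ X, γ + 1 ≤ (Link870.nb G J v).card := by
      intro v hv
      have := hdeg v (sdiff_subset hv)
      unfold dg at this
      unfold Link870.nb
      convert Nat.succ_le_of_lt this
    have h3 : (J \ X).card * (γ + 1) ≤ ∑ v ∈ J \ X, (Link870.nb G J v).card := by
      rw [← smul_eq_mul]
      exact card_nsmul_le_sum _ _ _ h2
    have h4 : (J \ X).card + X.card = J.card := card_sdiff_add_card_eq_card hX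
    have h5 : 1 ≤ (J \ X).card := by omega
    have h6 : 2 * (8 * q) * (J \ X).card ≤ (J \ X).card * γ := by
      rw [mul_comm]
      exact Nat.mul_le_mul_left _ (by omega)
    have h7 : (J \ X).card * (γ + 1) = (J \ X).card * γ + (J \ X).card := by ring
    omega
  · intro A B hAB hXA hlt
    have h1 : (A \ B).Nonempty := by
      rw [nonempty_iff_ne_empty]
      intro h
      have h2 : A ⊆ A ∩ B := by
        intro x hx
        rw [mem_inter]
        refine ⟨hx, ?_⟩
        by_contra hxB
        have : x ∈ A \ B := mem_sdiff.2 ⟨hx, hxB⟩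
        rw [h] at this
        simp at this
      have := card_le_card (hXA.trans h2)
      omega
    have h3 : B \ A = ∅ := by
      rcases hsep A B hAB (by omega) with h | h
      · exact absurd h (nonempty_iff_ne_empty.1 h1)
      · exact h
    rw [h3]
    have : rho G J ∅ = 0 := by
      unfold rho
      simp
    omega

/-- **hub of a dense set** (no bound on the size of the hub): average degree `≥ 32 q`. -/
theorem hub_of_dense (TW : TWStmt V) {J0 : Finset V} {q : ℕ} (hq : 1 ≤ q) (hne : J0.Nonempty)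
    (hE : 32 * q * J0.card ≤ e2 G J0) :
    ∃ J ⊆ J0, 16 * q < J.card ∧ (∀ v ∈ J, 16 * q < dg G J v) ∧
      ∀ X ⊆ J, X.card ≤ 2 * q → Linked G J X := by
  classical
  obtain ⟨J, h1, h2, h3, h4⟩ := hub_core (G := G) (J0 := J0) (q := q) (γ := 16 * q) hq (by omega)
    hne (by
      have : 2 * (16 * q) * J0.card = 32 * q * J0.card := by ring
      omega)
  exact ⟨J, h1, h2, h3, fun X hX hXc =>
    TW G J X q hq (massed_of_core hq le_rfl h2 h3 h4 hX hXc) hXc⟩

/-- **(10.4) small hub**: no `K_{h+1}` model in `W` and average degree `≥ 64 q` in `W` give a hub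
`J ⊆ W` with at most `1000 (h+1)³` vertices and minimum degree `> 16 q`, every set `X ⊆ J` with
`|X| ≤ 2q` being linked in `J`. -/
theorem small_hub (TW : TWStmt V) {q h : ℕ} (hq : 1 ≤ q) (hW : W.Nonempty)
    (hno : ¬ Model G W (h + 1)) (hE : 64 * q * W.card ≤ e2 G W) :
    ∃ J ⊆ W, J.card ≤ 1000 * (h + 1) ^ 3 ∧ 16 * q < J.card ∧ (∀ v ∈ J, 16 * q < dg G J v) ∧
      ∀ X ⊆ J, X.card ≤ 2 * q → Linked G J X := by
  classical
  obtain ⟨J0, h1, h2, h3, h4⟩ := small_dense (G := G) (W := W) (D := 32 * q) hW hno (by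
    have : 2 * (32 * q) * W.card = 64 * q * W.card := by ring
    omega)
  obtain ⟨J, h5, h6, h7, h8⟩ := hub_of_dense TW hq h2 h4
  exact ⟨J, h5.trans h1, (card_le_card h5).trans h3, h6, h7, h8⟩

lemma e2_ge_of_deg {W : Finset V} {d : ℕ} (hd : ∀ v ∈ W, d ≤ dg G W v) :
    d * W.card ≤ e2 G W := by
  classical
  unfold e2
  rw [mul_comm, ← smul_eq_mul]
  exact card_nsmul_le_sum _ _ _ hd

/-- **(10.4) small hub**, minimum degree form. -/
theorem small_hub' (TW : TWStmt V) {q h : ℕ} (hq : 1 ≤ q) (hW : W.Nonempty)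
    (hno : ¬ Model G W (h + 1)) (hd : ∀ v ∈ W, 64 * q ≤ dg G W v) :
    ∃ J ⊆ W, J.card ≤ 1000 * (h + 1) ^ 3 ∧ 16 * q < J.card ∧ (∀ v ∈ J, 16 * q < dg G J v) ∧
      ∀ X ⊆ J, X.card ≤ 2 * q → Linked G J X :=
  small_hub TW hq hW hno (e2_ge_of_deg hd)

end Crest.Agent.R042.SmallHub136
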