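import Crest.Agent.R042.Crit_374
import Crest.Agent.R042.Mader_375
import Crest.Agent.R042.AsmDefs_220
import Crest.Agent.R042.LinkDefs_870

/-! Row 42 / S0058, sec 08 (10.0): elementary facts on hard sets used in the small order glue:
minimal hard subsets, removal of few vertices, Mader's bound gives choosability. -/

set_option autoImplicit false
set_option linter.unusedSectionVars false

namespace Crest.Agent.R042.Small333

open Finset Crest.Agent.R042.Conn353 Crest.Agent.R042.Menger353 Crest.Agent.R042.Crit374
open Crest.Agent.R042.Mader375 (Model)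
open Crest.Agent.R042.Asm220 (Woven HubLinked Pr)
open Crest.Agent.R042.Link870 (Linked)

variable {V : Type*} [DecidableEq V] {G : SimpleGraph V}

/-- a hard set contains an inclusion-minimal one. -/
lemma exists_min_hard {q : ℕ} : ∀ (n : ℕ) (W : Finset V), W.card = n → ¬ Choos G W q →
    ∃ J, J ⊆ W ∧ ¬ Choos G J q ∧ ∀ J', J' ⊂ J → Choos G J' q := by
  intro n
  induction n using Nat.strong_induction_on with
  | _ n ih =>
    intro W hn hW
    by_cases h : ∃ W', W' ⊂ W ∧ ¬ Choos G W' q
    · obtain ⟨W', h1, h2⟩ := h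
      obtain ⟨J, h3, h4⟩ := ih W'.card (by rw [← hn]; exact Finset.card_lt_card h1) W' rfl h2
      exact ⟨J, h3.trans h1.subset, h4⟩
    · push Not at h
      exact ⟨W, le_refl _, hW, h⟩

/-- in a minimal hard set all degrees are at least `q`. -/
lemma min_hard_deg [DecidableRel G.Adj] {J : Finset V} {q : ℕ} (h : ¬ Choos G J q)
    (hmin : ∀ J', J' ⊂ J → Choos G J' q) {x : V} (hx : x ∈ J) :
    q ≤ (J.filter (G.Adj x)).card := by
  by_contra hlt
  push Not at hlt
  apply h
  intro L hL
  obtain ⟨c, h1, h2⟩ := hmin (J.erase x) (Finset.erase_ssubset hx) L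
    (fun v hv => hL v (Finset.mem_of_mem_erase hv))
  have hd : Disjoint (J.erase x) {x} := by
    rw [Finset.disjoint_singleton_right]; exact Finset.notMem_erase x J
  obtain ⟨c', h3, h4, h5⟩ := extend_choos (q := q) (t := q - 1) (Q := {x}) (L := L) hd h2
    (by intro v hv; rw [Finset.mem_singleton] at hv; rw [hv]; exact hL x hx)
    (by
      intro v hv; rw [Finset.mem_singleton] at hv; rw [hv]
      have := Finset.card_le_card
        (Finset.filter_subset_filter (G.Adj x) (Finset.erase_subset x J))
      omega)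
    ((choos_singleton x).mono_card (by omega))
  have hun : J.erase x ∪ {x} = J := by
    ext v
    simp only [Finset.mem_union, Finset.mem_erase, Finset.mem_singleton]
    constructor
    · rintro (h | rfl)
      · exact h.2
      · exact hx
    · intro hv
      by_cases hvx : v = x
      · exact Or.inr hvx
      · exact Or.inl ⟨hvx, hv⟩
  rw [hun] at h5
  refine ⟨c', ?_, h5⟩
  intro v hv
  by_cases hvx : v = x
  · rw [hvx]; exact h4 x (Finset.mem_singleton_self x)
  · have hv' : v ∈ J.erase x := Finset.mem_erase.2 ⟨hvx, hv⟩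
    rw [h3 v hv']
    exact h1 v hv'

/-- choosability of a set of `n` vertices. -/
lemma choos_card (W : Finset V) : Choos G W W.card := by
  classical
  by_cases hW : W = ∅
  · subst hW; exact choos_empty _
  have hpos : 1 ≤ W.card := Finset.card_pos.2 (Finset.nonempty_iff_ne_empty.2 hW)
  refine choos_of_degenerate hpos ?_
  rintro X hX ⟨x, hx⟩
  refine ⟨x, hx, ?_⟩
  have h1 : X.filter (G.Adj x) ⊆ X.erase x := by
    intro y hy
    rw [Finset.mem_filter] at hy
    refine Finset.mem_erase.2 ⟨?_, hy.1⟩
    rintro rfl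
    exact G.loopless.irrefl _ hy.2
  have h2 := Finset.card_le_card h1
  rw [Finset.card_erase_of_mem hx] at h2
  have h3 := Finset.card_le_card hX
  omega

lemma lt_card_of_not_choos {W : Finset V} {q : ℕ} (h : ¬ Choos G W q) : q < W.card := by
  by_contra hle
  push Not at hle
  exact h ((choos_card W).mono_card hle)

/-- adding a set `X` of vertices costs at most `|X|` colours. -/
lemma choos_add {W X : Finset V} {q : ℕ} (h : Choos G (W \ X) q) :
    Choos G W (q + X.card) := by
  classical
  intro L hL
  have hXW : Choos G (W ∩ X) (q + X.card) :=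
    (choos_card (W ∩ X)).mono_card
      ((Finset.card_le_card Finset.inter_subset_right).trans (by omega))
  obtain ⟨c, h1, h2⟩ := hXW L (fun v hv => hL v (Finset.mem_inter.1 hv).1)
  have hd : Disjoint (W ∩ X) (W \ X) := by
    rw [Finset.disjoint_left]
    intro v hv hv'
    exact (Finset.mem_sdiff.1 hv').2 (Finset.mem_inter.1 hv).2
  obtain ⟨c', h3, h4, h5⟩ := extend_choos (q := q + X.card) (t := X.card) (L := L) hd h2
    (fun v hv => hL v (Finset.mem_sdiff.1 hv).1)
    (fun v _ => (Finset.card_le_card (Finset.filter_subset _ _)).trans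
      (Finset.card_le_card Finset.inter_subset_right))
    (by rw [Nat.add_sub_cancel]; exact h)
  have hun : W ∩ X ∪ W \ X = W := by
    ext v
    simp only [Finset.mem_union, Finset.mem_inter, Finset.mem_sdiff]
    tauto
  rw [hun] at h5
  refine ⟨c', ?_, h5⟩
  intro v hv
  by_cases hvX : v ∈ X
  · rw [h3 v (Finset.mem_inter.2 ⟨hv, hvX⟩)]
    exact h1 v (Finset.mem_inter.2 ⟨hv, hvX⟩)
  · exact h4 v (Finset.mem_sdiff.2 ⟨hv, hvX⟩)

/-- removing a set `X` of vertices costs at most `|X|` colours. -/
lemma not_choos_sdiff {W X : Finset V} {q n : ℕ} (h : ¬ Choos G W q) (hX : X.card ≤ n)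
    (hn : n ≤ q) : ¬ Choos G (W \ X) (q - n) :=
  fun hc => h ((choos_add hc).mono_card (by omega))

/-- a minimal hard set is `(q+1)`-choosable. -/
lemma min_hard_choos_succ {J : Finset V} {q : ℕ} (hmin : ∀ J', J' ⊂ J → Choos G J' q) :
    Choos G J (q + 1) := by
  by_cases hJ : J = ∅
  · subst hJ; exact choos_empty _
  obtain ⟨x, hx⟩ := Finset.nonempty_iff_ne_empty.2 hJ
  have h1 : J \ {x} ⊂ J := by
    refine Finset.ssubset_iff_subset_ne.2 ⟨Finset.sdiff_subset, fun heq => ?_⟩
    have : x ∈ J \ {x} := by rw [heq]; exact hx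
    exact (Finset.mem_sdiff.1 this).2 (Finset.mem_singleton_self x)
  have := choos_add (hmin _ h1)
  simpa using this

/-- Mader's bound: no `K_{h+1}` model gives `2^(h+1) + 1`-choosability. -/
lemma choos_of_no_model {W : Finset V} {h : ℕ} (hno : ¬ Model G W (h + 1)) :
    Choos G W (2 ^ (h + 1) + 1) := by
  classical
  refine choos_of_degenerate (Nat.le_add_left 1 _) ?_
  intro X hX hne
  by_contra hcon
  push Not at hcon
  have hno' : ¬ Model G X (h + 1) := fun hm => hno (hm.mono hX)
  have h1 := Mader375.mader_e2 G X h hno'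
  have h2 : ∑ _v ∈ X, (2 ^ (h + 1) + 1) ≤ Mader375.e2 G X := by
    unfold Mader375.e2
    refine Finset.sum_le_sum ?_
    intro v hv
    have := hcon v hv
    simp only [Nat.add_sub_cancel] at this
    have h3 : Mader375.dg G X v = (X.filter (G.Adj v)).card := by
      unfold Mader375.dg
      congr
    omega
  rw [Finset.sum_const, smul_eq_mul] at h2
  have h4 : 0 < X.card := Finset.card_pos.2 hne
  nlinarith

end Crest.Agent.R042.Small333
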