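import Crest.Agent.R042.SmallBase_333

/-! Row 42 / S0058, (10.0) = Theorem B: sets of small order (`|X| ≤ 2^(C h)`) are choosable from
lists of size `F h / s`.  The leaves (Kalton-Roberts for lists, hub, assembly, woven pieces) enter
as literal hypotheses. -/

set_option autoImplicit false
set_option linter.unusedSectionVars false

namespace Crest.Agent.R042.Small333

open Finset Crest.Agent.R042.Conn353 Crest.Agent.R042.Menger353 Crest.Agent.R042.Crit374
open Crest.Agent.R042.Mader375 (Model)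
open Crest.Agent.R042.Asm220 (Woven HubLinked Pr)
open Crest.Agent.R042.Link870 (Linked)

/-- (8.2) Kalton-Roberts in list form (with RS2 inside: `a = 3h`). -/
def KRStmt : Prop :=
  ∀ {V : Type} [DecidableEq V] (G : SimpleGraph V) (W : Finset V) (h k N : ℕ), 1 ≤ h → 1 ≤ N →
    ¬ Model G W (h + 1) → (4 * W.card : ℝ) < Real.exp ((k : ℝ) / 32) →
    4 * Real.exp 2 * (N : ℝ) ^ 2 ≤ Real.exp ((k : ℝ) / (24 * h)) → ¬ Choos G W k →
    ∃ X : Fin N → Finset V, (∀ i, X i ⊆ W ∧ ¬ Choos G (X i) (k / 8)) ∧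
      ∀ i j, i ≠ j → Disjoint (X i) (X j)

/-- (10.4) hub: large minimum degree gives a linked subset. -/
def HubStmt (D0 : ℕ) : Prop :=
  ∀ {V : Type} [DecidableEq V] (G : SimpleGraph V) (W : Finset V) (κ h : ℕ), 1 ≤ κ →
    W.Nonempty → ¬ Model G W (h + 1) → (∀ v ∈ W, D0 * κ ≤ (Link870.nb G W v).card) →
    ∃ J, J ⊆ W ∧ 2 * κ ≤ J.card ∧ ∀ Y, Y ⊆ J → Y.card ≤ 2 * κ → Linked G J Y

/-- 07 (4)-(8): the assembly. -/
def AsmStmt : Prop :=
  ∀ {V : Type} [DecidableEq V] (G : SimpleGraph V) {s g θ : ℕ} (W Z : Finset V)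
    (H Y : Pr s → Finset V) (H0 Y0 : Finset V), 2 ≤ s → 1 ≤ g → Z ⊆ W →
    (∀ j, Y j ⊆ H j) → (∀ j, H j ⊆ W) → Y0 ⊆ H0 → H0 ⊆ W →
    (∀ i j, i ≠ j → Disjoint (H i) (H j)) → (∀ j, Disjoint (H j) H0) →
    (∀ j, Disjoint (Y j) Z) → Disjoint Y0 Z →
    (∀ j, 4 * g ≤ (Y j).card) → 4 * g * Fintype.card (Pr s) ≤ Y0.card →
    (∀ A B, Sep G W A B → (A ∩ B).card ≤ θ → A \ B ⊆ Z ∨ B \ A ⊆ Z) →
    4 * g * Fintype.card (Pr s) + ∑ j, (H j \ Y j).card + (H0 \ Y0).card ≤ θ →
    (∀ j, Woven G (H j) (Y j) (4 * g) (4 * g * Fintype.card (Pr s))) →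
    HubLinked G H0 Y0 (4 * g * Fintype.card (Pr s)) →
    Model G W (s * g)

/-- 8.5: woven pieces of small order. -/
def SmallWovenStmt (D0 : ℕ) : Prop :=
  ∀ {V : Type} [DecidableEq V] (G : SimpleGraph V) (H Z : Finset V) (a c κ k' q1 kH : ℕ),
    1 ≤ a → a + c ≤ κ → Crit G H Z kH (4 * κ) →
    (∀ W, W ⊆ H → W.Nonempty → (∀ v ∈ W, D0 * κ ≤ (Link870.nb G W v).card) →
      ∃ J, J ⊆ W ∧ 2 * κ ≤ J.card ∧ ∀ Y, Y ⊆ J → Y.card ≤ 2 * κ → Linked G J Y) →
    (∀ W, W ⊆ H → ¬ Choos G W (k' - 2 * a) → Model G W (2 * a)) →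
    4 * κ + 2 * a ≤ k' → kH = 8 * κ + 6 * q1 → D0 * κ + 4 * κ + 1 ≤ q1 → k' ≤ q1 →
    (3 * H.card : ℝ) < Real.exp ((q1 : ℝ) / 4) → Woven G H (H \ Z) a c

lemma hubLinked_of_linked {V : Type} [DecidableEq V] {G : SimpleGraph V} {J : Finset V} {n : ℕ}
    (h : ∀ Y, Y ⊆ J → Y.card ≤ n → Linked G J Y) : HubLinked G J J n := by
  intro m s t Bl hs ht hst hsJ htJ hBl hsB htB hc
  set X : Finset V := Finset.univ.image s ∪ Finset.univ.image t ∪ Bl with hX
  have hXJ : X ⊆ J := by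
    intro x hx
    rw [hX, Finset.mem_union, Finset.mem_union, Finset.mem_image, Finset.mem_image] at hx
    rcases hx with (⟨i, _, rfl⟩ | ⟨i, _, rfl⟩) | hx
    · exact hsJ i
    · exact htJ i
    · exact hBl hx
  have hXc : X.card ≤ n := by
    have h1 : (Finset.univ.image s).card ≤ m := by
      refine Finset.card_image_le.trans ?_
      simp
    have h2 : (Finset.univ.image t).card ≤ m := by
      refine Finset.card_image_le.trans ?_
      simp
    have h3 := Finset.card_union_le (Finset.univ.image s ∪ Finset.univ.image t) Bl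
    have h4 := Finset.card_union_le (Finset.univ.image s) (Finset.univ.image t)
    rw [← hX] at h3
    omega
  have hsX : ∀ i, s i ∈ X := fun i => by
    rw [hX]
    exact Finset.mem_union_left _ (Finset.mem_union_left _
      (Finset.mem_image_of_mem _ (Finset.mem_univ _)))
  have htX : ∀ i, t i ∈ X := fun i => by
    rw [hX]
    exact Finset.mem_union_left _ (Finset.mem_union_right _
      (Finset.mem_image_of_mem _ (Finset.mem_univ _)))
  obtain ⟨P, hP⟩ := h X hXJ hXc m s t hsX htX hs ht hst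
  refine ⟨P, fun i => ⟨hP.sub i, hP.conn i, hP.left i, hP.right i⟩, hP.disj, ?_⟩
  intro i
  rw [Finset.disjoint_left]
  intro x hx hxB
  have hxX : x ∈ X := by rw [hX]; exact Finset.mem_union_right _ hxB
  rcases hP.meet i x hx hxX with rfl | rfl
  · exact hsB i hxB
  · exact htB i hxB

/-- core of (10.0): all numbers explicit. -/
theorem core {V : Type} [DecidableEq V] (G : SimpleGraph V) {D0 : ℕ} (hKR : KRStmt)
    (hHub : HubStmt D0) (hAsm : AsmStmt) (hSW : SmallWovenStmt D0)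
    {s g m κ k' q1 kH θ k h F : ℕ} (hs : 2 ≤ s) (hg : 1 ≤ g) (hh : 1 ≤ h)
    (hm : m = Fintype.card (Pr s)) (hκ : κ = 4 * g + 4 * g * m)
    (hk' : k' = F * (8 * g - 1) + 8 * g + 4 * κ)
    (hkH : kH = 8 * κ + 6 * q1) (hq1 : D0 * κ + 4 * κ + 1 ≤ q1) (hq1' : k' ≤ q1)
    (hθ : θ = 4 * g * m + m * (8 * κ)) (hsg : h + 1 ≤ s * g)
    (hn1 : kH ≤ (k - 2 * θ) / 8)
    (X : Finset V) (hX : ¬ Model G X (h + 1))
    (IH : ∀ W : Finset V, ¬ Model G W (8 * g) → Choos G W (F * (8 * g - 1)))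
    (hsize1 : (4 * X.card : ℝ) < Real.exp (((k - 2 * θ : ℕ) : ℝ) / 32))
    (hsize2 : 4 * Real.exp 2 * ((m + 1 : ℕ) : ℝ) ^ 2 ≤
      Real.exp (((k - 2 * θ : ℕ) : ℝ) / (24 * h)))
    (hsize3 : (3 * X.card : ℝ) < Real.exp ((q1 : ℝ) / 4)) : Choos G X k := by
  classical
  by_contra hbad
  obtain ⟨S, Z, hSX, hcrit⟩ := exists_crit hbad θ
  have hS0 : ¬ Model G S (h + 1) := fun hM => hX (hM.mono hSX)
  have hSZ : ¬ Model G (S \ Z) (h + 1) := fun hM => hS0 (hM.mono Finset.sdiff_subset)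
  have hcard : (S \ Z).card ≤ X.card := Finset.card_le_card (Finset.sdiff_subset.trans hSX)
  have hcardR : ((S \ Z).card : ℝ) ≤ (X.card : ℝ) := by exact_mod_cast hcard
  -- (2) Kalton-Roberts
  obtain ⟨W, hW, hWd⟩ := hKR G (S \ Z) h (k - 2 * θ) (m + 1) hh (by omega) hSZ
    (by linarith) hsize2 hcrit.hard
  -- an enumeration of the pieces
  have hcardPr : Fintype.card (Pr s) = Fintype.card (Fin m) := by rw [Fintype.card_fin, hm]
  let e : Pr s ≃ Fin m := Fintype.equivOfCardEq hcardPr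
  -- (3) critical pairs
  have hpiece : ∀ j : Pr s, ∃ H ZH : Finset V, H ⊆ W (Fin.castSucc (e j)) ∧
      Crit G H ZH kH (4 * κ) := by
    intro j
    obtain ⟨H, ZH, h1, h2⟩ := exists_crit
      (not_choos_mono (le_refl _) hn1 (hW (Fin.castSucc (e j))).2) (4 * κ)
    exact ⟨H, ZH, h1, h2⟩
  choose H ZH hHW hHcrit using hpiece
  have hκ1 : 1 ≤ κ := by rw [hκ]; omega
  -- the hub
  have hhubhard : ¬ Choos G (W (Fin.last m)) (D0 * κ) :=
    not_choos_mono (le_refl _) (by omega) (hW (Fin.last m)).2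
  obtain ⟨J0, hJ0W, hJ0, hJ0min⟩ := exists_min_hard _ _ rfl hhubhard
  have hJ0deg : ∀ v ∈ J0, D0 * κ ≤ (Link870.nb G J0 v).card := by
    intro v hv
    have := min_hard_deg hJ0 hJ0min hv
    unfold Link870.nb
    convert this using 2
  have hWS : ∀ i, W i ⊆ S := fun i => (hW i).1.trans Finset.sdiff_subset
  obtain ⟨H0, hH0J, hH0c, hH0l⟩ := hHub G J0 κ h hκ1 (nonempty_of_not_choos hJ0)
    (fun hM => hS0 (hM.mono (hJ0W.trans (hWS _)))) hJ0deg
  have hH0W : H0 ⊆ W (Fin.last m) := hH0J.trans hJ0W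
  have hHS : ∀ j, H j ⊆ S \ Z := fun j => (hHW j).trans (hW _).1
  -- the woven pieces
  have hwov : ∀ j, Woven G (H j) (H j \ ZH j) (4 * g) (4 * g * Fintype.card (Pr s)) := by
    intro j
    refine hSW G (H j) (ZH j) (4 * g) (4 * g * Fintype.card (Pr s)) κ k' q1 kH (by omega)
      (by rw [← hm, hκ]) (hHcrit j) ?_ ?_ (by rw [hk']; omega) hkH hq1 hq1' ?_
    · intro W' hW' hne hdeg
      exact hHub G W' κ h hκ1 hne
        (fun hM => hS0 (hM.mono (hW'.trans ((hHS j).trans Finset.sdiff_subset)))) hdeg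
    · intro W' hW' hnc
      by_contra hM
      have h1 : 2 * (4 * g) = 8 * g := by ring
      rw [h1] at hM hnc
      exact hnc ((IH W' hM).mono_card (by rw [hk']; omega))
    · have h1 : (H j).card ≤ X.card :=
        Finset.card_le_card ((hHS j).trans (Finset.sdiff_subset.trans hSX))
      have h2 : ((H j).card : ℝ) ≤ (X.card : ℝ) := by exact_mod_cast h1
      linarith
  have hYcard : ∀ j, 4 * g ≤ (H j \ ZH j).card := by
    intro j
    have h1 := lt_card_of_not_choos (hHcrit j).hard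
    have h2 : 4 * g ≤ κ := by rw [hκ]; omega
    have h3 : 4 * κ ≤ q1 := by omega
    omega
  have hmodel : Model G S (s * g) := by
    refine hAsm G (θ := θ) S Z H (fun j => H j \ ZH j) H0 H0 hs hg hcrit.sub
      (fun j => Finset.sdiff_subset) (fun j => (hHS j).trans Finset.sdiff_subset) (le_refl _)
      (hH0W.trans (hWS _)) ?_ ?_ ?_ ?_ hYcard ?_ (fun A B hAB hc => hcrit.sep hAB hc) ?_ hwov ?_
    · intro i j hij
      refine Finset.disjoint_of_subset_left (hHW i) (Finset.disjoint_of_subset_right (hHW j) ?_)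
      refine hWd _ _ ?_
      intro heq
      exact hij (e.injective (Fin.castSucc_injective _ heq))
    · intro j
      refine Finset.disjoint_of_subset_left (hHW j) (Finset.disjoint_of_subset_right hH0W ?_)
      refine hWd _ _ ?_
      exact (Fin.castSucc_lt_last _).ne
    · intro j
      refine Finset.disjoint_of_subset_left (Finset.sdiff_subset.trans (hHS j)) ?_
      exact Finset.sdiff_disjoint
    · refine Finset.disjoint_of_subset_left (hH0W.trans (hW _).1) ?_
      exact Finset.sdiff_disjoint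
    · rw [← hm]
      have h2 : 4 * g * m ≤ κ := by rw [hκ]; omega
      omega
    · have h1 : ∀ j, (H j \ (H j \ ZH j)).card ≤ 8 * κ := by
        intro j
        have h2 : H j \ (H j \ ZH j) ⊆ ZH j := by
          intro x hx
          rw [Finset.mem_sdiff, Finset.mem_sdiff] at hx
          by_contra hcon
          exact hx.2 ⟨hx.1, hcon⟩
        have h3 := (Finset.card_le_card h2).trans (hHcrit j).card_le
        omega
      have h4 : ∑ j, (H j \ (H j \ ZH j)).card ≤ m * (8 * κ) := by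
        refine (Finset.sum_le_card_nsmul _ _ _ (fun j _ => h1 j)).trans ?_
        rw [Finset.card_univ, ← hm, smul_eq_mul]
      have h5 : (H0 \ H0).card = 0 := by simp
      rw [← hm, h5, hθ]
      omega
    · refine hubLinked_of_linked ?_
      intro Y hY hYc
      refine hH0l Y hY (hYc.trans ?_)
      rw [← hm]
      have h2 : 4 * g * m ≤ κ := by rw [hκ]; omega
      omega
  exact hS0 (hmodel.le hsg)

end Crest.Agent.R042.Small333
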