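import Mathlib
import Crest.Agent.R042.Menger_353

/-! Row 42 / S0058, sec 04: the rooted clique lemma RC. -/

set_option autoImplicit false
set_option linter.unusedSectionVars false

namespace Crest.Agent.R042.RC335

open Finset SimpleGraph Conn353 Menger353

variable {V : Type*} [DecidableEq V]

/-- hypotheses of the rooted clique lemma inside `G[W]`. -/
structure Hyp (G : SimpleGraph V) (W Z : Finset V) {k : ℕ} (A : Fin k → Finset V) : Prop where
  zw : Z ⊆ W
  aw : ∀ i, A i ⊆ W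
  ne : ∀ i, (A i).Nonempty
  disj : ∀ i j, i ≠ j → Disjoint (A i) (A j)
  c1 : ∀ i, Conn G (A i) ∨ ∀ x ∈ A i, ∃ y ∈ A i, y ∈ Z ∧ Reach G (A i) x y
  c2 : ∀ i j, i ≠ j → ((∃ x ∈ A i, x ∈ Z) ∧ ∃ y ∈ A j, y ∈ Z) ∨
    ∃ x ∈ A i, ∃ y ∈ A j, G.Adj x y
  c3 : ∀ P Q, Sep G W P Q → Z ⊆ P → (P ∩ Q).card < Z.card → ∀ i, (P ∩ A i).Nonempty

/-- conclusion of the rooted clique lemma: a clique model of `G[W]` rooted at `Z`. -/
def Concl (G : SimpleGraph V) (W Z : Finset V) : Prop :=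
  ∃ B : V → Finset V, (∀ z ∈ Z, z ∈ B z ∧ B z ⊆ W ∧ Conn G (B z)) ∧
    (∀ z ∈ Z, ∀ z' ∈ Z, z ≠ z' → Disjoint (B z) (B z')) ∧
    (∀ z ∈ Z, ∀ z' ∈ Z, z ≠ z' → ∃ x ∈ B z, ∃ y ∈ B z', G.Adj x y)

variable {G : SimpleGraph V} {W Z : Finset V} {k : ℕ} {A : Fin k → Finset V}

/-! ### deleting the edges inside `Z` -/

/-- `G` without the edges inside `Z`. -/
def delZ (G : SimpleGraph V) (Z : Finset V) : SimpleGraph V where
  Adj x y := G.Adj x y ∧ ¬ (x ∈ Z ∧ y ∈ Z)
  symm := ⟨fun _ _ h => ⟨h.1.symm, fun h' => h.2 ⟨h'.2, h'.1⟩⟩⟩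
  loopless := ⟨fun x h => G.loopless.irrefl x h.1⟩

lemma delZ_reach {S : Finset V} {x y : V} (h : Reach G S x y) (hy : y ∈ Z) (hx : x ∈ S) :
    ∃ y' ∈ S, y' ∈ Z ∧ Reach (delZ G Z) S x y' := by
  induction h using Relation.ReflTransGen.head_induction_on with
  | refl => exact ⟨y, hx, hy, Reach.refl _⟩
  | head h1 h2 ih =>
    rename_i a c
    by_cases ha : a ∈ Z
    · exact ⟨a, hx, ha, Reach.refl _⟩
    · obtain ⟨y', h3, h4, h5⟩ := ih h1.2
      refine ⟨y', h3, h4, Relation.ReflTransGen.head ⟨⟨h1.1, fun h => ha h.1⟩, h1.2⟩ h5⟩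

lemma delZ_conn {S : Finset V} (h : Conn G S) (hZ : ∀ x ∈ S, x ∉ Z) : Conn (delZ G Z) S := by
  rw [conn_iff] at h ⊢
  refine ⟨h.1, fun u hu v hv => ?_⟩
  have key : ∀ w, Reach G S u w → Reach (delZ G Z) S u w := by
    intro w hw
    induction hw with
    | refl => exact Reach.refl _
    | tail h1 h2 ih =>
      exact ih.step ⟨h2.1, fun h => hZ _ h2.2 h.2⟩ h2.2
  exact key v (h.2 u hu v hv)

lemma Hyp.delZ (h : Hyp G W Z A) : Hyp (delZ G Z) W Z A := by
  refine ⟨h.zw, h.aw, h.ne, h.disj, ?_, ?_, ?_⟩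
  · intro i
    by_cases hZ : ∃ z ∈ A i, z ∈ Z
    · right
      obtain ⟨z, hz, hzZ⟩ := hZ
      intro x hx
      rcases h.c1 i with h1 | h1
      · exact delZ_reach (h1.reach hx hz) hzZ hx
      · obtain ⟨y, hy, hyZ, hr⟩ := h1 x hx
        exact delZ_reach hr hyZ hx
    · push Not at hZ
      left
      rcases h.c1 i with h1 | h1
      · exact delZ_conn h1 hZ
      · obtain ⟨x, hx⟩ := h.ne i
        obtain ⟨y, hy, hyZ, _⟩ := h1 x hx
        exact absurd hyZ (hZ y hy)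
  · intro i j hij
    rcases h.c2 i j hij with h1 | ⟨x, hx, y, hy, hxy⟩
    · exact Or.inl h1
    · by_cases hZ : x ∈ Z ∧ y ∈ Z
      · exact Or.inl ⟨⟨x, hx, hZ.1⟩, ⟨y, hy, hZ.2⟩⟩
      · exact Or.inr ⟨x, hx, y, hy, hxy, hZ⟩
  · intro P Q hs hZP hord i
    refine h.c3 P Q ⟨hs.union, ?_⟩ hZP hord i
    intro a ha ha' b hb hb' hab
    refine hs.nadj a ha ha' b hb hb' ⟨hab, fun h => hb' (hZP h.2)⟩

lemma Concl.of_delZ (h : Concl (RC335.delZ G Z) W Z) : Concl G W Z := by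
  obtain ⟨B, h1, h2, h3⟩ := h
  refine ⟨B, fun z hz => ⟨(h1 z hz).1, (h1 z hz).2.1, Conn.mono_graph (fun _ _ hxy => And.left hxy)
    (h1 z hz).2.2⟩, h2, ?_⟩
  intro z hz z' hz' hne
  obtain ⟨x, hx, y, hy, hxy⟩ := h3 z hz z' hz' hne
  exact ⟨x, hx, y, hy, hxy.1⟩

/-! ### step (1): a separation of order `|Z|` -/

/-- in a set avoiding `P ∩ Q` one stays in `Q \ P`. -/
lemma stay {P Q S : Finset V} (hs : Sep G W P Q) (hSW : S ⊆ W) (hS : ∀ x ∈ S, x ∈ P → x ∉ Q)
    {x y : V} (h : Reach G S x y) (hxQ : x ∈ Q) (hxP : x ∉ P) : y ∈ Q ∧ y ∉ P := by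
  induction h with
  | refl => exact ⟨hxQ, hxP⟩
  | tail h1 h2 ih =>
    rename_i b c
    have hc : c ∈ P ∪ Q := by rw [hs.union]; exact hSW h2.2
    by_cases hcP : c ∈ P
    · exact absurd h2.1.symm (hs.nadj c hcP (hS c h2.2 hcP) b ih.1 ih.2)
    · exact ⟨(Finset.mem_union.1 hc).resolve_left hcP, hcP⟩

/-- from `Q` one reaches `P` only through `P ∩ Q`. -/
lemma reach_cross {P Q S : Finset V} (hs : Sep G W P Q) (hSW : S ⊆ W)
    {x y : V} (h : Reach G S x y) (hx : x ∈ S) (hxQ : x ∈ Q) (hyP : y ∈ P) :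
    ∃ z, z ∈ S ∧ z ∈ P ∧ z ∈ Q ∧ Reach G (S ∩ Q) x z := by
  induction h using Relation.ReflTransGen.head_induction_on with
  | refl => exact ⟨y, hx, hyP, hxQ, Reach.refl _⟩
  | head h1 h2 ih =>
    rename_i a c
    by_cases haP : a ∈ P
    · exact ⟨a, hx, haP, hxQ, Reach.refl _⟩
    · have hc : c ∈ P ∪ Q := by rw [hs.union]; exact hSW h1.2
      have hcQ : c ∈ Q := by
        by_contra hcQ
        have hcP : c ∈ P := (Finset.mem_union.1 hc).resolve_right hcQ
        exact hs.nadj c hcP hcQ a hxQ haP h1.1.symm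
      obtain ⟨z, h3, h4, h5, h6⟩ := ih h1.2 hcQ
      exact ⟨z, h3, h4, h5, Relation.ReflTransGen.head ⟨h1.1, Finset.mem_inter.2 ⟨h1.2, hcQ⟩⟩ h6⟩

section step1

variable {P Q : Finset V} {i : Fin k}

lemma step1_paths (h : Hyp G W Z A) (hs : Sep G W P Q) (hZP : Z ⊆ P)
    (hi : ∀ x ∈ A i, x ∉ P) :
    ∃ L, Linkage G P Z (P ∩ Q) L ∧ L.card = Z.card := by
  rcases menger_sep (G := G) (W := P) (A := Z) (B := P ∩ Q) hZP Finset.inter_subset_left Z.card
    with h1 | ⟨P1, Q1, h1, h2, h3, h4⟩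
  · exact h1
  exfalso
  have hP1 : P1 ⊆ P := h1.left_sub
  have hsep : Sep G W P1 (Q1 ∪ Q) := by
    refine ⟨?_, ?_⟩
    · rw [← Finset.union_assoc, h1.union, hs.union]
    · intro a ha ha' b hb hb' hab
      rw [Finset.mem_union, not_or] at ha'
      by_cases hbQ1 : b ∈ Q1
      · exact h1.nadj a ha ha'.1 b hbQ1 hb' hab
      · have hbQ : b ∈ Q := (Finset.mem_union.1 hb).resolve_left hbQ1
        have hbP : b ∉ P := fun hbP => hbQ1 (h3 (Finset.mem_inter.2 ⟨hbP, hbQ⟩))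
        exact hs.nadj a (hP1 ha) ha'.2 b hbQ hbP hab
  have hsub : P1 ∩ (Q1 ∪ Q) ⊆ P1 ∩ Q1 := by
    intro x hx
    rw [Finset.mem_inter, Finset.mem_union] at hx
    refine Finset.mem_inter.2 ⟨hx.1, ?_⟩
    rcases hx.2 with h | h
    · exact h
    · exact h3 (Finset.mem_inter.2 ⟨hP1 hx.1, h⟩)
  obtain ⟨x, hx⟩ := h.c3 P1 (Q1 ∪ Q) hsep h2
    (lt_of_le_of_lt (Finset.card_le_card hsub) h4) i
  rw [Finset.mem_inter] at hx
  exact hi x hx.2 (hP1 hx.1)

lemma step1_ne (h : Hyp G W Z A) (hs : Sep G W P Q) (hZP : Z ⊆ P)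
    (hi : ∀ x ∈ A i, x ∉ P) (j : Fin k) : (A j ∩ Q).Nonempty := by
  by_contra hne
  rw [Finset.not_nonempty_iff_eq_empty] at hne
  have hjQ : ∀ x ∈ A j, x ∉ Q := fun x hx hxQ => by
    have : x ∈ A j ∩ Q := Finset.mem_inter.2 ⟨hx, hxQ⟩
    rw [hne] at this
    simp at this
  have hjP : ∀ x ∈ A j, x ∈ P := fun x hx => by
    have := h.aw j hx
    rw [← hs.union, Finset.mem_union] at this
    exact this.resolve_right (hjQ x hx)
  have hij : j ≠ i := by
    rintro rfl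
    obtain ⟨x, hx⟩ := h.ne j
    exact hi x hx (hjP x hx)
  rcases h.c2 j i hij with ⟨_, y, hy, hyZ⟩ | ⟨x, hx, y, hy, hxy⟩
  · exact hi y hy (hZP hyZ)
  · have hyQ : y ∈ Q := by
      have := h.aw i hy
      rw [← hs.union, Finset.mem_union] at this
      exact this.resolve_left (hi y hy)
    exact hs.nadj x (hjP x hx) (hjQ x hx) y hyQ (hi y hy) hxy

/-- NOTE (N). -/
lemma step1_N (h : Hyp G W Z A) (hs : Sep G W P Q) (hZP : Z ⊆ P)
    (hi : ∀ x ∈ A i, x ∉ P) (j : Fin k) (hj : ∀ x ∈ A j, x ∈ P → x ∉ Q) :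
    ∀ x ∈ A j, x ∈ Q ∧ x ∉ P := by
  obtain ⟨y, hy⟩ := step1_ne h hs hZP hi j
  rw [Finset.mem_inter] at hy
  have hyP : y ∉ P := fun hyP => hj y hy.1 hyP hy.2
  rcases h.c1 j with h1 | h1
  · intro x hx
    exact stay hs (h.aw j) hj (h1.reach hy.1 hx) hy.2 hyP
  · obtain ⟨z, hz, hzZ, hr⟩ := h1 y hy.1
    exact absurd (hZP hzZ) (stay hs (h.aw j) hj hr hy.2 hyP).2

lemma step1_hyp (h : Hyp G W Z A) (hs : Sep G W P Q) (hZP : Z ⊆ P)
    (hord : (P ∩ Q).card = Z.card) (hi : ∀ x ∈ A i, x ∉ P) :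
    Hyp G Q (P ∩ Q) (fun j => A j ∩ Q) := by
  have hN := fun j => step1_N (j := j) h hs hZP hi
  refine ⟨Finset.inter_subset_right, fun j => Finset.inter_subset_right,
    fun j => step1_ne h hs hZP hi j, ?_, ?_, ?_, ?_⟩
  · intro a b hab
    exact (h.disj a b hab).mono Finset.inter_subset_left Finset.inter_subset_left
  · intro j
    by_cases hj : ∀ x ∈ A j, x ∈ P → x ∉ Q
    · left
      have h2 := hN j hj
      have heq : A j ∩ Q = A j := Finset.inter_eq_left.2 (fun x hx => (h2 x hx).1)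
      simp only [heq]
      rcases h.c1 j with h1 | h1
      · exact h1
      · obtain ⟨x, hx⟩ := h.ne j
        obtain ⟨y, hy, hyZ, _⟩ := h1 x hx
        exact absurd (hZP hyZ) (h2 y hy).2
    · right
      push Not at hj
      obtain ⟨w, hw, hwP, hwQ⟩ := hj
      intro x hx
      rw [Finset.mem_inter] at hx
      have hex : ∃ y, y ∈ P ∧ Reach G (A j) x y := by
        rcases h.c1 j with h1 | h1
        · exact ⟨w, hwP, h1.reach hx.1 hw⟩
        · obtain ⟨y, hy, hyZ, hr⟩ := h1 x hx.1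
          exact ⟨y, hZP hyZ, hr⟩
      obtain ⟨y, hyP, hr⟩ := hex
      obtain ⟨z, h3, h4, h5, h6⟩ := reach_cross hs (h.aw j) hr hx.1 hx.2 hyP
      exact ⟨z, Finset.mem_inter.2 ⟨h3, h5⟩, Finset.mem_inter.2 ⟨h4, h5⟩, h6⟩
  · intro a b hab
    by_cases ha : ∀ x ∈ A a, x ∈ P → x ∉ Q
    · right
      have h2 := hN a ha
      rcases h.c2 a b hab with ⟨⟨x, hx, hxZ⟩, _⟩ | ⟨x, hx, y, hy, hxy⟩
      · exact absurd (hZP hxZ) (h2 x hx).2
      · refine ⟨x, Finset.mem_inter.2 ⟨hx, (h2 x hx).1⟩, y, Finset.mem_inter.2 ⟨hy, ?_⟩, hxy⟩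
        by_contra hyQ
        have hyP : y ∈ P := by
          have := h.aw b hy
          rw [← hs.union, Finset.mem_union] at this
          exact this.resolve_right hyQ
        exact hs.nadj y hyP hyQ x (h2 x hx).1 (h2 x hx).2 hxy.symm
    · by_cases hb : ∀ x ∈ A b, x ∈ P → x ∉ Q
      · right
        have h2 := hN b hb
        rcases h.c2 a b hab with ⟨_, ⟨y, hy, hyZ⟩⟩ | ⟨x, hx, y, hy, hxy⟩
        · exact absurd (hZP hyZ) (h2 y hy).2
        · refine ⟨x, Finset.mem_inter.2 ⟨hx, ?_⟩, y, Finset.mem_inter.2 ⟨hy, (h2 y hy).1⟩, hxy⟩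
          by_contra hxQ
          have hxP : x ∈ P := by
            have := h.aw a hx
            rw [← hs.union, Finset.mem_union] at this
            exact this.resolve_right hxQ
          exact hs.nadj x hxP hxQ y (h2 y hy).1 (h2 y hy).2 hxy
      · left
        push Not at ha hb
        obtain ⟨x, hx, hxP, hxQ⟩ := ha
        obtain ⟨y, hy, hyP, hyQ⟩ := hb
        exact ⟨⟨x, Finset.mem_inter.2 ⟨hx, hxQ⟩, Finset.mem_inter.2 ⟨hxP, hxQ⟩⟩,
          ⟨y, Finset.mem_inter.2 ⟨hy, hyQ⟩, Finset.mem_inter.2 ⟨hyP, hyQ⟩⟩⟩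
  · intro P' Q' hs' hZP' hord' j
    by_contra hj
    rw [Finset.not_nonempty_iff_eq_empty] at hj
    have hj' : ∀ x ∈ A j, x ∈ Q → x ∉ P' := fun x hx hxQ hxP' => by
      have : x ∈ P' ∩ (A j ∩ Q) := by simp [hx, hxQ, hxP']
      rw [hj] at this
      simp at this
    have hP'Q : P' ⊆ Q := hs'.left_sub
    have hQ'Q : Q' ⊆ Q := hs'.right_sub
    have hsep : Sep G W (P ∪ P') Q' := by
      refine ⟨?_, ?_⟩
      · rw [Finset.union_assoc, hs'.union, hs.union]
      · intro a ha ha' b hb hb' hab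
        rw [Finset.mem_union, not_or] at hb'
        by_cases haP' : a ∈ P'
        · exact hs'.nadj a haP' ha' b hb hb'.2 hab
        · have haP : a ∈ P := (Finset.mem_union.1 ha).resolve_right haP'
          have haQ : a ∉ Q := fun haQ => haP' (hZP' (Finset.mem_inter.2 ⟨haP, haQ⟩))
          exact hs.nadj a haP haQ b (hQ'Q hb) hb'.1 hab
    have hsub : (P ∪ P') ∩ Q' ⊆ P' ∩ Q' := by
      intro x hx
      rw [Finset.mem_inter, Finset.mem_union] at hx
      refine Finset.mem_inter.2 ⟨?_, hx.2⟩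
      rcases hx.1 with h | h
      · exact hZP' (Finset.mem_inter.2 ⟨h, hQ'Q hx.2⟩)
      · exact h
    obtain ⟨x, hx⟩ := h.c3 (P ∪ P') Q' hsep (hZP.trans Finset.subset_union_left)
      (by rw [← hord]; exact lt_of_le_of_lt (Finset.card_le_card hsub) hord') j
    rw [Finset.mem_inter, Finset.mem_union] at hx
    have hjPQ : ∀ x ∈ A j, x ∈ P → x ∉ Q := fun x hx hxP hxQ =>
      hj' x hx hxQ (hZP' (Finset.mem_inter.2 ⟨hxP, hxQ⟩))
    have h2 := hN j hjPQ x hx.2
    rcases hx.1 with h3 | h3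
    · exact h2.2 h3
    · exact hj' x hx.2 h2.1 h3

lemma step1_concl (h : Hyp G W Z A) (hs : Sep G W P Q) (hZP : Z ⊆ P)
    (hord : (P ∩ Q).card = Z.card) (hi : ∀ x ∈ A i, x ∉ P)
    (hc : Concl G Q (P ∩ Q)) : Concl G W Z := by
  obtain ⟨L, hL, hLc⟩ := step1_paths h hs hZP hi
  have hvZ : verts L ∩ Z = Z := by
    apply Finset.eq_of_subset_of_card_le Finset.inter_subset_right
    rw [hL.verts_inter_card_left, hLc]
  obtain ⟨f, g, h1, h2, _, _, h5⟩ := hL.family
  rw [hvZ] at h1 h2 h5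
  obtain ⟨B, b1, b2, b3⟩ := hc
  have hP : P ⊆ W := hs.left_sub
  have hQ : Q ⊆ W := hs.right_sub
  have hg : ∀ z ∈ Z, ∀ z' ∈ Z, z ≠ z' → g z ≠ g z' := fun z hz z' hz' hne heq =>
    hne (h5 z hz z' hz' heq)
  have hgB : ∀ z ∈ Z, g z ∈ P ∩ Q := fun z hz => (h1 z hz).2.2.2.2.1
  have hmix : ∀ z ∈ Z, ∀ z' ∈ Z, z ≠ z' → ∀ x ∈ f z, x ∉ B (g z') := by
    intro z hz z' hz' hne x hx hxB
    have hxP : x ∈ P := (h1 z hz).2.1.sub x hx
    have hxQ : x ∈ Q := (b1 (g z') (hgB z' hz')).2.1 hxB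
    have hxg : x = g z := (h1 z hz).2.2.2.2.2.2.2.2 x hx (Finset.mem_inter.2 ⟨hxP, hxQ⟩)
    rw [hxg] at hxB
    exact Finset.disjoint_left.1 (b2 (g z) (hgB z hz) (g z') (hgB z' hz') (hg z hz z' hz' hne))
      (b1 (g z) (hgB z hz)).1 hxB
  refine ⟨fun z => (f z).toFinset ∪ B (g z), ?_, ?_, ?_⟩
  · intro z hz
    obtain ⟨_, hp, _, _, _, hz1, hz2, _, _⟩ := h1 z hz
    refine ⟨Finset.mem_union_left _ (List.mem_toFinset.2 hz1), ?_, ?_⟩
    · refine Finset.union_subset ?_ ((b1 (g z) (hgB z hz)).2.1.trans hQ)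
      intro x hx
      exact hP (hp.sub x (List.mem_toFinset.1 hx))
    · exact hp.conn.union (b1 (g z) (hgB z hz)).2.2 (List.mem_toFinset.2 hz2)
        (b1 (g z) (hgB z hz)).1
  · intro z hz z' hz' hne
    rw [Finset.disjoint_left]
    intro x hx hx'
    rcases Finset.mem_union.1 hx with h3 | h3 <;> rcases Finset.mem_union.1 hx' with h4 | h4
    · exact h2 z hz z' hz' hne x (List.mem_toFinset.1 h3) (List.mem_toFinset.1 h4)
    · exact hmix z hz z' hz' hne x (List.mem_toFinset.1 h3) h4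
    · exact hmix z' hz' z hz (Ne.symm hne) x (List.mem_toFinset.1 h4) h3
    · exact Finset.disjoint_left.1 (b2 (g z) (hgB z hz) (g z') (hgB z' hz')
        (hg z hz z' hz' hne)) h3 h4
  · intro z hz z' hz' hne
    obtain ⟨x, hx, y, hy, hxy⟩ := b3 (g z) (hgB z hz) (g z') (hgB z' hz') (hg z hz z' hz' hne)
    exact ⟨x, Finset.mem_union_right _ hx, y, Finset.mem_union_right _ hy, hxy⟩

end step1

/-! ### step (2): contraction of an edge -/

/-- image graph of `G[W]` under `φ`. -/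
def mapG (G : SimpleGraph V) (W : Finset V) (φ : V → V) : SimpleGraph V where
  Adj a b := a ≠ b ∧ ∃ x ∈ W, ∃ y ∈ W, φ x = a ∧ φ y = b ∧ G.Adj x y
  symm := ⟨fun _ _ h => by
    obtain ⟨h1, x, hx, y, hy, h2, h3, h4⟩ := h
    exact ⟨h1.symm, y, hy, x, hx, h3, h2, h4.symm⟩⟩
  loopless := ⟨fun _ h => h.1 rfl⟩

lemma map_reach {φ : V → V} {S : Finset V} (hSW : S ⊆ W) {x y : V} (h : Reach G S x y)
    (hx : x ∈ S) : Reach (mapG G W φ) (S.image φ) (φ x) (φ y) := by
  induction h with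
  | refl => exact Reach.refl _
  | tail h1 h2 ih =>
    rename_i b c
    have hb : b ∈ S := Reach.mem h1 hx
    by_cases heq : φ b = φ c
    · rw [← heq]; exact ih
    · exact ih.step ⟨heq, b, hSW hb, c, hSW h2.2, rfl, rfl, h2.1⟩
        (Finset.mem_image_of_mem _ h2.2)

lemma lift_reach {φ : V → V} {T : Finset V}
    (hfib : ∀ x ∈ W, ∀ y ∈ W, φ x = φ y → x = y ∨ G.Adj x y) {x : V} {c : V}
    (hxW : x ∈ W) (hxT : φ x ∈ T) (h : Reach (mapG G W φ) T (φ x) c) :
    ∀ y ∈ W, φ y = c → Reach G (W.filter (fun v => φ v ∈ T)) x y := by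
  induction h with
  | refl =>
    intro y hy hyx
    rcases hfib x hxW y hy hyx.symm with rfl | hadj
    · exact Reach.refl _
    · exact Reach.single hadj (Finset.mem_filter.2 ⟨hy, by rw [hyx]; exact hxT⟩)
  | tail h1 h2 ih =>
    rename_i b c
    intro y hy hyc
    obtain ⟨⟨_, p, hp, q, hq, hpb, hqc, hpq⟩, hcT⟩ := h2
    have h3 := ih p hp hpb
    have hqT : q ∈ W.filter (fun v => φ v ∈ T) :=
      Finset.mem_filter.2 ⟨hq, by rw [hqc]; exact hcT⟩
    have h4 := h3.step hpq hqT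
    rcases hfib q hq y hy (hqc.trans hyc.symm) with rfl | hadj
    · exact h4
    · exact h4.step hadj (Finset.mem_filter.2 ⟨hy, by rw [hyc]; exact hcT⟩)

section step2

variable {u v : V}

/-- the contraction map. -/
def ctr (u v : V) : V → V := fun x => if x = u then v else x

lemma ctr_u : ctr u v u = v := by simp [ctr]

lemma ctr_ne {x : V} (h : x ≠ u) : ctr u v x = x := by simp [ctr, h]

lemma ctr_eq {x y : V} (h : ctr u v x = ctr u v y) :
    x = y ∨ (x = u ∧ y = v) ∨ (x = v ∧ y = u) := by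
  unfold ctr at h
  split_ifs at h with h1 h2 h2
  · left; rw [h1, h2]
  · right; left; exact ⟨h1, h.symm⟩
  · right; right; exact ⟨h, h2⟩
  · left; exact h

lemma step2_hyp (h : Hyp G W Z A) (huW : u ∈ W) (hvW : v ∈ W) (hne : v ≠ u) (huZ : u ∉ Z)
    (hcross : ∀ i j, i ≠ j → ¬ (u ∈ A i ∧ v ∈ A j))
    (hstar : ∀ P Q, Sep G W P Q → Z ⊆ P → (P ∩ Q).card ≤ Z.card → ∀ i,
      (∀ x ∈ A i, x ∉ P) → u ∉ P) :
    Hyp (mapG G W (ctr u v)) (W.erase u) Z (fun i => (A i).image (ctr u v)) := by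
  have hZfix : ∀ z ∈ Z, ctr u v z = z := fun z hz => ctr_ne (by rintro rfl; exact huZ hz)
  refine ⟨?_, ?_, ?_, ?_, ?_, ?_, ?_⟩
  · intro z hz
    exact Finset.mem_erase.2 ⟨by rintro rfl; exact huZ hz, h.zw hz⟩
  · intro i x hx
    obtain ⟨y, hy, rfl⟩ := Finset.mem_image.1 hx
    by_cases hyu : y = u
    · rw [hyu, ctr_u]
      exact Finset.mem_erase.2 ⟨hne, hvW⟩
    · rw [ctr_ne hyu]
      exact Finset.mem_erase.2 ⟨hyu, h.aw i hy⟩
  · intro i
    exact (h.ne i).image _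
  · intro i j hij
    rw [Finset.disjoint_left]
    intro x hx hx'
    obtain ⟨y, hy, hyx⟩ := Finset.mem_image.1 hx
    obtain ⟨y', hy', hyx'⟩ := Finset.mem_image.1 hx'
    rcases ctr_eq (hyx.trans hyx'.symm) with h1 | h1 | h1
    · exact Finset.disjoint_left.1 (h.disj i j hij) hy (h1 ▸ hy')
    · exact hcross i j hij ⟨h1.1 ▸ hy, h1.2 ▸ hy'⟩
    · exact hcross j i (Ne.symm hij) ⟨h1.2 ▸ hy', h1.1 ▸ hy⟩
  · intro i
    rcases h.c1 i with h1 | h1
    · left
      rw [conn_iff]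
      refine ⟨(h.ne i).image _, ?_⟩
      intro a ha b hb
      obtain ⟨x, hx, rfl⟩ := Finset.mem_image.1 ha
      obtain ⟨y, hy, rfl⟩ := Finset.mem_image.1 hb
      exact map_reach (h.aw i) (h1.reach hx hy) hx
    · right
      intro a ha
      obtain ⟨x, hx, rfl⟩ := Finset.mem_image.1 ha
      obtain ⟨y, hy, hyZ, hr⟩ := h1 x hx
      refine ⟨ctr u v y, Finset.mem_image_of_mem _ hy, by rw [hZfix y hyZ]; exact hyZ,
        map_reach (h.aw i) hr hx⟩
  · intro i j hij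
    rcases h.c2 i j hij with ⟨⟨x, hx, hxZ⟩, ⟨y, hy, hyZ⟩⟩ | ⟨x, hx, y, hy, hxy⟩
    · left
      exact ⟨⟨ctr u v x, Finset.mem_image_of_mem _ hx, by rw [hZfix x hxZ]; exact hxZ⟩,
        ⟨ctr u v y, Finset.mem_image_of_mem _ hy, by rw [hZfix y hyZ]; exact hyZ⟩⟩
    · right
      refine ⟨ctr u v x, Finset.mem_image_of_mem _ hx, ctr u v y, Finset.mem_image_of_mem _ hy,
        ?_, x, h.aw i hx, y, h.aw j hy, rfl, rfl, hxy⟩
      intro heq
      rcases ctr_eq heq with h1 | h1 | h1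
      · exact Finset.disjoint_left.1 (h.disj i j hij) hx (h1 ▸ hy)
      · exact hcross i j hij ⟨h1.1 ▸ hx, h1.2 ▸ hy⟩
      · exact hcross j i (Ne.symm hij) ⟨h1.2 ▸ hy, h1.1 ▸ hx⟩
  · intro P' Q' hs' hZP' hord' i
    by_contra hi
    rw [Finset.not_nonempty_iff_eq_empty] at hi
    set P := W.filter (fun x => ctr u v x ∈ P') with hP
    set Q := W.filter (fun x => ctr u v x ∈ Q') with hQ
    have hφW : ∀ x ∈ W, ctr u v x ∈ W.erase u := by
      intro x hx
      by_cases hxu : x = u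
      · rw [hxu, ctr_u]
        exact Finset.mem_erase.2 ⟨hne, hvW⟩
      · rw [ctr_ne hxu]
        exact Finset.mem_erase.2 ⟨hxu, hx⟩
    have hsep : Sep G W P Q := by
      refine ⟨?_, ?_⟩
      · ext x
        simp only [hP, hQ, Finset.mem_union, Finset.mem_filter]
        constructor
        · rintro (h | h) <;> exact h.1
        · intro hx
          have := hφW x hx
          rw [← hs'.union, Finset.mem_union] at this
          rcases this with h | h
          · exact Or.inl ⟨hx, h⟩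
          · exact Or.inr ⟨hx, h⟩
      · intro a ha ha' b hb hb' hab
        simp only [hP, hQ, Finset.mem_filter, not_and] at ha ha' hb hb'
        have ha2 := ha' ha.1
        have hb2 := hb' hb.1
        refine hs'.nadj (ctr u v a) ha.2 ha2 (ctr u v b) hb.2 hb2
          ⟨?_, a, ha.1, b, hb.1, rfl, rfl, hab⟩
        intro heq
        rw [heq] at ha2
        exact ha2 hb.2
    have hZP : Z ⊆ P := by
      intro z hz
      exact Finset.mem_filter.2 ⟨h.zw hz, by rw [hZfix z hz]; exact hZP' hz⟩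
    have hiP : ∀ x ∈ A i, x ∉ P := by
      intro x hx hxP
      have : ctr u v x ∈ P' ∩ (A i).image (ctr u v) :=
        Finset.mem_inter.2 ⟨(Finset.mem_filter.1 hxP).2, Finset.mem_image_of_mem _ hx⟩
      rw [hi] at this
      simp at this
    have hsub : (P ∩ Q).erase u ⊆ P' ∩ Q' := by
      intro x hx
      rw [Finset.mem_erase, Finset.mem_inter, Finset.mem_filter, Finset.mem_filter] at hx
      obtain ⟨hxu, ⟨_, h1⟩, ⟨_, h2⟩⟩ := hx
      rw [ctr_ne hxu] at h1 h2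
      exact Finset.mem_inter.2 ⟨h1, h2⟩
    have hcard1 : (P ∩ Q).card ≤ Z.card := by
      have h1 := Finset.card_le_card hsub
      have h2 := Finset.pred_card_le_card_erase (s := P ∩ Q) (a := u)
      omega
    have huP : u ∉ P := hstar P Q hsep hZP hcard1 i hiP
    have hcard2 : (P ∩ Q).card < Z.card := by
      rw [Finset.erase_eq_of_notMem (fun h => huP (Finset.mem_inter.1 h).1)] at hsub
      exact lt_of_le_of_lt (Finset.card_le_card hsub) hord'
    obtain ⟨x, hx⟩ := h.c3 P Q hsep hZP hcard2 i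
    rw [Finset.mem_inter] at hx
    exact hiP x hx.2 hx.1

lemma step2_concl (h : Hyp G W Z A) (hvW : v ∈ W) (huv : G.Adj u v)
    (huZ : u ∉ Z) (hc : Concl (mapG G W (ctr u v)) (W.erase u) Z) : Concl G W Z := by
  obtain ⟨B, h1, h2, h3⟩ := hc
  have hZfix : ∀ z ∈ Z, ctr u v z = z := fun z hz => ctr_ne (by rintro rfl; exact huZ hz)
  have hfib : ∀ x ∈ W, ∀ y ∈ W, ctr u v x = ctr u v y → x = y ∨ G.Adj x y := by
    intro x _ y _ heq
    rcases ctr_eq heq with h | h | h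
    · exact Or.inl h
    · rw [h.1, h.2]; exact Or.inr huv
    · rw [h.1, h.2]; exact Or.inr huv.symm
  refine ⟨fun z => W.filter (fun x => ctr u v x ∈ B z), ?_, ?_, ?_⟩
  · intro z hz
    have hzm : z ∈ W.filter (fun x => ctr u v x ∈ B z) :=
      Finset.mem_filter.2 ⟨h.zw hz, by rw [hZfix z hz]; exact (h1 z hz).1⟩
    refine ⟨hzm, Finset.filter_subset _ _, ?_⟩
    refine conn_of_reach hzm ?_
    intro w hw
    rw [Finset.mem_filter] at hw
    have hr := (h1 z hz).2.2.reach (h1 z hz).1 hw.2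
    rw [← hZfix z hz] at hr
    have hzB : ctr u v z ∈ B z := by rw [hZfix z hz]; exact (h1 z hz).1
    have := lift_reach hfib (h.zw hz) (T := B z) hzB (by rw [hZfix z hz] at hr ⊢; exact hr)
      w hw.1 rfl
    exact this
  · intro z hz z' hz' hne
    rw [Finset.disjoint_left]
    intro x hx hx'
    exact Finset.disjoint_left.1 (h2 z hz z' hz' hne) (Finset.mem_filter.1 hx).2
      (Finset.mem_filter.1 hx').2
  · intro z hz z' hz' hne
    obtain ⟨x, hx, y, hy, _, p, hp, q, hq, hpx, hqy, hpq⟩ := h3 z hz z' hz' hne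
    exact ⟨p, Finset.mem_filter.2 ⟨hp, by rw [hpx]; exact hx⟩, q,
      Finset.mem_filter.2 ⟨hq, by rw [hqy]; exact hy⟩, hpq⟩

end step2

/-! ### final step: Hall -/

lemma final (h : Hyp G W Z A) (hk : 2 * Z.card ≤ k) (hs : 1 ≤ Z.card)
    (hZ : ∀ x ∈ Z, ∀ y ∈ Z, ¬ G.Adj x y)
    (hE : ∀ x ∈ W, ∀ y ∈ W, G.Adj x y → (x ∉ Z ∨ y ∉ Z) →
      ∃ i j, i ≠ j ∧ x ∈ A i ∧ y ∈ A j) : Concl G W Z := by
  classical
  -- no edges inside a piece
  have hin : ∀ i, ∀ x ∈ A i, ∀ y ∈ A i, ¬ G.Adj x y := by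
    intro i x hx y hy hxy
    by_cases hxyZ : x ∉ Z ∨ y ∉ Z
    · obtain ⟨a, b, hab, hxa, hyb⟩ := hE x (h.aw i hx) y (h.aw i hy) hxy hxyZ
      have h1 : a = i := by
        by_contra hne
        exact Finset.disjoint_left.1 (h.disj a i hne) hxa hx
      have h2 : b = i := by
        by_contra hne
        exact Finset.disjoint_left.1 (h.disj b i hne) hyb hy
      exact hab (h1.trans h2.symm)
    · push Not at hxyZ
      exact hZ x hxyZ.1 y hxyZ.2 hxy
  have hreach : ∀ i, ∀ x ∈ A i, ∀ y, Reach G (A i) x y → x = y := by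
    intro i x hx y hr
    induction hr with
    | refl => rfl
    | tail h1 h2 ih =>
      rename_i b c
      exact absurd h2.1 (hin i b (Reach.mem h1 hx) c h2.2)
  -- pieces are singletons or contained in `Z`
  have hpiece : ∀ i, (∃ w, A i = {w}) ∨ A i ⊆ Z := by
    intro i
    rcases h.c1 i with h1 | h1
    · left
      obtain ⟨w, hw⟩ := h.ne i
      refine ⟨w, ?_⟩
      ext y
      rw [Finset.mem_singleton]
      constructor
      · intro hy
        exact (hreach i w hw y (h1.reach hw hy)).symm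
      · rintro rfl; exact hw
    · right
      intro x hx
      obtain ⟨y, hy, hyZ, hr⟩ := h1 x hx
      rw [hreach i x hx y hr]
      exact hyZ
  have hpiece' : ∀ i, ∀ x ∈ A i, x ∉ Z → A i = {x} := by
    intro i x hx hxZ
    rcases hpiece i with ⟨w, hw⟩ | h1
    · rw [hw] at hx ⊢
      rw [Finset.mem_singleton.1 hx]
    · exact absurd (h1 hx) hxZ
  -- the set of outer singletons
  set I0 : Finset (Fin k) := Finset.univ.filter (fun i => ∀ x ∈ A i, x ∉ Z) with hI0
  have hcardI : Z.card ≤ I0.card := by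
    have h1 : (Finset.univ.filter (fun i => ¬ ∀ x ∈ A i, x ∉ Z)).card ≤ Z.card := by
      have hex : ∀ i : Fin k, ∃ z, (¬ ∀ x ∈ A i, x ∉ Z) → z ∈ A i ∧ z ∈ Z := by
        intro i
        by_cases hi : ∀ x ∈ A i, x ∉ Z
        · obtain ⟨x, hx⟩ := h.ne i
          exact ⟨x, fun h => absurd hi h⟩
        · have hi' := hi
          push Not at hi'
          obtain ⟨x, hx, hxZ⟩ := hi'
          exact ⟨x, fun _ => ⟨hx, hxZ⟩⟩
      choose g hg using hex
      refine Finset.card_le_card_of_injOn g ?_ ?_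
      · intro i hi
        exact (hg i (Finset.mem_filter.1 (Finset.mem_coe.1 hi)).2).2
      · intro i hi j hj hij
        by_contra hne
        have h3 := (hg i (Finset.mem_filter.1 (Finset.mem_coe.1 hi)).2).1
        have h4 := (hg j (Finset.mem_filter.1 (Finset.mem_coe.1 hj)).2).1
        rw [← hij] at h4
        exact Finset.disjoint_left.1 (h.disj i j hne) h3 h4
    have h2 := Finset.card_filter_add_card_filter_not (s := (Finset.univ : Finset (Fin k)))
      (fun i => ∀ x ∈ A i, x ∉ Z)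
    rw [Finset.card_univ, Fintype.card_fin] at h2
    rw [hI0]
    omega
  set T : Finset V := I0.biUnion A with hT
  have hTmem : ∀ x, x ∈ T ↔ x ∉ Z ∧ ∃ i, x ∈ A i := by
    intro x
    rw [hT, Finset.mem_biUnion]
    constructor
    · rintro ⟨i, hi, hx⟩
      exact ⟨(Finset.mem_filter.1 hi).2 x hx, i, hx⟩
    · rintro ⟨hxZ, i, hx⟩
      refine ⟨i, Finset.mem_filter.2 ⟨Finset.mem_univ _, ?_⟩, hx⟩
      intro y hy
      rw [hpiece' i x hx hxZ, Finset.mem_singleton] at hy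
      rw [hy]; exact hxZ
  have hTcard : Z.card ≤ T.card := by
    refine hcardI.trans ?_
    rw [hT, Finset.card_biUnion (fun i _ j _ hij => h.disj i j hij)]
    rw [Finset.card_eq_sum_ones]
    exact Finset.sum_le_sum (fun i _ => Finset.card_pos.2 (h.ne i))
  have hTadj : ∀ x ∈ T, ∀ y ∈ T, x ≠ y → G.Adj x y := by
    intro x hx y hy hne
    obtain ⟨hxZ, i, hxi⟩ := (hTmem x).1 hx
    obtain ⟨hyZ, j, hyj⟩ := (hTmem y).1 hy
    have hij : i ≠ j := by
      rintro rfl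
      rw [hpiece' i x hxi hxZ, Finset.mem_singleton] at hyj
      exact hne hyj.symm
    rcases h.c2 i j hij with ⟨⟨z, hz, hzZ⟩, _⟩ | ⟨a, ha, b, hb, hab⟩
    · rw [hpiece' i x hxi hxZ, Finset.mem_singleton] at hz
      rw [hz] at hzZ
      exact absurd hzZ hxZ
    · rw [hpiece' i x hxi hxZ, Finset.mem_singleton] at ha
      rw [hpiece' j y hyj hyZ, Finset.mem_singleton] at hb
      rw [← ha, ← hb]; exact hab
  -- neighbours of `Z` are in `T`
  have hnb : ∀ z ∈ Z, ∀ x ∈ W, G.Adj z x → x ∈ T := by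
    intro z hz x hx hzx
    have hxZ : x ∉ Z := fun hxZ => hZ z hz x hxZ hzx
    obtain ⟨i, j, _, _, hxj⟩ := hE z (h.zw hz) x hx hzx (Or.inr hxZ)
    exact (hTmem x).2 ⟨hxZ, j, hxj⟩
  -- Hall
  let t : Z → Finset V := fun z => T.filter (fun x => G.Adj z.1 x)
  have hall : ∀ S : Finset Z, S.card ≤ (S.biUnion t).card := by
    intro S
    by_contra hlt
    push Not at hlt
    set S' : Finset V := S.image Subtype.val with hS'
    have hS'Z : S' ⊆ Z := by
      intro x hx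
      obtain ⟨y, _, rfl⟩ := Finset.mem_image.1 hx
      exact y.2
    have hS'c : S'.card = S.card := Finset.card_image_of_injective _ Subtype.val_injective
    set N := S.biUnion t with hN
    have hNT : N ⊆ T := by
      intro x hx
      obtain ⟨z, _, hx⟩ := Finset.mem_biUnion.1 hx
      exact (Finset.mem_filter.1 hx).1
    have hTW : T ⊆ W := by
      intro x hx
      obtain ⟨_, i, hi⟩ := (hTmem x).1 hx
      exact h.aw i hi
    have hsep : Sep G W (Z ∪ N) (W \ S') := by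
      refine ⟨?_, ?_⟩
      · ext x
        simp only [Finset.mem_union, Finset.mem_sdiff]
        constructor
        · rintro ((h1 | h1) | h1)
          · exact h.zw h1
          · exact hTW (hNT h1)
          · exact h1.1
        · intro hx
          by_cases hxS : x ∈ S'
          · exact Or.inl (Or.inl (hS'Z hxS))
          · exact Or.inr ⟨hx, hxS⟩
      · intro a ha ha' b hb hb' hab
        have haW : a ∈ W := by
          rcases Finset.mem_union.1 ha with h1 | h1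
          · exact h.zw h1
          · exact hTW (hNT h1)
        have haS : a ∈ S' := by
          by_contra haS
          exact ha' (Finset.mem_sdiff.2 ⟨haW, haS⟩)
        rw [Finset.mem_union, not_or] at hb'
        apply hb'.2
        obtain ⟨z, hz, rfl⟩ := Finset.mem_image.1 haS
        refine Finset.mem_biUnion.2 ⟨z, hz, Finset.mem_filter.2 ⟨?_, hab⟩⟩
        exact hnb z.1 z.2 b (Finset.mem_sdiff.1 hb).1 hab
    have hord : ((Z ∪ N) ∩ (W \ S')).card < Z.card := by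
      have hsub : (Z ∪ N) ∩ (W \ S') ⊆ (Z \ S') ∪ N := by
        intro x hx
        simp only [Finset.mem_inter, Finset.mem_union, Finset.mem_sdiff] at hx ⊢
        tauto
      have h1 := Finset.card_le_card hsub
      have h2 := Finset.card_union_le (Z \ S') N
      have h3 : (Z \ S').card = Z.card - S'.card := Finset.card_sdiff_of_subset hS'Z
      have h4 : S'.card ≤ Z.card := Finset.card_le_card hS'Z
      omega
    have hNlt : N.card < T.card := by
      have h4 : S'.card ≤ Z.card := Finset.card_le_card hS'Z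
      omega
    obtain ⟨x, hx, hxN⟩ : ∃ x ∈ T, x ∉ N := by
      by_contra hcon
      push Not at hcon
      exact absurd (Finset.card_le_card hcon) (not_le.2 hNlt)
    obtain ⟨hxZ, i, hxi⟩ := (hTmem x).1 hx
    obtain ⟨y, hy⟩ := h.c3 (Z ∪ N) (W \ S') hsep Finset.subset_union_left hord i
    rw [Finset.mem_inter, hpiece' i x hxi hxZ, Finset.mem_singleton, Finset.mem_union] at hy
    rw [hy.2] at hy
    rcases hy.1 with h1 | h1
    · exact hxZ h1
    · exact hxN h1
  obtain ⟨f, hfinj, hf⟩ := (Finset.all_card_le_biUnion_card_iff_exists_injective t).1 hall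
  have hfT : ∀ z : Z, f z ∈ T := fun z => (Finset.mem_filter.1 (hf z)).1
  have hfadj : ∀ z : Z, G.Adj z.1 (f z) := fun z => (Finset.mem_filter.1 (hf z)).2
  have hfZ : ∀ z : Z, f z ∉ Z := fun z => ((hTmem _).1 (hfT z)).1
  have hTW : T ⊆ W := by
    intro x hx
    obtain ⟨_, i, hi⟩ := (hTmem x).1 hx
    exact h.aw i hi
  refine ⟨fun z => if hz : z ∈ Z then {z, f ⟨z, hz⟩} else ∅, ?_, ?_, ?_⟩
  · intro z hz
    simp only [hz, dif_pos]
    refine ⟨by simp, ?_, ?_⟩
    · intro x hx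
      rw [Finset.mem_insert, Finset.mem_singleton] at hx
      rcases hx with rfl | rfl
      · exact h.zw hz
      · exact hTW (hfT _)
    · have := (conn_singleton (G := G) (f ⟨z, hz⟩)).insert_adj (x := f ⟨z, hz⟩) (y := z)
        (by simp) (hfadj ⟨z, hz⟩).symm
      exact this
  · intro z hz z' hz' hne
    simp only [hz, hz', dif_pos]
    rw [Finset.disjoint_left]
    intro x hx hx'
    rw [Finset.mem_insert, Finset.mem_singleton] at hx hx'
    rcases hx with h1 | h1 <;> rcases hx' with h2 | h2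
    · exact hne (h1.symm.trans h2)
    · exact hfZ ⟨z', hz'⟩ (by rw [← h2, h1]; exact hz)
    · exact hfZ ⟨z, hz⟩ (by rw [← h1, h2]; exact hz')
    · have := hfinj (h1.symm.trans h2)
      exact hne (Subtype.ext_iff.1 this)
  · intro z hz z' hz' hne
    simp only [hz, hz', dif_pos]
    refine ⟨f ⟨z, hz⟩, by simp, f ⟨z', hz'⟩, by simp, ?_⟩
    refine hTadj _ (hfT _) _ (hfT _) ?_
    intro heq
    exact hne (Subtype.ext_iff.1 (hfinj heq))

/-! ### the lemma -/

theorem rc_aux (n : ℕ) : ∀ (G : SimpleGraph V) (W Z : Finset V) (k : ℕ) (A : Fin k → Finset V),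
    W.card ≤ n → 2 * Z.card ≤ k → 1 ≤ Z.card → Hyp G W Z A → Concl G W Z := by
  induction n with
  | zero =>
    intro G W Z k A hW _ hs h
    have : Z.card ≤ W.card := Finset.card_le_card h.zw
    omega
  | succ n ih =>
    intro G0 W Z k A hW hk hs h0
    apply Concl.of_delZ
    have h := h0.delZ
    set G := RC335.delZ G0 Z with hG
    have hZ : ∀ x ∈ Z, ∀ y ∈ Z, ¬ G.Adj x y := fun x hx y hy hxy => hxy.2 ⟨hx, hy⟩
    by_contra hcon
    -- (*)
    have hstar : ∀ P Q, Sep G W P Q → Z ⊆ P → (P ∩ Q).card ≤ Z.card → ∀ i,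
        (∀ x ∈ A i, x ∉ P) → P = Z := by
      intro P Q hsep hZP hord i hi
      rcases lt_or_eq_of_le hord with hlt | heq
      · obtain ⟨x, hx⟩ := h.c3 P Q hsep hZP hlt i
        rw [Finset.mem_inter] at hx
        exact absurd hx.1 (hi x hx.2)
      · by_cases hPQ : P ⊆ Q
        · rw [Finset.inter_eq_left.2 hPQ] at heq
          exact (Finset.eq_of_subset_of_card_le hZP heq.le).symm
        · exfalso
          apply hcon
          have hlt : Q.card < W.card := by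
            apply Finset.card_lt_card
            refine ⟨hsep.right_sub, ?_⟩
            intro hWQ
            exact hPQ (hsep.left_sub.trans hWQ)
          refine step1_concl h hsep hZP heq hi ?_
          refine ih G Q (P ∩ Q) k (fun j => A j ∩ Q) (by omega) (by rw [heq]; exact hk)
            (by rw [heq]; exact hs) (step1_hyp h hsep hZP heq hi)
    -- contraction
    have hcontr : ∀ u ∈ W, ∀ v ∈ W, G.Adj u v → u ∉ Z →
        (∀ i j, i ≠ j → ¬ (u ∈ A i ∧ v ∈ A j)) → False := by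
      intro u hu v hv huv huZ hcross
      apply hcon
      refine step2_concl h hv huv huZ ?_
      refine ih _ (W.erase u) Z k (fun i => (A i).image (ctr u v)) ?_ hk hs
        (step2_hyp h hu hv huv.ne' huZ hcross ?_)
      · rw [Finset.card_erase_of_mem hu]; omega
      · intro P Q hsep hZP hord i hi
        rw [hstar P Q hsep hZP hord i hi]
        exact huZ
    apply hcon
    refine final h hk hs hZ ?_
    intro x hx y hy hxy hxyZ
    by_contra hno
    push Not at hno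
    rcases hxyZ with hxZ | hyZ
    · exact hcontr x hx y hy hxy hxZ (fun i j hij hh => hno i j hij hh.1 hh.2)
    · exact hcontr y hy x hx hxy.symm hyZ (fun i j hij hh => hno j i hij.symm hh.2 hh.1)

/-- LEMMA RC (rooted clique), r42_doc sec 04. -/
theorem rooted_clique (G : SimpleGraph V) (W Z : Finset V) (hZW : Z ⊆ W) {k : ℕ}
    (A : Fin k → Finset V) (hAW : ∀ i, A i ⊆ W) (hne : ∀ i, (A i).Nonempty)
    (hdisj : ∀ i j, i ≠ j → Disjoint (A i) (A j)) (hk : 2 * Z.card ≤ k) (hs : 1 ≤ Z.card)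
    (h1 : ∀ i, Conn G (A i) ∨ ∀ x ∈ A i, ∃ y ∈ A i, y ∈ Z ∧ Reach G (A i) x y)
    (h2 : ∀ i j, i ≠ j → ((∃ x ∈ A i, x ∈ Z) ∧ ∃ y ∈ A j, y ∈ Z) ∨
      ∃ x ∈ A i, ∃ y ∈ A j, G.Adj x y)
    (h3 : ∀ P Q, Sep G W P Q → Z ⊆ P → (P ∩ Q).card < Z.card → ∀ i, (P ∩ A i).Nonempty) :
    ∃ B : V → Finset V, (∀ z ∈ Z, z ∈ B z ∧ B z ⊆ W ∧ Conn G (B z)) ∧
      (∀ z ∈ Z, ∀ z' ∈ Z, z ≠ z' → Disjoint (B z) (B z')) ∧
      (∀ z ∈ Z, ∀ z' ∈ Z, z ≠ z' → ∃ x ∈ B z, ∃ y ∈ B z', G.Adj x y) :=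
  rc_aux W.card G W Z k A le_rfl hk hs ⟨hZW, hAW, hne, hdisj, h1, h2, h3⟩

end Crest.Agent.R042.RC335
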