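import Mathlib
import Crest.Agent.R042.Menger_353

/-! Row 42, S0058: THEOREM W / W' (wovenness), abstract form without colourings. -/

set_option autoImplicit false
set_option linter.unusedSectionVars false

namespace Crest.Agent.R042.Woven671

open Finset Crest.Agent.R042.Conn353 Crest.Agent.R042.Menger353

variable {V : Type*} [DecidableEq V]

/-- set form of "`(G[J], X)` is linked". -/
def LinkedS (G : SimpleGraph V) (J X : Finset V) : Prop :=
  ∀ (n : ℕ) (s t : Fin n → V), Function.Injective (Sum.elim s t) → (∀ i, s i ∈ X) →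
    (∀ i, t i ∈ X) →
    ∃ L : Fin n → Finset V, (∀ i, Conn G (L i) ∧ s i ∈ L i ∧ t i ∈ L i ∧ L i ⊆ J ∧
      ∀ x ∈ L i, x ∈ X → x = s i ∨ x = t i) ∧ ∀ i j, i ≠ j → Disjoint (L i) (L j)

lemma LinkedS.index {G : SimpleGraph V} {J X : Finset V} (h : LinkedS G J X) {ι : Type*}
    [Fintype ι] (s t : ι → V) (hi : Function.Injective (Sum.elim s t)) (hs : ∀ i, s i ∈ X)
    (ht : ∀ i, t i ∈ X) :
    ∃ L : ι → Finset V, (∀ i, Conn G (L i) ∧ s i ∈ L i ∧ t i ∈ L i ∧ L i ⊆ J ∧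
      ∀ x ∈ L i, x ∈ X → x = s i ∨ x = t i) ∧ ∀ i j, i ≠ j → Disjoint (L i) (L j) := by
  let e := Fintype.equivFin ι
  have hinj : Function.Injective (Sum.elim (fun i => s (e.symm i)) (fun i => t (e.symm i))) := by
    have : (Sum.elim (fun i => s (e.symm i)) (fun i => t (e.symm i))) =
        Sum.elim s t ∘ Sum.map e.symm e.symm := by
      ext x; rcases x with x | x <;> rfl
    rw [this]
    exact hi.comp (Sum.map_injective.2 ⟨e.symm.injective, e.symm.injective⟩)
  obtain ⟨L, h1, h2⟩ := h _ _ _ hinj (fun i => hs _) (fun i => ht _)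
  refine ⟨fun i => L (e i), fun i => ?_, fun i j hij => h2 _ _ (fun h => hij (e.injective h))⟩
  have := h1 (e i)
  simpa using this

/-- Linking the ends of a linkage inside a hub. -/
lemma glue_hub {G : SimpleGraph V} {W A B J : Finset V} {P : Finset (List V)}
    (hP : Linkage G W A B P) (hJ : ∀ x ∈ J, x ∈ W → x ∈ B)
    (hub : LinkedS G J (verts P ∩ B)) {ι : Type*} [Fintype ι] (σ τ : ι → V)
    (hinj : Function.Injective (Sum.elim σ τ)) (hσ : ∀ k, σ k ∈ verts P ∩ A)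
    (hτ : ∀ k, τ k ∈ verts P ∩ A) :
    ∃ T : ι → Finset V, (∀ k, Conn G (T k) ∧ σ k ∈ T k ∧ τ k ∈ T k ∧ T k ⊆ verts P ∪ J ∧
      (∀ x ∈ T k, x ∈ A → x ∈ J ∨ x = σ k ∨ x = τ k)) ∧
      (∀ k k', k ≠ k' → Disjoint (T k) (T k')) := by
  obtain ⟨f, g, hf, hd, -, -, hg⟩ := hP.family
  have hgB : ∀ a ∈ verts P ∩ A, g a ∈ verts P ∩ B := by
    intro a ha
    obtain ⟨h1, h2, h3, h4, h5, h6, h7, h8, h9⟩ := hf a ha
    exact Finset.mem_inter.2 ⟨mem_verts.2 ⟨f a, h1, h7⟩, h5⟩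
  have hne : ∀ k k', k ≠ k' → σ k ≠ σ k' ∧ σ k ≠ τ k' ∧ τ k ≠ σ k' ∧ τ k ≠ τ k' := by
    intro k k' hkk
    refine ⟨fun h => ?_, fun h => ?_, fun h => ?_, fun h => ?_⟩
    · exact hkk (Sum.inl_injective (hinj (a₁ := Sum.inl k) (a₂ := Sum.inl k') h))
    · exact Sum.inl_ne_inr (hinj (a₁ := Sum.inl k) (a₂ := Sum.inr k') h)
    · exact Sum.inr_ne_inl (hinj (a₁ := Sum.inr k) (a₂ := Sum.inl k') h)
    · exact hkk (Sum.inr_injective (hinj (a₁ := Sum.inr k) (a₂ := Sum.inr k') h))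
  have hgi : Function.Injective (Sum.elim (fun k => g (σ k)) (fun k => g (τ k))) := by
    have : (Sum.elim (fun k => g (σ k)) (fun k => g (τ k))) = g ∘ Sum.elim σ τ := by
      ext x; rcases x with x | x <;> rfl
    rw [this]
    intro x y hxy
    apply hinj
    have hx : Sum.elim σ τ x ∈ verts P ∩ A := by
      rcases x with x | x
      · exact hσ x
      · exact hτ x
    have hy : Sum.elim σ τ y ∈ verts P ∩ A := by
      rcases y with y | y
      · exact hσ y
      · exact hτ y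
    exact hg _ hx _ hy hxy
  obtain ⟨L, hL, hLd⟩ := hub.index (fun k => g (σ k)) (fun k => g (τ k)) hgi
    (fun k => hgB _ (hσ k)) (fun k => hgB _ (hτ k))
  -- intersection of a path with a hub link
  have hfL : ∀ a ∈ verts P ∩ A, ∀ k, ∀ x ∈ f a, x ∈ L k → a = σ k ∨ a = τ k := by
    intro a ha k x hxa hxL
    obtain ⟨h1, h2, h3, h4, h5, h6, h7, h8, h9⟩ := hf a ha
    obtain ⟨c1, c2, c3, c4, c5⟩ := hL k
    have hxB : x ∈ B := hJ x (c4 hxL) (h2.sub x hxa)
    have hxg : x = g a := h9 x hxa hxB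
    have hxv : x ∈ verts P ∩ B := Finset.mem_inter.2 ⟨mem_verts.2 ⟨f a, h1, hxa⟩, hxB⟩
    rcases c5 x hxL hxv with h | h
    · left; exact hg _ ha _ (hσ k) (hxg ▸ h)
    · right; exact hg _ ha _ (hτ k) (hxg ▸ h)
  refine ⟨fun k => (f (σ k)).toFinset ∪ L k ∪ (f (τ k)).toFinset, ?_, ?_⟩
  · intro k
    obtain ⟨a1, a2, a3, a4, a5, a6, a7, a8, a9⟩ := hf _ (hσ k)
    obtain ⟨b1, b2, b3, b4, b5, b6, b7, b8, b9⟩ := hf _ (hτ k)
    obtain ⟨c1, c2, c3, c4, c5⟩ := hL k
    refine ⟨?_, ?_, ?_, ?_, ?_⟩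
    · refine Conn.union (Conn.union a2.conn c1 (List.mem_toFinset.2 a7) c2) b2.conn
        (x := g (τ k)) ?_ (List.mem_toFinset.2 b7)
      exact Finset.mem_union_right _ c3
    · simp [a6]
    · simp [b6]
    · intro x hx
      simp only [Finset.mem_union, List.mem_toFinset] at hx ⊢
      rcases hx with (hx | hx) | hx
      · exact Or.inl (mem_verts.2 ⟨_, a1, hx⟩)
      · exact Or.inr (c4 hx)
      · exact Or.inl (mem_verts.2 ⟨_, b1, hx⟩)
    · intro x hx hxA
      simp only [Finset.mem_union, List.mem_toFinset] at hx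
      rcases hx with (hx | hx) | hx
      · exact Or.inr (Or.inl (a8 x hx hxA))
      · exact Or.inl (c4 hx)
      · exact Or.inr (Or.inr (b8 x hx hxA))
  · intro k k' hkk
    obtain ⟨n1, n2, n3, n4⟩ := hne k k' hkk
    rw [Finset.disjoint_left]
    intro x hx hx'
    simp only [Finset.mem_union, List.mem_toFinset] at hx hx'
    rcases hx with (hx | hx) | hx <;> rcases hx' with (hx' | hx') | hx'
    · exact hd _ (hσ k) _ (hσ k') n1 x hx hx'
    · rcases hfL _ (hσ k) k' x hx hx' with h | h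
      · exact n1 h
      · exact n2 h
    · exact hd _ (hσ k) _ (hτ k') n2 x hx hx'
    · rcases hfL _ (hσ k') k x hx' hx with h | h
      · exact n1 h.symm
      · exact n3 h.symm
    · exact (Finset.disjoint_left.1 (hLd k k' hkk)) hx hx'
    · rcases hfL _ (hτ k') k x hx' hx with h | h
      · exact n2 h.symm
      · exact n4 h.symm
    · exact hd _ (hτ k) _ (hσ k') n3 x hx hx'
    · rcases hfL _ (hτ k) k' x hx hx' with h | h
      · exact n3 h
      · exact n4 h
    · exact hd _ (hτ k) _ (hτ k') n4 x hx hx'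

/-- adding a set to both sides of a separation. -/
lemma sep_add {G : SimpleGraph V} {H S A B : Finset V} (hS : S ⊆ H) (h : Sep G (H \ S) A B) :
    Sep G H (A ∪ S) (B ∪ S) := by
  refine ⟨?_, ?_⟩
  · have := h.union
    ext x
    have hx := Finset.ext_iff.1 this x
    simp only [Finset.mem_union, Finset.mem_sdiff] at hx ⊢
    have := @hS x
    tauto
  · intro a ha ha' b hb hb'
    simp only [Finset.mem_union, not_or] at ha ha' hb hb'
    exact h.nadj a (ha.resolve_right ha'.2) ha'.1 b (hb.resolve_right hb'.2) hb'.1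

lemma sep_contra {G : SimpleGraph V} {H Z S A B D E : Finset V} {θ : ℕ}
    (hC2 : ∀ A B, Sep G H A B → (A ∩ B).card ≤ θ → A \ B ⊆ Z ∨ B \ A ⊆ Z)
    (hS : S ⊆ H) (hsep : Sep G (H \ S) A B) (hD : D ⊆ A) (hE : E ⊆ B)
    (hDZ : Disjoint D Z) (hEZ : Disjoint E Z) (hDc : (A ∩ B).card < D.card)
    (hEc : (A ∩ B).card < E.card) (hc : (A ∩ B).card + S.card ≤ θ) : False := by
  have hAS : ∀ x ∈ A, x ∉ S := by
    intro x hx
    have := hsep.left_sub hx
    exact (Finset.mem_sdiff.1 this).2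
  have hBS : ∀ x ∈ B, x ∉ S := by
    intro x hx
    have := hsep.right_sub hx
    exact (Finset.mem_sdiff.1 this).2
  have hcard : ((A ∪ S) ∩ (B ∪ S)).card ≤ θ := by
    have : (A ∪ S) ∩ (B ∪ S) = (A ∩ B) ∪ S := by
      ext x; simp only [Finset.mem_inter, Finset.mem_union]; tauto
    rw [this]
    exact (Finset.card_union_le _ _).trans hc
  rcases hC2 _ _ (sep_add hS hsep) hcard with h | h
  · have hsub : D ⊆ A ∩ B := by
      intro x hx
      refine Finset.mem_inter.2 ⟨hD hx, ?_⟩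
      by_contra hxB
      have : x ∈ Z := h (Finset.mem_sdiff.2 ⟨Finset.mem_union_left _ (hD hx), by
        simp only [Finset.mem_union, not_or]
        exact ⟨hxB, hAS x (hD hx)⟩⟩)
      exact Finset.disjoint_left.1 hDZ hx this
    exact absurd (Finset.card_le_card hsub) (not_le.2 hDc)
  · have hsub : E ⊆ A ∩ B := by
      intro x hx
      refine Finset.mem_inter.2 ⟨?_, hE hx⟩
      by_contra hxA
      have : x ∈ Z := h (Finset.mem_sdiff.2 ⟨Finset.mem_union_left _ (hE hx), by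
        simp only [Finset.mem_union, not_or]
        exact ⟨hxA, hBS x (hE hx)⟩⟩)
      exact Finset.disjoint_left.1 hEZ hx this
    exact absurd (Finset.card_le_card hsub) (not_le.2 hEc)

/-- a linkage of full size covers the source set. -/
lemma Linkage.cover {G : SimpleGraph V} {W A B : Finset V} {P : Finset (List V)}
    (hP : Linkage G W A B P) (hc : P.card = A.card) : A ⊆ verts P := by
  have h1 : verts P ∩ A = A := by
    apply Finset.eq_of_subset_of_card_le Finset.inter_subset_right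
    rw [hP.verts_inter_card_left, hc]
  intro x hx
  rw [← h1] at hx
  exact (Finset.mem_inter.1 hx).1

/-- (b): the batch exists. -/
lemma exists_batch {G : SimpleGraph V} {H Z X J Z1 : Finset V} {θ : ℕ}
    (hC2 : ∀ A B, Sep G H A B → (A ∩ B).card ≤ θ → A \ B ⊆ Z ∨ B \ A ⊆ Z)
    (hXH : X ⊆ H) (hXZ : Disjoint X Z) (hJH : J ⊆ H) (hJZ : Disjoint J Z)
    (hJX : Disjoint J X) (hZ1 : Z1 ⊆ J) (hbig : X.card ≤ (J \ Z1).card)
    (hθ : X.card + Z1.card ≤ θ + 1) :
    ∃ U, Linkage G (H \ Z1) X (J \ Z1) U ∧ U.card = X.card ∧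
      ∀ U', Linkage G (H \ Z1) X (J \ Z1) U' → U'.card = U.card →
        (verts U).card ≤ (verts U').card := by
  have hXs : X ⊆ H \ Z1 := by
    intro x hx
    refine Finset.mem_sdiff.2 ⟨hXH hx, fun h => ?_⟩
    exact Finset.disjoint_left.1 hJX (hZ1 h) hx
  have hJs : J \ Z1 ⊆ H \ Z1 := Finset.sdiff_subset_sdiff hJH (le_refl _)
  have hex : ∃ U, Linkage G (H \ Z1) X (J \ Z1) U ∧ U.card = X.card := by
    rcases menger_sep (G := G) hXs hJs X.card with h | ⟨A', B', h1, h2, h3, h4⟩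
    · exact h
    · exfalso
      refine sep_contra hC2 (hZ1.trans hJH) h1 h2 h3 hXZ (hJZ.mono_left Finset.sdiff_subset) h4
        (lt_of_lt_of_le h4 hbig) (by omega)
  classical
  have hex2 : ∃ n, ∃ U, Linkage G (H \ Z1) X (J \ Z1) U ∧ U.card = X.card ∧
      (verts U).card = n := by
    obtain ⟨U, h1, h2⟩ := hex
    exact ⟨_, U, h1, h2, rfl⟩
  obtain ⟨U, h1, h2, h3⟩ := Nat.find_spec hex2
  refine ⟨U, h1, h2, fun U' h1' h2' => ?_⟩
  rw [h3]
  exact Nat.find_min' hex2 ⟨U', h1', by rw [h2', h2], rfl⟩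

/-- (d): re-flow. -/
lemma reflow {G : SimpleGraph V} {H Z X J Z1 J' Z' : Finset V} {θ N : ℕ} {U : Finset (List V)}
    (hC2 : ∀ A B, Sep G H A B → (A ∩ B).card ≤ θ → A \ B ⊆ Z ∨ B \ A ⊆ Z)
    (hXH : X ⊆ H) (hJH : J ⊆ H) (hJZ : Disjoint J Z)
    (hJX : Disjoint J X) (hZ1 : Z1 ⊆ J) (hXN : X.card ≤ N) (hbig : N ≤ (J \ Z1).card)
    (hU : Linkage G (H \ Z1) X (J \ Z1) U) (hUX : U.card = X.card)
    (hJ'H : J' ⊆ H) (hJ'Z : Disjoint J' Z) (hJ'J : Disjoint J' J)
    (hJ'U : Disjoint J' (verts U)) (hZ' : Z' ⊆ J') (hbig' : N ≤ (J' \ Z').card)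
    (hθ : N + Z1.card + Z'.card ≤ θ + 1) :
    ∃ P, Linkage G (H \ (Z1 ∪ Z')) (X ∪ (J' \ Z')) (J \ Z1) P ∧ P.card = N ∧ X ⊆ verts P := by
  have hXU : X ⊆ verts U := Linkage.cover hU hUX
  have hXJ' : Disjoint X J' := (hJ'U.symm.mono_left hXU)
  have hU' : Linkage G (H \ (Z1 ∪ Z')) (X ∪ (J' \ Z')) (J \ Z1) U := by
    refine ⟨fun l hl => ?_, hU.disj⟩
    have hp := hU.path l hl
    have hlJ : ∀ x ∈ l, x ∉ J' := fun x hx hxJ =>
      Finset.disjoint_left.1 hJ'U hxJ (mem_verts.2 ⟨l, hl, hx⟩)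
    refine ⟨?_, hp.chain, hp.nodup, ?_, hp.stop⟩
    · intro x hx
      have := Finset.mem_sdiff.1 (hp.sub x hx)
      rw [Finset.mem_sdiff, Finset.mem_union, not_or]
      exact ⟨this.1, this.2, fun h => hlJ x hx (hZ' h)⟩
    · obtain ⟨a, t, h1, h2, h3⟩ := hp.start
      refine ⟨a, t, h1, Finset.mem_union_left _ h2, fun x hx hxA => ?_⟩
      rcases Finset.mem_union.1 hxA with h | h
      · exact h3 x hx h
      · exact hlJ x (by rw [h1]; simp [hx]) (Finset.mem_sdiff.1 h).1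
  have hA : X ∪ (J' \ Z') ⊆ H \ (Z1 ∪ Z') := by
    intro x hx
    rw [Finset.mem_sdiff, Finset.mem_union, not_or]
    rcases Finset.mem_union.1 hx with h | h
    · exact ⟨hXH h, fun h' => Finset.disjoint_left.1 hJX (hZ1 h') h,
        fun h' => Finset.disjoint_left.1 hXJ' h (hZ' h')⟩
    · rw [Finset.mem_sdiff] at h
      exact ⟨hJ'H h.1, fun h' => Finset.disjoint_left.1 hJ'J h.1 (hZ1 h'), h.2⟩
  have hB : J \ Z1 ⊆ H \ (Z1 ∪ Z') := by
    intro x hx
    rw [Finset.mem_sdiff] at hx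
    rw [Finset.mem_sdiff, Finset.mem_union, not_or]
    exact ⟨hJH hx.1, hx.2, fun h' => Finset.disjoint_left.1 hJ'J (hZ' h') hx.1⟩
  rcases aug_sep hA hB (k := N) hU' (by rw [hUX]; exact hXN) with
    ⟨P, h1, h2, h3, h4⟩ | ⟨A', B', h1, h2, h3, h4⟩
  · refine ⟨P, h1, h2, fun x hx => ?_⟩
    exact (Finset.mem_inter.1 (h3 (Finset.mem_inter.2 ⟨hXU hx, Finset.mem_union_left _ hx⟩))).1
  · exfalso
    have hS : Z1 ∪ Z' ⊆ H := Finset.union_subset (hZ1.trans hJH) (hZ'.trans hJ'H)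
    have hSc : (Z1 ∪ Z').card ≤ Z1.card + Z'.card := Finset.card_union_le _ _
    refine sep_contra (D := J' \ Z') (E := J \ Z1) hC2 hS h1
      (Finset.subset_union_right.trans h2) h3 (hJ'Z.mono_left Finset.sdiff_subset)
      (hJZ.mono_left Finset.sdiff_subset) (lt_of_lt_of_le h4 hbig') (lt_of_lt_of_le h4 hbig)
      (by omega)

/-- LEMMA RC (rooted clique) for a clique model. -/
def RCProp (G : SimpleGraph V) (W : Finset V) (a : ℕ) : Prop :=
  ∀ (Y : Finset V) (A : Fin (2 * a) → Finset V), Y ⊆ W → Y.card = a →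
    (∀ i, A i ⊆ W ∧ Conn G (A i)) → (∀ i j, i ≠ j → Disjoint (A i) (A j)) →
    (∀ i j, i ≠ j → ∃ x ∈ A i, ∃ y ∈ A j, G.Adj x y) →
    (∀ P Q, Sep G W P Q → Y ⊆ P → (P ∩ Q).card < Y.card → ∀ i, (P ∩ A i).Nonempty) →
    ∃ B : V → Finset V, (∀ y ∈ Y, y ∈ B y ∧ B y ⊆ W ∧ Conn G (B y)) ∧
      (∀ y ∈ Y, ∀ y' ∈ Y, y ≠ y' → Disjoint (B y) (B y')) ∧
      (∀ y ∈ Y, ∀ y' ∈ Y, y ≠ y' → ∃ u ∈ B y, ∃ v ∈ B y', G.Adj u v)

/-- conclusion of THEOREM W: connected sets rooted at the `r i` (a clique model) and connected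
sets joining `s j`, `t j`; everything inside `H`, all sets disjoint, avoiding the rest of `X`. -/
def Woven (G : SimpleGraph V) (H X : Finset V) {ι κ : Type*} (r : ι → V) (s t : κ → V) : Prop :=
  ∃ (B : ι → Finset V) (C : κ → Finset V),
    (∀ i, B i ⊆ H ∧ Conn G (B i) ∧ r i ∈ B i ∧ ∀ x ∈ B i, x ∈ X → x = r i) ∧
    (∀ i j, i ≠ j → Disjoint (B i) (B j)) ∧
    (∀ i j, i ≠ j → ∃ x ∈ B i, ∃ y ∈ B j, G.Adj x y) ∧
    (∀ j, C j ⊆ H ∧ Conn G (C j) ∧ s j ∈ C j ∧ t j ∈ C j ∧ ∀ x ∈ C j, x ∈ X → x = s j ∨ x = t j) ∧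
    (∀ i j, i ≠ j → Disjoint (C i) (C j)) ∧ (∀ i j, Disjoint (B i) (C j))

/-- THEOREM W / W', abstract form. -/
theorem woven {G : SimpleGraph V} {H Z X J Z1 : Finset V} {θ a N : ℕ} (ha : 1 ≤ a)
    (hC2 : ∀ A B, Sep G H A B → (A ∩ B).card ≤ θ → A \ B ⊆ Z ∨ B \ A ⊆ Z)
    (hXH : X ⊆ H) (hXZ : Disjoint X Z) (hXN : X.card + a ≤ N)
    (hJH : J ⊆ H) (hJZ : Disjoint J Z) (hJX : Disjoint J X) (hZ1 : Z1 ⊆ J)
    (hbig : N ≤ (J \ Z1).card) (hθ : N + Z1.card + 2 * a ≤ θ + 1)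
    (hub : ∀ X' ⊆ J \ Z1, X'.card ≤ N → LinkedS G J X')
    (rich : ∀ U, Linkage G (H \ Z1) X (J \ Z1) U → U.card = X.card →
      (∀ U', Linkage G (H \ Z1) X (J \ Z1) U' → U'.card = U.card →
        (verts U).card ≤ (verts U').card) →
      ∃ J' Z' : Finset V, J' ⊆ H ∧ Disjoint J' Z ∧ Disjoint J' J ∧ Disjoint J' (verts U) ∧
        Z' ⊆ J' ∧ Z'.card ≤ 2 * a ∧ N ≤ (J' \ Z').card ∧
        (∀ A B, Sep G J' A B → (A ∩ B).card < a → A \ B ⊆ Z' ∨ B \ A ⊆ Z') ∧
        RCProp G J' a ∧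
        ∃ A : Fin (2 * a) → Finset V, (∀ i, A i ⊆ J' \ Z' ∧ Conn G (A i)) ∧
          (∀ i j, i ≠ j → Disjoint (A i) (A j)) ∧
          (∀ i j, i ≠ j → ∃ x ∈ A i, ∃ y ∈ A j, G.Adj x y))
    {ι κ : Type*} [Fintype ι] [Fintype κ] (hι : Fintype.card ι = a) (r : ι → V) (s t : κ → V)
    (hinj : Function.Injective (Sum.elim r (Sum.elim s t))) (hr : ∀ i, r i ∈ X)
    (hs : ∀ j, s j ∈ X) (ht : ∀ j, t j ∈ X) : Woven G H X r s t := by
  classical
  obtain ⟨U, hU, hUX, hUmin⟩ := exists_batch (θ := θ) hC2 hXH hXZ hJH hJZ hJX hZ1 (by omega)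
    (by omega)
  obtain ⟨J', Z', k1, k2, k3, k4, k5, k6, k7, k8, k9, A0, k10, k11, k12⟩ := rich U hU hUX hUmin
  -- enlarge N to exactly |X| + a
  obtain ⟨P, hP, hPc, hXP⟩ := reflow (θ := θ) (N := X.card + a) hC2 hXH hJH hJZ hJX hZ1 (by omega)
    (by omega) hU hUX k1 k2 k3 k4 k5 (by omega) (by omega)
  have hXU : X ⊆ verts U := Linkage.cover hU hUX
  have hXJ' : Disjoint X J' := (k4.symm.mono_left hXU)
  -- the new starting vertices
  set Y : Finset V := verts P ∩ (J' \ Z') with hY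
  have hstart : verts P ∩ (X ∪ (J' \ Z')) = X ∪ Y := by
    ext x
    simp only [hY, Finset.mem_inter, Finset.mem_union]
    constructor
    · rintro ⟨h1, h2 | h2⟩
      · exact Or.inl h2
      · exact Or.inr ⟨h1, h2⟩
    · rintro (h | h)
      · exact ⟨hXP h, Or.inl h⟩
      · exact ⟨h.1, Or.inr h.2⟩
  have hXYd : Disjoint X Y := hXJ'.mono_right
    ((Finset.inter_subset_right).trans Finset.sdiff_subset)
  have hYc : Y.card = a := by
    have h1 := hP.verts_inter_card_left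
    rw [hstart, Finset.card_union_of_disjoint hXYd, hPc] at h1
    omega
  have hYJ' : Y ⊆ J' := (Finset.inter_subset_right).trans Finset.sdiff_subset
  have hYZ' : ∀ y ∈ Y, y ∉ Z' := fun y hy => by
    rw [hY] at hy
    exact (Finset.mem_sdiff.1 (Finset.mem_inter.1 hy).2).2
  -- the rooted model at Y
  obtain ⟨Bm, hBm, hBmd, hBma⟩ := k9 Y A0 hYJ' hYc
    (fun i => ⟨(k10 i).1.trans Finset.sdiff_subset, (k10 i).2⟩) k11 k12 (by
      intro P' Q' hPQ hYP hlt i
      by_contra hempty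
      rw [Finset.not_nonempty_iff_eq_empty] at hempty
      rw [hYc] at hlt
      rcases k8 P' Q' hPQ hlt with h | h
      · -- Y ⊆ P' ∩ Q'
        have : Y ⊆ P' ∩ Q' := by
          intro y hy
          refine Finset.mem_inter.2 ⟨hYP hy, ?_⟩
          by_contra hyQ
          exact hYZ' y hy (h (Finset.mem_sdiff.2 ⟨hYP hy, hyQ⟩))
        have := Finset.card_le_card this
        omega
      · obtain ⟨x, hx⟩ := (k10 i).2.nonempty
        have hxJ := (k10 i).1 hx
        rw [Finset.mem_sdiff] at hxJ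
        have hxP : x ∉ P' := fun hxP => by
          have : x ∈ P' ∩ A0 i := Finset.mem_inter.2 ⟨hxP, hx⟩
          rw [hempty] at this
          simp at this
        have hxQ : x ∈ Q' := by
          have : x ∈ P' ∪ Q' := by rw [hPQ.union]; exact hxJ.1
          exact (Finset.mem_union.1 this).resolve_left hxP
        exact hxJ.2 (h (Finset.mem_sdiff.2 ⟨hxQ, hxP⟩)))
  -- indexing Y
  have hcardY : Fintype.card ι = Fintype.card Y := by
    rw [hι, Fintype.card_coe, hYc]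
  let e : ι ≃ Y := Fintype.equivOfCardEq hcardY
  let y : ι → V := fun i => (e i : V)
  have hyY : ∀ i, y i ∈ Y := fun i => (e i).2
  have hyi : Function.Injective y := fun i j h => e.injective (Subtype.ext h)
  -- the pairs
  let σ : ι ⊕ κ → V := Sum.elim r s
  let τ : ι ⊕ κ → V := Sum.elim y t
  have hrs : ∀ i j, r i ≠ s j := fun i j h => by
    have := hinj (a₁ := Sum.inl i) (a₂ := Sum.inr (Sum.inl j)) h
    simp at this
  have hrt : ∀ i j, r i ≠ t j := fun i j h => by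
    have := hinj (a₁ := Sum.inl i) (a₂ := Sum.inr (Sum.inr j)) h
    simp at this
  have hst : ∀ i j, s i ≠ t j := fun i j h => by
    have := hinj (a₁ := Sum.inr (Sum.inl i)) (a₂ := Sum.inr (Sum.inr j)) h
    simp at this
  have hri : Function.Injective r := fun i j h => by
    have := hinj (a₁ := Sum.inl i) (a₂ := Sum.inl j) h
    simpa using this
  have hsi : Function.Injective s := fun i j h => by
    have := hinj (a₁ := Sum.inr (Sum.inl i)) (a₂ := Sum.inr (Sum.inl j)) h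
    simpa using this
  have hti : Function.Injective t := fun i j h => by
    have := hinj (a₁ := Sum.inr (Sum.inr i)) (a₂ := Sum.inr (Sum.inr j)) h
    simpa using this
  have hXY : ∀ x ∈ X, ∀ i, x ≠ y i := fun x hx i h =>
    Finset.disjoint_left.1 hXYd hx (h ▸ hyY i)
  have hστ : Function.Injective (Sum.elim σ τ) := by
    rintro ((i | i) | (i | i)) ((j | j) | (j | j)) h <;> simp only [σ, τ, Sum.elim_inl, Sum.elim_inr] at h
    · rw [hri h]
    · exact absurd h (hrs i j)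
    · exact absurd h (hXY _ (hr i) j)
    · exact absurd h (hrt i j)
    · exact absurd h.symm (hrs j i)
    · rw [hsi h]
    · exact absurd h (hXY _ (hs i) j)
    · exact absurd h (hst i j)
    · exact absurd h.symm (hXY _ (hr j) i)
    · exact absurd h.symm (hXY _ (hs j) i)
    · rw [hyi h]
    · exact absurd h.symm (hXY _ (ht j) i)
    · exact absurd h.symm (hrt j i)
    · exact absurd h.symm (hst j i)
    · exact absurd h (hXY _ (ht i) j)
    · rw [hti h]
  have hubP : LinkedS G J (verts P ∩ (J \ Z1)) := by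
    apply hub _ Finset.inter_subset_right
    rw [hP.verts_inter_card, hPc]
    exact hXN
  obtain ⟨T, hT, hTd⟩ := glue_hub hP (J := J) (by
      intro x hxJ hxW
      rw [Finset.mem_sdiff, Finset.mem_union, not_or] at hxW
      exact Finset.mem_sdiff.2 ⟨hxJ, hxW.2.1⟩) hubP σ τ hστ
    (by
      rintro (i | i)
      · rw [hstart]; exact Finset.mem_union_left _ (hr i)
      · rw [hstart]; exact Finset.mem_union_left _ (hs i))
    (by
      rintro (i | i)
      · rw [hstart]; exact Finset.mem_union_right _ (hyY i)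
      · rw [hstart]; exact Finset.mem_union_left _ (ht i))
  have hPH : verts P ⊆ H := by
    intro x hx
    obtain ⟨l, hl, hxl⟩ := mem_verts.1 hx
    exact (Finset.mem_sdiff.1 ((hP.path l hl).sub x hxl)).1
  have hPZ' : ∀ x ∈ verts P, x ∉ Z' := by
    intro x hx
    obtain ⟨l, hl, hxl⟩ := mem_verts.1 hx
    have := (Finset.mem_sdiff.1 ((hP.path l hl).sub x hxl)).2
    rw [Finset.mem_union, not_or] at this
    exact this.2
  have hTH : ∀ k, T k ⊆ H := fun k =>
    (hT k).2.2.2.1.trans (Finset.union_subset hPH hJH)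
  -- T k meets J' only in its own ends
  have hTJ' : ∀ k, ∀ x ∈ T k, x ∈ J' → x = σ k ∨ x = τ k := by
    intro k x hx hxJ
    have hxnJ : x ∉ J := fun h => Finset.disjoint_left.1 k3 hxJ h
    have hxP : x ∈ verts P := by
      have := (hT k).2.2.2.1 hx
      exact (Finset.mem_union.1 this).resolve_right hxnJ
    have hxA : x ∈ X ∪ (J' \ Z') :=
      Finset.mem_union_right _ (Finset.mem_sdiff.2 ⟨hxJ, hPZ' x hxP⟩)
    exact ((hT k).2.2.2.2 x hx hxA).resolve_left hxnJ
  have hTX : ∀ k, ∀ x ∈ T k, x ∈ X → x = σ k ∨ x = τ k := by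
    intro k x hx hxX
    have hxnJ : x ∉ J := fun h => Finset.disjoint_left.1 hJX h hxX
    exact ((hT k).2.2.2.2 x hx (Finset.mem_union_left _ hxX)).resolve_left hxnJ
  have hXnJ' : ∀ x ∈ X, x ∉ J' := fun x hx h => Finset.disjoint_left.1 hXJ' hx h
  have hTBm : ∀ k i x, x ∈ T k → x ∈ Bm (y i) → k = Sum.inl i := by
    intro k i x hx hxB
    have hxJ' : x ∈ J' := (hBm _ (hyY i)).2.1 hxB
    rcases k with k | k
    · rcases hTJ' _ x hx hxJ' with h | h
      · exact absurd (h ▸ hr k : x ∈ X) (fun h' => hXnJ' x h' hxJ')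
      · -- x = y k
        have hxk : x = y k := h
        by_contra hne
        have hki : y k ≠ y i := fun h => hne (by rw [hyi h])
        exact Finset.disjoint_left.1 (hBmd _ (hyY k) _ (hyY i) hki)
          (hxk ▸ (hBm _ (hyY k)).1) hxB
    · rcases hTJ' _ x hx hxJ' with h | h
      · exact absurd (h ▸ hs k : x ∈ X) (fun h' => hXnJ' x h' hxJ')
      · exact absurd (h ▸ ht k : x ∈ X) (fun h' => hXnJ' x h' hxJ')
  refine ⟨fun i => T (Sum.inl i) ∪ Bm (y i), fun j => T (Sum.inr j), ?_, ?_, ?_, ?_, ?_, ?_⟩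
  · intro i
    obtain ⟨a1, a2, a3, a4, a5⟩ := hT (Sum.inl i)
    obtain ⟨b1, b2, b3⟩ := hBm _ (hyY i)
    refine ⟨Finset.union_subset (hTH _) (b2.trans k1), Conn.union a1 b3 (x := y i) a3 b1,
      Finset.mem_union_left _ a2, ?_⟩
    intro x hx hxX
    rcases Finset.mem_union.1 hx with h | h
    · rcases hTX _ x h hxX with h' | h'
      · exact h'
      · exact absurd (h' : x = y i) (hXY x hxX i)
    · exact absurd (b2 h) (hXnJ' x hxX)
  · intro i j hij
    rw [Finset.disjoint_left]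
    intro x hx hx'
    have hne : (Sum.inl i : ι ⊕ κ) ≠ Sum.inl j := fun h => hij (Sum.inl_injective h)
    rcases Finset.mem_union.1 hx with h | h <;> rcases Finset.mem_union.1 hx' with h' | h'
    · exact Finset.disjoint_left.1 (hTd _ _ hne) h h'
    · exact hne (hTBm _ j x h h')
    · exact hne (hTBm _ i x h' h).symm
    · exact Finset.disjoint_left.1 (hBmd _ (hyY i) _ (hyY j) (fun h => hij (hyi h))) h h'
  · intro i j hij
    obtain ⟨u, hu, v, hv, huv⟩ := hBma _ (hyY i) _ (hyY j) (fun h => hij (hyi h))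
    exact ⟨u, Finset.mem_union_right _ hu, v, Finset.mem_union_right _ hv, huv⟩
  · intro j
    obtain ⟨a1, a2, a3, a4, a5⟩ := hT (Sum.inr j)
    exact ⟨hTH _, a1, a2, a3, fun x hx hxX => hTX _ x hx hxX⟩
  · intro i j hij
    exact hTd _ _ (fun h => hij (Sum.inr_injective h))
  · intro i j
    rw [Finset.disjoint_left]
    intro x hx hx'
    rcases Finset.mem_union.1 hx with h | h
    · exact Finset.disjoint_left.1 (hTd (Sum.inl i) (Sum.inr j) (by simp)) h hx'
    · have := hTBm _ i x hx' h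
      simp at this

end Crest.Agent.R042.Woven671
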