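import Mathlib
import Crest.Agent.R042.Woven_671
import Crest.Agent.R042.RC_335
import Crest.Agent.R042.LinkDefs_870
import Crest.Agent.R042.Mader_375
import Crest.Agent.R042.AsmDefs_220

/-! Row 42, S0058: THEOREM W / W' in the literal form `WovenStmt` (helper333). -/

set_option autoImplicit false
set_option linter.unusedSectionVars false

namespace Crest.Agent.R042.WovenStmt671

open Finset Crest.Agent.R042.Conn353 Crest.Agent.R042.Menger353 Crest.Agent.R042.Link870
  Crest.Agent.R042.Mader375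

/-- literal statement of THEOREM W / W' without colourings (helper333 #24908). -/
def WovenStmt : Prop := ∀ {V : Type} [DecidableEq V] (G : SimpleGraph V) (H Z : Finset V)
  (a c κ θ : ℕ), 1 ≤ a → Z ⊆ H →
  (∀ A B, Sep G H A B → (A ∩ B).card ≤ θ → A \ B ⊆ Z ∨ B \ A ⊆ Z) → a + c ≤ κ →
  2 * κ + 2 * a ≤ θ →
  (∀ X, X ⊆ H \ Z → X.card ≤ 2 * κ → ∃ J, J ⊆ (H \ Z) \ X ∧ 2 * κ ≤ J.card ∧
    (∀ Y, Y ⊆ J → Y.card ≤ 2 * κ → Linked G J Y) ∧
    ∀ U : Finset (List V), Linkage G H X J U → U.card = X.card →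
      (∀ Q, Linkage G H X J Q → Q.card = U.card → (verts U).card ≤ (verts Q).card) →
      ∃ J' Z', J' ⊆ ((H \ Z) \ J) \ verts U ∧ Z' ⊆ J' ∧ Z'.card ≤ 2 * a ∧
        (∀ A B, Sep G J' A B → (A ∩ B).card ≤ a → A \ B ⊆ Z' ∨ B \ A ⊆ Z') ∧
        2 * κ ≤ (J' \ Z').card ∧ Model G (J' \ Z') (2 * a)) →
  Asm220.Woven G H (H \ Z) a c

lemma linkedS_of_linked {V : Type*} [DecidableEq V] {G : SimpleGraph V} {J X : Finset V}
    (h : Linked G J X) : Woven671.LinkedS G J X := by
  intro n s t hinj hs ht
  have h1 : Function.Injective s := fun i j hij => by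
    have := hinj (a₁ := Sum.inl i) (a₂ := Sum.inl j) hij
    simpa using this
  have h2 : Function.Injective t := fun i j hij => by
    have := hinj (a₁ := Sum.inr i) (a₂ := Sum.inr j) hij
    simpa using this
  have h3 : ∀ i j, s i ≠ t j := fun i j hij => by
    have := hinj (a₁ := Sum.inl i) (a₂ := Sum.inr j) hij
    simp at this
  obtain ⟨P, hP⟩ := h n s t hs ht h1 h2 h3
  exact ⟨P, fun i => ⟨hP.conn i, hP.left i, hP.right i, hP.sub i, hP.meet i⟩, hP.disj⟩

lemma rcProp {V : Type*} [DecidableEq V] (G : SimpleGraph V) (W : Finset V) {a : ℕ}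
    (ha : 1 ≤ a) : Woven671.RCProp G W a := by
  intro Y A hY hYc hA hd hadj hsep
  have := RC335.rooted_clique G W Y hY A (fun i => (hA i).1) (fun i => (hA i).2.nonempty) hd
    (by rw [hYc]) (by rw [hYc]; exact ha) (fun i => Or.inl (hA i).2)
    (fun i j hij => Or.inr (hadj i j hij)) hsep
  exact this

theorem wovenStmt : WovenStmt := by
  intro V _ G H Z a c κ θ ha hZ hC2 hac hθ hrest
  intro r m s t Bl hri hsi hti hrs hrt hst hrY hsY htY hBl hrB hsB htB hcard
  classical
  -- the set X
  set X : Finset V := univ.image r ∪ univ.image s ∪ univ.image t ∪ Bl with hX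
  have hrX : ∀ i, r i ∈ X := fun i => by
    simp only [hX, Finset.mem_union, Finset.mem_image, Finset.mem_univ, true_and]
    exact Or.inl (Or.inl (Or.inl ⟨i, rfl⟩))
  have hsX : ∀ i, s i ∈ X := fun i => by
    simp only [hX, Finset.mem_union, Finset.mem_image, Finset.mem_univ, true_and]
    exact Or.inl (Or.inl (Or.inr ⟨i, rfl⟩))
  have htX : ∀ i, t i ∈ X := fun i => by
    simp only [hX, Finset.mem_union, Finset.mem_image, Finset.mem_univ, true_and]
    exact Or.inl (Or.inr ⟨i, rfl⟩)
  have hBX : Bl ⊆ X := Finset.subset_union_right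
  have hXH : X ⊆ H \ Z := by
    intro x hx
    simp only [hX, Finset.mem_union, Finset.mem_image, Finset.mem_univ, true_and] at hx
    rcases hx with ((⟨i, rfl⟩ | ⟨i, rfl⟩) | ⟨i, rfl⟩) | hx
    · exact hrY i
    · exact hsY i
    · exact htY i
    · exact hBl hx
  have hXc : X.card ≤ a + 2 * c := by
    have h1 : (univ.image r).card ≤ a := by
      refine Finset.card_image_le.trans (by simp)
    have h2 : (univ.image s).card ≤ m := by
      refine Finset.card_image_le.trans (by simp)
    have h3 : (univ.image t).card ≤ m := by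
      refine Finset.card_image_le.trans (by simp)
    have h4 := Finset.card_union_le (univ.image r ∪ univ.image s ∪ univ.image t) Bl
    have h5 := Finset.card_union_le (univ.image r ∪ univ.image s) (univ.image t)
    have h6 := Finset.card_union_le (univ.image r) (univ.image s)
    rw [← hX] at h4
    omega
  obtain ⟨J, hJ, hJc, hJl, hJr⟩ := hrest X hXH (by omega)
  have hJH : J ⊆ H := hJ.trans (Finset.sdiff_subset.trans Finset.sdiff_subset)
  have hJZ : Disjoint J Z := by
    rw [Finset.disjoint_left]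
    intro x hx hxZ
    have := Finset.mem_sdiff.1 (Finset.mem_sdiff.1 (hJ hx)).1
    exact this.2 hxZ
  have hJX : Disjoint J X := by
    rw [Finset.disjoint_left]
    intro x hx hxX
    exact (Finset.mem_sdiff.1 (hJ hx)).2 hxX
  have hinj : Function.Injective (Sum.elim r (Sum.elim s t)) := by
    rintro (i | i | i) (j | j | j) h <;> simp only [Sum.elim_inl, Sum.elim_inr] at h
    · rw [hri h]
    · exact absurd h (hrs i j)
    · exact absurd h (hrt i j)
    · exact absurd h.symm (hrs j i)
    · rw [hsi h]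
    · exact absurd h (hst i j)
    · exact absurd h.symm (hrt j i)
    · exact absurd h.symm (hst j i)
    · rw [hti h]
  have hXZ : Disjoint X Z := by
    rw [Finset.disjoint_left]
    intro x hx hxZ
    exact (Finset.mem_sdiff.1 (hXH hx)).2 hxZ
  have hw : Woven671.Woven G H X r s t := by
    refine Woven671.woven (Z := Z) (J := J) (Z1 := ∅) (θ := θ) (a := a) (N := 2 * κ) ha hC2
      (hXH.trans Finset.sdiff_subset) hXZ (by omega) hJH hJZ hJX (Finset.empty_subset _)
      (by simpa using hJc) (by simp only [Finset.card_empty]; omega) ?_ ?_ (by simp) r s t hinj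
      hrX hsX htX
    · intro X' hX' hXc'
      exact linkedS_of_linked (hJl X' (hX'.trans Finset.sdiff_subset) hXc')
    · intro U hU hUX hUmin
      simp only [Finset.sdiff_empty] at hU hUmin
      obtain ⟨J', Z', k1, k2, k3, k4, k5, A, k6, k7, k8⟩ := hJr U hU hUX hUmin
      refine ⟨J', Z', ?_, ?_, ?_, ?_, k2, k3, k5, fun A B h1 h2 => k4 A B h1 (le_of_lt h2),
        rcProp G J' ha, A, fun i => ⟨(k6 i).1, (k6 i).2.2⟩, k7, k8⟩
      · exact k1.trans (Finset.sdiff_subset.trans (Finset.sdiff_subset.trans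
          Finset.sdiff_subset))
      · rw [Finset.disjoint_left]
        intro x hx hxZ
        have h1 := Finset.mem_sdiff.1 (k1 hx)
        have h2 := Finset.mem_sdiff.1 h1.1
        exact (Finset.mem_sdiff.1 h2.1).2 hxZ
      · rw [Finset.disjoint_left]
        intro x hx hxJ
        have h1 := Finset.mem_sdiff.1 (k1 hx)
        have h2 := Finset.mem_sdiff.1 h1.1
        exact h2.2 hxJ
      · rw [Finset.disjoint_left]
        intro x hx hxU
        exact (Finset.mem_sdiff.1 (k1 hx)).2 hxU
  obtain ⟨B, C, h1, h2, h3, h4, h5, h6⟩ := hw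
  refine ⟨B, C, fun i => ⟨(h1 i).1, (h1 i).2.1, (h1 i).2.2.1⟩,
    fun i => ⟨(h4 i).1, (h4 i).2.1, (h4 i).2.2.1, (h4 i).2.2.2.1⟩, h2, h5, h6, ?_, ?_, h3⟩
  · intro i
    rw [Finset.disjoint_left]
    intro x hx hxB
    have := (h1 i).2.2.2 x hx (hBX hxB)
    exact hrB i (this ▸ hxB)
  · intro i
    rw [Finset.disjoint_left]
    intro x hx hxB
    rcases (h4 i).2.2.2.2 x hx (hBX hxB) with h | h
    · exact hsB i (h ▸ hxB)
    · exact htB i (h ▸ hxB)

end Crest.Agent.R042.WovenStmt671
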