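import Mathlib
import Crest.Agent.R042.Conn_353
import Crest.Agent.R042.Menger_353
import Crest.Agent.R042.Crit_374
import Crest.Agent.R042.LinkDefs_870
import Crest.Agent.R042.Mader_375
import Crest.Agent.R042.AsmDefs_220
import Crest.Agent.R042.LemU_132
import Crest.Agent.R042.Palette_365
import Crest.Agent.R042.SmallBase_333
import Crest.Agent.R042.Small_333
import Crest.Agent.R042.WovenStmt_671

/-! Row 42 / S0058, leaf 8.5: THEOREM W for pieces of small order (palette splitting). -/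

set_option autoImplicit false
set_option linter.unusedSectionVars false

namespace Crest.Agent.R042.SmallW132

open Finset Crest.Agent.R042.Conn353 Crest.Agent.R042.Menger353 Crest.Agent.R042.Crit374
  Crest.Agent.R042.Link870 Crest.Agent.R042.Mader375

/-- quasi-subadditivity of hardness on sets of small order. -/
theorem choos_cover {V : Type*} [DecidableEq V] {G : SimpleGraph V} {m : ℕ} (hm : 1 ≤ m)
    {S : Finset V} (A : Fin m → Finset V) (hS : ∀ v ∈ S, ∃ i, v ∈ A i) {q1 : ℕ}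
    (hA : ∀ i, Choos G (A i) q1)
    (hsize : ((m * S.card : ℕ) : ℝ) < Real.exp ((q1 : ℝ) / 4)) : Choos G S (2 * m * q1) := by
  classical
  intro L hL
  have hm0 : (0 : ℝ) < m := by exact_mod_cast hm
  have hexp : ((2 * m * q1 : ℕ) : ℝ) / (8 * m) = (q1 : ℝ) / 4 := by
    push_cast
    field_simp
    ring
  obtain ⟨χ, hχ⟩ := Pal365.palette S L m (2 * m * q1) hm hL (by rw [hexp]; exact hsize)
  have hbig : ∀ i ∈ S, ∀ a, q1 ≤ ((L i).filter fun c => χ c = a).card := by
    intro i hi a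
    have h := hχ i hi a
    exact Nat.le_of_mul_le_mul_left h (by omega)
  have hcol : ∀ a : Fin m, ∃ c : V → ℕ, (∀ v ∈ A a ∩ S, c v ∈ (L v).filter fun c => χ c = a) ∧
      ProperOn G (A a ∩ S) c := by
    intro a
    exact ((hA a).mono Finset.inter_subset_left) (fun v => (L v).filter fun c => χ c = a)
      (fun v hv => hbig v (Finset.mem_inter.1 hv).2 a)
  choose c hc1 hc2 using hcol
  have hidx : ∀ v, ∃ i : Fin m, v ∈ S → v ∈ A i := by
    intro v
    by_cases hv : v ∈ S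
    · obtain ⟨i, hi⟩ := hS v hv
      exact ⟨i, fun _ => hi⟩
    · exact ⟨⟨0, hm⟩, fun h => absurd h hv⟩
  choose idx hidx using hidx
  refine ⟨fun v => c (idx v) v, ?_, ?_⟩
  · intro v hv
    exact (Finset.mem_filter.1 (hc1 (idx v) v (Finset.mem_inter.2 ⟨hidx v hv, hv⟩))).1
  · intro u hu v hv huv
    have h1 := (Finset.mem_filter.1 (hc1 (idx u) u (Finset.mem_inter.2 ⟨hidx u hu, hu⟩))).2
    have h2 := (Finset.mem_filter.1 (hc1 (idx v) v (Finset.mem_inter.2 ⟨hidx v hv, hv⟩))).2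
    show c (idx u) u ≠ c (idx v) v
    by_cases hi : idx u = idx v
    · rw [← hi]
      exact hc2 (idx u) u (Finset.mem_inter.2 ⟨hidx u hu, hu⟩) v
        (Finset.mem_inter.2 ⟨by rw [hi]; exact hidx v hv, hv⟩) huv
    · intro heq
      apply hi
      rw [← h1, ← h2, heq]

/-- the vertices of a minimal linkage of at most `n` paths are `2n`-choosable. -/
theorem choos_verts {V : Type*} [DecidableEq V] {G : SimpleGraph V} {W A B : Finset V}
    {P : Finset (List V)} (hP : Linkage G W A B P)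
    (hmin : ∀ Q, Linkage G W A B Q → Q.card = P.card → (verts P).card ≤ (verts Q).card) :
    Choos G (verts P) (2 * P.card) := by
  intro L hL
  obtain ⟨c, h1, h2⟩ := LemU132.list_colour hP hmin L hL
  exact ⟨c, h1, h2⟩

/-- the `rest` hypothesis of THEOREM W for pieces of small order. -/
theorem small_rest {V : Type} [DecidableEq V] (G : SimpleGraph V) (H Z : Finset V)
    (a κ k' q1 kH D0 : ℕ) (ha : a ≤ κ) (hcrit : Crit G H Z kH (4 * κ))
    (hub : ∀ W, W ⊆ H → W.Nonempty → (∀ v ∈ W, D0 * κ ≤ (Link870.nb G W v).card) →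
      ∃ J, J ⊆ W ∧ 2 * κ ≤ J.card ∧ ∀ Y, Y ⊆ J → Y.card ≤ 2 * κ → Linked G J Y)
    (IH : ∀ W, W ⊆ H → ¬ Choos G W (k' - 2 * a) → Model G W (2 * a))
    (hk' : 4 * κ + 2 * a ≤ k') (hq : 8 * κ + 6 * q1 ≤ kH) (hq1 : D0 * κ + 4 * κ + 1 ≤ q1)
    (hq1' : k' ≤ q1) (hsize : (3 * H.card : ℝ) < Real.exp ((q1 : ℝ) / 4))
    (X : Finset V) (hXc : X.card ≤ 2 * κ) :
    ∃ J, J ⊆ (H \ Z) \ X ∧ 2 * κ ≤ J.card ∧
      (∀ Y, Y ⊆ J → Y.card ≤ 2 * κ → Linked G J Y) ∧
      ∀ U : Finset (List V), Linkage G H X J U → U.card = X.card →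
        (∀ Q, Linkage G H X J Q → Q.card = U.card → (verts U).card ≤ (verts Q).card) →
        ∃ J' Z', J' ⊆ ((H \ Z) \ J) \ verts U ∧ Crit G J' Z' k' a ∧
          2 * κ ≤ (J' \ Z').card ∧ Model G (J' \ Z') (2 * a) := by
  classical
  have hhard : ¬ Choos G (H \ Z) (6 * q1) := by
    have h := hcrit.hard
    exact fun hc => h (hc.mono_card (by omega))
  have h1 : ¬ Choos G ((H \ Z) \ X) (D0 * κ) := by
    have h2 := Small333.not_choos_sdiff hhard hXc (by omega)
    exact fun hc => h2 (hc.mono_card (by omega))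
  obtain ⟨Jt, hJt, hJt1, hJt2⟩ := Small333.exists_min_hard _ _ rfl h1
  have hJtH : Jt ⊆ H := hJt.trans (Finset.sdiff_subset.trans Finset.sdiff_subset)
  obtain ⟨J, hJ, hJc, hJl⟩ := hub Jt hJtH (nonempty_of_not_choos hJt1) (by
    intro v hv
    have := Small333.min_hard_deg hJt1 hJt2 hv
    unfold Link870.nb
    convert this)
  refine ⟨J, hJ.trans hJt, hJc, hJl, ?_⟩
  intro U hU hUX hmin
  obtain ⟨R, hR⟩ : ∃ R : Finset V, R = ((H \ Z) \ Jt) \ verts U := ⟨_, rfl⟩
  have hRhard : ¬ Choos G R q1 := by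
    intro hc
    apply hhard
    have h3 := choos_cover (G := G) (m := 3) (by norm_num) (S := H \ Z) ![Jt, verts U, R]
      (by
        intro v hv
        by_cases hvJ : v ∈ Jt
        · exact ⟨0, by simpa using hvJ⟩
        · by_cases hvU : v ∈ verts U
          · exact ⟨1, by simpa using hvU⟩
          · refine ⟨2, ?_⟩
            show v ∈ R
            rw [hR, Finset.mem_sdiff, Finset.mem_sdiff]
            exact ⟨⟨hv, hvJ⟩, hvU⟩) (q1 := q1)
      (by
        intro i
        fin_cases i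
        · exact (Small333.min_hard_choos_succ hJt2).mono_card (by omega)
        · exact (choos_verts hU hmin).mono_card (by rw [hUX]; omega)
        · exact hc)
      (by
        refine lt_of_le_of_lt ?_ hsize
        have : (H \ Z).card ≤ H.card := Finset.card_le_card Finset.sdiff_subset
        have h4 : ((H \ Z).card : ℝ) ≤ (H.card : ℝ) := by exact_mod_cast this
        push_cast
        linarith)
    exact h3
  have hRhard' : ¬ Choos G R k' := fun hc => hRhard (hc.mono_card hq1')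
  obtain ⟨J', Z', hJ'R, hcr⟩ := exists_crit hRhard' a
  have hRH : R ⊆ H := by
    rw [hR]
    exact Finset.sdiff_subset.trans (Finset.sdiff_subset.trans Finset.sdiff_subset)
  refine ⟨J', Z', ?_, hcr, ?_, ?_⟩
  · refine hJ'R.trans ?_
    rw [hR]
    intro v hv
    rw [Finset.mem_sdiff, Finset.mem_sdiff] at hv ⊢
    exact ⟨⟨hv.1.1, fun h => hv.1.2 (hJ h)⟩, hv.2⟩
  · have := hcr.card_lt (by omega)
    omega
  · exact IH _ (Finset.sdiff_subset.trans (hJ'R.trans hRH)) hcr.hard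

/-- THEOREM W for pieces of small order (leaf 8.5, literal form of helper333 #25123). -/
theorem small_woven {V : Type} [DecidableEq V] (G : SimpleGraph V)
    (H Z : Finset V) (a c κ k' q1 kH D0 : ℕ) (ha : 1 ≤ a) (hκ : a + c ≤ κ)
    (hcrit : Crit G H Z kH (4 * κ))
    (hub : ∀ W, W ⊆ H → W.Nonempty → (∀ v ∈ W, D0 * κ ≤ (Link870.nb G W v).card) →
      ∃ J, J ⊆ W ∧ 2 * κ ≤ J.card ∧ ∀ Y, Y ⊆ J → Y.card ≤ 2 * κ → Linked G J Y)
    (IH : ∀ W, W ⊆ H → ¬ Choos G W (k' - 2 * a) → Model G W (2 * a))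
    (hk' : 4 * κ + 2 * a ≤ k') (hq : 8 * κ + 6 * q1 ≤ kH) (hq1 : D0 * κ + 4 * κ + 1 ≤ q1)
    (hq1' : k' ≤ q1) (hsize : (3 * H.card : ℝ) < Real.exp ((q1 : ℝ) / 4)) :
    Asm220.Woven G H (H \ Z) a c := by
  refine WovenStmt671.wovenStmt G H Z a c κ (4 * κ) ha hcrit.sub (fun A B h1 h2 => hcrit.sep h1 h2) hκ (by omega) ?_
  intro X _ hXc
  obtain ⟨J, h1, h2, h3, h4⟩ := small_rest G H Z a κ k' q1 kH D0 (by omega) hcrit hub IH hk' hq
    hq1 hq1' hsize X hXc
  refine ⟨J, h1, h2, h3, ?_⟩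
  intro U hU hUX hmin
  obtain ⟨J', Z', h5, h6, h7, h8⟩ := h4 U hU hUX hmin
  exact ⟨J', Z', h5, h6.sub, h6.card_le, fun A B h9 h10 => h6.sep h9 h10, h7, h8⟩

/-- leaf 8.5 in the form consumed by `Small333.core`. -/
theorem smallWovenStmt (D0 : ℕ) : Small333.SmallWovenStmt D0 := by
  intro V _ G H Z a c κ k' q1 kH ha hκ hcrit hub IH hk' hq hq1 hq1' hsize
  exact small_woven G H Z a c κ k' q1 kH D0 ha hκ hcrit hub IH hk' (by omega) hq1 hq1' hsize

end Crest.Agent.R042.SmallW132
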