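import Mathlib
import Crest.Agent.R042.Conn_353
import Crest.Agent.R042.Menger_353

/-! Row 42, sec 05 of S0058: contraction of an edge inside a fixed vertex type.
`contr G u v` puts `v` into `u`; the new ground set is `W.erase v`. -/

set_option autoImplicit false
set_option linter.unusedSectionVars false
set_option linter.unusedVariables false

namespace Crest.Agent.R042.Contr831

open Finset Conn353 Menger353

variable {V : Type*} [DecidableEq V] {G : SimpleGraph V} {u v : V}

/-- contraction of `v` into `u` on the same vertex type (`v` becomes isolated). -/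
def contr (G : SimpleGraph V) (u v : V) : SimpleGraph V where
  Adj x y := x ≠ y ∧ x ≠ v ∧ y ≠ v ∧ (G.Adj x y ∨ (x = u ∧ G.Adj v y) ∨ (y = u ∧ G.Adj v x))
  symm := ⟨by
    intro x y h
    obtain ⟨h1, h2, h3, h4⟩ := h
    refine ⟨h1.symm, h3, h2, ?_⟩
    rcases h4 with h | h | h
    · exact Or.inl h.symm
    · exact Or.inr (Or.inr h)
    · exact Or.inr (Or.inl h)⟩
  loopless := ⟨fun x h => h.1 rfl⟩

lemma contr_adj {x y : V} : (contr G u v).Adj x y ↔
    x ≠ y ∧ x ≠ v ∧ y ≠ v ∧ (G.Adj x y ∨ (x = u ∧ G.Adj v y) ∨ (y = u ∧ G.Adj v x)) := Iff.rfl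

lemma contr_adj_of_ne {x y : V} (hx : x ≠ u) (hx' : x ≠ v) (hy : y ≠ u) (hy' : y ≠ v) :
    (contr G u v).Adj x y ↔ G.Adj x y := by
  rw [contr_adj]
  constructor
  · rintro ⟨_, _, _, h | h | h⟩
    · exact h
    · exact absurd h.1 hx
    · exact absurd h.1 hy
  · intro h
    exact ⟨h.ne, hx', hy', Or.inl h⟩

lemma contr_adj_of_adj {x y : V} (h : G.Adj x y) (hx : x ≠ v) (hy : y ≠ v) :
    (contr G u v).Adj x y := ⟨h.ne, hx, hy, Or.inl h⟩

/-- lift of a vertex set. -/
def lift (u v : V) (S : Finset V) : Finset V := if u ∈ S then insert v S else S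

lemma mem_lift {S : Finset V} {x : V} : x ∈ lift u v S ↔ x ∈ S ∨ (x = v ∧ u ∈ S) := by
  unfold lift
  split_ifs with h
  · simp only [Finset.mem_insert]
    constructor
    · rintro (h1 | h1)
      · exact Or.inr ⟨h1, h⟩
      · exact Or.inl h1
    · rintro (h1 | h1)
      · exact Or.inr h1
      · exact Or.inl h1.1
  · constructor
    · intro h1; exact Or.inl h1
    · rintro (h1 | h1)
      · exact h1
      · exact absurd h1.2 h

lemma subset_lift {S : Finset V} : S ⊆ lift u v S := by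
  intro x hx; exact mem_lift.2 (Or.inl hx)

/-- reachability in the contraction lifts. -/
lemma reach_lift (huv : G.Adj u v) {S : Finset V} {x y : V}
    (h : Reach (contr G u v) S x y) (hx : x ∈ S) : Reach G (lift u v S) x y := by
  induction h with
  | refl => exact Reach.refl _
  | tail h1 h2 ih =>
    rename_i b c
    obtain ⟨⟨_, hb, hc, h3⟩, hcS⟩ := h2
    have hbS : b ∈ S := Reach.mem h1 hx
    rcases h3 with h3 | h3 | h3
    · exact ih.step h3 (subset_lift hcS)
    · obtain ⟨rfl, h4⟩ := h3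
      exact (ih.step huv (mem_lift.2 (Or.inr ⟨rfl, hbS⟩))).step h4 (subset_lift hcS)
    · obtain ⟨rfl, h4⟩ := h3
      exact (ih.step h4.symm (mem_lift.2 (Or.inr ⟨rfl, hcS⟩))).step huv.symm (subset_lift hcS)

/-- connected sets lift. -/
lemma conn_lift (huv : G.Adj u v) {S : Finset V} (h : Conn (contr G u v) S) :
    Conn G (lift u v S) := by
  obtain ⟨⟨x, hx⟩, h1⟩ := conn_iff.1 h
  refine conn_of_reach (subset_lift hx) ?_
  intro y hy
  rcases mem_lift.1 hy with hy | ⟨rfl, hu⟩
  · exact reach_lift huv (h1 x hx y hy) hx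
  · exact (reach_lift huv (h1 x hx u hu) hx).step huv hy

/-- a pairing is linked by disjoint connected sets inside `W`, avoiding the other vertices of
`X`. -/
def LinkC (G : SimpleGraph V) (W X : Finset V) {n : ℕ} (s t : Fin n → V) : Prop :=
  ∃ C : Fin n → Finset V, (∀ i, C i ⊆ W ∧ s i ∈ C i ∧ t i ∈ C i ∧ Conn G (C i) ∧
    ∀ x ∈ C i, x ∈ X → x = s i ∨ x = t i) ∧ ∀ i j, i ≠ j → Disjoint (C i) (C j)

/-- the same with lists. -/
def LinkL (G : SimpleGraph V) (W X : Finset V) {n : ℕ} (s t : Fin n → V) : Prop :=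
  ∃ P : Fin n → List V, (∀ i, (P i).IsChain G.Adj ∧ (P i).Nodup ∧ (∀ x ∈ P i, x ∈ W) ∧
    (P i).head? = some (s i) ∧ (P i).getLast? = some (t i) ∧
    ∀ x ∈ P i, x ∈ X → x = s i ∨ x = t i) ∧ ∀ i j, i ≠ j → ∀ x ∈ P i, x ∉ P j

/-- a path inside a connected set. -/
lemma exists_list_of_conn {C : Finset V} (hC : Conn G C) {a b : V} (ha : a ∈ C) (hb : b ∈ C) :
    ∃ l : List V, l.IsChain G.Adj ∧ l.Nodup ∧ (∀ x ∈ l, x ∈ C) ∧ l.head? = some a ∧
      l.getLast? = some b := by
  obtain ⟨l, h1, h2, s, h3⟩ := (hC.reach ha hb).exists_chain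
  obtain ⟨l', h4, h5⟩ := exists_path_of_chain (W := C) (A := {a}) (B := {b}) (G := G)
    (a :: l).length (a :: l) le_rfl
    (by intro x hx
        rcases List.mem_cons.1 hx with rfl | hx
        · exact ha
        · exact h2 x hx) h1 ⟨a, l, rfl, by simp⟩ ⟨s, b, h3, by simp⟩
  obtain ⟨a', t', h6, h7, _⟩ := h4.start
  obtain ⟨s', b', h8, h9, _⟩ := h4.stop
  rw [Finset.mem_singleton] at h7 h9
  subst h7 h9
  refine ⟨l', h4.chain, h4.nodup, h4.sub, ?_, ?_⟩
  · rw [h6]; rfl
  · rw [h8]; simp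

lemma linkC_iff_linkL {W X : Finset V} {n : ℕ} {s t : Fin n → V} :
    LinkC G W X s t ↔ LinkL G W X s t := by
  constructor
  · rintro ⟨C, h1, h2⟩
    choose P hP using fun i => exists_list_of_conn (h1 i).2.2.2.1 (h1 i).2.1 (h1 i).2.2.1
    refine ⟨P, fun i => ⟨(hP i).1, (hP i).2.1, fun x hx => (h1 i).1 ((hP i).2.2.1 x hx),
      (hP i).2.2.2.1, (hP i).2.2.2.2, fun x hx hX =>
        (h1 i).2.2.2.2 x ((hP i).2.2.1 x hx) hX⟩, ?_⟩
    intro i j hij x hx hx'
    exact Finset.disjoint_left.1 (h2 i j hij) ((hP i).2.2.1 x hx) ((hP j).2.2.1 x hx')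
  · rintro ⟨P, h1, h2⟩
    refine ⟨fun i => (P i).toFinset, fun i => ?_, ?_⟩
    · obtain ⟨h3, h4, h5, h6, h7, h8⟩ := h1 i
      have hne : P i ≠ [] := by
        intro h; rw [h] at h6; simp at h6
      refine ⟨fun x hx => h5 x (List.mem_toFinset.1 hx),
        List.mem_toFinset.2 (List.mem_of_mem_head? (by rw [h6]; rfl)),
        List.mem_toFinset.2 (List.mem_of_mem_getLast? (by rw [h7]; rfl)),
        chain_conn _ hne h3, fun x hx => h8 x (List.mem_toFinset.1 hx)⟩
    · intro i j hij
      rw [Finset.disjoint_left]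
      intro x hx hx'
      exact h2 i j hij x (List.mem_toFinset.1 hx) (List.mem_toFinset.1 hx')

/-- linked pairings lift through a contraction. -/
theorem LinkC.of_contr {W X : Finset V} {n : ℕ} {s t : Fin n → V} (huv : G.Adj u v)
    (hvW : v ∈ W) (hvX : v ∉ X) (h : LinkC (contr G u v) (W.erase v) X s t) :
    LinkC G W X s t := by
  obtain ⟨C, h1, h2⟩ := h
  have hvC : ∀ i, v ∉ C i := fun i hi => by
    have := (h1 i).1 hi
    simp at this
  refine ⟨fun i => lift u v (C i), fun i => ?_, ?_⟩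
  · obtain ⟨h3, h4, h5, h6, h7⟩ := h1 i
    refine ⟨?_, subset_lift h4, subset_lift h5, conn_lift huv h6, ?_⟩
    · intro x hx
      rcases mem_lift.1 hx with hx | ⟨rfl, _⟩
      · exact Finset.mem_of_mem_erase (h3 hx)
      · exact hvW
    · intro x hx hX
      rcases mem_lift.1 hx with hx | ⟨rfl, _⟩
      · exact h7 x hx hX
      · exact absurd hX hvX
  · intro i j hij
    rw [Finset.disjoint_left]
    intro x hx hx'
    have hd := Finset.disjoint_left.1 (h2 i j hij)
    change x ∈ lift u v (C i) at hx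
    change x ∈ lift u v (C j) at hx'
    rcases mem_lift.1 hx with k1 | ⟨k0, k1⟩
    · rcases mem_lift.1 hx' with k2 | ⟨k3, k2⟩
      · exact hd k1 k2
      · exact hvC i (k3 ▸ k1)
    · rcases mem_lift.1 hx' with k2 | ⟨_, k2⟩
      · exact hvC j (k0 ▸ k2)
      · exact hd k1 k2

/-- outside `u` the contraction is the graph itself. -/
theorem LinkC.of_contr' {W X : Finset V} {n : ℕ} {s t : Fin n → V}
    (hu : u ∉ W) (h : LinkC (contr G u v) W X s t) : LinkC G W X s t := by
  obtain ⟨C, h1, h2⟩ := h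
  refine ⟨C, fun i => ?_, h2⟩
  obtain ⟨h3, h4, h5, h6, h7⟩ := h1 i
  refine ⟨h3, h4, h5, ?_, h7⟩
  rw [conn_iff] at h6 ⊢
  refine ⟨h6.1, fun a ha b hb => ?_⟩
  have h8 := h6.2 a ha b hb
  have key : ∀ {x y : V}, Reach (contr G u v) (C i) x y → x ∈ C i → Reach G (C i) x y := by
    intro x y h hx
    induction h with
    | refl => exact Reach.refl _
    | tail h9 h10 ih =>
      rename_i b c
      obtain ⟨⟨_, hb, hc, h11⟩, hcS⟩ := h10
      have hbS : b ∈ C i := Reach.mem h9 hx
      rcases h11 with h11 | h11 | h11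
      · exact ih.step h11 hcS
      · exact absurd (h3 hbS) (h11.1 ▸ hu)
      · exact absurd (h3 hcS) (h11.1 ▸ hu)
  exact key h8 ha

/-! ### separations -/

lemma sep_lift {W A B : Finset V} (hu : u ∈ W) (hv : v ∈ W) (huv : u ≠ v)
    (h : Sep (contr G u v) (W.erase v) A B) : Sep G W (lift u v A) (lift u v B) := by
  have hvA : v ∉ A := fun hx => by
    have := h.left_sub hx; simp at this
  have hvB : v ∉ B := fun hx => by
    have := h.right_sub hx; simp at this
  refine ⟨?_, ?_⟩
  · ext x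
    rw [Finset.mem_union, mem_lift, mem_lift]
    constructor
    · rintro ((hx | ⟨rfl, _⟩) | (hx | ⟨rfl, _⟩))
      · exact Finset.mem_of_mem_erase (h.left_sub hx)
      · exact hv
      · exact Finset.mem_of_mem_erase (h.right_sub hx)
      · exact hv
    · intro hx
      by_cases hxv : x = v
      · subst hxv
        have hu' : u ∈ A ∪ B := by rw [h.union]; exact Finset.mem_erase.2 ⟨huv, hu⟩
        rcases Finset.mem_union.1 hu' with hu' | hu'
        · exact Or.inl (Or.inr ⟨rfl, hu'⟩)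
        · exact Or.inr (Or.inr ⟨rfl, hu'⟩)
      · have hx' : x ∈ A ∪ B := by rw [h.union]; exact Finset.mem_erase.2 ⟨hxv, hx⟩
        rcases Finset.mem_union.1 hx' with hx' | hx'
        · exact Or.inl (Or.inl hx')
        · exact Or.inr (Or.inl hx')
  · intro a ha haB b hb hbA hab
    rw [mem_lift] at ha hb haB hbA
    push Not at haB hbA
    rcases ha with ha | ⟨rfl, ha⟩
    · rcases hb with hb | ⟨rfl, hb⟩
      · refine h.nadj a ha haB.1 b hb hbA.1 (contr_adj_of_adj hab ?_ ?_)
        · rintro rfl; exact hvA ha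
        · rintro rfl; exact hvB hb
      · -- `b = v`, `u ∈ B`, `u ∉ A`
        have huA : u ∉ A := hbA.2 rfl
        refine h.nadj a ha haB.1 u hb huA ?_
        refine ⟨?_, ?_, huv, Or.inr (Or.inr ⟨rfl, hab.symm⟩)⟩
        · rintro rfl; exact huA ha
        · rintro rfl; exact hvA ha
    · have huB : u ∉ B := haB.2 rfl
      rcases hb with hb | ⟨rfl, hb⟩
      · refine h.nadj u ha huB b hb hbA.1 ?_
        refine ⟨?_, huv, ?_, Or.inr (Or.inl ⟨rfl, hab⟩)⟩
        · rintro rfl; exact huB hb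
        · rintro rfl; exact hvB hb
      · exact huB hb

lemma lift_inter {A B : Finset V} (hvA : v ∉ A) (hvB : v ∉ B) :
    lift u v A ∩ lift u v B = lift u v (A ∩ B) := by
  ext x
  simp only [Finset.mem_inter, mem_lift]
  constructor
  · rintro ⟨h1 | h1, h2 | h2⟩
    · exact Or.inl ⟨h1, h2⟩
    · rw [h2.1] at h1; exact absurd h1 hvA
    · rw [h1.1] at h2; exact absurd h2 hvB
    · exact Or.inr ⟨h1.1, h1.2, h2.2⟩
  · rintro (h1 | h1)
    · exact ⟨Or.inl h1.1, Or.inl h1.2⟩
    · exact ⟨Or.inr ⟨h1.1, h1.2.1⟩, Or.inr ⟨h1.1, h1.2.2⟩⟩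

lemma card_lift {S : Finset V} (hv : v ∉ S) :
    (lift u v S).card = S.card + if u ∈ S then 1 else 0 := by
  unfold lift
  split_ifs with h
  · rw [Finset.card_insert_of_notMem hv]
  · rfl

lemma card_lift_le {S : Finset V} (hv : v ∉ S) : (lift u v S).card ≤ S.card + 1 := by
  rw [card_lift hv]
  split_ifs <;> omega

lemma lift_of_notMem {S : Finset V} (hu : u ∉ S) : lift u v S = S := by
  unfold lift; rw [if_neg hu]

lemma lift_of_mem {S : Finset V} (hu : u ∈ S) : lift u v S = insert v S := by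
  unfold lift; rw [if_pos hu]

lemma lift_sdiff {A B : Finset V} (hvA : v ∉ A) (hvB : v ∉ B) :
    lift u v B \ lift u v A = if u ∈ B ∧ u ∉ A then insert v (B \ A) else B \ A := by
  ext x
  split_ifs with h
  · rw [lift_of_mem h.1, lift_of_notMem h.2]
    simp only [Finset.mem_sdiff, Finset.mem_insert]
    constructor
    · rintro ⟨h1 | h1, h2⟩
      · exact Or.inl h1
      · exact Or.inr ⟨h1, h2⟩
    · rintro (h1 | h1)
      · exact ⟨Or.inl h1, h1 ▸ hvA⟩
      · exact ⟨Or.inr h1.1, h1.2⟩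
  · simp only [Finset.mem_sdiff, mem_lift]
    constructor
    · rintro ⟨h1 | ⟨h1, h3⟩, h2⟩
      · exact ⟨h1, fun h4 => h2 (Or.inl h4)⟩
      · exfalso
        apply h
        exact ⟨h3, fun h4 => h2 (Or.inr ⟨h1, h4⟩)⟩
    · rintro ⟨h1, h2⟩
      refine ⟨Or.inl h1, ?_⟩
      rintro (h3 | h3)
      · exact h2 h3
      · rw [h3.1] at h1; exact hvB h1

lemma lift_sdiff' {A B : Finset V} (hvA : v ∉ A) (hvB : v ∉ B) :
    lift u v B \ lift u v A = lift u v (B \ A) := by
  rw [lift_sdiff hvA hvB]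
  unfold lift
  simp only [Finset.mem_sdiff]

/-! ### counting edges -/

open Classical in
/-- ordered pairs of adjacent vertices of `W` with at least one end in `S`
(= twice the number of edges with an end in `S`). -/
noncomputable def rho (G : SimpleGraph V) (W S : Finset V) : ℕ :=
  ((W ×ˢ W).filter (fun p => G.Adj p.1 p.2 ∧ (p.1 ∈ S ∨ p.2 ∈ S))).card

/-- the contraction has at most as many edges at `S` as `G` at the lift of `S`. -/
theorem rho_contr_le {W S : Finset V} (hv : v ∈ W) (hvS : v ∉ S) :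
    rho (contr G u v) (W.erase v) S ≤ rho G W (lift u v S) := by
  classical
  unfold rho
  refine Finset.card_le_card_of_injOn
    (fun p => if G.Adj p.1 p.2 then p else if p.1 = u then (v, p.2) else (p.1, v)) ?_ ?_
  · rintro ⟨x, y⟩ hp
    simp only [Finset.coe_filter, Finset.mem_product, Set.mem_ofPred_eq, Finset.mem_erase] at hp
    obtain ⟨⟨⟨hxv, hx⟩, hyv, hy⟩, ⟨hxy, _, _, h1⟩, h2⟩ := hp
    simp only [Finset.coe_filter, Finset.mem_product, Set.mem_ofPred_eq]
    by_cases hG : G.Adj x y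
    · rw [if_pos hG]
      exact ⟨⟨hx, hy⟩, hG, h2.imp (fun h => subset_lift h) (fun h => subset_lift h)⟩
    · rw [if_neg hG]
      by_cases hxu : x = u
      · rw [if_pos hxu]
        refine ⟨⟨hv, hy⟩, ?_, ?_⟩
        · rcases h1 with h1 | h1 | h1
          · exact absurd h1 hG
          · exact h1.2
          · exact absurd (hxu.trans h1.1.symm) hxy
        · rcases h2 with h2 | h2
          · exact Or.inl (mem_lift.2 (Or.inr ⟨rfl, hxu ▸ h2⟩))
          · exact Or.inr (subset_lift h2)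
      · rw [if_neg hxu]
        rcases h1 with h1 | h1 | h1
        · exact absurd h1 hG
        · exact absurd h1.1 hxu
        · refine ⟨⟨hx, hv⟩, h1.2.symm, ?_⟩
          rcases h2 with h2 | h2
          · exact Or.inl (subset_lift h2)
          · exact Or.inr (mem_lift.2 (Or.inr ⟨rfl, h1.1 ▸ h2⟩))
  · rintro ⟨x, y⟩ hp ⟨x', y'⟩ hp' he
    simp only [Finset.coe_filter, Finset.mem_product, Set.mem_ofPred_eq, Finset.mem_erase] at hp hp'
    obtain ⟨⟨⟨hxv, hx⟩, hyv, hy⟩, ⟨hxy, _, _, h1⟩, h2⟩ := hp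
    obtain ⟨⟨⟨hxv', hx'⟩, hyv', hy'⟩, ⟨hxy', _, _, h1'⟩, h2'⟩ := hp'
    simp only at he
    by_cases hG : G.Adj x y
    · rw [if_pos hG] at he
      by_cases hG' : G.Adj x' y'
      · rwa [if_pos hG'] at he
      · rw [if_neg hG'] at he
        split_ifs at he with h3
        · exact absurd (congrArg Prod.fst he) hxv
        · exact absurd (congrArg Prod.snd he) hyv
    · rw [if_neg hG] at he
      by_cases hG' : G.Adj x' y'
      · rw [if_pos hG'] at he
        split_ifs at he with h3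
        · exact absurd (congrArg Prod.fst he).symm hxv'
        · exact absurd (congrArg Prod.snd he).symm hyv'
      · rw [if_neg hG'] at he
        split_ifs at he with h3 h4 h4
        · have := congrArg Prod.snd he
          simp only at this
          rw [h3, h4, this]
        · exact absurd (congrArg Prod.fst he).symm hxv'
        · exact absurd (congrArg Prod.fst he) hxv
        · have h5 : y = u := by
            rcases h1 with h1 | h1 | h1
            · exact absurd h1 hG
            · exact absurd h1.1 h3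
            · exact h1.1
          have h6 : y' = u := by
            rcases h1' with h1 | h1 | h1
            · exact absurd h1 hG'
            · exact absurd h1.1 h4
            · exact h1.1
          have := congrArg Prod.fst he
          simp only at this
          rw [h5, h6, this]

open Classical in
/-- the loss of edges in a contraction. -/
theorem rho_loss {W X : Finset V} (huv : G.Adj u v) (hu : u ∈ W) (hv : v ∈ W) (hvX : v ∉ X) :
    rho G W (W \ X) ≤ rho (contr G u v) (W.erase v) (W.erase v \ X) +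
      2 * (1 + (W.filter (fun y => G.Adj u y ∧ G.Adj v y)).card +
        (W.filter (fun y => y ≠ u ∧ G.Adj v y ∧ ¬ G.Adj u y ∧ u ∈ X ∧ y ∈ X)).card) := by
  unfold rho
  set M := W.filter (fun y => y ≠ u ∧ G.Adj v y ∧ ¬ G.Adj u y ∧ ¬ (u ∈ X ∧ y ∈ X)) with hM
  set E := W.filter (fun y => y ≠ u ∧ G.Adj v y ∧ ¬ G.Adj u y ∧ u ∈ X ∧ y ∈ X) with hE
  set C := W.filter (fun y => G.Adj u y ∧ G.Adj v y) with hC
  set N := W.filter (fun y => G.Adj v y) with hN
  set P := (W ×ˢ W).filter (fun p => G.Adj p.1 p.2 ∧ (p.1 ∈ W \ X ∨ p.2 ∈ W \ X)) with hP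
  set P' := (W.erase v ×ˢ W.erase v).filter (fun p => (contr G u v).Adj p.1 p.2 ∧
    (p.1 ∈ W.erase v \ X ∨ p.2 ∈ W.erase v \ X)) with hP'
  set Q := (W.erase v ×ˢ W.erase v).filter (fun p => G.Adj p.1 p.2 ∧
    (p.1 ∈ W.erase v \ X ∨ p.2 ∈ W.erase v \ X)) with hQ
  have h1 : P ⊆ Q ∪ (({v} : Finset V) ×ˢ N ∪ N ×ˢ ({v} : Finset V)) := by
    rintro ⟨x, y⟩ hp
    rw [hP, Finset.mem_filter, Finset.mem_product] at hp
    obtain ⟨⟨hx, hy⟩, h2, h3⟩ := hp
    simp only at hx hy h2 h3
    rw [Finset.mem_union, Finset.mem_union, Finset.mem_product, Finset.mem_product]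
    by_cases hxv : x = v
    · right; left
      refine ⟨Finset.mem_singleton.2 hxv, ?_⟩
      rw [hN, Finset.mem_filter]
      exact ⟨hy, hxv ▸ h2⟩
    · by_cases hyv : y = v
      · right; right
        refine ⟨?_, Finset.mem_singleton.2 hyv⟩
        rw [hN, Finset.mem_filter]
        exact ⟨hx, hyv ▸ h2.symm⟩
      · left
        rw [hQ, Finset.mem_filter, Finset.mem_product]
        refine ⟨⟨Finset.mem_erase.2 ⟨hxv, hx⟩, Finset.mem_erase.2 ⟨hyv, hy⟩⟩, h2, ?_⟩
        rcases h3 with h3 | h3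
        · left
          rw [Finset.mem_sdiff] at h3 ⊢
          exact ⟨Finset.mem_erase.2 ⟨hxv, h3.1⟩, h3.2⟩
        · right
          rw [Finset.mem_sdiff] at h3 ⊢
          exact ⟨Finset.mem_erase.2 ⟨hyv, h3.1⟩, h3.2⟩
  have h2 : P.card ≤ Q.card + 2 * N.card := by
    refine (Finset.card_le_card h1).trans ?_
    refine (Finset.card_union_le _ _).trans ?_
    refine Nat.add_le_add_left ?_ _
    refine (Finset.card_union_le _ _).trans ?_
    rw [Finset.card_product, Finset.card_product, Finset.card_singleton]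
    omega
  have h3 : N.card ≤ 1 + C.card + E.card + M.card := by
    have : N ⊆ (({u} : Finset V) ∪ C ∪ E ∪ M) := by
      intro y hy
      rw [hN, Finset.mem_filter] at hy
      simp only [Finset.mem_union, Finset.mem_singleton, hC, hE, hM, Finset.mem_filter]
      tauto
    refine (Finset.card_le_card this).trans ?_
    refine (Finset.card_union_le _ _).trans ?_
    refine Nat.add_le_add_right ?_ _
    refine (Finset.card_union_le _ _).trans ?_
    refine Nat.add_le_add_right ?_ _
    refine (Finset.card_union_le _ _).trans ?_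
    rw [Finset.card_singleton]
  have huv' : u ≠ v := huv.ne
  have h4 : Q ∪ (({u} : Finset V) ×ˢ M ∪ M ×ˢ ({u} : Finset V)) ⊆ P' := by
    rintro ⟨x, y⟩ hp
    rw [hP', Finset.mem_filter, Finset.mem_product]
    rw [Finset.mem_union, Finset.mem_union, Finset.mem_product, Finset.mem_product] at hp
    rcases hp with hp | ⟨hp, hp'⟩ | ⟨hp, hp'⟩
    · rw [hQ, Finset.mem_filter, Finset.mem_product] at hp
      obtain ⟨⟨hx, hy⟩, h5, h6⟩ := hp
      exact ⟨⟨hx, hy⟩, contr_adj_of_adj h5 (Finset.ne_of_mem_erase hx)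
        (Finset.ne_of_mem_erase hy), h6⟩
    · simp only [Finset.mem_singleton] at hp
      simp only [hM, Finset.mem_filter] at hp'
      subst hp
      obtain ⟨h6, h7, h8, h9, h10⟩ := hp'
      have hyv : y ≠ v := h8.ne.symm
      refine ⟨⟨Finset.mem_erase.2 ⟨huv', hu⟩, Finset.mem_erase.2 ⟨hyv, h6⟩⟩,
        ⟨h7.symm, huv', hyv, Or.inr (Or.inl ⟨rfl, h8⟩)⟩, ?_⟩
      simp only [Finset.mem_sdiff, Finset.mem_erase]
      tauto
    · simp only [Finset.mem_singleton] at hp'
      simp only [hM, Finset.mem_filter] at hp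
      subst hp'
      obtain ⟨h6, h7, h8, h9, h10⟩ := hp
      have hyv : x ≠ v := h8.ne.symm
      refine ⟨⟨Finset.mem_erase.2 ⟨hyv, h6⟩, Finset.mem_erase.2 ⟨huv', hu⟩⟩,
        ⟨h7, hyv, huv', Or.inr (Or.inr ⟨rfl, h8⟩)⟩, ?_⟩
      simp only [Finset.mem_sdiff, Finset.mem_erase]
      tauto
  have h5 : Q.card + 2 * M.card ≤ P'.card := by
    refine le_trans ?_ (Finset.card_le_card h4)
    rw [Finset.card_union_of_disjoint, Finset.card_union_of_disjoint, Finset.card_product,
      Finset.card_product, Finset.card_singleton]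
    · omega
    · rw [Finset.disjoint_left]
      rintro ⟨x, y⟩ h6 h7
      rw [Finset.mem_product] at h6 h7
      simp only [Finset.mem_singleton, hM, Finset.mem_filter] at h6 h7
      exact h6.2.2.1 h7.2
    · rw [Finset.disjoint_left]
      rintro ⟨x, y⟩ h6 h7
      rw [hQ, Finset.mem_filter] at h6
      rw [Finset.mem_union, Finset.mem_product, Finset.mem_product] at h7
      simp only [Finset.mem_singleton, hM, Finset.mem_filter] at h7
      rcases h7 with ⟨rfl, h7⟩ | ⟨h7, rfl⟩
      · exact h7.2.2.2.1 h6.2.1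
      · exact h7.2.2.2.1 h6.2.1.symm
  omega

open Classical in
theorem rho_loss_out {W X : Finset V} (huv : G.Adj u v) (hu : u ∈ W) (hv : v ∈ W)
    (hvX : v ∉ X) (huX : u ∉ X) :
    rho G W (W \ X) ≤ rho (contr G u v) (W.erase v) (W.erase v \ X) +
      2 * (1 + (W.filter (fun y => G.Adj u y ∧ G.Adj v y)).card) := by
  have h := rho_loss (W := W) (X := X) huv hu hv hvX
  have h1 : (W.filter (fun y => y ≠ u ∧ G.Adj v y ∧ ¬ G.Adj u y ∧ u ∈ X ∧ y ∈ X)) = ∅ := by
    rw [Finset.filter_eq_empty_iff]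
    intro y _ h2
    exact huX h2.2.2.2.1
  rw [h1, Finset.card_empty, Nat.add_zero] at h
  exact h

open Classical in
theorem rho_loss_in {W X : Finset V} (huv : G.Adj u v) (hu : u ∈ W) (hv : v ∈ W)
    (hvX : v ∉ X) (z : V) (hz : ∀ y ∈ X, y ≠ u → y ≠ z → G.Adj u y) :
    rho G W (W \ X) ≤ rho (contr G u v) (W.erase v) (W.erase v \ X) +
      2 * (2 + (W.filter (fun y => G.Adj u y ∧ G.Adj v y)).card) := by
  have h := rho_loss (W := W) (X := X) huv hu hv hvX
  have h1 : (W.filter (fun y => y ≠ u ∧ G.Adj v y ∧ ¬ G.Adj u y ∧ u ∈ X ∧ y ∈ X)).card ≤ 1 := by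
    refine (Finset.card_le_card (t := {z}) ?_).trans (by rw [Finset.card_singleton])
    intro y hy
    rw [Finset.mem_filter] at hy
    rw [Finset.mem_singleton]
    by_contra hne
    exact hy.2.2.2.1 (hz y hy.2.2.2.2.2 hy.2.1 hne)
  omega

end Crest.Agent.R042.Contr831
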