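import Mathlib
import Crest.Agent.R042.Contr_831
import Crest.Agent.R042.LinkDefs_870

/-! Row 42, sec 05: the contraction API (Contr_831) in the literal forms of `LinkDefs_870`. -/

set_option autoImplicit false
set_option linter.unusedSectionVars false
set_option linter.unusedVariables false

namespace Crest.Agent.R042.ContrJ831

open Finset Crest.Agent.R042.Conn353 Crest.Agent.R042.Menger353 Crest.Agent.R042.Link870
open Crest.Agent.R042.Contr831 (contr lift)

variable {V : Type*} [DecidableEq V] {G : SimpleGraph V} {u v : V} {W X : Finset V}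

/-- (c1) joined families lift through a contraction. -/
theorem joined_lift {ι : Type*} {s t : ι → V} {P : ι → Finset V} (huv : G.Adj u v) (hv : v ∈ W)
    (hvX : v ∉ X) (h : Joined (contr G u v) (W.erase v) X s t P) :
    Joined G W X s t (fun i => lift u v (P i)) := by
  have hvP : ∀ i, v ∉ P i := fun i hi => by
    have := h.sub i hi
    simp at this
  refine ⟨?_, fun i => Contr831.conn_lift huv (h.conn i), fun i => Contr831.subset_lift (h.left i),
    fun i => Contr831.subset_lift (h.right i), ?_, ?_⟩
  · intro i x hx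
    rcases Contr831.mem_lift.1 hx with hx | ⟨hx, _⟩
    · exact Finset.mem_of_mem_erase (h.sub i hx)
    · rw [hx]; exact hv
  · intro i x hx hX
    rcases Contr831.mem_lift.1 hx with hx | ⟨hx, _⟩
    · exact h.meet i x hx hX
    · rw [hx] at hX; exact absurd hX hvX
  · intro i j hij
    rw [Finset.disjoint_left]
    intro x hx hx'
    have hd := Finset.disjoint_left.1 (h.disj i j hij)
    rcases Contr831.mem_lift.1 hx with k1 | ⟨k0, k1⟩
    · rcases Contr831.mem_lift.1 hx' with k2 | ⟨k3, k2⟩
      · exact hd k1 k2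
      · exact hvP i (k3 ▸ k1)
    · rcases Contr831.mem_lift.1 hx' with k2 | ⟨_, k2⟩
      · exact hvP j (k0 ▸ k2)
      · exact hd k1 k2

/-- (c1') a linked set of the contraction is linked in the graph. -/
theorem linked_lift (huv : G.Adj u v) (hv : v ∈ W) (hvX : v ∉ X)
    (h : Linked (contr G u v) (W.erase v) X) : Linked G W X := by
  intro n s t hs ht h1 h2 h3
  obtain ⟨P, hP⟩ := h n s t hs ht h1 h2 h3
  exact ⟨_, joined_lift huv hv hvX hP⟩

lemma conn_contr_of_notMem {S : Finset V} (hu : u ∉ S) (h : Conn (contr G u v) S) : Conn G S := by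
  rw [conn_iff] at h ⊢
  refine ⟨h.1, fun a ha b hb => ?_⟩
  have key : ∀ {x y : V}, Reach (contr G u v) S x y → x ∈ S → Reach G S x y := by
    intro x y h hx
    induction h with
    | refl => exact Reach.refl _
    | tail h9 h10 ih =>
      rename_i b c
      obtain ⟨⟨_, hb, hc, h11⟩, hcS⟩ := h10
      have hbS : b ∈ S := Reach.mem h9 hx
      rcases h11 with h11 | h11 | h11
      · exact ih.step h11 hcS
      · exact absurd hbS (h11.1 ▸ hu)
      · exact absurd hcS (h11.1 ▸ hu)
  exact key (h.2 a ha b hb) ha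

/-- a joined family of the contraction inside a set missing `u`. -/
theorem joined_of_notMem {ι : Type*} {s t : ι → V} {P : ι → Finset V} (hu : u ∉ W)
    (h : Joined (contr G u v) W X s t P) : Joined G W X s t P :=
  ⟨h.sub, fun i => conn_contr_of_notMem (fun hi => hu (h.sub i hi)) (h.conn i), h.left, h.right,
    h.meet, h.disj⟩

theorem linked_of_notMem (hu : u ∉ W) (h : Linked (contr G u v) W X) : Linked G W X := by
  intro n s t hs ht h1 h2 h3
  obtain ⟨P, hP⟩ := h n s t hs ht h1 h2 h3
  exact ⟨_, joined_of_notMem hu hP⟩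

/-- linkedness of the lift of a side: if the new vertex is not in the separator. -/
theorem linked_side {A B : Finset V} (huv : G.Adj u v) (hvA : v ∉ A) (hvB : v ∉ B)
    (hu : ¬ (u ∈ A ∧ u ∈ B)) (h : Linked (contr G u v) B (A ∩ B)) :
    Linked G (lift u v B) (lift u v A ∩ lift u v B) := by
  have hu' : u ∉ A ∩ B := fun h => hu ⟨(Finset.mem_inter.1 h).1, (Finset.mem_inter.1 h).2⟩
  rw [Contr831.lift_inter hvA hvB, Contr831.lift_of_notMem hu']
  by_cases hB : u ∈ B
  · rw [Contr831.lift_of_mem hB]
    refine linked_lift huv (Finset.mem_insert_self _ _)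
      (fun hx => hvA (Finset.mem_inter.1 hx).1) ?_
    rwa [Finset.erase_insert hvB]
  · rw [Contr831.lift_of_notMem hB]
    exact linked_of_notMem hB h

/-- (c2) separations lift. -/
theorem sep_lift {A B : Finset V} (hu : u ∈ W) (hv : v ∈ W) (huv : u ≠ v)
    (h : Sep (contr G u v) (W.erase v) A B) : Sep G W (lift u v A) (lift u v B) :=
  Contr831.sep_lift hu hv huv h

lemma rho_eq (S : Finset V) : Contr831.rho G W S = Link870.rho G W S := rfl

/-- (c3) -/
theorem rho_contr_le {S : Finset V} (hv : v ∈ W) (hvS : v ∉ S) :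
    rho (contr G u v) (W.erase v) S ≤ rho G W (lift u v S) :=
  Contr831.rho_contr_le hv hvS

/-- (c3') -/
theorem rho_contr_le' {A B : Finset V} (hv : v ∈ W) (hvB : v ∉ B) (hu : u ∈ A) :
    rho (contr G u v) (W.erase v) (B \ A) ≤ rho G W (B \ A) := by
  have h := rho_contr_le (G := G) (u := u) (v := v) (W := W) (S := B \ A) hv
    (fun hx => hvB (Finset.mem_sdiff.1 hx).1)
  rwa [Contr831.lift_of_notMem (fun hx => (Finset.mem_sdiff.1 hx).2 hu)] at h

open Classical in
lemma nb_inter : (nb G W u ∩ nb G W v) = W.filter (fun y => G.Adj u y ∧ G.Adj v y) := by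
  ext x
  rw [Finset.mem_inter, mem_nb, mem_nb, Finset.mem_filter]
  tauto

/-- (c4) the loss of edges. -/
theorem rho_loss (huv : G.Adj u v) (hu : u ∈ W) (hv : v ∈ W) (hvX : v ∉ X) (y0 : V)
    (hnorm : u ∈ X → ∀ x ∈ X, x ≠ u → ¬ G.Adj u x → x = y0) :
    rho G W (W \ X) ≤ rho (contr G u v) (W.erase v) ((W.erase v) \ X) +
      2 * (nb G W u ∩ nb G W v).card + 2 + 2 * (if u ∈ X then 1 else 0) := by
  classical
  have hc : (nb G W u ∩ nb G W v).card =
      (W.filter (fun y => G.Adj u y ∧ G.Adj v y)).card := by
    congr 1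
    ext x
    rw [Finset.mem_inter, mem_nb, mem_nb, Finset.mem_filter]
    tauto
  by_cases huX : u ∈ X
  · have h := Contr831.rho_loss_in (W := W) (X := X) huv hu hv hvX y0
      (fun y hy h1 h2 => by
        by_contra h3
        exact h2 (hnorm huX y hy h1 h3))
    rw [if_pos huX, hc]
    have e1 : rho G W (W \ X) = Contr831.rho G W (W \ X) := rfl
    have e2 : rho (contr G u v) (W.erase v) (W.erase v \ X) =
      Contr831.rho (contr G u v) (W.erase v) (W.erase v \ X) := rfl
    rw [e1, e2]
    have e3 : (W.filter (fun y => G.Adj u y ∧ G.Adj v y)).card =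
      (@Finset.filter V (fun y => G.Adj u y ∧ G.Adj v y)
        (fun a => Classical.propDecidable _) W).card := by
      congr
    omega
  · have h := Contr831.rho_loss_out (W := W) (X := X) huv hu hv hvX huX
    rw [if_neg huX, hc]
    have e1 : rho G W (W \ X) = Contr831.rho G W (W \ X) := rfl
    have e2 : rho (contr G u v) (W.erase v) (W.erase v \ X) =
      Contr831.rho (contr G u v) (W.erase v) (W.erase v \ X) := rfl
    rw [e1, e2]
    have e3 : (W.filter (fun y => G.Adj u y ∧ G.Adj v y)).card =
      (@Finset.filter V (fun y => G.Adj u y ∧ G.Adj v y)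
        (fun a => Classical.propDecidable _) W).card := by
      congr
    omega

end Crest.Agent.R042.ContrJ831
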