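import Mathlib
import Crest.Agent.R042.Conn_353
import Crest.Agent.R042.Menger_353
import Crest.Agent.R042.LinkDefs_870

/-! Row 42, S0058, section 05, LEMMA D: a graph with minimum degree `≥ 8k` on at most `16k+1`
vertices contains a highly linked vertex set. -/

set_option autoImplicit false
set_option linter.unusedSectionVars false

namespace Crest.Agent.R042.LemD473

open Finset Classical
open Crest.Agent.R042.Conn353 Crest.Agent.R042.Menger353 Crest.Agent.R042.Link870

variable {V : Type*} {G : SimpleGraph V}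

/-! ### list lemmas -/

lemma chain_mid {a : List V} {x : V} {b : List V} {z : V} {c : List V} {v : V}
    (h : (a ++ x :: (b ++ z :: c)).IsChain G.Adj) (h1 : G.Adj x v) (h2 : G.Adj v z) :
    (a ++ x :: v :: z :: c).IsChain G.Adj := by
  rw [List.isChain_split] at h ⊢
  refine ⟨h.1, ?_⟩
  have h3 : (z :: c).IsChain G.Adj := by
    have := h.2
    rw [← List.cons_append, List.isChain_split] at this
    exact this.2
  rw [List.isChain_cons_cons, List.isChain_cons_cons]
  exact ⟨h1, h2, h3⟩

lemma chain_mid' {a : List V} {x : V} {b : List V} {z : V} {c : List V}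
    (h : (a ++ x :: (b ++ z :: c)).IsChain G.Adj) (h1 : G.Adj x z) :
    (a ++ x :: z :: c).IsChain G.Adj := by
  rw [List.isChain_split] at h ⊢
  refine ⟨h.1, ?_⟩
  have h3 : (z :: c).IsChain G.Adj := by
    have := h.2
    rw [← List.cons_append, List.isChain_split] at this
    exact this.2
  rw [List.isChain_cons_cons]
  exact ⟨h1, h3⟩

lemma chain_eq {a : List V} {x : V} {b : List V} {c : List V}
    (h : (a ++ x :: (b ++ x :: c)).IsChain G.Adj) :
    (a ++ x :: c).IsChain G.Adj := by
  rw [List.isChain_split] at h ⊢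
  refine ⟨h.1, ?_⟩
  have := h.2
  rw [← List.cons_append, List.isChain_split] at this
  exact this.2


/-- `l` is a walk inside `K` from `A` to `B`. -/
def Wk (G : SimpleGraph V) (K A B : Finset V) (l : List V) : Prop :=
  (∀ x ∈ l, x ∈ K) ∧ l.IsChain G.Adj ∧ (∃ a ∈ A, l.head? = some a) ∧ (∃ b ∈ B, l.getLast? = some b)

lemma head_mid (a : List V) (x : V) (r r' : List V) :
    (a ++ x :: r).head? = (a ++ x :: r').head? := by
  cases a <;> simp

lemma last_mid (a a' : List V) (z : V) (c : List V) :
    (a ++ z :: c).getLast? = (a' ++ z :: c).getLast? := by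
  rw [List.getLast?_append_of_ne_nil _ (by simp), List.getLast?_append_of_ne_nil _ (by simp)]

/-- in a shortest walk vertices at distance `≥ 3` have disjoint closed neighbourhoods. -/
lemma far_disj {K A B : Finset V} {l : List V} (hl : Wk G K A B l)
    (hmin : ∀ l', Wk G K A B l' → l.length ≤ l'.length)
    {a : List V} {x : V} {b : List V} {z : V} {c : List V} (h : l = a ++ x :: (b ++ z :: c))
    (hb : 2 ≤ b.length) :
    Disjoint (K.filter fun y => y = x ∨ G.Adj x y) (K.filter fun y => y = z ∨ G.Adj z y) := by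
  rw [Finset.disjoint_left]
  intro y hy hy'
  rw [Finset.mem_filter] at hy hy'
  obtain ⟨hyK, hy⟩ := hy
  obtain ⟨-, hy'⟩ := hy'
  obtain ⟨hK, hc, ⟨u, hu, hhd⟩, ⟨w, hw, hlt⟩⟩ := hl
  subst h
  have e2 : a ++ x :: (b ++ z :: c) = (a ++ x :: b) ++ z :: c := by simp
  have hzK : z ∈ K := hK z (by simp)
  have hxK : x ∈ K := hK x (by simp)
  have haK : ∀ q ∈ a, q ∈ K := fun q hq => hK q (by simp [hq])
  have hcK : ∀ q ∈ c, q ∈ K := fun q hq => hK q (by simp [hq])
  rcases eq_or_ne x z with hxz | hxz
  · subst hxz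
    have := hmin (a ++ x :: c) ⟨?_, chain_eq hc, ⟨u, hu, ?_⟩, ⟨w, hw, ?_⟩⟩
    · simp only [List.length_append, List.length_cons] at this
      omega
    · intro q hq
      rw [List.mem_append, List.mem_cons] at hq
      rcases hq with hq | rfl | hq
      · exact haK q hq
      · exact hxK
      · exact hcK q hq
    · rw [← hhd]; exact head_mid _ _ _ _
    · rw [← hlt, e2]; exact last_mid _ _ _ _
  by_cases hxz' : G.Adj x z
  · have := hmin (a ++ x :: z :: c) ⟨?_, chain_mid' hc hxz', ⟨u, hu, ?_⟩, ⟨w, hw, ?_⟩⟩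
    · simp only [List.length_append, List.length_cons] at this
      omega
    · intro q hq
      simp only [List.mem_append, List.mem_cons] at hq
      rcases hq with hq | rfl | rfl | hq
      · exact haK q hq
      · exact hxK
      · exact hzK
      · exact hcK q hq
    · rw [← hhd]; exact head_mid _ _ _ _
    · rw [← hlt, e2]
      have : a ++ x :: z :: c = (a ++ [x]) ++ z :: c := by simp
      rw [this]; exact last_mid _ _ _ _
  have h1 : G.Adj x y := by
    rcases hy with rfl | h
    · rcases hy' with h | h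
      · exact absurd h hxz
      · exact absurd h.symm hxz'
    · exact h
  have h2 : G.Adj y z := by
    rcases hy' with rfl | h
    · exact absurd h1 hxz'
    · exact h.symm
  have := hmin (a ++ x :: y :: z :: c) ⟨?_, chain_mid hc h1 h2, ⟨u, hu, ?_⟩, ⟨w, hw, ?_⟩⟩
  · simp only [List.length_append, List.length_cons] at this
    omega
  · intro q hq
    simp only [List.mem_append, List.mem_cons] at hq
    rcases hq with hq | rfl | rfl | rfl | hq
    · exact haK q hq
    · exact hxK
    · exact hyK
    · exact hzK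
    · exact hcK q hq
  · rw [← hhd]; exact head_mid _ _ _ _
  · rw [← hlt, e2]
    have : a ++ x :: y :: z :: c = (a ++ [x, y]) ++ z :: c := by simp
    rw [this]; exact last_mid _ _ _ _

/-- a shortest walk in a graph on `≤ 14k+1` vertices with minimum degree `≥ 5k` has at most
six vertices. -/
lemma short_walk {K A B : Finset V} {k : ℕ} (hcard : K.card ≤ 14 * k + 1)
    (hdeg : ∀ v ∈ K, 5 * k ≤ (K.filter (G.Adj v)).card) {l : List V} (hl : Wk G K A B l)
    (hmin : ∀ l', Wk G K A B l' → l.length ≤ l'.length) : l.length ≤ 6 := by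
  by_contra hlen
  push Not at hlen
  obtain ⟨x0, x1, x2, x3, x4, x5, x6, c, rfl⟩ :
      ∃ x0 x1 x2 x3 x4 x5 x6 c, l = x0 :: x1 :: x2 :: x3 :: x4 :: x5 :: x6 :: c := by
    match l, hlen with
    | x0 :: x1 :: x2 :: x3 :: x4 :: x5 :: x6 :: c, _ => exact ⟨x0, x1, x2, x3, x4, x5, x6, c, rfl⟩
  have d03 := far_disj hl hmin (a := []) (x := x0) (b := [x1, x2]) (z := x3)
    (c := x4 :: x5 :: x6 :: c) rfl (by simp)
  have d36 := far_disj hl hmin (a := [x0, x1, x2]) (x := x3) (b := [x4, x5]) (z := x6)
    (c := c) rfl (by simp)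
  have d06 := far_disj hl hmin (a := []) (x := x0) (b := [x1, x2, x3, x4, x5]) (z := x6)
    (c := c) rfl (by simp)
  have hcl : ∀ x ∈ K, 5 * k + 1 ≤ (K.filter fun y => y = x ∨ G.Adj x y).card := by
    intro x hx
    have h1 : insert x (K.filter (G.Adj x)) ⊆ K.filter fun y => y = x ∨ G.Adj x y := by
      intro y hy
      rw [Finset.mem_insert, Finset.mem_filter] at hy
      rw [Finset.mem_filter]
      rcases hy with rfl | hy
      · exact ⟨hx, Or.inl rfl⟩
      · exact ⟨hy.1, Or.inr hy.2⟩
    have h2 := Finset.card_le_card h1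
    rw [Finset.card_insert_of_notMem (by simp)] at h2
    have := hdeg x hx
    omega
  have hK := hl.1
  have c0 := hcl x0 (hK x0 (by simp))
  have c3 := hcl x3 (hK x3 (by simp))
  have c6 := hcl x6 (hK x6 (by simp))
  have hsub : (K.filter fun y => y = x0 ∨ G.Adj x0 y) ∪ (K.filter fun y => y = x3 ∨ G.Adj x3 y) ∪
      (K.filter fun y => y = x6 ∨ G.Adj x6 y) ⊆ K :=
    Finset.union_subset (Finset.union_subset (Finset.filter_subset _ _) (Finset.filter_subset _ _))
      (Finset.filter_subset _ _)
  have h3 := Finset.card_le_card hsub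
  rw [Finset.card_union_of_disjoint (Finset.disjoint_union_left.2 ⟨d06, d36⟩),
    Finset.card_union_of_disjoint d03] at h3
  omega

/-- reachability gives a walk. -/
lemma exists_wk {K A B : Finset V} {x y : V} (hx : x ∈ K) (hxA : x ∈ A) (hyB : y ∈ B)
    (h : Reach G K x y) : ∃ l, Wk G K A B l := by
  obtain ⟨l, h1, h2, s, h3⟩ := h.exists_chain
  refine ⟨x :: l, ?_, h1, ⟨x, hxA, rfl⟩, ⟨y, hyB, ?_⟩⟩
  · intro z hz
    rcases List.mem_cons.1 hz with rfl | hz
    · exact hx
    · exact h2 z hz
  · rw [h3]; simp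

lemma exists_min_wk {K A B : Finset V} (h : ∃ l, Wk G K A B l) :
    ∃ l, Wk G K A B l ∧ ∀ l', Wk G K A B l' → l.length ≤ l'.length := by
  have h' : ∃ n, ∃ l, Wk G K A B l ∧ l.length = n := by
    obtain ⟨l, hl⟩ := h
    exact ⟨_, l, hl, rfl⟩
  obtain ⟨l, hl, hn⟩ := Nat.find_spec h'
  refine ⟨l, hl, fun l' hl' => ?_⟩
  rw [hn]
  exact Nat.find_min' h' ⟨l', hl', rfl⟩

lemma min_wk_nodup {K A B : Finset V} {l : List V} (hl : Wk G K A B l)
    (hmin : ∀ l', Wk G K A B l' → l.length ≤ l'.length) : l.Nodup := by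
  by_contra hn
  obtain ⟨a, x, b, c, rfl⟩ := split_dup l hn
  obtain ⟨hK, hc, ⟨u, hu, hhd⟩, ⟨w, hw, hlt⟩⟩ := hl
  have e2 : a ++ x :: (b ++ x :: c) = (a ++ x :: b) ++ x :: c := by simp
  have := hmin (a ++ x :: c) ⟨?_, chain_eq hc, ⟨u, hu, ?_⟩, ⟨w, hw, ?_⟩⟩
  · simp only [List.length_append, List.length_cons] at this
    omega
  · intro q hq
    rw [List.mem_append, List.mem_cons] at hq
    rcases hq with hq | rfl | hq
    · exact hK q (by simp [hq])
    · exact hK q (by simp)
    · exact hK q (by simp [hq])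
  · rw [← hhd]; exact head_mid _ _ _ _
  · rw [← hlt, e2]; exact last_mid _ _ _ _


/-! ### partial systems of short paths -/

section Core

variable {ι : Type*}

/-- the pairs `s i, t i`, `i ∈ S`, are joined by disjoint paths with at most eight vertices which
avoid all other terminals. -/
structure Sys (G : SimpleGraph V) (L : Finset V) (s t : ι → V) (S : Finset ι)
    (P : ι → List V) : Prop where
  chain : ∀ i ∈ S, (P i).IsChain G.Adj
  nodup : ∀ i ∈ S, (P i).Nodup
  sub : ∀ i ∈ S, ∀ x ∈ P i, x ∈ L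
  hd : ∀ i ∈ S, (P i).head? = some (s i)
  lt : ∀ i ∈ S, (P i).getLast? = some (t i)
  len : ∀ i ∈ S, (P i).length ≤ 8
  av : ∀ i ∈ S, ∀ x ∈ P i, ∀ j, (x = s j → j = i) ∧ (x = t j → j = i)
  disj : ∀ i ∈ S, ∀ j ∈ S, i ≠ j → ∀ x ∈ P i, x ∉ P j

lemma Sys.upd {L : Finset V} {s t : ι → V} {S : Finset ι} {P : ι → List V}
    (h : Sys G L s t S P) (i : ι) (p : List V) (hc : p.IsChain G.Adj) (hn : p.Nodup)
    (hs : ∀ x ∈ p, x ∈ L) (hh : p.head? = some (s i)) (hl : p.getLast? = some (t i))
    (h8 : p.length ≤ 8) (hav : ∀ x ∈ p, ∀ j, (x = s j → j = i) ∧ (x = t j → j = i))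
    (hd : ∀ j ∈ S, j ≠ i → ∀ x ∈ p, x ∉ P j) :
    Sys G L s t (insert i S) (Function.update P i p) := by
  have key : ∀ j ∈ insert i S, (j = i ∧ Function.update P i p j = p) ∨
      (j ≠ i ∧ j ∈ S ∧ Function.update P i p j = P j) := by
    intro j hj
    by_cases hji : j = i
    · subst hji; left; simp
    · right
      refine ⟨hji, ?_, by simp [hji]⟩
      rcases Finset.mem_insert.1 hj with h | h
      · exact absurd h hji
      · exact h
  refine ⟨?_, ?_, ?_, ?_, ?_, ?_, ?_, ?_⟩
  · intro j hj
    rcases key j hj with ⟨rfl, e⟩ | ⟨_, hjS, e⟩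
    · rw [e]; exact hc
    · rw [e]; exact h.chain j hjS
  · intro j hj
    rcases key j hj with ⟨rfl, e⟩ | ⟨_, hjS, e⟩
    · rw [e]; exact hn
    · rw [e]; exact h.nodup j hjS
  · intro j hj
    rcases key j hj with ⟨rfl, e⟩ | ⟨_, hjS, e⟩
    · rw [e]; exact hs
    · rw [e]; exact h.sub j hjS
  · intro j hj
    rcases key j hj with ⟨rfl, e⟩ | ⟨_, hjS, e⟩
    · rw [e]; exact hh
    · rw [e]; exact h.hd j hjS
  · intro j hj
    rcases key j hj with ⟨rfl, e⟩ | ⟨_, hjS, e⟩
    · rw [e]; exact hl
    · rw [e]; exact h.lt j hjS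
  · intro j hj
    rcases key j hj with ⟨rfl, e⟩ | ⟨_, hjS, e⟩
    · rw [e]; exact h8
    · rw [e]; exact h.len j hjS
  · intro j hj
    rcases key j hj with ⟨rfl, e⟩ | ⟨_, hjS, e⟩
    · rw [e]; exact hav
    · rw [e]; exact h.av j hjS
  · intro j hj j' hj' hjj'
    rcases key j hj with ⟨e1, e⟩ | ⟨hne, hjS, e⟩ <;>
      rcases key j' hj' with ⟨e1', e'⟩ | ⟨hne', hjS', e'⟩
    · exact absurd (e1.trans e1'.symm) hjj'
    · rw [e, e']; exact hd j' hjS' hne'
    · rw [e, e']
      intro x hx hx'
      exact hd j hjS hne x hx' hx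
    · rw [e, e']; exact h.disj j hjS j' hjS' hjj'

/-- a vertex outside a shortest system has at most three neighbours on each path. -/
lemma nbr_le_three {L : Finset V} {s t : ι → V} {S : Finset ι} {P : ι → List V}
    (h : Sys G L s t S P) {i : ι} (hi : i ∈ S) {v : V} (hv : v ∈ L)
    (hvs : ∀ j, v ≠ s j) (hvt : ∀ j, v ≠ t j) (hvP : ∀ j ∈ S, v ∉ P j)
    (hmin : ∀ P', Sys G L s t S P' → ∑ j ∈ S, (P j).length ≤ ∑ j ∈ S, (P' j).length) :
    ((P i).toFinset.filter (G.Adj v)).card ≤ 3 := by
  by_contra hcon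
  push Not at hcon
  have hne : ∃ x ∈ P i, G.Adj v x := by
    have : ((P i).toFinset.filter (G.Adj v)).Nonempty := by
      rw [← Finset.card_pos]; omega
    obtain ⟨x, hx⟩ := this
    rw [Finset.mem_filter, List.mem_toFinset] at hx
    exact ⟨x, hx⟩
  obtain ⟨a, x, r, e1, hx, ha⟩ := split_first (fun y => G.Adj v y) (P i) hne
  have hne2 : ∃ z ∈ r, G.Adj v z := by
    by_contra hr
    push Not at hr
    have : (P i).toFinset.filter (G.Adj v) ⊆ {x} := by
      intro y hy
      rw [Finset.mem_filter, List.mem_toFinset, e1] at hy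
      rw [Finset.mem_singleton]
      rcases List.mem_append.1 hy.1 with h1 | h1
      · exact absurd hy.2 (ha y h1)
      · rcases List.mem_cons.1 h1 with h1 | h1
        · exact h1
        · exact absurd hy.2 (hr y h1)
    have := Finset.card_le_card this
    simp at this
    omega
  obtain ⟨b, z, c, e2, hz, hc⟩ := split_last (fun y => G.Adj v y) r hne2
  subst e2
  have hb : 2 ≤ b.length := by
    have : (P i).toFinset.filter (G.Adj v) ⊆ insert x (insert z b.toFinset) := by
      intro y hy
      rw [Finset.mem_filter, List.mem_toFinset, e1] at hy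
      rw [Finset.mem_insert, Finset.mem_insert, List.mem_toFinset]
      rcases List.mem_append.1 hy.1 with h1 | h1
      · exact absurd hy.2 (ha y h1)
      · rcases List.mem_cons.1 h1 with h1 | h1
        · exact Or.inl h1
        · rcases List.mem_append.1 h1 with h1 | h1
          · exact Or.inr (Or.inr h1)
          · rcases List.mem_cons.1 h1 with h1 | h1
            · exact Or.inr (Or.inl h1)
            · exact absurd hy.2 (hc y h1)
    have h1 := Finset.card_le_card this
    have h2 := Finset.card_insert_le x (insert z b.toFinset)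
    have h3 := Finset.card_insert_le z b.toFinset
    have h4 := List.toFinset_card_le b
    omega
  have hmem : ∀ y ∈ a ++ x :: v :: z :: c, y = v ∨ y ∈ P i := by
    intro y hy
    rw [e1]
    simp only [List.mem_append, List.mem_cons] at hy ⊢
    tauto
  have hnd : (a ++ x :: v :: z :: c).Nodup := by
    have h1 := h.nodup i hi
    have hvn := hvP i hi
    rw [e1] at h1 hvn
    have h2 : (a ++ x :: z :: c).Nodup := by
      refine h1.sublist ?_
      refine List.Sublist.append (List.Sublist.refl a) ?_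
      refine List.Sublist.cons_cons x ?_
      exact List.sublist_append_right _ _
    have h3 : (a ++ x :: v :: z :: c).Perm (v :: (a ++ x :: z :: c)) := by
      have := @List.perm_middle _ v (a ++ [x]) (z :: c)
      simpa using this
    rw [h3.nodup_iff, List.nodup_cons]
    refine ⟨?_, h2⟩
    intro hm
    apply hvn
    simp only [List.mem_append, List.mem_cons] at hm ⊢
    tauto
  have hsys := h.upd i (a ++ x :: v :: z :: c) (chain_mid (by rw [← e1]; exact h.chain i hi)
    hx.symm hz) hnd ?_ ?_ ?_ ?_ ?_ ?_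
  · rw [Finset.insert_eq_of_mem hi] at hsys
    have h5 := hmin _ hsys
    rw [← Finset.add_sum_erase _ _ hi, ← Finset.add_sum_erase _ _ hi] at h5
    have h6 : ∑ j ∈ S.erase i, (Function.update P i (a ++ x :: v :: z :: c) j).length =
        ∑ j ∈ S.erase i, (P j).length := by
      refine Finset.sum_congr rfl fun j hj => ?_
      rw [Function.update_of_ne (Finset.ne_of_mem_erase hj)]
    rw [h6, Function.update_self, e1] at h5
    simp only [List.length_append, List.length_cons] at h5
    omega
  · intro y hy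
    rcases hmem y hy with rfl | h1
    · exact hv
    · exact h.sub i hi y h1
  · rw [← h.hd i hi, e1]; exact head_mid _ _ _ _
  · have e3 : a ++ x :: (b ++ z :: c) = (a ++ x :: b) ++ z :: c := by simp
    have e4 : a ++ x :: v :: z :: c = (a ++ [x, v]) ++ z :: c := by simp
    rw [← h.lt i hi, e1, e3, e4]; exact last_mid _ _ _ _
  · have := h.len i hi
    rw [e1] at this
    simp only [List.length_append, List.length_cons] at this ⊢
    omega
  · intro y hy j
    rcases hmem y hy with rfl | h1
    · exact ⟨fun h => absurd h (hvs j), fun h => absurd h (hvt j)⟩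
    · exact h.av i hi y h1 j
  · intro j hj hji y hy hyj
    rcases hmem y hy with rfl | h1
    · exact hvP j hj hyj
    · exact h.disj i hi j hj (Ne.symm hji) y h1 hyj


theorem core [Fintype ι] {L : Finset V} {k : ℕ} (hk1 : 1 ≤ k)
    (hk : Fintype.card ι = k) {s t : ι → V} (hsL : ∀ i, s i ∈ L) (htL : ∀ i, t i ∈ L)
    (hsi : Function.Injective s) (hti : Function.Injective t) (hst : ∀ i j, s i ≠ t j)
    (hdeg : ∀ v ∈ L, 8 * k ≤ (L.filter (G.Adj v)).card) (hcard : L.card ≤ 16 * k + 1) :
    (∃ P, Sys G L s t univ P) ∨ ∃ C ⊆ L, C.Nonempty ∧ C.card ≤ 7 * k ∧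
      ∀ v ∈ C, 5 * k ≤ (C.filter (G.Adj v)).card := by
  by_cases hall : ∃ P, Sys G L s t univ P
  · exact Or.inl hall
  right
  -- a maximal system
  have hQ : ∃ N, ∀ S P, Sys G L s t S P → S.card ≤ N :=
    ⟨Fintype.card ι, fun S P _ => Finset.card_le_univ S⟩
  have hmax := Nat.find_spec hQ
  set N := Nat.find hQ with hN
  obtain ⟨S, P0, hSP0, hSN⟩ : ∃ S P, Sys G L s t S P ∧ S.card = N := by
    by_contra hno
    push Not at hno
    have h1 : ∀ S P, Sys G L s t S P → S.card ≤ N - 1 := by
      intro S P h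
      have := hmax S P h
      have := hno S P h
      omega
    have h2 : N ≤ N - 1 := Nat.find_min' hQ h1
    have h0 : N = 0 := by omega
    refine hno ∅ (fun _ => []) ?_ (by simp [h0])
    refine ⟨?_, ?_, ?_, ?_, ?_, ?_, ?_, ?_⟩ <;> intro i hi <;> simp at hi
  obtain ⟨P, hSP, hmin⟩ : ∃ P, Sys G L s t S P ∧
      ∀ P', Sys G L s t S P' → ∑ j ∈ S, (P j).length ≤ ∑ j ∈ S, (P' j).length := by
    have h' : ∃ n, ∃ P, Sys G L s t S P ∧ ∑ j ∈ S, (P j).length = n := ⟨_, P0, hSP0, rfl⟩
    obtain ⟨P, hP, hn⟩ := Nat.find_spec h'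
    refine ⟨P, hP, fun P' hP' => ?_⟩
    rw [hn]
    exact Nat.find_min' h' ⟨P', hP', rfl⟩
  have hSne : ∃ i0, i0 ∉ S := by
    by_contra h
    push Not at h
    have : S = univ := by ext i; simp [h i]
    subst this
    exact hall ⟨P, hSP⟩
  obtain ⟨i0, hi0⟩ := hSne
  have hSk : S.card < k := by
    rw [← hk]
    exact Finset.card_lt_univ_of_notMem hi0
  -- the used vertices
  set J : Finset V := S.biUnion (fun i => (P i).toFinset) ∪ Sᶜ.biUnion (fun j => {s j, t j})
    with hJ
  have hsJ : ∀ j, s j ∈ J := by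
    intro j
    rw [hJ, Finset.mem_union, Finset.mem_biUnion, Finset.mem_biUnion]
    by_cases hj : j ∈ S
    · left
      refine ⟨j, hj, ?_⟩
      rw [List.mem_toFinset]
      exact List.mem_of_mem_head? (by rw [hSP.hd j hj]; rfl)
    · right
      exact ⟨j, by simpa using hj, by simp⟩
  have htJ : ∀ j, t j ∈ J := by
    intro j
    rw [hJ, Finset.mem_union, Finset.mem_biUnion, Finset.mem_biUnion]
    by_cases hj : j ∈ S
    · left
      refine ⟨j, hj, ?_⟩
      rw [List.mem_toFinset]
      exact List.mem_of_mem_getLast? (by rw [hSP.lt j hj]; rfl)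
    · right
      exact ⟨j, by simpa using hj, by simp⟩
  have hPJ : ∀ j ∈ S, ∀ x ∈ P j, x ∈ J := by
    intro j hj x hx
    rw [hJ, Finset.mem_union, Finset.mem_biUnion]
    exact Or.inl ⟨j, hj, by rwa [List.mem_toFinset]⟩
  have hcompl : Sᶜ.card = k - S.card := by rw [Finset.card_compl, hk]
  have hJle : J.card ≤ 8 * k - 6 := by
    have h1 : (S.biUnion (fun i => (P i).toFinset)).card ≤ S.card * 8 :=
      Finset.card_biUnion_le_card_mul _ _ _ fun i hi =>
        (List.toFinset_card_le _).trans (hSP.len i hi)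
    have h2 : (Sᶜ.biUnion (fun j => ({s j, t j} : Finset V))).card ≤ Sᶜ.card * 2 :=
      Finset.card_biUnion_le_card_mul _ _ _ fun i _ => Finset.card_le_two
    have h3 := Finset.card_union_le (S.biUnion (fun i => (P i).toFinset))
      (Sᶜ.biUnion (fun j => ({s j, t j} : Finset V)))
    rw [hcompl] at h2
    rw [← hJ] at h3
    omega
  have hJge : 2 * k ≤ J.card := by
    have h1 : univ.image s ∪ univ.image t ⊆ J := by
      intro x hx
      rcases Finset.mem_union.1 hx with h | h
      · obtain ⟨j, -, rfl⟩ := Finset.mem_image.1 h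
        exact hsJ j
      · obtain ⟨j, -, rfl⟩ := Finset.mem_image.1 h
        exact htJ j
    have h2 : Disjoint (univ.image s) (univ.image t) := by
      rw [Finset.disjoint_left]
      intro x hx hx'
      obtain ⟨i, -, rfl⟩ := Finset.mem_image.1 hx
      obtain ⟨j, -, h⟩ := Finset.mem_image.1 hx'
      exact hst i j h.symm
    have h3 := Finset.card_le_card h1
    rw [Finset.card_union_of_disjoint h2, Finset.card_image_of_injective _ hsi,
      Finset.card_image_of_injective _ hti, Finset.card_univ, hk] at h3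
    omega
  have hJL : J ⊆ L := by
    intro x hx
    rw [hJ, Finset.mem_union, Finset.mem_biUnion, Finset.mem_biUnion] at hx
    rcases hx with ⟨j, hj, hx⟩ | ⟨j, hj, hx⟩
    · exact hSP.sub j hj x (by rwa [List.mem_toFinset] at hx)
    · rw [Finset.mem_insert, Finset.mem_singleton] at hx
      rcases hx with rfl | rfl
      · exact hsL j
      · exact htL j
  set K : Finset V := L \ J with hK
  have hKL : K ⊆ L := Finset.sdiff_subset
  have hKJ : ∀ v ∈ K, v ∉ J := fun v hv => (Finset.mem_sdiff.1 hv).2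
  have hKcard : K.card ≤ 14 * k + 1 := by
    rw [hK, Finset.card_sdiff_of_subset hJL]
    omega
  have hnJ : ∀ v ∈ K, (J.filter (G.Adj v)).card ≤ 3 * k := by
    intro v hv
    have hvJ := hKJ v hv
    have h1 : J.filter (G.Adj v) ⊆ S.biUnion (fun i => (P i).toFinset.filter (G.Adj v)) ∪
        Sᶜ.biUnion (fun j => {s j, t j}) := by
      intro x hx
      rw [Finset.mem_filter, hJ, Finset.mem_union, Finset.mem_biUnion] at hx
      rw [Finset.mem_union, Finset.mem_biUnion]
      rcases hx.1 with ⟨j, hj, h⟩ | h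
      · exact Or.inl ⟨j, hj, Finset.mem_filter.2 ⟨h, hx.2⟩⟩
      · exact Or.inr h
    have h2 : (S.biUnion (fun i => (P i).toFinset.filter (G.Adj v))).card ≤ S.card * 3 :=
      Finset.card_biUnion_le_card_mul _ _ _ fun i hi =>
        nbr_le_three hSP hi (hKL hv) (fun j h => hvJ (h ▸ hsJ j)) (fun j h => hvJ (h ▸ htJ j))
          (fun j hj h => hvJ (hPJ j hj v h)) hmin
    have h3 : (Sᶜ.biUnion (fun j => ({s j, t j} : Finset V))).card ≤ Sᶜ.card * 2 :=
      Finset.card_biUnion_le_card_mul _ _ _ fun i _ => Finset.card_le_two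
    have h4 := (Finset.card_le_card h1).trans (Finset.card_union_le _ _)
    rw [hcompl] at h3
    omega
  have hdegK : ∀ v ∈ K, 5 * k ≤ (K.filter (G.Adj v)).card := by
    intro v hv
    have h1 : L.filter (G.Adj v) ⊆ J.filter (G.Adj v) ∪ K.filter (G.Adj v) := by
      intro x hx
      rw [Finset.mem_filter] at hx
      rw [Finset.mem_union, Finset.mem_filter, Finset.mem_filter, hK, Finset.mem_sdiff]
      by_cases hxJ : x ∈ J
      · exact Or.inl ⟨hxJ, hx.2⟩
      · exact Or.inr ⟨⟨hx.1, hxJ⟩, hx.2⟩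
    have h2 := (Finset.card_le_card h1).trans (Finset.card_union_le _ _)
    have h3 := hdeg v (hKL hv)
    have h4 := hnJ v hv
    omega
  have hout : ∀ u ∈ J, ∃ x ∈ K, G.Adj u x := by
    intro u hu
    by_contra hno
    push Not at hno
    have h1 : L.filter (G.Adj u) ⊆ J.erase u := by
      intro x hx
      rw [Finset.mem_filter] at hx
      rw [Finset.mem_erase]
      refine ⟨fun h => ?_, ?_⟩
      · rw [h] at hx; exact G.irrefl hx.2
      · by_contra hxJ
        exact hno x (Finset.mem_sdiff.2 ⟨hx.1, hxJ⟩) hx.2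
    have h2 := Finset.card_le_card h1
    rw [Finset.card_erase_of_mem hu] at h2
    have h3 := hdeg u (hJL hu)
    omega
  have hnr : ∀ x ∈ K, G.Adj (s i0) x → ∀ y ∈ K, G.Adj (t i0) y → ¬ Reach G K x y := by
    intro x hx hsx y hy hty hr
    obtain ⟨l, hl, hlmin⟩ := exists_min_wk (G := G) (K := K) (A := K.filter (G.Adj (s i0)))
      (B := K.filter (G.Adj (t i0)))
      (exists_wk hx (Finset.mem_filter.2 ⟨hx, hsx⟩) (Finset.mem_filter.2 ⟨hy, hty⟩) hr)
    have hlen := short_walk hKcard hdegK hl hlmin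
    have hnd := min_wk_nodup hl hlmin
    obtain ⟨hlK, hlc, ⟨a, ha, hhd⟩, ⟨b, hb, hlt⟩⟩ := hl
    rw [Finset.mem_filter] at ha hb
    have hsl : s i0 ∉ l := fun h => hKJ _ (hlK _ h) (hsJ i0)
    have htl : t i0 ∉ l := fun h => hKJ _ (hlK _ h) (htJ i0)
    have hsys := hSP.upd i0 (s i0 :: (l ++ [t i0])) ?_ ?_ ?_ ?_ ?_ ?_ ?_ ?_
    · have h1 := hmax _ _ hsys
      rw [Finset.card_insert_of_notMem hi0] at h1
      omega
    · rw [List.isChain_cons, List.isChain_append]
      refine ⟨?_, hlc, by simp, ?_⟩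
      · intro y hy
        have : (l ++ [t i0]).head? = some a := by
          rw [List.head?_append, hhd]; rfl
        rw [this, Option.mem_some_iff] at hy
        rw [← hy]; exact ha.2
      · intro u hu w hw
        rw [hlt, Option.mem_some_iff] at hu
        simp only [List.head?_cons, Option.mem_some_iff] at hw
        rw [← hu, ← hw]; exact hb.2.symm
    · rw [List.nodup_cons]
      refine ⟨?_, ?_⟩
      · rw [List.mem_append, List.mem_singleton]
        rintro (h | h)
        · exact hsl h
        · exact hst _ _ h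
      · refine List.Nodup.append hnd (List.nodup_singleton _) ?_
        simpa using htl
    · intro u hu
      simp only [List.mem_cons, List.mem_append, List.not_mem_nil, or_false] at hu
      rcases hu with rfl | hu | rfl
      · exact hsL i0
      · exact hKL (hlK u hu)
      · exact htL i0
    · simp
    · have : s i0 :: (l ++ [t i0]) = (s i0 :: l) ++ t i0 :: [] := rfl
      rw [this, last_mid _ [] _ _]; rfl
    · simp only [List.length_cons, List.length_append, List.length_nil]; omega
    · intro u hu j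
      simp only [List.mem_cons, List.mem_append, List.not_mem_nil, or_false] at hu
      rcases hu with rfl | hu | rfl
      · exact ⟨fun h => hsi h.symm, fun h => absurd h (hst _ _)⟩
      · exact ⟨fun h => absurd (h ▸ hsJ j) (hKJ u (hlK u hu)),
          fun h => absurd (h ▸ htJ j) (hKJ u (hlK u hu))⟩
      · exact ⟨fun h => absurd h.symm (hst _ _), fun h => hti h.symm⟩
    · intro j hj hji u hu huj
      simp only [List.mem_cons, List.mem_append, List.not_mem_nil, or_false] at hu
      rcases hu with rfl | hu | rfl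
      · exact hji ((hSP.av j hj _ huj i0).1 rfl).symm
      · exact hKJ u (hlK u hu) (hPJ j hj u huj)
      · exact hji ((hSP.av j hj _ huj i0).2 rfl).symm
  obtain ⟨x, hx, hsx⟩ := hout _ (hsJ i0)
  obtain ⟨y, hy, hty⟩ := hout _ (htJ i0)
  have hxy := hnr x hx hsx y hy hty
  have hcomp : ∀ u ∈ K, (K.filter (Reach G K u)).card ≤ 7 * k →
      ∃ C ⊆ L, C.Nonempty ∧ C.card ≤ 7 * k ∧ ∀ v ∈ C, 5 * k ≤ (C.filter (G.Adj v)).card := by
    intro u hu hle
    refine ⟨K.filter (Reach G K u), (Finset.filter_subset _ _).trans hKL,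
      ⟨u, Finset.mem_filter.2 ⟨hu, Reach.refl u⟩⟩, hle, ?_⟩
    intro v hv
    rw [Finset.mem_filter] at hv
    refine (hdegK v hv.1).trans (Finset.card_le_card ?_)
    intro w hw
    rw [Finset.mem_filter] at hw
    rw [Finset.mem_filter, Finset.mem_filter]
    exact ⟨⟨hw.1, hv.2.step hw.2 hw.1⟩, hw.2⟩
  have hdj : Disjoint (K.filter (Reach G K x)) (K.filter (Reach G K y)) := by
    rw [Finset.disjoint_left]
    intro z hz hz'
    rw [Finset.mem_filter] at hz hz'
    exact hxy (hz.2.trans (hz'.2.symm hy))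
  have hsum : (K.filter (Reach G K x)).card + (K.filter (Reach G K y)).card ≤ K.card := by
    rw [← Finset.card_union_of_disjoint hdj]
    exact Finset.card_le_card
      (Finset.union_subset (Finset.filter_subset _ _) (Finset.filter_subset _ _))
  rcases le_total (K.filter (Reach G K x)).card (K.filter (Reach G K y)).card with h | h
  · exact hcomp x hx (by omega)
  · exact hcomp y hy (by omega)

end Core

/-! ### Lemma D -/

lemma nb_eq (W : Finset V) (v : V) : nb G W v = W.filter (G.Adj v) := by
  ext x; rw [mem_nb, Finset.mem_filter]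

/-- two pairs of injective families with disjoint images inside `X`. -/
lemma two_mul_le {X : Finset V} {n : ℕ} {s t : Fin n → V} (hs : ∀ i, s i ∈ X) (ht : ∀ i, t i ∈ X)
    (hsi : Function.Injective s) (hti : Function.Injective t) (hst : ∀ i j, s i ≠ t j) :
    (univ.image s ∪ univ.image t).card = 2 * n ∧ univ.image s ∪ univ.image t ⊆ X := by
  have h2 : Disjoint (univ.image s) (univ.image t) := by
    rw [Finset.disjoint_left]
    intro x hx hx'
    obtain ⟨i, -, rfl⟩ := Finset.mem_image.1 hx
    obtain ⟨j, -, h⟩ := Finset.mem_image.1 hx'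
    exact hst i j h.symm
  refine ⟨?_, ?_⟩
  · rw [Finset.card_union_of_disjoint h2, Finset.card_image_of_injective _ hsi,
      Finset.card_image_of_injective _ hti, Finset.card_univ, Fintype.card_fin]
    omega
  · intro x hx
    rcases Finset.mem_union.1 hx with h | h
    · obtain ⟨j, -, rfl⟩ := Finset.mem_image.1 h
      exact hs j
    · obtain ⟨j, -, rfl⟩ := Finset.mem_image.1 h
      exact ht j

/-- a dense small graph is linked through common neighbours. -/
theorem linked_of_dense {C : Finset V} {k : ℕ} (hC : C.card ≤ 7 * k)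
    (hdeg : ∀ v ∈ C, 5 * k ≤ (nb G C v).card) {X : Finset V} (hX : X ⊆ C)
    (hXc : X.card ≤ 2 * k) : Linked G C X := by
  intro n s t hs ht hsi hti hst
  have hn : n ≤ k := by
    obtain ⟨h1, h2⟩ := two_mul_le hs ht hsi hti hst
    have := Finset.card_le_card h2
    omega
  have hA : ∀ i, k ≤ ((nb G C (s i) ∩ nb G C (t i)) \ X).card := by
    intro i
    have h1 := hdeg _ (hX (hs i))
    have h2 := hdeg _ (hX (ht i))
    have h3 := Finset.card_union_add_card_inter (nb G C (s i)) (nb G C (t i))
    have h4 : (nb G C (s i) ∪ nb G C (t i)).card ≤ C.card := by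
      apply Finset.card_le_card
      apply Finset.union_subset <;> (intro x hx; exact (mem_nb.1 hx).1)
    have h5 := Finset.le_card_sdiff X (nb G C (s i) ∩ nb G C (t i))
    omega
  obtain ⟨f, hfi, hf⟩ := (Finset.all_card_le_biUnion_card_iff_exists_injective
    (fun i : Fin n => (nb G C (s i) ∩ nb G C (t i)) \ X)).1 (by
      intro T
      rcases T.eq_empty_or_nonempty with rfl | ⟨i, hi⟩
      · simp
      · have h1 : T.card ≤ n := by simpa using Finset.card_le_univ T
        refine h1.trans (hn.trans ((hA i).trans (Finset.card_le_card ?_)))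
        exact Finset.subset_biUnion_of_mem
          (fun i : Fin n => (nb G C (s i) ∩ nb G C (t i)) \ X) hi)
  have hf1 : ∀ i, f i ∈ C ∧ G.Adj (s i) (f i) ∧ G.Adj (t i) (f i) ∧ f i ∉ X := by
    intro i
    have := hf i
    rw [Finset.mem_sdiff, Finset.mem_inter, mem_nb, mem_nb] at this
    exact ⟨this.1.1.1, this.1.1.2, this.1.2.2, this.2⟩
  refine ⟨fun i => {s i, f i, t i}, ⟨?_, ?_, ?_, ?_, ?_, ?_⟩⟩
  · intro i x hx
    simp only [Finset.mem_insert, Finset.mem_singleton] at hx
    rcases hx with rfl | rfl | rfl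
    · exact hX (hs i)
    · exact (hf1 i).1
    · exact hX (ht i)
  · intro i
    have h1 := chain_conn (G := G) [s i, f i, t i] (by simp)
      (by
        rw [List.isChain_cons_cons, List.isChain_cons_cons]
        exact ⟨(hf1 i).2.1, (hf1 i).2.2.1.symm, by simp⟩)
    have h2 : ([s i, f i, t i] : List V).toFinset = {s i, f i, t i} := by
      ext x; simp
    rwa [h2] at h1
  · intro i; simp
  · intro i; simp
  · intro i x hx hxX
    simp only [Finset.mem_insert, Finset.mem_singleton] at hx
    rcases hx with rfl | rfl | rfl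
    · exact Or.inl rfl
    · exact absurd hxX (hf1 i).2.2.2
    · exact Or.inr rfl
  · intro i j hij
    rw [Finset.disjoint_left]
    intro x hx hx'
    simp only [Finset.mem_insert, Finset.mem_singleton] at hx hx'
    rcases hx with rfl | rfl | rfl
    · rcases hx' with h | h | h
      · exact hij (hsi h)
      · exact (hf1 j).2.2.2 (h ▸ hs i)
      · exact hst _ _ h
    · rcases hx' with h | h | h
      · exact (hf1 i).2.2.2 (h ▸ hs j)
      · exact hij (hfi h)
      · exact (hf1 i).2.2.2 (h ▸ ht j)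
    · rcases hx' with h | h | h
      · exact hst _ _ h.symm
      · exact (hf1 j).2.2.2 (h ▸ ht i)
      · exact hij (hti h)

/-- **LEMMA D** (sec 05). A nonempty graph on at most `16k+1` vertices with minimum degree `≥ 8k`
contains a vertex set `C`, `|C| ≥ 2k`, such that `(G[C], X)` is linked for all `X ⊆ C` with
`|X| ≤ 2k`. -/
theorem lemD {k : ℕ} (hk : 1 ≤ k) {L : Finset V} (hne : L.Nonempty)
    (hdeg : ∀ v ∈ L, 8 * k ≤ (nb G L v).card) (hcard : L.card ≤ 16 * k + 1) :
    ∃ C ⊆ L, 2 * k ≤ C.card ∧ ∀ X ⊆ C, X.card ≤ 2 * k → Linked G C X := by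
  have hLcard : 8 * k + 1 ≤ L.card := by
    obtain ⟨v, hv⟩ := hne
    have h1 : nb G L v ⊆ L.erase v := by
      intro x hx
      rw [mem_nb] at hx
      rw [Finset.mem_erase]
      exact ⟨fun h => by rw [h] at hx; exact G.irrefl hx.2, hx.1⟩
    have h2 := Finset.card_le_card h1
    rw [Finset.card_erase_of_mem hv] at h2
    have := hdeg v hv
    omega
  by_cases hL : ∀ X ⊆ L, X.card ≤ 2 * k → Linked G L X
  · exact ⟨L, Finset.Subset.refl L, by omega, hL⟩
  push Not at hL
  obtain ⟨X, hXL, hXc, hnl⟩ := hL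
  unfold Linked at hnl
  push Not at hnl
  obtain ⟨n, s, t, hs, ht, hsi, hti, hst, hno⟩ := hnl
  obtain ⟨him, hsub⟩ := two_mul_le hs ht hsi hti hst
  have hn : n ≤ k := by
    have := Finset.card_le_card hsub
    omega
  obtain ⟨X', hXX', hX'L, hX'c⟩ := Finset.exists_subsuperset_card_eq hXL (n := 2 * k) hXc (by omega)
  set I := univ.image s ∪ univ.image t with hI
  have hIX' : I ⊆ X' := hsub.trans hXX'
  have hR : (X' \ I).card = 2 * k - 2 * n := by
    rw [Finset.card_sdiff_of_subset hIX']
    omega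
  obtain ⟨R1, hR1, hR1c⟩ := Finset.exists_subset_card_eq (s := X' \ I) (n := k - n) (by omega)
  have hR2c : ((X' \ I) \ R1).card = k - n := by
    rw [Finset.card_sdiff_of_subset hR1]
    omega
  let e1 : Fin (k - n) ≃ R1 := (Finset.equivFinOfCardEq hR1c).symm
  let e2 : Fin (k - n) ≃ ((X' \ I) \ R1 : Finset V) := (Finset.equivFinOfCardEq hR2c).symm
  set s' : Fin n ⊕ Fin (k - n) → V := Sum.elim s (fun j => (e1 j : V)) with hs'
  set t' : Fin n ⊕ Fin (k - n) → V := Sum.elim t (fun j => (e2 j : V)) with ht'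
  have hsI : ∀ i, s i ∈ I := fun i => Finset.mem_union_left _ (Finset.mem_image_of_mem _ (mem_univ i))
  have htI : ∀ i, t i ∈ I := fun i => Finset.mem_union_right _ (Finset.mem_image_of_mem _ (mem_univ i))
  have he1 : ∀ j, (e1 j : V) ∈ X' ∧ (e1 j : V) ∉ I ∧ (e1 j : V) ∈ R1 := by
    intro j
    have h := hR1 (e1 j).2
    rw [Finset.mem_sdiff] at h
    exact ⟨h.1, h.2, (e1 j).2⟩
  have he2 : ∀ j, (e2 j : V) ∈ X' ∧ (e2 j : V) ∉ I ∧ (e2 j : V) ∉ R1 := by
    intro j
    have h := (e2 j).2
    rw [Finset.mem_sdiff, Finset.mem_sdiff] at h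
    exact ⟨h.1.1, h.1.2, h.2⟩
  have hsi' : Function.Injective s' := by
    rintro (i | i) (j | j) h
    · exact congrArg Sum.inl (hsi h)
    · exact absurd (show s i = (e1 j : V) from h) (fun h => (he1 j).2.1 (h ▸ hsI i))
    · exact absurd (show (e1 i : V) = s j from h) (fun h => (he1 i).2.1 (h ▸ hsI j))
    · exact congrArg Sum.inr (e1.injective (Subtype.ext (show (e1 i : V) = e1 j from h)))
  have hti' : Function.Injective t' := by
    rintro (i | i) (j | j) h
    · exact congrArg Sum.inl (hti h)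
    · exact absurd (show t i = (e2 j : V) from h) (fun h => (he2 j).2.1 (h ▸ htI i))
    · exact absurd (show (e2 i : V) = t j from h) (fun h => (he2 i).2.1 (h ▸ htI j))
    · exact congrArg Sum.inr (e2.injective (Subtype.ext (show (e2 i : V) = e2 j from h)))
  have hst' : ∀ i j, s' i ≠ t' j := by
    rintro (i | i) (j | j) h
    · exact hst i j h
    · exact (he2 j).2.1 ((show s i = (e2 j : V) from h) ▸ hsI i)
    · exact (he1 i).2.1 ((show (e1 i : V) = t j from h) ▸ htI j)
    · exact (he2 j).2.2 ((show (e1 i : V) = (e2 j : V) from h) ▸ (he1 i).2.2)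
  have hcardι : Fintype.card (Fin n ⊕ Fin (k - n)) = k := by
    simp; omega
  have hdeg' : ∀ v ∈ L, 8 * k ≤ (L.filter (G.Adj v)).card := by
    intro v hv
    rw [← nb_eq]; exact hdeg v hv
  have hsL' : ∀ i, s' i ∈ L := by
    rintro (i | i)
    · exact hXL (hs i)
    · exact hX'L (he1 i).1
  have htL' : ∀ i, t' i ∈ L := by
    rintro (i | i)
    · exact hXL (ht i)
    · exact hX'L (he2 i).1
  rcases core (G := G) hk hcardι hsL' htL' hsi' hti' hst' hdeg' hcard with
    ⟨P, hP⟩ | ⟨C, hCL, hCne, hCc, hCd⟩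
  · exfalso
    refine hno (fun i => (P (Sum.inl i)).toFinset) ⟨?_, ?_, ?_, ?_, ?_, ?_⟩
    · intro i x hx
      exact hP.sub (Sum.inl i) (mem_univ _) x (List.mem_toFinset.1 hx)
    · intro i
      refine chain_conn _ ?_ (hP.chain (Sum.inl i) (mem_univ _))
      intro h
      have := hP.hd (Sum.inl i) (mem_univ _)
      rw [h] at this
      simp at this
    · intro i
      rw [List.mem_toFinset]
      exact List.mem_of_mem_head? (by rw [hP.hd (Sum.inl i) (mem_univ _)]; rfl)
    · intro i
      rw [List.mem_toFinset]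
      exact List.mem_of_mem_getLast? (by rw [hP.lt (Sum.inl i) (mem_univ _)]; rfl)
    · intro i x hx hxX
      rw [List.mem_toFinset] at hx
      have hxX' : x ∈ X' := hXX' hxX
      have hcase : ∃ j, x = s' j ∨ x = t' j := by
        by_cases hxI : x ∈ I
        · rcases Finset.mem_union.1 hxI with h | h
          · obtain ⟨j, -, rfl⟩ := Finset.mem_image.1 h
            exact ⟨Sum.inl j, Or.inl rfl⟩
          · obtain ⟨j, -, rfl⟩ := Finset.mem_image.1 h
            exact ⟨Sum.inl j, Or.inr rfl⟩
        · by_cases hx1 : x ∈ R1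
          · refine ⟨Sum.inr (e1.symm ⟨x, hx1⟩), Or.inl ?_⟩
            simp [hs']
          · have hx2 : x ∈ (X' \ I) \ R1 :=
              Finset.mem_sdiff.2 ⟨Finset.mem_sdiff.2 ⟨hxX', hxI⟩, hx1⟩
            refine ⟨Sum.inr (e2.symm ⟨x, hx2⟩), Or.inr ?_⟩
            simp [ht']
      obtain ⟨j, hj⟩ := hcase
      have hav := hP.av (Sum.inl i) (mem_univ _) x hx j
      rcases hj with h | h
      · have := hav.1 h
        subst this
        exact Or.inl h
      · have := hav.2 h
        subst this
        exact Or.inr h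
    · intro i j hij
      rw [Finset.disjoint_left]
      intro x hx hx'
      rw [List.mem_toFinset] at hx hx'
      exact hP.disj (Sum.inl i) (mem_univ _) (Sum.inl j) (mem_univ _)
        (fun h => hij (Sum.inl_injective h)) x hx hx'
  · have hCd' : ∀ v ∈ C, 5 * k ≤ (nb G C v).card := by
      intro v hv
      rw [nb_eq]; exact hCd v hv
    refine ⟨C, hCL, ?_, fun X hX hXc => linked_of_dense hCc hCd' hX hXc⟩
    obtain ⟨v, hv⟩ := hCne
    have h1 := hCd' v hv
    have h2 : (nb G C v).card ≤ C.card := Finset.card_le_card fun x hx => (mem_nb.1 hx).1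
    omega

end Crest.Agent.R042.LemD473

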