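import Mathlib
import Crest.Agent.R042.LinkDefs_870

/-! Row 42, sec 05 (Thomas-Wollan), part A: composition of linkages, rerouting through a rigid
side, minimal violations, CLAIM A (no rigid separation of small order). -/

set_option autoImplicit false
set_option linter.unusedSectionVars false

namespace Crest.Agent.R042.TW870

open Finset Crest.Agent.R042.Conn353 Crest.Agent.R042.Menger353 Crest.Agent.R042.Link870

variable {V : Type*} [DecidableEq V] {G : SimpleGraph V} {W X : Finset V}

/-- a smaller root set is linked too. -/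
lemma linked_anti {X' : Finset V} (h : X' ⊆ X) (hl : Linked G W X) : Linked G W X' := by
  intro n s t hs ht h1 h2 h3
  obtain ⟨P, hP⟩ := hl n s t (fun i => h (hs i)) (fun i => h (ht i)) h1 h2 h3
  exact ⟨P, hP.sub, hP.conn, hP.left, hP.right, fun i x hx hxX => hP.meet i x hx (h hxX), hP.disj⟩

/-! ### composition -/

/-- `|Y|` disjoint `Y`-`T` paths in `G[W1]` whose ends are linked in `G[W2]`. -/
theorem comp {W1 W2 Y T : Finset V} {P : Finset (List V)} (hP : Linkage G W1 Y T P)
    (hY : Y ⊆ verts P) (hE : verts P ∩ W2 ⊆ T) (hlink : Linked G W2 (verts P ∩ T)) :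
    Linked G (W1 ∪ W2) Y := by
  classical
  obtain ⟨f, g, hf, hdis, -, -, hginj⟩ := hP.family
  have hYm : ∀ y ∈ Y, y ∈ verts P ∩ Y := fun y hy => Finset.mem_inter.2 ⟨hY hy, hy⟩
  have hfv : ∀ y ∈ Y, ∀ x ∈ f y, x ∈ verts P := fun y hy x hx =>
    mem_verts.2 ⟨f y, (hf y (hYm y hy)).1, hx⟩
  have hgE : ∀ y ∈ Y, g y ∈ verts P ∩ T := by
    intro y hy
    obtain ⟨h1, h2, h3, h4, h5, h6, h7, h8, h9⟩ := hf y (hYm y hy)
    exact Finset.mem_inter.2 ⟨hfv y hy _ h7, h5⟩
  intro n s t hs ht hsi hti hst
  obtain ⟨Q, hQ⟩ := hlink n (fun i => g (s i)) (fun i => g (t i)) (fun i => hgE _ (hs i))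
    (fun i => hgE _ (ht i))
    (fun i j hij => hsi (hginj _ (hYm _ (hs i)) _ (hYm _ (hs j)) hij))
    (fun i j hij => hti (hginj _ (hYm _ (ht i)) _ (hYm _ (ht j)) hij))
    (fun i j hij => hst i j (hginj _ (hYm _ (hs i)) _ (hYm _ (ht j)) hij))
  -- a vertex of some `f y` in some `Q j` is `g y`
  have hfQ : ∀ y ∈ Y, ∀ j, ∀ x ∈ f y, x ∈ Q j → x = g y ∧ (x = g (s j) ∨ x = g (t j)) := by
    intro y hy j x hx hxQ
    obtain ⟨h1, h2, h3, h4, h5, h6, h7, h8, h9⟩ := hf y (hYm y hy)
    have hxv := hfv y hy x hx
    have hxT : x ∈ T := hE (Finset.mem_inter.2 ⟨hxv, hQ.sub j hxQ⟩)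
    exact ⟨h9 x hx hxT, hQ.meet j x hxQ (Finset.mem_inter.2 ⟨hxv, hxT⟩)⟩
  refine ⟨fun i => ((f (s i)).toFinset ∪ Q i) ∪ (f (t i)).toFinset, ⟨?_, ?_, ?_, ?_, ?_, ?_⟩⟩
  · intro i
    refine Finset.union_subset (Finset.union_subset ?_ ?_) ?_
    · intro x hx
      exact Finset.mem_union_left _ ((hf _ (hYm _ (hs i))).2.1.sub x (List.mem_toFinset.1 hx))
    · exact (hQ.sub i).trans Finset.subset_union_right
    · intro x hx
      exact Finset.mem_union_left _ ((hf _ (hYm _ (ht i))).2.1.sub x (List.mem_toFinset.1 hx))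
  · intro i
    obtain ⟨h1, h2, h3, h4, h5, h6, h7, h8, h9⟩ := hf _ (hYm _ (hs i))
    obtain ⟨k1, k2, k3, k4, k5, k6, k7, k8, k9⟩ := hf _ (hYm _ (ht i))
    refine Conn.union (x := g (t i)) (Conn.union (x := g (s i)) h2.conn (hQ.conn i) ?_ ?_)
      k2.conn ?_ ?_
    · exact List.mem_toFinset.2 h7
    · exact hQ.left i
    · exact Finset.mem_union_right _ (hQ.right i)
    · exact List.mem_toFinset.2 k7
  · intro i
    exact Finset.mem_union_left _ (Finset.mem_union_left _
      (List.mem_toFinset.2 (hf _ (hYm _ (hs i))).2.2.2.2.2.1))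
  · intro i
    exact Finset.mem_union_right _ (List.mem_toFinset.2 (hf _ (hYm _ (ht i))).2.2.2.2.2.1)
  · intro i x hx hxY
    rcases Finset.mem_union.1 hx with hx | hx
    · rcases Finset.mem_union.1 hx with hx | hx
      · exact Or.inl ((hf _ (hYm _ (hs i))).2.2.2.2.2.2.2.1 x (List.mem_toFinset.1 hx) hxY)
      · have hxT : x ∈ T := hE (Finset.mem_inter.2 ⟨hY hxY, hQ.sub i hx⟩)
        rcases hQ.meet i x hx (Finset.mem_inter.2 ⟨hY hxY, hxT⟩) with h | h
        · left
          apply (hf _ (hYm _ (hs i))).2.2.2.2.2.2.2.1 x _ hxY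
          rw [h]; exact (hf _ (hYm _ (hs i))).2.2.2.2.2.2.1
        · right
          apply (hf _ (hYm _ (ht i))).2.2.2.2.2.2.2.1 x _ hxY
          rw [h]; exact (hf _ (hYm _ (ht i))).2.2.2.2.2.2.1
    · exact Or.inr ((hf _ (hYm _ (ht i))).2.2.2.2.2.2.2.1 x (List.mem_toFinset.1 hx) hxY)
  · intro i j hij
    have hff : ∀ y ∈ Y, ∀ y' ∈ Y, y ≠ y' → ∀ x, x ∈ f y → x ∈ f y' → False :=
      fun y hy y' hy' hne x hx hx' => hdis y (hYm y hy) y' (hYm y' hy') hne x hx hx'
    rw [Finset.disjoint_left]
    intro x hx hx'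
    simp only [Finset.mem_union, List.mem_toFinset] at hx hx'
    have hss : s i ≠ s j := fun h => hij (hsi h)
    have htt : t i ≠ t j := fun h => hij (hti h)
    have gne : ∀ y ∈ Y, ∀ y' ∈ Y, y ≠ y' → g y ≠ g y' := fun y hy y' hy' hne h =>
      hne (hginj _ (hYm _ hy) _ (hYm _ hy') h)
    rcases hx with (hx | hx) | hx <;> rcases hx' with (hx' | hx') | hx'
    · exact hff _ (hs i) _ (hs j) hss x hx hx'
    · obtain ⟨h1, h2⟩ := hfQ _ (hs i) j x hx hx'
      rcases h2 with h2 | h2
      · exact gne _ (hs i) _ (hs j) hss (h1.symm.trans h2)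
      · exact gne _ (hs i) _ (ht j) (hst i j) (h1.symm.trans h2)
    · exact hff _ (hs i) _ (ht j) (hst i j) x hx hx'
    · obtain ⟨h1, h2⟩ := hfQ _ (hs j) i x hx' hx
      rcases h2 with h2 | h2
      · exact gne _ (hs j) _ (hs i) hss.symm (h1.symm.trans h2)
      · exact gne _ (hs j) _ (ht i) (hst j i) (h1.symm.trans h2)
    · exact Finset.disjoint_left.1 (hQ.disj i j hij) hx hx'
    · obtain ⟨h1, h2⟩ := hfQ _ (ht j) i x hx' hx
      rcases h2 with h2 | h2
      · exact gne _ (ht j) _ (hs i) (hst i j).symm (h1.symm.trans h2)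
      · exact gne _ (ht j) _ (ht i) htt.symm (h1.symm.trans h2)
    · exact hff _ (ht i) _ (hs j) (hst j i).symm x hx hx'
    · obtain ⟨h1, h2⟩ := hfQ _ (ht i) j x hx hx'
      rcases h2 with h2 | h2
      · exact gne _ (ht i) _ (hs j) (hst j i).symm (h1.symm.trans h2)
      · exact gne _ (ht i) _ (ht j) htt (h1.symm.trans h2)
    · exact hff _ (ht i) _ (ht j) htt x hx hx'

/-! ### rerouting -/

/-- `G` plus all edges inside `S`. -/
def addClique (G : SimpleGraph V) (S : Finset V) : SimpleGraph V where
  Adj x y := x ≠ y ∧ (G.Adj x y ∨ (x ∈ S ∧ y ∈ S))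
  symm := ⟨fun _ _ h => ⟨h.1.symm, h.2.imp (fun h => h.symm) (fun h => ⟨h.2, h.1⟩)⟩⟩
  loopless := ⟨fun _ h => h.1 rfl⟩

lemma adj_addClique {S : Finset V} {x y : V} (h : G.Adj x y) : (addClique G S).Adj x y :=
  ⟨h.ne, Or.inl h⟩

open Classical in
/-- the component of `s` in `G[P]`. -/
noncomputable def cmp (G : SimpleGraph V) (P : Finset V) (s : V) : Finset V :=
  P.filter (fun x => Reach G P s x)

lemma mem_cmp {P : Finset V} {s x : V} : x ∈ cmp G P s ↔ x ∈ P ∧ Reach G P s x := by
  simp [cmp]

lemma cmp_sub {P : Finset V} {s : V} : cmp G P s ⊆ P := fun _ hx => (mem_cmp.1 hx).1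

lemma self_mem_cmp {P : Finset V} {s : V} (hs : s ∈ P) : s ∈ cmp G P s :=
  mem_cmp.2 ⟨hs, Reach.refl _⟩

lemma conn_cmp {P : Finset V} {s : V} (hs : s ∈ P) : Conn G (cmp G P s) := by
  refine conn_of_reach (self_mem_cmp hs) ?_
  intro v hv
  have hv' := (mem_cmp.1 hv).2
  clear hv
  induction hv' with
  | refl => exact Reach.refl _
  | tail h1 h2 ih =>
    exact Relation.ReflTransGen.tail ih ⟨h2.1, mem_cmp.2 ⟨h2.2, Relation.ReflTransGen.tail h1 h2⟩⟩

lemma reach_or {S P : Finset V} {s x : V} (hs : s ∈ P) (h : Reach (addClique G S) P s x) :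
    Reach G P s x ∨ ∃ a ∈ S, a ∈ P ∧ Reach G P s a := by
  induction h with
  | refl => exact Or.inl (Reach.refl _)
  | tail h1 h2 ih =>
    rename_i y z
    rcases ih with ih | ih
    · rcases h2.1.2 with h | h
      · exact Or.inl (ih.step h h2.2)
      · exact Or.inr ⟨y, h.1, ih.mem hs, ih⟩
    · exact Or.inr ih

/-- REROUTING: sets joined in `G[A0] + clique on S` are joined in `G[A0 ∪ B]` if `(G[B], S)` is
linked and `A0 ∩ B = S`. -/
theorem reroute {A0 B S : Finset V} (hS : A0 ∩ B = S) (hlink : Linked G B S) (hXA : X ⊆ A0)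
    {ι : Type*} [Finite ι] {s t : ι → V} {P : ι → Finset V}
    (hP : Joined (addClique G S) A0 X s t P) : ∃ Q : ι → Finset V, Joined G (A0 ∪ B) X s t Q := by
  classical
  have hex : ∀ i, ∃ a b, ¬ Reach G (P i) (s i) (t i) →
      a ∈ S ∧ a ∈ cmp G (P i) (s i) ∧ b ∈ S ∧ b ∈ cmp G (P i) (t i) := by
    intro i
    by_cases hr : Reach G (P i) (s i) (t i)
    · exact ⟨s i, s i, fun h => absurd hr h⟩
    · have h1 := reach_or (hP.left i) ((hP.conn i).reach (hP.left i) (hP.right i))
      have h2 := reach_or (hP.right i) ((hP.conn i).reach (hP.right i) (hP.left i))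
      obtain ⟨a, ha1, ha2, ha3⟩ := h1.resolve_left hr
      obtain ⟨b, hb1, hb2, hb3⟩ := h2.resolve_left (fun h => hr (h.symm (hP.right i)))
      exact ⟨a, b, fun _ => ⟨ha1, mem_cmp.2 ⟨ha2, ha3⟩, hb1, mem_cmp.2 ⟨hb2, hb3⟩⟩⟩
  choose a b hab using hex
  have hdisj : ∀ i, ¬ Reach G (P i) (s i) (t i) → ∀ x, x ∈ cmp G (P i) (s i) →
      x ∈ cmp G (P i) (t i) → False := by
    intro i hi x hx hx'
    rw [mem_cmp] at hx hx'
    exact hi (hx.2.trans (hx'.2.symm (hP.right i)))
  have hPd : ∀ i j, ∀ x, x ∈ P i → x ∈ P j → i = j := by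
    intro i j x hx hx'
    by_contra hij
    exact Finset.disjoint_left.1 (hP.disj i j hij) hx hx'
  obtain ⟨R, hR⟩ := hlink.family (ι := {i : ι // ¬ Reach G (P i) (s i) (t i)})
    (fun i => a i.1) (fun i => b i.1) (fun i => (hab _ i.2).1) (fun i => (hab _ i.2).2.2.1)
    (by
      intro i j hij
      have h1 := cmp_sub (hab _ i.2).2.1
      have h2 := cmp_sub (hab _ j.2).2.1
      simp only at hij
      rw [hij] at h1
      exact Subtype.ext (hPd _ _ _ h1 h2))
    (by
      intro i j hij
      have h1 := cmp_sub (hab _ i.2).2.2.2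
      have h2 := cmp_sub (hab _ j.2).2.2.2
      simp only at hij
      rw [hij] at h1
      exact Subtype.ext (hPd _ _ _ h1 h2))
    (by
      intro i j hij
      have h1 := cmp_sub (hab _ i.2).2.1
      have h2 := cmp_sub (hab _ j.2).2.2.2
      rw [hij] at h1
      have h3 := Subtype.ext (hPd _ _ _ h1 h2)
      subst h3
      refine hdisj _ i.2 (a i.1) (hab _ i.2).2.1 ?_
      rw [hij]; exact (hab _ i.2).2.2.2)
  have hRA : ∀ i, ∀ x ∈ R i, x ∈ A0 → x = a i.1 ∨ x = b i.1 := by
    intro i x hx hxA
    apply hR.meet i x hx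
    rw [← hS]
    exact Finset.mem_inter.2 ⟨hxA, hR.sub i hx⟩
  have hRP : ∀ i, ∀ x ∈ R i, ∀ j, x ∈ P j → i.1 = j := by
    intro i x hx j hxP
    rcases hRA i x hx (hP.sub j hxP) with h | h
    · rw [h] at hxP
      exact hPd _ _ _ (cmp_sub (hab _ i.2).2.1) hxP
    · rw [h] at hxP
      exact hPd _ _ _ (cmp_sub (hab _ i.2).2.2.2) hxP
  -- the new sets
  have hQ : ∀ i, ∃ Q : Finset V, Q ⊆ A0 ∪ B ∧ Conn G Q ∧ s i ∈ Q ∧ t i ∈ Q ∧
      ∀ x ∈ Q, x ∈ P i ∨ ∃ h : ¬ Reach G (P i) (s i) (t i), x ∈ R ⟨i, h⟩ := by
    intro i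
    by_cases hr : Reach G (P i) (s i) (t i)
    · refine ⟨cmp G (P i) (s i), (cmp_sub.trans (hP.sub i)).trans Finset.subset_union_left,
        conn_cmp (hP.left i), self_mem_cmp (hP.left i), mem_cmp.2 ⟨hP.right i, hr⟩,
        fun x hx => Or.inl (cmp_sub hx)⟩
    · refine ⟨(cmp G (P i) (s i) ∪ R ⟨i, hr⟩) ∪ cmp G (P i) (t i), ?_, ?_, ?_, ?_, ?_⟩
      · refine Finset.union_subset (Finset.union_subset ?_ ?_) ?_
        · exact (cmp_sub.trans (hP.sub i)).trans Finset.subset_union_left
        · exact (hR.sub _).trans Finset.subset_union_right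
        · exact (cmp_sub.trans (hP.sub i)).trans Finset.subset_union_left
      · refine Conn.union (x := b i) (Conn.union (x := a i) (conn_cmp (hP.left i))
          (hR.conn ⟨i, hr⟩) (hab i hr).2.1 (hR.left ⟨i, hr⟩)) (conn_cmp (hP.right i)) ?_
          (hab i hr).2.2.2
        exact Finset.mem_union_right _ (hR.right ⟨i, hr⟩)
      · exact Finset.mem_union_left _ (Finset.mem_union_left _ (self_mem_cmp (hP.left i)))
      · exact Finset.mem_union_right _ (self_mem_cmp (hP.right i))
      · intro x hx
        rcases Finset.mem_union.1 hx with hx | hx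
        · rcases Finset.mem_union.1 hx with hx | hx
          · exact Or.inl (cmp_sub hx)
          · exact Or.inr ⟨hr, hx⟩
        · exact Or.inl (cmp_sub hx)
  choose Q hQ1 hQ2 hQ3 hQ4 hQ5 using hQ
  refine ⟨Q, ⟨hQ1, hQ2, hQ3, hQ4, ?_, ?_⟩⟩
  · intro i x hx hxX
    rcases hQ5 i x hx with h | ⟨hr, h⟩
    · exact hP.meet i x h hxX
    · have hxA := hXA hxX
      rcases hRA _ x h hxA with h' | h'
      · exact hP.meet i x (by rw [h']; exact cmp_sub (hab _ hr).2.1) hxX
      · exact hP.meet i x (by rw [h']; exact cmp_sub (hab _ hr).2.2.2) hxX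
  · intro i j hij
    rw [Finset.disjoint_left]
    intro x hx hx'
    rcases hQ5 i x hx with h | ⟨hr, h⟩ <;> rcases hQ5 j x hx' with h' | ⟨hr', h'⟩
    · exact hij (hPd _ _ _ h h')
    · exact hij (hRP _ x h' i h).symm
    · exact hij (hRP _ x h j h')
    · exact Finset.disjoint_left.1 (hR.disj _ _ (fun he => hij (congrArg Subtype.val he))) h h'

theorem Linked.reroute {A0 B S : Finset V} (hS : A0 ∩ B = S) (hlink : Linked G B S)
    (hXA : X ⊆ A0) (h : Linked (addClique G S) A0 X) : Linked G (A0 ∪ B) X := by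
  intro n s t hs ht h1 h2 h3
  obtain ⟨P, hP⟩ := h n s t hs ht h1 h2 h3
  exact TW870.reroute hS hlink hXA hP

/-! ### minimal separations and minimal violations -/

/-- a separation of minimal order: the other side is joined to the target. -/
theorem exists_min_sep {T : Finset V} (hX : X ⊆ W) (hT : T ⊆ W) {m : ℕ}
    (h : ¬ ∃ Q, Linkage G W X T Q ∧ Q.card = m) :
    ∃ A B Q, Sep G W A B ∧ X ⊆ A ∧ T ⊆ B ∧ (A ∩ B).card < m ∧ Linkage G B (A ∩ B) T Q ∧
      Q.card = (A ∩ B).card := by
  classical
  have h0 : ∃ r, ∃ A B, Sep G W A B ∧ X ⊆ A ∧ T ⊆ B ∧ (A ∩ B).card = r := by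
    rcases menger_sep (G := G) hX hT m with h' | ⟨A, B, h1, h2, h3, h4⟩
    · exact absurd h' h
    · exact ⟨_, A, B, h1, h2, h3, rfl⟩
  have hlt : Nat.find h0 < m := by
    rcases menger_sep (G := G) hX hT m with h' | ⟨A, B, h1, h2, h3, h4⟩
    · exact absurd h' h
    · exact lt_of_le_of_lt (Nat.find_min' h0 ⟨A, B, h1, h2, h3, rfl⟩) h4
  obtain ⟨A, B, h1, h2, h3, h4⟩ := Nat.find_spec h0
  rcases menger_sep (G := G) (W := B) (A := A ∩ B) (B := T) Finset.inter_subset_right h3
    (A ∩ B).card with ⟨Q, hQ1, hQ2⟩ | ⟨P, Q, k1, k2, k3, k4⟩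
  · exact ⟨A, B, Q, h1, h2, h3, by omega, hQ1, hQ2⟩
  · exfalso
    have hPB := k1.left_sub
    have hQB := k1.right_sub
    have heq : (A ∪ P) ∩ Q = P ∩ Q := by
      ext x
      simp only [Finset.mem_inter, Finset.mem_union]
      constructor
      · rintro ⟨h | h, h'⟩
        · exact ⟨k2 (Finset.mem_inter.2 ⟨h, hQB h'⟩), h'⟩
        · exact ⟨h, h'⟩
      · rintro ⟨h, h'⟩
        exact ⟨Or.inr h, h'⟩
    have hsep : Sep G W (A ∪ P) Q := by
      refine ⟨?_, ?_⟩
      · rw [Finset.union_assoc, k1.union, h1.union]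
      · intro a ha haQ b hb hbA hadj
        rw [Finset.mem_union, not_or] at hbA
        rw [Finset.mem_union] at ha
        by_cases haB : a ∈ B
        · have haP : a ∈ P := by
            rw [← k1.union, Finset.mem_union] at haB
            exact haB.resolve_right haQ
          exact k1.nadj a haP haQ b hb hbA.2 hadj
        · have haA : a ∈ A := by
            rcases ha with h | h
            · exact h
            · exact absurd (hPB h) haB
          exact h1.nadj a haA haB b (hQB hb) hbA.1 hadj
    have := Nat.find_min' h0 ⟨A ∪ P, Q, hsep, h2.trans Finset.subset_union_left, k3, rfl⟩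
    rw [heq] at this
    omega

lemma rho_ground_mono {W' S : Finset V} (h : W ⊆ W') : rho G W S ≤ rho G W' S := by
  classical
  unfold rho
  apply Finset.card_le_card
  intro p hp
  rw [Finset.mem_filter, Finset.mem_product] at hp ⊢
  exact ⟨⟨h hp.1.1, h hp.1.2⟩, hp.2⟩

/-- the right difference of a separation sees only the right side. -/
lemma Sep.rho_right {A B : Finset V} (h : Sep G W A B) {S : Finset V} (hS : S ⊆ B \ A) :
    rho G W S ≤ rho G B S := by
  classical
  unfold rho
  apply Finset.card_le_card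
  intro p hp
  rw [Finset.mem_filter, Finset.mem_product] at hp ⊢
  obtain ⟨⟨h1, h2⟩, h3, h4⟩ := hp
  have key : ∀ x y, x ∈ S → y ∈ W → G.Adj x y → x ∈ B ∧ y ∈ B := by
    intro x y hx hy hxy
    have hx' := Finset.mem_sdiff.1 (hS hx)
    refine ⟨hx'.1, ?_⟩
    by_contra hyB
    have hyA : y ∈ A := by
      rw [← h.union, Finset.mem_union] at hy
      exact hy.resolve_right hyB
    exact h.nadj y hyA hyB x hx'.1 hx'.2 hxy.symm
  rcases h4 with h4 | h4
  · obtain ⟨k1, k2⟩ := key _ _ h4 h2 h3
    exact ⟨⟨k1, k2⟩, h3, Or.inl h4⟩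
  · obtain ⟨k1, k2⟩ := key _ _ h4 h1 h3.symm
    exact ⟨⟨k2, k1⟩, h3, Or.inr h4⟩

/-- a minimal violation of (M2) is massed. -/
theorem viol {lam : ℕ} (h : ¬ ∀ A B, Sep G W A B → X ⊆ A → (A ∩ B).card < X.card →
      rho G W (B \ A) ≤ 2 * lam * (B \ A).card) :
    ∃ A B, Sep G W A B ∧ X ⊆ A ∧ (A ∩ B).card < X.card ∧
      2 * lam * (B \ A).card < rho G W (B \ A) ∧ Massed G B (A ∩ B) lam := by
  classical
  by_contra hcon
  apply h
  have key : ∀ (m : ℕ) (A B : Finset V), B.card = m → Sep G W A B → X ⊆ A →
      (A ∩ B).card < X.card → rho G W (B \ A) ≤ 2 * lam * (B \ A).card := by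
    intro m
    induction m using Nat.strong_induction_on with
    | _ m ih =>
      intro A B hm hsep hXA hlt
      by_contra hgt
      push Not at hgt
      apply hcon
      refine ⟨A, B, hsep, hXA, hlt, hgt, ⟨Finset.inter_subset_right, ?_, ?_⟩⟩
      · have heq : B \ (A ∩ B) = B \ A := by
          ext x; simp only [Finset.mem_sdiff, Finset.mem_inter]; tauto
        rw [heq]
        exact lt_of_lt_of_le hgt (Sep.rho_right hsep (le_refl _))
      · intro P Q hPQ hAP hcard
        have hPB := hPQ.left_sub
        have hQB := hPQ.right_sub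
        have heq : (A ∪ P) ∩ Q = P ∩ Q := by
          ext x
          simp only [Finset.mem_inter, Finset.mem_union]
          constructor
          · rintro ⟨h | h, h'⟩
            · exact ⟨hAP (Finset.mem_inter.2 ⟨h, hQB h'⟩), h'⟩
            · exact ⟨h, h'⟩
          · rintro ⟨h, h'⟩
            exact ⟨Or.inr h, h'⟩
        have heq2 : Q \ (A ∪ P) = Q \ P := by
          ext x
          simp only [Finset.mem_sdiff, Finset.mem_union, not_or]
          constructor
          · rintro ⟨h, h', h''⟩; exact ⟨h, h''⟩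
          · rintro ⟨h, h'⟩
            exact ⟨h, fun hA => h' (hAP (Finset.mem_inter.2 ⟨hA, hQB h⟩)), h'⟩
        have hsep' : Sep G W (A ∪ P) Q := by
          refine ⟨?_, ?_⟩
          · rw [Finset.union_assoc, hPQ.union, hsep.union]
          · intro a ha haQ b hb hbA hadj
            rw [Finset.mem_union, not_or] at hbA
            rw [Finset.mem_union] at ha
            by_cases haB : a ∈ B
            · have haP : a ∈ P := by
                rw [← hPQ.union, Finset.mem_union] at haB
                exact haB.resolve_right haQ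
              exact hPQ.nadj a haP haQ b hb hbA.2 hadj
            · have haA : a ∈ A := by
                rcases ha with h | h
                · exact h
                · exact absurd (hPB h) haB
              exact hsep.nadj a haA haB b (hQB hb) hbA.1 hadj
        have hQcard : Q.card < m := by
          rw [← hm]
          refine Finset.card_lt_card ⟨hQB, fun hBQ => ?_⟩
          have hQe : Q = B := le_antisymm hQB hBQ
          rw [hQe] at hcard
          have : A ∩ B ⊆ P ∩ B := fun x hx =>
            Finset.mem_inter.2 ⟨hAP hx, (Finset.mem_inter.1 hx).2⟩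
          exact absurd (Finset.card_le_card this) (by omega)
        have := ih Q.card hQcard (A ∪ P) Q rfl hsep' (hXA.trans Finset.subset_union_left)
          (by rw [heq]; omega)
        rw [heq2] at this
        exact (rho_ground_mono hsep.right_sub).trans this
  exact fun A B => key B.card A B rfl

lemma clique_side {S A B : Finset V} (h : Sep (addClique G S) W A B) (hS : S ⊆ W) :
    S ⊆ A ∨ S ⊆ B := by
  by_contra hcon
  rw [not_or, Finset.not_subset, Finset.not_subset] at hcon
  obtain ⟨⟨x, hx, hxA⟩, ⟨y, hy, hyB⟩⟩ := hcon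
  have hxB : x ∈ B := by
    have := hS hx
    rw [← h.union, Finset.mem_union] at this
    exact this.resolve_left hxA
  have hyA : y ∈ A := by
    have := hS hy
    rw [← h.union, Finset.mem_union] at this
    exact this.resolve_right hyB
  refine h.nadj y hyA hyB x hxB hxA ⟨?_, Or.inr ⟨hy, hx⟩⟩
  rintro rfl
  exact hxA hyA

/-- CLAIM A: in a minimal counterexample there is no rigid separation of order at most `|X|`. -/
theorem claimA {lam m : ℕ}
    (IH : ∀ (G' : SimpleGraph V) (W' X' : Finset V), W'.card < W.card → Massed G' W' X' lam →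
      X'.card ≤ m → Linked G' W' X')
    (hM : Massed G W X lam) (hXc : X.card ≤ m) {n : ℕ} {s t : Fin n → V}
    (hs : ∀ i, s i ∈ X) (ht : ∀ i, t i ∈ X) (hsi : Function.Injective s)
    (hti : Function.Injective t) (hst : ∀ i j, s i ≠ t j)
    (hbad : ¬ ∃ P : Fin n → Finset V, Joined G W X s t P) :
    ∀ (c : ℕ) (A B : Finset V), A.card = c → Sep G W A B → X ⊆ A → (B \ A).Nonempty →
      (A ∩ B).card ≤ X.card → ¬ Linked G B (A ∩ B) := by
  classical
  have hnl : ¬ Linked G W X := fun h => hbad (h n s t hs ht hsi hti hst)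
  intro c
  induction c using Nat.strong_induction_on with
  | _ c ihA =>
  intro A B hAc hsep hXA hBA hle hrig
  have hAW := hsep.left_sub
  have hBW := hsep.right_sub
  have hAlt : A.card < W.card := by
    refine Finset.card_lt_card ⟨hAW, fun hWA => ?_⟩
    obtain ⟨x, hx⟩ := hBA
    rw [Finset.mem_sdiff] at hx
    exact hx.2 (hWA (hBW hx.1))
  have hcardsplit : (W \ X).card = (A \ X).card + (B \ A).card := by
    rw [← Finset.card_union_of_disjoint]
    · congr 1
      ext x
      simp only [Finset.mem_sdiff, Finset.mem_union]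
      constructor
      · rintro ⟨h1, h2⟩
        by_cases hxA : x ∈ A
        · exact Or.inl ⟨hxA, h2⟩
        · rw [← hsep.union, Finset.mem_union] at h1
          exact Or.inr ⟨h1.resolve_left hxA, hxA⟩
      · rintro (⟨h1, h2⟩ | ⟨h1, h2⟩)
        · exact ⟨hAW h1, h2⟩
        · exact ⟨hBW h1, fun h => h2 (hXA h)⟩
    · rw [Finset.disjoint_left]
      intro x hx hx'
      exact (Finset.mem_sdiff.1 hx').2 (Finset.mem_sdiff.1 hx).1
  -- `(G[A] + clique on S, X)` is not massed
  have hnm : ¬ Massed (addClique G (A ∩ B)) A X lam := by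
    intro hm
    have hl := IH _ A X hAlt hm hXc
    apply hnl
    have := Linked.reroute rfl hrig hXA hl
    rwa [hsep.union] at this
  apply hnm
  refine ⟨hXA, ?_, ?_⟩
  · -- (M1)
    rcases Nat.lt_or_ge (A ∩ B).card X.card with hlt | hge
    · have h1 := hM.m2 A B hsep hXA hlt
      have h2 := hM.m1
      have h3 : rho G W (W \ X) ≤ rho (addClique G (A ∩ B)) A (A \ X) + rho G W (B \ A) := by
        unfold rho
        refine le_trans (Finset.card_le_card ?_) (Finset.card_union_le _ _)
        intro p hp
        rw [Finset.mem_filter, Finset.mem_product] at hp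
        obtain ⟨⟨k1, k2⟩, k3, k4⟩ := hp
        rw [Finset.mem_union, Finset.mem_filter, Finset.mem_filter, Finset.mem_product,
          Finset.mem_product]
        by_cases hp1 : p.1 ∈ A
        · by_cases hp2 : p.2 ∈ A
          · left
            refine ⟨⟨hp1, hp2⟩, adj_addClique k3, ?_⟩
            rcases k4 with k4 | k4
            · exact Or.inl (Finset.mem_sdiff.2 ⟨hp1, (Finset.mem_sdiff.1 k4).2⟩)
            · exact Or.inr (Finset.mem_sdiff.2 ⟨hp2, (Finset.mem_sdiff.1 k4).2⟩)
          · right
            refine ⟨⟨k1, k2⟩, k3, Or.inr (Finset.mem_sdiff.2 ⟨?_, hp2⟩)⟩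
            rw [← hsep.union, Finset.mem_union] at k2
            exact k2.resolve_left hp2
        · right
          refine ⟨⟨k1, k2⟩, k3, Or.inl (Finset.mem_sdiff.2 ⟨?_, hp1⟩)⟩
          rw [← hsep.union, Finset.mem_union] at k1
          exact k1.resolve_left hp1
      rw [hcardsplit, Nat.mul_add] at h2
      omega
    · exfalso
      have hSA : A ∩ B ⊆ A := Finset.inter_subset_left
      by_cases hlk : ∃ Q, Linkage G A X (A ∩ B) Q ∧ Q.card = X.card
      · obtain ⟨Q, hQ, hQc⟩ := hlk
        apply hnl
        have hXv : X ⊆ verts Q := by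
          have h1 := hQ.verts_inter_card_left
          have h2 : verts Q ∩ X = X :=
            Finset.eq_of_subset_of_card_le Finset.inter_subset_right (by omega)
          intro x hx
          rw [← h2] at hx
          exact (Finset.mem_inter.1 hx).1
        have hend : verts Q ∩ (A ∩ B) = A ∩ B := by
          refine Finset.eq_of_subset_of_card_le Finset.inter_subset_right ?_
          rw [hQ.verts_inter_card]
          omega
        have hvA : verts Q ⊆ A := by
          intro x hx
          obtain ⟨l, hl, hxl⟩ := mem_verts.1 hx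
          exact (hQ.path l hl).sub x hxl
        have := comp (W2 := B) hQ hXv (fun x hx => Finset.mem_inter.2
          ⟨hvA (Finset.mem_inter.1 hx).1, (Finset.mem_inter.1 hx).2⟩) (by rw [hend]; exact hrig)
        rwa [hsep.union] at this
      · obtain ⟨A1, A2, Q, k1, k2, k3, k4, k5, k6⟩ := exists_min_sep hXA hSA hlk
        have hA1 := k1.left_sub
        have hA2 := k1.right_sub
        have heq : A1 ∩ (A2 ∪ B) = A1 ∩ A2 := by
          ext x
          simp only [Finset.mem_inter, Finset.mem_union]
          constructor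
          · rintro ⟨h1, h2 | h2⟩
            · exact ⟨h1, h2⟩
            · exact ⟨h1, k3 (Finset.mem_inter.2 ⟨hA1 h1, h2⟩)⟩
          · rintro ⟨h1, h2⟩
            exact ⟨h1, Or.inl h2⟩
        have hlt1 : A1.card < c := by
          rw [← hAc]
          refine Finset.card_lt_card ⟨hA1, fun hAA => ?_⟩
          have : A ∩ B ⊆ A1 ∩ A2 := fun x hx =>
            Finset.mem_inter.2 ⟨hAA (Finset.mem_inter.1 hx).1, k3 hx⟩
          have := Finset.card_le_card this
          omega
        have hsep1 : Sep G W A1 (A2 ∪ B) := by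
          refine ⟨by rw [← Finset.union_assoc, k1.union, hsep.union], ?_⟩
          intro a ha haB b hb hbA hadj
          rw [Finset.mem_union, not_or] at haB
          have haA := hA1 ha
          by_cases hbA' : b ∈ A
          · have hb2 : b ∈ A2 := by
              rw [← k1.union, Finset.mem_union] at hbA'
              exact hbA'.resolve_left hbA
            exact k1.nadj a ha haB.1 b hb2 hbA hadj
          · have hbB : b ∈ B := by
              rcases Finset.mem_union.1 hb with h | h
              · exact absurd (hA2 h) hbA'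
              · exact h
            exact hsep.nadj a haA haB.2 b hbB hbA' hadj
        refine ihA A1.card hlt1 A1 (A2 ∪ B) rfl hsep1 k2 ?_ (by rw [heq]; omega) ?_
        · obtain ⟨x, hx⟩ := hBA
          rw [Finset.mem_sdiff] at hx
          exact ⟨x, Finset.mem_sdiff.2 ⟨Finset.mem_union_right _ hx.1, fun h => hx.2 (hA1 h)⟩⟩
        · rw [heq]
          have hv1 : A1 ∩ A2 ⊆ verts Q := by
            have h1 := k5.verts_inter_card_left
            have h2 : verts Q ∩ (A1 ∩ A2) = A1 ∩ A2 :=
              Finset.eq_of_subset_of_card_le Finset.inter_subset_right (by omega)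
            intro x hx
            rw [← h2] at hx
            exact (Finset.mem_inter.1 hx).1
          have hvA : verts Q ⊆ A2 := by
            intro x hx
            obtain ⟨l, hl, hxl⟩ := mem_verts.1 hx
            exact (k5.path l hl).sub x hxl
          refine comp (W2 := B) k5 hv1 (fun x hx => Finset.mem_inter.2
            ⟨hA2 (hvA (Finset.mem_inter.1 hx).1), (Finset.mem_inter.1 hx).2⟩) ?_
          -- the set of ends is a subset of `S`
          exact linked_anti Finset.inter_subset_right hrig
  · -- (M2)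
    by_contra hviol
    obtain ⟨A', B', h1, h2, h3, h4, h5⟩ := viol hviol
    have hA'A := h1.left_sub
    have hB'A := h1.right_sub
    rcases clique_side h1 Finset.inter_subset_left with hS | hS
    · -- `S ⊆ A'`
      have heq : (A' ∪ B) ∩ B' = A' ∩ B' := by
        ext x
        simp only [Finset.mem_inter, Finset.mem_union]
        constructor
        · rintro ⟨k | k, k'⟩
          · exact ⟨k, k'⟩
          · exact ⟨hS (Finset.mem_inter.2 ⟨hB'A k', k⟩), k'⟩
        · rintro ⟨k, k'⟩
          exact ⟨Or.inl k, k'⟩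
      have heq2 : B' \ (A' ∪ B) = B' \ A' := by
        ext x
        simp only [Finset.mem_sdiff, Finset.mem_union, not_or]
        constructor
        · rintro ⟨k, k', k''⟩; exact ⟨k, k'⟩
        · rintro ⟨k, k'⟩
          exact ⟨k, k', fun hB => k' (hS (Finset.mem_inter.2 ⟨hB'A k, hB⟩))⟩
      have hsep' : Sep G W (A' ∪ B) B' := by
        refine ⟨?_, ?_⟩
        · have : A' ∪ B ∪ B' = (A' ∪ B') ∪ B := by
            ext x; simp only [Finset.mem_union]; tauto
          rw [this, h1.union, hsep.union]
        · intro a ha haB b hb hbA hadj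
          rw [Finset.mem_union, not_or] at hbA
          by_cases haA : a ∈ A
          · have haA' : a ∈ A' := by
              rw [← h1.union, Finset.mem_union] at haA
              exact haA.resolve_right haB
            exact h1.nadj a haA' haB b hb hbA.1 (adj_addClique hadj)
          · have haB' : a ∈ B := by
              rcases Finset.mem_union.1 ha with k | k
              · exact absurd (hA'A k) haA
              · exact k
            exact hsep.nadj b (hB'A hb) hbA.2 a haB' haA hadj.symm
      have k1 := hM.m2 (A' ∪ B) B' hsep' (h2.trans Finset.subset_union_left) (by rw [heq]; exact h3)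
      rw [heq2] at k1
      have k2 : rho (addClique G (A ∩ B)) A (B' \ A') ≤ rho G W (B' \ A') := by
        unfold rho
        apply Finset.card_le_card
        intro p hp
        rw [Finset.mem_filter, Finset.mem_product] at hp ⊢
        obtain ⟨⟨j1, j2⟩, j3, j4⟩ := hp
        refine ⟨⟨hAW j1, hAW j2⟩, ?_, j4⟩
        rcases j3.2 with j | j
        · exact j
        · exfalso
          rcases j4 with j4 | j4
          · exact (Finset.mem_sdiff.1 j4).2 (hS j.1)
          · exact (Finset.mem_sdiff.1 j4).2 (hS j.2)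
      omega
    · -- `S ⊆ B'`
      by_cases hSA' : A ∩ B ⊆ A'
      · -- then the first case applies again
        have heq : (A' ∪ B) ∩ B' = A' ∩ B' := by
          ext x
          simp only [Finset.mem_inter, Finset.mem_union]
          constructor
          · rintro ⟨k | k, k'⟩
            · exact ⟨k, k'⟩
            · exact ⟨hSA' (Finset.mem_inter.2 ⟨hB'A k', k⟩), k'⟩
          · rintro ⟨k, k'⟩
            exact ⟨Or.inl k, k'⟩
        have heq2 : B' \ (A' ∪ B) = B' \ A' := by
          ext x
          simp only [Finset.mem_sdiff, Finset.mem_union, not_or]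
          constructor
          · rintro ⟨k, k', k''⟩; exact ⟨k, k'⟩
          · rintro ⟨k, k'⟩
            exact ⟨k, k', fun hB => k' (hSA' (Finset.mem_inter.2 ⟨hB'A k, hB⟩))⟩
        have hsep' : Sep G W (A' ∪ B) B' := by
          refine ⟨?_, ?_⟩
          · have : A' ∪ B ∪ B' = (A' ∪ B') ∪ B := by
              ext x; simp only [Finset.mem_union]; tauto
            rw [this, h1.union, hsep.union]
          · intro a ha haB b hb hbA hadj
            rw [Finset.mem_union, not_or] at hbA
            by_cases haA : a ∈ A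
            · have haA' : a ∈ A' := by
                rw [← h1.union, Finset.mem_union] at haA
                exact haA.resolve_right haB
              exact h1.nadj a haA' haB b hb hbA.1 (adj_addClique hadj)
            · have haB' : a ∈ B := by
                rcases Finset.mem_union.1 ha with k | k
                · exact absurd (hA'A k) haA
                · exact k
              exact hsep.nadj b (hB'A hb) hbA.2 a haB' haA hadj.symm
        have k1 := hM.m2 (A' ∪ B) B' hsep' (h2.trans Finset.subset_union_left)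
          (by rw [heq]; exact h3)
        rw [heq2] at k1
        have k2 : rho (addClique G (A ∩ B)) A (B' \ A') ≤ rho G W (B' \ A') := by
          unfold rho
          apply Finset.card_le_card
          intro p hp
          rw [Finset.mem_filter, Finset.mem_product] at hp ⊢
          obtain ⟨⟨j1, j2⟩, j3, j4⟩ := hp
          refine ⟨⟨hAW j1, hAW j2⟩, ?_, j4⟩
          rcases j3.2 with j | j
          · exact j
          · exfalso
            rcases j4 with j4 | j4
            · exact (Finset.mem_sdiff.1 j4).2 (hSA' j.1)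
            · exact (Finset.mem_sdiff.1 j4).2 (hSA' j.2)
        omega
      · have hl := IH _ B' (A' ∩ B') (lt_of_le_of_lt (Finset.card_le_card hB'A) hAlt) h5
          (by omega)
        have hBB : B' ∩ B = A ∩ B := by
          ext x
          simp only [Finset.mem_inter]
          constructor
          · rintro ⟨k, k'⟩; exact ⟨hB'A k, k'⟩
          · rintro ⟨k, k'⟩; exact ⟨hS (Finset.mem_inter.2 ⟨k, k'⟩), k'⟩
        have hl2 := Linked.reroute hBB hrig Finset.inter_subset_right hl
        have heq : A' ∩ (B' ∪ B) = A' ∩ B' := by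
          ext x
          simp only [Finset.mem_inter, Finset.mem_union]
          constructor
          · rintro ⟨k, k' | k'⟩
            · exact ⟨k, k'⟩
            · exact ⟨k, hS (Finset.mem_inter.2 ⟨hA'A k, k'⟩)⟩
          · rintro ⟨k, k'⟩
            exact ⟨k, Or.inl k'⟩
        have hlt1 : A'.card < c := by
          rw [← hAc]
          exact Finset.card_lt_card ⟨hA'A, fun hAA => hSA' (Finset.inter_subset_left.trans hAA)⟩
        have hsep' : Sep G W A' (B' ∪ B) := by
          refine ⟨by rw [← Finset.union_assoc, h1.union, hsep.union], ?_⟩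
          intro a ha haB b hb hbA hadj
          rw [Finset.mem_union, not_or] at haB
          by_cases hbA' : b ∈ A
          · have hb2 : b ∈ B' := by
              rw [← h1.union, Finset.mem_union] at hbA'
              exact hbA'.resolve_left hbA
            exact h1.nadj a ha haB.1 b hb2 hbA (adj_addClique hadj)
          · have hbB : b ∈ B := by
              rcases Finset.mem_union.1 hb with k | k
              · exact absurd (hB'A k) hbA'
              · exact k
            exact hsep.nadj a (hA'A ha) haB.2 b hbB hbA' hadj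
        refine ihA A'.card hlt1 A' (B' ∪ B) rfl hsep' h2 ?_ (by rw [heq]; omega)
          (by rw [heq]; exact hl2)
        obtain ⟨x, hx⟩ := hBA
        rw [Finset.mem_sdiff] at hx
        exact ⟨x, Finset.mem_sdiff.2 ⟨Finset.mem_union_right _ hx.1, fun h => hx.2 (hA'A h)⟩⟩

end Crest.Agent.R042.TW870
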