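import Mathlib
import Crest.Agent.R042.LinkDefs_870
import Crest.Agent.R042.TWA_870
import Crest.Agent.R042.LemD_473

/-! Row 42, sec 05 (Thomas-Wollan), part C: CLAIM C and the END, from claim A and claim B. -/

set_option autoImplicit false
set_option linter.unusedSectionVars false

namespace Crest.Agent.R042.TW870

open Finset Crest.Agent.R042.Conn353 Crest.Agent.R042.Menger353 Crest.Agent.R042.Link870

variable {V : Type*} [DecidableEq V] {G : SimpleGraph V} {W X : Finset V}

/-! ### monotonicity in the graph -/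

lemma Linked.mono_graph {H : SimpleGraph V} (hGH : ∀ x y, G.Adj x y → H.Adj x y)
    (h : Linked G W X) : Linked H W X := by
  intro n s t hs ht h1 h2 h3
  obtain ⟨P, hP⟩ := h n s t hs ht h1 h2 h3
  exact ⟨P, hP.sub, fun i => (hP.conn i).mono_graph hGH, hP.left, hP.right, hP.meet, hP.disj⟩

lemma rho_mono_graph {H : SimpleGraph V} (hGH : ∀ x y, G.Adj x y → H.Adj x y) (S : Finset V) :
    rho G W S ≤ rho H W S := by
  classical
  unfold rho
  apply Finset.card_le_card
  intro p hp
  rw [Finset.mem_filter] at hp ⊢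
  exact ⟨hp.1, hGH _ _ hp.2.1, hp.2.2⟩

/-! ### deleting one edge -/

/-- `G` minus the edge `uv`. -/
def delE (G : SimpleGraph V) (u v : V) : SimpleGraph V where
  Adj x y := G.Adj x y ∧ ¬ (x = u ∧ y = v) ∧ ¬ (x = v ∧ y = u)
  symm := ⟨fun _ _ h => ⟨h.1.symm, fun k => h.2.2 ⟨k.2, k.1⟩, fun k => h.2.1 ⟨k.2, k.1⟩⟩⟩
  loopless := ⟨fun _ h => h.1.ne rfl⟩

lemma delE_le {u v : V} : ∀ x y, (delE G u v).Adj x y → G.Adj x y := fun _ _ h => h.1

lemma rho_delE {u v : V} (S : Finset V) : rho G W S ≤ rho (delE G u v) W S + 2 := by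
  classical
  have h : ((W ×ˢ W).filter (fun p => G.Adj p.1 p.2 ∧ (p.1 ∈ S ∨ p.2 ∈ S))) ⊆
      ((W ×ˢ W).filter (fun p => (delE G u v).Adj p.1 p.2 ∧ (p.1 ∈ S ∨ p.2 ∈ S))) ∪
        {(u, v), (v, u)} := by
    intro p hp
    rw [Finset.mem_filter] at hp
    rw [Finset.mem_union, Finset.mem_filter, Finset.mem_insert, Finset.mem_singleton]
    by_cases h1 : p.1 = u ∧ p.2 = v
    · right; left; exact Prod.ext h1.1 h1.2
    · by_cases h2 : p.1 = v ∧ p.2 = u
      · right; right; exact Prod.ext h2.1 h2.2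
      · left; exact ⟨hp.1, ⟨hp.2.1, h1, h2⟩, hp.2.2⟩
  unfold rho
  refine (Finset.card_le_card h).trans ((Finset.card_union_le _ _).trans ?_)
  exact Nat.add_le_add_left Finset.card_le_two _

lemma rho_delE_lt {u v : V} {S : Finset V} (hu : u ∈ W) (hv : v ∈ W) (hvS : v ∈ S)
    (huv : G.Adj u v) : rho (delE G u v) W S < rho G W S := by
  classical
  unfold rho
  apply Finset.card_lt_card
  refine ⟨?_, ?_⟩
  · intro p hp
    rw [Finset.mem_filter] at hp ⊢
    exact ⟨hp.1, hp.2.1.1, hp.2.2⟩
  · intro hsub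
    have : (u, v) ∈ ((W ×ˢ W).filter (fun p => G.Adj p.1 p.2 ∧ (p.1 ∈ S ∨ p.2 ∈ S))) := by
      rw [Finset.mem_filter, Finset.mem_product]
      exact ⟨⟨hu, hv⟩, huv, Or.inr hvS⟩
    have := hsub this
    rw [Finset.mem_filter] at this
    exact this.2.1.2.1 ⟨rfl, rfl⟩

/-! ### the final step -/

theorem final_step {k : ℕ} (hk : 1 ≤ k)
    (IH : ∀ (G' : SimpleGraph V) (W' X' : Finset V), W'.card < W.card → Massed G' W' X' (8 * k) →
      X'.card ≤ 2 * k → Linked G' W' X')
    (IH2 : ∀ (G' : SimpleGraph V), Massed G' W X (8 * k) →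
      rho G' W (W \ X) < rho G W (W \ X) → Linked G' W X)
    (hM : Massed G W X (8 * k)) (hXc : X.card ≤ 2 * k) (hnl : ¬ Linked G W X)
    (hA : ∀ A B, Sep G W A B → X ⊆ A → (B \ A).Nonempty → (A ∩ B).card ≤ X.card →
      ¬ Linked G B (A ∩ B))
    (hB : ∀ u ∈ W, ∀ v ∈ W, v ∉ X → G.Adj u v → 8 * k ≤ (nb G W u ∩ nb G W v).card + 1) :
    False := by
  classical
  have hXW := hM.sub
  -- an edge with an end outside `X`
  obtain ⟨u0, v0, hu0, hv0, hv0X, huv0⟩ : ∃ u v, u ∈ W ∧ v ∈ W ∧ v ∉ X ∧ G.Adj u v := by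
    have h0 : 0 < rho G W (W \ X) := lt_of_le_of_lt (Nat.zero_le _) hM.m1
    unfold rho at h0
    obtain ⟨p, hp⟩ := Finset.card_pos.1 h0
    rw [Finset.mem_filter, Finset.mem_product] at hp
    obtain ⟨⟨h1, h2⟩, h3, h4 | h4⟩ := hp
    · exact ⟨p.2, p.1, h2, h1, (Finset.mem_sdiff.1 h4).2, h3.symm⟩
    · exact ⟨p.1, p.2, h1, h2, (Finset.mem_sdiff.1 h4).2, h3⟩
  -- CLAIM C
  have hC : rho G W (W \ X) ≤ 2 * (8 * k) * (W \ X).card + 2 := by
    by_contra hcon
    push Not at hcon
    apply hnl
    refine Linked.mono_graph (delE_le (u := u0) (v := v0)) ?_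
    apply IH2
    · refine ⟨hXW, ?_, ?_⟩
      · have := rho_delE (G := G) (W := W) (u := u0) (v := v0) (W \ X)
        omega
      · intro A B hsep hXA hlt
        have hcom := hB u0 hu0 v0 hv0 hv0X huv0
        have hsep' : Sep G W A B := by
          refine ⟨hsep.union, ?_⟩
          intro a ha haB b hb hbA hadj
          by_cases hab : (a = u0 ∧ b = v0) ∨ (a = v0 ∧ b = u0)
          · have hsub : nb G W u0 ∩ nb G W v0 ⊆ A ∩ B := by
              intro y hy
              rw [Finset.mem_inter, mem_nb, mem_nb] at hy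
              obtain ⟨⟨hyW, hy1⟩, -, hy2⟩ := hy
              have hya : (delE G u0 v0).Adj a y := by
                rcases hab with ⟨h1, h2⟩ | ⟨h1, h2⟩
                · subst h1 h2
                  refine ⟨hy1, fun h => ?_, fun h => hadj.ne h.1⟩
                  rw [h.2] at hy2
                  exact hy2.ne rfl
                · subst h1 h2
                  refine ⟨hy2, fun h => hadj.ne h.1, fun h => ?_⟩
                  rw [h.2] at hy1
                  exact hy1.ne rfl
              have hyb : (delE G u0 v0).Adj y b := by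
                rcases hab with ⟨h1, h2⟩ | ⟨h1, h2⟩
                · subst h1 h2
                  refine ⟨hy2.symm, fun h => ?_, fun h => hadj.ne h.2.symm⟩
                  rw [h.1] at hy1
                  exact hy1.ne rfl
                · subst h1 h2
                  refine ⟨hy1.symm, fun h => hadj.ne h.2.symm, fun h => ?_⟩
                  rw [h.1] at hy2
                  exact hy2.ne rfl
              have hyAB := hyW
              rw [← hsep.union, Finset.mem_union] at hyAB
              rw [Finset.mem_inter]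
              by_contra hcon'
              rw [not_and_or] at hcon'
              rcases hcon' with h | h
              · exact hsep.nadj a ha haB y (hyAB.resolve_left h) h hya
              · exact hsep.nadj y (hyAB.resolve_right h) h b hb hbA hyb
            have := Finset.card_le_card hsub
            omega
          · rw [not_or] at hab
            exact hsep.nadj a ha haB b hb hbA ⟨hadj, hab.1, hab.2⟩
        exact (rho_mono_graph delE_le _).trans (hM.m2 A B hsep' hXA hlt)
    · exact rho_delE_lt hu0 hv0 (Finset.mem_sdiff.2 ⟨hv0, hv0X⟩) huv0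
  -- no isolated vertex outside `X`
  have hiso : ∀ v ∈ W, v ∉ X → (nb G W v).Nonempty := by
    intro v hv hvX
    by_contra hne
    rw [Finset.not_nonempty_iff_eq_empty] at hne
    have hnadj : ∀ y ∈ W, ¬ G.Adj v y := by
      intro y hy hadj
      have : y ∈ nb G W v := mem_nb.2 ⟨hy, hadj⟩
      rw [hne] at this
      exact absurd this (Finset.notMem_empty _)
    apply hnl
    refine Linked.mono (W := W.erase v) ?_ (Finset.erase_subset _ _)
    refine IH G (W.erase v) X (Finset.card_erase_lt_of_mem hv) ⟨?_, ?_, ?_⟩ hXc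
    · intro x hx
      exact Finset.mem_erase.2 ⟨fun h => hvX (h ▸ hx), hXW hx⟩
    · have h1 : rho G W (W \ X) ≤ rho G (W.erase v) (W.erase v \ X) := by
        unfold rho
        apply Finset.card_le_card
        intro p hp
        rw [Finset.mem_filter, Finset.mem_product] at hp ⊢
        obtain ⟨⟨h1, h2⟩, h3, h4⟩ := hp
        have hp1 : p.1 ≠ v := by
          rintro h
          rw [h] at h3
          exact hnadj _ h2 h3
        have hp2 : p.2 ≠ v := by
          rintro h
          rw [h] at h3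
          exact hnadj _ h1 h3.symm
        refine ⟨⟨Finset.mem_erase.2 ⟨hp1, h1⟩, Finset.mem_erase.2 ⟨hp2, h2⟩⟩, h3, ?_⟩
        rcases h4 with h4 | h4
        · exact Or.inl (Finset.mem_sdiff.2 ⟨Finset.mem_erase.2 ⟨hp1, h1⟩,
            (Finset.mem_sdiff.1 h4).2⟩)
        · exact Or.inr (Finset.mem_sdiff.2 ⟨Finset.mem_erase.2 ⟨hp2, h2⟩,
            (Finset.mem_sdiff.1 h4).2⟩)
      have h2 : (W.erase v \ X).card ≤ (W \ X).card :=
        Finset.card_le_card (Finset.sdiff_subset_sdiff (Finset.erase_subset _ _) (le_refl _))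
      have h3 := hM.m1
      have h4 : 2 * (8 * k) * (W.erase v \ X).card ≤ 2 * (8 * k) * (W \ X).card :=
        Nat.mul_le_mul_left _ h2
      omega
    · intro A B hsep hXA hlt
      have hBv : v ∉ B := fun h => Finset.notMem_erase v W (hsep.right_sub h)
      have hBW : B ⊆ W := hsep.right_sub.trans (Finset.erase_subset _ _)
      have heq : insert v A ∩ B = A ∩ B := by
        rw [Finset.insert_inter_of_notMem hBv]
      have heq2 : B \ insert v A = B \ A := by
        ext x
        simp only [Finset.mem_sdiff, Finset.mem_insert, not_or]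
        constructor
        · rintro ⟨h, h', h''⟩; exact ⟨h, h''⟩
        · rintro ⟨h, h'⟩; exact ⟨h, fun h2 => hBv (h2 ▸ h), h'⟩
      have hsep' : Sep G W (insert v A) B := by
        refine ⟨?_, ?_⟩
        · rw [Finset.insert_union, hsep.union, Finset.insert_erase hv]
        · intro a ha haB b hb hbA hadj
          rw [Finset.mem_insert, not_or] at hbA
          rcases Finset.mem_insert.1 ha with h | h
          · rw [h] at hadj
            exact hnadj b (hBW hb) hadj
          · exact hsep.nadj a h haB b hb hbA.2 hadj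
      have h1 := hM.m2 (insert v A) B hsep' (hXA.trans (Finset.subset_insert _ _))
        (by rw [heq]; exact hlt)
      rw [heq2] at h1
      exact (rho_ground_mono (Finset.erase_subset _ _)).trans h1
  -- `|W \ X| ≥ 3`
  have h3 : 3 ≤ (W \ X).card := by
    have hcom := hB u0 hu0 v0 hv0 hv0X huv0
    have hsub : nb G W u0 ∩ nb G W v0 ⊆ (W \ X) ∪ X := by
      intro y hy
      rw [Finset.mem_inter, mem_nb] at hy
      rw [Finset.mem_union, Finset.mem_sdiff]
      by_cases hyX : y ∈ X
      · exact Or.inr hyX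
      · exact Or.inl ⟨hy.1.1, hyX⟩
    have h1 := Finset.card_le_card hsub
    have h2 := Finset.card_union_le (W \ X) X
    omega
  -- a vertex of small degree
  obtain ⟨v, hv, hdeg⟩ : ∃ v ∈ W \ X, (nb G W v).card < 16 * k + 1 := by
    by_contra hcon
    push Not at hcon
    have h1 := sum_nb_le_rho (G := G) (W := W) (S := W \ X) Finset.sdiff_subset
    have h2 : (W \ X).card * (16 * k + 1) ≤ ∑ v ∈ W \ X, (nb G W v).card := by
      rw [← smul_eq_mul]
      exact Finset.card_nsmul_le_sum _ _ _ hcon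
    have h4 : (W \ X).card * (16 * k + 1) = 2 * (8 * k) * (W \ X).card + (W \ X).card := by ring
    omega
  rw [Finset.mem_sdiff] at hv
  have hvv : v ∉ nb G W v := fun h => (mem_nb.1 h).2.ne rfl
  -- Lemma D
  obtain ⟨C, hCL, hCc, hClink⟩ := LemD473.lemD (G := G) hk (L := insert v (nb G W v))
    (Finset.insert_nonempty _ _) (by
      intro x hx
      rcases Finset.mem_insert.1 hx with rfl | hx
      · obtain ⟨u, hu⟩ := hiso _ hv.1 hv.2
        have hu' := mem_nb.1 hu
        have hc := hB u hu'.1 _ hv.1 hv.2 hu'.2.symm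
        have hsub : insert u (nb G W u ∩ nb G W x) ⊆ nb G (insert x (nb G W x)) x := by
          intro y hy
          rw [mem_nb]
          rcases Finset.mem_insert.1 hy with rfl | hy
          · exact ⟨Finset.mem_insert_of_mem hu, hu'.2⟩
          · have := (Finset.mem_inter.1 hy).2
            exact ⟨Finset.mem_insert_of_mem this, (mem_nb.1 this).2⟩
        have hnot : u ∉ nb G W u ∩ nb G W x := fun h =>
          (mem_nb.1 (Finset.mem_inter.1 h).1).2.ne rfl
        have := Finset.card_le_card hsub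
        rw [Finset.card_insert_of_notMem hnot] at this
        omega
      · have hx' := mem_nb.1 hx
        have hc := hB x hx'.1 v hv.1 hv.2 hx'.2.symm
        have hsub : insert v (nb G W x ∩ nb G W v) ⊆ nb G (insert v (nb G W v)) x := by
          intro y hy
          rw [mem_nb]
          rcases Finset.mem_insert.1 hy with rfl | hy
          · exact ⟨Finset.mem_insert_self _ _, hx'.2.symm⟩
          · have h1 := (Finset.mem_inter.1 hy).2
            have h2 := (Finset.mem_inter.1 hy).1
            exact ⟨Finset.mem_insert_of_mem h1, (mem_nb.1 h2).2⟩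
        have hnot : v ∉ nb G W x ∩ nb G W v := fun h =>
          (mem_nb.1 (Finset.mem_inter.1 h).2).2.ne rfl
        have := Finset.card_le_card hsub
        rw [Finset.card_insert_of_notMem hnot] at this
        omega) (by rw [Finset.card_insert_of_notMem hvv]; omega)
  have hCW : C ⊆ W := by
    refine hCL.trans ?_
    intro x hx
    rcases Finset.mem_insert.1 hx with rfl | hx
    · exact hv.1
    · exact (mem_nb.1 hx).1
  by_cases hlk : ∃ Q, Linkage G W X C Q ∧ Q.card = X.card
  · obtain ⟨Q, hQ, hQc⟩ := hlk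
    apply hnl
    have hXv : X ⊆ verts Q := by
      have h1 := hQ.verts_inter_card_left
      have h2 : verts Q ∩ X = X :=
        Finset.eq_of_subset_of_card_le Finset.inter_subset_right (by omega)
      intro x hx
      rw [← h2] at hx
      exact (Finset.mem_inter.1 hx).1
    have := comp (W2 := C) hQ hXv Finset.inter_subset_right
      (hClink _ Finset.inter_subset_right (by rw [hQ.verts_inter_card]; omega))
    rwa [Finset.union_eq_left.2 hCW] at this
  · obtain ⟨A, B, Q, k1, k2, k3, k4, k5, k6⟩ := exists_min_sep hXW hCW hlk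
    refine hA A B k1 k2 ?_ (le_of_lt k4) ?_
    · rw [Finset.sdiff_nonempty]
      intro hBA
      have : C ⊆ A ∩ B := fun x hx => Finset.mem_inter.2 ⟨hBA (k3 hx), k3 hx⟩
      have := Finset.card_le_card this
      omega
    · have hv1 : A ∩ B ⊆ verts Q := by
        have h1 := k5.verts_inter_card_left
        have h2 : verts Q ∩ (A ∩ B) = A ∩ B :=
          Finset.eq_of_subset_of_card_le Finset.inter_subset_right (by omega)
        intro x hx
        rw [← h2] at hx
        exact (Finset.mem_inter.1 hx).1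
      have := comp (W2 := C) k5 hv1 Finset.inter_subset_right
        (hClink _ Finset.inter_subset_right (by rw [k5.verts_inter_card]; omega))
      rwa [Finset.union_eq_left.2 k3] at this

/-! ### normalisation: all edges inside `X` except the pairs -/

/-- `G` plus all edges inside `X` except the pairs `s i, t i`. -/
def normG (G : SimpleGraph V) (X : Finset V) {n : ℕ} (s t : Fin n → V) : SimpleGraph V where
  Adj x y := x ≠ y ∧ (G.Adj x y ∨ (x ∈ X ∧ y ∈ X ∧
    (∀ i, ¬ (x = s i ∧ y = t i)) ∧ ∀ i, ¬ (x = t i ∧ y = s i)))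
  symm := ⟨fun _ _ h => ⟨h.1.symm, h.2.imp (fun h => h.symm) (fun h => ⟨h.2.1, h.1,
    fun i k => h.2.2.2 i ⟨k.2, k.1⟩, fun i k => h.2.2.1 i ⟨k.2, k.1⟩⟩)⟩⟩
  loopless := ⟨fun _ h => h.1 rfl⟩

variable {n : ℕ} {s t : Fin n → V}

lemma le_normG : ∀ x y, G.Adj x y → (normG G X s t).Adj x y := fun _ _ h => ⟨h.ne, Or.inl h⟩

lemma rho_normG {S : Finset V} (hS : Disjoint S X) : rho (normG G X s t) W S ≤ rho G W S := by
  classical
  unfold rho
  apply Finset.card_le_card
  intro p hp
  rw [Finset.mem_filter] at hp ⊢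
  refine ⟨hp.1, ?_, hp.2.2⟩
  rcases hp.2.1.2 with h | h
  · exact h
  · exfalso
    rcases hp.2.2 with h' | h'
    · exact Finset.disjoint_left.1 hS h' h.1
    · exact Finset.disjoint_left.1 hS h' h.2.1

lemma Sep.of_le {H : SimpleGraph V} (hGH : ∀ x y, G.Adj x y → H.Adj x y) {A B : Finset V}
    (h : Sep H W A B) : Sep G W A B :=
  ⟨h.union, fun a ha haB b hb hbA hadj => h.nadj a ha haB b hb hbA (hGH _ _ hadj)⟩

lemma massed_normG {lam : ℕ} (hM : Massed G W X lam) : Massed (normG G X s t) W X lam := by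
  refine ⟨hM.sub, lt_of_lt_of_le hM.m1 (rho_mono_graph le_normG _), ?_⟩
  intro A B hsep hXA hlt
  refine (rho_normG ?_).trans (hM.m2 A B (Sep.of_le le_normG hsep) hXA hlt)
  rw [Finset.disjoint_left]
  intro x hx hxX
  exact (Finset.mem_sdiff.1 hx).2 (hXA hxX)

lemma joined_normG {P : Fin n → Finset V} (_hs : ∀ i, s i ∈ X) (_ht : ∀ i, t i ∈ X)
    (h : Joined (normG G X s t) W X s t P) : Joined G W X s t P := by
  refine ⟨h.sub, ?_, h.left, h.right, h.meet, h.disj⟩
  intro i
  have hc := h.conn i
  have hadj : ∀ x ∈ P i, ∀ y ∈ P i, (normG G X s t).Adj x y → G.Adj x y := by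
    intro x hx y hy hxy
    rcases hxy.2 with h1 | ⟨hxX, hyX, h1, h2⟩
    · exact h1
    · exfalso
      rcases h.meet i x hx hxX with hx' | hx' <;> rcases h.meet i y hy hyX with hy' | hy'
      · exact hxy.1 (hx'.trans hy'.symm)
      · exact h1 i ⟨hx', hy'⟩
      · exact h2 i ⟨hx', hy'⟩
      · exact hxy.1 (hx'.trans hy'.symm)
  have key : ∀ x y, x ∈ P i → Reach (normG G X s t) (P i) x y → Reach G (P i) x y := by
    intro x y hx hr
    induction hr with
    | refl => exact Reach.refl _
    | tail h1 h2 ih => exact ih.step (hadj _ (ih.mem hx) _ h2.2 h2.1) h2.2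
  rw [conn_iff] at hc ⊢
  exact ⟨hc.1, fun x hx y hy => key x y hx (hc.2 x hx y hy)⟩

lemma clq_normG (hsi : Function.Injective s) (hti : Function.Injective t)
    (hst : ∀ i j, s i ≠ t j) :
    ∀ u ∈ X, ∃ z, ∀ y ∈ X, y ≠ u → y ≠ z → (normG G X s t).Adj u y := by
  intro u hu
  by_cases h1 : ∃ i, u = s i
  · obtain ⟨i, rfl⟩ := h1
    refine ⟨t i, fun y hy hyu hyz => ⟨hyu.symm, Or.inr ⟨hu, hy, ?_, ?_⟩⟩⟩
    · rintro j ⟨h1, h2⟩
      have := hsi h1
      subst this
      exact hyz h2
    · rintro j ⟨h1, h2⟩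
      exact hst i j h1
  · by_cases h2 : ∃ i, u = t i
    · obtain ⟨i, rfl⟩ := h2
      refine ⟨s i, fun y hy hyu hyz => ⟨hyu.symm, Or.inr ⟨hu, hy, ?_, ?_⟩⟩⟩
      · rintro j ⟨h1, h2⟩
        exact hst j i h1.symm
      · rintro j ⟨h1, h2⟩
        have := hti h1
        subst this
        exact hyz h2
    · push Not at h1 h2
      exact ⟨u, fun y hy hyu _ => ⟨hyu.symm, Or.inr ⟨hu, hy, fun j h => h1 j h.1,
        fun j h => h2 j h.1⟩⟩⟩

/-- the literal text of CLAIM B. -/
def ClaimB (V : Type*) [DecidableEq V] : Prop :=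
  ∀ (k lam : ℕ) (G : SimpleGraph V) (W X : Finset V),
    (∀ (G' : SimpleGraph V) (W' X' : Finset V), W'.card < W.card → Massed G' W' X' lam →
      X'.card ≤ 2 * k → Linked G' W' X') →
    X.card ≤ 2 * k → Massed G W X lam → ¬ Linked G W X →
    (∀ A B, Sep G W A B → X ⊆ A → (B \ A).Nonempty → (A ∩ B).card ≤ X.card →
      ¬ Linked G B (A ∩ B)) →
    (∀ u ∈ X, ∃ z, ∀ y ∈ X, y ≠ u → y ≠ z → G.Adj u y) →
    ∀ u ∈ W, ∀ v ∈ W, v ∉ X → G.Adj u v → lam ≤ (nb G W u ∩ nb G W v).card + 1

/-- THOMAS-WOLLAN, from claim B. -/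
theorem tw_of_claimB (hCB : ClaimB V) {k : ℕ} (hk : 1 ≤ k) :
    ∀ (N r : ℕ) (G : SimpleGraph V) (W X : Finset V), W.card = N → rho G W (W \ X) = r →
      Massed G W X (8 * k) → X.card ≤ 2 * k → Linked G W X := by
  intro N
  induction N using Nat.strong_induction_on with
  | _ N ihN =>
  intro r
  induction r using Nat.strong_induction_on with
  | _ r ihr =>
  intro G W X hN hr hM hXc n s t hs ht hsi hti hst
  by_contra hbad
  have IH : ∀ (G' : SimpleGraph V) (W' X' : Finset V), W'.card < W.card →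
      Massed G' W' X' (8 * k) → X'.card ≤ 2 * k → Linked G' W' X' :=
    fun G' W' X' hlt hM' hX' => ihN W'.card (by omega) _ G' W' X' rfl rfl hM' hX'
  have hrho : rho (normG G X s t) W (W \ X) = r := by
    rw [← hr]
    refine le_antisymm (rho_normG ?_) (rho_mono_graph le_normG _)
    exact Finset.sdiff_disjoint
  have IH2 : ∀ (G' : SimpleGraph V), Massed G' W X (8 * k) →
      rho G' W (W \ X) < rho (normG G X s t) W (W \ X) → Linked G' W X :=
    fun G' hM' hlt => ihr _ (by rw [← hrho]; exact hlt) G' W X hN rfl hM' hXc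
  have hM1 : Massed (normG G X s t) W X (8 * k) := massed_normG hM
  have hbad1 : ¬ ∃ P : Fin n → Finset V, Joined (normG G X s t) W X s t P := by
    rintro ⟨P, hP⟩
    exact hbad ⟨P, joined_normG hs ht hP⟩
  have hnl : ¬ Linked (normG G X s t) W X := fun h => hbad1 (h n s t hs ht hsi hti hst)
  have hA : ∀ A B, Sep (normG G X s t) W A B → X ⊆ A → (B \ A).Nonempty →
      (A ∩ B).card ≤ X.card → ¬ Linked (normG G X s t) B (A ∩ B) :=
    fun A B => claimA IH hM1 hXc hs ht hsi hti hst hbad1 A.card A B rfl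
  have hB := hCB k (8 * k) (normG G X s t) W X IH hXc hM1 hnl hA (clq_normG hsi hti hst)
  exact final_step hk IH IH2 hM1 hXc hnl hA hB

end Crest.Agent.R042.TW870
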