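import Mathlib
import Crest.Agent.R042.TWC_870
import Crest.Agent.R042.TWBJ_831

/-! Row 42, sec 05: THOMAS-WOLLAN in massed form. -/

set_option autoImplicit false

namespace Crest.Agent.R042.TW870

open Finset Crest.Agent.R042.Conn353 Crest.Agent.R042.Menger353 Crest.Agent.R042.Link870

theorem claimB_all (V : Type*) [DecidableEq V] : ClaimB V := by
  intro k lam G W X IH hXk hM hno hA hclq u hu v hv hvX huv
  have h := TWBJ831.claimB (m := 2 * k) IH hXk hM hno hA hclq u hu v hv hvX huv
  split_ifs at h
  · exact h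
  · omega

variable {V : Type*} [DecidableEq V]

/-- THOMAS-WOLLAN: an `8k`-massed pair `(G[W], X)` with `|X| ≤ 2k` is linked. -/
theorem tw {k : ℕ} (hk : 1 ≤ k) {G : SimpleGraph V} {W X : Finset V}
    (hM : Massed G W X (8 * k)) (hX : X.card ≤ 2 * k) : Linked G W X :=
  tw_of_claimB (claimB_all V) hk W.card (rho G W (W \ X)) G W X rfl rfl hM hX

end Crest.Agent.R042.TW870
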