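import Mathlib
import Crest.Agent.R042.Conn_353

/-! Row 42, S0058, sec 07 (7)-(8): TOKENS.  `s` groups of `g` tokens; every piece `(p,q)`, `p < q`,
contains a model of `K_{4g}` whose branch sets (united with their legs) end in different vertices of
a linked hub `H0`.  Then there is a model of `K_{sg}`. -/

set_option autoImplicit false
set_option linter.unusedSectionVars false

namespace Crest.Agent.R042.Tok890

open Finset Conn353

variable {V : Type*} [DecidableEq V] {G : SimpleGraph V}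

/-- a chain of connected sets, consecutive ones joined by connected links, is connected. -/
lemma conn_chain {m : ℕ} (C : Fin (m+1) → Finset V) (L : Fin m → Finset V)
    (hC : ∀ i, Conn G (C i)) (hL : ∀ i, Conn G (L i))
    (h1 : ∀ i : Fin m, ∃ x ∈ C i.castSucc, x ∈ L i)
    (h2 : ∀ i : Fin m, ∃ x ∈ C i.succ, x ∈ L i) :
    Conn G ((univ.biUnion C) ∪ (univ.biUnion L)) := by
  have hCT : ∀ i, C i ⊆ (univ.biUnion C) ∪ (univ.biUnion L) := fun i =>
    (subset_biUnion_of_mem C (mem_univ i)).trans subset_union_left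
  have hLT : ∀ i, L i ⊆ (univ.biUnion C) ∪ (univ.biUnion L) := fun i =>
    (subset_biUnion_of_mem L (mem_univ i)).trans subset_union_right
  obtain ⟨x0, hx0⟩ := (hC 0).nonempty
  have key : ∀ (k : ℕ) (hk : k < m+1), ∀ x ∈ C ⟨k, hk⟩,
      Reach G ((univ.biUnion C) ∪ (univ.biUnion L)) x0 x := by
    intro k
    induction k with
    | zero => intro hk x hx; exact ((hC 0).reach hx0 hx).mono (hCT 0)
    | succ k ih =>
      intro hk x hx
      have hk' : k < m := by omega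
      obtain ⟨a, ha, haL⟩ := h1 ⟨k, hk'⟩
      obtain ⟨b, hb, hbL⟩ := h2 ⟨k, hk'⟩
      have r1 := ih (by omega) a ha
      have r2 := ((hL _).reach haL hbL).mono (hLT _)
      have r3 := ((hC ⟨k+1, hk⟩).reach hb hx).mono (hCT _)
      exact (r1.trans r2).trans r3
  refine conn_of_reach (hCT 0 hx0) ?_
  intro v hv
  rcases mem_union.1 hv with h | h
  · obtain ⟨i, -, hi⟩ := mem_biUnion.1 h
    exact key i.1 i.2 v hi
  · obtain ⟨i, -, hi⟩ := mem_biUnion.1 h
    obtain ⟨a, ha, haL⟩ := h1 i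
    exact (key _ i.castSucc.2 a ha).trans (((hL i).reach haL hi).mono (hLT i))

/-- index of the port `(side, token, in/out)` of a piece. -/
def idx {g : ℕ} (a : Bool) (t : Fin g) (b : Bool) : Fin (4*g) :=
  ⟨(if a then 2*g else 0) + 2*t.1 + (if b then 1 else 0), by
    have := t.2
    split_ifs <;> omega⟩

lemma idx_inj {g : ℕ} {a a' : Bool} {t t' : Fin g} {b b' : Bool}
    (h : idx a t b = idx a' t' b') : a = a' ∧ t = t' ∧ b = b' := by
  have h1 := congrArg Fin.val h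
  simp only [idx] at h1
  have h2 := t.2
  have h3 := t'.2
  cases a <;> cases a' <;> cases b <;> cases b' <;> simp at h1 ⊢ <;>
    first
      | (apply Fin.ext; omega)
      | omega

/-- the linking property of the hub that the tokens need. -/
def HubLink (G : SimpleGraph V) (H0 Y : Finset V) : Prop :=
  ∀ (n : ℕ) (u v : Fin n → V), Function.Injective u → Function.Injective v →
    (∀ i j, u i ≠ v j) → (∀ i, u i ∈ Y) → (∀ i, v i ∈ Y) →
    ∃ Q : Fin n → Finset V, (∀ k, Conn G (Q k) ∧ u k ∈ Q k ∧ v k ∈ Q k ∧ Q k ⊆ H0) ∧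
      (∀ k l, k ≠ l → Disjoint (Q k) (Q l)) ∧
      (∀ k, ∀ x ∈ Q k, x ∈ Y → x = u k ∨ x = v k)

/-- the linking property for an arbitrary finite index type. -/
lemma HubLink.family {H0 Y : Finset V} (h : HubLink G H0 Y) {J : Type*} [Fintype J]
    (u v : J → V) (hu : Function.Injective u) (hv : Function.Injective v)
    (huv : ∀ i j, u i ≠ v j) (hu' : ∀ i, u i ∈ Y) (hv' : ∀ i, v i ∈ Y) :
    ∃ Q : J → Finset V, (∀ k, Conn G (Q k) ∧ u k ∈ Q k ∧ v k ∈ Q k ∧ Q k ⊆ H0) ∧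
      (∀ k l, k ≠ l → Disjoint (Q k) (Q l)) ∧
      (∀ k, ∀ x ∈ Q k, x ∈ Y → x = u k ∨ x = v k) := by
  classical
  let e := Fintype.equivFin J
  obtain ⟨Q, h1, h2, h3⟩ := h (Fintype.card J) (u ∘ e.symm) (v ∘ e.symm)
    (hu.comp e.symm.injective) (hv.comp e.symm.injective) (fun i j => huv _ _)
    (fun i => hu' _) (fun i => hv' _)
  refine ⟨fun j => Q (e j), ?_, ?_, ?_⟩
  · intro k
    have := h1 (e k)
    simpa using this
  · intro k l hkl
    exact h2 _ _ (fun he => hkl (e.injective he))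
  · intro k x hx hxY
    have := h3 (e k) x hx hxY
    simpa using this

section main

variable {m g : ℕ} (D : Fin (m+2) → Fin (m+2) → Fin (4*g) → Finset V)
  (y : Fin (m+2) → Fin (m+2) → Fin (4*g) → V)

/-- the set of port `(t, b)` of group `P` in the piece of `P` and `Q`. -/
def E (P Q : Fin (m+2)) (t : Fin g) (b : Bool) : Finset V :=
  D (min P Q) (max P Q) (idx (decide (Q < P)) t b)

/-- its arrival in the hub. -/
def yE (P Q : Fin (m+2)) (t : Fin g) (b : Bool) : V :=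
  y (min P Q) (max P Q) (idx (decide (Q < P)) t b)

lemma key_inj {P Q P' Q' : Fin (m+2)} {t t' : Fin g} {b b' : Bool} (hPQ : P ≠ Q)
    (hPQ' : P' ≠ Q') (h1 : min P Q = min P' Q') (h2 : max P Q = max P' Q')
    (h3 : idx (decide (Q < P)) t b = idx (decide (Q' < P')) t' b') :
    P = P' ∧ Q = Q' ∧ t = t' ∧ b = b' := by
  obtain ⟨h4, h5, h6⟩ := idx_inj h3
  rcases lt_or_gt_of_ne hPQ with h | h <;> rcases lt_or_gt_of_ne hPQ' with h' | h'
  · rw [min_eq_left h.le, min_eq_left h'.le] at h1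
    rw [max_eq_right h.le, max_eq_right h'.le] at h2
    exact ⟨h1, h2, h5, h6⟩
  · simp [h', not_lt.2 h.le] at h4
  · simp [h, not_lt.2 h'.le] at h4
  · rw [min_eq_right h.le, min_eq_right h'.le] at h1
    rw [max_eq_left h.le, max_eq_left h'.le] at h2
    exact ⟨h2, h1, h5, h6⟩

theorem tokens_aux (H0 : Finset V) (Y : Finset V)
    (hconn : ∀ p q, p < q → ∀ i, Conn G (D p q i))
    (hdisj : ∀ p q p' q' i i', p < q → p' < q' → (p ≠ p' ∨ q ≠ q' ∨ i ≠ i') →
      Disjoint (D p q i) (D p' q' i'))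
    (hadj : ∀ p q, p < q → ∀ i j, i ≠ j → ∃ x ∈ D p q i, ∃ z ∈ D p q j, G.Adj x z)
    (hy : ∀ p q, p < q → ∀ i, y p q i ∈ D p q i ∧ y p q i ∈ Y)
    (hH0 : ∀ p q, p < q → ∀ i, ∀ x ∈ D p q i, x ∈ H0 → x = y p q i)
    (hlink : HubLink G H0 Y) :
    ∃ B : Fin (m+2) × Fin g → Finset V, (∀ i, Conn G (B i)) ∧
      (∀ i j, i ≠ j → Disjoint (B i) (B j)) ∧
      (∀ i j, i ≠ j → ∃ x ∈ B i, ∃ z ∈ B j, G.Adj x z) ∧
      (∀ k, ∀ x ∈ B k, x ∈ H0 ∨ ∃ p q i, p < q ∧ x ∈ D p q i) := by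
  classical
  have hlt : ∀ {P Q : Fin (m+2)}, P ≠ Q → min P Q < max P Q := fun h => min_lt_max.2 h
  -- facts on the ports
  have e1 : ∀ P Q t b, P ≠ Q → Conn G (E D P Q t b) := fun P Q t b h => hconn _ _ (hlt h) _
  have e2 : ∀ P Q t b P' Q' t' b', P ≠ Q → P' ≠ Q' → ∀ x, x ∈ E D P Q t b →
      x ∈ E D P' Q' t' b' → P = P' ∧ Q = Q' ∧ t = t' ∧ b = b' := by
    intro P Q t b P' Q' t' b' h h' x hx hx'
    by_cases h1 : min P Q = min P' Q'
    · by_cases h2 : max P Q = max P' Q'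
      · by_cases h3 : idx (decide (Q < P)) t b = idx (decide (Q' < P')) t' b'
        · exact key_inj h h' h1 h2 h3
        · exact absurd hx' (disjoint_left.1 (hdisj _ _ _ _ _ _ (hlt h) (hlt h')
            (Or.inr (Or.inr h3))) hx)
      · exact absurd hx' (disjoint_left.1 (hdisj _ _ _ _ _ _ (hlt h) (hlt h')
            (Or.inr (Or.inl h2))) hx)
    · exact absurd hx' (disjoint_left.1 (hdisj _ _ _ _ _ _ (hlt h) (hlt h')
            (Or.inl h1)) hx)
  have e3 : ∀ P Q t b, P ≠ Q → yE y P Q t b ∈ E D P Q t b ∧ yE y P Q t b ∈ Y :=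
    fun P Q t b h => hy _ _ (hlt h) _
  have e4 : ∀ P Q t b, P ≠ Q → ∀ x ∈ E D P Q t b, x ∈ H0 → x = yE y P Q t b :=
    fun P Q t b h => hH0 _ _ (hlt h) _
  have e5 : ∀ P Q t b P' Q' t' b', P ≠ Q → P' ≠ Q' → yE y P Q t b = yE y P' Q' t' b' →
      P = P' ∧ Q = Q' ∧ t = t' ∧ b = b' := by
    intro P Q t b P' Q' t' b' h h' he
    refine e2 P Q t b P' Q' t' b' h h' _ (e3 P Q t b h).1 ?_
    rw [he]
    exact (e3 P' Q' t' b' h').1
  have sne : ∀ (P : Fin (m+2)) (i : Fin (m+1)), P ≠ P.succAbove i :=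
    fun P i => (Fin.succAbove_ne P i).symm
  -- the links
  obtain ⟨L, hL1, hL2, hL3⟩ := hlink.family
    (J := Fin (m+2) × Fin g × Fin m)
    (fun j => yE y j.1 (j.1.succAbove j.2.2.castSucc) j.2.1 true)
    (fun j => yE y j.1 (j.1.succAbove j.2.2.succ) j.2.1 false)
    (by
      rintro ⟨P, t, i⟩ ⟨P', t', i'⟩ h
      obtain ⟨h1, h2, h3, -⟩ := e5 _ _ _ _ _ _ _ _ (sne _ _) (sne _ _) h
      simp only at h1 h2 h3
      subst h1 h3
      have := Fin.castSucc_injective _ (Fin.succAbove_right_injective h2)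
      rw [this])
    (by
      rintro ⟨P, t, i⟩ ⟨P', t', i'⟩ h
      obtain ⟨h1, h2, h3, -⟩ := e5 _ _ _ _ _ _ _ _ (sne _ _) (sne _ _) h
      simp only at h1 h2 h3
      subst h1 h3
      have := Fin.succ_injective _ (Fin.succAbove_right_injective h2)
      rw [this])
    (by
      rintro ⟨P, t, i⟩ ⟨P', t', i'⟩ h
      obtain ⟨-, -, -, h4⟩ := e5 _ _ _ _ _ _ _ _ (sne _ _) (sne _ _) h
      exact absurd h4 (by simp))
    (fun j => (e3 _ _ _ _ (sne _ _)).2)
    (fun j => (e3 _ _ _ _ (sne _ _)).2)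
  -- an arrival inside a link belongs to the same token
  have l1 : ∀ P t i P' Q' t' b', P' ≠ Q' → ∀ x, x ∈ L (P, t, i) → x ∈ E D P' Q' t' b' →
      P = P' ∧ t = t' := by
    intro P t i P' Q' t' b' h' x hx hx'
    have hx0 : x ∈ H0 := (hL1 (P, t, i)).2.2.2 hx
    have hxy := e4 _ _ _ _ h' x hx' hx0
    have hxY : x ∈ Y := by rw [hxy]; exact (e3 _ _ _ _ h').2
    rcases hL3 (P, t, i) x hx hxY with h | h
    · rw [hxy] at h
      obtain ⟨h1, -, h3, -⟩ := e5 _ _ _ _ _ _ _ _ h' (sne _ _) h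
      exact ⟨h1.symm, h3.symm⟩
    · rw [hxy] at h
      obtain ⟨h1, -, h3, -⟩ := e5 _ _ _ _ _ _ _ _ h' (sne _ _) h
      exact ⟨h1.symm, h3.symm⟩
  let C : Fin (m+2) × Fin g → Fin (m+1) → Finset V := fun x i =>
    E D x.1 (x.1.succAbove i) x.2 false ∪ E D x.1 (x.1.succAbove i) x.2 true
  let B : Fin (m+2) × Fin g → Finset V := fun x =>
    (univ.biUnion (C x)) ∪ (univ.biUnion fun i : Fin m => L (x.1, x.2, i))
  have memB : ∀ P t z, z ∈ B (P, t) ↔
      (∃ i b, z ∈ E D P (P.succAbove i) t b) ∨ ∃ i, z ∈ L (P, t, i) := by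
    intro P t z
    simp only [B, C, mem_union, mem_biUnion, mem_univ, true_and]
    constructor
    · rintro (⟨i, h | h⟩ | h)
      · exact Or.inl ⟨i, false, h⟩
      · exact Or.inl ⟨i, true, h⟩
      · exact Or.inr h
    · rintro (⟨i, b, h⟩ | h)
      · cases b
        · exact Or.inl ⟨i, Or.inl h⟩
        · exact Or.inl ⟨i, Or.inr h⟩
      · exact Or.inr h
  refine ⟨B, ?_, ?_, ?_, ?_⟩
  · -- connected
    rintro ⟨P, t⟩
    refine conn_chain (C (P, t)) (fun i : Fin m => L (P, t, i)) ?_ ?_ ?_ ?_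
    · intro i
      obtain ⟨a, ha, b, hb, hab⟩ := hadj _ _ (hlt (sne P i))
        (idx (decide (P.succAbove i < P)) t false) (idx (decide (P.succAbove i < P)) t true)
        (fun h => absurd (idx_inj h).2.2 (by simp))
      exact (e1 _ _ _ _ (sne P i)).union_adj (e1 _ _ _ _ (sne P i)) ha hb hab
    · intro i
      exact (hL1 _).1
    · intro i
      refine ⟨yE y P (P.succAbove i.castSucc) t true, ?_, (hL1 (P, t, i)).2.1⟩
      exact mem_union_right _ (e3 _ _ _ _ (sne _ _)).1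
    · intro i
      refine ⟨yE y P (P.succAbove i.succ) t false, ?_, (hL1 (P, t, i)).2.2.1⟩
      exact mem_union_left _ (e3 _ _ _ _ (sne _ _)).1
  · -- disjoint
    rintro ⟨P, t⟩ ⟨P', t'⟩ hne
    rw [disjoint_left]
    intro z hz hz'
    apply hne
    rcases (memB P t z).1 hz with ⟨i, b, h⟩ | ⟨i, h⟩ <;>
      rcases (memB P' t' z).1 hz' with ⟨i', b', h'⟩ | ⟨i', h'⟩
    · obtain ⟨h1, -, h3, -⟩ := e2 _ _ _ _ _ _ _ _ (sne _ _) (sne _ _) z h h'
      rw [h1, h3]
    · obtain ⟨h1, h2⟩ := l1 _ _ _ _ _ _ _ (sne _ _) z h' h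
      rw [h1, h2]
    · obtain ⟨h1, h2⟩ := l1 _ _ _ _ _ _ _ (sne _ _) z h h'
      rw [h1, h2]
    · by_contra hcon
      refine disjoint_left.1 (hL2 (P, t, i) (P', t', i') ?_) h h'
      intro he
      apply hcon
      simp only [Prod.mk.injEq] at he ⊢
      exact ⟨he.1, he.2.1⟩
  · -- adjacent
    rintro ⟨P, t⟩ ⟨P', t'⟩ hne
    by_cases hP : P = P'
    · subst hP
      have ht : t ≠ t' := fun h => hne (by rw [h])
      obtain ⟨a, ha, b, hb, hab⟩ := hadj _ _ (hlt (sne P 0))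
        (idx (decide (P.succAbove 0 < P)) t false) (idx (decide (P.succAbove 0 < P)) t' false)
        (fun h => ht (idx_inj h).2.1)
      exact ⟨a, (memB P t a).2 (Or.inl ⟨0, false, ha⟩), b,
        (memB P t' b).2 (Or.inl ⟨0, false, hb⟩), hab⟩
    · obtain ⟨i, hi⟩ := Fin.exists_succAbove_eq (x := P') (y := P) (Ne.symm hP)
      obtain ⟨i', hi'⟩ := Fin.exists_succAbove_eq (x := P) (y := P') hP
      have hside : decide (P' < P) ≠ decide (P < P') := by
        rcases lt_or_gt_of_ne hP with h | h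
        · simp [h, not_lt.2 h.le]
        · simp [h, not_lt.2 h.le]
      obtain ⟨a, ha, b, hb, hab⟩ := hadj _ _ (hlt hP)
        (idx (decide (P' < P)) t false) (idx (decide (P < P')) t' false)
        (fun h => hside (idx_inj h).1)
      refine ⟨a, (memB P t a).2 (Or.inl ⟨i, false, ?_⟩), b,
        (memB P' t' b).2 (Or.inl ⟨i', false, ?_⟩), hab⟩
      · rw [hi]; exact ha
      · rw [hi']
        unfold E
        rw [min_comm P' P, max_comm P' P]
        exact hb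
  · rintro ⟨P, t⟩ z hz
    rcases (memB P t z).1 hz with ⟨i, b, h⟩ | ⟨i, h⟩
    · exact Or.inr ⟨_, _, _, hlt (sne P i), h⟩
    · exact Or.inl ((hL1 _).2.2.2 h)

end main

/-- **TOKENS => CLIQUE MODEL** (sec 07 (7)-(8)). -/
theorem tokens {s g : ℕ} (hs : 2 ≤ s) (D : Fin s → Fin s → Fin (4*g) → Finset V)
    (y : Fin s → Fin s → Fin (4*g) → V) (H0 Y : Finset V)
    (hconn : ∀ p q, p < q → ∀ i, Conn G (D p q i))
    (hdisj : ∀ p q p' q' i i', p < q → p' < q' → (p ≠ p' ∨ q ≠ q' ∨ i ≠ i') →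
      Disjoint (D p q i) (D p' q' i'))
    (hadj : ∀ p q, p < q → ∀ i j, i ≠ j → ∃ x ∈ D p q i, ∃ z ∈ D p q j, G.Adj x z)
    (hy : ∀ p q, p < q → ∀ i, y p q i ∈ D p q i ∧ y p q i ∈ Y)
    (hH0 : ∀ p q, p < q → ∀ i, ∀ x ∈ D p q i, x ∈ H0 → x = y p q i)
    (hlink : HubLink G H0 Y) :
    ∃ B : Fin (s*g) → Finset V, (∀ i, Conn G (B i)) ∧
      (∀ i j, i ≠ j → Disjoint (B i) (B j)) ∧
      (∀ i j, i ≠ j → ∃ x ∈ B i, ∃ z ∈ B j, G.Adj x z) ∧
      (∀ k, ∀ x ∈ B k, x ∈ H0 ∨ ∃ p q i, p < q ∧ x ∈ D p q i) := by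
  obtain ⟨m, rfl⟩ : ∃ m, s = m + 2 := ⟨s - 2, by omega⟩
  obtain ⟨B, h1, h2, h3, h4⟩ := tokens_aux D y H0 Y hconn hdisj hadj hy hH0 hlink
  let e : Fin ((m+2)*g) ≃ Fin (m+2) × Fin g := finProdFinEquiv.symm
  refine ⟨fun i => B (e i), fun i => h1 _, fun i j hij => h2 _ _ (fun h => hij (e.injective h)),
    fun i j hij => h3 _ _ (fun h => hij (e.injective h)), fun k => h4 _⟩

end Crest.Agent.R042.Tok890
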