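import Mathlib
import Crest.Agent.R042.AsmDefs_220
import Crest.Agent.R042.Tokens_890

/-! Row 42, S0058, sec 07 (7)-(8): the tokens in the frozen form `Asm220.TokensStmt`. -/

set_option autoImplicit false
set_option linter.unusedSectionVars false

namespace Crest.Agent.R042.Tok890

open Finset Conn353 Asm220

theorem hubLink_of_hubLinked {V : Type*} [DecidableEq V] {G : SimpleGraph V}
    {H0 Y0 Y : Finset V} {N : ℕ} (hY : Y ⊆ Y0) (hN : Y.card ≤ N) (h : HubLinked G H0 Y0 N) :
    HubLink G H0 Y := by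
  classical
  intro n u v hu hv huv huY hvY
  have hsub : univ.image u ∪ univ.image v ⊆ Y := by
    intro x hx
    rcases mem_union.1 hx with hx | hx
    · obtain ⟨i, -, rfl⟩ := mem_image.1 hx
      exact huY i
    · obtain ⟨i, -, rfl⟩ := mem_image.1 hx
      exact hvY i
  have hcard : (univ.image u ∪ univ.image v).card = 2 * n := by
    rw [card_union_of_disjoint]
    · rw [card_image_of_injective _ hu, card_image_of_injective _ hv]
      simp
      omega
    · rw [disjoint_left]
      intro x hx hx'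
      obtain ⟨i, -, rfl⟩ := mem_image.1 hx
      obtain ⟨j, -, hj⟩ := mem_image.1 hx'
      exact huv i j hj.symm
  have hBl : (Y \ (univ.image u ∪ univ.image v)).card + 2 * n = Y.card := by
    rw [← hcard]
    exact card_sdiff_add_card_eq_card hsub
  obtain ⟨Q, h1, h2, h3⟩ := h n u v (Y \ (univ.image u ∪ univ.image v)) hu hv huv
    (fun i => hY (huY i)) (fun i => hY (hvY i)) (sdiff_subset.trans hY)
    (fun i hi => (mem_sdiff.1 hi).2 (mem_union_left _ (mem_image_of_mem _ (mem_univ _))))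
    (fun i hi => (mem_sdiff.1 hi).2 (mem_union_right _ (mem_image_of_mem _ (mem_univ _))))
    (by omega)
  refine ⟨Q, fun k => ⟨(h1 k).2.1, (h1 k).2.2.1, (h1 k).2.2.2, (h1 k).1⟩, h2, ?_⟩
  intro k x hx hxY
  have hx2 : x ∈ univ.image u ∪ univ.image v := by
    by_contra hcon
    exact disjoint_left.1 (h3 k) hx (mem_sdiff.2 ⟨hxY, hcon⟩)
  rcases mem_union.1 hx2 with hx2 | hx2
  · obtain ⟨j, -, rfl⟩ := mem_image.1 hx2
    by_cases hjk : j = k
    · exact Or.inl (by rw [hjk])
    · exact absurd hx (disjoint_left.1 (h2 j k hjk) (h1 j).2.2.1)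
  · obtain ⟨j, -, rfl⟩ := mem_image.1 hx2
    by_cases hjk : j = k
    · exact Or.inr (by rw [hjk])
    · exact absurd hx (disjoint_left.1 (h2 j k hjk) (h1 j).2.2.2)

/-- **TokensStmt** of helper220. -/
theorem tokensStmt : TokensStmt := by
  intro V _ G s g hs W H0 Y0 D y hH0 hY0 hL hhub
  rcases Nat.eq_zero_or_pos g with rfl | hg
  · refine ⟨fun _ => ∅, fun i => ?_, fun i => ?_, fun i => ?_, fun i => ?_⟩ <;>
      exact absurd i.2 (by simp)
  classical
  have : Nonempty V := ⟨y ⟨(⟨0, by omega⟩, ⟨1, by omega⟩), by simp⟩ ⟨0, by omega⟩⟩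
  let D' : Fin s → Fin s → Fin (4*g) → Finset V := fun p q i =>
    if h : p < q then D ⟨(p, q), h⟩ i else ∅
  let y' : Fin s → Fin s → Fin (4*g) → V := fun p q i =>
    if h : p < q then y ⟨(p, q), h⟩ i else Classical.arbitrary V
  have hD' : ∀ p q (h : p < q) i, D' p q i = D ⟨(p, q), h⟩ i := fun p q h i => by
    simp only [D', dif_pos h]
  have hy' : ∀ p q (h : p < q) i, y' p q i = y ⟨(p, q), h⟩ i := fun p q h i => by
    simp only [y', dif_pos h]
  let Y : Finset V := univ.image (fun x : Pr s × Fin (4*g) => y x.1 x.2)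
  have hYY : Y ⊆ Y0 := by
    intro x hx
    obtain ⟨⟨j, i⟩, -, rfl⟩ := mem_image.1 hx
    exact hL.memY j i
  have hYc : Y.card ≤ 4 * g * Fintype.card (Pr s) := by
    refine card_image_le.trans ?_
    rw [card_univ, Fintype.card_prod, Fintype.card_fin, mul_comm]
  obtain ⟨B, h1, h2, h3, h4⟩ := tokens (G := G) hs D' y' H0 Y
    (fun p q h i => by rw [hD' p q h]; exact hL.conn _ _)
    (fun p q p' q' i i' h h' hne => by
      rw [hD' p q h, hD' p' q' h']
      refine hL.disj _ _ _ _ ?_
      intro he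
      simp only [Prod.mk.injEq, Subtype.mk.injEq] at he
      obtain ⟨⟨a, b⟩, c⟩ := he
      rcases hne with hne | hne | hne
      · exact hne a
      · exact hne b
      · exact hne c)
    (fun p q h i j hij => by rw [hD' p q h, hD' p q h]; exact hL.adj _ _ _ hij)
    (fun p q h i => by
      rw [hD' p q h, hy' p q h]
      exact ⟨hL.mem _ _, mem_image.2 ⟨(⟨(p, q), h⟩, i), mem_univ _, rfl⟩⟩)
    (fun p q h i x hx hx0 => by
      rw [hD' p q h] at hx
      rw [hy' p q h]
      exact hL.hub _ _ x hx hx0)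
    (hubLink_of_hubLinked hYY hYc hhub)
  refine ⟨B, ?_, h1, h2, h3⟩
  intro k x hx
  rcases h4 k x hx with h | ⟨p, q, i, hpq, h⟩
  · exact hH0 h
  · rw [hD' p q hpq] at h
    exact hL.sub _ _ h

end Crest.Agent.R042.Tok890
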