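import Crest.Agent.R042.SmallNum_333
import Crest.Agent.R042.AsmPorts_220
import Crest.Agent.R042.Legs_153
import Crest.Agent.R042.TokStmt_890
import Crest.Agent.R042.KR_492
import Crest.Agent.R042.RS2_803
import Crest.Agent.R042.Spine_883
import Crest.Agent.R042.SmallHub_136
import Crest.Agent.R042.SmallW_132
import Crest.Agent.R042.TW_870

/-! Row 42 / S0058, block B0 of the spine (= (10.0), Theorem B), from the hub (10.4) and the
woven pieces of small order (8.5). -/

set_option autoImplicit false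
set_option linter.unusedSectionVars false

namespace Crest.Agent.R042.Small333

open Finset Crest.Agent.R042.Conn353 Crest.Agent.R042.Menger353 Crest.Agent.R042.Crit374
open Crest.Agent.R042.Mader375 (Model)
open Crest.Agent.R042.Asm220 (Woven HubLinked Pr)

theorem asmStmt : AsmStmt := by
  intro V _ G s g θ W Z H Y H0 Y0 hs hg hZ hYH hHW hY0 hH0 hd hd0 hYZ hY0Z hYc hY0c hC2 hθ hW hHub
  obtain ⟨B, h1, h2⟩ := Asm220.assembly_of Legs153.legs Tok890.tokensStmt G hs W Z H0 Y0 H Y θ
    hYH hHW hY0 hH0 hd hd0 hYZ hY0Z hYc hY0c hC2 (by omega) hW hHub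
  exact Mader375.model_iff.2 ⟨B, h1, h2⟩

theorem krStmt : KRStmt := by
  intro V _ G W h k N hh hN hno hsize hbig hard
  refine KR492.kr_list G W (3 * h) k N (by omega)
    (RS803.frac_sub G W h (Spine883.noModel_iff.2 hno)) hsize ?_ hard
  have h1 : (8 : ℝ) * ((3 * h : ℕ) : ℝ) = 24 * h := by push_cast; ring
  rw [h1]
  exact hbig

theorem b0_of {D0 : ℕ} (hHub : HubStmt D0) (hSW : SmallWovenStmt D0) : Spine883.B0 := by
  intro C s hs
  obtain ⟨F1, hF1⟩ := B0M krStmt hHub asmStmt hSW C s hs
  refine ⟨F1, ?_⟩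
  intro F hF h hh hIH V _ G X hX hXc
  refine hF1 F hF h hh ?_ G X (Spine883.noModel_iff.1 hX) hXc
  intro h' hh' V' _ G' W' hW'
  exact hIH h' hh' V' G' W' (Spine883.noModel_iff.2 hW')

theorem hubStmt : HubStmt 32 := by
  classical
  intro V _ G W κ h hκ hne hno hdeg
  obtain ⟨J, h1, h2, -, h4⟩ := SmallHub136.hub_of_dense (G := G) (J0 := W) (q := κ)
    (fun {_ _ _ _} hk hM hX => TW870.tw hk hM hX) hκ hne
    (SmallHub136.e2_ge_of_deg (fun v hv => by
      have := hdeg v hv
      unfold Link870.nb at this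
      unfold Mader375.dg
      convert this using 2))
  exact ⟨J, h1, by omega, fun Y hY hYc => h4 Y hY hYc⟩

/-- **block B0 of the spine** (10.0). -/
theorem b0 : Spine883.B0 := b0_of hubStmt (SmallW132.smallWovenStmt 32)

end Crest.Agent.R042.Small333
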