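import Mathlib
import Crest.Agent.R042.Crit_374

/-! Row 42 / S0058, sec 10.7 (chain of hubs), part 1: counting neighbours, degenerate sets, batches,
path data, the wiring inside a hub. -/

set_option autoImplicit false
set_option linter.unusedSectionVars false

namespace Crest.Agent.R042.Chain374

open Finset Conn353 Menger353 Crit374
open scoped Classical

variable {V : Type*} [DecidableEq V] {G : SimpleGraph V}

/-- number of neighbours of `v` in `S`. -/
noncomputable def nb (G : SimpleGraph V) (S : Finset V) (v : V) : ℕ :=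
  (S.filter (fun u => G.Adj v u)).card

/-- `G[S]` is `c`-degenerate. -/
def Degen (G : SimpleGraph V) (S : Finset V) (c : ℕ) : Prop :=
  ∀ X, X ⊆ S → X.Nonempty → ∃ x ∈ X, nb G X x ≤ c

/-- number of members of `F` in which `v` has a neighbour. -/
noncomputable def sees (G : SimpleGraph V) (F : Finset (Finset V)) (v : V) : ℕ :=
  (F.filter (fun A => ∃ x ∈ A, G.Adj v x)).card

lemma nb_mono {S T : Finset V} (h : S ⊆ T) (v : V) : nb G S v ≤ nb G T v :=
  Finset.card_le_card (Finset.filter_subset_filter _ h)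

lemma nb_le_card (S : Finset V) (v : V) : nb G S v ≤ S.card :=
  Finset.card_le_card (Finset.filter_subset _ _)

lemma nb_union_le (S T : Finset V) (v : V) : nb G (S ∪ T) v ≤ nb G S v + nb G T v := by
  unfold nb
  rw [Finset.filter_union]
  exact Finset.card_union_le _ _

lemma nb_le_of_subset_union {X S T : Finset V} (h : X ⊆ S ∪ T) (v : V) :
    nb G X v ≤ nb G S v + nb G T v := (nb_mono h v).trans (nb_union_le S T v)

lemma Degen.mono {S T : Finset V} {c : ℕ} (h : S ⊆ T) (hT : Degen G T c) : Degen G S c :=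
  fun X hX hne => hT X (hX.trans h) hne

lemma Degen.mono_c {S : Finset V} {c c' : ℕ} (h : c ≤ c') (hT : Degen G S c) : Degen G S c' := by
  intro X hX hne
  obtain ⟨x, hx, h1⟩ := hT X hX hne
  exact ⟨x, hx, h1.trans h⟩

lemma Degen.union {A B : Finset V} {c c1 c2 : ℕ} (hA : Degen G A c) (hB : Degen G B c1)
    (h : ∀ v ∈ B, nb G A v ≤ c2) (hc : c1 + c2 ≤ c) : Degen G (A ∪ B) c := by
  intro X hX hne
  by_cases hXB : (X ∩ B).Nonempty
  · obtain ⟨x, hx, h1⟩ := hB (X ∩ B) Finset.inter_subset_right hXB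
    rw [Finset.mem_inter] at hx
    refine ⟨x, hx.1, ?_⟩
    have hsub : X ⊆ (X ∩ B) ∪ A := by
      intro z hz
      rw [Finset.mem_union, Finset.mem_inter]
      rcases Finset.mem_union.1 (hX hz) with hzA | hzB
      · exact Or.inr hzA
      · exact Or.inl ⟨hz, hzB⟩
    have := nb_le_of_subset_union (G := G) hsub x
    have := h x hx.2
    omega
  · refine hA X ?_ hne
    intro z hz
    rcases Finset.mem_union.1 (hX hz) with hzA | hzB
    · exact hzA
    · exact absurd ⟨z, Finset.mem_inter.2 ⟨hz, hzB⟩⟩ hXB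

lemma Degen.choos {S : Finset V} {c : ℕ} (h : Degen G S c) : Choos G S (c + 1) := by
  refine choos_of_degenerate (by omega) ?_
  intro X hX hne
  obtain ⟨x, hx, h1⟩ := h X hX hne
  exact ⟨x, hx, h1⟩

lemma nb_biUnion_le {F : Finset (Finset V)} {v : V} (h3 : ∀ A ∈ F, nb G A v ≤ 3) :
    nb G (F.biUnion id) v ≤ 3 * sees G F v := by
  have hsub : (F.biUnion id).filter (fun u => G.Adj v u) ⊆
      (F.filter (fun A => ∃ x ∈ A, G.Adj v x)).biUnion
        (fun A => A.filter (fun u => G.Adj v u)) := by
    intro u hu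
    rw [Finset.mem_filter, Finset.mem_biUnion] at hu
    obtain ⟨⟨A, hA, huA⟩, hvu⟩ := hu
    rw [Finset.mem_biUnion]
    exact ⟨A, Finset.mem_filter.2 ⟨hA, u, huA, hvu⟩, Finset.mem_filter.2 ⟨huA, hvu⟩⟩
  refine (Finset.card_le_card hsub).trans ?_
  refine (Finset.card_biUnion_le_card_mul _ _ 3 ?_).trans (by unfold sees; rw [mul_comm])
  intro A hA
  exact h3 A (Finset.mem_filter.1 hA).1

lemma sees_union_le (F F' : Finset (Finset V)) (v : V) :
    sees G (F ∪ F') v ≤ sees G F v + F'.card := by
  unfold sees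
  rw [Finset.filter_union]
  refine (Finset.card_union_le _ _).trans (Nat.add_le_add_left ?_ _)
  exact Finset.card_le_card (Finset.filter_subset _ _)

/-! ### linkages and batches -/

lemma linkage_ground_mono {W W' A B : Finset V} {P : Finset (List V)} (h : W ⊆ W')
    (hP : Linkage G W A B P) : Linkage G W' A B P :=
  ⟨fun l hl => ⟨fun x hx => h ((hP.path l hl).sub x hx), (hP.path l hl).chain,
    (hP.path l hl).nodup, (hP.path l hl).start, (hP.path l hl).stop⟩, hP.disj⟩

/-- a batch: a linkage with the minimal total number of vertices for its number of paths. -/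
def Batch (G : SimpleGraph V) (W A B : Finset V) (P : Finset (List V)) : Prop :=
  Linkage G W A B P ∧
    ∀ Q, Linkage G W A B Q → Q.card = P.card → (verts P).card ≤ (verts Q).card

lemma exists_batch {W A B : Finset V} {P : Finset (List V)} (h : Linkage G W A B P) :
    ∃ Q, Batch G W A B Q ∧ Q.card = P.card := by
  have hex : ∃ n, ∃ Q, Linkage G W A B Q ∧ Q.card = P.card ∧ (verts Q).card = n :=
    ⟨_, P, h, rfl, rfl⟩
  obtain ⟨Q, h1, h2, h3⟩ := Nat.find_spec hex
  refine ⟨Q, ⟨h1, ?_⟩, h2⟩
  intro Q' h4 h5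
  by_contra hlt
  push Not at hlt
  rw [h3] at hlt
  exact Nat.find_min hex hlt ⟨Q', h4, h5.trans h2, rfl⟩

/-- everything we need from a path of a linkage. -/
lemma path_data {W A B : Finset V} {l : List V} (h : IsPath G W A B l) :
    ∃ a b, a ∈ l ∧ b ∈ l ∧ a ∈ A ∧ b ∈ B ∧ (∀ x ∈ l, x ∈ A → x = a) ∧
      (∀ x ∈ l, x ∈ B → x = b) ∧ Conn G l.toFinset ∧
      (a ≠ b → Conn G (l.toFinset.erase b)) := by
  obtain ⟨a, t, h1, h2, h3⟩ := h.start
  obtain ⟨s, b, h4, h5, h6⟩ := h.stop
  refine ⟨a, b, by rw [h1]; simp, by rw [h4]; simp, h2, h5, ?_, ?_, h.conn, ?_⟩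
  · intro x hx hxA
    rw [h1] at hx
    rcases List.mem_cons.1 hx with h7 | h7
    · exact h7
    · exact absurd hxA (h3 x h7)
  · intro x hx hxB
    rw [h4] at hx
    rcases List.mem_append.1 hx with h7 | h7
    · exact absurd hxB (h6 x h7)
    · simpa using h7
  · intro hab
    have hnd := h.nodup
    have hch := h.chain
    have hsne : s ≠ [] := by
      rintro rfl
      rw [h1] at h4
      simp only [List.nil_append, List.cons.injEq] at h4
      exact hab h4.1
    have hbs : b ∉ s := by
      rw [h4] at hnd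
      have := List.nodup_append.1 hnd
      intro hb
      exact this.2.2 b hb b (by simp) rfl
    have heq : l.toFinset.erase b = s.toFinset := by
      ext x
      rw [Finset.mem_erase, List.mem_toFinset, List.mem_toFinset, h4, List.mem_append]
      constructor
      · rintro ⟨hxb, hx | hx⟩
        · exact hx
        · exact absurd (by simpa using hx) hxb
      · intro hx
        refine ⟨?_, Or.inl hx⟩
        rintro rfl
        exact hbs hx
    rw [heq]
    refine chain_conn s hsne ?_
    rw [h4] at hch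
    exact hch.left_of_append

/-- indexing of a linkage with `p` paths by `Fin p`, with end vertices. -/
lemma exists_index {W A B : Finset V} {P : Finset (List V)} {p : ℕ} (hP : Linkage G W A B P)
    (hp : P.card = p) :
    ∃ (Q : Fin p → Finset V) (a b : Fin p → V),
      (∀ i, Q i ⊆ W ∧ Conn G (Q i) ∧ a i ∈ Q i ∧ b i ∈ Q i ∧ a i ∈ A ∧ b i ∈ B ∧
        (∀ x ∈ Q i, x ∈ A → x = a i) ∧ (∀ x ∈ Q i, x ∈ B → x = b i) ∧
        (a i ≠ b i → Conn G ((Q i).erase (b i))) ∧ ∃ l ∈ P, Q i = l.toFinset) ∧
      (∀ i j, i ≠ j → Disjoint (Q i) (Q j)) ∧ (∀ x, x ∈ verts P ↔ ∃ i, x ∈ Q i) := by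
  have e := (Finset.equivFinOfCardEq hp).symm
  have hl : ∀ i, IsPath G W A B (e i : List V) := fun i => hP.path _ (e i).2
  choose a b h1 h2 h3 h4 h5 h6 h7 h8 using fun i => path_data (hl i)
  refine ⟨fun i => (e i : List V).toFinset, a, b, ?_, ?_, ?_⟩
  · intro i
    refine ⟨?_, h7 i, by simpa using h1 i, by simpa using h2 i, h3 i, h4 i, ?_, ?_, h8 i,
      _, (e i).2, rfl⟩
    · intro x hx
      exact (hl i).sub x (by simpa using hx)
    · intro x hx
      exact h5 i x (by simpa using hx)
    · intro x hx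
      exact h6 i x (by simpa using hx)
  · intro i j hij
    rw [Finset.disjoint_left]
    intro x hx hx'
    rw [List.mem_toFinset] at hx hx'
    refine hP.disj _ (e i).2 _ (e j).2 ?_ x hx hx'
    intro heq
    exact hij (e.injective (Subtype.ext heq))
  · intro x
    rw [mem_verts]
    constructor
    · rintro ⟨l, hlP, hx⟩
      refine ⟨e.symm ⟨l, hlP⟩, ?_⟩
      simpa using hx
    · rintro ⟨i, hi⟩
      exact ⟨_, (e i).2, by simpa using hi⟩

/-- indexing of a linkage by its prescribed starting vertices. -/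
lemma exists_index' {W B : Finset V} {P : Finset (List V)} {p : ℕ} {y : Fin p → V}
    (hy : Function.Injective y) (hP : Linkage G W (Finset.univ.image y) B P) (hp : P.card = p) :
    ∃ (Q : Fin p → Finset V) (b : Fin p → V),
      (∀ i, Q i ⊆ W ∧ Conn G (Q i) ∧ y i ∈ Q i ∧ b i ∈ Q i ∧ b i ∈ B ∧
        (∀ x ∈ Q i, (∃ j, x = y j) → x = y i) ∧ (∀ x ∈ Q i, x ∈ B → x = b i) ∧
        ∃ l ∈ P, Q i = l.toFinset) ∧
      (∀ i j, i ≠ j → Disjoint (Q i) (Q j)) ∧ (∀ x, x ∈ verts P ↔ ∃ i, x ∈ Q i) := by
  obtain ⟨Q, a, b, h1, h2, h3⟩ := exists_index hP hp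
  have ha : ∀ i, ∃ j, y j = a i := by
    intro i
    have := (h1 i).2.2.2.2.1
    rw [Finset.mem_image] at this
    obtain ⟨j, -, hj⟩ := this
    exact ⟨j, hj⟩
  choose τ hτ using ha
  have hτinj : Function.Injective τ := by
    intro i j hij
    by_contra hne
    have h4 : a i = a j := by rw [← hτ i, ← hτ j, hij]
    refine Finset.disjoint_left.1 (h2 i j hne) (h1 i).2.2.1 ?_
    rw [h4]
    exact (h1 j).2.2.1
  have hτbij : Function.Bijective τ := Finite.injective_iff_bijective.1 hτinj
  obtain ⟨σ, hσ⟩ := hτbij.2.hasRightInverse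
  have hyσ : ∀ i, a (σ i) = y i := by
    intro i
    rw [← hτ (σ i), hσ i]
  have hσinj : Function.Injective σ := hσ.injective
  refine ⟨fun i => Q (σ i), fun i => b (σ i), ?_, ?_, ?_⟩
  · intro i
    obtain ⟨k1, k2, k3, k4, k5, k6, k7, k8, k9, k10⟩ := h1 (σ i)
    refine ⟨k1, k2, by rw [← hyσ i]; exact k3, k4, k6, ?_, k8, k10⟩
    rintro x hx ⟨j, hj⟩
    rw [← hyσ i]
    refine k7 x hx ?_
    rw [hj]
    exact Finset.mem_image_of_mem y (Finset.mem_univ j)
  · intro i j hij
    exact h2 _ _ (fun h => hij (hσinj h))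
  · intro x
    rw [h3 x]
    constructor
    · rintro ⟨i, hi⟩
      refine ⟨τ i, ?_⟩
      have : σ (τ i) = i := hτinj (hσ (τ i))
      show x ∈ Q (σ (τ i))
      rw [this]
      exact hi
    · rintro ⟨i, hi⟩
      exact ⟨σ i, hi⟩

/-! ### hubs -/

/-- hub of sec 10.4, in the form used by the chain of hubs. -/
structure Hub (G : SimpleGraph V) (J : Finset V) (p : ℕ) : Prop where
  card : 2 * p + 6 ≤ J.card
  deg : ∀ v ∈ J, 2 * p + 1 ≤ nb G J v
  link : ∀ (n : ℕ) (s t : Fin n → V), n ≤ p + 2 → (∀ i, s i ∈ J) → (∀ i, t i ∈ J) →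
    Function.Injective s → Function.Injective t → (∀ i j, s i ≠ t j) →
    ∃ C : Fin n → Finset V, (∀ i, C i ⊆ J ∧ Conn G (C i) ∧ s i ∈ C i ∧ t i ∈ C i) ∧
      ∀ i j, i ≠ j → Disjoint (C i) (C j)

/-- a vertex of high degree has a neighbour outside a small set. -/
lemma exists_nbr {J X : Finset V} {v : V} (h : X.card < nb G J v) :
    ∃ u ∈ J, G.Adj v u ∧ u ∉ X := by
  by_contra hcon
  push Not at hcon
  have : J.filter (fun u => G.Adj v u) ⊆ X := by
    intro u hu
    rw [Finset.mem_filter] at hu
    exact hcon u hu.1 hu.2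
  have := Finset.card_le_card this
  unfold nb at h
  omega

/-- wiring inside a hub: join `e i` to `f i` for all `i`, with the connections of `x` and `z`
adjacent. -/
theorem Hub.wire {J : Finset V} {p : ℕ} (hJ : Hub G J p) {e f : Fin p → V}
    (he : ∀ i, e i ∈ J) (hf : ∀ i, f i ∈ J) (hei : Function.Injective e)
    (hfi : Function.Injective f) (hef : ∀ i j, e i ≠ f j) {x z : Fin p} (hxz : x ≠ z) :
    ∃ C : Fin p → Finset V, (∀ i, C i ⊆ J ∧ Conn G (C i) ∧ e i ∈ C i ∧ f i ∈ C i) ∧
      (∀ i j, i ≠ j → Disjoint (C i) (C j)) ∧ ∃ u ∈ C x, ∃ w ∈ C z, G.Adj u w := by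
  set X : Finset V := Finset.univ.image e ∪ Finset.univ.image f with hX
  have hXc : X.card ≤ 2 * p := by
    refine (Finset.card_union_le _ _).trans ?_
    have h1 : (Finset.univ.image e).card ≤ p := by
      simpa using (Finset.card_image_le (s := (Finset.univ : Finset (Fin p))) (f := e))
    have h2 : (Finset.univ.image f).card ≤ p := by
      simpa using (Finset.card_image_le (s := (Finset.univ : Finset (Fin p))) (f := f))
    omega
  have heX : ∀ i, e i ∈ X := fun i =>
    Finset.mem_union_left _ (Finset.mem_image_of_mem e (Finset.mem_univ i))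
  have hfX : ∀ i, f i ∈ X := fun i =>
    Finset.mem_union_right _ (Finset.mem_image_of_mem f (Finset.mem_univ i))
  obtain ⟨v, hvJ, hv1, hvX⟩ := exists_nbr (G := G) (J := J) (X := X) (v := e x)
    (lt_of_lt_of_le (by omega) (hJ.deg _ (he x)))
  obtain ⟨v', hv'J, hv'1, hv'X⟩ := exists_nbr (G := G) (J := J) (X := X) (v := v)
    (lt_of_lt_of_le (by omega) (hJ.deg _ hvJ))
  have hve : ∀ i, v ≠ e i := fun i h => hvX (h ▸ heX i)
  have hvf : ∀ i, v ≠ f i := fun i h => hvX (h ▸ hfX i)
  have hv'e : ∀ i, v' ≠ e i := fun i h => hv'X (h ▸ heX i)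
  have hv'f : ∀ i, v' ≠ f i := fun i h => hv'X (h ▸ hfX i)
  have hvv' : v ≠ v' := hv'1.ne
  -- the `p + 1` pairs
  let s : Fin (p + 1) → V := Fin.snoc e v'
  let t : Fin (p + 1) → V := Fin.snoc (fun i => if i = z then v else f i) (f z)
  have hs1 : ∀ i : Fin p, s i.castSucc = e i := fun i => by simp [s]
  have hs2 : s (Fin.last p) = v' := by simp [s]
  have ht1 : ∀ i : Fin p, t i.castSucc = if i = z then v else f i := fun i => by simp [t]
  have ht2 : t (Fin.last p) = f z := by simp [t]
  have hsJ : ∀ i, s i ∈ J := by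
    intro i
    refine Fin.lastCases ?_ ?_ i
    · rw [hs2]; exact hv'J
    · intro i; rw [hs1]; exact he i
  have htJ : ∀ i, t i ∈ J := by
    intro i
    refine Fin.lastCases ?_ ?_ i
    · rw [ht2]; exact hf z
    · intro i
      rw [ht1]
      split_ifs
      · exact hvJ
      · exact hf i
  have hsi : Function.Injective s := by
    intro i j
    refine Fin.lastCases ?_ ?_ i <;> refine Fin.lastCases ?_ ?_ j
    · intro _; rfl
    · intro j h
      rw [hs1, hs2] at h
      exact absurd h (hv'e j)
    · intro i h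
      rw [hs1, hs2] at h
      exact absurd h.symm (hv'e i)
    · intro j i h
      rw [hs1, hs1] at h
      rw [hei h]
  have hti : Function.Injective t := by
    intro i j
    refine Fin.lastCases ?_ ?_ i <;> refine Fin.lastCases ?_ ?_ j
    · intro _; rfl
    · intro j h
      rw [ht1, ht2] at h
      split_ifs at h with hj
      · exact absurd h.symm (hvf z)
      · exact absurd (hfi h).symm hj
    · intro i h
      rw [ht1, ht2] at h
      split_ifs at h with hi
      · exact absurd h (hvf z)
      · exact absurd (hfi h) hi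
    · intro j i h
      rw [ht1, ht1] at h
      split_ifs at h with hi hj hj
      · rw [hi, hj]
      · exact absurd h (hvf j)
      · exact absurd h.symm (hvf i)
      · rw [hfi h]
  have hst : ∀ i j, s i ≠ t j := by
    intro i j
    refine Fin.lastCases ?_ ?_ i <;> refine Fin.lastCases ?_ ?_ j
    · rw [hs2, ht2]; exact hv'f z
    · intro j
      rw [hs2, ht1]
      split_ifs
      · exact hvv'.symm
      · exact hv'f j
    · intro i
      rw [hs1, ht2]; exact hef i z
    · intro j i
      rw [hs1, ht1]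
      split_ifs
      · exact (hve i).symm
      · exact hef i j
  obtain ⟨C, hC1, hC2⟩ := hJ.link (p + 1) s t (by omega) hsJ htJ hsi hti hst
  have hadj : Conn G (C z.castSucc ∪ C (Fin.last p)) := by
    refine (hC1 z.castSucc).2.1.union_adj (hC1 (Fin.last p)).2.1 (x := v) (y := v') ?_ ?_ hv'1
    · have := (hC1 z.castSucc).2.2.2
      rw [ht1, if_pos rfl] at this
      exact this
    · have := (hC1 (Fin.last p)).2.2.1
      rw [hs2] at this
      exact this
  refine ⟨fun i => if i = z then C z.castSucc ∪ C (Fin.last p) else C i.castSucc, ?_, ?_, ?_⟩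
  · intro i
    by_cases hi : i = z
    · subst hi
      simp only [if_true]
      refine ⟨Finset.union_subset (hC1 _).1 (hC1 _).1, hadj, ?_, ?_⟩
      · have := (hC1 i.castSucc).2.2.1
        rw [hs1] at this
        exact Finset.mem_union_left _ this
      · have := (hC1 (Fin.last p)).2.2.2
        rw [ht2] at this
        exact Finset.mem_union_right _ this
    · simp only [hi, if_false]
      refine ⟨(hC1 _).1, (hC1 _).2.1, ?_, ?_⟩
      · have := (hC1 i.castSucc).2.2.1
        rwa [hs1] at this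
      · have := (hC1 i.castSucc).2.2.2
        rwa [ht1, if_neg hi] at this
  · have hlast : ∀ i : Fin p, i.castSucc ≠ Fin.last p := fun i => (Fin.castSucc_lt_last i).ne
    intro i j hij
    have hcs : ∀ i j : Fin p, i ≠ j → i.castSucc ≠ j.castSucc := fun i j h h' =>
      h (Fin.castSucc_injective p h')
    by_cases hi : i = z
    · have hj : j ≠ z := fun h => hij (hi.trans h.symm)
      simp only [hi, hj, if_true, if_false]
      rw [Finset.disjoint_union_left]
      refine ⟨hC2 _ _ (hcs _ _ (Ne.symm hj)), hC2 _ _ (hlast j).symm⟩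
    · by_cases hj : j = z
      · simp only [hi, hj, if_true, if_false]
        rw [Finset.disjoint_union_right]
        exact ⟨hC2 _ _ (hcs _ _ hi), hC2 _ _ (hlast i)⟩
      · simp only [hi, hj, if_false]
        exact hC2 _ _ (hcs _ _ hij)
  · refine ⟨e x, ?_, v, ?_, hv1⟩
    · simp only [hxz, if_false]
      have := (hC1 x.castSucc).2.2.1
      rwa [hs1] at this
    · simp only [if_true]
      refine Finset.mem_union_left _ ?_
      have := (hC1 z.castSucc).2.2.2
      rwa [ht1, if_pos rfl] at this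

end Crest.Agent.R042.Chain374
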