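import Mathlib
import Crest.Agent.R042.Palette_365
import Crest.Agent.R042.Crit_374

/-! Row 42 (S0058), sec 10.5 COST LEMMA and the quasi-subadditivity of 8.1. -/

set_option autoImplicit false
set_option linter.unusedSectionVars false

namespace Crest.Agent.R042.Cost365

open Finset Crit374 Pal365

variable {V : Type*} [DecidableEq V] {G : SimpleGraph V}

/-- **8.1 quasi-subadditivity.** If `V0` is the union of `m` sets `W i`, each `q'`-choosable,
`2 m q' ≤ q` and `m |V0| < exp (q/8m)`, then `V0` is `q`-choosable. -/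
theorem quasi_subadd (V0 : Finset V) {m : ℕ} (hm : 1 ≤ m) (W : Fin m → Finset V)
    (hW : ∀ v ∈ V0, ∃ i, v ∈ W i) (q q' : ℕ) (hq : 2 * m * q' ≤ q)
    (hsize : ((m * V0.card : ℕ) : ℝ) < Real.exp (q / (8 * m)))
    (hc : ∀ i, Choos G (W i) q') : Choos G V0 q := by
  classical
  intro L hL
  obtain ⟨χ, hχ⟩ := palette V0 L m q hm hL hsize
  have h1 : ∀ v ∈ V0, ∀ a, q' ≤ ((L v).filter fun c => χ c = a).card := by
    intro v hv a
    have h := hχ v hv a
    have h2 : 2 * m * q' ≤ 2 * m * ((L v).filter fun c => χ c = a).card := hq.trans h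
    exact Nat.le_of_mul_le_mul_left h2 (by omega)
  have h2 : ∀ i, ColOn G (W i ∩ V0) (fun v => (L v).filter fun c => χ c = i) := by
    intro i
    exact ((hc i).mono inter_subset_left) _ fun v hv => h1 v (mem_inter.1 hv).2 i
  choose c hc1 hc2 using h2
  have hex : ∀ v : V, ∃ i : Fin m, v ∈ V0 → v ∈ W i := by
    intro v
    by_cases hv : v ∈ V0
    · obtain ⟨i, hi⟩ := hW v hv
      exact ⟨i, fun _ => hi⟩
    · exact ⟨⟨0, hm⟩, fun h => absurd h hv⟩
  choose a ha using hex
  refine ⟨fun v => c (a v) v, fun v hv => ?_, fun u hu v hv huv heq => ?_⟩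
  · exact (mem_filter.1 (hc1 (a v) v (mem_inter.2 ⟨ha v hv, hv⟩))).1
  · have eu := (mem_filter.1 (hc1 (a u) u (mem_inter.2 ⟨ha u hu, hu⟩))).2
    have ev := (mem_filter.1 (hc1 (a v) v (mem_inter.2 ⟨ha v hv, hv⟩))).2
    have hauv : a u = a v := by
      rw [← eu, ← ev]; exact congrArg χ heq
    have hu' : u ∈ W (a v) ∩ V0 := mem_inter.2 ⟨hauv ▸ ha u hu, hu⟩
    refine hc2 (a v) u hu' v (mem_inter.2 ⟨ha v hv, hv⟩) huv ?_
    have heq' : c (a u) u = c (a v) v := heq
    rw [hauv] at heq'
    exact heq'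

/-- **Degenerate pieces, greedily**: `Q_0, …, Q_{m-1}` disjoint, every vertex of `Q_i` has at most
`t` neighbours in the previous `Q_j`, `Q_i` is `r`-choosable, lists of size `≥ t + r`. -/
theorem chain_col [DecidableRel G.Adj] (L : V → Finset ℕ) (k t r : ℕ) (hk : t + r ≤ k) (m : ℕ) :
    ∀ (Q : Fin m → Finset V), (∀ i j, i ≠ j → Disjoint (Q i) (Q j)) →
    (∀ i, ∀ v ∈ Q i, k ≤ (L v).card) →
    (∀ i, ∀ v ∈ Q i, (((univ.filter fun j => j < i).biUnion Q).filter (G.Adj v)).card ≤ t) →
    (∀ i, Choos G (Q i) r) → ColOn G (univ.biUnion Q) L := by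
  induction m with
  | zero =>
    intro Q _ _ _ _
    exact ⟨fun _ => 0, by simp, by intro u hu; simp at hu⟩
  | succ m ih =>
    intro Q hd hL ht hc
    obtain ⟨c, hc1, hc2⟩ := ih (fun i => Q i.castSucc) (fun i j hij => hd _ _ (by simpa using hij))
      (fun i v hv => hL _ v hv) (fun i v hv => by
        refine le_trans (card_le_card (filter_subset_filter _ ?_)) (ht _ v hv)
        intro x hx
        simp only [mem_biUnion, mem_filter, mem_univ, true_and] at hx ⊢
        obtain ⟨j, hj, hx⟩ := hx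
        exact ⟨j.castSucc, by simpa using hj, hx⟩) (fun i => hc _)
    have hdis : Disjoint (univ.biUnion fun i : Fin m => Q i.castSucc) (Q (Fin.last m)) := by
      rw [disjoint_biUnion_left]
      intro i _
      exact hd _ _ (Fin.castSucc_lt_last i).ne
    obtain ⟨c', h1, h2, h3⟩ := extend_choos (L := L) (t := t) (q := k) hdis hc2
      (fun v hv => hL _ v hv) (fun v hv => by
        refine le_trans (card_le_card (filter_subset_filter _ ?_)) (ht (Fin.last m) v hv)
        intro x hx
        simp only [mem_biUnion, mem_filter, mem_univ, true_and] at hx ⊢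
        obtain ⟨j, hx⟩ := hx
        exact ⟨j.castSucc, Fin.castSucc_lt_last j, hx⟩) ((hc _).mono_card (by omega))
    have hU : univ.biUnion Q = (univ.biUnion fun i : Fin m => Q i.castSucc) ∪ Q (Fin.last m) := by
      ext x
      simp only [mem_biUnion, mem_univ, true_and, mem_union]
      constructor
      · rintro ⟨i, hi⟩
        refine Fin.lastCases (motive := fun i => x ∈ Q i → _) ?_ ?_ i hi
        · intro h; exact Or.inr h
        · intro j h; exact Or.inl ⟨j, h⟩
      · rintro (⟨j, h⟩ | h)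
        · exact ⟨_, h⟩
        · exact ⟨_, h⟩
    refine ⟨c', fun v hv => ?_, ?_⟩
    · rw [hU, mem_union] at hv
      rcases hv with hv | hv
      · rw [h1 v hv]; exact hc1 v hv
      · exact h2 v hv
    · rw [hU]; exact h3

/-- **(10.5) COST LEMMA.** -/
theorem cost [DecidableRel G.Adj] (V0 U : Finset V) (hU : U ⊆ V0) {m : ℕ} (Q : Fin m → Finset V)
    (hQ : ∀ i, Q i ⊆ V0) (hQd : ∀ i j, i ≠ j → Disjoint (Q i) (Q j))
    (k k'' M h t t' r q : ℕ) (hM : 1 ≤ M) (h1 : ¬ Choos G V0 k) (h2 : Choos G U q)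
    (hq : 2 * M * q ≤ k)
    (hsize : ((U.card + ((V0 \ U).filter fun v => h + 1 ≤ (U.filter (G.Adj v)).card).card : ℕ) : ℝ)
      < Real.exp (k / (8 * M)))
    (h3 : ∀ i, ∀ v ∈ Q i, v ∉ U →
      (((univ.filter fun j => j < i).biUnion Q).filter (G.Adj v)).card ≤ t)
    (h4 : ∀ i, Choos G (Q i \ U) r)
    (h5 : ∀ v ∈ V0, v ∉ U → (∀ i, v ∉ Q i) → ((univ.biUnion Q).filter (G.Adj v)).card ≤ t')
    (hnum : h + t + r + 2 * k / M ≤ k) (hk : k'' + 2 * k / M + h + t' ≤ k) :
    ¬ Choos G ((V0 \ U) \ univ.biUnion Q) k'' := by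
  classical
  intro hR
  apply h1
  intro L0 hL0
  -- trim the lists to size exactly `k`
  have hex : ∀ v : V, ∃ s : Finset ℕ, v ∈ V0 → s ⊆ L0 v ∧ s.card = k := by
    intro v
    by_cases hv : v ∈ V0
    · obtain ⟨s, a1, a2⟩ := exists_subset_card_eq (hL0 v hv)
      exact ⟨s, fun _ => ⟨a1, a2⟩⟩
    · exact ⟨∅, fun h => absurd h hv⟩
  choose L hL using hex
  suffices hcol : ColOn G V0 L from hcol.mono_list fun v hv => (hL v hv).1
  set A1 : Finset V := (V0 \ U).filter fun v => h + 1 ≤ (U.filter (G.Adj v)).card with hA1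
  obtain ⟨P, hP1, hP2⟩ := palette2 U A1 L M k hM (fun v hv => (hL v (hU hv)).2)
    (fun v hv => (hL v (mem_sdiff.1 (mem_filter.1 hv).1).1).2) hsize
  have hP1' : ∀ v ∈ U, q ≤ ((L v).filter P).card := by
    intro v hv
    have h := hP1 v hv ((L v).filter P) (fun c => by simp)
    exact Nat.le_of_mul_le_mul_left (hq.trans h) (by omega)
  have hP2' : ∀ v ∈ A1, ((L v).filter P).card ≤ 2 * k / M := by
    intro v hv
    have h := hP2 v hv ((L v).filter P) (fun c => by simp)
    exact (Nat.le_div_iff_mul_le (by omega)).2 (by rw [mul_comm]; exact h)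
  -- colour `U` from `P`
  obtain ⟨c0, hc01, hc02⟩ := h2 (fun v => (L v).filter P) hP1'
  -- the new lists outside `U`
  let L1 : V → Finset ℕ := fun v =>
    if v ∈ A1 then (L v).filter (fun c => ¬ P c) else L v \ (U.filter (G.Adj v)).image c0
  set k1 := k - 2 * k / M - h with hk1
  have hL1 : ∀ v ∈ V0 \ U, k1 ≤ (L1 v).card := by
    intro v hv
    have hvk : (L v).card = k := (hL v (mem_sdiff.1 hv).1).2
    by_cases hvA : v ∈ A1
    · simp only [L1, hvA, if_true]
      have e := card_filter_add_card_filter_not (s := L v) P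
      have := hP2' v hvA
      omega
    · simp only [L1, hvA, if_false]
      have e1 : (U.filter (G.Adj v)).card ≤ h := by
        by_contra hcon
        exact hvA (mem_filter.2 ⟨hv, by omega⟩)
      have h6 := card_sdiff_image_ge c0 (L := L v) (q := k) hvk.ge e1
      exact le_trans (Nat.sub_le_sub_right (Nat.sub_le k _) h) h6
  -- colour the chain
  have hch : ColOn G (univ.biUnion fun i => Q i \ U) L1 := by
    refine chain_col L1 k1 t r (by omega) m (fun i => Q i \ U)
      (fun i j hij => (hQd i j hij).mono sdiff_subset sdiff_subset) ?_ ?_ h4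
    · intro i v hv
      rw [mem_sdiff] at hv
      exact hL1 v (mem_sdiff.2 ⟨hQ i hv.1, hv.2⟩)
    · intro i v hv
      rw [mem_sdiff] at hv
      refine le_trans (card_le_card (filter_subset_filter _ ?_)) (h3 i v hv.1 hv.2)
      exact biUnion_mono fun j _ => sdiff_subset
  obtain ⟨c1, hc11, hc12⟩ := hch
  set R : Finset V := (V0 \ U) \ univ.biUnion Q with hRdef
  set T : Finset V := univ.biUnion fun i => Q i \ U with hT
  have hdTR : Disjoint T R := by
    rw [disjoint_left]
    intro x hx hxR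
    rw [hT, mem_biUnion] at hx
    obtain ⟨i, -, hi⟩ := hx
    rw [hRdef, mem_sdiff] at hxR
    exact hxR.2 (mem_biUnion.2 ⟨i, mem_univ _, (mem_sdiff.1 hi).1⟩)
  obtain ⟨c2, hc21, hc22, hc23⟩ := extend_choos (L := L1) (t := t') (q := k1) hdTR hc12
    (fun v hv => hL1 v (mem_sdiff.1 hv).1)
    (fun v hv => by
      rw [hRdef, mem_sdiff, mem_sdiff] at hv
      refine le_trans (card_le_card (filter_subset_filter _ ?_)) (h5 v hv.1.1 hv.1.2 ?_)
      · exact biUnion_mono fun j _ => sdiff_subset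
      · intro i hi
        exact hv.2 (mem_biUnion.2 ⟨i, mem_univ _, hi⟩))
    (hR.mono_card (by omega))
  have hTR : V0 \ U = T ∪ R := by
    ext x
    rw [hRdef, hT]
    simp only [mem_sdiff, mem_union, mem_biUnion, mem_univ, true_and, not_exists]
    constructor
    · rintro ⟨hx, hxU⟩
      by_cases hq : ∃ i, x ∈ Q i
      · obtain ⟨i, hi⟩ := hq
        exact Or.inl ⟨i, hi, hxU⟩
      · push Not at hq
        exact Or.inr ⟨⟨hx, hxU⟩, hq⟩
    · rintro (⟨i, hi, hxU⟩ | ⟨⟨hx, hxU⟩, -⟩)
      · exact ⟨hQ i hi, hxU⟩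
      · exact ⟨hx, hxU⟩
  have hc2L : ∀ v ∈ V0 \ U, c2 v ∈ L1 v := by
    intro v hv
    rw [hTR, mem_union] at hv
    rcases hv with hv | hv
    · rw [hc21 v hv]; exact hc11 v hv
    · exact hc22 v hv
  rw [← hTR] at hc23
  -- glue
  refine ⟨fun v => if v ∈ V0 \ U then c2 v else c0 v, fun v hv => ?_, ?_⟩
  · by_cases hvU : v ∈ V0 \ U
    · simp only [hvU, if_true]
      have h := hc2L v hvU
      simp only [L1] at h
      split_ifs at h
      · exact (mem_filter.1 h).1
      · exact (mem_sdiff.1 h).1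
    · simp only [hvU, if_false]
      have : v ∈ U := by
        by_contra h; exact hvU (mem_sdiff.2 ⟨hv, h⟩)
      exact (mem_filter.1 (hc01 v this)).1
  · have hV : V0 = U ∪ (V0 \ U) := by
      rw [union_sdiff_of_subset hU]
    have hdisj : Disjoint U (V0 \ U) := disjoint_sdiff
    have hgl := glue_proper (G := G) hdisj hc02 hc23 ?_
    · rw [← hV] at hgl
      exact hgl
    · intro v hv u hu huv heq
      have h := hc2L v hv
      simp only [L1] at h
      split_ifs at h with hA
      · have h' := (mem_filter.1 h).2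
        rw [heq] at h'
        exact h' (mem_filter.1 (hc01 u hu)).2
      · have h' := (mem_sdiff.1 h).2
        apply h'
        rw [heq]
        exact mem_image_of_mem c0 (mem_filter.2 ⟨hu, huv⟩)

end Crest.Agent.R042.Cost365
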