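import Mathlib
import Crest.Agent.R042.P1_375
import Crest.Agent.R042.Cost_365
import Crest.Agent.R042.Chain1_374
import Crest.Agent.R042.LinkDefs_870

/-! Row 42 / S0058: the block B7 (10.6 + 10.7) from the chain of hubs, with all constants. -/

set_option autoImplicit false
set_option linter.unusedSectionVars false

namespace Crest.Agent.R042.B7375

open Finset Crest.Agent.R042.Conn353 Crest.Agent.R042.Menger353 Crest.Agent.R042.Mader375
  Crest.Agent.R042.Crit374 Crest.Agent.R042.P1375
open scoped Classical

variable {V : Type*} [DecidableEq V]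

/-- a set `J` with `≥ 2p+6` vertices which is linked for all sets of `≤ 2(p+2)` vertices is a hub
(the degree condition is automatic). -/
theorem hub_of_linked {G : SimpleGraph V} {J : Finset V} {p : ℕ} (hc : 2 * p + 6 ≤ J.card)
    (hl : ∀ X, X ⊆ J → X.card ≤ 2 * (p + 2) → Link870.Linked G J X) : Chain374.Hub G J p := by
  refine ⟨hc, ?_, ?_⟩
  · intro v hv
    by_contra hcon
    push Not at hcon
    -- the neighbours of `v`
    set N : Finset V := J.filter (fun u => G.Adj v u) with hN
    have hNc : N.card ≤ 2 * p := by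
      have : N.card = Chain374.nb G J v := by
        rw [hN]; rfl
      omega
    have hins : (insert v N).card ≤ 2 * p + 1 := (Finset.card_insert_le _ _).trans (by omega)
    obtain ⟨w, hwJ, hw⟩ : ∃ w ∈ J, w ∉ insert v N := by
      by_contra hcon2
      push Not at hcon2
      have := Finset.card_le_card (show J ⊆ insert v N from hcon2)
      omega
    have hwv : w ≠ v := fun h => hw (h ▸ Finset.mem_insert_self _ _)
    have hwN : w ∉ N := fun h => hw (Finset.mem_insert_of_mem h)
    set X : Finset V := insert w (insert v N) with hX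
    have hXJ : X ⊆ J := by
      intro x hx
      rw [hX, Finset.mem_insert, Finset.mem_insert] at hx
      rcases hx with h | h | h
      · exact h ▸ hwJ
      · exact h ▸ hv
      · exact (Finset.mem_filter.1 h).1
    have hXc : X.card ≤ 2 * (p + 2) := (Finset.card_insert_le _ _).trans (by omega)
    have hvX : v ∈ X := by rw [hX]; simp
    have hwX : w ∈ X := by rw [hX]; simp
    obtain ⟨P, hP⟩ := hl X hXJ hXc 1 (fun _ => v) (fun _ => w) (fun _ => hvX) (fun _ => hwX)
      (fun i j _ => Subsingleton.elim i j) (fun i j _ => Subsingleton.elim i j)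
      (fun _ _ => hwv.symm)
    have hreach := (hP.conn 0).reach (hP.left 0) (hP.right 0)
    rcases Relation.ReflTransGen.cases_head hreach with h | ⟨c, ⟨hvc, hc0⟩, -⟩
    · exact hwv h.symm
    · have hcJ : c ∈ J := hP.sub 0 hc0
      have hcN : c ∈ N := Finset.mem_filter.2 ⟨hcJ, hvc⟩
      have hcX : c ∈ X := by
        rw [hX]
        exact Finset.mem_insert_of_mem (Finset.mem_insert_of_mem hcN)
      rcases hP.meet 0 c hc0 hcX with h | h
      · exact hvc.ne h.symm
      · exact hwN (h ▸ hcN)
  · intro n s t hn hs ht hsi hti hst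
    set X : Finset V := Finset.univ.image s ∪ Finset.univ.image t with hX
    have hXJ : X ⊆ J := by
      intro x hx
      rw [hX, Finset.mem_union, Finset.mem_image, Finset.mem_image] at hx
      rcases hx with ⟨i, -, rfl⟩ | ⟨i, -, rfl⟩
      · exact hs i
      · exact ht i
    have hXc : X.card ≤ 2 * (p + 2) := by
      have h1 : (Finset.univ.image s).card ≤ n := by
        simpa using (Finset.card_image_le (s := (Finset.univ : Finset (Fin n))) (f := s))
      have h2 : (Finset.univ.image t).card ≤ n := by
        simpa using (Finset.card_image_le (s := (Finset.univ : Finset (Fin n))) (f := t))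
      have := Finset.card_union_le (Finset.univ.image s) (Finset.univ.image t)
      rw [← hX] at this
      omega
    obtain ⟨P, hP⟩ := hl X hXJ hXc n s t
      (fun i => Finset.mem_union_left _ (Finset.mem_image_of_mem s (Finset.mem_univ i)))
      (fun i => Finset.mem_union_right _ (Finset.mem_image_of_mem t (Finset.mem_univ i)))
      hsi hti hst
    exact ⟨P, fun i => ⟨hP.sub i, hP.conn i, hP.left i, hP.right i⟩, hP.disj⟩

/-- LEMMA P1 for a finite set of finite sets. -/
theorem p1_sets (G : SimpleGraph V) (V0 : Finset V) (h : ℕ) (hno : ¬ Model G V0 (h + 1))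
    (F : Finset (Finset V)) (T : Finset V) (hF : ∀ A ∈ F, A ⊆ V0 ∧ Conn G A)
    (hd : ∀ A ∈ F, ∀ B ∈ F, A ≠ B → Disjoint A B) (hT : T ⊆ V0)
    (hsee : ∀ t ∈ T, (∀ A ∈ F, t ∉ A) ∧ h + 1 ≤ Chain374.sees G F t) :
    T.card ≤ 2 ^ h * F.card := by
  refine outside' G V0 h hno F (fun A => A) hF hd T hT (fun t ht A hA => (hsee t ht).1 A hA) ?_
  intro t ht
  refine (hsee t ht).2.trans (le_of_eq ?_)
  unfold Chain374.sees
  congr

/-- the cost lemma with one degenerate set. -/
theorem cost_one (G : SimpleGraph V) (V0 U P : Finset V) (hU : U ⊆ V0) (hP : P ⊆ V0)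
    (h k kc M q c t' : ℕ) (hno : ¬ Model G V0 (h + 1)) (hM : 1 ≤ M) (h1 : ¬ Choos G V0 k)
    (h2 : Choos G U q) (hq : 2 * M * q ≤ k)
    (hsize : (((2 ^ h + 1) * U.card : ℕ) : ℝ) < Real.exp (k / (8 * M)))
    (hdeg : Chain374.Degen G (P \ U) c)
    (h5 : ∀ v ∈ V0, v ∉ U → v ∉ P → Chain374.nb G P v ≤ t')
    (hnum : h + c + 1 + 2 * k / M ≤ k) (hk : kc + 2 * k / M + h + t' ≤ k) :
    ¬ Choos G ((V0 \ U) \ P) kc := by
  have hA1 : ((V0 \ U).filter fun v => h + 1 ≤ (U.filter (G.Adj v)).card).card
      ≤ 2 ^ h * U.card := by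
    refine outside_single G V0 h hno U hU _ ((Finset.filter_subset _ _).trans sdiff_subset)
      ?_ ?_
    · exact Finset.disjoint_of_subset_left (Finset.filter_subset _ _) sdiff_disjoint
    · intro t ht
      refine (Finset.mem_filter.1 ht).2.trans (le_of_eq ?_)
      congr
  have := Cost365.cost (G := G) V0 U hU (m := 1) (fun _ => P) (fun _ => hP)
    (fun i j hij => absurd (Subsingleton.elim i j) hij) k kc M h 0 t' (c + 1) q hM h1 h2 hq
    (lt_of_le_of_lt (by
      have : U.card + ((V0 \ U).filter fun v => h + 1 ≤ (U.filter (G.Adj v)).card).card ≤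
        (2 ^ h + 1) * U.card := by
        rw [add_mul, one_mul]; omega
      exact_mod_cast this) hsize)
    (by
      intro i v _ _
      have : (Finset.univ.filter fun j : Fin 1 => j < i) = ∅ := by
        apply Finset.filter_eq_empty_iff.2
        intro j _ hj
        rw [Subsingleton.elim j i] at hj
        exact lt_irrefl _ hj
      rw [this]; simp)
    (fun _ => hdeg.choos)
    (by
      intro v hv hvU hvQ
      have hb : (Finset.univ : Finset (Fin 1)).biUnion (fun _ => P) = P := by
        ext x; simp
      rw [hb]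
      have := h5 v hv hvU (hvQ 0)
      refine le_trans (le_of_eq ?_) this
      unfold Chain374.nb
      congr)
    (by omega) (by omega)
  have hb : (Finset.univ : Finset (Fin 1)).biUnion (fun _ => P) = P := by
    ext x; simp
  rw [hb] at this
  exact this

end Crest.Agent.R042.B7375
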