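import Mathlib
import Crest.Agent.R042.Menger_353

/-! Row 42, sec 08 Lemma U, part 1: from a "good" permutation of `W + P` to a linkage. -/

set_option autoImplicit false
set_option linter.unusedSectionVars false

namespace Crest.Agent.R042.U420

open Finset Menger353

variable {V : Type*} [DecidableEq V]

/-- allowed transitions. -/
def Ok (G : SimpleGraph V) (A B : Finset V) : V ⊕ List V → V ⊕ List V → Prop
  | .inl v, .inl w => v = w ∨ G.Adj v w
  | .inl v, .inr _ => v ∈ B
  | .inr _, .inl w => w ∈ A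
  | .inr _, .inr _ => False

/-- the nodes. -/
def nodes (W : Finset V) (P : Finset (List V)) : Finset (V ⊕ List V) := W.disjSum P

/-- a good permutation. -/
structure Good (G : SimpleGraph V) (W A B : Finset V) (P : Finset (List V))
    (τ : Equiv.Perm (V ⊕ List V)) : Prop where
  ok : ∀ x ∈ nodes W P, Ok G A B x (τ x)
  fix : ∀ x, x ∉ nodes W P → τ x = x

/-- the cost of a permutation. -/
def cost (W : Finset V) (τ : Equiv.Perm (V ⊕ List V)) : ℕ :=
  (W.filter (fun v => τ (.inl v) ≠ .inl v)).card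

variable {G : SimpleGraph V} {W A B : Finset V} {P : Finset (List V)}
  {τ : Equiv.Perm (V ⊕ List V)}

lemma inl_mem_nodes {v : V} : (Sum.inl v : V ⊕ List V) ∈ nodes W P ↔ v ∈ W := by
  simp [nodes]

lemma inr_mem_nodes {l : List V} : (Sum.inr l : V ⊕ List V) ∈ nodes W P ↔ l ∈ P := by
  simp [nodes]

lemma Good.mem (h : Good G W A B P τ) {x : V ⊕ List V} (hx : x ∈ nodes W P) :
    τ x ∈ nodes W P := by
  by_contra hn
  have := h.fix _ hn
  exact hn (by rw [τ.injective this]; exact hx)

lemma Good.iter_mem (h : Good G W A B P τ) {x : V ⊕ List V} (hx : x ∈ nodes W P) (n : ℕ) :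
    (τ^[n]) x ∈ nodes W P := by
  induction n with
  | zero => exact hx
  | succ n ih => rw [Function.iterate_succ_apply']; exact h.mem ih

lemma Good.exists_return (h : Good G W A B P τ) {x : V ⊕ List V} (hx : x ∈ nodes W P) :
    ∃ n, (τ^[n + 1]) x = x := by
  have hinf : ∃ m n : ℕ, m ≠ n ∧
      (⟨(τ^[m]) x, h.iter_mem hx m⟩ : {y // y ∈ nodes W P}) = ⟨(τ^[n]) x, h.iter_mem hx n⟩ := by
    obtain ⟨m, n, h1, h2⟩ := Finite.exists_ne_map_eq_of_infinite
      (fun n : ℕ => (⟨(τ^[n]) x, h.iter_mem hx n⟩ : {y // y ∈ nodes W P}))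
    exact ⟨m, n, h1, h2⟩
  obtain ⟨m, n, hmn, he⟩ := hinf
  simp only [Subtype.mk.injEq] at he
  wlog hlt : m < n generalizing m n
  · exact this n m hmn.symm he.symm (by omega)
  obtain ⟨d, rfl⟩ := Nat.exists_eq_add_of_lt hlt
  refine ⟨d, ?_⟩
  have : (τ^[m]) ((τ^[d + 1]) x) = (τ^[m]) x := by
    rw [← Function.iterate_add_apply, he]
    rfl
  exact (τ.injective.iterate m) this

/-- the main extraction: for each dummy `i`, an `A`-`B` path all of whose vertices are of the form
`τ^[j+1] (inr i)`, with all previous iterates on the left. -/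
lemma Good.path_of (h : Good G W A B P τ) {i : List V} (hi : i ∈ P) :
    ∃ l, IsPath G W A B l ∧ ∀ v ∈ l, ∃ j, (τ^[j + 1]) (.inr i) = .inl v ∧
      ∀ j' ≤ j, ∃ u, (τ^[j' + 1]) (.inr i) = .inl u := by
  classical
  have hx0 : (Sum.inr i : V ⊕ List V) ∈ nodes W P := inr_mem_nodes.2 hi
  have hex : ∃ n, ((τ^[n + 1]) (.inr i)).isRight = true := by
    obtain ⟨n, hn⟩ := h.exists_return hx0
    exact ⟨n, by rw [hn]; rfl⟩
  set m := Nat.find hex with hm
  have hmr : ((τ^[m + 1]) (.inr i)).isRight = true := Nat.find_spec hex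
  have hml : ∀ j < m, ∃ u, (τ^[j + 1]) (.inr i) = .inl u := by
    intro j hj
    have := Nat.find_min hex hj
    rcases hc : (τ^[j + 1]) (.inr i) with u | l
    · exact ⟨u, rfl⟩
    · rw [hc] at this; simp at this
  have hm0 : m ≠ 0 := by
    intro h0
    rw [h0] at hmr
    have hok := h.ok _ hx0
    rcases hc : τ (.inr i) with u | l
    · simp [hc] at hmr
    · rw [hc] at hok; exact hok
  obtain ⟨v0, hv0⟩ := hml 0 (by omega)
  let toV : V ⊕ List V → V := Sum.elim id (fun _ => v0)
  let L : List V := (List.range m).map (fun j => toV ((τ^[j + 1]) (.inr i)))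
  have hLlen : L.length = m := by simp [L]
  have hget : ∀ j (hj : j < L.length), (τ^[j + 1]) (.inr i) = .inl L[j] := by
    intro j hj
    obtain ⟨u, hu⟩ := hml j (by rw [hLlen] at hj; exact hj)
    simp only [L, List.getElem_map, List.getElem_range]
    rw [hu]; rfl
  have hmem : ∀ v ∈ L, ∃ j, j < m ∧ (τ^[j + 1]) (.inr i) = .inl v := by
    intro v hv
    obtain ⟨j, hj, rfl⟩ := List.getElem_of_mem hv
    exact ⟨j, by rw [← hLlen]; exact hj, hget j hj⟩
  have hW : ∀ x ∈ L, x ∈ W := by
    intro v hv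
    obtain ⟨j, hj, he⟩ := hmem v hv
    have := h.iter_mem hx0 (j + 1)
    rw [he] at this
    exact inl_mem_nodes.1 this
  have hnofix : ∀ j, j < m → τ ((τ^[j + 1]) (.inr i)) ≠ (τ^[j + 1]) (.inr i) := by
    intro j hj hfix
    obtain ⟨u, hu⟩ := hml j hj
    rw [hu] at hfix
    have h1 : (τ^[j + 1]) (.inl u) = .inl u := Function.iterate_fixed hfix _
    have h2 : (τ^[j + 1]) (.inr i) = (τ^[j + 1]) (.inl u) := by rw [h1, hu]
    exact absurd ((τ.injective.iterate (j + 1)) h2) (by simp)
  have hchain : L.IsChain G.Adj := by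
    rw [List.isChain_iff_getElem]
    intro j hj
    have e1 := hget j (by omega)
    have e2 := hget (j + 1) hj
    rw [Function.iterate_succ_apply', e1] at e2
    have hok := h.ok (.inl L[j]) (by
      rw [← e1]; exact h.iter_mem hx0 _)
    rw [e2] at hok
    rcases hok with hok | hok
    · exfalso
      apply hnofix j (by rw [hLlen] at hj; omega)
      rw [e1, e2, hok]
    · exact hok
  have hne : L ≠ [] := by
    intro h0
    rw [h0] at hLlen
    simp at hLlen
    omega
  have hA : ∃ a t, L = a :: t ∧ a ∈ A := by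
    obtain ⟨a, t, hat⟩ := List.exists_cons_of_ne_nil hne
    refine ⟨a, t, hat, ?_⟩
    have e := hget 0 (by rw [hLlen]; omega)
    have hok := h.ok _ hx0
    have e' : τ (.inr i) = .inl L[0] := by simpa using e
    rw [e'] at hok
    have : L[0]'(by rw [hLlen]; omega) = a := by simp [hat]
    rw [this] at hok
    exact hok
  have hB : ∃ s b, L = s ++ [b] ∧ b ∈ B := by
    rcases List.eq_nil_or_concat L with h0 | ⟨s, b, hsb⟩
    · exact absurd h0 hne
    rw [List.concat_eq_append] at hsb
    refine ⟨s, b, hsb, ?_⟩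
    have hsl : s.length + 1 = m := by rw [← hLlen, hsb]; simp
    have e := hget s.length (by rw [hLlen]; omega)
    have hb : L[s.length]'(by rw [hLlen]; omega) = b := by simp [hsb]
    rw [hb, hsl] at e
    have hok := h.ok (.inl b) (by rw [← e]; exact h.iter_mem hx0 _)
    rw [Function.iterate_succ_apply', e] at hmr
    rcases hc : τ (.inl b) with u | l
    · rw [hc] at hmr; simp at hmr
    · rw [hc] at hok; exact hok
  obtain ⟨l', hl', hsub⟩ := exists_path_of_chain L.length L le_rfl hW hchain hA hB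
  refine ⟨l', hl', ?_⟩
  intro v hv
  obtain ⟨j, hj, he⟩ := hmem v (hsub v hv)
  exact ⟨j, he, fun j' hj' => hml j' (by omega)⟩

/-- a good permutation gives a linkage of the same size, using at most `cost` vertices. -/
theorem Good.exists_linkage (h : Good G W A B P τ) :
    ∃ Q, Linkage G W A B Q ∧ Q.card = P.card ∧ (verts Q).card ≤ cost W τ := by
  classical
  have hch : ∀ i : List V, ∃ l, i ∈ P → IsPath G W A B l ∧ ∀ v ∈ l, ∃ j,
      (τ^[j + 1]) (.inr i) = .inl v ∧ ∀ j' ≤ j, ∃ u, (τ^[j' + 1]) (.inr i) = .inl u := by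
    intro i
    by_cases hi : i ∈ P
    · obtain ⟨l, hl⟩ := h.path_of hi
      exact ⟨l, fun _ => hl⟩
    · exact ⟨[], fun h => absurd h hi⟩
  choose F hF using hch
  have hdisj : ∀ i ∈ P, ∀ i' ∈ P, i ≠ i' → ∀ x ∈ F i, x ∉ F i' := by
    intro i hi i' hi' hne x hx hx'
    obtain ⟨j, h1, h2⟩ := (hF i hi).2 x hx
    obtain ⟨j', h1', h2'⟩ := (hF i' hi').2 x hx'
    clear hx hx'
    wlog hle : j ≤ j' generalizing i i' j j'
    · exact this i' hi' i hi hne.symm j' h1' h2' j h1 h2 (by omega)
    obtain ⟨d, rfl⟩ := Nat.exists_eq_add_of_le hle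
    have e : (τ^[j + 1]) (.inr i) = (τ^[j + 1]) ((τ^[d]) (.inr i')) := by
      rw [← Function.iterate_add_apply, h1, ← h1']
      have : j + 1 + d = j + d + 1 := by omega
      rw [this]
    have e' := (τ.injective.iterate (j + 1)) e
    rcases d with _ | d
    · simp only [Function.iterate_zero, id_eq, Sum.inr.injEq] at e'
      exact hne e'
    · obtain ⟨u, hu⟩ := h2' d (by omega)
      rw [hu] at e'
      exact absurd e' (by simp)
  have hinj : Set.InjOn F P := by
    intro i hi i' hi' he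
    by_contra hne
    obtain ⟨a, t, hat, _⟩ := (hF i hi).1.start
    have h1 : a ∈ F i := by rw [hat]; simp
    exact hdisj i hi i' hi' hne a h1 (he ▸ h1)
  refine ⟨P.image F, ⟨?_, ?_⟩, Finset.card_image_of_injOn hinj, ?_⟩
  · intro l hl
    obtain ⟨i, hi, rfl⟩ := Finset.mem_image.1 hl
    exact (hF i hi).1
  · intro l hl l' hl' hne
    obtain ⟨i, hi, rfl⟩ := Finset.mem_image.1 hl
    obtain ⟨i', hi', rfl⟩ := Finset.mem_image.1 hl'
    exact hdisj i hi i' hi' (fun e => hne (by rw [e]))
  · apply Finset.card_le_card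
    intro v hv
    obtain ⟨l, hl, hvl⟩ := mem_verts.1 hv
    obtain ⟨i, hi, rfl⟩ := Finset.mem_image.1 hl
    refine Finset.mem_filter.2 ⟨(hF i hi).1.sub v hvl, ?_⟩
    intro hfix
    obtain ⟨j, h1, h2⟩ := (hF i hi).2 v hvl
    have h3 : (τ^[j + 1]) (.inl v) = .inl v := Function.iterate_fixed hfix _
    have h4 : (τ^[j + 1]) (.inr i) = (τ^[j + 1]) (.inl v) := by rw [h3, h1]
    exact absurd ((τ.injective.iterate (j + 1)) h4) (by simp)

end Crest.Agent.R042.U420
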