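import Mathlib
import Crest.Agent.R042.LemmaU1_420

/-! Row 42, sec 08 Lemma U, part 2: the permutation of a linkage. -/

set_option autoImplicit false
set_option linter.unusedSectionVars false

namespace Crest.Agent.R042.U420

open Finset Menger353

variable {V : Type*} [DecidableEq V]
variable {G : SimpleGraph V} {W A B : Finset V} {P : Finset (List V)}

/-- `formPerm` moves a vertex to the next one. -/
lemma formPerm_next {α : Type*} [DecidableEq α] {s t : List α} {x y : α}
    (h : (s ++ x :: y :: t).Nodup) : (s ++ x :: y :: t).formPerm x = y := by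
  have h1 : s.length + 1 < (s ++ x :: y :: t).length := by simp
  have h2 := List.formPerm_apply_lt_getElem (s ++ x :: y :: t) h s.length h1
  simpa using h2

/-- `formPerm` moves the last vertex to the first one. -/
lemma formPerm_last {α : Type*} [DecidableEq α] {t : List α} {x y : α} :
    (x :: (t ++ [y])).formPerm y = x := by
  have := List.formPerm_apply_getLast x (t ++ [y])
  simpa using this

/-- the cycle of a path. -/
def cyc (l : List V) : List (V ⊕ List V) := .inr l :: l.map .inl

lemma cyc_nodup {l : List V} (h : l.Nodup) : (cyc l).Nodup := by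
  refine List.nodup_cons.2 ⟨by simp, h.map Sum.inl_injective⟩

lemma mem_cyc_inl {l : List V} {v : V} : (Sum.inl v : V ⊕ List V) ∈ cyc l ↔ v ∈ l := by
  simp [cyc]

lemma mem_cyc_inr {l l' : List V} : (Sum.inr l' : V ⊕ List V) ∈ cyc l ↔ l' = l := by
  simp [cyc]

/-- what the permutation of a linkage does. -/
structure Acts (P : Finset (List V)) (σ : Equiv.Perm (V ⊕ List V)) : Prop where
  on : ∀ l ∈ P, ∀ x ∈ cyc l, σ x = (cyc l).formPerm x
  off : ∀ x, (∀ l ∈ P, x ∉ cyc l) → σ x = x

lemma exists_acts (P : Finset (List V)) (hn : ∀ l ∈ P, l.Nodup)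
    (hd : ∀ l ∈ P, ∀ l' ∈ P, l ≠ l' → ∀ x ∈ l, x ∉ l') :
    ∃ σ : Equiv.Perm (V ⊕ List V), Acts P σ := by
  classical
  induction P using Finset.induction_on with
  | empty => exact ⟨1, ⟨by simp, by simp⟩⟩
  | insert l P hl ih =>
    obtain ⟨σ, hσ⟩ := ih (fun l hl => hn l (Finset.mem_insert_of_mem hl))
      (fun l1 h1 l2 h2 => hd l1 (Finset.mem_insert_of_mem h1) l2 (Finset.mem_insert_of_mem h2))
    have hdc : ∀ l' ∈ P, ∀ x ∈ cyc l', x ∉ cyc l := by
      intro l' hl' x hx hx'
      have hne : l' ≠ l := by rintro rfl; exact hl hl'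
      rcases x with v | m
      · exact hd l' (Finset.mem_insert_of_mem hl') l (Finset.mem_insert_self _ _) hne v
          (mem_cyc_inl.1 hx) (mem_cyc_inl.1 hx')
      · exact hne ((mem_cyc_inr.1 hx).symm.trans (mem_cyc_inr.1 hx'))
    refine ⟨(cyc l).formPerm * σ, ⟨?_, ?_⟩⟩
    · intro l' hl' x hx
      rw [Equiv.Perm.mul_apply]
      rcases Finset.mem_insert.1 hl' with rfl | hl'
      · rw [hσ.off x (fun l'' h'' hx'' => hdc l'' h'' x hx'' hx)]
      · rw [hσ.on l' hl' x hx]
        exact List.formPerm_apply_of_notMem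
          (hdc l' hl' _ (List.formPerm_apply_mem_of_mem hx))
    · intro x hx
      rw [Equiv.Perm.mul_apply, hσ.off x (fun l' h' => hx l' (Finset.mem_insert_of_mem h')),
        List.formPerm_apply_of_notMem (hx l (Finset.mem_insert_self _ _))]

section
variable {σ : Equiv.Perm (V ⊕ List V)}

lemma Acts.head (h : Acts P σ) {a : V} {t : List V} (hl : a :: t ∈ P)
    (hn : (a :: t).Nodup) : σ (.inr (a :: t)) = .inl a := by
  rw [h.on _ hl _ (mem_cyc_inr.2 rfl)]
  have := cyc_nodup hn
  have h2 := formPerm_next (s := []) (x := (Sum.inr (a :: t) : V ⊕ List V)) (y := .inl a)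
    (t := t.map .inl) (by simpa [cyc] using this)
  simpa [cyc] using h2

lemma Acts.next (h : Acts P σ) {l s t : List V} {x y : V} (hl : l ∈ P) (hn : l.Nodup)
    (he : l = s ++ x :: y :: t) : σ (.inl x) = .inl y := by
  rw [h.on _ hl _ (mem_cyc_inl.2 (by rw [he]; simp))]
  have h1 : cyc l = (.inr l :: s.map .inl) ++ .inl x :: .inl y :: t.map .inl := by
    rw [cyc, he]; simp
  have h2 := cyc_nodup hn
  rw [h1] at h2 ⊢
  exact formPerm_next h2

lemma Acts.last (h : Acts P σ) {l s : List V} {b : V} (hl : l ∈ P) 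
    (he : l = s ++ [b]) : σ (.inl b) = .inr l := by
  rw [h.on _ hl _ (mem_cyc_inl.2 (by rw [he]; simp))]
  have h1 : cyc l = .inr l :: (s.map .inl ++ [.inl b]) := by
    rw [cyc]; congr 1; rw [he]; simp
  rw [h1]
  exact formPerm_last

/-- each vertex of a path has an image. -/
lemma Acts.cases (h : Acts P σ) {l : List V} {x : V} (hl : l ∈ P) (hn : l.Nodup) (hx : x ∈ l) :
    (∃ s y t, l = s ++ x :: y :: t ∧ σ (.inl x) = .inl y) ∨
    (∃ s, l = s ++ [x] ∧ σ (.inl x) = .inr l) := by
  obtain ⟨s, t, he⟩ := List.append_of_mem hx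
  cases t with
  | nil => exact Or.inr ⟨s, he, h.last hl he⟩
  | cons y t => exact Or.inl ⟨s, y, t, he, h.next hl hn he⟩

lemma Acts.good (h : Acts P σ) (hP : Linkage G W A B P) : Good G W A B P σ := by
  refine ⟨?_, ?_⟩
  · intro x hx
    rcases x with v | l
    · by_cases hv : ∃ l ∈ P, v ∈ l
      · obtain ⟨l, hl, hvl⟩ := hv
        have hp := hP.path l hl
        rcases h.cases hl hp.nodup hvl with ⟨s, y, t, he, hs⟩ | ⟨s, he, hs⟩
        · rw [hs]
          right
          have hc := hp.chain
          rw [he, List.isChain_split] at hc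
          have := hc.2
          rw [List.isChain_cons_cons] at this
          exact this.1
        · rw [hs]
          rw [he] at hp
          exact hp.last_mem
      · push Not at hv
        rw [h.off (.inl v) (fun l hl hc => hv l hl (mem_cyc_inl.1 hc))]
        exact Or.inl rfl
    · have hl := inr_mem_nodes.1 hx
      have hp := hP.path l hl
      obtain ⟨a, t, hat, ha, _⟩ := hp.start
      subst hat
      rw [h.head hl hp.nodup]
      exact ha
  · intro x hx
    apply h.off
    intro l hl hxl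
    apply hx
    rcases x with v | m
    · exact inl_mem_nodes.2 ((hP.path l hl).sub v (mem_cyc_inl.1 hxl))
    · rw [mem_cyc_inr.1 hxl]
      exact inr_mem_nodes.2 hl

lemma Acts.ne_of_mem (h : Acts P σ) (hn : ∀ l ∈ P, l.Nodup) {v : V} (hv : v ∈ verts P) :
    σ (.inl v) ≠ .inl v := by
  obtain ⟨l, hl, hvl⟩ := mem_verts.1 hv
  rcases h.cases hl (hn l hl) hvl with ⟨s, y, t, he, hs⟩ | ⟨s, he, hs⟩
  · rw [hs]
    intro e
    rw [Sum.inl.injEq] at e
    have := hn l hl
    rw [he, e] at this
    have := (List.nodup_append.1 this).2.1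
    simp at this
  · rw [hs]; simp

lemma Acts.cost_eq (h : Acts P σ) (hP : Linkage G W A B P) : cost W σ = (verts P).card := by
  classical
  unfold cost
  congr 1
  ext v
  rw [Finset.mem_filter]
  constructor
  · rintro ⟨hv, hne⟩
    by_contra hn
    apply hne
    apply h.off
    intro l hl hc
    exact hn (mem_verts.2 ⟨l, hl, mem_cyc_inl.1 hc⟩)
  · intro hv
    refine ⟨?_, h.ne_of_mem (fun l hl => (hP.path l hl).nodup) hv⟩
    obtain ⟨l, hl, hvl⟩ := mem_verts.1 hv
    exact (hP.path l hl).sub v hvl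

end

/-- a batch: a linkage with the minimal number of vertices. -/
structure IsBatch (G : SimpleGraph V) (W A B : Finset V) (P : Finset (List V)) : Prop where
  link : Linkage G W A B P
  min : ∀ Q, Linkage G W A B Q → Q.card = P.card → (verts P).card ≤ (verts Q).card

theorem exists_batch {p : ℕ} (h : ∃ P, Linkage G W A B P ∧ P.card = p) :
    ∃ P, IsBatch G W A B P ∧ P.card = p := by
  classical
  have hex : ∃ n, ∃ P, Linkage G W A B P ∧ P.card = p ∧ (verts P).card = n := by
    obtain ⟨P, h1, h2⟩ := h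
    exact ⟨_, P, h1, h2, rfl⟩
  obtain ⟨P, h1, h2, h3⟩ := Nat.find_spec hex
  refine ⟨P, ⟨h1, ?_⟩, h2⟩
  intro Q hQ hQc
  rw [h3]
  exact Nat.find_min' hex ⟨Q, hQ, by rw [hQc, h2], rfl⟩

/-- the permutation of a batch has minimal cost. -/
theorem IsBatch.exists_perm (h : IsBatch G W A B P) :
    ∃ σ : Equiv.Perm (V ⊕ List V), Acts P σ ∧ Good G W A B P σ ∧
      ∀ τ, Good G W A B P τ → cost W σ ≤ cost W τ := by
  obtain ⟨σ, hσ⟩ := exists_acts P (fun l hl => (h.link.path l hl).nodup) h.link.disj
  refine ⟨σ, hσ, hσ.good h.link, ?_⟩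
  intro τ hτ
  obtain ⟨Q, h1, h2, h3⟩ := hτ.exists_linkage
  rw [hσ.cost_eq h.link]
  exact (h.min Q h1 h2).trans h3

end Crest.Agent.R042.U420
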