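import Mathlib
import Crest.Agent.R042.LemmaU2_420

/-! Row 42, sec 08 Lemma U, part 3: potentials. -/

set_option autoImplicit false
set_option linter.unusedSectionVars false

namespace Crest.Agent.R042.U420

open Finset Menger353

/-! ### weights of walks -/

section wt
variable {α : Type*}

/-- weight of a walk. -/
def wt (f : α → α → ℤ) : List α → ℤ
  | [] => 0
  | [_] => 0
  | x :: y :: t => f x y + wt f (y :: t)

variable {f : α → α → ℤ}

lemma wt_append (x : α) (t : List α) : ∀ s : List α,
    wt f (s ++ x :: t) = wt f (s ++ [x]) + wt f (x :: t)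
  | [] => by simp [wt]
  | [y] => by simp [wt]
  | y :: z :: s => by
      have := wt_append x t (z :: s)
      simp only [List.cons_append, wt] at this ⊢
      rw [this]; ring

lemma wt_snoc (s : List α) (x y : α) : wt f (s ++ [x] ++ [y]) = wt f (s ++ [x]) + f x y := by
  have := wt_append (f := f) x [y] s
  simp only [List.append_assoc, List.singleton_append] at this ⊢
  rw [this]; simp [wt]

lemma wt_lower (hf : ∀ x y, -1 ≤ f x y) : ∀ l : List α, -(l.length : ℤ) ≤ wt f l
  | [] => by simp [wt]
  | [x] => by simp [wt]
  | x :: y :: t => by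
      have := wt_lower hf (y :: t)
      have h2 := hf x y
      simp only [List.length_cons, wt] at this ⊢
      push_cast at this ⊢
      linarith

lemma sum_formPerm [DecidableEq α] (c : List α) (hc : c.Nodup) (a : α) (c' : List α)
    (ha : c = a :: c') : ∀ (t s : List α) (y : α), c = s ++ y :: t →
    ((y :: t).map (fun x => f x (c.formPerm x))).sum = wt f (y :: t ++ [a])
  | [], s, y, h => by
      have : c.formPerm y = a := by
        cases s with
        | nil =>
          simp only [List.nil_append] at h
          rw [ha] at h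
          simp only [List.cons.injEq] at h
          rw [ha, h.2, h.1]; simp
        | cons b s =>
          rw [ha] at h
          simp only [List.cons_append, List.cons.injEq] at h
          rw [ha, h.2]
          exact formPerm_last
      simp [wt, this]
  | z :: t, s, y, h => by
      have h1 : c.formPerm y = z := by
        rw [h] at hc ⊢
        exact formPerm_next hc
      have h2 := sum_formPerm c hc a c' ha t (s ++ [y]) z (by rw [h]; simp)
      rw [List.map_cons, List.sum_cons, h2, h1]
      simp [wt]

end wt

variable {V : Type*} [DecidableEq V]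
variable {G : SimpleGraph V} {W A B : Finset V} {P : Finset (List V)}

/-- cost of one transition. -/
def cc (x y : V ⊕ List V) : ℤ :=
  match x with
  | .inl v => if y = .inl v then 0 else 1
  | .inr _ => 0

lemma cc_nonneg (x y : V ⊕ List V) : 0 ≤ cc x y := by
  unfold cc
  cases x with
  | inl v => dsimp only; split_ifs <;> norm_num
  | inr l => exact le_rfl

lemma cc_le_one (x y : V ⊕ List V) : cc x y ≤ 1 := by
  unfold cc
  cases x with
  | inl v => dsimp only; split_ifs <;> norm_num
  | inr l => norm_num

lemma cost_eq_sum (τ : Equiv.Perm (V ⊕ List V)) :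
    (cost W τ : ℤ) = ∑ x ∈ nodes W P, cc x (τ x) := by
  classical
  unfold nodes
  rw [Finset.sum_disjSum]
  have h2 : ∑ x ∈ P, cc (Sum.inr x) (τ (Sum.inr x)) = 0 :=
    Finset.sum_eq_zero (fun _ _ => rfl)
  rw [h2, add_zero, cost, Finset.card_filter]
  push_cast
  apply Finset.sum_congr rfl
  intro v _
  by_cases h : τ (.inl v) = .inl v
  · simp [cc, h]
  · simp [cc, h]

section
variable (σ : Equiv.Perm (V ⊕ List V))

/-- exchange weight. -/
def ww (x y : V ⊕ List V) : ℤ := cc x (σ y) - cc x (σ x)

/-- exchange relation. -/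
def RR (G : SimpleGraph V) (A B : Finset V) (x y : V ⊕ List V) : Prop := Ok G A B x (σ y)

variable {σ}

lemma ww_lower (x y : V ⊕ List V) : -1 ≤ ww σ x y := by
  have h1 := cc_nonneg x (σ y)
  have h2 := cc_le_one x (σ x)
  unfold ww; linarith

/-- no negative cycle. -/
lemma cycle_nonneg (hσ : Good G W A B P σ) (hmin : ∀ τ, Good G W A B P τ → cost W σ ≤ cost W τ)
    {c : List (V ⊕ List V)} (hc : c.Nodup) (hD : ∀ x ∈ c, x ∈ nodes W P) {a : V ⊕ List V}
    {c' : List (V ⊕ List V)} (ha : c = a :: c') (hR : (c ++ [a]).IsChain (RR σ G A B)) :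
    0 ≤ wt (ww σ) (c ++ [a]) := by
  classical
  have hRR : ∀ x ∈ c, RR σ G A B x (c.formPerm x) := by
    intro x hx
    obtain ⟨s, t, he⟩ := List.append_of_mem hx
    cases t with
    | nil =>
      have h1 : c.formPerm x = a := by
        cases s with
        | nil =>
          simp only [List.nil_append] at he
          rw [ha] at he
          simp only [List.cons.injEq] at he
          rw [ha, he.2, he.1]; simp
        | cons b s =>
          rw [ha] at he
          simp only [List.cons_append, List.cons.injEq] at he
          rw [ha, he.2]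
          exact formPerm_last
      rw [h1]
      rw [he, List.append_assoc, List.singleton_append, List.isChain_split] at hR
      have := hR.2
      rw [List.isChain_cons_cons] at this
      exact this.1
    | cons y t =>
      have h1 : c.formPerm x = y := by
        rw [he] at hc ⊢
        exact formPerm_next hc
      rw [h1]
      rw [he, List.append_assoc, List.cons_append, List.isChain_split] at hR
      have := hR.2
      rw [List.cons_append, List.isChain_cons_cons] at this
      exact this.1
  have hgood : Good G W A B P (σ * c.formPerm) := by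
    refine ⟨?_, ?_⟩
    · intro x hx
      rw [Equiv.Perm.mul_apply]
      by_cases hxc : x ∈ c
      · exact hRR x hxc
      · rw [List.formPerm_apply_of_notMem hxc]
        exact hσ.ok x hx
    · intro x hx
      have hxc : x ∉ c := fun h => hx (hD x h)
      rw [Equiv.Perm.mul_apply, List.formPerm_apply_of_notMem hxc]
      exact hσ.fix x hx
  have hle : (cost W σ : ℤ) ≤ cost W (σ * c.formPerm) := by exact_mod_cast hmin _ hgood
  rw [cost_eq_sum (P := P) σ, cost_eq_sum (P := P) (σ * c.formPerm)] at hle
  have hdiff : ∑ x ∈ nodes W P, cc x ((σ * c.formPerm) x) - ∑ x ∈ nodes W P, cc x (σ x)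
      = ∑ x ∈ c.toFinset, ww σ x (c.formPerm x) := by
    rw [← Finset.sum_sub_distrib]
    symm
    apply Finset.sum_subset_zero_on_sdiff
    · intro x hx
      exact hD x (List.mem_toFinset.1 hx)
    · intro x hx
      have hxc : x ∉ c := fun h => (Finset.mem_sdiff.1 hx).2 (List.mem_toFinset.2 h)
      rw [Equiv.Perm.mul_apply, List.formPerm_apply_of_notMem hxc]
      simp
    · intro x hx
      rfl
  rw [List.sum_toFinset _ hc] at hdiff
  have hs := sum_formPerm (f := ww σ) c hc a c' ha c' [] a (by simp [ha])
  rw [← ha] at hs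
  rw [hs] at hdiff
  linarith

/-- the set of weights of simple walks ending at `y`. -/
def wset (σ : Equiv.Perm (V ⊕ List V)) (G : SimpleGraph V) (W A B : Finset V)
    (P : Finset (List V)) (y : V ⊕ List V) : Set ℤ :=
  {n | ∃ s, (s ++ [y]).Nodup ∧ (∀ x ∈ s ++ [y], x ∈ nodes W P) ∧
    (s ++ [y]).IsChain (RR σ G A B) ∧ wt (ww σ) (s ++ [y]) = n}

lemma wset_bdd (y : V ⊕ List V) : BddBelow (wset σ G W A B P y) := by
  classical
  refine ⟨-((nodes W P).card : ℤ), ?_⟩
  rintro n ⟨s, h1, h2, _, rfl⟩
  have h3 := wt_lower (f := ww σ) ww_lower (s ++ [y])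
  have h4 : (s ++ [y]).length ≤ (nodes W P).card := by
    rw [← List.toFinset_card_of_nodup h1]
    exact Finset.card_le_card (fun x hx => h2 x (List.mem_toFinset.1 hx))
  have h5 : ((s ++ [y]).length : ℤ) ≤ (nodes W P).card := by exact_mod_cast h4
  linarith

/-- the potential. -/
noncomputable def pot (σ : Equiv.Perm (V ⊕ List V)) (G : SimpleGraph V) (W A B : Finset V)
    (P : Finset (List V)) (y : V ⊕ List V) : ℤ := sInf (wset σ G W A B P y)

lemma pot_mem {y : V ⊕ List V} (hy : y ∈ nodes W P) :
    pot σ G W A B P y ∈ wset σ G W A B P y := by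
  apply Int.csInf_mem
  · exact ⟨0, [], by simp, by simpa using hy, by simp, by simp [wt]⟩
  · exact wset_bdd y

lemma pot_le {y : V ⊕ List V} {n : ℤ} (h : n ∈ wset σ G W A B P y) : pot σ G W A B P y ≤ n :=
  csInf_le (wset_bdd y) h

lemma pot_triangle (hσ : Good G W A B P σ)
    (hmin : ∀ τ, Good G W A B P τ → cost W σ ≤ cost W τ) {x y : V ⊕ List V}
    (hx : x ∈ nodes W P) (hy : y ∈ nodes W P) (hR : Ok G A B x (σ y)) :
    pot σ G W A B P y ≤ pot σ G W A B P x + ww σ x y := by
  classical
  obtain ⟨s, h1, h2, h3, h4⟩ := pot_mem (σ := σ) (G := G) (A := A) (B := B) hx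
  by_cases hyl : y ∈ s ++ [x]
  · obtain ⟨l1, l2, he⟩ := List.append_of_mem hyl
    -- the last vertex of `y :: l2` is `x`
    have hlast : ∃ s', y :: l2 = s' ++ [x] := by
      rcases List.eq_nil_or_concat l2 with rfl | ⟨l3, z, rfl⟩
      · have h5 := (last_unique (s := s) (s' := l1) he).2
        exact ⟨[], by rw [h5]; rfl⟩
      · have h5 : s ++ [x] = (l1 ++ y :: l3) ++ [z] := by rw [he]; simp
        have h6 := (last_unique h5).2
        exact ⟨y :: l3, by rw [h6]; simp⟩
    obtain ⟨s', hs'⟩ := hlast
    have h5 : (y :: l2).Nodup := by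
      rw [he] at h1
      exact (List.nodup_append.1 h1).2.1
    have h6 : ∀ z ∈ y :: l2, z ∈ nodes W P := by
      intro z hz
      apply h2
      rw [he]
      exact List.mem_append_right _ hz
    have h7 : (y :: l2).IsChain (RR σ G A B) := by
      rw [he, List.isChain_split] at h3
      exact h3.2
    have h8 : ((y :: l2) ++ [y]).IsChain (RR σ G A B) := by
      rw [hs'] at h7 ⊢
      rw [List.append_assoc, List.singleton_append, List.isChain_split]
      exact ⟨h7, by simp [RR]; exact hR⟩
    have h9 := cycle_nonneg hσ hmin h5 h6 rfl h8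
    rw [hs', wt_snoc, ← hs'] at h9
    have h10 : pot σ G W A B P y ≤ wt (ww σ) (l1 ++ [y]) := by
      apply pot_le
      refine ⟨l1, ?_, ?_, ?_, rfl⟩
      · rw [he] at h1
        have : (l1 ++ [y]).Sublist (l1 ++ y :: l2) := by simp
        exact this.nodup h1
      · intro z hz
        apply h2
        rw [he]
        simp only [List.mem_append, List.mem_cons, List.not_mem_nil, or_false] at hz ⊢
        tauto
      · rw [he, List.isChain_split] at h3
        exact h3.1
    have h11 := wt_append (f := ww σ) y l2 l1
    rw [he] at h4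
    linarith
  · have h5 : pot σ G W A B P y ≤ wt (ww σ) (s ++ [x] ++ [y]) := by
      apply pot_le
      refine ⟨s ++ [x], ?_, ?_, ?_, rfl⟩
      · rw [List.nodup_append]
        refine ⟨h1, by simp, ?_⟩
        intro a ha b hb hab
        rw [List.mem_singleton] at hb
        rw [hab, hb] at ha
        exact hyl ha
      · intro z hz
        rcases List.mem_append.1 hz with hz | hz
        · exact h2 z hz
        · rw [List.mem_singleton] at hz; rw [hz]; exact hy
      · rw [List.append_assoc, List.singleton_append, List.isChain_split]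
        exact ⟨h3, by simp [RR]; exact hR⟩
    rw [wt_snoc, h4] at h5
    exact h5

end

/-- the interval structure of a batch. -/
theorem IsBatch.exists_intervals (h : IsBatch G W A B P) :
    ∃ a b : V → ℤ, (∀ v ∈ verts P, a v + 1 ≤ b v) ∧
      (∀ v ∈ verts P, ∀ z ∈ W, G.Adj v z → a z ≤ b v) ∧
      (∀ l ∈ P, ∀ s x y t, l = s ++ x :: y :: t → a y = b x) := by
  obtain ⟨σ, hact, hgood, hmin⟩ := h.exists_perm
  have hvW : ∀ v ∈ verts P, v ∈ W := by
    intro v hv
    obtain ⟨l, hl, hvl⟩ := mem_verts.1 hv
    exact (h.link.path l hl).sub v hvl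
  have hpre : ∀ z ∈ W, σ.symm (.inl z) ∈ nodes W P := by
    intro z hz
    by_contra hn
    have := hgood.fix _ hn
    rw [Equiv.apply_symm_apply] at this
    rw [← this] at hn
    exact hn (inl_mem_nodes.2 hz)
  have hne : ∀ v ∈ verts P, σ (.inl v) ≠ .inl v := fun v hv =>
    hact.ne_of_mem (fun l hl => (h.link.path l hl).nodup) hv
  refine ⟨fun v => pot σ G W A B P (σ.symm (.inl v)), fun v => pot σ G W A B P (.inl v),
    ?_, ?_, ?_⟩
  · intro v hv
    have h1 := pot_triangle hgood hmin (x := .inl v) (y := σ.symm (.inl v))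
      (inl_mem_nodes.2 (hvW v hv)) (hpre v (hvW v hv))
      (by rw [Equiv.apply_symm_apply]; exact Or.inl rfl)
    have h2 : ww σ (.inl v) (σ.symm (.inl v)) = -1 := by
      unfold ww
      rw [Equiv.apply_symm_apply]
      simp [cc, hne v hv]
    rw [h2] at h1
    linarith
  · intro v hv z hz hadj
    have h1 := pot_triangle hgood hmin (x := .inl v) (y := σ.symm (.inl z))
      (inl_mem_nodes.2 (hvW v hv)) (hpre z hz)
      (by rw [Equiv.apply_symm_apply]; exact Or.inr hadj)
    have h2 : ww σ (.inl v) (σ.symm (.inl z)) = 0 := by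
      unfold ww
      rw [Equiv.apply_symm_apply]
      have : z ≠ v := fun e => by rw [e] at hadj; exact G.loopless.irrefl v hadj
      simp [cc, hne v hv, this]
    rw [h2] at h1
    linarith
  · intro l hl s x y t he
    have h1 := hact.next hl (h.link.path l hl).nodup he
    simp only
    rw [← h1, Equiv.symm_apply_apply]

end Crest.Agent.R042.U420
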