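import Mathlib
import Crest.Agent.R042.LemmaU3_420

/-! Row 42, sec 08 Lemma U and 10.2: a batch (linkage with the minimal number of vertices) induces a
`(2p-1)`-degenerate graph, its paths are induced, outside vertices have at most three neighbours on
each path. -/

set_option autoImplicit false
set_option linter.unusedSectionVars false

namespace Crest.Agent.R042.U420

open Finset Menger353

variable {V : Type*} [DecidableEq V]
variable {G : SimpleGraph V} {W A B : Finset V} {P : Finset (List V)}

/-! ### interval counting -/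

lemma pairwise_of_steps {a b : V → ℤ} : ∀ l : List V, (∀ v ∈ l, a v + 1 ≤ b v) →
    (∀ s x y t, l = s ++ x :: y :: t → a y = b x) → l.Pairwise (fun x y => b x ≤ a y)
  | [], _, _ => List.Pairwise.nil
  | x :: l, h1, h2 => by
    have hp := pairwise_of_steps l (fun v hv => h1 v (List.mem_cons_of_mem _ hv))
      (fun s y z t he => h2 (x :: s) y z t (by rw [he]; rfl))
    refine List.pairwise_cons.2 ⟨?_, hp⟩
    intro y hy
    cases l with
    | nil => simp at hy
    | cons z l =>
      have h3 := h2 [] x z l rfl
      rcases List.mem_cons.1 hy with rfl | hy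
      · exact h3.ge
      · have h4 := (List.pairwise_cons.1 hp).1 y hy
        have h5 := h1 z (by simp)
        linarith

lemma filter_len_le_two {a b : V → ℤ} (t : ℤ) (l : List V) (h1 : ∀ v ∈ l, a v + 1 ≤ b v)
    (h2 : l.Pairwise (fun x y => b x ≤ a y)) :
    (l.filter (fun x => decide (a x ≤ t ∧ t ≤ b x))).length ≤ 2 := by
  have h3 := h2.filter (fun x => decide (a x ≤ t ∧ t ≤ b x))
  have h4 : ∀ x ∈ l.filter (fun x => decide (a x ≤ t ∧ t ≤ b x)),
      a x + 1 ≤ b x ∧ a x ≤ t ∧ t ≤ b x := by
    intro x hx
    rw [List.mem_filter] at hx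
    exact ⟨h1 x hx.1, by simpa using hx.2⟩
  generalize l.filter (fun x => decide (a x ≤ t ∧ t ≤ b x)) = m at h3 h4
  match m, h3, h4 with
  | [], _, _ => simp
  | [x], _, _ => simp
  | [x, y], _, _ => simp
  | x :: y :: z :: m, h3, h4 =>
    exfalso
    have e1 := (List.pairwise_cons.1 h3).1 y (by simp)
    have e2 := (List.pairwise_cons.1 (List.pairwise_cons.1 h3).2).1 z (by simp)
    have e3 := h4 x (by simp)
    have e4 := h4 y (by simp)
    have e5 := h4 z (by simp)
    linarith [e3.2.2, e4.1, e5.2.1]

/-- **Lemma U**: the graph induced on a batch of `p` paths is `(2p-1)`-degenerate. -/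
theorem IsBatch.degenerate (h : IsBatch G W A B P) {Y : Finset V} (hY : Y ⊆ verts P)
    (hne : Y.Nonempty) [DecidableRel G.Adj] :
    ∃ y ∈ Y, (Y.filter (fun x => G.Adj y x)).card ≤ 2 * P.card - 1 := by
  classical
  obtain ⟨a, b, h1, h2, h3⟩ := h.exists_intervals
  obtain ⟨y, hy, hmin⟩ := Finset.exists_min_image Y b hne
  refine ⟨y, hy, ?_⟩
  set t := b y with ht
  have hvW : ∀ v ∈ verts P, v ∈ W := by
    intro v hv
    obtain ⟨l, hl, hvl⟩ := mem_verts.1 hv
    exact (h.link.path l hl).sub v hvl
  have hQ : ((verts P).filter (fun x => a x ≤ t ∧ t ≤ b x)).card ≤ 2 * P.card := by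
    have hsub : (verts P).filter (fun x => a x ≤ t ∧ t ≤ b x) ⊆
        P.biUnion (fun l => (l.filter (fun x => decide (a x ≤ t ∧ t ≤ b x))).toFinset) := by
      intro x hx
      rw [Finset.mem_filter] at hx
      obtain ⟨l, hl, hxl⟩ := mem_verts.1 hx.1
      refine Finset.mem_biUnion.2 ⟨l, hl, ?_⟩
      rw [List.mem_toFinset, List.mem_filter]
      exact ⟨hxl, by simpa using hx.2⟩
    refine (Finset.card_le_card hsub).trans ?_
    have := Finset.card_biUnion_le_card_mul P
      (fun l => (l.filter (fun x => decide (a x ≤ t ∧ t ≤ b x))).toFinset) 2 (by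
        intro l hl
        refine (List.toFinset_card_le _).trans ?_
        apply filter_len_le_two t l (fun v hv => h1 v (mem_verts.2 ⟨l, hl, hv⟩))
        exact pairwise_of_steps l (fun v hv => h1 v (mem_verts.2 ⟨l, hl, hv⟩))
          (fun s x y t he => h3 l hl s x y t he))
    linarith
  have hsub : insert y (Y.filter (fun x => G.Adj y x)) ⊆
      (verts P).filter (fun x => a x ≤ t ∧ t ≤ b x) := by
    intro x hx
    rw [Finset.mem_filter]
    rcases Finset.mem_insert.1 hx with rfl | hx
    · exact ⟨hY hy, by have := h1 x (hY hy); linarith, le_rfl⟩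
    · rw [Finset.mem_filter] at hx
      exact ⟨hY hx.1, h2 y (hY hy) x (hvW x (hY hx.1)) hx.2, hmin x hx.1⟩
  have hcard := Finset.card_le_card hsub
  rw [Finset.card_insert_of_notMem (by simp)] at hcard
  omega

/-! ### exchange -/

lemma verts_insert {l : List V} {Q : Finset (List V)} : verts (insert l Q) = l.toFinset ∪ verts Q := by
  unfold verts
  rw [Finset.biUnion_insert]

/-- exchange lemma: a path of a batch is not longer than any walk of `G[W]` from `A` to `B` which
avoids the other paths. -/
theorem IsBatch.exchange (h : IsBatch G W A B P) {l : List V} (hl : l ∈ P) {m : List V}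
    (hW : ∀ x ∈ m, x ∈ W) (hc : m.IsChain G.Adj) (hA : ∃ a t, m = a :: t ∧ a ∈ A)
    (hB : ∃ s b, m = s ++ [b] ∧ b ∈ B) (hd : ∀ l' ∈ P, l' ≠ l → ∀ x ∈ m, x ∉ l') :
    l.length ≤ m.length := by
  classical
  obtain ⟨m', hm', hsub⟩ := exists_path_of_chain m.length m le_rfl hW hc hA hB
  have hmP : m' ∉ P.erase l := by
    intro hmem
    rw [Finset.mem_erase] at hmem
    obtain ⟨a, t, hat, _⟩ := hm'.start
    have ha : a ∈ m' := by rw [hat]; simp
    exact hd m' hmem.2 hmem.1 a (hsub a ha) ha
  have hdd : ∀ l' ∈ P.erase l, ∀ x ∈ m', x ∉ l' := by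
    intro l' hl' x hx
    rw [Finset.mem_erase] at hl'
    exact hd l' hl'.2 hl'.1 x (hsub x hx)
  have hlink : Linkage G W A B (insert m' (P.erase l)) := by
    refine ⟨?_, ?_⟩
    · intro l' hl'
      rcases Finset.mem_insert.1 hl' with rfl | hl'
      · exact hm'
      · exact h.link.path l' (Finset.mem_of_mem_erase hl')
    · intro l1 h1 l2 h2 hne x hx hx'
      rcases Finset.mem_insert.1 h1 with e1 | e1
      · rcases Finset.mem_insert.1 h2 with e2 | e2
        · exact hne (e1.trans e2.symm)
        · exact hdd l2 e2 x (e1 ▸ hx) hx'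
      · rcases Finset.mem_insert.1 h2 with e2 | e2
        · exact hdd l1 e1 x (e2 ▸ hx') hx
        · exact h.link.disj l1 (Finset.mem_of_mem_erase e1) l2 (Finset.mem_of_mem_erase e2) hne
            x hx hx'
  have hcard : (insert m' (P.erase l)).card = P.card := by
    rw [Finset.card_insert_of_notMem hmP, Finset.card_erase_of_mem hl]
    have := Finset.card_pos.2 ⟨l, hl⟩
    omega
  have hle := h.min _ hlink hcard
  rw [verts_insert] at hle
  have hP : verts P = l.toFinset ∪ verts (P.erase l) := by
    rw [← verts_insert, Finset.insert_erase hl]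
  have hdisj : Disjoint l.toFinset (verts (P.erase l)) := by
    rw [Finset.disjoint_left]
    intro x hx hx'
    obtain ⟨l', hl', hxl'⟩ := mem_verts.1 hx'
    rw [Finset.mem_erase] at hl'
    exact h.link.disj l hl l' hl'.2 hl'.1.symm x (List.mem_toFinset.1 hx) hxl'
  rw [hP, Finset.card_union_of_disjoint hdisj,
    List.toFinset_card_of_nodup (h.link.path l hl).nodup] at hle
  have h1 := Finset.card_union_le m'.toFinset (verts (P.erase l))
  have h2 : m'.toFinset.card ≤ m.length :=
    (Finset.card_le_card (fun x hx => List.mem_toFinset.2 (hsub x (List.mem_toFinset.1 hx)))).trans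
      (List.toFinset_card_le m)
  omega

/-- the paths of a batch are induced. -/
theorem IsBatch.induced (h : IsBatch G W A B P) {l : List V} (hl : l ∈ P) {s m t : List V}
    {x y : V} (he : l = s ++ x :: (m ++ y :: t)) (hadj : G.Adj x y) : m = [] := by
  classical
  have hp := h.link.path l hl
  by_contra hm
  have hsub : ∀ z ∈ s ++ x :: y :: t, z ∈ l := by
    intro z hz
    rw [he]
    simp only [List.mem_append, List.mem_cons] at hz ⊢
    tauto
  have hlen := h.exchange hl (m := s ++ x :: y :: t) (fun z hz => hp.sub z (hsub z hz))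
    (by
      have hc := hp.chain
      rw [he, List.isChain_split] at hc
      rw [List.isChain_split]
      refine ⟨hc.1, ?_⟩
      rw [List.isChain_cons_cons]
      refine ⟨hadj, ?_⟩
      have h2 := hc.2
      rw [← List.cons_append, List.isChain_split] at h2
      exact h2.2)
    (by
      obtain ⟨a, t', hat, ha, _⟩ := hp.start
      rw [he] at hat
      cases s with
      | nil =>
        simp only [List.nil_append, List.cons.injEq] at hat
        exact ⟨x, y :: t, rfl, hat.1 ▸ ha⟩
      | cons c s =>
        simp only [List.cons_append, List.cons.injEq] at hat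
        exact ⟨c, s ++ x :: y :: t, rfl, hat.1 ▸ ha⟩)
    (by
      obtain ⟨s', b, hsb, hb, _⟩ := hp.stop
      rw [he] at hsb
      rcases List.eq_nil_or_concat t with rfl | ⟨t', c, rfl⟩
      · have h5 : (s ++ x :: m) ++ [y] = s' ++ [b] := by rw [← hsb]; simp
        have := (last_unique h5).2
        exact ⟨s ++ [x], y, by simp, this ▸ hb⟩
      · have h5 : (s ++ x :: (m ++ y :: t')) ++ [c] = s' ++ [b] := by rw [← hsb]; simp
        have := (last_unique h5).2
        exact ⟨s ++ x :: y :: t', c, by simp, this ▸ hb⟩)
    (by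
      intro l' hl' hne z hz hz'
      exact h.link.disj l' hl' l hl hne z hz' (hsub z hz))
  rw [he] at hlen
  simp only [List.length_append, List.length_cons] at hlen
  have : m.length ≠ 0 := fun h0 => hm (List.length_eq_zero_iff.1 h0)
  omega

/-- a vertex outside the batch has at most three neighbours on each path: if `v` is adjacent to
`x` and `y` on the path then there is at most one vertex between them. -/
theorem IsBatch.between_le_one (h : IsBatch G W A B P) {l : List V} (hl : l ∈ P)
    {s m t : List V} {x y v : V} (he : l = s ++ x :: (m ++ y :: t)) (hv : v ∈ W)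
    (hvP : v ∉ verts P) (hx : G.Adj v x) (hy : G.Adj v y) : m.length ≤ 1 := by
  classical
  have hp := h.link.path l hl
  have hsub : ∀ z ∈ s ++ x :: v :: y :: t, z ∈ l ∨ z = v := by
    intro z hz
    rw [he]
    simp only [List.mem_append, List.mem_cons] at hz ⊢
    tauto
  have hlen := h.exchange hl (m := s ++ x :: v :: y :: t)
    (fun z hz => by
      rcases hsub z hz with h1 | rfl
      · exact hp.sub z h1
      · exact hv)
    (by
      have hc := hp.chain
      rw [he, List.isChain_split] at hc
      rw [List.isChain_split]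
      refine ⟨hc.1, ?_⟩
      rw [List.isChain_cons_cons, List.isChain_cons_cons]
      refine ⟨hx.symm, hy, ?_⟩
      have h2 := hc.2
      rw [← List.cons_append, List.isChain_split] at h2
      exact h2.2)
    (by
      obtain ⟨a, t', hat, ha, _⟩ := hp.start
      rw [he] at hat
      cases s with
      | nil =>
        simp only [List.nil_append, List.cons.injEq] at hat
        exact ⟨x, v :: y :: t, rfl, hat.1 ▸ ha⟩
      | cons c s =>
        simp only [List.cons_append, List.cons.injEq] at hat
        exact ⟨c, s ++ x :: v :: y :: t, rfl, hat.1 ▸ ha⟩)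
    (by
      obtain ⟨s', b, hsb, hb, _⟩ := hp.stop
      rw [he] at hsb
      rcases List.eq_nil_or_concat t with rfl | ⟨t', c, rfl⟩
      · have h5 : (s ++ x :: m) ++ [y] = s' ++ [b] := by rw [← hsb]; simp
        have := (last_unique h5).2
        exact ⟨s ++ [x, v], y, by simp, this ▸ hb⟩
      · have h5 : (s ++ x :: (m ++ y :: t')) ++ [c] = s' ++ [b] := by rw [← hsb]; simp
        have := (last_unique h5).2
        exact ⟨s ++ x :: v :: y :: t', c, by simp, this ▸ hb⟩)
    (by
      intro l' hl' hne z hz hz'
      rcases hsub z hz with h1 | rfl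
      · exact h.link.disj l' hl' l hl hne z hz' h1
      · exact hvP (mem_verts.2 ⟨l', hl', hz'⟩))
  rw [he] at hlen
  simp only [List.length_append, List.length_cons] at hlen
  omega

/-- a vertex outside the batch has at most three neighbours on each path. -/
theorem IsBatch.nbr_le_three (h : IsBatch G W A B P) {l : List V} (hl : l ∈ P) {v : V}
    (hv : v ∈ W) (hvP : v ∉ verts P) [DecidableRel G.Adj] :
    (l.toFinset.filter (fun x => G.Adj v x)).card ≤ 3 := by
  classical
  have hp := h.link.path l hl
  by_cases hex : ∃ x ∈ l, G.Adj v x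
  swap
  · push Not at hex
    rw [Finset.filter_false_of_mem (fun x hx => hex x (List.mem_toFinset.1 hx))]
    simp
  obtain ⟨s, x, r, h1, h2, h3⟩ := split_first (fun x => G.Adj v x) l hex
  by_cases hex2 : ∃ y ∈ r, G.Adj v y
  swap
  · push Not at hex2
    have : l.toFinset.filter (fun x => G.Adj v x) ⊆ {x} := by
      intro z hz
      rw [Finset.mem_filter, List.mem_toFinset, h1] at hz
      rw [Finset.mem_singleton]
      rcases List.mem_append.1 hz.1 with hz1 | hz1
      · exact absurd hz.2 (h3 z hz1)
      · rcases List.mem_cons.1 hz1 with rfl | hz1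
        · rfl
        · exact absurd hz.2 (hex2 z hz1)
    refine (Finset.card_le_card this).trans (by simp)
  obtain ⟨m, y, t, h4, h5, h6⟩ := split_last (fun x => G.Adj v x) r hex2
  have hm := h.between_le_one hl (s := s) (m := m) (t := t) (x := x) (y := y)
    (by rw [h1, h4]) hv hvP h2 h5
  have : l.toFinset.filter (fun x => G.Adj v x) ⊆ insert x (insert y m.toFinset) := by
    intro z hz
    rw [Finset.mem_filter, List.mem_toFinset, h1, h4] at hz
    simp only [Finset.mem_insert, List.mem_toFinset]
    rcases List.mem_append.1 hz.1 with hz1 | hz1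
    · exact absurd hz.2 (h3 z hz1)
    · rcases List.mem_cons.1 hz1 with rfl | hz1
      · left; rfl
      · rcases List.mem_append.1 hz1 with hz2 | hz2
        · right; right; exact hz2
        · rcases List.mem_cons.1 hz2 with rfl | hz2
          · right; left; rfl
          · exact absurd hz.2 (h6 z hz2)
  refine (Finset.card_le_card this).trans ?_
  have e1 := Finset.card_insert_le x (insert y m.toFinset)
  have e2 := Finset.card_insert_le y m.toFinset
  have e3 := List.toFinset_card_le m
  omega

/-- a vertex outside the batch has at most `3 p` neighbours on the batch. -/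
theorem IsBatch.nbr_verts_le (h : IsBatch G W A B P) {v : V}
    (hv : v ∈ W) (hvP : v ∉ verts P) [DecidableRel G.Adj] :
    ((verts P).filter (fun x => G.Adj v x)).card ≤ 3 * P.card := by
  classical
  have hsub : (verts P).filter (fun x => G.Adj v x) ⊆
      P.biUnion (fun l => l.toFinset.filter (fun x => G.Adj v x)) := by
    intro x hx
    rw [Finset.mem_filter] at hx
    obtain ⟨l, hl, hxl⟩ := mem_verts.1 hx.1
    exact Finset.mem_biUnion.2 ⟨l, hl, Finset.mem_filter.2 ⟨List.mem_toFinset.2 hxl, hx.2⟩⟩
  refine (Finset.card_le_card hsub).trans ?_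
  have := Finset.card_biUnion_le_card_mul P
      (fun l => l.toFinset.filter (fun x => G.Adj v x)) 3 (fun l hl => h.nbr_le_three hl hv hvP)
  linarith

end Crest.Agent.R042.U420
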