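import Mathlib
import Crest.Agent.R042.B7Core_375
import Crest.Agent.R042.LemmaU_420
import Crest.Agent.R042.Spine_883

/-! Row 42 / S0058: the block B7 (10.6 + 10.7) of `Spine_883`, from the chain of hubs (10.7) and the
small hub (10.4); all constants are chosen here. -/

set_option autoImplicit false
set_option linter.unusedSectionVars false

namespace Crest.Agent.R042.B7375

open Finset Crest.Agent.R042.Conn353 Crest.Agent.R042.Menger353 Crest.Agent.R042.Mader375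
  Crest.Agent.R042.Crit374 Crest.Agent.R042.P1375 Crest.Agent.R042.Chain374
open Crest.CombinatoricsR.GraphMinor
open scoped Classical

/-- batches are degenerate. -/
theorem bf1 {V : Type*} [DecidableEq V] {G : SimpleGraph V} {W A B : Finset V}
    {P : Finset (List V)} (h : Batch G W A B P) : Degen G (verts P) (2 * P.card - 1) := by
  intro X hX hne
  have h' : U420.IsBatch G W A B P := ⟨h.1, h.2⟩
  exact h'.degenerate hX hne

/-- vertices outside a batch have at most three neighbours on each path. -/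
theorem bf2 {V : Type*} [DecidableEq V] {G : SimpleGraph V} {W A B : Finset V}
    {P : Finset (List V)} (h : Batch G W A B P) {x : V} (hx : x ∈ W) (hxP : x ∉ verts P)
    {l : List V} (hl : l ∈ P) : nb G l.toFinset x ≤ 3 := by
  have h' : U420.IsBatch G W A B P := ⟨h.1, h.2⟩
  exact h'.nbr_le_three hl hx hxP

/-- the statement of the chain of hubs (helper374). -/
def ChainStmt : Prop :=
  ∀ (V : Type) [DecidableEq V] (G : SimpleGraph V) (V0 : Finset V) (p d M UB kc : ℕ), 2 ≤ p →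
    (∀ (F : Finset (Finset V)) (T : Finset V), (∀ A ∈ F, A ⊆ V0 ∧ Conn G A) →
      (∀ A ∈ F, ∀ B ∈ F, A ≠ B → Disjoint A B) → T ⊆ V0 →
      (∀ t ∈ T, (∀ A ∈ F, t ∉ A) ∧ p ≤ sees G F t) → T.card ≤ d * F.card) →
    (∀ U P : Finset V, U ⊆ V0 → P ⊆ V0 → U.card ≤ UB → Degen G (P \ U) (8 * p) →
      (∀ v ∈ V0, v ∉ U → v ∉ P → nb G P v ≤ 3 * p) → ¬ Choos G ((V0 \ U) \ P) kc) →
    (∀ T : Finset V, T ⊆ V0 → T.Nonempty → (∀ v ∈ T, kc - 3 * p ≤ nb G T v) →
      ∃ J, J ⊆ T ∧ J.card ≤ M ∧ Hub G J p) →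
    (∀ X Y : Finset V, X ⊆ V0 → Y ⊆ V0 → Disjoint X Y →
      Choos G X (kc - 8 * p) ∨ Choos G Y (kc - 8 * p)) →
    9 * p ≤ kc → 2 * p + p ^ 2 * (M + 3 * p + 2 * d * p * (p ^ 2 + 1)) ≤ UB →
    ∃ B : Fin p → Finset V, (∀ i, B i ⊆ V0) ∧ IsCliqueMinorModel G B

/-- the small hub (10.4), in the language of `Link870`, for minimum degree. -/
def HubStmt : Prop :=
  ∃ C D0 : ℕ, ∀ h : ℕ, 1 ≤ h → ∀ (V : Type) [DecidableEq V] (G : SimpleGraph V) (T : Finset V),
    ¬ Model G T (h + 1) → T.Nonempty → (∀ v ∈ T, D0 * h ≤ (Link870.nb G T v).card) →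
    ∃ J, J ⊆ T ∧ 2 * (h + 1) + 6 ≤ J.card ∧ J.card ≤ 2 ^ (C * h) ∧
      ∀ X, X ⊆ J → X.card ≤ 2 * (h + 1 + 2) → Link870.Linked G J X

lemma two_pow_le_exp (n : ℕ) : (2 : ℝ) ^ n ≤ Real.exp n := by
  have h1 : (2 : ℝ) ≤ Real.exp 1 := by
    have := Real.add_one_le_exp (1 : ℝ)
    linarith
  calc (2 : ℝ) ^ n ≤ (Real.exp 1) ^ n := pow_le_pow_left₀ (by norm_num) h1 n
    _ = Real.exp n := by rw [← Real.exp_nat_mul]; simp

/-- the size bound. -/
lemma ub_le (C h : ℕ) (hh : 1 ≤ h) :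
    2 * (h + 1) + (h + 1) ^ 2 * (2 ^ (C * h) + 3 * (h + 1) +
      2 * 2 ^ h * (h + 1) * ((h + 1) ^ 2 + 1)) ≤ 2 ^ ((C + 10) * h) := by
  set t := 2 ^ h with ht
  set E := 2 ^ (C * h) with hE
  have hE1 : 1 ≤ E := Nat.one_le_two_pow
  have htp : h + 1 ≤ t := Nat.lt_two_pow_self
  have ht2 : 2 ≤ t := by
    calc 2 = 2 ^ 1 := rfl
      _ ≤ 2 ^ h := Nat.pow_le_pow_right (by norm_num) hh
  have hpow : 2 ^ ((C + 10) * h) = E * t ^ 10 := by
    rw [hE, ht, ← pow_mul, ← pow_add]; congr 1; ring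
  rw [hpow]
  set p := h + 1 with hp
  have h1 : p ^ 2 ≤ t ^ 2 := Nat.pow_le_pow_left htp 2
  have h2 : p ^ 2 + 1 ≤ 2 * t ^ 2 := by nlinarith
  have h3 : 2 * t * p * (p ^ 2 + 1) ≤ 4 * t ^ 4 := by
    calc 2 * t * p * (p ^ 2 + 1) ≤ 2 * t * t * (2 * t ^ 2) := by gcongr
      _ = 4 * t ^ 4 := by ring
  have h4 : E + 3 * p + 2 * t * p * (p ^ 2 + 1) ≤ 8 * (E * t ^ 4) := by
    have a1 : t ≤ t ^ 4 := by
      calc t = t ^ 1 := (pow_one t).symm
        _ ≤ t ^ 4 := Nat.pow_le_pow_right (by omega) (by norm_num)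
    have a2 : 1 ≤ t ^ 4 := Nat.one_le_pow _ _ (by omega)
    have a3 : E ≤ E * t ^ 4 := Nat.le_mul_of_pos_right _ (by omega)
    have a4 : t ^ 4 ≤ E * t ^ 4 := Nat.le_mul_of_pos_left _ (by omega)
    have a5 : 3 * p ≤ 3 * t ^ 4 := by omega
    omega
  have h5 : p ^ 2 * (E + 3 * p + 2 * t * p * (p ^ 2 + 1)) ≤ 8 * (E * t ^ 6) := by
    calc p ^ 2 * (E + 3 * p + 2 * t * p * (p ^ 2 + 1)) ≤ t ^ 2 * (8 * (E * t ^ 4)) := by gcongr
      _ = 8 * (E * t ^ 6) := by ring
  have h6 : 2 * p ≤ 2 * (E * t ^ 6) := by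
    have a1 : t ≤ t ^ 6 := by
      calc t = t ^ 1 := (pow_one t).symm
        _ ≤ t ^ 6 := Nat.pow_le_pow_right (by omega) (by norm_num)
    have a4 : t ^ 6 ≤ E * t ^ 6 := Nat.le_mul_of_pos_left _ (by omega)
    omega
  have h7 : 10 * (E * t ^ 6) ≤ E * t ^ 10 := by
    have a1 : 10 ≤ t ^ 4 := by
      calc 10 ≤ 2 ^ 4 := by norm_num
        _ ≤ t ^ 4 := Nat.pow_le_pow_left ht2 4
    calc 10 * (E * t ^ 6) ≤ t ^ 4 * (E * t ^ 6) := by gcongr
      _ = E * t ^ 10 := by ring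
  omega

/-- **the block B7 from the chain of hubs and the small hub.** -/
theorem b7_of (hub : HubStmt) (chain : ChainStmt) : Spine883.B7 := by
  obtain ⟨C0, D0, hub⟩ := hub
  intro s' hs'
  set s0 := 8 * s' with hs0
  set C1 := C0 + 12 with hC1
  set K := 72 * (C1 + 3) + D0 + 200 with hK
  refine ⟨C1, 40 * s0, s0 * K, by omega, ?_⟩
  intro F hF h hh hsmall V _ G V0 k hno hk hch
  by_contra hcon
  have hmod : ¬ Model G V0 (h + 1) := Spine883.noModel_iff.1 hno
  have hs0pos : 0 < s0 := by omega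
  set D := F * h / s0 with hD
  have hD1 : K * h ≤ D := by
    rw [hD, Nat.le_div_iff_mul_le hs0pos]
    calc K * h * s0 = s0 * K * h := by ring
      _ ≤ F * h := Nat.mul_le_mul_right h hF
  have hD2 : s0 * D ≤ F * h := Nat.mul_div_le _ _
  have hD3 : F * h < s0 * (D + 1) := Nat.lt_mul_div_succ _ hs0pos
  have hD8 : 8 * D ≤ F * h := by
    calc 8 * D ≤ s0 * D := Nat.mul_le_mul_right D (by omega)
      _ ≤ F * h := hD2
  have hDs' : D ≤ F * h / s' := Nat.div_le_div_left (by omega) hs'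
  have hKh : K ≤ K * h := Nat.le_mul_of_pos_right _ hh
  have hDbig : 200 ≤ D := by omega
  have hDh : 200 * h ≤ D := by
    calc 200 * h ≤ K * h := Nat.mul_le_mul_right h (by omega)
      _ ≤ D := hD1
  have hDD0 : (D0 + 200) * h ≤ D := by
    calc (D0 + 200) * h ≤ K * h := Nat.mul_le_mul_right h (by omega)
      _ ≤ D := hD1
  have h4D : 4 * D ≤ k := by omega
  set Mm := 8 * k / D + 1 with hMm
  have hMm1 : 1 ≤ Mm := Nat.le_add_left 1 _
  have hMmD : 8 * k < D * Mm := Nat.lt_mul_div_succ _ (by omega)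
  have hMmD' : D * Mm ≤ 9 * k := by
    have : D * (8 * k / D) ≤ 8 * k := Nat.mul_div_le _ _
    rw [hMm, Nat.mul_add, Nat.mul_one]
    omega
  set loss := 2 * k / Mm with hloss
  have hloss' : loss ≤ D / 2 := by
    rw [hloss]
    refine Nat.div_le_of_le_mul ?_
    have h1 : D ≤ 4 * (D / 2) := by omega
    have h2 : D * Mm ≤ 4 * (D / 2) * Mm := Nat.mul_le_mul_right Mm h1
    have h3 : 4 * (D / 2) * Mm = 4 * (Mm * (D / 2)) := by ring
    omega
  set q := F * h / (40 * s0) with hq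
  have hq1 : 40 * s0 * q ≤ F * h := Nat.mul_div_le _ _
  have hq2 : 20 * q ≤ D := by
    have h1 : s0 * (40 * q) < s0 * (2 * D) := by
      calc s0 * (40 * q) = 40 * s0 * q := by ring
        _ ≤ F * h := hq1
        _ < s0 * (D + 1) := hD3
        _ ≤ s0 * (2 * D) := Nat.mul_le_mul_left s0 (by omega)
    have := Nat.lt_of_mul_lt_mul_left h1
    omega
  have hq3 : 2 * Mm * q ≤ k := by
    have h1 : 20 * q * Mm ≤ 9 * k := (Nat.mul_le_mul_right Mm hq2).trans hMmD'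
    have h2 : 20 * q * Mm = 10 * (2 * Mm * q) := by ring
    omega
  set p := h + 1 with hp
  set kc := k - loss - h - 3 * p with hkc
  set UB := 2 * p + p ^ 2 * (2 ^ (C0 * h) + 3 * p + 2 * 2 ^ h * p * (p ^ 2 + 1)) with hUB
  have hUBle : UB ≤ 2 ^ ((C0 + 10) * h) := ub_le C0 h hh
  -- the exponential estimate
  have hexp : ∀ u : ℕ, u ≤ UB → (((2 ^ h + 1) * u : ℕ) : ℝ) < Real.exp (k / (8 * Mm)) := by
    intro u hu
    have h1 : (2 ^ h + 1) * u ≤ 2 ^ ((C0 + 12) * h) := by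
      have a1 : 2 ^ h + 1 ≤ 2 ^ (2 * h) := by
        have e1 : 2 ^ (2 * h) = 2 ^ h * 2 ^ h := by rw [← pow_add]; congr 1; ring
        have e2 : 2 ≤ 2 ^ h := by
          calc 2 = 2 ^ 1 := rfl
            _ ≤ 2 ^ h := Nat.pow_le_pow_right (by norm_num) hh
        rw [e1]; nlinarith
      calc (2 ^ h + 1) * u ≤ 2 ^ (2 * h) * 2 ^ ((C0 + 10) * h) :=
            Nat.mul_le_mul a1 (hu.trans hUBle)
        _ = 2 ^ ((C0 + 12) * h) := by rw [← pow_add]; congr 1; ring
    have h2 : (((2 ^ h + 1) * u : ℕ) : ℝ) < (2 : ℝ) ^ ((C1 + 3) * h) := by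
      have : (2 ^ h + 1) * u < 2 ^ ((C1 + 3) * h) := by
        refine lt_of_le_of_lt h1 (Nat.pow_lt_pow_right (by norm_num) ?_)
        rw [hC1]
        exact Nat.mul_lt_mul_of_pos_right (by omega) hh
      exact_mod_cast this
    have h3 : (((C1 + 3) * h : ℕ) : ℝ) ≤ k / (8 * Mm) := by
      have hMmR : (0 : ℝ) < 8 * Mm := by
        have : (1 : ℝ) ≤ Mm := by exact_mod_cast hMm1
        linarith
      rw [le_div_iff₀ hMmR]
      have a1 : (C1 + 3) * h * (8 * Mm) ≤ k := by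
        have b1 : 72 * ((C1 + 3) * h) ≤ D := by
          calc 72 * ((C1 + 3) * h) = 72 * (C1 + 3) * h := by ring
            _ ≤ K * h := Nat.mul_le_mul_right h (by omega)
            _ ≤ D := hD1
        have b2 : 72 * ((C1 + 3) * h) * Mm ≤ 9 * k := (Nat.mul_le_mul_right Mm b1).trans hMmD'
        have b3 : 72 * ((C1 + 3) * h) * Mm = 9 * ((C1 + 3) * h * (8 * Mm)) := by ring
        omega
      exact_mod_cast a1
    calc (((2 ^ h + 1) * u : ℕ) : ℝ) < (2 : ℝ) ^ ((C1 + 3) * h) := h2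
      _ ≤ Real.exp (((C1 + 3) * h : ℕ) : ℝ) := two_pow_le_exp _
      _ ≤ Real.exp (k / (8 * Mm)) := Real.exp_le_exp.2 h3
  obtain ⟨B, hB1, hB2⟩ := chain V G V0 p (2 ^ h) (2 ^ (C0 * h)) UB kc (by omega)
    (fun F' T hF' hd hT hsee => p1_sets G V0 h hmod F' T hF' hd hT hsee)
    (by
      intro U P hU hP hUc hdeg hnb
      refine cost_one G V0 U P hU hP h k kc Mm q (8 * p) (3 * p) hmod hMm1 hch ?_ hq3
        (hexp _ hUc) hdeg hnb (by omega) (by omega)
      exact hsmall V G U (hno.mono hU) (hUc.trans (hUBle.trans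
        (Nat.pow_le_pow_right (by norm_num) (Nat.mul_le_mul_right h (by omega))))))
    (by
      intro T hT hTne hdeg
      obtain ⟨J, hJT, hJ1, hJ2, hJ3⟩ := hub h hh V G T (fun hm => hmod (hm.mono hT)) hTne (by
        intro v hv
        have h1 := hdeg v hv
        have h2 : (Link870.nb G T v).card = Chain374.nb G T v := by
          unfold Chain374.nb Link870.nb
          congr
        rw [h2]
        have h3 : D0 * h + 200 * h ≤ D := by
          have : (D0 + 200) * h = D0 * h + 200 * h := by ring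
          omega
        omega)
      exact ⟨J, hJT, hJ2, hub_of_linked hJ1 hJ3⟩)
    (by
      intro X Y hX hY hXY
      by_contra hboth
      push Not at hboth
      refine hcon ⟨X, Y, hX, hY, hXY, ?_, ?_⟩
      · exact fun hc => hboth.1 (hc.mono_card (by omega))
      · exact fun hc => hboth.2 (hc.mono_card (by omega)))
    (by omega) le_rfl
  exact hno B hB1 hB2

end Crest.Agent.R042.B7375
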