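import Mathlib
import Crest.Agent.R042.Crit_374
import Crest.Agent.R042.Chain1_374

/-! Row 42 / S0058, sec 10.7 (chain of hubs), part 2: the state before a stage and steps (a)-(d). -/

set_option autoImplicit false
set_option linter.unusedSectionVars false

namespace Crest.Agent.R042.Chain374

open Finset Conn353 Menger353 Crit374
open scoped Classical

variable {V : Type*} [DecidableEq V] {G : SimpleGraph V}

/-- all inputs of sec 10.7 (see the interface message): P1 = 10.1, BF1/BF2 = 10.2, COST = 10.5,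
HUB = 10.4, NS = the non-splitting alternative of 10.6. -/
structure Inp (G : SimpleGraph V) (V0 : Finset V) (p kc M d UB : ℕ) : Prop where
  P1 : ∀ (F : Finset (Finset V)) (T : Finset V), (∀ A ∈ F, A ⊆ V0 ∧ Conn G A) →
    (∀ A ∈ F, ∀ B ∈ F, A ≠ B → Disjoint A B) → T ⊆ V0 →
    (∀ t ∈ T, (∀ A ∈ F, t ∉ A) ∧ p ≤ sees G F t) → T.card ≤ d * F.card
  BF1 : ∀ (W A B : Finset V) (P : Finset (List V)), Batch G W A B P →
    Degen G (verts P) (2 * P.card - 1)
  BF2 : ∀ (W A B : Finset V) (P : Finset (List V)), Batch G W A B P → ∀ x ∈ W, x ∉ verts P →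
    ∀ l ∈ P, nb G l.toFinset x ≤ 3
  COST : ∀ U P : Finset V, U ⊆ V0 → P ⊆ V0 → U.card ≤ UB → Degen G (P \ U) (8 * p) →
    (∀ v ∈ V0, v ∉ U → v ∉ P → nb G P v ≤ 3 * p) → ¬ Choos G ((V0 \ U) \ P) kc
  HUB : ∀ T, T ⊆ V0 → T.Nonempty → (∀ v ∈ T, kc - 3 * p ≤ nb G T v) →
    ∃ J, J ⊆ T ∧ J.card ≤ M ∧ Hub G J p
  NS : ∀ X Y : Finset V, X ⊆ V0 → Y ⊆ V0 → Disjoint X Y →
    Choos G X (kc - 8 * p) ∨ Choos G Y (kc - 8 * p)

/-- the state before stage `b`; `D` is the set of pairs of tokens already made adjacent. -/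
structure St (G : SimpleGraph V) (V0 : Finset V) (p kc M d b : ℕ) (D : Finset (Fin p × Fin p))
    (U : Finset V) (F : Finset (Finset V)) (H Z : Finset V) (y : Fin p → V)
    (T : Fin p → Finset V) : Prop where
  U_sub : U ⊆ V0
  U_card : U.card ≤ 2 * p + b * (M + 3 * p + 2 * d * p * (b + 1))
  F_mem : ∀ A ∈ F, A ⊆ V0 ∧ Conn G A
  F_disj : ∀ A ∈ F, ∀ B ∈ F, A ≠ B → Disjoint A B
  F_card : F.card ≤ 2 * p * b
  crit : Crit G H Z kc p
  H_sub : H \ Z ⊆ (V0 \ U) \ F.biUnion id
  Z_sub : Z ⊆ U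
  Z_disj : Disjoint Z (F.biUnion id)
  y_inj : Function.Injective y
  y_mem : ∀ i, y i ∈ H \ Z
  T_sub : ∀ i, T i ⊆ V0 ∧ Conn G (T i) ∧ y i ∈ T i
  T_disj : ∀ i j, i ≠ j → Disjoint (T i) (T j)
  T_y : ∀ i, ∀ x ∈ T i, (x ∈ (V0 \ U) \ F.biUnion id ∨ x ∈ Z) → x = y i
  T_adj : ∀ q ∈ D, ∃ u ∈ T q.1, ∃ w ∈ T q.2, G.Adj u w
  degen : Degen G (F.biUnion id \ U) (8 * p)
  see : ∀ v ∈ (V0 \ U) \ F.biUnion id, (∀ i, v ≠ y i) →
    sees G F v ≤ 2 * p ∧ ∀ A ∈ F, nb G A v ≤ 3

variable {V0 : Finset V} {p kc M d UB b : ℕ} {D : Finset (Fin p × Fin p)}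
  {U : Finset V} {F : Finset (Finset V)} {H Z : Finset V} {y : Fin p → V} {T : Fin p → Finset V}

/-- steps (a), (b): the hub `J` and the batch `S` from the tokens to `J`. -/
lemma St.step_ab (I : Inp G V0 p kc M d UB) (hk : 9 * p ≤ kc) (hp : 1 ≤ p)
    (h : St G V0 p kc M d b D U F H Z y T) :
    ∃ (J : Finset V) (S : Finset (List V)), J ⊆ H \ Z ∧ (∀ i, y i ∉ J) ∧ J.card ≤ M ∧
      Hub G J p ∧ Batch G (((V0 \ U) \ F.biUnion id) ∪ Z) (Finset.univ.image y) J S ∧
      S.card = p := by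
  have hYc : (Finset.univ.image y).card = p := by
    rw [Finset.card_image_of_injective _ h.y_inj]; simp
  have hYH : Finset.univ.image y ⊆ H \ Z := by
    intro x hx
    rw [Finset.mem_image] at hx
    obtain ⟨i, -, rfl⟩ := hx
    exact h.y_mem i
  set Ys := Finset.univ.image y with hYs
  have hdeg : ∀ v ∈ (H \ Z) \ Ys, kc - 3 * p ≤ nb G ((H \ Z) \ Ys) v := by
    intro v hv
    have h1 : kc - 2 * p ≤ nb G (H \ Z) v := h.crit.deg' (Finset.mem_sdiff.1 hv).1
    have h2 : nb G (H \ Z) v ≤ nb G ((H \ Z) \ Ys) v + nb G Ys v :=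
      nb_le_of_subset_union (by
        intro x hx
        rw [Finset.mem_union, Finset.mem_sdiff]
        by_cases hxY : x ∈ Ys
        · exact Or.inr hxY
        · exact Or.inl ⟨hx, hxY⟩) v
    have h3 := nb_le_card (G := G) Ys v
    omega
  have hne : ((H \ Z) \ Ys).Nonempty := by
    rw [← Finset.card_pos]
    have h1 := h.crit.card_lt (by omega)
    have h2 := Finset.le_card_sdiff Ys (H \ Z)
    omega
  have hsub0 : (H \ Z) \ Ys ⊆ V0 := by
    intro x hx
    have := h.H_sub (Finset.mem_sdiff.1 hx).1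
    exact (Finset.mem_sdiff.1 (Finset.mem_sdiff.1 this).1).1
  obtain ⟨J, hJ1, hJM, hJ⟩ := I.HUB _ hsub0 hne hdeg
  have hJH : J ⊆ H \ Z := hJ1.trans Finset.sdiff_subset
  have hJy : ∀ i, y i ∉ J := by
    intro i hi
    exact (Finset.mem_sdiff.1 (hJ1 hi)).2 (Finset.mem_image_of_mem y (Finset.mem_univ i))
  have hmen : ∃ Q, Linkage G H Ys J Q ∧ Q.card = p := by
    rcases menger_sep (G := G) (W := H) (A := Ys) (B := J) (hYH.trans Finset.sdiff_subset)
      (hJH.trans Finset.sdiff_subset) p with h1 | ⟨A', B', h2, h3, h4, h5⟩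
    · exact h1
    · exfalso
      rcases h.crit.sep h2 h5.le with h6 | h6
      · obtain ⟨x, hx, hx'⟩ := Finset.exists_mem_notMem_of_card_lt_card
          (s := A' ∩ B') (t := Ys) (by omega)
        rw [Finset.mem_inter] at hx'
        have hxA := h3 hx
        have hxB : x ∉ B' := fun hh => hx' ⟨hxA, hh⟩
        exact (Finset.mem_sdiff.1 (hYH hx)).2 (h6 (Finset.mem_sdiff.2 ⟨hxA, hxB⟩))
      · have hJc := hJ.card
        obtain ⟨x, hx, hx'⟩ := Finset.exists_mem_notMem_of_card_lt_card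
          (s := A' ∩ B') (t := J) (by omega)
        rw [Finset.mem_inter] at hx'
        have hxB := h4 hx
        have hxA : x ∉ A' := fun hh => hx' ⟨hh, hxB⟩
        exact (Finset.mem_sdiff.1 (hJH hx)).2 (h6 (Finset.mem_sdiff.2 ⟨hxB, hxA⟩))
  obtain ⟨Q, hQ, hQp⟩ := hmen
  have hHW : H ⊆ ((V0 \ U) \ F.biUnion id) ∪ Z := by
    intro x hx
    rw [Finset.mem_union]
    by_cases hxZ : x ∈ Z
    · exact Or.inr hxZ
    · exact Or.inl (h.H_sub (Finset.mem_sdiff.2 ⟨hx, hxZ⟩))
  obtain ⟨S, hS, hSc⟩ := exists_batch (linkage_ground_mono hHW hQ)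
  exact ⟨J, S, hJH, hJy, hJM, hJ, hS, hSc.trans hQp⟩

/-- the family of all paths after step (b). -/
noncomputable def FS (F : Finset (Finset V)) (S : Finset (List V)) : Finset (Finset V) :=
  F ∪ S.image List.toFinset

/-- exceptional vertices of step (c). -/
noncomputable def Exc (G : SimpleGraph V) (V0 U : Finset V) (F : Finset (Finset V))
    (S : Finset (List V)) (J : Finset V) (p : ℕ) : Finset V :=
  ((((V0 \ U) \ F.biUnion id) \ verts S) \ J).filter (fun v => p ≤ sees G (FS F S) v)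

/-- the new exceptional set of step (c) (without `Z'`). -/
noncomputable def U1 (G : SimpleGraph V) (V0 U : Finset V) (F : Finset (Finset V))
    (S : Finset (List V)) (J : Finset V) (p : ℕ) (y : Fin p → V) : Finset V :=
  U ∪ J ∪ Finset.univ.image y ∪ Exc G V0 U F S J p

lemma FS_biUnion (F : Finset (Finset V)) (S : Finset (List V)) :
    (FS F S).biUnion id = F.biUnion id ∪ verts S := by
  unfold FS verts
  ext x
  simp only [Finset.mem_biUnion, Finset.mem_union, Finset.mem_image, id]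
  constructor
  · rintro ⟨A, hA | ⟨l, hl, rfl⟩, hx⟩
    · exact Or.inl ⟨A, hA, hx⟩
    · exact Or.inr ⟨l, hl, hx⟩
  · rintro (⟨A, hA, hx⟩ | ⟨l, hl, hx⟩)
    · exact ⟨A, Or.inl hA, hx⟩
    · exact ⟨_, Or.inr ⟨l, hl, rfl⟩, hx⟩

/-- data after steps (a), (b). -/
structure AB (G : SimpleGraph V) (V0 : Finset V) (p M : ℕ) (U : Finset V)
    (F : Finset (Finset V)) (H Z : Finset V) (y : Fin p → V) (J : Finset V)
    (S : Finset (List V)) : Prop where
  J_sub : J ⊆ H \ Z
  J_y : ∀ i, y i ∉ J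
  J_card : J.card ≤ M
  hub : Hub G J p
  batch : Batch G (((V0 \ U) \ F.biUnion id) ∪ Z) (Finset.univ.image y) J S
  S_card : S.card = p

variable {J : Finset V} {S : Finset (List V)}

lemma AB.S_sub (a : AB G V0 p M U F H Z y J S) {x : V} (hx : x ∈ verts S) :
    x ∈ (V0 \ U) \ F.biUnion id ∨ x ∈ Z := by
  obtain ⟨l, hl, hxl⟩ := mem_verts.1 hx
  exact Finset.mem_union.1 ((a.batch.1.path l hl).sub x hxl)

lemma St.Gam_sub (_h : St G V0 p kc M d b D U F H Z y T) {x : V}
    (hx : x ∈ (V0 \ U) \ F.biUnion id) : x ∈ V0 ∧ x ∉ U ∧ x ∉ F.biUnion id := by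
  rw [Finset.mem_sdiff, Finset.mem_sdiff] at hx
  exact ⟨hx.1.1, hx.1.2, hx.2⟩

lemma St.FS_mem (h : St G V0 p kc M d b D U F H Z y T) (a : AB G V0 p M U F H Z y J S) :
    ∀ A ∈ FS F S, A ⊆ V0 ∧ Conn G A := by
  intro A hA
  rcases Finset.mem_union.1 hA with hA | hA
  · exact h.F_mem A hA
  · rw [Finset.mem_image] at hA
    obtain ⟨l, hl, rfl⟩ := hA
    refine ⟨?_, (a.batch.1.path l hl).conn⟩
    intro x hx
    rw [List.mem_toFinset] at hx
    rcases a.S_sub (mem_verts.2 ⟨l, hl, hx⟩) with h1 | h1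
    · exact (h.Gam_sub h1).1
    · exact h.U_sub (h.Z_sub h1)

lemma St.FS_cross (h : St G V0 p kc M d b D U F H Z y T) (a : AB G V0 p M U F H Z y J S) :
    ∀ A ∈ F, ∀ l ∈ S, Disjoint A l.toFinset := by
  intro A hA l hl
  rw [Finset.disjoint_left]
  intro x hxA hxl
  rw [List.mem_toFinset] at hxl
  have hxF : x ∈ F.biUnion id := Finset.mem_biUnion.2 ⟨A, hA, hxA⟩
  rcases a.S_sub (mem_verts.2 ⟨l, hl, hxl⟩) with h1 | h1
  · exact (h.Gam_sub h1).2.2 hxF
  · exact Finset.disjoint_left.1 h.Z_disj h1 hxF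

lemma St.FS_disj (h : St G V0 p kc M d b D U F H Z y T) (a : AB G V0 p M U F H Z y J S) :
    ∀ A ∈ FS F S, ∀ B ∈ FS F S, A ≠ B → Disjoint A B := by
  intro A hA B hB hne
  rcases Finset.mem_union.1 hA with hA | hA <;> rcases Finset.mem_union.1 hB with hB | hB
  · exact h.F_disj A hA B hB hne
  · rw [Finset.mem_image] at hB
    obtain ⟨l, hl, rfl⟩ := hB
    exact h.FS_cross a A hA l hl
  · rw [Finset.mem_image] at hA
    obtain ⟨l, hl, rfl⟩ := hA
    exact (h.FS_cross a B hB l hl).symm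
  · rw [Finset.mem_image] at hA hB
    obtain ⟨l, hl, rfl⟩ := hA
    obtain ⟨l', hl', rfl⟩ := hB
    rw [Finset.disjoint_left]
    intro x hx hx'
    rw [List.mem_toFinset] at hx hx'
    refine a.batch.1.disj l hl l' hl' ?_ x hx hx'
    rintro rfl
    exact hne rfl

lemma St.FS_card (h : St G V0 p kc M d b D U F H Z y T) (a : AB G V0 p M U F H Z y J S) :
    (FS F S).card ≤ 2 * p * b + p := by
  refine (Finset.card_union_le _ _).trans ?_
  have h1 := h.F_card
  have h2 : (S.image List.toFinset).card ≤ S.card := Finset.card_image_le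
  have h3 := a.S_card
  omega

lemma St.Exc_card (I : Inp G V0 p kc M d UB) (h : St G V0 p kc M d b D U F H Z y T)
    (a : AB G V0 p M U F H Z y J S) : (Exc G V0 U F S J p).card ≤ d * (2 * p * b + p) := by
  refine (I.P1 (FS F S) _ (h.FS_mem a) (h.FS_disj a) ?_ ?_).trans
    (Nat.mul_le_mul_left d (h.FS_card a))
  · intro x hx
    have h1 := (Finset.mem_sdiff.1 (Finset.mem_sdiff.1 (Finset.mem_filter.1 hx).1).1).1
    exact (h.Gam_sub h1).1
  · intro t ht
    obtain ⟨h1, h2⟩ := Finset.mem_filter.1 ht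
    refine ⟨?_, h2⟩
    intro A hA htA
    have h3 := Finset.mem_sdiff.1 (Finset.mem_sdiff.1 h1).1
    rcases Finset.mem_union.1 hA with hA | hA
    · exact (h.Gam_sub h3.1).2.2 (Finset.mem_biUnion.2 ⟨A, hA, htA⟩)
    · rw [Finset.mem_image] at hA
      obtain ⟨l, hl, rfl⟩ := hA
      rw [List.mem_toFinset] at htA
      exact h3.2 (mem_verts.2 ⟨l, hl, htA⟩)

lemma mem_U1 {x : V} : x ∈ U1 G V0 U F S J p y ↔
    x ∈ U ∨ x ∈ J ∨ (∃ i, y i = x) ∨ x ∈ Exc G V0 U F S J p := by
  unfold U1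
  simp only [Finset.mem_union, Finset.mem_image, Finset.mem_univ, true_and]
  tauto

lemma St.J_Gam (h : St G V0 p kc M d b D U F H Z y T) (a : AB G V0 p M U F H Z y J S) :
    J ⊆ (V0 \ U) \ F.biUnion id := a.J_sub.trans h.H_sub

lemma St.y_Gam (h : St G V0 p kc M d b D U F H Z y T) (i : Fin p) :
    y i ∈ (V0 \ U) \ F.biUnion id := h.H_sub (h.y_mem i)

lemma St.U1_sub (h : St G V0 p kc M d b D U F H Z y T) (a : AB G V0 p M U F H Z y J S) :
    U1 G V0 U F S J p y ⊆ V0 := by
  intro x hx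
  rcases mem_U1.1 hx with h1 | h1 | ⟨i, rfl⟩ | h1
  · exact h.U_sub h1
  · exact (h.Gam_sub (h.J_Gam a h1)).1
  · exact (h.Gam_sub (h.y_Gam i)).1
  · have h1 := (Finset.mem_sdiff.1 (Finset.mem_sdiff.1 (Finset.mem_filter.1 h1).1).1).1
    exact (h.Gam_sub h1).1

lemma St.U1_card (I : Inp G V0 p kc M d UB) (h : St G V0 p kc M d b D U F H Z y T)
    (a : AB G V0 p M U F H Z y J S) :
    (U1 G V0 U F S J p y).card ≤ U.card + M + p + d * (2 * p * b + p) := by
  have h1 := h.Exc_card I a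
  have h2 : (Finset.univ.image y).card ≤ p := by
    simpa using (Finset.card_image_le (s := (Finset.univ : Finset (Fin p))) (f := y))
  have h3 := a.J_card
  unfold U1
  have h4 := Finset.card_union_le (U ∪ J ∪ Finset.univ.image y) (Exc G V0 U F S J p)
  have h5 := Finset.card_union_le (U ∪ J) (Finset.univ.image y)
  have h6 := Finset.card_union_le U J
  omega

/-- (c5): the remaining vertices see few paths, each in at most three vertices. -/
lemma St.see1 (I : Inp G V0 p kc M d UB) (h : St G V0 p kc M d b D U F H Z y T)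
    (a : AB G V0 p M U F H Z y J S) {v : V} (hv : v ∈ V0) (hvU : v ∉ U1 G V0 U F S J p y)
    (hvP : v ∉ (FS F S).biUnion id) :
    sees G (FS F S) v < p ∧ ∀ A ∈ FS F S, nb G A v ≤ 3 := by
  rw [mem_U1] at hvU
  push Not at hvU
  obtain ⟨k1, k2, k3, k4⟩ := hvU
  rw [FS_biUnion, Finset.mem_union] at hvP
  push Not at hvP
  have hG : v ∈ (V0 \ U) \ F.biUnion id := by
    rw [Finset.mem_sdiff, Finset.mem_sdiff]
    exact ⟨⟨hv, k1⟩, hvP.1⟩
  constructor
  · by_contra hcon
    push Not at hcon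
    apply k4
    unfold Exc
    rw [Finset.mem_filter]
    refine ⟨?_, hcon⟩
    rw [Finset.mem_sdiff, Finset.mem_sdiff]
    exact ⟨⟨hG, hvP.2⟩, k2⟩
  · intro A hA
    rcases Finset.mem_union.1 hA with hA | hA
    · exact (h.see v hG (fun i hi => k3 i hi.symm)).2 A hA
    · rw [Finset.mem_image] at hA
      obtain ⟨l, hl, rfl⟩ := hA
      exact I.BF2 _ _ _ _ a.batch v (Finset.mem_union_left _ hG) hvP.2 l hl

lemma St.nb1 (I : Inp G V0 p kc M d UB) (h : St G V0 p kc M d b D U F H Z y T)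
    (a : AB G V0 p M U F H Z y J S) {v : V} (hv : v ∈ V0) (hvU : v ∉ U1 G V0 U F S J p y)
    (hvP : v ∉ (FS F S).biUnion id) : nb G ((FS F S).biUnion id) v ≤ 3 * p := by
  obtain ⟨h1, h2⟩ := h.see1 I a hv hvU hvP
  have := nb_biUnion_le (G := G) h2
  omega

lemma St.degen1 (I : Inp G V0 p kc M d UB) (hp : 1 ≤ p)
    (h : St G V0 p kc M d b D U F H Z y T) (a : AB G V0 p M U F H Z y J S) :
    Degen G ((FS F S).biUnion id \ U1 G V0 U F S J p y) (8 * p) := by
  have hUU : U ⊆ U1 G V0 U F S J p y := fun x hx => mem_U1.2 (Or.inl hx)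
  have hA : Degen G (F.biUnion id \ U1 G V0 U F S J p y) (8 * p) :=
    h.degen.mono (Finset.sdiff_subset_sdiff (le_refl _) hUU)
  have hB : Degen G (verts S \ U1 G V0 U F S J p y) (2 * p - 1) := by
    have h1 := I.BF1 _ _ _ _ a.batch
    rw [a.S_card] at h1
    exact h1.mono Finset.sdiff_subset
  refine (hA.union hB (c2 := 6 * p) ?_ (by omega)).mono ?_
  · intro v hv
    rw [Finset.mem_sdiff, mem_U1] at hv
    obtain ⟨hvS, hvU⟩ := hv
    push Not at hvU
    obtain ⟨k1, k2, k3, k4⟩ := hvU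
    have hG : v ∈ (V0 \ U) \ F.biUnion id := by
      rcases a.S_sub hvS with h1 | h1
      · exact h1
      · exact absurd (h.Z_sub h1) k1
    obtain ⟨h1, h2⟩ := h.see v hG (fun i hi => k3 i hi.symm)
    have h3 := nb_biUnion_le (G := G) h2
    have h4 := nb_mono (G := G) (Finset.sdiff_subset :
      F.biUnion id \ U1 G V0 U F S J p y ⊆ F.biUnion id) v
    omega
  · rw [FS_biUnion, Finset.union_sdiff_distrib]

/-- step (c): the next critical pair. -/
lemma St.step_c (I : Inp G V0 p kc M d UB) (hp : 1 ≤ p)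
    (h : St G V0 p kc M d b D U F H Z y T) (a : AB G V0 p M U F H Z y J S)
    (hUB : U.card + M + p + d * (2 * p * b + p) ≤ UB) :
    ∃ H' Z', H' ⊆ (V0 \ U1 G V0 U F S J p y) \ (FS F S).biUnion id ∧ Crit G H' Z' kc p := by
  have hP : (FS F S).biUnion id ⊆ V0 := by
    intro x hx
    obtain ⟨A, hA, hxA⟩ := Finset.mem_biUnion.1 hx
    exact (h.FS_mem a A hA).1 hxA
  have := I.COST _ _ (h.U1_sub a) hP ((h.U1_card I a).trans hUB) (h.degen1 I hp a)
    (fun v hv hvU hvP => h.nb1 I a hv hvU hvP)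
  exact exists_crit this p

/-- step (d): the exit batch. -/
lemma St.step_d (I : Inp G V0 p kc M d UB) (hk : 9 * p ≤ kc) (hp : 1 ≤ p)
    (h : St G V0 p kc M d b D U F H Z y T) (a : AB G V0 p M U F H Z y J S)
    {H' Z' : Finset V} (hH' : H' ⊆ (V0 \ U1 G V0 U F S J p y) \ (FS F S).biUnion id)
    (hc' : Crit G H' Z' kc p) :
    ∃ E : Finset (List V), Batch G ((((V0 \ U) \ F.biUnion id) \ verts S) \ Z') (J \ verts S)
      (H' \ Z') E ∧ E.card = p := by
  set W2 := (((V0 \ U) \ F.biUnion id) \ verts S) \ Z' with hW2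
  have hR : ∀ x ∈ H', x ∈ V0 ∧ x ∉ U1 G V0 U F S J p y ∧ x ∉ F.biUnion id ∧ x ∉ verts S := by
    intro x hx
    have := hH' hx
    rw [Finset.mem_sdiff, Finset.mem_sdiff, FS_biUnion, Finset.mem_union] at this
    push Not at this
    exact ⟨this.1.1, this.1.2, this.2.1, this.2.2⟩
  have hUU : ∀ x, x ∈ U → x ∈ U1 G V0 U F S J p y := fun x hx => mem_U1.2 (Or.inl hx)
  have hJU : ∀ x, x ∈ J → x ∈ U1 G V0 U F S J p y := fun x hx => mem_U1.2 (Or.inr (Or.inl hx))
  have hH'G : ∀ x ∈ H', x ∈ (V0 \ U) \ F.biUnion id := by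
    intro x hx
    obtain ⟨h1, h2, h3, h4⟩ := hR x hx
    rw [Finset.mem_sdiff, Finset.mem_sdiff]
    exact ⟨⟨h1, fun hh => h2 (hUU x hh)⟩, h3⟩
  have hA2 : J \ verts S ⊆ W2 := by
    intro x hx
    rw [Finset.mem_sdiff] at hx
    rw [hW2, Finset.mem_sdiff, Finset.mem_sdiff]
    refine ⟨⟨h.J_Gam a hx.1, hx.2⟩, ?_⟩
    intro hxZ
    exact (hR x (hc'.sub hxZ)).2.1 (hJU x hx.1)
  have hB2 : H' \ Z' ⊆ W2 := by
    intro x hx
    rw [Finset.mem_sdiff] at hx
    rw [hW2, Finset.mem_sdiff, Finset.mem_sdiff]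
    exact ⟨⟨hH'G x hx.1, (hR x hx.1).2.2.2⟩, hx.2⟩
  -- `J \ verts S` is large
  have hSJ : (verts S ∩ J).card = p := by
    rw [a.batch.1.verts_inter_card, a.S_card]
  have hJc : p + 6 ≤ (J \ verts S).card := by
    have h1 := a.hub.card
    have h2 : J = (J \ verts S) ∪ (verts S ∩ J) := by
      ext x
      simp only [Finset.mem_union, Finset.mem_sdiff, Finset.mem_inter]
      tauto
    have h3 := Finset.card_union_le (J \ verts S) (verts S ∩ J)
    rw [← h2] at h3
    omega
  have hmen : ∃ Q, Linkage G W2 (J \ verts S) (H' \ Z') Q ∧ Q.card = p := by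
    rcases menger_sep (G := G) hA2 hB2 p with h1 | ⟨A, B, h2, h3, h4, h5⟩
    · exact h1
    exfalso
    -- the two disjoint hard sets
    set Q1 := (H \ Z) ∩ (A \ B) with hQ1
    set Q2 := (H' \ Z') \ (A ∩ B) with hQ2
    have hQ1sub : Q1 ⊆ H \ Z := Finset.inter_subset_left
    have hQ1ne : Q1.Nonempty := by
      obtain ⟨x, hx, hx'⟩ := Finset.exists_mem_notMem_of_card_lt_card
        (s := A ∩ B) (t := J \ verts S) (by omega)
      rw [Finset.mem_inter] at hx'
      have hxA := h3 hx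
      refine ⟨x, ?_⟩
      rw [hQ1, Finset.mem_inter, Finset.mem_sdiff (s := A)]
      exact ⟨a.J_sub (Finset.mem_sdiff.1 hx).1, hxA, fun hh => hx' ⟨hxA, hh⟩⟩
    have hQ1t : ∀ v ∈ Q1, (((H \ Z) \ Q1).filter (G.Adj v)).card ≤ 6 * p := by
      intro v hv
      rw [hQ1, Finset.mem_inter, Finset.mem_sdiff (s := A)] at hv
      obtain ⟨hvH, hvA, hvB⟩ := hv
      have hvW : v ∈ W2 := h2.left_sub hvA
      have hvG : v ∈ (V0 \ U) \ F.biUnion id := by
        rw [hW2, Finset.mem_sdiff, Finset.mem_sdiff] at hvW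
        exact hvW.1.1
      have hvS : v ∉ verts S := by
        rw [hW2, Finset.mem_sdiff, Finset.mem_sdiff] at hvW
        exact hvW.1.2
      have hsub : ((H \ Z) \ Q1).filter (fun u => G.Adj v u) ⊆
          (verts S).filter (fun u => G.Adj v u) ∪ (Z' ∪ (A ∩ B)) := by
        intro u hu
        rw [Finset.mem_filter, Finset.mem_sdiff] at hu
        obtain ⟨⟨huH, huQ⟩, hvu⟩ := hu
        rw [Finset.mem_union, Finset.mem_filter, Finset.mem_union, Finset.mem_inter]
        by_cases huS : u ∈ verts S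
        · exact Or.inl ⟨huS, hvu⟩
        · right
          by_cases huZ : u ∈ Z'
          · exact Or.inl huZ
          · right
            have huW : u ∈ W2 := by
              rw [hW2, Finset.mem_sdiff, Finset.mem_sdiff]
              exact ⟨⟨h.H_sub huH, huS⟩, huZ⟩
            have huAB : u ∈ A ∪ B := by rw [h2.union]; exact huW
            have huA : u ∈ A := by
              by_contra huA
              have huB : u ∈ B := (Finset.mem_union.1 huAB).resolve_left huA
              exact h2.nadj v hvA hvB u huB huA hvu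
            refine ⟨huA, ?_⟩
            by_contra huB
            apply huQ
            rw [hQ1, Finset.mem_inter, Finset.mem_sdiff (s := A)]
            exact ⟨huH, huA, huB⟩
      have hnS : nb G (verts S) v ≤ 3 * p := by
        have h6 : nb G ((S.image List.toFinset).biUnion id) v ≤
            3 * sees G (S.image List.toFinset) v := by
          refine nb_biUnion_le ?_
          intro A' hA'
          rw [Finset.mem_image] at hA'
          obtain ⟨l, hl, rfl⟩ := hA'
          exact I.BF2 _ _ _ _ a.batch v (Finset.mem_union_left _ hvG) hvS l hl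
        have h7 : (S.image List.toFinset).biUnion id = verts S := by
          unfold verts
          ext x
          simp [Finset.mem_biUnion, Finset.mem_image]
        have h8 : sees G (S.image List.toFinset) v ≤ p := by
          refine (Finset.card_le_card (Finset.filter_subset _ _)).trans ?_
          exact Finset.card_image_le.trans (by rw [a.S_card])
        rw [h7] at h6
        omega
      have h9 := Finset.card_le_card hsub
      have h10 := Finset.card_union_le ((verts S).filter (fun u => G.Adj v u)) (Z' ∪ (A ∩ B))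
      have h11 := Finset.card_union_le Z' (A ∩ B)
      have h12 := hc'.card_le
      have h13 : ((verts S).filter (fun u => G.Adj v u)).card ≤ 3 * p := hnS
      have h14 : (((H \ Z) \ Q1).filter (G.Adj v)).card =
        (((H \ Z) \ Q1).filter (fun u => G.Adj v u)).card := rfl
      omega
    have hhard1 : ¬ Choos G Q1 (kc - 8 * p) := by
      have := h.crit.fact hQ1sub hQ1ne hQ1t
      exact not_choos_mono (le_refl _) (by omega) this
    have hQ2ne : Q2.Nonempty := by
      rw [← Finset.card_pos, hQ2]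
      have h6 := hc'.card_lt (by omega)
      have h7 := Finset.le_card_sdiff (A ∩ B) (H' \ Z')
      omega
    have hhard2 : ¬ Choos G Q2 (kc - 8 * p) := by
      have h6 := hc'.fact' (Q := Q2) Finset.sdiff_subset hQ2ne (t := 3 * p) (by
        intro v hv
        have hsub : (H' \ Q2).filter (G.Adj v) ⊆ Z' ∪ (A ∩ B) := by
          intro u hu
          rw [Finset.mem_filter, Finset.mem_sdiff, hQ2, Finset.mem_sdiff, Finset.mem_sdiff] at hu
          rw [Finset.mem_union]
          tauto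
        have h7 := Finset.card_le_card hsub
        have h8 := Finset.card_union_le Z' (A ∩ B)
        have h9 := hc'.card_le
        omega)
      exact not_choos_mono (le_refl _) (by omega) h6
    have hdis : Disjoint Q1 Q2 := by
      rw [Finset.disjoint_left]
      intro x hx1 hx2
      rw [hQ1, Finset.mem_inter, Finset.mem_sdiff (s := A)] at hx1
      rw [hQ2, Finset.mem_sdiff] at hx2
      exact hx1.2.2 (h4 hx2.1)
    have hQ1V : Q1 ⊆ V0 := by
      intro x hx
      exact (h.Gam_sub (h.H_sub (hQ1sub hx))).1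
    have hQ2V : Q2 ⊆ V0 := by
      intro x hx
      rw [hQ2, Finset.mem_sdiff, Finset.mem_sdiff] at hx
      exact (hR x hx.1.1).1
    rcases I.NS Q1 Q2 hQ1V hQ2V hdis with h6 | h6
    · exact hhard1 h6
    · exact hhard2 h6
  obtain ⟨Q, hQ, hQp⟩ := hmen
  obtain ⟨E, hE, hEc⟩ := exists_batch hQ
  exact ⟨E, hE, hEc.trans hQp⟩

end Crest.Agent.R042.Chain374
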