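import Mathlib
import Crest.Prelude.Def_CliqueMinor
import Crest.Agent.R042.Crit_374
import Crest.Agent.R042.Chain1_374
import Crest.Agent.R042.Chain2_374

/-! Row 42 / S0058, sec 10.7 (chain of hubs), part 3: step (e), the next state, and the theorem. -/

set_option autoImplicit false
set_option linter.unusedSectionVars false

namespace Crest.Agent.R042.Chain374

open Finset Conn353 Menger353 Crit374
open scoped Classical

variable {V : Type*} [DecidableEq V] {G : SimpleGraph V}
variable {V0 : Finset V} {p kc M d UB b : ℕ} {D : Finset (Fin p × Fin p)}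
  {U : Finset V} {F : Finset (Finset V)} {H Z : Finset V} {y : Fin p → V} {T : Fin p → Finset V}
  {J : Finset V} {S : Finset (List V)}

/-- one stage of the chain of hubs. -/
theorem St.stage (I : Inp G V0 p kc M d UB) (hk : 9 * p ≤ kc) (hp : 1 ≤ p)
    (h : St G V0 p kc M d b D U F H Z y T)
    (hUB : U.card + M + p + d * (2 * p * b + p) ≤ UB) {x z : Fin p} (hxz : x ≠ z) :
    ∃ U' F' H' Z' y' T', St G V0 p kc M d (b + 1) (insert (x, z) D) U' F' H' Z' y' T' := by
  obtain ⟨J, S, a1, a2, a3, a4, a5, a6⟩ := h.step_ab I hk hp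
  have a : AB G V0 p M U F H Z y J S := ⟨a1, a2, a3, a4, a5, a6⟩
  obtain ⟨H', Z', hH', hc'⟩ := h.step_c I hp a hUB
  obtain ⟨E, hE, hEc⟩ := h.step_d I hk hp a hH' hc'
  -- the paths of `S`, indexed by the tokens
  obtain ⟨Q, e, hQ, hQd, hQv⟩ := exists_index' h.y_inj a.batch.1 a.S_card
  -- the paths of `E`
  obtain ⟨R, f, y', hR, hRd, hRv⟩ := exists_index hE.1 hEc
  set W2 := (((V0 \ U) \ F.biUnion id) \ verts S) \ Z' with hW2
  set X1 := U1 G V0 U F S J p y with hX1
  -- basic set facts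
  have hUU : ∀ v, v ∈ U → v ∈ X1 := fun v hv => mem_U1.2 (Or.inl hv)
  have hJU : ∀ v, v ∈ J → v ∈ X1 := fun v hv => mem_U1.2 (Or.inr (Or.inl hv))
  have hyU : ∀ i, y i ∈ X1 := fun i => mem_U1.2 (Or.inr (Or.inr (Or.inl ⟨i, rfl⟩)))
  have hR' : ∀ v ∈ H', v ∈ V0 ∧ v ∉ X1 ∧ v ∉ F.biUnion id ∧ v ∉ verts S := by
    intro v hv
    have := hH' hv
    rw [Finset.mem_sdiff, Finset.mem_sdiff, FS_biUnion, Finset.mem_union] at this
    push Not at this
    exact ⟨this.1.1, this.1.2, this.2.1, this.2.2⟩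
  have hW2m : ∀ v, v ∈ W2 → v ∈ (V0 \ U) \ F.biUnion id ∧ v ∉ verts S ∧ v ∉ Z' := by
    intro v hv
    rw [hW2, Finset.mem_sdiff, Finset.mem_sdiff] at hv
    exact ⟨hv.1.1, hv.1.2, hv.2⟩
  have hQW : ∀ i, ∀ v ∈ Q i, v ∈ (V0 \ U) \ F.biUnion id ∨ v ∈ Z := by
    intro i v hv
    exact Finset.mem_union.1 ((hQ i).1 hv)
  have hQS : ∀ i, ∀ v ∈ Q i, v ∈ verts S := fun i v hv => (hQv v).2 ⟨i, hv⟩
  have hRW : ∀ i, ∀ v ∈ R i, v ∈ W2 := fun i v hv => (hR i).1 hv
  have heJ : ∀ i, e i ∈ J := fun i => (hQ i).2.2.2.2.1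
  have hfJ : ∀ i, f i ∈ J ∧ f i ∉ verts S := fun i => Finset.mem_sdiff.1 (hR i).2.2.2.2.1
  have hyH' : ∀ i, y' i ∈ H' \ Z' := fun i => (hR i).2.2.2.2.2.1
  have hei : Function.Injective e := by
    intro i j hij
    by_contra hne
    refine Finset.disjoint_left.1 (hQd i j hne) (hQ i).2.2.2.1 ?_
    rw [hij]
    exact (hQ j).2.2.2.1
  have hfi : Function.Injective f := by
    intro i j hij
    by_contra hne
    refine Finset.disjoint_left.1 (hRd i j hne) (hR i).2.2.1 ?_
    rw [hij]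
    exact (hR j).2.2.1
  have hyi : Function.Injective y' := by
    intro i j hij
    by_contra hne
    refine Finset.disjoint_left.1 (hRd i j hne) (hR i).2.2.2.1 ?_
    rw [hij]
    exact (hR j).2.2.2.1
  have hef : ∀ i j, e i ≠ f j := by
    intro i j hij
    apply (hfJ j).2
    rw [← hij]
    exact hQS i _ (hQ i).2.2.2.1
  obtain ⟨C, hC1, hC2, hC3⟩ := a.hub.wire heJ (fun i => (hfJ i).1) hei hfi hef hxz
  have hfy : ∀ i, f i ≠ y' i := by
    intro i hi
    have h1 := (Finset.mem_sdiff.1 (hyH' i)).1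
    rw [← hi] at h1
    exact (hR' _ h1).2.1 (hJU _ (hfJ i).1)
  have hyR : ∀ i, ∀ v ∈ R i, v ∈ H' \ Z' → v = y' i := fun i => (hR i).2.2.2.2.2.2.2.1
  have hfR : ∀ i, ∀ v ∈ R i, v ∈ J \ verts S → v = f i := fun i => (hR i).2.2.2.2.2.2.1
  have hyQ : ∀ i, ∀ v ∈ Q i, (∃ j, v = y j) → v = y i := fun i => (hQ i).2.2.2.2.2.1
  have heQ : ∀ i, ∀ v ∈ Q i, v ∈ J → v = e i := fun i => (hQ i).2.2.2.2.2.2.1
  -- the new family of paths
  set F' : Finset (Finset V) := FS F S ∪ Finset.univ.image (fun i => (R i).erase (y' i)) with hF'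
  have hF'u : ∀ v, v ∈ F'.biUnion id ↔
      v ∈ F.biUnion id ∨ v ∈ verts S ∨ ∃ i, v ∈ R i ∧ v ≠ y' i := by
    intro v
    have h1 : F'.biUnion id = (FS F S).biUnion id ∪
        (Finset.univ.image (fun i => (R i).erase (y' i))).biUnion id := by
      rw [hF']
      ext w
      simp only [Finset.mem_biUnion, Finset.mem_union, id]
      constructor
      · rintro ⟨A, hA | hA, hw⟩
        · exact Or.inl ⟨A, hA, hw⟩
        · exact Or.inr ⟨A, hA, hw⟩
      · rintro (⟨A, hA, hw⟩ | ⟨A, hA, hw⟩)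
        · exact ⟨A, Or.inl hA, hw⟩
        · exact ⟨A, Or.inr hA, hw⟩
    rw [h1, Finset.mem_union, FS_biUnion, Finset.mem_union, or_assoc]
    refine or_congr Iff.rfl (or_congr Iff.rfl ?_)
    simp only [Finset.mem_biUnion, Finset.mem_image, Finset.mem_univ, true_and, id]
    constructor
    · rintro ⟨A, ⟨i, rfl⟩, hv⟩
      rw [Finset.mem_erase] at hv
      exact ⟨i, hv.2, hv.1⟩
    · rintro ⟨i, hv, hne⟩
      exact ⟨_, ⟨i, rfl⟩, Finset.mem_erase.2 ⟨hne, hv⟩⟩
  set X' : Finset V := X1 ∪ Z' with hX'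
  -- members of the new remaining graph
  have hGam' : ∀ v, v ∈ (V0 \ X') \ F'.biUnion id →
      v ∈ V0 ∧ v ∉ X1 ∧ v ∉ Z' ∧ v ∈ (V0 \ U) \ F.biUnion id ∧ v ∉ verts S ∧
        (∀ i, v ∈ R i → v = y' i) := by
    intro v hv
    rw [Finset.mem_sdiff, Finset.mem_sdiff, hX', Finset.mem_union, hF'u] at hv
    obtain ⟨⟨h1, h2⟩, h3⟩ := hv
    push Not at h2 h3
    refine ⟨h1, h2.1, h2.2, ?_, h3.2.1, ?_⟩
    · rw [Finset.mem_sdiff, Finset.mem_sdiff]
      exact ⟨⟨h1, fun hh => h2.1 (hUU v hh)⟩, h3.1⟩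
    · intro i hi
      exact h3.2.2 i hi
  have hFSbi : ∀ v, v ∈ (FS F S).biUnion id ↔ v ∈ F.biUnion id ∨ v ∈ verts S := by
    intro v
    rw [FS_biUnion, Finset.mem_union]
  -- tokens
  set T' : Fin p → Finset V := fun i => ((T i ∪ Q i) ∪ C i) ∪ R i with hT'
  have hmT' : ∀ i v, v ∈ T' i ↔ v ∈ T i ∨ v ∈ Q i ∨ v ∈ C i ∨ v ∈ R i := by
    intro i v
    rw [hT']
    simp only [Finset.mem_union, or_assoc]
  have hCJ : ∀ i, ∀ v ∈ C i, v ∈ J := fun i v hv => (hC1 i).1 hv
  have hTQ : ∀ i, ∀ v ∈ T i, ((v ∈ (V0 \ U) \ F.biUnion id) ∨ v ∈ Z) → v = y i := h.T_y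
  refine ⟨X', F', H', Z', y', T', ?_⟩
  refine ⟨?_, ?_, ?_, ?_, ?_, hc', ?_, ?_, ?_, hyi, hyH', ?_, ?_, ?_, ?_, ?_, ?_⟩
  · -- U_sub
    rw [hX']
    refine Finset.union_subset (h.U1_sub a) ?_
    intro v hv
    exact (hR' v (hc'.sub hv)).1
  · -- U_card
    rw [hX']
    have h1 := Finset.card_union_le X1 Z'
    have h2 : X1.card ≤ U.card + M + p + d * (2 * p * b + p) := h.U1_card I a
    have h3 := hc'.card_le
    have h4 := h.U_card
    have h5 : d * (2 * p * b + p) ≤ 2 * d * p * (b + 1) := by nlinarith [Nat.zero_le (d * p)]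
    have h6 : b * (M + 3 * p + 2 * d * p * (b + 1)) + (M + 3 * p + 2 * d * p * (b + 1)) ≤
        (b + 1) * (M + 3 * p + 2 * d * p * (b + 1 + 1)) := by
      have : (b + 1) * (M + 3 * p + 2 * d * p * (b + 1 + 1)) =
          b * (M + 3 * p + 2 * d * p * (b + 1)) + (M + 3 * p + 2 * d * p * (b + 1)) +
            2 * d * p * (b + 1) := by ring
      omega
    omega
  · -- F_mem
    intro A hA
    rw [hF', Finset.mem_union] at hA
    rcases hA with hA | hA
    · exact h.FS_mem a A hA
    · rw [Finset.mem_image] at hA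
      obtain ⟨i, -, rfl⟩ := hA
      refine ⟨?_, (hR i).2.2.2.2.2.2.2.2.1 (hfy i)⟩
      intro v hv
      have h1 := hW2m v (hRW i v (Finset.mem_of_mem_erase hv))
      exact (h.Gam_sub h1.1).1
  · -- F_disj
    intro A hA B hB hne
    have hcross : ∀ A ∈ FS F S, ∀ i, Disjoint A ((R i).erase (y' i)) := by
      intro A hA i
      rw [Finset.disjoint_left]
      intro v hv hv'
      have h1 := hW2m v (hRW i v (Finset.mem_of_mem_erase hv'))
      have h2 : v ∈ (FS F S).biUnion id := Finset.mem_biUnion.2 ⟨A, hA, hv⟩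
      rw [hFSbi] at h2
      rcases h2 with h2 | h2
      · exact (h.Gam_sub h1.1).2.2 h2
      · exact h1.2.1 h2
    rw [hF', Finset.mem_union] at hA hB
    rcases hA with hA | hA <;> rcases hB with hB | hB
    · exact h.FS_disj a A hA B hB hne
    · rw [Finset.mem_image] at hB
      obtain ⟨i, -, rfl⟩ := hB
      exact hcross A hA i
    · rw [Finset.mem_image] at hA
      obtain ⟨i, -, rfl⟩ := hA
      exact (hcross B hB i).symm
    · rw [Finset.mem_image] at hA hB
      obtain ⟨i, -, rfl⟩ := hA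
      obtain ⟨j, -, rfl⟩ := hB
      have hij : i ≠ j := by
        rintro rfl
        exact hne rfl
      exact (hRd i j hij).mono (Finset.erase_subset _ _) (Finset.erase_subset _ _)
  · -- F_card
    rw [hF']
    refine (Finset.card_union_le _ _).trans ?_
    have h1 := h.FS_card a
    have h2 : (Finset.univ.image (fun i => (R i).erase (y' i))).card ≤ p := by
      simpa using (Finset.card_image_le (s := (Finset.univ : Finset (Fin p)))
        (f := fun i => (R i).erase (y' i)))
    have h3 : 2 * p * (b + 1) = 2 * p * b + 2 * p := by ring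
    omega
  · -- H_sub
    intro v hv
    obtain ⟨k1, k2, k3, k4⟩ := hR' v (Finset.mem_sdiff.1 hv).1
    rw [Finset.mem_sdiff, Finset.mem_sdiff, hX', Finset.mem_union, hF'u]
    refine ⟨⟨k1, ?_⟩, ?_⟩
    · rintro (h1 | h1)
      · exact k2 h1
      · exact (Finset.mem_sdiff.1 hv).2 h1
    · rintro (h1 | h1 | ⟨i, h1, h2⟩)
      · exact k3 h1
      · exact k4 h1
      · exact h2 (hyR i v h1 hv)
  · -- Z_sub
    rw [hX']
    exact Finset.subset_union_right
  · -- Z_disj
    rw [Finset.disjoint_left]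
    intro v hv hv'
    obtain ⟨k1, k2, k3, k4⟩ := hR' v (hc'.sub hv)
    rw [hF'u] at hv'
    rcases hv' with h1 | h1 | ⟨i, h1, h2⟩
    · exact k3 h1
    · exact k4 h1
    · exact (hW2m v (hRW i v h1)).2.2 hv
  · -- T_sub
    intro i
    refine ⟨?_, ?_, ?_⟩
    · intro v hv
      rcases (hmT' i v).1 hv with h1 | h1 | h1 | h1
      · exact (h.T_sub i).1 h1
      · rcases hQW i v h1 with h2 | h2
        · exact (h.Gam_sub h2).1
        · exact h.U_sub (h.Z_sub h2)
      · exact (h.Gam_sub (h.J_Gam a (hCJ i v h1))).1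
      · exact (h.Gam_sub (hW2m v (hRW i v h1)).1).1
    · have c1 : Conn G (T i ∪ Q i) :=
        (h.T_sub i).2.1.union (hQ i).2.1 (h.T_sub i).2.2 (hQ i).2.2.1
      have c2 : Conn G ((T i ∪ Q i) ∪ C i) :=
        c1.union (hC1 i).2.1 (Finset.mem_union_right _ (hQ i).2.2.2.1) (hC1 i).2.2.1
      exact c2.union (hR i).2.1 (Finset.mem_union_right _ (hC1 i).2.2.2) (hR i).2.2.1
    · exact (hmT' i _).2 (Or.inr (Or.inr (Or.inr (hR i).2.2.2.1)))
  · -- T_disj
    have key : ∀ i j, i ≠ j → ∀ v, v ∈ T' i → v ∈ T' j →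
        (v ∈ T i → v ∉ Q j ∧ v ∉ C j ∧ v ∉ R j) := by
      intro i j hij v _ _ hvi
      refine ⟨?_, ?_, ?_⟩
      · intro hvj
        have h1 := hTQ i v hvi (hQW j v hvj)
        have h2 := hyQ j v hvj ⟨i, h1⟩
        exact hij (h.y_inj (h1.symm.trans h2))
      · intro hvj
        have h1 := hTQ i v hvi (Or.inl (h.J_Gam a (hCJ j v hvj)))
        apply a.J_y i
        rw [← h1]
        exact hCJ j v hvj
      · intro hvj
        have h2 := hW2m v (hRW j v hvj)
        have h1 := hTQ i v hvi (Or.inl h2.1)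
        apply h2.2.1
        rw [h1]
        exact hQS i _ (hQ i).2.2.1
    have hQC : ∀ i j, i ≠ j → ∀ v, v ∈ Q i → v ∉ C j := by
      intro i j hij v hv hv'
      have h1 := heQ i v hv (hCJ j v hv')
      refine Finset.disjoint_left.1 (hC2 i j hij) ?_ hv'
      rw [h1]
      exact (hC1 i).2.2.1
    have hQR : ∀ i j, ∀ v, v ∈ Q i → v ∉ R j := by
      intro i j v hv hv'
      exact (hW2m v (hRW j v hv')).2.1 (hQS i v hv)
    have hCR : ∀ i j, i ≠ j → ∀ v, v ∈ C i → v ∉ R j := by
      intro i j hij v hv hv'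
      have h1 := hfR j v hv' (Finset.mem_sdiff.2 ⟨hCJ i v hv, (hW2m v (hRW j v hv')).2.1⟩)
      refine Finset.disjoint_left.1 (hC2 i j hij) hv ?_
      rw [h1]
      exact (hC1 j).2.2.2
    intro i j hij
    rw [Finset.disjoint_left]
    intro v hvi hvj
    have hji : j ≠ i := fun hh => hij hh.symm
    rcases (hmT' i v).1 hvi with h1 | h1 | h1 | h1
    · obtain ⟨k1, k2, k3⟩ := key i j hij v hvi hvj h1
      rcases (hmT' j v).1 hvj with h2 | h2 | h2 | h2
      · exact Finset.disjoint_left.1 (h.T_disj i j hij) h1 h2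
      · exact k1 h2
      · exact k2 h2
      · exact k3 h2
    · rcases (hmT' j v).1 hvj with h2 | h2 | h2 | h2
      · exact (key j i hji v hvj hvi h2).1 h1
      · exact Finset.disjoint_left.1 (hQd i j hij) h1 h2
      · exact hQC i j hij v h1 h2
      · exact hQR i j v h1 h2
    · rcases (hmT' j v).1 hvj with h2 | h2 | h2 | h2
      · exact (key j i hji v hvj hvi h2).2.1 h1
      · exact hQC j i hji v h2 h1
      · exact Finset.disjoint_left.1 (hC2 i j hij) h1 h2
      · exact hCR i j hij v h1 h2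
    · rcases (hmT' j v).1 hvj with h2 | h2 | h2 | h2
      · exact (key j i hji v hvj hvi h2).2.2 h1
      · exact hQR j i v h2 h1
      · exact hCR j i hji v h2 h1
      · exact Finset.disjoint_left.1 (hRd i j hij) h1 h2
  · -- T_y
    intro i v hv hv'
    have hX1Z : v ∉ X1 ∧ (v ∈ (V0 \ U) \ F.biUnion id) ∧ v ∉ verts S ∧
        (v ∈ W2 → ∀ j, v ∈ R j → v = y' j) := by
      rcases hv' with h1 | h1
      · obtain ⟨k1, k2, k3, k4, k5, k6⟩ := hGam' v h1
        exact ⟨k2, k4, k5, fun _ => k6⟩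
      · obtain ⟨k1, k2, k3, k4⟩ := hR' v (hc'.sub h1)
        refine ⟨k2, ?_, k4, ?_⟩
        · rw [Finset.mem_sdiff, Finset.mem_sdiff]
          exact ⟨⟨k1, fun hh => k2 (hUU v hh)⟩, k3⟩
        · intro hw
          exact absurd h1 (hW2m v hw).2.2
    obtain ⟨k1, k2, k3, k4⟩ := hX1Z
    rcases (hmT' i v).1 hv with h1 | h1 | h1 | h1
    · exfalso
      have h2 := hTQ i v h1 (Or.inl k2)
      rw [h2] at k1
      exact k1 (hyU i)
    · exact absurd (hQS i v h1) k3
    · exact absurd (hJU v (hCJ i v h1)) k1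
    · exact k4 (hRW i v h1) i h1
  · -- T_adj
    intro q hq
    rw [Finset.mem_insert] at hq
    rcases hq with rfl | hq
    · obtain ⟨u, hu, w, hw, huw⟩ := hC3
      exact ⟨u, (hmT' _ _).2 (Or.inr (Or.inr (Or.inl hu))), w,
        (hmT' _ _).2 (Or.inr (Or.inr (Or.inl hw))), huw⟩
    · obtain ⟨u, hu, w, hw, huw⟩ := h.T_adj q hq
      exact ⟨u, (hmT' _ _).2 (Or.inl hu), w, (hmT' _ _).2 (Or.inl hw), huw⟩
  · -- degen
    have hA : Degen G ((FS F S).biUnion id \ X') (8 * p) :=
      (h.degen1 I hp a).mono (Finset.sdiff_subset_sdiff (le_refl _) (by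
        rw [hX']; exact Finset.subset_union_left))
    have hB0 : Degen G (verts E) (2 * p - 1) := by
      have h1 := I.BF1 _ _ _ _ hE
      rwa [hEc] at h1
    have hB : Degen G ((verts E \ Finset.univ.image y') \ X') (2 * p - 1) :=
      hB0.mono (Finset.sdiff_subset.trans Finset.sdiff_subset)
    refine (hA.union hB (c2 := 3 * p) ?_ (by omega)).mono ?_
    · intro v hv
      rw [Finset.mem_sdiff, Finset.mem_sdiff] at hv
      obtain ⟨⟨hvE, -⟩, hvX⟩ := hv
      have hvX1 : v ∉ X1 := fun hh => hvX (by rw [hX']; exact Finset.mem_union_left _ hh)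
      obtain ⟨i, hi⟩ := (hRv v).1 hvE
      have h1 := hW2m v (hRW i v hi)
      have hvP : v ∉ (FS F S).biUnion id := by
        rw [hFSbi]
        push Not
        exact ⟨(h.Gam_sub h1.1).2.2, h1.2.1⟩
      have h2 := h.nb1 I a (h.Gam_sub h1.1).1 hvX1 hvP
      exact (nb_mono Finset.sdiff_subset v).trans h2
    · intro v hv
      rw [Finset.mem_sdiff, hF'u] at hv
      rw [Finset.mem_union, Finset.mem_sdiff, Finset.mem_sdiff, Finset.mem_sdiff, hFSbi]
      rcases hv.1 with h1 | h1 | ⟨i, h1, h2⟩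
      · exact Or.inl ⟨Or.inl h1, hv.2⟩
      · exact Or.inl ⟨Or.inr h1, hv.2⟩
      · refine Or.inr ⟨⟨(hRv v).2 ⟨i, h1⟩, ?_⟩, hv.2⟩
        intro hh
        rw [Finset.mem_image] at hh
        obtain ⟨j, -, hj⟩ := hh
        apply h2
        by_cases hij : i = j
        · rw [hij]; exact hj.symm
        · exfalso
          refine Finset.disjoint_left.1 (hRd i j hij) h1 ?_
          rw [← hj]
          exact (hR j).2.2.2.1
  · -- see
    intro v hv hvy
    obtain ⟨k1, k2, k3, k4, k5, k6⟩ := hGam' v hv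
    have hvP : v ∉ (FS F S).biUnion id := by
      rw [hFSbi]
      push Not
      exact ⟨(h.Gam_sub k4).2.2, k5⟩
    obtain ⟨h1, h2⟩ := h.see1 I a k1 k2 hvP
    have hvE : v ∉ verts E := by
      intro hh
      obtain ⟨i, hi⟩ := (hRv v).1 hh
      exact hvy i (k6 i hi)
    have hvW : v ∈ W2 := by
      rw [hW2, Finset.mem_sdiff, Finset.mem_sdiff]
      exact ⟨⟨k4, k5⟩, k3⟩
    constructor
    · have h3 := sees_union_le (G := G) (FS F S)
        (Finset.univ.image (fun i => (R i).erase (y' i))) v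
      have h4 : (Finset.univ.image (fun i => (R i).erase (y' i))).card ≤ p := by
        simpa using (Finset.card_image_le (s := (Finset.univ : Finset (Fin p)))
          (f := fun i => (R i).erase (y' i)))
      rw [← hF'] at h3
      omega
    · intro A hA
      rw [hF', Finset.mem_union] at hA
      rcases hA with hA | hA
      · exact h2 A hA
      · rw [Finset.mem_image] at hA
        obtain ⟨i, -, rfl⟩ := hA
        obtain ⟨l, hl, hRl⟩ := (hR i).2.2.2.2.2.2.2.2.2
        have h3 := I.BF2 _ _ _ _ hE v hvW hvE l hl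
        rw [← hRl] at h3
        exact (nb_mono (Finset.erase_subset _ _) v).trans h3

/-- the initial state. -/
theorem St.init (I : Inp G V0 p kc M d UB) (hk : 9 * p ≤ kc) (hp : 1 ≤ p) :
    ∃ U F H Z y T, St G V0 p kc M d 0 ∅ U F H Z y T := by
  have h0 : ¬ Choos G ((V0 \ ∅) \ ∅) kc := by
    refine I.COST ∅ ∅ (by simp) (by simp) (by simp) ?_ ?_
    · intro X hX hne
      rw [Finset.sdiff_empty, Finset.subset_empty] at hX
      rw [hX] at hne
      simp at hne
    · intro v _ _ _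
      unfold nb
      simp
  rw [Finset.sdiff_empty, Finset.sdiff_empty] at h0
  obtain ⟨H, Z, hH, hc⟩ := exists_crit h0 p
  have hcard : p ≤ (H \ Z).card := by
    have := hc.card_lt (by omega)
    omega
  obtain ⟨Y, hYs, hYc⟩ := Finset.exists_subset_card_eq hcard
  let ey := (Finset.equivFinOfCardEq hYc).symm
  refine ⟨Z, ∅, H, Z, fun i => (ey i : V), fun i => {(ey i : V)}, ?_⟩
  refine ⟨hc.sub.trans hH, ?_, by simp, by simp, by simp, hc, ?_, le_refl _, by simp, ?_, ?_,
    ?_, ?_, ?_, by simp, ?_, ?_⟩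
  · have := hc.card_le
    omega
  · intro v hv
    rw [Finset.mem_sdiff] at hv
    simp only [Finset.biUnion_empty, Finset.sdiff_empty, Finset.mem_sdiff]
    exact ⟨hH hv.1, hv.2⟩
  · intro i j hij
    exact ey.injective (Subtype.ext hij)
  · intro i
    exact hYs (ey i).2
  · intro i
    refine ⟨?_, conn_singleton _, Finset.mem_singleton_self _⟩
    rw [Finset.singleton_subset_iff]
    exact hH (Finset.mem_sdiff.1 (hYs (ey i).2)).1
  · intro i j hij
    rw [Finset.disjoint_singleton]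
    intro hh
    exact hij (ey.injective (Subtype.ext hh))
  · intro i v hv _
    rwa [Finset.mem_singleton] at hv
  · intro X hX hne
    simp only [Finset.biUnion_empty, Finset.empty_sdiff, Finset.subset_empty] at hX
    rw [hX] at hne
    simp at hne
  · intro v _ _
    refine ⟨?_, by simp⟩
    unfold sees
    simp

/-- CHAIN OF HUBS (sec 10.7). -/
theorem chain (I : Inp G V0 p kc M d UB) (hk : 9 * p ≤ kc) (hp : 1 ≤ p)
    (hUB : 2 * p + p ^ 2 * (M + 3 * p + 2 * d * p * (p ^ 2 + 1)) ≤ UB) :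
    ∃ B : Fin p → Finset V, (∀ i, B i ⊆ V0) ∧
      Crest.CombinatoricsR.GraphMinor.IsCliqueMinorModel G B := by
  have main : ∀ D : Finset (Fin p × Fin p), (∀ q ∈ D, q.1 ≠ q.2) →
      ∃ U F H Z y T, St G V0 p kc M d D.card D U F H Z y T := by
    intro D
    induction D using Finset.induction_on with
    | empty =>
      intro _
      simpa using St.init I hk hp
    | insert q D hq ih =>
      intro hD
      obtain ⟨U, F, H, Z, y, T, h⟩ := ih (fun q' hq' => hD q' (Finset.mem_insert_of_mem hq'))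
      have hcard : D.card + 1 ≤ p ^ 2 := by
        have h1 : (insert q D).card ≤ (Finset.univ : Finset (Fin p × Fin p)).card :=
          Finset.card_le_card (Finset.subset_univ _)
        rw [Finset.card_insert_of_notMem hq] at h1
        simp only [Finset.card_univ, Fintype.card_prod, Fintype.card_fin] at h1
        rw [pow_two]
        exact h1
      have hb : U.card + M + p + d * (2 * p * D.card + p) ≤ UB := by
        refine le_trans ?_ hUB
        have h4 := h.U_card
        have h5 : d * (2 * p * D.card + p) ≤ 2 * d * p * (D.card + 1) := by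
          nlinarith [Nat.zero_le (d * p)]
        have h6 : (D.card + 1) * (M + 3 * p + 2 * d * p * (D.card + 1)) ≤
            p ^ 2 * (M + 3 * p + 2 * d * p * (p ^ 2 + 1)) := by
          refine Nat.mul_le_mul hcard ?_
          refine Nat.add_le_add_left ?_ _
          refine Nat.mul_le_mul_left _ ?_
          omega
        have h7 : (D.card + 1) * (M + 3 * p + 2 * d * p * (D.card + 1)) =
          D.card * (M + 3 * p + 2 * d * p * (D.card + 1)) +
            (M + 3 * p + 2 * d * p * (D.card + 1)) := by ring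
        omega
      obtain ⟨U', F', H', Z', y', T', h'⟩ := h.stage I hk hp hb (x := q.1) (z := q.2)
        (hD q (Finset.mem_insert_self q D))
      refine ⟨U', F', H', Z', y', T', ?_⟩
      rw [Finset.card_insert_of_notMem hq]
      exact h'
  obtain ⟨U, F, H, Z, y, T, h⟩ := main (Finset.univ.filter (fun q => q.1 ≠ q.2)) (by simp)
  refine ⟨T, fun i => (h.T_sub i).1, ?_, h.T_disj, fun i => (h.T_sub i).2.1, ?_⟩
  · intro i
    exact ⟨_, (h.T_sub i).2.2⟩
  · intro i j hij
    exact h.T_adj (i, j) (by simp [hij])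

end Crest.Agent.R042.Chain374
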