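import Mathlib

/-! Row 42, sec (10.3): the numerical part of the small dense subgraph lemma. The potential
`psi x = x (1 - 1 / (2 (1 + log₂ (x^3))))`. -/

set_option autoImplicit false

namespace Crest.Agent.R042.SDnum667

/-- discrete logarithm -/
def ell (x : ℕ) : ℕ := Nat.log 2 (x ^ 3)

/-- the potential -/
def psi (x : ℕ) : ℚ := x * (1 - 1 / (2 * (1 + (ell x : ℚ))))

/-- number of binary digits -/
def dg (n : ℕ) : ℕ := Nat.log 2 n + 1

lemma lt_pow_dg (n : ℕ) : n < 2 ^ dg n := Nat.lt_pow_succ_log_self (by norm_num) n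

lemma pow_dg_le {n : ℕ} (hn : n ≠ 0) : 2 ^ (dg n - 1) ≤ n := by
  unfold dg
  simpa using Nat.pow_log_le_self 2 hn

lemma psi_ge (x : ℕ) : (x : ℚ) / 2 ≤ psi x := by
  unfold psi
  have h1 : (0 : ℚ) ≤ (ell x : ℚ) := Nat.cast_nonneg _
  have h2 : (1 : ℚ) / (2 * (1 + (ell x : ℚ))) ≤ 1 / 2 := by
    apply one_div_le_one_div_of_le (by norm_num)
    linarith
  have h3 : (0 : ℚ) ≤ (x : ℚ) := Nat.cast_nonneg _
  nlinarith

lemma psi_le (x : ℕ) : psi x ≤ x := by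
  unfold psi
  have h1 : (0 : ℚ) ≤ (ell x : ℚ) := Nat.cast_nonneg _
  have h2 : (0 : ℚ) ≤ 1 / (2 * (1 + (ell x : ℚ))) := by positivity
  have h3 : (0 : ℚ) ≤ (x : ℚ) := Nat.cast_nonneg _
  nlinarith

lemma ell_succ_le {a n : ℕ} (ha : 1 ≤ a) (h : 4 * a ≤ 3 * n) : ell a + 1 ≤ ell n := by
  unfold ell
  have h0 : a ^ 3 ≠ 0 := by positivity
  rw [← Nat.log_mul_base (by norm_num) h0]
  apply Nat.log_mono_right
  have h1 : (4 * a) ^ 3 ≤ (3 * n) ^ 3 := Nat.pow_le_pow_left h 3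
  have h2 : (4 * a) ^ 3 = 64 * a ^ 3 := by ring
  have h3 : (3 * n) ^ 3 = 27 * n ^ 3 := by ring
  omega

lemma ell_mono {b n : ℕ} (h : b ≤ n) : ell b ≤ ell n :=
  Nat.log_mono_right (Nat.pow_le_pow_left h 3)

lemma ell_lt (n : ℕ) : ell n + 1 ≤ 3 * dg n := by
  unfold ell
  by_cases hn : n = 0
  · subst hn
    simp [dg]
  · have h1 : n ^ 3 < 2 ^ (3 * dg n) := by
      have := Nat.pow_lt_pow_left (lt_pow_dg n) (n := 3) (by norm_num)
      rwa [← pow_mul, mul_comm] at this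
    exact Nat.log_lt_of_lt_pow (by positivity) h1

/-- the gain of the potential at a separation. -/
lemma gain {a b n s : ℕ} (ha : 1 ≤ a) (hab : a + b = n + s) (h4 : 4 * a ≤ 3 * n) (hb : b ≤ n)
    (h : psi n < psi a + psi b) : a < 18 * dg n ^ 2 * s := by
  have hl1 := ell_succ_le ha h4
  have hl2 := ell_mono hb
  have hl3 := ell_lt n
  have e1 : (ell a : ℚ) + 1 ≤ ell n := by exact_mod_cast hl1
  have e2 : (ell b : ℚ) ≤ ell n := by exact_mod_cast hl2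
  have e3 : (ell n : ℚ) + 1 ≤ 3 * dg n := by exact_mod_cast hl3
  have eab : (a : ℚ) + b = n + s := by exact_mod_cast hab
  have ha0 : (1 : ℚ) ≤ a := by exact_mod_cast ha
  have hs0 : (0 : ℚ) ≤ s := Nat.cast_nonneg _
  have hb0 : (0 : ℚ) ≤ b := Nat.cast_nonneg _
  have ha1 : (0 : ℚ) ≤ ell a := Nat.cast_nonneg _
  have hb1 : (0 : ℚ) ≤ ell b := Nat.cast_nonneg _
  set L : ℚ := (ell n : ℚ) with hL
  have hLpos : (0 : ℚ) < L := by linarith
  have ga : 1 / (2 * L) ≤ 1 / (2 * (1 + (ell a : ℚ))) := by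
    apply one_div_le_one_div_of_le (by positivity)
    linarith
  have gb : 1 / (2 * (1 + L)) ≤ 1 / (2 * (1 + (ell b : ℚ))) := by
    apply one_div_le_one_div_of_le (by positivity)
    linarith
  have hd : 1 / (2 * (1 + L) ^ 2) ≤ 1 / (2 * L) - 1 / (2 * (1 + L)) := by
    have : 1 / (2 * L) - 1 / (2 * (1 + L)) = 1 / (2 * (L * (1 + L))) := by
      field_simp
      ring
    rw [this]
    apply one_div_le_one_div_of_le (by positivity)
    nlinarith
  unfold psi at h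
  rw [← hL] at h
  have k1 : (a : ℚ) * (1 / (2 * L)) ≤ a * (1 / (2 * (1 + (ell a : ℚ)))) :=
    mul_le_mul_of_nonneg_left ga (by linarith)
  have k2 : (b : ℚ) * (1 / (2 * (1 + L))) ≤ b * (1 / (2 * (1 + (ell b : ℚ)))) :=
    mul_le_mul_of_nonneg_left gb hb0
  have k3 : (a : ℚ) * (1 / (2 * (1 + L) ^ 2)) ≤ a * (1 / (2 * L) - 1 / (2 * (1 + L))) :=
    mul_le_mul_of_nonneg_left hd (by linarith)
  have k4 : (0 : ℚ) ≤ s * (1 / (2 * (1 + L))) := by positivity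
  have k5 : (a : ℚ) * (1 / (2 * (1 + L) ^ 2)) < s := by
    have hn' : (n : ℚ) = a + b - s := by linarith
    rw [hn'] at h
    nlinarith
  have hpos : (0 : ℚ) < 2 * (1 + L) ^ 2 := by positivity
  have k6 : (a : ℚ) < s * (2 * (1 + L) ^ 2) := by
    rw [mul_one_div, div_lt_iff₀ hpos] at k5
    exact k5
  have k7 : (2 : ℚ) * (1 + L) ^ 2 ≤ 18 * (dg n : ℚ) ^ 2 := by
    nlinarith
  have k8 : (a : ℚ) < 18 * (dg n : ℚ) ^ 2 * s := by
    calc (a : ℚ) < s * (2 * (1 + L) ^ 2) := k6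
      _ ≤ s * (18 * (dg n : ℚ) ^ 2) := mul_le_mul_of_nonneg_left k7 hs0
      _ = 18 * (dg n : ℚ) ^ 2 * s := by ring
  exact_mod_cast k8

lemma seventh {m : ℕ} (hm : 64 ≤ m) : (m + 1) ^ 7 ≤ 2 * m ^ 7 := by
  obtain ⟨k, rfl⟩ := Nat.exists_eq_add_of_le hm
  ring_nf
  have h1 : 0 ≤ k := Nat.zero_le _
  nlinarith [Nat.zero_le (k ^ 2), Nat.zero_le (k ^ 3), Nat.zero_le (k ^ 4), Nat.zero_le (k ^ 5),
    Nat.zero_le (k ^ 6), Nat.zero_le (k ^ 7)]

lemma pow_ge {m : ℕ} (hm : 64 ≤ m) : 60000 * m ^ 7 ≤ 2 ^ (m - 1) := by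
  induction m, hm using Nat.le_induction with
  | base => norm_num
  | succ m hm ih =>
    have h1 := seventh hm
    have h2 : 2 ^ (m + 1 - 1) = 2 * 2 ^ (m - 1) := by
      rw [← pow_succ']
      congr 1
      omega
    rw [h2]
    omega

end Crest.Agent.R042.SDnum667
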