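import Mathlib
import Crest.Agent.R042.Conn_353
import Crest.Agent.R042.SDnum_667

/-! Row 42, sec (10.3): neighbourhoods, edge counts, balls, and the enlargement step of the
Plotkin-Rao-Smith argument. -/

set_option autoImplicit false

namespace Crest.Agent.R042.SDstep667

open Finset SimpleGraph Conn353
open scoped Classical

variable {V : Type*} {G : SimpleGraph V}

/-- number of ordered adjacent pairs inside `S`. -/
noncomputable def ep (G : SimpleGraph V) (S : Finset V) : ℕ :=
  ∑ v ∈ S, (S.filter (fun w => G.Adj v w)).card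

/-- neighbours of `X` in `J`, outside `X`. -/
noncomputable def nb (G : SimpleGraph V) (J X : Finset V) : Finset V :=
  (J \ X).filter (fun v => ∃ u ∈ X, G.Adj u v)

lemma mem_nb {J X : Finset V} {v : V} :
    v ∈ nb G J X ↔ v ∈ J ∧ v ∉ X ∧ ∃ u ∈ X, G.Adj u v := by
  simp [nb, and_assoc]

lemma ep_eq (S : Finset V) : ep G S = ((S ×ˢ S).filter (fun p => G.Adj p.1 p.2)).card := by
  unfold ep
  rw [card_filter, sum_product]
  refine sum_congr rfl fun v _ => ?_
  rw [card_filter]

/-- every edge of `J` is inside `X ∪ nb X` or inside `J \ X`. -/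
lemma ep_le (J X : Finset V) :
    ep G J ≤ ep G (X ∪ nb G J X) + ep G (J \ X) := by
  rw [ep_eq, ep_eq, ep_eq]
  refine le_trans (card_le_card ?_) (card_union_le _ _)
  intro p hp
  rw [mem_filter, mem_product] at hp
  obtain ⟨⟨h1, h2⟩, h3⟩ := hp
  rw [mem_union, mem_filter, mem_filter, mem_product, mem_product]
  by_cases hx : p.1 ∈ X
  · left
    refine ⟨⟨mem_union_left _ hx, ?_⟩, h3⟩
    by_cases hy : p.2 ∈ X
    · exact mem_union_left _ hy
    · exact mem_union_right _ (mem_nb.2 ⟨h2, hy, p.1, hx, h3⟩)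
  · by_cases hy : p.2 ∈ X
    · left
      exact ⟨⟨mem_union_right _ (mem_nb.2 ⟨h1, hx, p.2, hy, h3.symm⟩), mem_union_left _ hy⟩, h3⟩
    · right
      exact ⟨⟨mem_sdiff.2 ⟨h1, hx⟩, mem_sdiff.2 ⟨h2, hy⟩⟩, h3⟩

lemma nb_subset {J X : Finset V} : nb G J X ⊆ J := fun _ h => (mem_nb.1 h).1

lemma disj_nb {J X : Finset V} : Disjoint X (nb G J X) := by
  rw [Finset.disjoint_right]
  intro v hv
  exact (mem_nb.1 hv).2.1

/-- iterated balls. -/
noncomputable def ball (G : SimpleGraph V) (W : Finset V) (y : V) : ℕ → Finset V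
  | 0 => {y}
  | r + 1 => ball G W y r ∪ nb G W (ball G W y r)

lemma ball_subset {W : Finset V} {y : V} (hy : y ∈ W) : ∀ r, ball G W y r ⊆ W
  | 0 => by simpa [ball] using hy
  | r + 1 => union_subset (ball_subset hy r) nb_subset

lemma ball_nonempty {W : Finset V} {y : V} : ∀ r, (ball G W y r).Nonempty
  | 0 => by simp [ball]
  | r + 1 => (ball_nonempty r).mono subset_union_left

/-- vertices of a ball are joined to the centre by a small connected set. -/
lemma ball_conn {W : Finset V} {y : V} (hy : y ∈ W) : ∀ r, ∀ z ∈ ball G W y r,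
    ∃ P : Finset V, P ⊆ W ∧ Conn G P ∧ y ∈ P ∧ z ∈ P ∧ P.card ≤ r + 1
  | 0 => by
    intro z hz
    simp only [ball, mem_singleton] at hz
    subst hz
    exact ⟨{z}, by simpa using hy, conn_singleton z, by simp, by simp, by simp⟩
  | r + 1 => by
    intro z hz
    rcases mem_union.1 hz with h | h
    · obtain ⟨P, h1, h2, h3, h4, h5⟩ := ball_conn hy r z h
      exact ⟨P, h1, h2, h3, h4, by omega⟩
    · obtain ⟨hzW, hz2, u, hu, huz⟩ := mem_nb.1 h
      obtain ⟨P, h1, h2, h3, h4, h5⟩ := ball_conn hy r u hu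
      refine ⟨insert z P, ?_, h2.insert_adj h4 huz, by simp [h3], by simp, ?_⟩
      · intro w hw
        rcases mem_insert.1 hw with rfl | hw
        · exact hzW
        · exact h1 hw
      · exact (card_insert_le _ _).trans (by omega)

/-- ball growth. -/
lemma ball_growth {W : Finset V} {y : V} (hy : y ∈ W) {n q : ℕ}
    (hexp : ∀ Y : Finset V, Y ⊆ W → Y.Nonempty → 2 * Y.card ≤ n →
      Y.card < 2 * q * (nb G W Y).card) :
    ∀ r, n < 2 * (ball G W y r).card ∨ (2 * q + 1) ^ r ≤ (2 * q) ^ r * (ball G W y r).card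
  | 0 => by right; simp [ball]
  | r + 1 => by
    have hcard : (ball G W y (r + 1)).card =
        (ball G W y r).card + (nb G W (ball G W y r)).card :=
      card_union_of_disjoint disj_nb
    rcases ball_growth hy hexp r with h | h
    · left
      rw [hcard]; omega
    · by_cases h2 : n < 2 * (ball G W y r).card
      · left
        rw [hcard]; omega
      · right
        have h3 := hexp (ball G W y r) (ball_subset hy r) (ball_nonempty r) (by omega)
        rw [hcard]
        set b := (ball G W y r).card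
        set c := (nb G W (ball G W y r)).card
        have h4 : (2 * q + 1) * b ≤ 2 * q * (b + c) := by nlinarith
        calc (2 * q + 1) ^ (r + 1) = (2 * q + 1) ^ r * (2 * q + 1) := pow_succ _ _
          _ ≤ ((2 * q) ^ r * b) * (2 * q + 1) := Nat.mul_le_mul_right _ h
          _ = (2 * q) ^ r * ((2 * q + 1) * b) := by ring
          _ ≤ (2 * q) ^ r * (2 * q * (b + c)) := Nat.mul_le_mul_left _ h4
          _ = (2 * q) ^ (r + 1) * (b + c) := by rw [pow_succ]; ring

/-- Bernoulli. -/
lemma bern (q m : ℕ) (hq : 1 ≤ q) :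
    2 ^ m * (2 * q) ^ (2 * q * m) ≤ (2 * q + 1) ^ (2 * q * m) := by
  have h1 : 2 * (2 * q) ^ (2 * q) ≤ (2 * q + 1) ^ (2 * q) := by
    have h := one_add_mul_le_pow (a := (1 : ℚ) / (2 * q)) (by
      have : (0 : ℚ) ≤ 1 / (2 * q) := by positivity
      linarith) (2 * q)
    have hq0 : (0 : ℚ) < 2 * q := by
      have : (1 : ℚ) ≤ q := by exact_mod_cast hq
      linarith
    have h2 : (1 : ℚ) + ((2 * q : ℕ) : ℚ) * (1 / (2 * q)) = 2 := by
      push_cast
      field_simp
      norm_num
    rw [h2] at h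
    have h3 : (1 : ℚ) + 1 / (2 * q) = (2 * q + 1) / (2 * q) := by
      field_simp
    rw [h3, div_pow, le_div_iff₀ (by positivity)] at h
    exact_mod_cast h
  calc 2 ^ m * (2 * q) ^ (2 * q * m) = (2 * (2 * q) ^ (2 * q)) ^ m := by
        rw [mul_pow 2 ((2 * q) ^ (2 * q)) m, ← pow_mul]
    _ ≤ ((2 * q + 1) ^ (2 * q)) ^ m := Nat.pow_le_pow_left h1 m
    _ = (2 * q + 1) ^ (2 * q * m) := by rw [← pow_mul]

/-- any two vertices are joined by a small connected set in an expander. -/
lemma small_conn {W : Finset V} {n q m : ℕ} (hq : 1 ≤ q) (hW : W.card ≤ n) (hm : n < 2 ^ m)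
    (hexp : ∀ Y : Finset V, Y ⊆ W → Y.Nonempty → 2 * Y.card ≤ n →
      Y.card < 2 * q * (nb G W Y).card) {y z : V} (hy : y ∈ W) (hz : z ∈ W) :
    ∃ P : Finset V, P ⊆ W ∧ Conn G P ∧ y ∈ P ∧ z ∈ P ∧ P.card ≤ 2 * (2 * q * m) + 2 := by
  have key : ∀ x ∈ W, n < 2 * (ball G W x (2 * q * m)).card := by
    intro x hx
    rcases ball_growth hx hexp (2 * q * m) with h | h
    · exact h
    · exfalso
      have h1 := bern q m hq
      have h2 : (ball G W x (2 * q * m)).card ≤ n := (card_le_card (ball_subset hx _)).trans hW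
      have h3 : 0 < (2 * q) ^ (2 * q * m) := by positivity
      have h4 : 2 ^ m * (2 * q) ^ (2 * q * m) ≤ n * (2 * q) ^ (2 * q * m) := by
        calc 2 ^ m * (2 * q) ^ (2 * q * m) ≤ (2 * q) ^ (2 * q * m) *
              (ball G W x (2 * q * m)).card := h1.trans h
          _ ≤ (2 * q) ^ (2 * q * m) * n := Nat.mul_le_mul_left _ h2
          _ = n * (2 * q) ^ (2 * q * m) := mul_comm _ _
      have h5 := Nat.le_of_mul_le_mul_right h4 h3
      omega
  have h1 := key y hy
  have h2 := key z hz
  have h3 : ¬ Disjoint (ball G W y (2 * q * m)) (ball G W z (2 * q * m)) := by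
    intro hd
    have h4 := card_union_of_disjoint hd
    have h5 : (ball G W y (2 * q * m) ∪ ball G W z (2 * q * m)).card ≤ n :=
      (card_le_card (union_subset (ball_subset hy _) (ball_subset hz _))).trans hW
    omega
  rw [Finset.not_disjoint_iff] at h3
  obtain ⟨x, hx1, hx2⟩ := h3
  obtain ⟨P, p1, p2, p3, p4, p5⟩ := ball_conn hy _ x hx1
  obtain ⟨Q, q1, q2, q3, q4, q5⟩ := ball_conn hz _ x hx2
  refine ⟨P ∪ Q, union_subset p1 q1, p2.union q2 p4 q4, mem_union_left _ p3,
    mem_union_right _ q3, (card_union_le _ _).trans (by omega)⟩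

end Crest.Agent.R042.SDstep667
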