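import Mathlib
import Crest.Prelude.Def_CliqueMinor
import Crest.Agent.R042.SDstep_667

/-! Row 42, sec (10.3): a graph all of whose vertex sets of size at most `2n/3` expand contains a
large clique minor (Plotkin-Rao-Smith argument). -/

set_option autoImplicit false

namespace Crest.Agent.R042.SDprs667

open Finset SimpleGraph Conn353 SDstep667
open scoped Classical

variable {V : Type*} {G : SimpleGraph V}

/-- a state of the procedure: a model `M` and a set `X` nearly cut off by `M`. -/
structure St (G : SimpleGraph V) (J : Finset V) (q s0 : ℕ) (M : Finset (Finset V))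
    (X : Finset V) : Prop where
  subM : ∀ B ∈ M, B ⊆ J
  conn : ∀ B ∈ M, Conn G B
  small : ∀ B ∈ M, B.card ≤ s0
  disj : ∀ B ∈ M, ∀ B' ∈ M, B ≠ B' → Disjoint B B'
  adj : ∀ B ∈ M, ∀ B' ∈ M, B ≠ B' → ∃ x ∈ B, ∃ y ∈ B', G.Adj x y
  subX : X ⊆ J
  dX : ∀ B ∈ M, Disjoint B X
  cut : 2 * q * (nb G J X \ M.biUnion id).card ≤ X.card
  half : 3 * X.card ≤ 2 * J.card

variable {J : Finset V} {q s0 h m : ℕ} {M : Finset (Finset V)} {X : Finset V}

lemma St.card_U (hS : St G J q s0 M X) (hM : M.card ≤ h) : (M.biUnion id).card ≤ h * s0 :=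
  (card_biUnion_le_card_mul M id s0 hS.small).trans (Nat.mul_le_mul_right _ hM)

lemma St.card_X (hS : St G J q s0 M X) (hM : M.card ≤ h)
    (hE : ∀ Y : Finset V, Y ⊆ J → Y.Nonempty → 3 * Y.card ≤ 2 * J.card →
      Y.card < q * (nb G J Y).card) : X.card ≤ 2 * q * (h * s0) := by
  rcases X.eq_empty_or_nonempty with rfl | hne
  · simp
  · have h1 := hE X hS.subX hne hS.half
    have h2 : (nb G J X).card ≤ (nb G J X \ M.biUnion id).card + (M.biUnion id).card := by
      have := card_le_card (show nb G J X ⊆ (nb G J X \ M.biUnion id) ∪ M.biUnion id by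
        intro v hv
        by_cases h : v ∈ M.biUnion id
        · exact mem_union_right _ h
        · exact mem_union_left _ (mem_sdiff.2 ⟨hv, h⟩))
      exact this.trans (card_union_le _ _)
    have h3 := hS.card_U hM
    have h4 := hS.cut
    have h5 : q * (nb G J X).card ≤ q * ((nb G J X \ M.biUnion id).card + h * s0) :=
      Nat.mul_le_mul_left _ (h2.trans (by omega))
    nlinarith

/-- the free part. -/
noncomputable def free (G : SimpleGraph V) (J : Finset V) (M : Finset (Finset V))
    (X : Finset V) : Finset V := J \ (X ∪ nb G J X ∪ M.biUnion id)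

lemma mem_free {v : V} : v ∈ free G J M X ↔ v ∈ J ∧ v ∉ X ∧ v ∉ nb G J X ∧ ∀ B ∈ M, v ∉ B := by
  simp only [free, mem_sdiff, mem_union, mem_biUnion, id, not_or, not_exists, not_and]
  constructor
  · rintro ⟨h1, ⟨h2, h3⟩, h4⟩
    exact ⟨h1, h2, h3, h4⟩
  · rintro ⟨h1, h2, h3, h4⟩
    exact ⟨h1, ⟨h2, h3⟩, h4⟩

/-- throw away a branch set with few neighbours in the free part. -/
lemma step_a (hS : St G J q s0 M X) {B : Finset V} (hB : B ∈ M)
    (hcut : 2 * q * ((free G J M X).filter (fun v => ∃ u ∈ B, G.Adj u v)).card ≤ B.card)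
    (hsz : 3 * (X.card + B.card) ≤ 2 * J.card) : St G J q s0 (M.erase B) (X ∪ B) := by
  have hcd : (X ∪ B).card = X.card + B.card := card_union_of_disjoint (hS.dX B hB).symm
  refine ⟨fun C hC => hS.subM C (mem_of_mem_erase hC), fun C hC => hS.conn C (mem_of_mem_erase hC),
    fun C hC => hS.small C (mem_of_mem_erase hC),
    fun C hC C' hC' => hS.disj C (mem_of_mem_erase hC) C' (mem_of_mem_erase hC'),
    fun C hC C' hC' => hS.adj C (mem_of_mem_erase hC) C' (mem_of_mem_erase hC'),
    union_subset hS.subX (hS.subM B hB), ?_, ?_, by rw [hcd]; exact hsz⟩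
  · intro C hC
    rw [Finset.disjoint_union_right]
    exact ⟨hS.dX C (mem_of_mem_erase hC),
      hS.disj C (mem_of_mem_erase hC) B hB (ne_of_mem_erase hC)⟩
  · rw [hcd]
    have h1 : nb G J (X ∪ B) \ (M.erase B).biUnion id ⊆ (nb G J X \ M.biUnion id) ∪
        (free G J M X).filter (fun v => ∃ u ∈ B, G.Adj u v) := by
      intro v hv
      rw [mem_sdiff, mem_nb] at hv
      obtain ⟨⟨hvJ, hvn, u, hu, huv⟩, hvM⟩ := hv
      rw [mem_union, not_or] at hvn
      have hvM' : ∀ C ∈ M, v ∉ C := by
        intro C hC hvC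
        by_cases hCB : C = B
        · subst hCB; exact hvn.2 hvC
        · exact hvM (mem_biUnion.2 ⟨C, mem_erase.2 ⟨hCB, hC⟩, hvC⟩)
      by_cases hvX : v ∈ nb G J X
      · refine mem_union_left _ (mem_sdiff.2 ⟨hvX, ?_⟩)
        intro hc
        obtain ⟨C, hC, hvC⟩ := mem_biUnion.1 hc
        exact hvM' C hC hvC
      · refine mem_union_right _ (mem_filter.2 ⟨mem_free.2 ⟨hvJ, hvn.1, hvX, hvM'⟩, u, ?_, huv⟩)
        rcases mem_union.1 hu with h | h
        · exact absurd (mem_nb.2 ⟨hvJ, hvn.1, u, h, huv⟩) hvX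
        · exact h
    have h2 := (card_le_card h1).trans (card_union_le _ _)
    have h3 := hS.cut
    calc 2 * q * (nb G J (X ∪ B) \ (M.erase B).biUnion id).card
        ≤ 2 * q * ((nb G J X \ M.biUnion id).card +
          ((free G J M X).filter (fun v => ∃ u ∈ B, G.Adj u v)).card) := Nat.mul_le_mul_left _ h2
      _ = 2 * q * (nb G J X \ M.biUnion id).card +
          2 * q * ((free G J M X).filter (fun v => ∃ u ∈ B, G.Adj u v)).card := by ring
      _ ≤ X.card + B.card := Nat.add_le_add h3 hcut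

/-- enlarge `X` by a set with few neighbours in the free part. -/
lemma step_b (hS : St G J q s0 M X) {Y : Finset V} (hY : Y ⊆ free G J M X)
    (hcut : 2 * q * (nb G (free G J M X) Y).card ≤ Y.card)
    (hsz : 3 * (X.card + Y.card) ≤ 2 * J.card) : St G J q s0 M (X ∪ Y) := by
  have hXY : Disjoint X Y := by
    rw [Finset.disjoint_right]
    intro v hv
    exact (mem_free.1 (hY hv)).2.1
  have hcd : (X ∪ Y).card = X.card + Y.card := card_union_of_disjoint hXY
  refine ⟨hS.subM, hS.conn, hS.small, hS.disj, hS.adj,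
    union_subset hS.subX (fun v hv => (mem_free.1 (hY hv)).1), ?_, ?_, by rw [hcd]; exact hsz⟩
  · intro C hC
    rw [Finset.disjoint_union_right]
    refine ⟨hS.dX C hC, ?_⟩
    rw [Finset.disjoint_right]
    intro v hv
    exact (mem_free.1 (hY hv)).2.2.2 C hC
  · rw [hcd]
    have h1 : nb G J (X ∪ Y) \ M.biUnion id ⊆ (nb G J X \ M.biUnion id) ∪
        nb G (free G J M X) Y := by
      intro v hv
      rw [mem_sdiff, mem_nb] at hv
      obtain ⟨⟨hvJ, hvn, u, hu, huv⟩, hvM⟩ := hv
      rw [mem_union, not_or] at hvn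
      by_cases hvX : v ∈ nb G J X
      · exact mem_union_left _ (mem_sdiff.2 ⟨hvX, hvM⟩)
      · have hvM' : ∀ C ∈ M, v ∉ C := fun C hC hvC => hvM (mem_biUnion.2 ⟨C, hC, hvC⟩)
        refine mem_union_right _ (mem_nb.2 ⟨mem_free.2 ⟨hvJ, hvn.1, hvX, hvM'⟩, hvn.2, u, ?_, huv⟩)
        rcases mem_union.1 hu with h | h
        · exact absurd (mem_nb.2 ⟨hvJ, hvn.1, u, h, huv⟩) hvX
        · exact h
    have h2 := (card_le_card h1).trans (card_union_le _ _)
    have h3 := hS.cut
    calc 2 * q * (nb G J (X ∪ Y) \ M.biUnion id).card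
        ≤ 2 * q * ((nb G J X \ M.biUnion id).card + (nb G (free G J M X) Y).card) :=
          Nat.mul_le_mul_left _ h2
      _ = 2 * q * (nb G J X \ M.biUnion id).card + 2 * q * (nb G (free G J M X) Y).card := by ring
      _ ≤ X.card + Y.card := Nat.add_le_add h3 hcut

/-- add a new branch set inside the free part. -/
lemma step_c (hS : St G J q s0 M X) {T : Finset V} (hT : T ⊆ free G J M X)
    (hc : Conn G T) (hcard : T.card ≤ s0) (hadj : ∀ B ∈ M, ∃ x ∈ B, ∃ y ∈ T, G.Adj x y) :
    St G J q s0 (insert T M) X := by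
  have hd : ∀ B ∈ M, Disjoint T B := by
    intro B hB
    rw [Finset.disjoint_left]
    intro v hv
    exact (mem_free.1 (hT hv)).2.2.2 B hB
  refine ⟨?_, ?_, ?_, ?_, ?_, hS.subX, ?_, ?_, hS.half⟩
  · intro B hB
    rcases mem_insert.1 hB with rfl | hB
    · exact fun v hv => (mem_free.1 (hT hv)).1
    · exact hS.subM B hB
  · intro B hB
    rcases mem_insert.1 hB with rfl | hB
    · exact hc
    · exact hS.conn B hB
  · intro B hB
    rcases mem_insert.1 hB with rfl | hB
    · exact hcard
    · exact hS.small B hB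
  · intro B hB B' hB' hne
    rcases mem_insert.1 hB with h1 | h1 <;> rcases mem_insert.1 hB' with h2 | h2
    · exact absurd (h1.trans h2.symm) hne
    · rw [h1]; exact hd B' h2
    · rw [h2]; exact (hd B h1).symm
    · exact hS.disj B h1 B' h2 hne
  · intro B hB B' hB' hne
    rcases mem_insert.1 hB with h1 | h1 <;> rcases mem_insert.1 hB' with h2 | h2
    · exact absurd (h1.trans h2.symm) hne
    · obtain ⟨x, hx, y, hy, hxy⟩ := hadj B' h2
      rw [h1]
      exact ⟨y, hy, x, hx, hxy.symm⟩
    · rw [h2]; exact hadj B h1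
    · exact hS.adj B h1 B' h2 hne
  · intro B hB
    rcases mem_insert.1 hB with rfl | hB
    · rw [Finset.disjoint_left]
      intro v hv
      exact (mem_free.1 (hT hv)).2.1
    · exact hS.dX B hB
  · refine le_trans (Nat.mul_le_mul_left _ (card_le_card ?_)) hS.cut
    intro v hv
    rw [mem_sdiff] at hv ⊢
    refine ⟨hv.1, fun h => hv.2 ?_⟩
    obtain ⟨B, hB, hvB⟩ := mem_biUnion.1 h
    exact mem_biUnion.2 ⟨B, mem_insert_of_mem hB, hvB⟩

/-- one step of the procedure. -/
lemma step (hS : St G J q s0 M X) (hM : M.card ≤ h) (hq : 1 ≤ q) (hh : 1 ≤ h)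
    (hm : J.card < 2 ^ m) (hs0 : 1 + h * (2 * (2 * q * m) + 2) ≤ s0)
    (hn : 24 * (q * (h * s0)) ≤ J.card)
    (hE : ∀ Y : Finset V, Y ⊆ J → Y.Nonempty → 3 * Y.card ≤ 2 * J.card →
      Y.card < q * (nb G J Y).card) :
    ∃ M' X', St G J q s0 M' X' ∧ X.card * (h + 2) + M.card < X'.card * (h + 2) + M'.card := by
  have hX := hS.card_X hM hE
  have hU := hS.card_U hM
  have hs1 : s0 ≤ h * s0 := Nat.le_mul_of_pos_left _ hh
  have hs2 : h * s0 ≤ q * (h * s0) := Nat.le_mul_of_pos_left _ hq
  have hX' : X.card ≤ 2 * (q * (h * s0)) := by rw [← mul_assoc]; exact hX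
  by_cases ha : ∃ B ∈ M, 2 * q *
      ((free G J M X).filter (fun v => ∃ u ∈ B, G.Adj u v)).card ≤ B.card
  · obtain ⟨B, hB, hcut⟩ := ha
    have hBs := hS.small B hB
    refine ⟨M.erase B, X ∪ B, step_a hS hB hcut (by omega), ?_⟩
    have hcd : (X ∪ B).card = X.card + B.card := card_union_of_disjoint (hS.dX B hB).symm
    have h1 : 1 ≤ B.card := (hS.conn B hB).nonempty.card_pos
    have h2 : (M.erase B).card + 1 = M.card := card_erase_add_one hB
    rw [hcd]
    nlinarith
  · push Not at ha
    by_cases hb : ∃ Y : Finset V, Y ⊆ free G J M X ∧ Y.Nonempty ∧ 2 * Y.card ≤ J.card ∧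
        2 * q * (nb G (free G J M X) Y).card ≤ Y.card
    · obtain ⟨Y, hY, hYne, hY2, hcut⟩ := hb
      refine ⟨M, X ∪ Y, step_b hS hY hcut (by omega), ?_⟩
      have hXY : Disjoint X Y := by
        rw [Finset.disjoint_right]
        intro v hv
        exact (mem_free.1 (hY hv)).2.1
      have hcd : (X ∪ Y).card = X.card + Y.card := card_union_of_disjoint hXY
      have h1 : 1 ≤ Y.card := hYne.card_pos
      rw [hcd]
      nlinarith
    · push Not at hb
      have hW : (free G J M X).card ≤ J.card := card_le_card (fun v hv => (mem_free.1 hv).1)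
      -- a vertex in the free part
      have hne : (free G J M X).Nonempty := by
        by_contra hcon
        rw [Finset.not_nonempty_iff_eq_empty] at hcon
        have hsub : J ⊆ X ∪ (nb G J X \ M.biUnion id) ∪ M.biUnion id := by
          intro v hv
          by_contra hv'
          rw [mem_union, mem_union, mem_sdiff, not_or, not_or] at hv'
          have : v ∈ free G J M X := by
            rw [mem_free]
            refine ⟨hv, hv'.1.1, fun h => hv'.1.2 ⟨h, hv'.2⟩, fun B hB hvB => hv'.2 ?_⟩
            exact mem_biUnion.2 ⟨B, hB, hvB⟩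
          rw [hcon] at this
          exact absurd this (notMem_empty v)
        have h1 := card_le_card hsub
        have h2 := card_union_le (X ∪ (nb G J X \ M.biUnion id)) (M.biUnion id)
        have h3 := card_union_le X (nb G J X \ M.biUnion id)
        have h4 : (nb G J X \ M.biUnion id).card ≤ X.card := by
          refine le_trans ?_ hS.cut
          exact Nat.le_mul_of_pos_left _ (by omega)
        have h5 : 0 < s0 := by omega
        have h6 : 0 < h * s0 := Nat.mul_pos hh h5
        omega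
      obtain ⟨y, hy⟩ := hne
      have hN : ∀ B ∈ M, ∃ z ∈ free G J M X, ∃ u ∈ B, G.Adj u z := by
        intro B hB
        have h1 := ha B hB
        have h2 : 0 < ((free G J M X).filter (fun v => ∃ u ∈ B, G.Adj u v)).card := by
          rw [Nat.pos_iff_ne_zero]
          intro h0
          rw [h0] at h1
          omega
        obtain ⟨z, hz⟩ := card_pos.1 h2
        rw [mem_filter] at hz
        exact ⟨z, hz.1, hz.2⟩
      have hP : ∀ B : Finset V, ∃ P : Finset V, B ∈ M → (P ⊆ free G J M X ∧ Conn G P ∧ y ∈ P ∧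
          (∃ z ∈ P, ∃ u ∈ B, G.Adj u z) ∧ P.card ≤ 2 * (2 * q * m) + 2) := by
        intro B
        by_cases hB : B ∈ M
        · obtain ⟨z, hz, u, hu, huz⟩ := hN B hB
          obtain ⟨P, p1, p2, p3, p4, p5⟩ := small_conn hq hW hm
            (fun Y h1 h2 h3 => hb Y h1 h2 h3) hy hz
          exact ⟨P, fun _ => ⟨p1, p2, p3, ⟨z, p4, u, hu, huz⟩, p5⟩⟩
        · exact ⟨∅, fun h => absurd h hB⟩
      choose P hP using hP
      set T : Finset V := {y} ∪ M.biUnion P with hT
      have hTsub : T ⊆ free G J M X := by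
        intro v hv
        rcases mem_union.1 hv with h | h
        · rw [mem_singleton] at h; rw [h]; exact hy
        · obtain ⟨B, hB, hvB⟩ := mem_biUnion.1 h
          exact (hP B hB).1 hvB
      have hTc : Conn G T := by
        refine conn_biUnion M P {y} (conn_singleton y) (fun B hB => (hP B hB).2.1) ?_
        intro B hB
        exact ⟨y, mem_singleton_self y, y, (hP B hB).2.2.1, Or.inl rfl⟩
      have hTcard : T.card ≤ s0 := by
        refine (card_union_le _ _).trans ?_
        have h1 : (M.biUnion P).card ≤ M.card * (2 * (2 * q * m) + 2) :=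
          card_biUnion_le_card_mul M P _ (fun B hB => (hP B hB).2.2.2.2)
        have h2 : M.card * (2 * (2 * q * m) + 2) ≤ h * (2 * (2 * q * m) + 2) :=
          Nat.mul_le_mul_right _ hM
        rw [card_singleton]
        omega
      have hTadj : ∀ B ∈ M, ∃ x ∈ B, ∃ y ∈ T, G.Adj x y := by
        intro B hB
        obtain ⟨z, hz, u, hu, huz⟩ := (hP B hB).2.2.2.1
        exact ⟨u, hu, z, mem_union_right _ (mem_biUnion.2 ⟨B, hB, hz⟩), huz⟩
      refine ⟨insert T M, X, step_c hS hTsub hTc hTcard hTadj, ?_⟩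
      have hTM : T ∉ M := by
        intro hTM
        obtain ⟨v, hv⟩ := hTc.nonempty
        exact (mem_free.1 (hTsub hv)).2.2.2 T hTM hv
      rw [card_insert_of_notMem hTM]
      omega

end Crest.Agent.R042.SDprs667
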