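import Mathlib
import Crest.Prelude.Def_CliqueMinor
import Crest.Agent.R042.SDprs_667

/-! Row 42, sec (10.3): SMALL DENSE SUBGRAPH. A graph without `K_{h+1}` minor and with
`|E| ≥ D |V|` has a subgraph on at most `2 ^ (64 h)` vertices with `|E| ≥ (D/2) |V|`. -/

set_option autoImplicit false

namespace Crest.Agent.R042.SmallDense667

open Finset SimpleGraph Conn353 SDstep667 SDprs667 SDnum667
open Crest.CombinatoricsR.GraphMinor
open scoped Classical

variable {V : Type*} {G : SimpleGraph V}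

/-- a state with `h+1` branch sets is a `K_{h+1}` model. -/
lemma card_le_of_no {J W : Finset V} {q s0 h : ℕ} (hJW : J ⊆ W)
    (hno : ∀ B : Fin (h + 1) → Finset V, (∀ i, B i ⊆ W) → ¬ IsCliqueMinorModel G B)
    {M : Finset (Finset V)} {X : Finset V} (hS : St G J q s0 M X) : M.card ≤ h := by
  by_contra hc
  obtain ⟨M', hM', hcard⟩ := exists_subset_card_eq (show h + 1 ≤ M.card by omega)
  have e : Fin (h + 1) ≃ M' := (Finset.equivFinOfCardEq hcard).symm
  have hmem : ∀ i, (e i : Finset V) ∈ M := fun i => hM' (e i).2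
  have hne : ∀ i j, i ≠ j → (e i : Finset V) ≠ e j := by
    intro i j hij h
    exact hij (e.injective (Subtype.ext h))
  refine hno (fun i => (e i : Finset V)) (fun i => (hS.subM _ (hmem i)).trans hJW) ?_
  refine ⟨fun i => (hS.conn _ (hmem i)).nonempty, fun i j hij => ?_, fun i => hS.conn _ (hmem i),
    fun i j hij => ?_⟩
  · exact hS.disj _ (hmem i) _ (hmem j) (hne i j hij)
  · exact hS.adj _ (hmem i) _ (hmem j) (hne i j hij)

/-- there is no large set all of whose subsets expand. -/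
lemma no_expander {J W : Finset V} {q s0 h m : ℕ} (hJW : J ⊆ W)
    (hno : ∀ B : Fin (h + 1) → Finset V, (∀ i, B i ⊆ W) → ¬ IsCliqueMinorModel G B)
    (hq : 1 ≤ q) (hh : 1 ≤ h)
    (hm : J.card < 2 ^ m) (hs0 : 1 + h * (2 * (2 * q * m) + 2) ≤ s0)
    (hn : 24 * (q * (h * s0)) ≤ J.card)
    (hE : ∀ Y : Finset V, Y ⊆ J → Y.Nonempty → 3 * Y.card ≤ 2 * J.card →
      Y.card < q * (nb G J Y).card) : False := by
  have key : ∀ k, ∃ M X, St G J q s0 M X ∧ k ≤ X.card * (h + 2) + M.card := by
    intro k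
    induction k with
    | zero =>
      refine ⟨∅, ∅, ⟨by simp, by simp, by simp, by simp, by simp, by simp, by simp, ?_, by simp⟩,
        by simp⟩
      have : nb G J ∅ = ∅ := by
        ext v; simp [mem_nb]
      simp [this]
    | succ k ih =>
      obtain ⟨M, X, hS, hk⟩ := ih
      obtain ⟨M', X', hS', hlt⟩ := step hS (card_le_of_no hJW hno hS) hq hh hm hs0 hn hE
      exact ⟨M', X', hS', by omega⟩
  obtain ⟨M, X, hS, hk⟩ := key (J.card * (h + 2) + h + 1)
  have h1 := card_le_card hS.subX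
  have h2 := card_le_of_no hJW hno hS
  have h3 : X.card * (h + 2) ≤ J.card * (h + 2) := Nat.mul_le_mul_right _ h1
  omega

/-- **SMALL DENSE SUBGRAPH** (with `ep` = number of ordered adjacent pairs). -/
theorem small_dense_ep (G : SimpleGraph V) (W : Finset V) (h D : ℕ) (hh : 1 ≤ h)
    (hW : W.Nonempty)
    (hno : ∀ B : Fin (h + 1) → Finset V, (∀ i, B i ⊆ W) → ¬ IsCliqueMinorModel G B)
    (hD : 2 * D * W.card ≤ ep G W) :
    ∃ J ⊆ W, J.Nonempty ∧ J.card ≤ 2 ^ (64 * h) ∧ D * J.card ≤ ep G J := by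
  set P : Finset V → Prop := fun J => J.Nonempty ∧ 2 * (D : ℚ) * psi J.card ≤ (ep G J : ℚ) with hP
  have hWP : P W := by
    refine ⟨hW, ?_⟩
    have h1 := psi_le W.card
    have h2 : (2 * D * W.card : ℚ) ≤ (ep G W : ℚ) := by exact_mod_cast hD
    have h3 : (0 : ℚ) ≤ 2 * D := by positivity
    exact (mul_le_mul_of_nonneg_left h1 h3).trans h2
  obtain ⟨J, hJ, hmin⟩ := Finset.exists_min_image (W.powerset.filter P) Finset.card
    ⟨W, mem_filter.2 ⟨mem_powerset_self W, hWP⟩⟩
  rw [mem_filter, mem_powerset] at hJ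
  obtain ⟨hJW, hJne, hJP⟩ := hJ
  have hprop : ∀ A : Finset V, A ⊆ J → A.Nonempty → A.card < J.card →
      (ep G A : ℚ) < 2 * (D : ℚ) * psi A.card := by
    intro A hA hAne hlt
    by_contra hcon
    push Not at hcon
    have := hmin A (mem_filter.2 ⟨mem_powerset.2 (hA.trans hJW), hAne, hcon⟩)
    omega
  refine ⟨J, hJW, hJne, ?_, ?_⟩
  · by_contra hbig
    push Not at hbig
    set m := dg J.card with hm
    have hJpos : 0 < J.card := hJne.card_pos
    have hm1 : 64 * h + 1 ≤ m := by
      have h1 : Nat.log 2 (2 ^ (64 * h)) ≤ Nat.log 2 J.card := Nat.log_mono_right hbig.le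
      rw [Nat.log_pow (by norm_num)] at h1
      rw [hm]; unfold dg; omega
    have hm64 : 64 ≤ m := by omega
    have hhm : h ≤ m := by omega
    have hqpos : 1 ≤ 18 * m ^ 2 := by
      have : 0 < m ^ 2 := by positivity
      omega
    refine no_expander (q := 18 * m ^ 2) (s0 := 1 + h * (2 * (2 * (18 * m ^ 2) * m) + 2)) (m := m)
      hJW hno hqpos hh (lt_pow_dg _) le_rfl ?_ ?_
    · have h1 : 1 + h * (2 * (2 * (18 * m ^ 2) * m) + 2) ≤ 75 * m ^ 4 := by
        have h2 : h * (2 * (2 * (18 * m ^ 2) * m) + 2) ≤ m * (2 * (2 * (18 * m ^ 2) * m) + 2) :=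
          Nat.mul_le_mul_right _ hhm
        have h3 : m * (2 * (2 * (18 * m ^ 2) * m) + 2) = 72 * m ^ 4 + 2 * m := by ring
        have h4 : m ≤ m ^ 4 := Nat.le_self_pow (by norm_num) m
        have h5 : 1 ≤ m ^ 4 := Nat.one_le_pow _ _ (by omega)
        omega
      have h2 : h * (1 + h * (2 * (2 * (18 * m ^ 2) * m) + 2)) ≤ m * (75 * m ^ 4) :=
        Nat.mul_le_mul hhm h1
      have h3 : 18 * m ^ 2 * (h * (1 + h * (2 * (2 * (18 * m ^ 2) * m) + 2))) ≤
          18 * m ^ 2 * (m * (75 * m ^ 4)) := Nat.mul_le_mul_left _ h2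
      have h4 : 18 * m ^ 2 * (m * (75 * m ^ 4)) = 1350 * m ^ 7 := by ring
      have h5 := pow_ge hm64
      have h6 : 2 ^ (m - 1) ≤ J.card := pow_dg_le hJpos.ne'
      omega
    · intro Y hY hYne hY3
      have hYpos := hYne.card_pos
      by_cases h4 : 4 * (Y.card + (nb G J Y).card) ≤ 3 * J.card
      · have hA : (Y ∪ nb G J Y).card = Y.card + (nb G J Y).card := card_union_of_disjoint disj_nb
        have hB : (J \ Y).card + Y.card = J.card := card_sdiff_add_card_eq_card hY
        have e1 := hprop (Y ∪ nb G J Y) (union_subset hY nb_subset) (hYne.mono subset_union_left)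
          (by omega)
        have e2 := hprop (J \ Y) sdiff_subset (card_pos.1 (by omega)) (by omega)
        have e3 : (ep G J : ℚ) ≤ (ep G (Y ∪ nb G J Y) : ℚ) + (ep G (J \ Y) : ℚ) := by
          exact_mod_cast ep_le J Y
        have e4 : 2 * (D : ℚ) * psi J.card <
            2 * (D : ℚ) * (psi (Y ∪ nb G J Y).card + psi (J \ Y).card) := by
          rw [mul_add]; linarith
        have e5 := lt_of_mul_lt_mul_left e4 (by positivity)
        have e6 := gain (a := (Y ∪ nb G J Y).card) (b := (J \ Y).card) (n := J.card)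
          (s := (nb G J Y).card) (by omega) (by omega) (by omega) (by omega) e5
        exact lt_of_le_of_lt (by omega) e6
      · have h5 : Y.card < 18 * (nb G J Y).card := by omega
        have h6 : 18 * (nb G J Y).card ≤ 18 * m ^ 2 * (nb G J Y).card := by
          apply Nat.mul_le_mul_right
          have : 1 ≤ m ^ 2 := Nat.one_le_pow _ _ (by omega)
          omega
        omega
  · have h1 := psi_ge J.card
    have h2 : (D : ℚ) * J.card ≤ ep G J := by
      have h3 : (0 : ℚ) ≤ 2 * D := by positivity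
      have := (mul_le_mul_of_nonneg_left h1 h3).trans hJP
      linarith
    exact_mod_cast h2

/-- **(10.3) SMALL DENSE SUBGRAPH**, sum of degrees form. -/
theorem small_dense [DecidableEq V] (G : SimpleGraph V) (W : Finset V) (h D : ℕ) (hh : 1 ≤ h)
    (hW : W.Nonempty)
    (hno : ∀ B : Fin (h + 1) → Finset V, (∀ i, B i ⊆ W) → ¬ IsCliqueMinorModel G B)
    (hD : 2 * D * W.card ≤ ∑ v ∈ W, (W.filter (fun w => G.Adj v w)).card) :
    ∃ J ⊆ W, J.Nonempty ∧ J.card ≤ 2 ^ (64 * h) ∧
      D * J.card ≤ ∑ v ∈ J, (J.filter (fun w => G.Adj v w)).card :=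
  small_dense_ep G W h D hh hW hno hD

end Crest.Agent.R042.SmallDense667
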