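import Mathlib
import Crest.Agent.R042.SmallDense_667
import Crest.Agent.R042.Mader_375
import Crest.Agent.R042.LinkDefs_870

/-! Row 42, sec (10.3) in the frozen language: `Mader375.Model`, `Mader375.e2`, `Link870.nb`. -/

set_option autoImplicit false

namespace Crest.Agent.R042.SmallDense667

open Finset SimpleGraph Conn353 SDstep667
open Crest.CombinatoricsR.GraphMinor
open scoped Classical

variable {V : Type*}

lemma ep_eq_e2 (G : SimpleGraph V) (S : Finset V) : ep G S = Mader375.e2 G S := rfl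

/-- **(10.3)** with `Model` and `e2`. -/
theorem small_dense_model (G : SimpleGraph V) (W : Finset V) (h D : ℕ) (hh : 1 ≤ h)
    (hW : W.Nonempty) (hno : ¬ Mader375.Model G W (h + 1))
    (hD : 2 * D * W.card ≤ Mader375.e2 G W) :
    ∃ J ⊆ W, J.Nonempty ∧ J.card ≤ 2 ^ (64 * h) ∧ D * J.card ≤ Mader375.e2 G J := by
  refine small_dense_ep G W h D hh hW ?_ hD
  intro B hB hM
  exact hno (Mader375.model_iff.2 ⟨B, hB, hM⟩)

/-- **(10.3)** from a minimum degree. -/
theorem small_dense_deg [DecidableEq V] (G : SimpleGraph V) (W : Finset V) (h D : ℕ) (hh : 1 ≤ h)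
    (hW : W.Nonempty) (hno : ¬ Mader375.Model G W (h + 1))
    (hD : ∀ v ∈ W, 2 * D ≤ (Link870.nb G W v).card) :
    ∃ J ⊆ W, J.Nonempty ∧ J.card ≤ 2 ^ (64 * h) ∧ D * J.card ≤ Mader375.e2 G J := by
  refine small_dense_model G W h D hh hW hno ?_
  have h1 : ∑ v ∈ W, 2 * D ≤ ∑ v ∈ W, Mader375.dg G W v := sum_le_sum fun v hv => hD v hv
  rw [sum_const, smul_eq_mul, mul_comm] at h1
  exact h1

end Crest.Agent.R042.SmallDense667
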