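import Mathlib
import Crest.Agent.R042.SmallDenseM_667

/-! Row 42, sec (10.4), first half: Mader's highly connected subgraph and the massed property. -/

set_option autoImplicit false

namespace Crest.Agent.R042.SmallHub667

open Finset SimpleGraph Conn353 Menger353 Mader375
open scoped Classical

variable {V : Type*} {G : SimpleGraph V}

lemma dg_le_card {S : Finset V} (v : V) : dg G S v ≤ S.card := card_le_card (filter_subset _ _)

lemma e2_le_sq (S : Finset V) : e2 G S ≤ S.card * S.card := by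
  unfold e2
  refine (sum_le_sum fun v _ => dg_le_card (G := G) (S := S) v).trans ?_
  rw [sum_const, smul_eq_mul]

/-- the edges of `G[J]` are covered by the two sides of a separation. -/
lemma e2_sep [DecidableEq V] {J A B : Finset V} (h : Sep G J A B) : e2 G J ≤ e2 G A + e2 G B := by
  rw [e2_eq_card, e2_eq_card, e2_eq_card]
  refine le_trans (card_le_card ?_) (card_union_le _ _)
  intro p hp
  rw [mem_filter, mem_product] at hp
  obtain ⟨⟨h1, h2⟩, h3⟩ := hp
  rw [mem_union, mem_filter, mem_filter, mem_product, mem_product]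
  rw [← h.union, mem_union] at h1 h2
  by_cases ha : p.1 ∈ A ∧ p.2 ∈ A
  · exact Or.inl ⟨ha, h3⟩
  by_cases hb : p.1 ∈ B ∧ p.2 ∈ B
  · exact Or.inr ⟨hb, h3⟩
  exfalso
  rcases h1 with x | x <;> rcases h2 with y | y
  · exact ha ⟨x, y⟩
  · exact h.nadj _ x (fun h' => hb ⟨h', y⟩) _ y (fun h' => ha ⟨x, h'⟩) h3
  · exact h.nadj _ y (fun h' => hb ⟨x, h'⟩) _ x (fun h' => ha ⟨h', y⟩) h3.symm
  · exact hb ⟨x, y⟩

/-- **MADER**: a dense graph contains a subgraph with large minimum degree and without separations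
of order `< 2k`. -/
theorem mader_conn [DecidableEq V] {k : ℕ} (hk : 1 ≤ k) {J0 : Finset V} (hne : J0.Nonempty)
    (hD : 64 * k * J0.card ≤ e2 G J0) :
    ∃ J ⊆ J0, J.Nonempty ∧ (∀ v ∈ J, 32 * k < dg G J v) ∧
      ∀ A B, Sep G J A B → (A ∩ B).card < 2 * k → A \ B = ∅ ∨ B \ A = ∅ := by
  set Q : Finset V → Prop := fun J => 4 * k ≤ J.card ∧ 64 * k * J.card < e2 G J + 128 * (k * k)
    with hQ
  have hkk : 1 ≤ k * k := Nat.mul_pos hk hk
  have h0 : Q J0 := by
    have h1 := e2_le_sq (G := G) J0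
    have h2 : 0 < J0.card := hne.card_pos
    have h3 : 64 * k ≤ J0.card := Nat.le_of_mul_le_mul_right (hD.trans h1) h2
    exact ⟨by omega, by omega⟩
  obtain ⟨J, hJ, hmin⟩ := Finset.exists_min_image (J0.powerset.filter Q) Finset.card
    ⟨J0, mem_filter.2 ⟨mem_powerset_self J0, h0⟩⟩
  rw [mem_filter, mem_powerset] at hJ
  obtain ⟨hJ0, hJ4, hJe⟩ := hJ
  have hnot : ∀ A : Finset V, A ⊆ J → A.card < J.card → 4 * k ≤ A.card →
      e2 G A + 128 * (k * k) ≤ 64 * k * A.card := by
    intro A hA hlt h4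
    by_contra hcon
    push Not at hcon
    have := hmin A (mem_filter.2 ⟨mem_powerset.2 (hA.trans hJ0), h4, hcon⟩)
    omega
  have hJgt : 4 * k < J.card := by
    rcases Nat.lt_or_ge (4 * k) J.card with h | h
    · exact h
    · exfalso
      have h1 : J.card = 4 * k := le_antisymm h hJ4
      have h2 := e2_le_sq (G := G) J
      rw [h1] at hJe h2
      nlinarith
  have hdeg : ∀ v ∈ J, 32 * k < dg G J v := by
    intro v hv
    have h1 := hnot (J.erase v) (erase_subset _ _) (card_erase_lt_of_mem hv)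
      (by rw [card_erase_of_mem hv]; omega)
    have h2 : e2 G J = e2 G (J.erase v) + 2 * dg G J v := by
      convert e2_erase (G := G) hv
    have h3 : (J.erase v).card + 1 = J.card := card_erase_add_one hv
    rw [← h3] at hJe
    have h4 : 64 * k * ((J.erase v).card + 1) = 64 * k * (J.erase v).card + 64 * k := by ring
    omega
  refine ⟨J, hJ0, card_pos.1 (by omega), hdeg, ?_⟩
  intro A B hS hord
  by_contra hcon
  push Not at hcon
  obtain ⟨⟨a, ha⟩, ⟨b, hb⟩⟩ := hcon
  rw [mem_sdiff] at ha hb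
  have hAJ : A ⊆ J := hS.union ▸ subset_union_left
  have hBJ : B ⊆ J := hS.union ▸ subset_union_right
  have hA : 32 * k < A.card := by
    refine lt_of_lt_of_le (hdeg a (hAJ ha.1)) (card_le_card ?_)
    intro x hx
    rw [mem_filter] at hx
    by_contra hxA
    have hxB : x ∈ B := by
      have := hx.1
      rw [← hS.union, mem_union] at this
      exact this.resolve_left hxA
    exact hS.nadj a ha.1 ha.2 x hxB hxA hx.2
  have hB : 32 * k < B.card := by
    refine lt_of_lt_of_le (hdeg b (hBJ hb.1)) (card_le_card ?_)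
    intro x hx
    rw [mem_filter] at hx
    by_contra hxB
    have hxA : x ∈ A := by
      have := hx.1
      rw [← hS.union, mem_union] at this
      exact this.resolve_right hxB
    exact hS.nadj x hxA hxB b hb.1 hb.2 hx.2.symm
  have hAlt : A.card < J.card := card_lt_card ⟨hAJ, fun h => hb.2 (h (hBJ hb.1))⟩
  have hBlt : B.card < J.card := card_lt_card ⟨hBJ, fun h => ha.2 (h (hAJ ha.1))⟩
  have h1 := hnot A hAJ hAlt (by omega)
  have h2 := hnot B hBJ hBlt (by omega)
  have h3 := e2_sep hS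
  have h4 : A.card + B.card = J.card + (A ∩ B).card := by
    rw [← hS.union]; exact (card_union_add_card_inter A B).symm
  have h5 : 64 * k * A.card + 64 * k * B.card = 64 * k * J.card + 64 * k * (A ∩ B).card := by
    rw [← mul_add, ← mul_add, h4]
  have h6 : 64 * k * (A ∩ B).card ≤ 64 * k * (2 * k) := Nat.mul_le_mul_left _ (by omega)
  have h7 : 64 * k * (2 * k) = 128 * (k * k) := by ring
  omega

/-- such a subgraph is massed for every root set of size at most `2k`. -/
theorem massed_of_conn [DecidableEq V] {k : ℕ} (hk : 1 ≤ k) {J : Finset V}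
    (hdeg : ∀ v ∈ J, 32 * k < dg G J v)
    (hsep : ∀ A B, Sep G J A B → (A ∩ B).card < 2 * k → A \ B = ∅ ∨ B \ A = ∅)
    {X : Finset V} (hX : X ⊆ J) (hXk : X.card ≤ 2 * k) (hne : J.Nonempty) :
    Link870.Massed G J X (8 * k) := by
  refine ⟨hX, ?_, ?_⟩
  · have h1 := Link870.sum_nb_le_rho_add (G := G) hX
    have h2 : J.card * (32 * k + 1) ≤ ∑ v ∈ J, (Link870.nb G J v).card := by
      rw [← smul_eq_mul, ← sum_const]
      exact sum_le_sum fun v hv => hdeg v hv
    have h3 : X.card * X.card ≤ 2 * k * (2 * k) := Nat.mul_le_mul hXk hXk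
    have h4 : (J \ X).card ≤ J.card := card_le_card sdiff_subset
    have h5 : 2 * (8 * k) * (J \ X).card ≤ 2 * (8 * k) * J.card := Nat.mul_le_mul_left _ h4
    obtain ⟨v, hv⟩ := hne
    have h6 : 32 * k < J.card := lt_of_lt_of_le (hdeg v hv) (dg_le_card v)
    nlinarith
  · intro A B hS hXA hord
    rcases hsep A B hS (by omega) with h | h
    · exfalso
      have h1 : X ⊆ A ∩ B := by
        intro x hx
        refine mem_inter.2 ⟨hXA hx, ?_⟩
        by_contra hxB
        have : x ∈ A \ B := mem_sdiff.2 ⟨hXA hx, hxB⟩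
        rw [h] at this
        exact absurd this (notMem_empty x)
      have := card_le_card h1
      omega
    · rw [h]
      simp [Link870.rho]

/-- **(10.4) SMALL HUB**, relative to the linkage theorem `htw` (sec 05). -/
theorem small_hub [DecidableEq V] (G : SimpleGraph V) (W : Finset V) {k h D : ℕ} (hk : 1 ≤ k)
    (htw : ∀ J X : Finset V, Link870.Massed G J X (8 * k) → X.card ≤ 2 * k →
      Link870.Linked G J X)
    (hh : 1 ≤ h) (hW : W.Nonempty) (hno : ¬ Model G W (h + 1)) (hDk : 64 * k ≤ D)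
    (hD : 2 * D * W.card ≤ e2 G W) :
    ∃ J ⊆ W, J.Nonempty ∧ J.card ≤ 2 ^ (64 * h) ∧ (∀ v ∈ J, 32 * k < (Link870.nb G J v).card) ∧
      32 * k < J.card ∧ ∀ X ⊆ J, X.card ≤ 2 * k → Link870.Linked G J X := by
  obtain ⟨J0, hJ0W, hJ0ne, hJ0c, hJ0e⟩ :=
    SmallDense667.small_dense_model G W h D hh hW hno hD
  obtain ⟨J, hJ, hne, hdeg, hsep⟩ := mader_conn hk hJ0ne
    ((Nat.mul_le_mul_right _ hDk).trans hJ0e)
  refine ⟨J, hJ.trans hJ0W, hne, (card_le_card hJ).trans hJ0c, hdeg, ?_, ?_⟩
  · obtain ⟨v, hv⟩ := hne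
    exact lt_of_lt_of_le (hdeg v hv) (dg_le_card v)
  · intro X hX hXk
    exact htw J X (massed_of_conn hk hdeg hsep hX hXk hne) hXk

end Crest.Agent.R042.SmallHub667
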