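import Mathlib
import Crest.Agent.R042.SmallHub_667
import Crest.Agent.R042.TW_870
import Crest.Agent.R042.Chain1_374

/-! Row 42, sec (10.4): SMALL HUB, unconditional, and in the language of the chain (10.7). -/

set_option autoImplicit false

namespace Crest.Agent.R042.SmallHub667

open Finset SimpleGraph Conn353 Menger353 Mader375

variable {V : Type*} [DecidableEq V]

/-- **(10.4) SMALL HUB** from the edge density. -/
theorem hub (G : SimpleGraph V) (W : Finset V) {k h D : ℕ} (hk : 1 ≤ k)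
    (hh : 1 ≤ h) (hW : W.Nonempty) (hno : ¬ Model G W (h + 1)) (hDk : 64 * k ≤ D)
    (hD : 2 * D * W.card ≤ e2 G W) :
    ∃ J ⊆ W, J.Nonempty ∧ J.card ≤ 2 ^ (64 * h) ∧ (∀ v ∈ J, 32 * k < (Link870.nb G J v).card) ∧
      32 * k < J.card ∧ ∀ X ⊆ J, X.card ≤ 2 * k → Link870.Linked G J X :=
  small_hub G W hk (fun _ _ hM hX => TW870.tw hk hM hX) hh hW hno hDk hD

/-- **(10.4) SMALL HUB** from the minimum degree. -/
theorem hub_deg (G : SimpleGraph V) (W : Finset V) {k h : ℕ} (hk : 1 ≤ k)
    (hh : 1 ≤ h) (hW : W.Nonempty) (hno : ¬ Model G W (h + 1))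
    (hD : ∀ v ∈ W, 128 * k ≤ (Link870.nb G W v).card) :
    ∃ J ⊆ W, J.Nonempty ∧ J.card ≤ 2 ^ (64 * h) ∧ (∀ v ∈ J, 32 * k < (Link870.nb G J v).card) ∧
      32 * k < J.card ∧ ∀ X ⊆ J, X.card ≤ 2 * k → Link870.Linked G J X := by
  refine hub G W hk hh hW hno le_rfl ?_
  have h1 : ∑ v ∈ W, 128 * k ≤ e2 G W := sum_le_sum fun v hv => hD v hv
  rw [sum_const, smul_eq_mul] at h1
  calc 2 * (64 * k) * W.card = W.card * (128 * k) := by ring
    _ ≤ _ := h1

/-- linked for all sets of size `≤ 2k` and degrees `> 32k`, `k = p + 2`: a hub of the chain. -/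
theorem hub_of_linked {G : SimpleGraph V} {J : Finset V} {p k : ℕ} (hp : p + 2 ≤ k)
    (hdeg : ∀ v ∈ J, 32 * k < (Link870.nb G J v).card) (hcard : 32 * k < J.card)
    (hl : ∀ X ⊆ J, X.card ≤ 2 * k → Link870.Linked G J X) : Chain374.Hub G J p := by
  refine ⟨by omega, ?_, ?_⟩
  · intro v hv
    have h1 : (Link870.nb G J v).card = Chain374.nb G J v := by
      unfold Link870.nb Chain374.nb
      congr
    have h2 := hdeg v hv
    omega
  · intro n s t hn hs ht h1 h2 h3
    have hX : (univ.image s ∪ univ.image t).card ≤ 2 * k := by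
      refine (card_union_le _ _).trans ?_
      have e1 : (univ.image s).card ≤ n := card_image_le.trans (by simp)
      have e2 : (univ.image t).card ≤ n := card_image_le.trans (by simp)
      omega
    have hXJ : univ.image s ∪ univ.image t ⊆ J := by
      intro x hx
      rcases mem_union.1 hx with h | h
      · obtain ⟨i, _, rfl⟩ := mem_image.1 h
        exact hs i
      · obtain ⟨i, _, rfl⟩ := mem_image.1 h
        exact ht i
    obtain ⟨P, hP⟩ := hl _ hXJ hX n s t
      (fun i => mem_union_left _ (mem_image_of_mem s (mem_univ i)))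
      (fun i => mem_union_right _ (mem_image_of_mem t (mem_univ i))) h1 h2 h3
    exact ⟨P, fun i => ⟨hP.sub i, hP.conn i, hP.left i, hP.right i⟩, hP.disj⟩

/-- **(10.4)** for the chain of hubs: a set of minimum degree `≥ 128 (p + 2)` without `K_{h+1}`
model contains a small hub. -/
theorem hub_chain (G : SimpleGraph V) (W : Finset V) {p h : ℕ} (hh : 1 ≤ h) (hW : W.Nonempty)
    (hno : ¬ Model G W (h + 1)) (hD : ∀ v ∈ W, 128 * (p + 2) ≤ Chain374.nb G W v) :
    ∃ J ⊆ W, J.card ≤ 2 ^ (64 * h) ∧ Chain374.Hub G J p := by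
  obtain ⟨J, h1, _, h3, h4, h5, h6⟩ := hub_deg G W (k := p + 2) (by omega) hh hW hno (by
    intro v hv
    have h1 : (Link870.nb G W v).card = Chain374.nb G W v := by
      unfold Link870.nb Chain374.nb
      congr
    rw [h1]
    exact hD v hv)
  exact ⟨J, h1, h3, hub_of_linked le_rfl h4 h5 h6⟩

end Crest.Agent.R042.SmallHub667
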