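import Mathlib
import Crest.Agent.R042.B7_375
import Crest.Agent.R042.Chain3_374
import Crest.Agent.R042.SmallHubU_667

/-! Row 42 / S0058: the block B7, unconditional. -/

set_option autoImplicit false

namespace Crest.Agent.R042.B7375

open Finset

theorem hubStmt : HubStmt := by
  refine ⟨64, 512, ?_⟩
  intro h hh V _ G T hno hne hd
  obtain ⟨J, h1, _, h3, _, h5, h6⟩ := SmallHub667.hub_deg G T (k := h + 3) (by omega) hh hne hno
    (by
      intro v hv
      have := hd v hv
      omega)
  exact ⟨J, h1, by omega, h3, fun X hX hXc => h6 X hX (by omega)⟩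

theorem chainStmt : ChainStmt := by
  intro V _ G V0 p d M UB kc hp P1 COST HUB NS hk hUB
  exact Chain374.chain (G := G) (V0 := V0) (p := p) (kc := kc) (M := M) (d := d) (UB := UB)
    ⟨P1, fun W A B P h => bf1 h, fun W A B P h x hx hxP l hl => bf2 h hx hxP hl, COST, HUB, NS⟩
    hk (by omega) hUB

/-- **the block B7 of the spine.** -/
theorem b7 : Spine883.B7 := b7_of hubStmt chainStmt

end Crest.Agent.R042.B7375
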