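import Mathlib
import Crest.Agent.R042.Crit_374
import Crest.Agent.R042.LinkDefs_870

/-! Row 42, sec 06 of S0058: HUB LEMMA. A critical pair is massed, hence (Theorem TW) linked. -/

set_option autoImplicit false
set_option linter.unusedSectionVars false

namespace Crest.Agent.R042.Hub872

open Finset Crest.Agent.R042.Menger353 Crest.Agent.R042.Crit374 Crest.Agent.R042.Link870
open scoped Classical

variable {V : Type*} [DecidableEq V] {G : SimpleGraph V} {W X Z A B S : Finset V} {k th ka : ℕ}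

/-- lower bound for `rho` by degrees. -/
lemma sum_deg_le_rho (hS : S ⊆ W) : ∑ v ∈ S, (W.filter (G.Adj v)).card ≤ rho G W S := by
  unfold rho
  have h1 : ∑ v ∈ S, (W.filter (G.Adj v)).card
      = (S.sigma (fun v => W.filter (G.Adj v))).card := by
    rw [Finset.card_sigma]
  rw [h1]
  refine Finset.card_le_card_of_injOn (fun x => (x.1, x.2)) ?_ ?_
  · rintro ⟨a, b⟩ hx
    simp only [Finset.coe_sigma, Set.mem_sigma_iff, Finset.mem_coe, Finset.mem_filter] at hx
    simp only [Finset.coe_filter, Finset.mem_product, Set.mem_setOf_eq]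
    exact ⟨⟨hS hx.1, hx.2.1⟩, hx.2.2, Or.inl hx.1⟩
  · rintro ⟨a, b⟩ _ ⟨a', b'⟩ _ he
    simp only [Prod.mk.injEq] at he
    obtain ⟨rfl, rfl⟩ := he
    rfl

/-- upper bound for `rho` by degrees. -/
lemma rho_le_of_deg {d : ℕ} (hd : ∀ v ∈ S, (W.filter (G.Adj v)).card ≤ d) :
    rho G W S ≤ 2 * d * S.card := by
  unfold rho
  have hsub : ((W ×ˢ W).filter (fun p => G.Adj p.1 p.2 ∧ (p.1 ∈ S ∨ p.2 ∈ S)))
      ⊆ (S.biUnion fun v => (W.filter (G.Adj v)).image (fun w => (v, w)))
        ∪ (S.biUnion fun v => (W.filter (G.Adj v)).image (fun w => (w, v))) := by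
    rintro ⟨a, b⟩ hx
    simp only [Finset.mem_filter, Finset.mem_product] at hx
    obtain ⟨⟨ha, hb⟩, hab, h | h⟩ := hx
    · refine Finset.mem_union_left _ (Finset.mem_biUnion.2 ⟨a, h, ?_⟩)
      exact Finset.mem_image.2 ⟨b, Finset.mem_filter.2 ⟨hb, hab⟩, rfl⟩
    · refine Finset.mem_union_right _ (Finset.mem_biUnion.2 ⟨b, h, ?_⟩)
      exact Finset.mem_image.2 ⟨a, Finset.mem_filter.2 ⟨ha, hab.symm⟩, rfl⟩
  have h1 : ∀ g : V → V → V × V,
      (S.biUnion fun v => (W.filter (G.Adj v)).image (g v)).card ≤ S.card * d := by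
    intro g
    refine Finset.card_biUnion_le_card_mul _ _ _ ?_
    intro v hv
    exact Finset.card_image_le.trans (hd v hv)
  have h2 := (Finset.card_le_card hsub).trans (Finset.card_union_le _ _)
  have h3 := h1 (fun v w => (v, w))
  have h4 := h1 (fun v w => (w, v))
  calc _ ≤ _ := h2
    _ ≤ S.card * d + S.card * d := Nat.add_le_add h3 h4
    _ = 2 * d * S.card := by ring

/-- HUB LEMMA, massed form. -/
theorem hub_massed (hka : 1 ≤ ka) (hk : 64 * ka ≤ k) (h : Crit G W Z k (4 * ka))
    (hX : X ⊆ W \ Z) (hXc : X.card ≤ 2 * ka) : Massed G W X (16 * ka) := by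
  have hZ : Z ⊆ W := h.sub
  have hZc : Z.card ≤ 2 * (4 * ka) := h.card_le
  have hXW : X ⊆ W := hX.trans Finset.sdiff_subset
  refine ⟨hXW, ?_, ?_⟩
  · -- (M1)
    have hn : k < W.card := by
      obtain ⟨v, hv⟩ := h.nonempty
      refine lt_of_le_of_lt (h.deg hv) (Finset.card_lt_card ?_)
      refine Finset.ssubset_iff_subset_ne.2 ⟨Finset.filter_subset _ _, ?_⟩
      intro heq
      have : v ∈ W.filter (G.Adj v) := by rw [heq]; exact (Finset.mem_sdiff.1 hv).1
      exact (G.loopless.irrefl v) (Finset.mem_filter.1 this).2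
    have h1 : ∑ v ∈ W \ X, (W.filter (G.Adj v)).card ≤ rho G W (W \ X) :=
      sum_deg_le_rho Finset.sdiff_subset
    have h2 : ∑ v ∈ (W \ Z) \ X, (W.filter (G.Adj v)).card
        ≤ ∑ v ∈ W \ X, (W.filter (G.Adj v)).card := by
      refine Finset.sum_le_sum_of_subset ?_
      exact Finset.sdiff_subset_sdiff Finset.sdiff_subset (Finset.Subset.refl _)
    have h3 : ((W \ Z) \ X).card * k ≤ ∑ v ∈ (W \ Z) \ X, (W.filter (G.Adj v)).card := by
      rw [← smul_eq_mul]
      refine Finset.card_nsmul_le_sum _ _ _ ?_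
      intro v hv
      exact h.deg (Finset.mem_sdiff.1 hv).1
    have h4 : ((W \ Z) \ X).card = W.card - Z.card - X.card := by
      rw [Finset.card_sdiff_of_subset hX, Finset.card_sdiff_of_subset hZ]
    have h5 : (W \ X).card ≤ W.card := Finset.card_le_card Finset.sdiff_subset
    have h6 : W.card - 10 * ka ≤ ((W \ Z) \ X).card := by omega
    have h7 : (W.card - 10 * ka) * (64 * ka) ≤ ((W \ Z) \ X).card * k := Nat.mul_le_mul h6 hk
    have h8 : 64 * ka < W.card := lt_of_le_of_lt hk hn
    obtain ⟨m, hm⟩ := Nat.exists_eq_add_of_lt h8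
    have h9 : W.card - 10 * ka = 54 * ka + m + 1 := by omega
    have h10 : 2 * (16 * ka) * (W \ X).card ≤ 2 * (16 * ka) * (64 * ka + m + 1) := by
      refine Nat.mul_le_mul_left _ ?_
      omega
    have h11 : 2 * (16 * ka) * (64 * ka + m + 1) < (54 * ka + m + 1) * (64 * ka) := by
      nlinarith [Nat.zero_le m, Nat.mul_le_mul hka hka]
    rw [h9] at h7
    omega
  · -- (M2)
    intro A B hs hXA hc
    have hc' : (A ∩ B).card ≤ 4 * ka := by omega
    obtain ⟨x, hxX, hxB⟩ : ∃ x ∈ X, x ∉ B := by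
      by_contra hcon
      push Not at hcon
      have : X ⊆ A ∩ B := fun x hx => Finset.mem_inter.2 ⟨hXA hx, hcon x hx⟩
      have := Finset.card_le_card this
      omega
    have hBA : B \ A ⊆ Z := by
      rcases h.sep hs hc' with h1 | h1
      · exact absurd (h1 (Finset.mem_sdiff.2 ⟨hXA hxX, hxB⟩)) (Finset.mem_sdiff.1 (hX hxX)).2
      · exact h1
    have hBc : B.card ≤ 10 * ka := by
      have h1 : B = (A ∩ B) ∪ (B \ A) := by
        ext y
        simp only [Finset.mem_union, Finset.mem_inter, Finset.mem_sdiff]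
        tauto
      have h2 := Finset.card_union_le (A ∩ B) (B \ A)
      rw [← h1] at h2
      have h3 := Finset.card_le_card hBA
      omega
    have h1 : rho G W (B \ A) ≤ 2 * (10 * ka) * (B \ A).card := by
      refine rho_le_of_deg ?_
      intro v hv
      obtain ⟨hvB, hvA⟩ := Finset.mem_sdiff.1 hv
      refine (Finset.card_le_card ?_).trans hBc
      intro y hy
      obtain ⟨hyW, hvy⟩ := Finset.mem_filter.1 hy
      by_contra hyB
      have hyA : y ∈ A := by
        rw [← hs.union] at hyW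
        rcases Finset.mem_union.1 hyW with h | h
        · exact h
        · exact absurd h hyB
      exact hs.nadj y hyA hyB v hvB hvA hvy.symm
    refine h1.trans ?_
    refine Nat.mul_le_mul_right _ ?_
    omega

/-- HUB LEMMA, given Theorem TW as a hypothesis (literal form of 870/113). -/
theorem hub {lam : ℕ} (hlam : lam = 16 * ka)
    (tw : ∀ X' : Finset V, X'.card ≤ 2 * ka → Massed G W X' lam → Linked G W X')
    (hka : 1 ≤ ka) (hk : 64 * ka ≤ k) (h : Crit G W Z k (4 * ka))
    (hX : X ⊆ W \ Z) (hXc : X.card ≤ 2 * ka) : Linked G W X :=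
  tw X hXc (hlam ▸ hub_massed hka hk h hX hXc)

end Crest.Agent.R042.Hub872
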