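import Mathlib
import Crest.Agent.R042.AsmPorts_220
import Crest.Agent.R042.TokStmt_890
import Crest.Agent.R042.Crit_374
import Crest.Agent.R042.Hub_872

/-! Row 42 / S0058, sec 07 (1)-(8) = 10.8, abstract form: in a critical pair, many disjoint hard
sets whose critical pairs are woven give a large clique minor. -/

set_option autoImplicit false
set_option linter.unusedSectionVars false

namespace Crest.Agent.R042.Asm220

open Finset Crest.Agent.R042.Conn353 Crest.Agent.R042.Menger353 Crest.Agent.R042.Crit374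

/-- Theorem TW (sec 05), as a statement. -/
def TWStmt : Prop :=
  ∀ {V : Type} [DecidableEq V] (G : SimpleGraph V) (W X : Finset V) (k : ℕ), 1 ≤ k →
    X.card ≤ 2 * k → Link870.Massed G W X (8 * k) → Link870.Linked G W X

/-- linked sets give the hub property of the assembly. -/
theorem hubLinked_of_linked {V : Type*} [DecidableEq V] {G : SimpleGraph V} {H0 Y0 : Finset V}
    {n : ℕ} (h : ∀ X, X ⊆ Y0 → X.card ≤ n → Link870.Linked G H0 X) : HubLinked G H0 Y0 n := by
  classical
  intro m s t Bl hs ht hst hsY htY hBl hsB htB hn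
  set X : Finset V := (Finset.univ.image s ∪ Finset.univ.image t) ∪ Bl with hX
  have hXY : X ⊆ Y0 := by
    intro x hx
    rw [hX, Finset.mem_union, Finset.mem_union, Finset.mem_image, Finset.mem_image] at hx
    rcases hx with (⟨i, -, rfl⟩ | ⟨i, -, rfl⟩) | hx
    · exact hsY i
    · exact htY i
    · exact hBl hx
  have hXc : X.card ≤ n := by
    refine (Finset.card_union_le _ _).trans ?_
    have h1 := Finset.card_union_le (Finset.univ.image s) (Finset.univ.image t)
    have h2 : (Finset.univ.image s).card ≤ m := by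
      simpa using (Finset.card_image_le (s := (Finset.univ : Finset (Fin m))) (f := s))
    have h3 : (Finset.univ.image t).card ≤ m := by
      simpa using (Finset.card_image_le (s := (Finset.univ : Finset (Fin m))) (f := t))
    omega
  have hsX : ∀ i, s i ∈ X := fun i =>
    Finset.mem_union_left _ (Finset.mem_union_left _ (Finset.mem_image_of_mem s (Finset.mem_univ i)))
  have htX : ∀ i, t i ∈ X := fun i =>
    Finset.mem_union_left _ (Finset.mem_union_right _
      (Finset.mem_image_of_mem t (Finset.mem_univ i)))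
  obtain ⟨P, hP⟩ := h X hXY hXc m s t hsX htX hs ht hst
  refine ⟨P, fun i => ⟨hP.sub i, hP.conn i, hP.left i, hP.right i⟩, hP.disj, ?_⟩
  intro i
  rw [Finset.disjoint_left]
  intro x hx hxB
  rcases hP.meet i x hx (Finset.mem_union_right _ hxB) with h1 | h1
  · exact hsB i (h1 ▸ hxB)
  · exact htB i (h1 ▸ hxB)

/-- sec 07 (1)-(8) = 10.8 in abstract form. -/
theorem manyHard (hLegs : LegsStmt) (hTW : TWStmt) {V : Type} [DecidableEq V]
    (G : SimpleGraph V) {S g : ℕ} (hS : 2 ≤ S) (hg : 1 ≤ g) (W Z : Finset V) (θ kH : ℕ)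
    (hC2 : ∀ A B, Sep G W A B → (A ∩ B).card ≤ θ → A \ B ⊆ Z ∨ B \ A ⊆ Z)
    (X : Option (Pr S) → Finset V) (hXW : ∀ j, X j ⊆ W \ Z)
    (hXd : ∀ i j, i ≠ j → Disjoint (X i) (X j)) (hX : ∀ j, ¬ Choos G (X j) kH)
    (hW : ∀ H ZH, H ⊆ W \ Z → Crit G H ZH kH (4 * (4 * g + 4 * g * Fintype.card (Pr S))) →
      Woven G H (H \ ZH) (4 * g) (4 * g * Fintype.card (Pr S)))
    (hk : 64 * (4 * g * Fintype.card (Pr S)) ≤ kH)
    (hθ : (16 * Fintype.card (Pr S) + 9) * (4 * g * Fintype.card (Pr S)) ≤ θ) :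
    ∃ B : Fin (S * g) → Finset V, (∀ i, B i ⊆ W) ∧
      Crest.CombinatoricsR.GraphMinor.IsCliqueMinorModel G B := by
  classical
  set M : ℕ := Fintype.card (Pr S) with hM
  have hM1 : 1 ≤ M := by
    rw [hM]
    exact Fintype.card_pos_iff.2
      ⟨⟨(⟨0, by omega⟩, ⟨1, by omega⟩), by rw [Fin.lt_def]; exact Nat.zero_lt_one⟩⟩
  set c : ℕ := 4 * g * M with hc
  have hac : 4 * g ≤ c := by rw [hc]; exact Nat.le_mul_of_pos_right _ hM1
  have hc1 : 1 ≤ c := by omega
  -- the pieces
  have hpiece : ∀ j : Pr S, ∃ H ZH, H ⊆ X (some j) ∧ Crit G H ZH kH (4 * (4 * g + c)) :=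
    fun j => exists_crit (hX (some j)) _
  choose H ZH hHX hHcrit using hpiece
  obtain ⟨H0, Z0, hH0X, hH0crit⟩ := exists_crit (hX none) (4 * c)
  have hHWZ : ∀ j, H j ⊆ W \ Z := fun j => (hHX j).trans (hXW _)
  have hH0WZ : H0 ⊆ W \ Z := hH0X.trans (hXW _)
  have hZc : ∀ j, (ZH j).card ≤ 16 * c := fun j => (hHcrit j).card_le.trans (by omega)
  have hsd : ∀ j, H j \ (H j \ ZH j) = ZH j := fun j =>
    Finset.sdiff_sdiff_eq_self (hHcrit j).sub
  have hsd0 : H0 \ (H0 \ Z0) = Z0 := Finset.sdiff_sdiff_eq_self hH0crit.sub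
  have hθ' : 4 * g * M + (∑ j, (H j \ (H j \ ZH j)).card + (H0 \ (H0 \ Z0)).card) ≤ θ := by
    have h1 : ∑ j, (H j \ (H j \ ZH j)).card ≤ M * (16 * c) := by
      rw [hM, ← Finset.card_univ, ← smul_eq_mul]
      refine Finset.sum_le_card_nsmul _ _ _ ?_
      intro j _
      rw [hsd j]; exact hZc j
    have h2 : (H0 \ (H0 \ Z0)).card ≤ 8 * c := by
      rw [hsd0]; exact hH0crit.card_le.trans (by omega)
    have h3 : c + (M * (16 * c) + 8 * c) = (16 * M + 9) * c := by ring
    omega
  refine assembly_of hLegs Tok890.tokensStmt G hS W Z H0 (H0 \ Z0) H (fun j => H j \ ZH j) θ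
    (fun j => Finset.sdiff_subset) (fun j => (hHWZ j).trans Finset.sdiff_subset)
    Finset.sdiff_subset (hH0WZ.trans Finset.sdiff_subset) ?_ ?_ ?_ ?_ ?_ ?_ hC2 hθ' ?_ ?_
  · intro i j hij
    exact Finset.disjoint_of_subset_left (hHX i)
      (Finset.disjoint_of_subset_right (hHX j) (hXd _ _ (fun h => hij (Option.some.inj h))))
  · intro j
    exact Finset.disjoint_of_subset_left (hHX j)
      (Finset.disjoint_of_subset_right hH0X (hXd _ _ (by simp)))
  · intro j
    exact Finset.disjoint_of_subset_left (Finset.sdiff_subset.trans (hHWZ j))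
      Finset.sdiff_disjoint
  · exact Finset.disjoint_of_subset_left (Finset.sdiff_subset.trans hH0WZ)
      Finset.sdiff_disjoint
  · intro j
    have := (hHcrit j).card_lt (by omega)
    omega
  · have := hH0crit.card_lt (by omega)
    show 4 * g * M ≤ _
    omega
  · intro j
    exact hW (H j) (ZH j) (hHWZ j) (hHcrit j)
  · refine hubLinked_of_linked ?_
    intro X' hX' hX'c
    replace hX'c : X'.card ≤ c := hX'c
    refine hTW G H0 X' (2 * c) (by omega) (by omega) ?_
    have := Hub872.hub_massed (ka := c) hc1 hk hH0crit hX' (by omega)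
    have h16 : 8 * (2 * c) = 16 * c := by ring
    rw [h16]
    exact this

end Crest.Agent.R042.Asm220
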