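import Mathlib
import Crest.Agent.R042.AsmDefs_220
import Crest.Agent.R042.Spine_883

/-! Row 42 / S0058: the statement of THEOREM W' (any order) in the form used by 10.8. -/

set_option autoImplicit false
set_option linter.unusedSectionVars false

namespace Crest.Agent.R042.Asm220

open Crest.Agent.R042.Crit374 Crest.Agent.R042.Spine883

/-- THEOREM W' with existential constants: for `c ≤ K h`, critical pairs of level
`k ≥ F(2a-1) + F h / 16` are woven. -/
def WPrime (K : ℕ) : Prop :=
  ∃ C s F1 : ℕ, 1 ≤ s ∧ ∀ F, F1 ≤ F → ∀ h, 1 ≤ h → IHyp F h → SmallSets F h C s →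
    ∀ a c : ℕ, 1 ≤ a → 2 * a ≤ h → c ≤ K * h →
    ∀ (V : Type) [DecidableEq V] (G : SimpleGraph V) (H Z : Finset V) (k : ℕ),
      NoModel G H (h + 1) → F * (2 * a - 1) + F * h / 16 ≤ k → k ≤ F * h →
      Crit G H Z k (4 * (a + c)) → Woven G H (H \ Z) a c

end Crest.Agent.R042.Asm220
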