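import Mathlib
import Crest.Agent.R042.ManyHard_220
import Crest.Agent.R042.WPrime_220
import Crest.Agent.R042.Legs_153
import Crest.Agent.R042.SmallBase_333

/-! Row 42 / S0058: block B8 (= 10.8) from Theorem TW and Theorem W'. -/

set_option autoImplicit false
set_option linter.unusedSectionVars false

namespace Crest.Agent.R042.Asm220

open Finset Crest.Agent.R042.Conn353 Crest.Agent.R042.Menger353 Crest.Agent.R042.Crit374
open Crest.Agent.R042.Spine883

/-- block B8 (10.8). -/
theorem b8_of (hTW : TWStmt) (hWP : ∀ K, WPrime K) : B8 := by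
  classical
  obtain ⟨C, s, F1, hs, hW⟩ := hWP (4 * Fintype.card (Pr 64))
  set M : ℕ := Fintype.card (Pr 64) with hM
  refine ⟨Fintype.card (Option (Pr 64)), (16 * M + 9) * (4 * M), C, s,
    F1 + 512 * M + 2 * (2 ^ 65 + 2), hs, ?_⟩
  intro F hF h hh hIH hSm V _ G W Z hno hcrit
  rintro ⟨X, hXd, hXW, hXh⟩
  by_cases hsmall : h < 64
  · -- small `h`: Mader
    let i : Fin (Fintype.card (Option (Pr 64))) := Fintype.equivFin _ none
    have h1 : ¬ Mader375.Model G (X i) (h + 1) := by
      rw [← noModel_iff]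
      exact hno.mono ((hXW i).trans Finset.sdiff_subset)
    have h2 := Small333.choos_of_no_model h1
    refine hXh i (h2.mono_card ?_)
    have h3 : 2 ^ (h + 1) ≤ 2 ^ 65 := Nat.pow_le_pow_right (by norm_num) (by omega)
    have h4 : F * 1 ≤ F * h := Nat.mul_le_mul_left F hh
    generalize 2 ^ (h + 1) = q at h3 ⊢
    omega
  · push Not at hsmall
    set g : ℕ := h / 64 + 1 with hg
    have hg64 : h + 1 ≤ 64 * g := by omega
    have hgh : g ≤ h := by omega
    have hno' : NoModel G W (64 * g) := hno.le hg64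
    have hc1 : 4 * g * M ≤ 4 * M * h := by
      calc 4 * g * M = 4 * M * g := by ring
        _ ≤ 4 * M * h := Nat.mul_le_mul_left _ hgh
    have hFh : F * 1 ≤ F * h := Nat.mul_le_mul_left F hh
    have hWov : ∀ H ZH, H ⊆ W \ Z → Crit G H ZH (F * h / 2) (4 * (4 * g + 4 * g * M)) →
        Woven G H (H \ ZH) (4 * g) (4 * g * M) := by
      intro H ZH hH hc
      refine hW F (by omega) h hh hIH hSm (4 * g) (4 * g * M) (by omega) (by omega) hc1 V G H ZH
        (F * h / 2) (hno.mono (hH.trans Finset.sdiff_subset)) ?_ (Nat.div_le_self _ _) hc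
      -- F * (8 g - 1) + F h / 16 ≤ F h / 2
      have h1 : 32 * (2 * (4 * g) - 1) ≤ 12 * h := by omega
      have h2 : 32 * (F * (2 * (4 * g) - 1)) ≤ 12 * (F * h) := by
        calc 32 * (F * (2 * (4 * g) - 1)) = F * (32 * (2 * (4 * g) - 1)) := by ring
          _ ≤ F * (12 * h) := Nat.mul_le_mul_left F h1
          _ = 12 * (F * h) := by ring
      omega
    have hk64 : 64 * (4 * g * M) ≤ F * h / 2 := by
      have h2 : (512 * M) * h ≤ F * h := Nat.mul_le_mul_right h (by omega)
      have h3 : 2 * (64 * (4 * g * M)) ≤ F * h := by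
        calc 2 * (64 * (4 * g * M)) ≤ 2 * (64 * (4 * M * h)) :=
              Nat.mul_le_mul_left _ (Nat.mul_le_mul_left _ hc1)
          _ = (512 * M) * h := by ring
          _ ≤ F * h := h2
      omega
    have hθ : (16 * M + 9) * (4 * g * M) ≤ (16 * M + 9) * (4 * M) * h := by
      calc (16 * M + 9) * (4 * g * M) ≤ (16 * M + 9) * (4 * M * h) := Nat.mul_le_mul_left _ hc1
        _ = (16 * M + 9) * (4 * M) * h := by ring
    obtain ⟨B, hB1, hB2⟩ := manyHard Legs153.legs hTW G (S := 64) (g := g) (by norm_num)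
      (by omega) W Z ((16 * M + 9) * (4 * M) * h) (F * h / 2)
      (fun A B hAB hc => hcrit.sep hAB hc)
      (fun j => X (Fintype.equivFin _ j)) (fun j => hXW _)
      (fun i j hij => hXd _ _ (fun h => hij ((Fintype.equivFin _).injective h)))
      (fun j => hXh _) hWov hk64 hθ
    exact hno' B hB1 hB2

end Crest.Agent.R042.Asm220
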