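import Mathlib
import Crest.Agent.R042.Cost_365
import Crest.Agent.R042.LemU_132
import Crest.Agent.R042.P1_375

/-! Row 42 (S0058), sec 10.8 (c): the hypothesis `rest` of THEOREM W', any order. -/

set_option autoImplicit false
set_option linter.unusedSectionVars false

namespace Crest.Agent.R042.Rest365

open Finset Conn353 Menger353 Crit374 Mader375 Cost365

variable {V : Type*} [DecidableEq V] {G : SimpleGraph V}

lemma choos_of_card {S : Finset V} {q : ℕ} (h : S.card ≤ q) : Choos G S q := by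
  classical
  rcases S.eq_empty_or_nonempty with rfl | hS
  · exact choos_empty q
  refine choos_of_degenerate (le_trans (card_pos.2 hS) h) fun X hX hne => ?_
  obtain ⟨x, hx⟩ := hne
  refine ⟨x, hx, ?_⟩
  have h1 : X.filter (G.Adj x) ⊆ X.erase x := by
    intro y hy
    rw [mem_filter] at hy
    exact mem_erase.2 ⟨fun e => G.loopless.irrefl x (e ▸ hy.2), hy.1⟩
  have h2 := card_le_card h1
  rw [card_erase_of_mem hx] at h2
  have h3 := card_le_card hX
  omega

/-- a vertex of the ambient set outside a minimal linkage has at most `3 |P|` neighbours on it. -/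
lemma nbr_le_three_mul [DecidableRel G.Adj] {W A B : Finset V} {P : Finset (List V)}
    (hP : Linkage G W A B P)
    (hmin : ∀ Q, Linkage G W A B Q → Q.card = P.card → (verts P).card ≤ (verts Q).card)
    {v : V} (hvW : v ∈ W) (hv : v ∉ verts P) (S : Finset V) (hS : S ⊆ verts P) :
    (S.filter (G.Adj v)).card ≤ 3 * P.card := by
  classical
  have h1 : S.filter (G.Adj v) ⊆ P.biUnion fun l => l.toFinset.filter (G.Adj v) := by
    intro x hx
    rw [mem_filter] at hx
    obtain ⟨l, hl, hxl⟩ := mem_verts.1 (hS hx.1)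
    exact mem_biUnion.2 ⟨l, hl, mem_filter.2 ⟨List.mem_toFinset.2 hxl, hx.2⟩⟩
  refine (card_le_card h1).trans (card_biUnion_le.trans ?_)
  rw [mul_comm, ← smul_eq_mul]
  refine sum_le_card_nsmul _ _ _ fun l hl => ?_
  exact LemU132.outside_three hP hmin hvW hv hl _
    (fun u hu => List.mem_toFinset.1 (mem_filter.1 hu).1) fun u hu => (mem_filter.1 hu).2

/-- removing a small set `J` and a minimal linkage is cheap, in a hard set of any order. -/
theorem hard_rest {W0 H Z A B J : Finset V} {k k'' M h q : ℕ}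
    (hno : ¬ Model G W0 (h + 1)) (hHW : H ⊆ W0) (hhard : ¬ Choos G (H \ Z) k)
    (hJ : J ⊆ H \ Z) (hJq : Choos G J q) (hM : 1 ≤ M) (hq : 2 * M * q ≤ k)
    (hsize : (((1 + 2 ^ h) * J.card : ℕ) : ℝ) < Real.exp (k / (8 * M)))
    {U : Finset (List V)} (hU : Linkage G H A B U)
    (hmin : ∀ Q, Linkage G H A B Q → Q.card = U.card → (verts U).card ≤ (verts Q).card)
    (hnum : h + 2 * U.card + 2 * k / M ≤ k) (hk : k'' + 2 * k / M + h + 3 * U.card ≤ k) :
    ¬ Choos G (((H \ Z) \ J) \ verts U) k'' := by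
  classical
  set V0 := H \ Z with hV0
  have hVH : V0 ⊆ H := sdiff_subset
  have hcost := cost (G := G) V0 J hJ (m := 1) (fun _ => verts U ∩ V0) (fun _ => inter_subset_right)
    (fun i j hij => absurd (Subsingleton.elim i j) hij) k k'' M h 0 (3 * U.card) (2 * U.card) q
    hM hhard hJq hq ?_ ?_ ?_ ?_ (by omega) hk
  · intro hc
    apply hcost
    refine hc.mono ?_
    intro x hx
    rw [mem_sdiff] at hx
    rw [mem_sdiff]
    refine ⟨hx.1, fun hx' => hx.2 ?_⟩
    exact mem_biUnion.2 ⟨0, mem_univ _, mem_inter.2 ⟨hx', (mem_sdiff.1 hx.1).1⟩⟩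
  · refine lt_of_le_of_lt ?_ hsize
    have h1 : ((V0 \ J).filter fun v => h + 1 ≤ (J.filter (G.Adj v)).card).card ≤
        2 ^ h * J.card := by
      refine P1375.outside_single G W0 h hno J (hJ.trans (hVH.trans hHW)) _ ?_ ?_ ?_
      · exact (filter_subset _ _).trans (sdiff_subset.trans (hVH.trans hHW))
      · exact disjoint_sdiff.symm.mono_left (filter_subset _ _)
      · intro t ht
        have := (mem_filter.1 ht).2
        convert this
    have h2 : J.card + ((V0 \ J).filter fun v => h + 1 ≤ (J.filter (G.Adj v)).card).card ≤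
        (1 + 2 ^ h) * J.card := by
      rw [add_mul, one_mul]; omega
    exact_mod_cast h2
  · intro i v hv hvJ
    rw [Nat.le_zero, card_eq_zero, filter_eq_empty_iff]
    intro x hx
    rw [mem_biUnion] at hx
    obtain ⟨j, hj, -⟩ := hx
    rw [mem_filter] at hj
    exact absurd (Subsingleton.elim j i) hj.2.ne
  · intro i
    refine Choos.mono (sdiff_subset.trans inter_subset_left) ?_
    intro L hL
    obtain ⟨c, hc1, hc2⟩ := LemU132.list_colour hU hmin L hL
    exact ⟨c, hc1, hc2⟩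
  · intro v hv hvJ hvQ
    have hvU : v ∉ verts U := fun h => hvQ 0 (mem_inter.2 ⟨h, hv⟩)
    refine nbr_le_three_mul hU hmin (hVH hv) hvU _ ?_
    intro x hx
    obtain ⟨i, -, hi⟩ := mem_biUnion.1 hx
    exact (mem_inter.1 hi).1

/-- a hard set contains a critical pair with a `K_{2a}` model outside its exceptional set. -/
theorem piece_of_hard {R : Finset V} {k'' a F κ : ℕ} (hR : ¬ Choos G R k'')
    (IH : ∀ W, W ⊆ R → ¬ Model G W (2 * a) → Choos G W (F * (2 * a - 1)))
    (hF : F * (2 * a - 1) + 2 * a ≤ k'') (hκ : κ + 2 * a ≤ k'') :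
    ∃ J' Z', J' ⊆ R ∧ Crit G J' Z' k'' a ∧ Z' ⊆ J' ∧ Z'.card ≤ 2 * a ∧
      (∀ A B, Sep G J' A B → (A ∩ B).card ≤ a → A \ B ⊆ Z' ∨ B \ A ⊆ Z') ∧
      κ ≤ (J' \ Z').card ∧ Model G (J' \ Z') (2 * a) := by
  classical
  obtain ⟨S, Z', hS, hc⟩ := exists_crit hR a
  refine ⟨S, Z', hS, hc, hc.sub, hc.card_le, fun A B hAB hcard => hc.sep hAB hcard, ?_, ?_⟩
  · have := hc.card_lt (by omega)
    omega
  · by_contra hm
    have h1 := IH (S \ Z') (sdiff_subset.trans hS) hm
    exact hc.hard (h1.mono_card (by omega))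

/-- **`rest` of WovenStmt, any order** (10.8 (c)). -/
theorem rest_any {W0 H Z X J : Finset V} {kH θ a κ h F M q : ℕ}
    (hno : ¬ Model G W0 (h + 1)) (hHW : H ⊆ W0) (hcrit : Crit G H Z kH θ)
    (hXc : X.card ≤ 2 * κ) (hJ : J ⊆ H \ Z) (hJq : Choos G J q) (hM : 1 ≤ M)
    (hq : 2 * M * q ≤ kH - 2 * θ)
    (hsize : (((1 + 2 ^ h) * J.card : ℕ) : ℝ) < Real.exp ((kH - 2 * θ : ℕ) / (8 * M)))
    (IH : ∀ W, W ⊆ H → ¬ Model G W (2 * a) → Choos G W (F * (2 * a - 1)))
    (hnum : F * (2 * a - 1) + 2 * a + 4 * κ + 2 * (kH - 2 * θ) / M + h + 6 * κ ≤ kH - 2 * θ) :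
    ∀ U : Finset (List V), Linkage G H X J U → U.card = X.card →
      (∀ Q, Linkage G H X J Q → Q.card = U.card → (verts U).card ≤ (verts Q).card) →
      ∃ J' Z', J' ⊆ ((H \ Z) \ J) \ verts U ∧ Z' ⊆ J' ∧ Z'.card ≤ 2 * a ∧
        (∀ A B, Sep G J' A B → (A ∩ B).card ≤ a → A \ B ⊆ Z' ∨ B \ A ⊆ Z') ∧
        4 * κ ≤ (J' \ Z').card ∧ Model G (J' \ Z') (2 * a) := by
  intro U hU hUc hmin
  have hle : U.card ≤ 2 * κ := hUc.le.trans hXc
  have hR := hard_rest (k'' := F * (2 * a - 1) + 2 * a + 4 * κ) hno hHW hcrit.hard hJ hJq hM hq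
    hsize hU hmin (by omega) (by omega)
  obtain ⟨J', Z', h1, -, h2, h3, h4, h5, h6⟩ := piece_of_hard (κ := 4 * κ) hR
    (fun W hW hm => IH W (hW.trans (sdiff_subset.trans (sdiff_subset.trans sdiff_subset))) hm)
    (by omega) (by omega)
  exact ⟨J', Z', h1, h2, h3, h4, h5, h6⟩

end Crest.Agent.R042.Rest365
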