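import Mathlib
import Crest.Agent.R042.WPrime_220
import Crest.Agent.R042.WovenStmt_671
import Crest.Agent.R042.Rest_365

/-! Row 42 / S0058: THEOREM W' with all constants, from the small hub (10.4). -/

set_option autoImplicit false
set_option linter.unusedSectionVars false

namespace Crest.Agent.R042.Asm220

open Finset Crest.Agent.R042.Conn353 Crest.Agent.R042.Menger353 Crest.Agent.R042.Crit374
open Crest.Agent.R042.Spine883

/-- (10.4) small hub, with absolute constants `D0` (degree) and `C0` (size). -/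
def SmallHubStmt (D0 C0 : ℕ) : Prop :=
  ∀ {V : Type} [DecidableEq V] (G : SimpleGraph V) (W : Finset V) (h κ : ℕ), 1 ≤ h → 1 ≤ κ →
    W.Nonempty → ¬ Mader375.Model G W (h + 1) →
    (∀ v ∈ W, D0 * κ ≤ (Link870.nb G W v).card) →
    ∃ J, J ⊆ W ∧ 2 * κ ≤ J.card ∧ J.card ≤ 2 ^ (C0 * h) ∧
      ∀ Y, Y ⊆ J → Y.card ≤ 2 * κ → Link870.Linked G J Y

/-- the numbers of W'. -/
lemma wPrime_nums {A1 A2 A3 FH Fa k κ a h Dκ : ℕ}
    (hbig : 64 * (512 * A1) + 64 * (A3 + 40 * A2) + 64 * (4 * h) ≤ FH) (hh : 1 ≤ h)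
    (hA2h : h ≤ A2) (hκ : κ ≤ A2) (hDκ : Dκ ≤ A3) (haκ : a ≤ κ) (hk1 : Fa + FH / 16 ≤ k)
    (hk2 : k ≤ FH) :
    2 * (4 * κ) ≤ k ∧ 512 * A1 ≤ k - 2 * (4 * κ) ∧ Dκ + 2 * κ ≤ k - 2 * (4 * κ) ∧
      2 * 64 * (FH / 4096) ≤ k - 2 * (4 * κ) ∧ 2 * κ < k - 2 * (4 * κ) ∧
      Fa + 2 * a + 4 * κ + 2 * (k - 2 * (4 * κ)) / 64 + h + 6 * κ ≤ k - 2 * (4 * κ) := by
  refine ⟨?_, ?_, ?_, ?_, ?_, ?_⟩
  all_goals omega

/-- the exponential inequality of W'. -/
lemma wPrime_exp {A1 C0 h J n : ℕ} (hA1 : A1 = (C0 + 2) * h) (hh : 1 ≤ h)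
    (hJ : J ≤ 2 ^ (C0 * h)) (hn : 512 * A1 ≤ n) :
    (((1 + 2 ^ h) * J : ℕ) : ℝ) < Real.exp ((n : ℝ) / (8 * (64 : ℕ))) := by
  have h1 : (1 + 2 ^ h) * J ≤ 2 ^ A1 := by
    have e1 : 1 + 2 ^ h ≤ 2 ^ (h + 1) := by
      have : 1 ≤ 2 ^ h := Nat.one_le_two_pow
      rw [pow_succ]; omega
    calc (1 + 2 ^ h) * J ≤ 2 ^ (h + 1) * 2 ^ (C0 * h) := Nat.mul_le_mul e1 hJ
      _ = 2 ^ (h + 1 + C0 * h) := by rw [← pow_add]
      _ ≤ 2 ^ A1 := by
          apply Nat.pow_le_pow_right (by norm_num)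
          have : A1 = C0 * h + 2 * h := by rw [hA1]; ring
          omega
  have hA1pos : 1 ≤ A1 := by
    rw [hA1]
    exact Nat.one_le_iff_ne_zero.2 (Nat.mul_ne_zero (by omega) (by omega))
  have h3 : (A1 : ℝ) ≤ (n : ℝ) / (8 * (64 : ℕ)) := by
    rw [le_div_iff₀ (by norm_num)]
    have : ((512 * A1 : ℕ) : ℝ) ≤ (n : ℝ) := by exact_mod_cast hn
    push_cast at this ⊢
    linarith
  have h4 : ((2 ^ A1 : ℕ) : ℝ) < Real.exp (A1 : ℝ) := by
    have e2 : (2 : ℝ) < Real.exp 1 := by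
      have := Real.exp_one_gt_d9
      linarith
    have e3 : Real.exp (A1 : ℝ) = (Real.exp 1) ^ A1 := by
      rw [← Real.exp_nat_mul]; ring_nf
    rw [e3]
    push_cast
    exact pow_lt_pow_left₀ e2 (by norm_num) (by omega)
  calc (((1 + 2 ^ h) * J : ℕ) : ℝ) ≤ ((2 ^ A1 : ℕ) : ℝ) := by exact_mod_cast h1
    _ < Real.exp (A1 : ℝ) := h4
    _ ≤ Real.exp ((n : ℝ) / (8 * (64 : ℕ))) := Real.exp_le_exp.2 h3

/-- THEOREM W' with constants. -/
theorem wPrime_of_hub {D0 C0 : ℕ} (hHub : SmallHubStmt D0 C0) (K : ℕ) : WPrime K := by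
  classical
  refine ⟨C0, 4096, 16 * (512 * (C0 + 2) + (D0 + 40) * (K + 1) + 4) * 4, by norm_num, ?_⟩
  intro F hF h hh hIH hSm a c ha h2a hcK V _ G H Z k hno hk1 hk2 hcrit
  -- basic numbers
  have hκ1 : 1 ≤ a + c := by omega
  have hκh : a + c ≤ (K + 1) * h := by
    have : (K + 1) * h = K * h + h := by ring
    omega
  have hFh : (16 * (512 * (C0 + 2) + (D0 + 40) * (K + 1) + 4) * 4) * h ≤ F * h :=
    Nat.mul_le_mul_right h hF
  have hbig : 64 * (512 * ((C0 + 2) * h)) + 64 * (D0 * ((K + 1) * h) + 40 * ((K + 1) * h))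
      + 64 * (4 * h) ≤ F * h := by
    refine le_of_eq_of_le ?_ hFh
    ring
  obtain ⟨n1, n2, n3, n4, n5, n6⟩ := wPrime_nums (κ := a + c) (a := a) hbig hh
    (Nat.le_mul_of_pos_left h (Nat.succ_pos K)) hκh (Nat.mul_le_mul_left D0 hκh)
    (Nat.le_add_right a c) hk1 hk2
  have hnoM : ¬ Mader375.Model G H (h + 1) := by rw [← noModel_iff]; exact hno
  have hZc : Z.card ≤ 2 * (4 * (a + c)) := hcrit.card_le
  -- apply Theorem W
  refine WovenStmt671.wovenStmt G H Z a c (a + c) (4 * (a + c)) ha hcrit.sub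
    (fun A B hAB hc => hcrit.sep hAB hc) le_rfl (by omega) ?_
  intro X hX hXc
  -- the hub
  have hW'ne : ((H \ Z) \ X).Nonempty := by
    have h1 := hcrit.card_lt n1
    have h2 : (H \ Z).card ≤ ((H \ Z) \ X).card + X.card :=
      Finset.card_le_card_sdiff_add_card
    apply Finset.card_pos.1
    omega
  have hnoW' : ¬ Mader375.Model G ((H \ Z) \ X) (h + 1) := by
    rw [← noModel_iff]
    exact hno.mono (Finset.sdiff_subset.trans Finset.sdiff_subset)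
  have hdeg : ∀ v ∈ (H \ Z) \ X, D0 * (a + c) ≤ (Link870.nb G ((H \ Z) \ X) v).card := by
    intro v hv
    have hvHZ : v ∈ H \ Z := (Finset.mem_sdiff.1 hv).1
    have h1 := hcrit.deg' hvHZ
    have h2 : (H \ Z).filter (G.Adj v) ⊆ Link870.nb G ((H \ Z) \ X) v ∪ X := by
      intro u hu
      rw [Finset.mem_filter] at hu
      rw [Finset.mem_union, Link870.mem_nb]
      by_cases huX : u ∈ X
      · exact Or.inr huX
      · exact Or.inl ⟨Finset.mem_sdiff.2 ⟨hu.1, huX⟩, hu.2⟩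
    have h3 := (Finset.card_le_card h2).trans (Finset.card_union_le _ _)
    omega
  obtain ⟨J, hJW, hJc, hJsmall, hJlink⟩ := hHub G _ h (a + c) hh hκ1 hW'ne hnoW' hdeg
  have hJHZ : J ⊆ H \ Z := hJW.trans Finset.sdiff_subset
  refine ⟨J, hJW, hJc, hJlink, ?_⟩
  -- choosability of the hub
  have hJq : Choos G J (F * h / 4096) :=
    hSm V G J (hno.mono (hJHZ.trans Finset.sdiff_subset)) hJsmall
  have hsize := wPrime_exp rfl hh hJsmall n2
  have hIH' : ∀ W, W ⊆ H → ¬ Mader375.Model G W (2 * a) → Choos G W (F * (2 * a - 1)) := by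
    intro W _ hW
    refine hIH (2 * a - 1) (by omega) V G W ?_
    rw [noModel_iff]
    have : 2 * a - 1 + 1 = 2 * a := by omega
    rw [this]; exact hW
  intro U hU hUc hmin
  obtain ⟨J', Z', h1, h2, h3, h4, h5, h6⟩ := Rest365.rest_any hnoM le_rfl
    hcrit hXc hJHZ hJq (by norm_num) n4 hsize hIH' n6 U hU hUc hmin
  exact ⟨J', Z', h1, h2, h3, h4, le_trans (Nat.mul_le_mul_right _ (by norm_num)) h5, h6⟩

end Crest.Agent.R042.Asm220
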