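import Mathlib
import Crest.Agent.R042.B8_220
import Crest.Agent.R042.WPrimeProof_220
import Crest.Agent.R042.TW_870
import Crest.Agent.R042.SmallHub_667
import Crest.Agent.R042.SmallDenseM_667

/-! Row 42 / S0058: block B8 (= 10.8), unconditional. -/

set_option autoImplicit false
set_option linter.unusedSectionVars false

namespace Crest.Agent.R042.Asm220

open Finset Crest.Agent.R042.Conn353 Crest.Agent.R042.Menger353 Crest.Agent.R042.Crit374

theorem twStmt : TWStmt := fun _ _ _ _ hk hX hM => TW870.tw hk hM hX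

theorem smallHub : SmallHubStmt 128 64 := by
  intro V _ G W h κ hh hκ hW hno hdeg
  have hD : 2 * (64 * κ) * W.card ≤ Mader375.e2 G W := by
    have h1 : ∑ v ∈ W, 128 * κ ≤ ∑ v ∈ W, Mader375.dg G W v := by
      refine Finset.sum_le_sum fun v hv => ?_
      refine (hdeg v hv).trans (le_of_eq ?_)
      unfold Link870.nb Mader375.dg
      congr
    rw [Finset.sum_const, smul_eq_mul] at h1
    unfold Mader375.e2
    calc 2 * (64 * κ) * W.card = W.card * (128 * κ) := by ring
      _ ≤ _ := h1
  obtain ⟨J, h1, h2, h3, h4, h5, h6⟩ := SmallHub667.small_hub G W (k := κ) (D := 64 * κ) hκ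
    (fun J X hM hX => TW870.tw hκ hM hX) hh hW hno le_rfl hD
  exact ⟨J, h1, by omega, h3, h6⟩

/-- THEOREM W'. -/
theorem wPrime (K : ℕ) : WPrime K := wPrime_of_hub smallHub K

/-- block B8. -/
theorem b8 : Spine883.B8 := b8_of twStmt wPrime

end Crest.Agent.R042.Asm220
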