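import Mathlib

/-! Entropic Brascamp–Lieb over finite fields, lattice form (Harder–Narasimhan chain).
`h` supermodular and monotone on the subspaces of a finite vector space. -/

set_option autoImplicit false
set_option linter.unusedSectionVars false
set_option linter.unusedSimpArgs false

open Module

namespace Crest.Agent.R042.BL582

variable {K V : Type*} [Field K] [AddCommGroup V] [Module K V] [Finite V]

noncomputable local instance : Fintype (Submodule K V) := by
  classical
  haveI : Finite (Submodule K V) := by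
    apply Finite.of_injective (fun S : Submodule K V => (S : Set V))
    exact SetLike.coe_injective
  exact Fintype.ofFinite _

/-- the rank as a real number -/
noncomputable def rk (S : Submodule K V) : ℝ := (finrank K S : ℝ)

lemma rk_nonneg (S : Submodule K V) : 0 ≤ rk S := Nat.cast_nonneg _

lemma rk_bot : rk (⊥ : Submodule K V) = 0 := by simp [rk]

lemma rk_mod [Module.Finite K V] (S T : Submodule K V) : rk (S ⊔ T) + rk (S ⊓ T) = rk S + rk T := by
  unfold rk
  exact_mod_cast Submodule.finrank_sup_add_finrank_inf_eq S T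

lemma rk_mono [Module.Finite K V] {S T : Submodule K V} (h : S ≤ T) : rk S ≤ rk T := by
  unfold rk
  exact_mod_cast Submodule.finrank_mono h

lemma rk_lt [Module.Finite K V] {S T : Submodule K V} (h : S < T) : rk S < rk T := by
  unfold rk
  exact_mod_cast Submodule.finrank_lt_finrank_of_lt h

/-- sup of `ψ` over the subspaces of `W` -/
noncomputable def hull (ψ : Submodule K V → ℝ) (W : Submodule K V) : ℝ := by
  classical
  exact (Finset.univ.filter (fun S : Submodule K V => S ≤ W)).sup' ⟨⊥, by simp⟩ ψ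

lemma le_hull (ψ : Submodule K V → ℝ) {S W : Submodule K V} (h : S ≤ W) : ψ S ≤ hull ψ W := by
  classical
  unfold hull
  exact Finset.le_sup' ψ (by simp [h])

lemma exists_hull (ψ : Submodule K V → ℝ) (W : Submodule K V) : ∃ S ≤ W, hull ψ W = ψ S := by
  classical
  obtain ⟨S, hS, h⟩ := Finset.exists_mem_eq_sup' (s := Finset.univ.filter (fun S : Submodule K V => S ≤ W))
    ⟨⊥, by simp⟩ ψ
  exact ⟨S, by simpa using hS, h⟩

lemma hull_mono (ψ : Submodule K V → ℝ) : Monotone (hull ψ) := by
  intro W W' hW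
  obtain ⟨S, hS, h⟩ := exists_hull ψ W
  rw [h]
  exact le_hull ψ (hS.trans hW)

lemma hull_bot (ψ : Submodule K V → ℝ) : hull ψ ⊥ = ψ ⊥ := by
  obtain ⟨S, hS, h⟩ := exists_hull ψ ⊥
  rw [h, le_bot_iff.1 hS]

lemma hull_super (ψ : Submodule K V → ℝ)
    (hsup : ∀ S T, ψ S + ψ T ≤ ψ (S ⊔ T) + ψ (S ⊓ T)) (S T : Submodule K V) :
    hull ψ S + hull ψ T ≤ hull ψ (S ⊔ T) + hull ψ (S ⊓ T) := by
  obtain ⟨A, hA, h1⟩ := exists_hull ψ S
  obtain ⟨B, hB, h2⟩ := exists_hull ψ T
  rw [h1, h2]
  refine (hsup A B).trans (add_le_add (le_hull ψ (sup_le_sup hA hB)) (le_hull ψ (inf_le_inf hA hB)))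

/-- **(BL)**: the Harder–Narasimhan chain of a supermodular function. -/
theorem bl_aux [Module.Finite K V] (r : ℕ) :
    ∀ (c : ℝ) (_ : 0 ≤ c) (h : Submodule K V → ℝ) (_ : h ⊥ = 0)
      (_ : ∀ S T, h S + h T ≤ h (S ⊔ T) + h (S ⊓ T)) (_ : Monotone h)
      (_ : ∀ S, h S ≤ c * rk S) (Y : Submodule K V) (_ : finrank K Y ≤ r),
      ∃ (S : Fin r → Submodule K V) (ν : Fin r → ℝ), (∀ i, 0 ≤ ν i) ∧ (∀ i, S i ≤ Y) ∧ Antitone S ∧
        ∑ i, ν i * rk (S i) = h Y ∧ ∑ i, ν i ≤ c ∧
        ∀ W, h (W ⊓ Y) ≤ ∑ i, ν i * rk (W ⊓ S i) := by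
  induction r with
  | zero =>
    intro c hc h h0 hsup hmono hbd Y hY
    have hYb : Y = ⊥ := by
      apply Submodule.finrank_eq_zero.1
      omega
    subst hYb
    refine ⟨fun _ => ⊥, fun _ => 0, by simp, by simp, fun _ _ _ => le_rfl, by simp [h0], by simpa using hc, ?_⟩
    intro W
    simp [h0]
  | succ r ih =>
    intro c hc h h0 hsup hmono hbd Y hY
    classical
    by_cases hYb : Y = ⊥
    · subst hYb
      refine ⟨fun _ => ⊥, fun _ => 0, by simp, by simp, fun _ _ _ => le_rfl, by simp [h0], by simpa using hc, ?_⟩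
      intro W
      simp [h0]
    -- slopes
    have hYlt : (⊥ : Submodule K V) < Y := bot_lt_iff_ne_bot.2 hYb
    let F : Finset (Submodule K V) := Finset.univ.filter (fun S => S < Y)
    have hF : F.Nonempty := ⟨⊥, by simp [F, hYlt]⟩
    obtain ⟨S', hS'F, hS'min⟩ := Finset.exists_min_image F (fun S => (h Y - h S) / (rk Y - rk S)) hF
    have hS' : S' < Y := by simpa [F] using hS'F
    set t : ℝ := (h Y - h S') / (rk Y - rk S') with ht
    have hden : 0 < rk Y - rk S' := sub_pos.2 (rk_lt hS')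
    have ht0 : 0 ≤ t := div_nonneg (sub_nonneg.2 (hmono hS'.le)) hden.le
    have htc : t ≤ c := by
      have h1 := hS'min ⊥ (by simp [F, hYlt])
      have hY0 : 0 < rk Y := by
        have := rk_lt hYlt
        rwa [rk_bot] at this
      rw [h0, rk_bot, sub_zero, sub_zero] at h1
      refine h1.trans ?_
      rw [div_le_iff₀ hY0]
      exact hbd Y
    let ψ : Submodule K V → ℝ := fun S => h S - t * rk S
    have hψS' : ψ S' = ψ Y := by
      have : t * (rk Y - rk S') = h Y - h S' := by
        rw [ht]; field_simp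
      simp only [ψ]; linarith
    have hψY : ∀ S ≤ Y, ψ S ≤ ψ S' := by
      intro S hS
      rw [hψS']
      rcases hS.lt_or_eq with hlt | heq
      · have h1 := hS'min S (by simp [F, hlt])
        have hd : 0 < rk Y - rk S := sub_pos.2 (rk_lt hlt)
        have h2 : t * (rk Y - rk S) ≤ h Y - h S := by
          rw [le_div_iff₀ hd] at h1
          exact h1
        simp only [ψ]; linarith
      · rw [heq]
    have hψsup : ∀ S T, ψ S + ψ T ≤ ψ (S ⊔ T) + ψ (S ⊓ T) := by
      intro S T
      have h1 := hsup S T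
      have h2 := rk_mod S T
      simp only [ψ]
      nlinarith [h1, h2]
    have hH0 : hull ψ ⊥ = 0 := by rw [hull_bot]; simp [ψ, h0, rk_bot]
    have hHbd : ∀ S, hull ψ S ≤ (c - t) * rk S := by
      intro S
      obtain ⟨A, hA, hA'⟩ := exists_hull ψ S
      rw [hA']
      have h1 := hbd A
      have h2 := rk_mono hA
      have h3 : (c - t) * rk A ≤ (c - t) * rk S := mul_le_mul_of_nonneg_left h2 (sub_nonneg.2 htc)
      simp only [ψ]; linarith
    have hrank : finrank K S' ≤ r := by
      have := Submodule.finrank_lt_finrank_of_lt hS'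
      omega
    obtain ⟨S, ν, hν, hSle, hanti, hsum, hsumν, hW⟩ :=
      ih (c - t) (sub_nonneg.2 htc) (hull ψ) hH0 (hull_super ψ hψsup) (hull_mono ψ) hHbd S' hrank
    have hHS' : hull ψ S' = ψ S' := by
      apply le_antisymm
      · obtain ⟨A, hA, hA'⟩ := exists_hull ψ S'
        rw [hA']
        exact hψY A (hA.trans hS'.le)
      · exact le_hull ψ le_rfl
    refine ⟨Fin.cons Y S, Fin.cons t ν, ?_, ?_, ?_, ?_, ?_, ?_⟩
    · intro i
      refine Fin.cases ?_ (fun j => ?_) i
      · simpa using ht0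
      · simpa using hν j
    · intro i
      refine Fin.cases ?_ (fun j => ?_) i
      · simp
      · simpa using (hSle j).trans hS'.le
    · intro i j hij
      revert hij
      refine Fin.cases ?_ (fun i' => ?_) i
      · refine Fin.cases ?_ (fun j' => ?_) j
        · intro _; simp
        · intro _; simpa using (hSle j').trans hS'.le
      · refine Fin.cases ?_ (fun j' => ?_) j
        · intro hh
          exact absurd hh (by simp [Fin.le_def])
        · intro hh
          simp only [Fin.cons_succ]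
          exact hanti (by simpa using hh)
    · rw [Fin.sum_univ_succ]
      simp only [Fin.cons_zero, Fin.cons_succ]
      rw [hsum, hHS', hψS']
      simp only [ψ]; ring
    · rw [Fin.sum_univ_succ]
      simp only [Fin.cons_zero, Fin.cons_succ]
      linarith
    · intro W
      rw [Fin.sum_univ_succ]
      simp only [Fin.cons_zero, Fin.cons_succ]
      have h1 : h (W ⊓ Y) = t * rk (W ⊓ Y) + ψ (W ⊓ Y) := by simp only [ψ]; ring
      have h2 : ψ (W ⊓ Y) ≤ ψ ((W ⊓ Y) ⊓ S') := by
        have a := hψsup (W ⊓ Y) S'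
        have b := hψY ((W ⊓ Y) ⊔ S') (sup_le inf_le_right hS'.le)
        linarith
      have h3 : ψ ((W ⊓ Y) ⊓ S') ≤ hull ψ (W ⊓ S') :=
        le_hull ψ (inf_le_inf_right S' inf_le_left)
      have h4 := hW W
      linarith

/-- **(BL)**, global form: for every supermodular monotone `h` with `h ⊥ = 0`, `h S ≤ c · dim S`
there is a decreasing chain `S i` with weights `ν i ≥ 0`, `∑ ν i · dim (S i) = h ⊤`, `∑ ν i ≤ c`, and
`h W ≤ ∑ ν i · dim (W ⊓ S i)` for every subspace `W`. -/
theorem bl [Module.Finite K V] (c : ℝ) (hc : 0 ≤ c) (h : Submodule K V → ℝ) (h0 : h ⊥ = 0)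
    (hsup : ∀ S T, h S + h T ≤ h (S ⊔ T) + h (S ⊓ T)) (hmono : Monotone h)
    (hbd : ∀ S, h S ≤ c * finrank K S) :
    ∃ (S : Fin (finrank K V) → Submodule K V) (ν : Fin (finrank K V) → ℝ), (∀ i, 0 ≤ ν i) ∧ Antitone S ∧
      ∑ i, ν i * finrank K (S i) = h ⊤ ∧ ∑ i, ν i ≤ c ∧
      ∀ W, h W ≤ ∑ i, ν i * finrank K (W ⊓ S i : Submodule K V) := by
  obtain ⟨S, ν, h1, _, h3, h4, h5, h6⟩ := bl_aux (finrank K V) c hc h h0 hsup hmono hbd ⊤
    (by simp)
  refine ⟨S, ν, h1, h3, h4, h5, fun W => ?_⟩
  have := h6 W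
  rwa [inf_top_eq] at this

end Crest.Agent.R042.BL582
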