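import Crest.Agent.R042.B0_333
import Crest.Agent.R042.B8_220
import Crest.Agent.R042.SmallW_132
import Crest.Agent.R042.SmallHubU_667

/-! Row 42 / S0058: block B0 (closed), and B8 from THEOREM W' only. -/

set_option autoImplicit false
set_option linter.unusedSectionVars false

namespace Crest.Agent.R042.Blocks883

open Finset Crest.Agent.R042.Conn353 Crest.Agent.R042.Menger353 Crest.Agent.R042.Crit374
open Crest.Agent.R042.Mader375 (Model)

theorem hubStmt : Small333.HubStmt 128 := by
  intro V _ G W κ h hκ hW hno hdeg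
  rcases Nat.eq_zero_or_pos h with rfl | hh
  · exfalso
    rw [zero_add] at hno
    have := (Spine883.noModel_iff.2 hno).eq_empty
    rw [this] at hW
    exact Finset.not_nonempty_empty hW
  · obtain ⟨J, h1, _, _, _, h5, h6⟩ := SmallHub667.hub_deg G W hκ hh hW hno hdeg
    exact ⟨J, h1, by omega, h6⟩

/-- **block B0 (10.0).** -/
theorem b0 : Spine883.B0 := Small333.b0_of hubStmt (SmallW132.smallWovenStmt 128)

theorem twStmt : Asm220.TWStmt := by
  intro V _ G W X k hk hX hM
  exact TW870.tw hk hM hX

/-- block B8 (10.8) from THEOREM W'. -/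
theorem b8_of_wPrime (hWP : ∀ K, Asm220.WPrime K) : Spine883.B8 := Asm220.b8_of twStmt hWP

end Crest.Agent.R042.Blocks883
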