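import Mathlib

/-!
Row 42, S0059, label level: LEMMA CONF (helper921).
`X`, `Y` independent with laws `μ`, `ν` on a finite abelian group `E`; `EX`, `EY` subgroups
(kernels of the "controlled" functionals).  If the conditional laws on the cosets are close to uniform
(outside a set of small mass) and the laws of the controlled parts have bounded density, then
`P(X + Y ∈ W)` is at least `(|W| / (4 |E|)) * (ρ (lam - 2 η) - K (kX + kY))`.
-/

set_option autoImplicit false

namespace Crest.Agent.R042.Conf921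

open Finset

variable {E : Type*} [AddCommGroup E] [Fintype E]

open Classical in
/-- average of `f` over the coset `x + H` -/
noncomputable def avg (H : AddSubgroup E) (f : E → ℝ) (x : E) : ℝ :=
  (∑ h : H, f (x + (h : E))) / (Fintype.card H : ℝ)

open Classical in
lemma card_pos' (H : AddSubgroup E) : (0 : ℝ) < (Fintype.card H : ℝ) := by
  exact_mod_cast Fintype.card_pos

open Classical in
lemma avg_nonneg (H : AddSubgroup E) {f : E → ℝ} (hf : ∀ x, 0 ≤ f x) (x : E) : 0 ≤ avg H f x :=
  div_nonneg (Finset.sum_nonneg fun _ _ => hf _) (card_pos' H).le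

open Classical in
lemma avg_add (H : AddSubgroup E) (f : E → ℝ) (x : E) {h : E} (hh : h ∈ H) :
    avg H f (x + h) = avg H f x := by
  unfold avg
  congr 1
  refine Fintype.sum_equiv (Equiv.addLeft (⟨h, hh⟩ : H)) _ _ (fun k => ?_)
  simp [add_assoc]

open Classical in
/-- `Σ avg f * g = Σ f * g` when `g` is `H`-invariant -/
lemma sum_avg_mul (H : AddSubgroup E) (f g : E → ℝ) (hg : ∀ x, ∀ h ∈ H, g (x + h) = g x) :
    ∑ x, avg H f x * g x = ∑ x, f x * g x := by
  have hc := card_pos' H
  have h1 : ∀ h : H, ∑ x, f (x + (h : E)) * g x = ∑ x, f x * g x := by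
    intro h
    refine Fintype.sum_equiv (Equiv.addRight (h : E)) _ _ (fun x => ?_)
    simp only [Equiv.coe_addRight]
    rw [hg x h h.2]
  calc ∑ x, avg H f x * g x = ∑ x, (∑ h : H, f (x + (h : E)) * g x) / (Fintype.card H : ℝ) := by
        refine Finset.sum_congr rfl fun x _ => ?_
        unfold avg
        rw [← Finset.sum_mul]; ring
    _ = (∑ h : H, ∑ x, f (x + (h : E)) * g x) / (Fintype.card H : ℝ) := by
        rw [← Finset.sum_div, Finset.sum_comm]
    _ = (∑ _h : H, ∑ x, f x * g x) / (Fintype.card H : ℝ) := by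
        simp_rw [h1]
    _ = ∑ x, f x * g x := by
        rw [Finset.sum_const, Finset.card_univ, nsmul_eq_mul]; field_simp

/-- convolution -/
noncomputable def conv (a b : E → ℝ) (w : E) : ℝ := ∑ x, a x * b (w - x)

lemma conv_inv_right (a b : E → ℝ) (H : AddSubgroup E) (hb : ∀ x, ∀ h ∈ H, b (x + h) = b x)
    (w h : E) (hh : h ∈ H) : conv a b (w + h) = conv a b w := by
  unfold conv
  refine Finset.sum_congr rfl fun x _ => ?_
  rw [show w + h - x = (w - x) + h by abel, hb _ h hh]

lemma conv_inv_left (a b : E → ℝ) (H : AddSubgroup E) (ha : ∀ x, ∀ h ∈ H, a (x + h) = a x)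
    (w h : E) (hh : h ∈ H) : conv a b (w + h) = conv a b w := by
  unfold conv
  refine (Fintype.sum_equiv (Equiv.addRight h) _ _ (fun x => ?_)).symm
  simp only [Equiv.coe_addRight]
  rw [ha x h hh, show w + h - (x + h) = w - x by abel]

lemma conv_inv (a b : E → ℝ) (EX EY : AddSubgroup E) (ha : ∀ x, ∀ h ∈ EX, a (x + h) = a x)
    (hb : ∀ x, ∀ h ∈ EY, b (x + h) = b x) (w h : E) (hh : h ∈ EX ⊔ EY) :
    conv a b (w + h) = conv a b w := by
  obtain ⟨u, hu, v, hv, rfl⟩ := AddSubgroup.mem_sup.1 hh
  rw [← add_assoc, conv_inv_right a b EY hb _ v hv, conv_inv_left a b EX ha _ u hu]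

open Classical in
/-- summing an `H`-invariant function over `W` by classes -/
lemma sum_inv_eq (H : AddSubgroup E) (c : E → ℝ) (hc : ∀ x, ∀ h ∈ H, c (x + h) = c x)
    (W : Finset E) :
    (Fintype.card H : ℝ) * ∑ w ∈ W, c w = ∑ z, c z * (#{w ∈ W | z - w ∈ H} : ℝ) := by
  have h1 : ∀ w : E, (Fintype.card H : ℝ) * c w = ∑ z, if z - w ∈ H then c z else 0 := by
    intro w
    have h2 : ∑ z, (if z - w ∈ H then c z else 0) = ∑ z, (if z ∈ H then c (w + z) else 0) := by
      refine Fintype.sum_equiv (Equiv.subRight w) _ _ (fun z => ?_)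
      simp
    rw [h2]
    have h3 : ∀ z, (if z ∈ H then c (w + z) else 0) = if z ∈ H then c w else 0 := by
      intro z
      split_ifs with hz
      · exact hc w z hz
      · rfl
    simp_rw [h3]
    rw [← Finset.sum_filter, Finset.sum_const, nsmul_eq_mul]
    congr 1
    rw [Fintype.card_subtype]
  rw [Finset.mul_sum]
  simp_rw [h1]
  rw [Finset.sum_comm]
  refine Finset.sum_congr rfl fun z _ => ?_
  rw [← Finset.sum_filter, Finset.sum_const, nsmul_eq_mul, mul_comm]

open Classical in
/-- `z` is in a live class: `W` has at least `ρ` times its fair share in the class of `z`. -/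
def Live (EX EY : AddSubgroup E) (W : Finset E) (ρ : ℝ) (z : E) : Prop :=
  ρ * (#W : ℝ) * (Fintype.card (EX ⊔ EY : AddSubgroup E) : ℝ) ≤
    (#{w ∈ W | z - w ∈ EX ⊔ EY} : ℝ) * (Fintype.card E : ℝ)

open Classical in
lemma live_add (EX EY : AddSubgroup E) (W : Finset E) (ρ : ℝ) (z h : E) (hh : h ∈ EX ⊔ EY) :
    Live EX EY W ρ (z + h) ↔ Live EX EY W ρ z := by
  unfold Live
  have : ∀ w, z + h - w ∈ EX ⊔ EY ↔ z - w ∈ EX ⊔ EY := by
    intro w
    rw [show z + h - w = (z - w) + h by abel]
    exact AddSubgroup.add_mem_cancel_right _ hh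
  simp_rw [this]

open Classical in
/-- **LEMMA CONF** -/
theorem conf (EX EY : AddSubgroup E) (μ ν : E → ℝ) (hμ : ∀ x, 0 ≤ μ x) (hν : ∀ x, 0 ≤ ν x)
    (sμ : ∑ x, μ x = 1) (sν : ∑ x, ν x = 1) (W : Finset E) (K η kX kY ρ lam : ℝ)
    (hK : 0 ≤ K) (hρ : 0 ≤ ρ)
    (hkX : ∑ x with μ x < avg EX μ x / 2, avg EX μ x ≤ kX)
    (hkY : ∑ y with ν y < avg EY ν y / 2, avg EY ν y ≤ kY)
    (hηX : ∑ x with K < avg EX μ x * (Fintype.card E : ℝ), μ x ≤ η)
    (hηY : ∑ y with K < avg EY ν y * (Fintype.card E : ℝ), ν y ≤ η)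
    (hlam : lam ≤ ∑ x, ∑ y with Live EX EY W ρ (x + y), μ x * ν y) :
    ((#W : ℝ) / (4 * (Fintype.card E : ℝ))) * (ρ * (lam - 2 * η) - K * (kX + kY)) ≤
      ∑ x, ∑ y with x + y ∈ W, μ x * ν y := by
  set N : ℝ := (Fintype.card E : ℝ) with hN
  have hNpos : 0 < N := by
    rw [hN]; exact_mod_cast Fintype.card_pos
  set a : E → ℝ := avg EX μ with ha
  set b : E → ℝ := avg EY ν with hb
  have ha0 : ∀ x, 0 ≤ a x := avg_nonneg EX hμ
  have hb0 : ∀ x, 0 ≤ b x := avg_nonneg EY hν
  -- truncations
  set a' : E → ℝ := fun x => if K < a x * N then 0 else a x with ha'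
  set b' : E → ℝ := fun y => if K < b y * N then 0 else b y with hb'
  have ha'0 : ∀ x, 0 ≤ a' x := by
    intro x; simp only [ha']; split_ifs
    · exact le_rfl
    · exact ha0 x
  have hb'0 : ∀ x, 0 ≤ b' x := by
    intro x; simp only [hb']; split_ifs
    · exact le_rfl
    · exact hb0 x
  have ha'le : ∀ x, a' x ≤ a x := by
    intro x; simp only [ha']; split_ifs
    · exact ha0 x
    · exact le_rfl
  have hb'le : ∀ x, b' x ≤ b x := by
    intro x; simp only [hb']; split_ifs
    · exact hb0 x
    · exact le_rfl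
  have ha'K : ∀ x, a' x ≤ K / N := by
    intro x; simp only [ha']; split_ifs with h
    · exact div_nonneg hK hNpos.le
    · rw [le_div_iff₀ hNpos]; exact not_lt.1 h
  have hb'K : ∀ x, b' x ≤ K / N := by
    intro x; simp only [hb']; split_ifs with h
    · exact div_nonneg hK hNpos.le
    · rw [le_div_iff₀ hNpos]; exact not_lt.1 h
  have hainv : ∀ x, ∀ h ∈ EX, a (x + h) = a x := fun x h hh => avg_add EX μ x hh
  have hbinv : ∀ x, ∀ h ∈ EY, b (x + h) = b x := fun x h hh => avg_add EY ν x hh
  have ha'inv : ∀ x, ∀ h ∈ EX, a' (x + h) = a' x := by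
    intro x h hh; simp only [ha', hainv x h hh]
  have hb'inv : ∀ x, ∀ h ∈ EY, b' (x + h) = b' x := by
    intro x h hh; simp only [hb', hbinv x h hh]
  have sa : ∑ x, a x = 1 := by
    have := sum_avg_mul EX μ (fun _ => 1) (fun _ _ _ => rfl)
    simpa [sμ] using this
  have sb : ∑ x, b x = 1 := by
    have := sum_avg_mul EY ν (fun _ => 1) (fun _ _ _ => rfl)
    simpa [sν] using this
  -- mass lost by truncation
  have hta : ∑ x, (a x - a' x) ≤ η := by
    have h1 : ∀ x, a x - a' x = a x * (if K < a x * N then 1 else 0) := by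
      intro x; simp only [ha']; split_ifs <;> simp
    simp_rw [h1]
    rw [sum_avg_mul EX μ (fun x => if K < a x * N then 1 else 0)
      (fun x h hh => by simp only [hainv x h hh])]
    simp only [mul_ite, mul_one, mul_zero]
    rw [← Finset.sum_filter]
    exact hηX
  have htb : ∑ x, (b x - b' x) ≤ η := by
    have h1 : ∀ x, b x - b' x = b x * (if K < b x * N then 1 else 0) := by
      intro x; simp only [hb']; split_ifs <;> simp
    simp_rw [h1]
    rw [sum_avg_mul EY ν (fun x => if K < b x * N then 1 else 0)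
      (fun x h hh => by simp only [hbinv x h hh])]
    simp only [mul_ite, mul_one, mul_zero]
    rw [← Finset.sum_filter]
    exact hηY
  -- the live mass of `a' × b'`
  set L : E → ℝ := fun z => if Live EX EY W ρ z then 1 else 0 with hL
  have hLinv : ∀ z, ∀ h ∈ EX ⊔ EY, L (z + h) = L z := by
    intro z h hh; simp only [hL, live_add EX EY W ρ z h hh]
  have hL01 : ∀ z, 0 ≤ L z ∧ L z ≤ 1 := by
    intro z; simp only [hL]; split_ifs <;> norm_num
  have hlam1 : ∑ x, ∑ y with Live EX EY W ρ (x + y), μ x * ν y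
      = ∑ x, ∑ y, a x * b y * L (x + y) := by
    have e1 : ∑ x, ∑ y with Live EX EY W ρ (x + y), μ x * ν y
        = ∑ x, μ x * ∑ y, ν y * L (x + y) := by
      refine Finset.sum_congr rfl fun x _ => ?_
      rw [Finset.sum_filter, Finset.mul_sum]
      refine Finset.sum_congr rfl fun y _ => ?_
      simp only [hL]; split_ifs <;> ring
    have e2 : ∀ x, ∑ y, ν y * L (x + y) = ∑ y, b y * L (x + y) := by
      intro x
      rw [sum_avg_mul EY ν (fun y => L (x + y))]
      intro y h hh
      rw [← add_assoc]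
      exact hLinv _ h (AddSubgroup.mem_sup_right hh)
    rw [e1]
    simp_rw [e2]
    rw [← sum_avg_mul EX μ (fun x => ∑ y, b y * L (x + y))]
    · refine Finset.sum_congr rfl fun x _ => ?_
      rw [Finset.mul_sum]
      refine Finset.sum_congr rfl fun y _ => ?_
      ring
    · intro x h hh
      refine Finset.sum_congr rfl fun y _ => ?_
      rw [show x + h + y = (x + y) + h by abel, hLinv _ h (AddSubgroup.mem_sup_left hh)]
  have hmain : lam - 2 * η ≤ ∑ x, ∑ y, a' x * b' y * L (x + y) := by
    have e1 : ∑ x, ∑ y, a x * b y * L (x + y) - ∑ x, ∑ y, a' x * b' y * L (x + y)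
        ≤ 2 * η := by
      rw [← Finset.sum_sub_distrib]
      have : ∀ x, (∑ y, a x * b y * L (x + y) - ∑ y, a' x * b' y * L (x + y))
          ≤ (a x - a' x) * 1 + a x * ∑ y, (b y - b' y) := by
        intro x
        rw [← Finset.sum_sub_distrib]
        have h2 : ∀ y, a x * b y * L (x + y) - a' x * b' y * L (x + y)
            ≤ (a x - a' x) * b y + a x * (b y - b' y) := by
          intro y
          have l := hL01 (x + y)
          have p1 : 0 ≤ (a x - a' x) * b y := mul_nonneg (sub_nonneg.2 (ha'le x)) (hb0 y)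
          have p2 : 0 ≤ a' x * (b y - b' y) := mul_nonneg (ha'0 x) (sub_nonneg.2 (hb'le y))
          have p3 : a' x * (b y - b' y) ≤ a x * (b y - b' y) :=
            mul_le_mul_of_nonneg_right (ha'le x) (sub_nonneg.2 (hb'le y))
          have : a x * b y * L (x + y) - a' x * b' y * L (x + y)
              = ((a x - a' x) * b y + a' x * (b y - b' y)) * L (x + y) := by ring
          rw [this]
          calc _ ≤ ((a x - a' x) * b y + a' x * (b y - b' y)) * 1 :=
                mul_le_mul_of_nonneg_left l.2 (add_nonneg p1 p2)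
            _ ≤ _ := by linarith
        calc ∑ y, (a x * b y * L (x + y) - a' x * b' y * L (x + y))
            ≤ ∑ y, ((a x - a' x) * b y + a x * (b y - b' y)) :=
              Finset.sum_le_sum fun y _ => h2 y
          _ = (a x - a' x) * 1 + a x * ∑ y, (b y - b' y) := by
              rw [Finset.sum_add_distrib, ← Finset.mul_sum, ← Finset.mul_sum, sb]
      calc ∑ x, (∑ y, a x * b y * L (x + y) - ∑ y, a' x * b' y * L (x + y))
          ≤ ∑ x, ((a x - a' x) * 1 + a x * ∑ y, (b y - b' y)) :=
            Finset.sum_le_sum fun x _ => this x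
        _ = ∑ x, (a x - a' x) + ∑ y, (b y - b' y) := by
            rw [Finset.sum_add_distrib, ← Finset.sum_mul, ← Finset.sum_mul, sa]; ring
        _ ≤ 2 * η := by linarith
    rw [hlam1] at hlam
    linarith
  -- the convolution of `a'` and `b'`
  have hcinv := conv_inv a' b' EX EY ha'inv hb'inv
  set H0 : AddSubgroup E := EX ⊔ EY with hH0
  have hH0pos := card_pos' H0
  have hconv : ρ * (lam - 2 * η) * (#W : ℝ) ≤ N * ∑ w ∈ W, conv a' b' w := by
    have e1 := sum_inv_eq H0 (conv a' b') (fun x h hh => hcinv x h hh) W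
    have e2 : ∑ z, conv a' b' z * (#{w ∈ W | z - w ∈ H0} : ℝ)
        = ∑ x, ∑ y, a' x * b' y * (#{w ∈ W | x + y - w ∈ H0} : ℝ) := by
      unfold conv
      simp_rw [Finset.sum_mul]
      rw [Finset.sum_comm]
      refine Finset.sum_congr rfl fun x _ => ?_
      refine Fintype.sum_equiv (Equiv.subRight x) _ _ (fun z => ?_)
      simp
    have e3 : ρ * (#W : ℝ) * (Fintype.card H0 : ℝ) * ∑ x, ∑ y, a' x * b' y * L (x + y)
        ≤ N * ∑ x, ∑ y, a' x * b' y * (#{w ∈ W | x + y - w ∈ H0} : ℝ) := by
      rw [Finset.mul_sum, Finset.mul_sum]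
      refine Finset.sum_le_sum fun x _ => ?_
      rw [Finset.mul_sum, Finset.mul_sum]
      refine Finset.sum_le_sum fun y _ => ?_
      have hab : 0 ≤ a' x * b' y := mul_nonneg (ha'0 x) (hb'0 y)
      have hcnt : (0 : ℝ) ≤ (#{w ∈ W | x + y - w ∈ H0} : ℝ) := by positivity
      by_cases hl : Live EX EY W ρ (x + y)
      · have hl1 : L (x + y) = 1 := by simp only [hL, hl, if_true]
        rw [hl1]
        have hl2 : ρ * (#W : ℝ) * (Fintype.card H0 : ℝ) ≤
            (#{w ∈ W | x + y - w ∈ H0} : ℝ) * N := hl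
        calc ρ * (#W : ℝ) * (Fintype.card H0 : ℝ) * (a' x * b' y * 1)
            = (a' x * b' y) * (ρ * (#W : ℝ) * (Fintype.card H0 : ℝ)) := by ring
          _ ≤ (a' x * b' y) * ((#{w ∈ W | x + y - w ∈ H0} : ℝ) * N) :=
              mul_le_mul_of_nonneg_left hl2 hab
          _ = _ := by ring
      · have hl1 : L (x + y) = 0 := by simp only [hL, hl, if_false]
        rw [hl1, mul_zero, mul_zero]
        exact mul_nonneg hNpos.le (mul_nonneg hab hcnt)
    have e4 : ρ * (#W : ℝ) * (Fintype.card H0 : ℝ) * (lam - 2 * η)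
        ≤ ρ * (#W : ℝ) * (Fintype.card H0 : ℝ) * ∑ x, ∑ y, a' x * b' y * L (x + y) :=
      mul_le_mul_of_nonneg_left hmain (by positivity)
    have e5 : (Fintype.card H0 : ℝ) * (ρ * (lam - 2 * η) * (#W : ℝ))
        ≤ (Fintype.card H0 : ℝ) * (N * ∑ w ∈ W, conv a' b' w) := by
      calc (Fintype.card H0 : ℝ) * (ρ * (lam - 2 * η) * (#W : ℝ))
          = ρ * (#W : ℝ) * (Fintype.card H0 : ℝ) * (lam - 2 * η) := by ring
        _ ≤ N * ∑ x, ∑ y, a' x * b' y * (#{w ∈ W | x + y - w ∈ H0} : ℝ) := e4.trans e3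
        _ = N * ((Fintype.card H0 : ℝ) * ∑ w ∈ W, conv a' b' w) := by rw [e1, e2]
        _ = _ := by ring
    exact le_of_mul_le_mul_left e5 hH0pos
  -- lower bound of the conflict probability
  set BX : E → ℝ := fun x => if μ x < a x / 2 then 1 else 0 with hBX
  set BY : E → ℝ := fun y => if ν y < b y / 2 then 1 else 0 with hBY
  have hpt : ∀ x y, (1 / 4 : ℝ) * (a' x * b' y - a' x * b' y * BX x - a' x * b' y * BY y)
      ≤ μ x * ν y := by
    intro x y
    have hab : 0 ≤ a' x * b' y := mul_nonneg (ha'0 x) (hb'0 y)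
    have hmn : 0 ≤ μ x * ν y := mul_nonneg (hμ x) (hν y)
    by_cases h1 : μ x < a x / 2
    · have : BX x = 1 := by simp only [hBX, h1, if_true]
      have h2 : 0 ≤ BY y := by simp only [hBY]; split_ifs <;> norm_num
      rw [this]
      have := mul_nonneg hab h2
      nlinarith
    · have hx : BX x = 0 := by simp only [hBX, h1, if_false]
      by_cases h2 : ν y < b y / 2
      · have hy : BY y = 1 := by simp only [hBY, h2, if_true]
        rw [hx, hy]
        nlinarith
      · have hy : BY y = 0 := by simp only [hBY, h2, if_false]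
        rw [hx, hy]
        have q1 : a' x / 2 ≤ μ x := by linarith [ha'le x, not_lt.1 h1]
        have q2 : b' y / 2 ≤ ν y := by linarith [hb'le y, not_lt.1 h2]
        have := mul_le_mul q1 q2 (by linarith [hb'0 y]) (hμ x)
        nlinarith
  have hP : ∑ x, ∑ y with x + y ∈ W, μ x * ν y = ∑ w ∈ W, ∑ x, μ x * ν (w - x) := by
    rw [Finset.sum_comm]
    refine Finset.sum_congr rfl fun x _ => ?_
    refine Finset.sum_bij' (fun y _ => x + y) (fun w _ => w - x) ?_ ?_ ?_ ?_ ?_
    · intro y hy; exact (Finset.mem_filter.1 hy).2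
    · intro w hw; simp [hw]
    · intro y _; simp
    · intro w _; simp
    · intro y _; simp
  have hlow : ∀ w, (1 / 4 : ℝ) * (conv a' b' w - K / N * kX - K / N * kY)
      ≤ ∑ x, μ x * ν (w - x) := by
    intro w
    have b1 : ∑ x, a' x * b' (w - x) * BX x ≤ K / N * kX := by
      calc ∑ x, a' x * b' (w - x) * BX x ≤ ∑ x, K / N * (a x * BX x) := by
            refine Finset.sum_le_sum fun x _ => ?_
            have hB : 0 ≤ BX x := by simp only [hBX]; split_ifs <;> norm_num
            have : a' x * b' (w - x) ≤ a x * (K / N) :=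
              mul_le_mul (ha'le x) (hb'K _) (hb'0 _) (ha0 x)
            calc a' x * b' (w - x) * BX x ≤ a x * (K / N) * BX x :=
                  mul_le_mul_of_nonneg_right this hB
              _ = _ := by ring
        _ = K / N * ∑ x with μ x < a x / 2, a x := by
            rw [← Finset.mul_sum, Finset.sum_filter]
            congr 1
            refine Finset.sum_congr rfl fun x _ => ?_
            simp only [hBX]; split_ifs <;> simp
        _ ≤ K / N * kX := mul_le_mul_of_nonneg_left hkX (div_nonneg hK hNpos.le)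
    have b2 : ∑ x, a' x * b' (w - x) * BY (w - x) ≤ K / N * kY := by
      have : ∑ x, a' x * b' (w - x) * BY (w - x) = ∑ y, a' (w - y) * b' y * BY y := by
        refine Fintype.sum_equiv (Equiv.subLeft w) _ _ (fun x => ?_)
        simp
      rw [this]
      calc ∑ y, a' (w - y) * b' y * BY y ≤ ∑ y, K / N * (b y * BY y) := by
            refine Finset.sum_le_sum fun y _ => ?_
            have hB : 0 ≤ BY y := by simp only [hBY]; split_ifs <;> norm_num
            have : a' (w - y) * b' y ≤ (K / N) * b y :=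
              mul_le_mul (ha'K _) (hb'le y) (hb'0 _) (div_nonneg hK hNpos.le)
            calc a' (w - y) * b' y * BY y ≤ (K / N) * b y * BY y :=
                  mul_le_mul_of_nonneg_right this hB
              _ = _ := by ring
        _ = K / N * ∑ y with ν y < b y / 2, b y := by
            rw [← Finset.mul_sum, Finset.sum_filter]
            congr 1
            refine Finset.sum_congr rfl fun y _ => ?_
            simp only [hBY]; split_ifs <;> simp
        _ ≤ K / N * kY := mul_le_mul_of_nonneg_left hkY (div_nonneg hK hNpos.le)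
    calc (1 / 4 : ℝ) * (conv a' b' w - K / N * kX - K / N * kY)
        ≤ (1 / 4 : ℝ) * (∑ x, a' x * b' (w - x) - ∑ x, a' x * b' (w - x) * BX x
            - ∑ x, a' x * b' (w - x) * BY (w - x)) := by
          unfold conv; linarith
      _ = ∑ x, (1 / 4 : ℝ) * (a' x * b' (w - x) - a' x * b' (w - x) * BX x
            - a' x * b' (w - x) * BY (w - x)) := by
          rw [← Finset.sum_sub_distrib, ← Finset.sum_sub_distrib, Finset.mul_sum]
      _ ≤ ∑ x, μ x * ν (w - x) := Finset.sum_le_sum fun x _ => hpt x (w - x)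
  rw [hP]
  calc ((#W : ℝ) / (4 * N)) * (ρ * (lam - 2 * η) - K * (kX + kY))
      = (1 / 4 : ℝ) * ((ρ * (lam - 2 * η) * (#W : ℝ)) / N - (#W : ℝ) * (K / N * kX + K / N * kY)) := by
        field_simp
    _ ≤ (1 / 4 : ℝ) * (∑ w ∈ W, conv a' b' w - (#W : ℝ) * (K / N * kX + K / N * kY)) := by
        have : (ρ * (lam - 2 * η) * (#W : ℝ)) / N ≤ ∑ w ∈ W, conv a' b' w := by
          rw [div_le_iff₀ hNpos, mul_comm]; rw [mul_comm] at hconv; linarith
        linarith
    _ = ∑ w ∈ W, (1 / 4 : ℝ) * (conv a' b' w - K / N * kX - K / N * kY) := by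
        rw [← Finset.mul_sum, Finset.sum_sub_distrib, Finset.sum_sub_distrib]
        simp only [Finset.sum_const, nsmul_eq_mul]
        ring
    _ ≤ ∑ w ∈ W, ∑ x, μ x * ν (w - x) := Finset.sum_le_sum fun w _ => hlow w

end Crest.Agent.R042.Conf921
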