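import Mathlib
import Crest.Agent.R042.Conf_921
import Crest.Agent.R042.KLsup_313

/-!
Row 42, S0059, label level: the bridge from relative entropies of the label law to the hypotheses
of LEMMA CONF (helper921) for the push-forward law on the product of the windows (helper313).
-/

set_option autoImplicit false

namespace Crest.Agent.R042.CondFree313

open Finset Crest.Agent.R042.Conf921 Crest.Agent.R042.KLsup313

section One

variable {E : Type*} [AddCommGroup E] [Fintype E]

lemma log_two_bound : (2 : ℝ) ≤ 6.6 * (1 - Real.log 2) := by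
  have := Real.log_two_lt_d9
  norm_num at this ⊢
  linarith

/-- pointwise inequality behind (A) -/
lemma pointwise (m a N : ℝ) (hm : 0 ≤ m) (ha : 0 ≤ a) (hma : 0 < m → 0 < a) (hN : 0 < N) :
    (if m < a / 2 then (1 - Real.log 2) / 2 * a else 0) ≤
      m * Real.log (N * m) - m * Real.log (N * a) - m + a := by
  have hl2 := Real.log_two_lt_d9
  have hl0 : 0 < Real.log 2 := Real.log_pos (by norm_num)
  rcases hm.eq_or_lt with h | h
  · rw [← h]
    simp only [zero_mul, zero_add, sub_self]
    split_ifs
    · nlinarith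
    · exact ha
  · have ha' := hma h
    have e : m * Real.log (N * m) - m * Real.log (N * a) = m * Real.log (m / a) := by
      rw [Real.log_mul hN.ne' h.ne', Real.log_mul hN.ne' ha'.ne', Real.log_div h.ne' ha'.ne']
      ring
    rw [e]
    split_ifs with hc
    · have h1 : 1 - a / (2 * m) ≤ Real.log (2 * m / a) := by
        have := Real.one_sub_inv_le_log_of_pos (x := 2 * m / a) (by positivity)
        rwa [inv_div] at this
      have h2 : Real.log (2 * m / a) = Real.log 2 + Real.log (m / a) := by
        rw [mul_div_assoc, Real.log_mul (by norm_num) (by positivity)]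
      have h3 : m * (1 - a / (2 * m)) ≤ m * (Real.log 2 + Real.log (m / a)) := by
        rw [← h2]; exact mul_le_mul_of_nonneg_left h1 h.le
      have h4 : m * (1 - a / (2 * m)) = m - a / 2 := by field_simp
      rw [h4] at h3
      have h5 : m * Real.log 2 ≤ a / 2 * Real.log 2 := mul_le_mul_of_nonneg_right hc.le hl0.le
      nlinarith
    · have h1 : 1 - a / m ≤ Real.log (m / a) := by
        have := Real.one_sub_inv_le_log_of_pos (x := m / a) (by positivity)
        rwa [inv_div] at this
      have h3 : m * (1 - a / m) ≤ m * Real.log (m / a) := mul_le_mul_of_nonneg_left h1 h.le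
      have h4 : m * (1 - a / m) = m - a := by field_simp
      rw [h4] at h3
      linarith

open Classical in
/-- (A) for a law on `E` itself -/
theorem bad_le (EX : AddSubgroup E) (μ : E → ℝ) (hμ : ∀ x, 0 ≤ μ x) :
    ∑ x with μ x < avg EX μ x / 2, avg EX μ x ≤ 6.6 * (KLm ⊥ μ - KLm EX μ) := by
  have hN := cardE_pos (E := E)
  have h1 : ∑ x, (if μ x < avg EX μ x / 2 then (1 - Real.log 2) / 2 * avg EX μ x else 0) ≤
      ∑ x, (μ x * Real.log ((Fintype.card E : ℝ) * μ x)
        - μ x * Real.log ((Fintype.card E : ℝ) * avg EX μ x) - μ x + avg EX μ x) :=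
    Finset.sum_le_sum fun x _ => pointwise _ _ _ (hμ x) (avg_nonneg EX hμ x)
      (avg_pos_of_pos EX μ hμ x) hN
  rw [Finset.sum_add_distrib, Finset.sum_sub_distrib, Finset.sum_sub_distrib, sum_avg] at h1
  have e1 : ∑ x, μ x * Real.log ((Fintype.card E : ℝ) * μ x) = KLm ⊥ μ := by
    rw [KLm_eq]
    refine Finset.sum_congr rfl fun x _ => ?_
    rw [avg_bot]
  rw [e1, ← KLm_eq EX μ] at h1
  rw [← Finset.sum_filter, ← Finset.mul_sum] at h1
  set B := ∑ x with μ x < avg EX μ x / 2, avg EX μ x with hB
  have hB0 : 0 ≤ B := Finset.sum_nonneg fun x _ => avg_nonneg EX hμ x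
  have h2 := log_two_bound
  have h3 : (1 - Real.log 2) / 2 * B ≤ KLm ⊥ μ - KLm EX μ := by linarith
  have h4 : B * 2 ≤ B * (6.6 * (1 - Real.log 2)) := mul_le_mul_of_nonneg_left h2 hB0
  nlinarith

open Classical in
/-- (B) for a law on `E` itself -/
theorem big_le (EX : AddSubgroup E) (μ : E → ℝ) (hμ : ∀ x, 0 ≤ μ x) (K : ℝ)
    (hK : 1 < K) :
    ∑ x with K < avg EX μ x * (Fintype.card E : ℝ), μ x ≤ (KLm EX μ + 1) / Real.log K := by
  have hN := cardE_pos (E := E)
  have hl : 0 < Real.log K := Real.log_pos hK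
  set a := avg EX μ with ha
  have ha0 : ∀ x, 0 ≤ a x := avg_nonneg EX hμ
  have hinv : ∀ x, ∀ h ∈ EX, a (x + h) = a x := fun x h hh => avg_add EX μ x hh
  have e1 : ∑ x with K < a x * (Fintype.card E : ℝ), μ x
      = ∑ x, a x * (if K < a x * (Fintype.card E : ℝ) then 1 else 0) := by
    rw [ha, sum_avg_mul EX μ (fun x => if K < avg EX μ x * (Fintype.card E : ℝ) then 1 else 0)
      (fun x h hh => by
        have := hinv x h hh
        rw [ha] at this
        simp only [this])]
    rw [Finset.sum_filter]
    refine Finset.sum_congr rfl fun x _ => ?_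
    split_ifs <;> simp
  rw [e1, le_div_iff₀ hl]
  have hpt : ∀ x, a x * (if K < a x * (Fintype.card E : ℝ) then 1 else 0) * Real.log K
      - 1 / (Fintype.card E : ℝ) ≤ a x * Real.log ((Fintype.card E : ℝ) * a x) := by
    intro x
    have hN1 : 0 < 1 / (Fintype.card E : ℝ) := by positivity
    split_ifs with hc
    · have h1 : Real.log K ≤ Real.log ((Fintype.card E : ℝ) * a x) := by
        refine Real.log_le_log (by linarith) ?_
        rw [mul_comm]; exact hc.le
      have h2 := mul_le_mul_of_nonneg_left h1 (ha0 x)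
      rw [mul_one]
      linarith
    · rw [mul_zero, zero_mul, zero_sub]
      rcases (ha0 x).eq_or_lt with h | h
      · rw [← h, zero_mul]; linarith
      · have h1 : 1 - 1 / ((Fintype.card E : ℝ) * a x) ≤ Real.log ((Fintype.card E : ℝ) * a x) := by
          have := Real.one_sub_inv_le_log_of_pos (x := (Fintype.card E : ℝ) * a x) (by positivity)
          rwa [inv_eq_one_div] at this
        have h2 := mul_le_mul_of_nonneg_left h1 h.le
        have h3 : a x * (1 - 1 / ((Fintype.card E : ℝ) * a x)) = a x - 1 / (Fintype.card E : ℝ) := by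
          field_simp
        rw [h3] at h2
        linarith
  have hs := Finset.sum_le_sum (fun x (_ : x ∈ (univ : Finset E)) => hpt x)
  rw [Finset.sum_sub_distrib, ← Finset.sum_mul] at hs
  have h1 : ∑ _x : E, 1 / (Fintype.card E : ℝ) = 1 := by
    rw [Finset.sum_const, Finset.card_univ, nsmul_eq_mul, mul_one_div_cancel hN.ne']
  rw [h1] at hs
  have h2 : ∑ x, a x * Real.log ((Fintype.card E : ℝ) * a x) = KLm EX μ := rfl
  rw [h2] at hs
  linarith

end One

section Push

variable {V E : Type*} [AddCommGroup V] [Fintype V] [AddCommGroup E] [Fintype E]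

open Classical in
/-- push-forward of a law -/
noncomputable def push (π : V →+ E) (μ : V → ℝ) (e : E) : ℝ := ∑ v with π v = e, μ v

omit [Fintype E] in
lemma push_nonneg (π : V →+ E) (μ : V → ℝ) (hμ : ∀ v, 0 ≤ μ v) (e : E) : 0 ≤ push π μ e :=
  Finset.sum_nonneg fun v _ => hμ v

lemma sum_push_mul (π : V →+ E) (μ : V → ℝ) (g : E → ℝ) :
    ∑ e, push π μ e * g e = ∑ v, μ v * g (π v) := by
  classical
  unfold push
  have h1 : ∀ e, (∑ v with π v = e, μ v) * g e = ∑ v, if π v = e then μ v * g (π v) else 0 := by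
    intro e
    rw [Finset.sum_filter, Finset.sum_mul]
    refine Finset.sum_congr rfl fun v _ => ?_
    split_ifs with h
    · rw [h]
    · rw [zero_mul]
  simp_rw [h1]
  rw [Finset.sum_comm]
  refine Finset.sum_congr rfl fun v _ => ?_
  rw [Finset.sum_ite_eq]
  simp

lemma sum_push (π : V →+ E) (μ : V → ℝ) : ∑ e, push π μ e = ∑ v, μ v := by
  have := sum_push_mul π μ (fun _ => 1)
  simpa using this

open Classical in
/-- averages of the push-forward -/
lemma avg_push (π : V →+ E) (μ : V → ℝ) (H : AddSubgroup E) (w : V) :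
    avg H (push π μ) (π w) =
      avg (H.comap π) μ w * (Fintype.card (H.comap π) : ℝ) / (Fintype.card H : ℝ) := by
  have hc := card_pos' (H.comap π)
  have h1 : avg (H.comap π) μ w * (Fintype.card (H.comap π) : ℝ)
      = ∑ h : H.comap π, μ (w + (h : V)) := by
    unfold avg
    rw [div_mul_cancel₀ _ hc.ne']
  rw [h1]
  have h0 : avg H (push π μ) (π w) = (∑ h : H, push π μ (π w + (h : E))) / (Fintype.card H : ℝ) := rfl
  rw [h0]
  congr 1
  -- both sides are the sum over `v` with `π v - π w ∈ H`
  have hl : ∑ h : H, push π μ (π w + (h : E)) = ∑ v with π v - π w ∈ H, μ v := by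
    unfold push
    have e1 : ∀ h : H, ∑ v with π v = π w + (h : E), μ v
        = ∑ v, if π v = π w + (h : E) then μ v else 0 := fun h => Finset.sum_filter _ _
    simp_rw [e1]
    rw [Finset.sum_comm, Finset.sum_filter]
    refine Finset.sum_congr rfl fun v _ => ?_
    split_ifs with hv
    · rw [Finset.sum_eq_single (⟨π v - π w, hv⟩ : H)]
      · simp
      · intro b _ hb
        rw [if_neg]
        intro hcon
        apply hb
        apply Subtype.ext
        simp [hcon]
      · intro hcon; exact absurd (Finset.mem_univ _) hcon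
    · refine Finset.sum_eq_zero fun h _ => ?_
      rw [if_neg]
      intro hcon
      apply hv
      rw [hcon, add_sub_cancel_left]
      exact h.2
  have hr : ∑ h : H.comap π, μ (w + (h : V)) = ∑ v with π v - π w ∈ H, μ v := by
    refine Finset.sum_bij (fun h _ => w + (h : V)) ?_ ?_ ?_ ?_
    · intro h _
      rw [Finset.mem_filter]
      refine ⟨Finset.mem_univ _, ?_⟩
      rw [map_add, add_sub_cancel_left]
      exact h.2
    · intro a _ b _ hab
      exact Subtype.ext (add_left_cancel hab)
    · intro v hv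
      rw [Finset.mem_filter] at hv
      refine ⟨⟨v - w, ?_⟩, Finset.mem_univ _, by simp⟩
      rw [AddSubgroup.mem_comap, map_sub]
      exact hv.2
    · intro h _; rfl
  rw [hl, hr]

/-- (P) entropy of the push-forward -/
theorem KLm_push (π : V →+ E) (μ : V → ℝ) (hμ : ∀ v, 0 ≤ μ v) (sμ : ∑ v, μ v = 1)
    (H : AddSubgroup E) :
    KLm H (push π μ) = KLm (H.comap π) μ
      + Real.log ((Fintype.card E : ℝ) * (Nat.card (H.comap π) : ℝ)
          / ((Fintype.card V : ℝ) * (Nat.card H : ℝ))) := by
  classical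
  have hE := cardE_pos (E := E)
  have hV := cardE_pos (E := V)
  have hH := card_pos' H
  have hc := card_pos' (H.comap π)
  rw [Nat.card_eq_fintype_card, Nat.card_eq_fintype_card]
  rw [KLm_eq, sum_push_mul π μ (fun e => Real.log ((Fintype.card E : ℝ) * avg H (push π μ) e)),
    KLm_eq]
  have h1 : ∀ v, μ v * Real.log ((Fintype.card E : ℝ) * avg H (push π μ) (π v))
      = μ v * Real.log ((Fintype.card V : ℝ) * avg (H.comap π) μ v) + μ v *
        Real.log ((Fintype.card E : ℝ) * (Fintype.card (H.comap π) : ℝ)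
          / ((Fintype.card V : ℝ) * (Fintype.card H : ℝ))) := by
    intro v
    rcases (hμ v).eq_or_lt with h | h
    · rw [← h]; simp
    · rw [← mul_add]
      congr 1
      have hp := avg_pos_of_pos (H.comap π) μ hμ v h
      have hc' : (0 : ℝ) < (Fintype.card (H.comap π) : ℝ) := by
        have : 0 < Fintype.card (H.comap π) := Fintype.card_pos
        exact_mod_cast this
      have hH' : (0 : ℝ) < (Fintype.card H : ℝ) := by
        have : 0 < Fintype.card H := Fintype.card_pos
        exact_mod_cast this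
      rw [← Real.log_mul (by positivity) (by positivity)]
      congr 1
      have h2 := avg_push π μ H v
      have i1 : ∀ (a b : Fintype (H.comap π)), @Fintype.card _ a = @Fintype.card _ b :=
        fun a b => by congr!
      have i2 : ∀ (a b : Fintype H), @Fintype.card _ a = @Fintype.card _ b :=
        fun a b => by congr!
      rw [h2]
      rw [i1 _ (inferInstance : Fintype (H.comap π)), i2 _ (inferInstance : Fintype H)]
      field_simp
  simp_rw [h1]
  rw [Finset.sum_add_distrib, ← Finset.sum_mul, sμ, one_mul]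

omit [Fintype V] [Fintype E] in
lemma card_comap_map (π : V →+ E) (D : AddSubgroup V) :
    Nat.card ((D.map π).comap π) = Nat.card π.ker * Nat.card (D.map π) := by
  have h1 : π.ker.relIndex ((D.map π).comap π) = Nat.card (((D.map π).comap π).map π) :=
    AddSubgroup.relIndex_ker _ _
  have h2 : ((D.map π).comap π).map π = D.map π := by
    refine le_antisymm (AddSubgroup.map_comap_le _ _) ?_
    exact AddSubgroup.map_mono (AddSubgroup.le_comap_map _ _)
  have h3 : π.ker ≤ (D.map π).comap π := by
    intro x hx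
    rw [AddSubgroup.mem_comap, (AddMonoidHom.mem_ker).1 hx]
    exact (D.map π).zero_mem
  have h4 : (⊥ : AddSubgroup V).relIndex π.ker * π.ker.relIndex ((D.map π).comap π)
      = (⊥ : AddSubgroup V).relIndex ((D.map π).comap π) :=
    AddSubgroup.relIndex_mul_relIndex _ _ _ bot_le h3
  rw [AddSubgroup.relIndex_bot_left, AddSubgroup.relIndex_bot_left, h1, h2] at h4
  exact h4.symm

lemma ncard_pos {G : Type*} [AddCommGroup G] [Finite G] (H : AddSubgroup G) :
    (0 : ℝ) < (Nat.card H : ℝ) := by
  have : 0 < Nat.card H := Nat.card_pos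
  exact_mod_cast this

/-- the conditional entropy of the window vector, given its special part -/
theorem KLm_push_sub (π : V →+ E) (μ : V → ℝ) (hμ : ∀ v, 0 ≤ μ v) (sμ : ∑ v, μ v = 1)
    (D : AddSubgroup V) :
    KLm ⊥ (push π μ) - KLm (D.map π) (push π μ) ≤ KLm (D ⊓ π.ker) μ - KLm D μ := by
  have hE := cardE_pos (E := E)
  have hV := cardE_pos (E := V)
  have h1 := KLm_push π μ hμ sμ ⊥
  have h2 := KLm_push π μ hμ sμ (D.map π)
  have hk := ncard_pos π.ker
  have hm := ncard_pos (D.map π)
  have e1 : (⊥ : AddSubgroup E).comap π = π.ker := rfl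
  have e2 : (D.map π).comap π = D ⊔ π.ker := AddSubgroup.comap_map_eq π D
  have e3 : (Nat.card (⊥ : AddSubgroup E) : ℝ) = 1 := by
    simp
  rw [card_comap_map, e2] at h2
  have e4 : (Fintype.card E : ℝ) * ((Nat.card π.ker * Nat.card (D.map π) : ℕ) : ℝ)
      / ((Fintype.card V : ℝ) * (Nat.card (D.map π) : ℝ))
      = (Fintype.card E : ℝ) * (Nat.card π.ker : ℝ) / (Fintype.card V : ℝ) := by
    push_cast
    field_simp
  rw [e4] at h2
  rw [e3, mul_one, e1] at h1
  have h3 := KLm_supermod D π.ker μ hμ sμ
  linarith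

open Classical in
/-- **(A)** -/
theorem bad_push (π : V →+ E) (μ : V → ℝ) (hμ : ∀ v, 0 ≤ μ v) (sμ : ∑ v, μ v = 1)
    (D : AddSubgroup V) :
    ∑ x with push π μ x < avg (D.map π) (push π μ) x / 2, avg (D.map π) (push π μ) x
      ≤ 6.6 * (KLm (D ⊓ π.ker) μ - KLm D μ) := by
  refine (bad_le (D.map π) (push π μ) (push_nonneg π μ hμ)).trans ?_
  have := KLm_push_sub π μ hμ sμ D
  linarith

open Classical in
/-- **(B)** -/
theorem big_push (π : V →+ E) (μ : V → ℝ) (hμ : ∀ v, 0 ≤ μ v) (sμ : ∑ v, μ v = 1)
    (H : AddSubgroup E) (K : ℝ) (hK : 1 < K) :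
    ∑ x with K < avg H (push π μ) x * (Fintype.card E : ℝ), push π μ x
      ≤ (KLm π.ker μ + Real.log ((Fintype.card E : ℝ) / (Nat.card π.range : ℝ)) + 1)
        / Real.log K := by
  refine (big_le H (push π μ) (push_nonneg π μ hμ) K hK).trans ?_
  have hl : 0 < Real.log K := Real.log_pos hK
  refine div_le_div_of_nonneg_right ?_ hl.le
  have h0 : KLm H (push π μ) ≤ KLm ⊥ (push π μ) :=
    KLm_anti bot_le _ (push_nonneg π μ hμ) (by rw [sum_push, sμ])
  have h1 := KLm_push π μ hμ sμ ⊥
  have e1 : (⊥ : AddSubgroup E).comap π = π.ker := rfl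
  have e3 : (Nat.card (⊥ : AddSubgroup E) : ℝ) = 1 := by simp
  have hr := ncard_pos π.range
  have hk := ncard_pos π.ker
  have hV := cardE_pos (E := V)
  have h2 := card_comap_map π (⊤ : AddSubgroup V)
  have h3 : (⊤ : AddSubgroup V).map π = π.range := (AddMonoidHom.range_eq_map π).symm
  have h4 : (π.range).comap π = ⊤ := by
    rw [eq_top_iff]
    intro x _
    exact ⟨x, rfl⟩
  rw [h3, h4] at h2
  have h5 : (Nat.card (⊤ : AddSubgroup V) : ℝ) = (Fintype.card V : ℝ) := by
    rw [← Nat.card_eq_fintype_card]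
    norm_cast
    exact Nat.card_congr AddSubgroup.topEquiv.toEquiv
  have h6 : (Fintype.card V : ℝ) = (Nat.card π.ker : ℝ) * (Nat.card π.range : ℝ) := by
    rw [← h5]; exact_mod_cast h2
  rw [e3, mul_one, e1, h6] at h1
  have e5 : (Fintype.card E : ℝ) * (Nat.card π.ker : ℝ)
      / ((Nat.card π.ker : ℝ) * (Nat.card π.range : ℝ))
      = (Fintype.card E : ℝ) / (Nat.card π.range : ℝ) := by
    field_simp
  rw [e5] at h1
  linarith

end Push

section Linear

variable {k : Type*} [Field k] {V E : Type*} [AddCommGroup V] [Module k V] [Fintype V]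
  [AddCommGroup E] [Module k E] [Fintype E]

omit [Fintype V] [Fintype E] in
/-- the functionals of the window map -/
lemma coann_range_dualMap (π : V →ₗ[k] E) :
    (LinearMap.range π.dualMap).dualCoannihilator = LinearMap.ker π := by
  rw [LinearMap.range_dualMap_eq_dualAnnihilator_ker]
  exact Subspace.dualAnnihilator_dualCoannihilator_eq

omit [Fintype E] in
/-- `kl` of the window functionals together with `C`, minus `kl` of `C` -/
lemma KLm_inf_ker (π : V →ₗ[k] E) (μ : V → ℝ) (C : Submodule k (Module.Dual k V)) :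
    KLm (C.dualCoannihilator.toAddSubgroup ⊓ (π.toAddMonoidHom).ker) μ
      = kl k μ (LinearMap.range π.dualMap ⊔ C) := by
  have e0 : (π.toAddMonoidHom).ker = (LinearMap.ker π).toAddSubgroup := rfl
  unfold kl
  rw [Submodule.dualCoannihilator_sup_eq, coann_range_dualMap, toAddSubgroup_inf', e0, inf_comm]

open Classical in
/-- **(A), linear form** -/
theorem bad_lin (π : V →ₗ[k] E) (μ : V → ℝ) (hμ : ∀ v, 0 ≤ μ v) (sμ : ∑ v, μ v = 1)
    (C : Submodule k (Module.Dual k V)) (EX : AddSubgroup E)
    (hEX : EX = (C.dualCoannihilator.map π).toAddSubgroup) :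
    ∑ x with push π.toAddMonoidHom μ x < avg EX (push π.toAddMonoidHom μ) x / 2,
        avg EX (push π.toAddMonoidHom μ) x
      ≤ 6.6 * (kl k μ (LinearMap.range π.dualMap ⊔ C) - kl k μ C) := by
  have h := bad_push π.toAddMonoidHom μ hμ sμ C.dualCoannihilator.toAddSubgroup
  rw [KLm_inf_ker] at h
  have e : C.dualCoannihilator.toAddSubgroup.map π.toAddMonoidHom = EX := by
    rw [hEX]; rfl
  rw [e] at h
  exact h

open Classical in
/-- **(B), linear form** -/
theorem big_lin (π : V →ₗ[k] E) (μ : V → ℝ) (hμ : ∀ v, 0 ≤ μ v) (sμ : ∑ v, μ v = 1)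
    (H : AddSubgroup E) (K : ℝ) (hK : 1 < K) :
    ∑ x with K < avg H (push π.toAddMonoidHom μ) x * (Fintype.card E : ℝ),
        push π.toAddMonoidHom μ x
      ≤ (kl k μ (LinearMap.range π.dualMap)
          + Real.log ((Fintype.card E : ℝ) / (Nat.card (LinearMap.range π) : ℝ)) + 1)
        / Real.log K := by
  have h := big_push π.toAddMonoidHom μ hμ sμ H K hK
  have e1 : KLm (π.toAddMonoidHom).ker μ = kl k μ (LinearMap.range π.dualMap) := by
    unfold kl
    rw [coann_range_dualMap]
    rfl
  have e2 : Nat.card (π.toAddMonoidHom).range = Nat.card (LinearMap.range π) := rfl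
  rw [e1, e2] at h
  exact h

end Linear

end Crest.Agent.R042.CondFree313
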