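import Crest.Agent.R042.CondFree_313

/-!
Row 42, S0059, plan B: from the failure of the hypotheses of LEMMA CONF (helper921) for the law of
the windows to a test function (moment step) / a small set depending on the special part only.
-/

set_option autoImplicit false

namespace Crest.Agent.R042.ConfB461

open Finset Crest.Agent.R042.Conf921 Crest.Agent.R042.CondFree313
open scoped Classical

section Grp

variable {E : Type*} [AddCommGroup E] [Fintype E]

lemma avg_le_one (H : AddSubgroup E) {f : E → ℝ} (hf : ∀ x, f x ≤ 1) (x : E) :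
    avg H f x ≤ 1 := by
  unfold avg
  have hc : (0 : ℝ) < (Fintype.card H : ℝ) := by exact_mod_cast Fintype.card_pos
  rw [div_le_one hc]
  calc ∑ h : H, f (x + (h : E)) ≤ ∑ _h : H, (1 : ℝ) := Finset.sum_le_sum fun h _ => hf _
    _ = (Fintype.card H : ℝ) := by simp

variable {V : Type*} [AddCommGroup V] [Fintype V]

/-- averaging over a subgroup `D` upstairs = averaging over its image. -/
lemma sum_comap (π : V →+ E) (D : AddSubgroup V) (a : E → ℝ) (x : E) :
    ∑ u : D, a (x + π u) = (Fintype.card D : ℝ) * avg (D.map π) a x := by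
  set H := D.map π with hH
  have hc : (0 : ℝ) < (Fintype.card H : ℝ) := by exact_mod_cast Fintype.card_pos
  have hmem : ∀ u : D, π (u : V) ∈ H := fun u => AddSubgroup.mem_map_of_mem π u.2
  -- shift invariance
  have h1 : ∀ h : H, ∑ u : D, a (x + (h : E) + π u) = ∑ u : D, a (x + π u) := by
    intro h
    obtain ⟨u0, hu0, hu1⟩ := AddSubgroup.mem_map.1 h.2
    refine Fintype.sum_equiv (Equiv.addLeft (⟨u0, hu0⟩ : D)) _ _ (fun u => ?_)
    congr 1
    rw [← hu1]
    simp [add_assoc]
  have h2 : (Fintype.card H : ℝ) * ∑ u : D, a (x + π u) =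
      ∑ h : H, ∑ u : D, a (x + (h : E) + π u) := by
    rw [Finset.sum_congr rfl (fun h _ => h1 h), Finset.sum_const, Finset.card_univ, nsmul_eq_mul]
  rw [Finset.sum_comm] at h2
  have h3 : ∀ u : D, ∑ h : H, a (x + (h : E) + π u) = (Fintype.card H : ℝ) * avg H a x := by
    intro u
    have h4 : avg H a (x + π u) = avg H a x := avg_add H a x (hmem u)
    rw [← h4]
    unfold avg
    rw [mul_div_cancel₀ _ hc.ne']
    exact Finset.sum_congr rfl fun h _ => by rw [add_right_comm]
  rw [Finset.sum_congr rfl (fun u _ => h3 u), Finset.sum_const, Finset.card_univ, nsmul_eq_mul] at h2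
  have h5 : (Fintype.card H : ℝ) * ∑ u : D, a (x + π u) =
      (Fintype.card H : ℝ) * ((Fintype.card D : ℝ) * avg H a x) := by
    rw [h2]; ring
  exact mul_left_cancel₀ hc.ne' h5

/-- **test function** -/
theorem exists_test_grp (π : V →+ E) (ν : V → ℝ) (D : AddSubgroup V) :
    ∃ g : V → ℝ, (∀ v, |g v| ≤ 1) ∧ (∀ v u, π u = 0 → g (v + u) = g v) ∧
      (∀ v, ∑ u : D, g (v + (u : V)) = 0) ∧
      ∑ x with push π ν x < avg (D.map π) (push π ν) x / 2, avg (D.map π) (push π ν) x ≤
        2 * ∑ v, ν v * g v := by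
  set H := D.map π with hH
  set μ := push π ν with hμ
  set a : E → ℝ := fun x => if μ x < avg H μ x / 2 then 1 else 0 with ha
  have ha0 : ∀ x, 0 ≤ a x := by
    intro x; simp only [ha]; split_ifs <;> norm_num
  have ha1 : ∀ x, a x ≤ 1 := by
    intro x; simp only [ha]; split_ifs <;> norm_num
  refine ⟨fun v => avg H a (π v) - a (π v), ?_, ?_, ?_, ?_⟩
  · intro v
    rw [abs_le]
    have h1 := avg_nonneg H ha0 (π v)
    have h2 := avg_le_one H ha1 (π v)
    have h3 := ha0 (π v)
    have h4 := ha1 (π v)
    constructor <;> linarith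
  · intro v u hu
    simp only [map_add, hu, add_zero]
  · intro v
    simp only [map_add]
    rw [Finset.sum_sub_distrib, sum_comap π D a (π v)]
    have h1 : ∀ u : D, avg H a (π v + π (u : V)) = avg H a (π v) := fun u =>
      avg_add H a _ (AddSubgroup.mem_map_of_mem π u.2)
    rw [Finset.sum_congr rfl (fun u _ => h1 u), Finset.sum_const, Finset.card_univ, nsmul_eq_mul,
      sub_self]
  · rw [← sum_push_mul π ν (fun x => avg H a x - a x)]
    have e1 : ∑ x, μ x * avg H a x = ∑ x, avg H μ x * a x := by
      have i1 := sum_avg_mul H μ (avg H a) (fun x h hh => avg_add H a x hh)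
      have i2 := sum_avg_mul H a (avg H μ) (fun x h hh => avg_add H μ x hh)
      calc ∑ x, μ x * avg H a x = ∑ x, avg H μ x * avg H a x := i1.symm
        _ = ∑ x, avg H a x * avg H μ x := Finset.sum_congr rfl fun x _ => mul_comm _ _
        _ = ∑ x, a x * avg H μ x := i2
        _ = ∑ x, avg H μ x * a x := Finset.sum_congr rfl fun x _ => mul_comm _ _
    have e2 : ∑ e, push π ν e * (avg H a e - a e) = ∑ x, (avg H μ x - μ x) * a x := by
      rw [← hμ]
      have : ∀ x, μ x * (avg H a x - a x) = μ x * avg H a x - μ x * a x := fun x => by ring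
      rw [Finset.sum_congr rfl (fun x _ => this x), Finset.sum_sub_distrib, e1,
        ← Finset.sum_sub_distrib]
      exact Finset.sum_congr rfl fun x _ => by ring
    rw [e2, Finset.mul_sum, Finset.sum_filter]
    refine Finset.sum_le_sum fun x _ => ?_
    simp only [ha]
    split_ifs with h
    · linarith
    · simp

/-- **the set of labels with large special density** -/
theorem special_set (π : V →+ E) (ν : V → ℝ) (hν : ∀ v, 0 ≤ ν v) (sν : ∑ v, ν v = 1)
    (D : AddSubgroup V) (K : ℝ) (hK : 0 ≤ K) :
    (∀ v v' : V, v - v' ∈ D →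
      (K < avg (D.map π) (push π ν) (π v) * (Fintype.card E : ℝ) ↔
        K < avg (D.map π) (push π ν) (π v') * (Fintype.card E : ℝ))) ∧
    ((univ.filter fun v => K < avg (D.map π) (push π ν) (π v) * (Fintype.card E : ℝ)).card : ℝ) * K
        * (Nat.card π.range : ℝ) ≤ (Fintype.card V : ℝ) * (Fintype.card E : ℝ) ∧
    ∑ x with K < avg (D.map π) (push π ν) x * (Fintype.card E : ℝ), push π ν x =
      ∑ v with K < avg (D.map π) (push π ν) (π v) * (Fintype.card E : ℝ), ν v := by
  set H := D.map π with hH
  set μ := push π ν with hμ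
  have hEpos : (0 : ℝ) < (Fintype.card E : ℝ) := by exact_mod_cast Fintype.card_pos
  have hHpos : (0 : ℝ) < (Fintype.card H : ℝ) := by exact_mod_cast Fintype.card_pos
  refine ⟨?_, ?_, ?_⟩
  · intro v v' h
    have h1 : avg H μ (π v) = avg H μ (π v') := by
      have h2 : π v = π v' + π (v - v') := by rw [map_sub]; abel
      rw [h2]
      exact avg_add H μ _ (AddSubgroup.mem_map_of_mem π h)
    rw [h1]
  · -- sum of `avg` over all labels
    have h1 : ∑ v, μ (π v) = (Nat.card π.ker : ℝ) := by
      have h2 : ∀ v, μ (π v) = ∑ w, (if π w = π v then ν w else 0) := by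
        intro v
        rw [hμ]
        unfold push
        rw [Finset.sum_filter]
      rw [Finset.sum_congr rfl (fun v _ => h2 v), Finset.sum_comm]
      have h3 : ∀ w, ∑ v, (if π w = π v then ν w else 0) = (Nat.card π.ker : ℝ) * ν w := by
        intro w
        rw [← Finset.sum_filter, Finset.sum_const, nsmul_eq_mul]
        congr 2
        rw [Nat.card_eq_fintype_card, Fintype.card_subtype]
        refine Finset.card_bij (fun v _ => v - w) ?_ ?_ ?_
        · intro v hv
          rw [Finset.mem_filter] at hv ⊢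
          refine ⟨Finset.mem_univ _, ?_⟩
          rw [AddMonoidHom.mem_ker, map_sub, hv.2, sub_self]
        · intro v _ v' _ h
          exact sub_left_injective h
        · intro u hu
          rw [Finset.mem_filter, AddMonoidHom.mem_ker] at hu
          refine ⟨u + w, ?_, by abel⟩
          rw [Finset.mem_filter]
          refine ⟨Finset.mem_univ _, ?_⟩
          rw [map_add, hu.2, zero_add]
      rw [Finset.sum_congr rfl (fun w _ => h3 w), ← Finset.mul_sum, sν, mul_one]
    have h4 : ∑ v, avg H μ (π v) = (Nat.card π.ker : ℝ) := by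
      unfold avg
      rw [← Finset.sum_div, Finset.sum_comm]
      have h5 : ∀ h : H, ∑ v, μ (π v + (h : E)) = (Nat.card π.ker : ℝ) := by
        intro h
        obtain ⟨u0, hu0, hu1⟩ := AddSubgroup.mem_map.1 h.2
        rw [← h1]
        refine Fintype.sum_equiv (Equiv.addRight u0) _ _ (fun v => ?_)
        rw [← hu1]
        simp
      rw [Finset.sum_congr rfl (fun h _ => h5 h), Finset.sum_const, Finset.card_univ, nsmul_eq_mul,
        mul_div_assoc, mul_div_cancel₀ _ hHpos.ne']
    have h5 : ((univ.filter fun v => K < avg H μ (π v) * (Fintype.card E : ℝ)).card : ℝ) * K ≤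
        (Nat.card π.ker : ℝ) * (Fintype.card E : ℝ) := by
      rw [← h4, Finset.sum_mul, ← nsmul_eq_mul, ← Finset.sum_const]
      calc ∑ _v ∈ univ.filter (fun v => K < avg H μ (π v) * (Fintype.card E : ℝ)), K
          ≤ ∑ v ∈ univ.filter (fun v => K < avg H μ (π v) * (Fintype.card E : ℝ)),
            avg H μ (π v) * (Fintype.card E : ℝ) := Finset.sum_le_sum fun v hv =>
              ((Finset.mem_filter.1 hv).2).le
        _ ≤ ∑ v, avg H μ (π v) * (Fintype.card E : ℝ) :=
            Finset.sum_le_sum_of_subset_of_nonneg (Finset.subset_univ _) (fun v _ _ =>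
              mul_nonneg (avg_nonneg H (push_nonneg π ν hν) _) hEpos.le)
    have h6 : (Nat.card π.ker : ℝ) * (Nat.card π.range : ℝ) = (Fintype.card V : ℝ) := by
      have h7 := AddSubgroup.card_mul_index π.ker
      have h8 := AddSubgroup.index_ker π
      rw [h8] at h7
      rw [← Nat.card_eq_fintype_card (α := V)]
      exact_mod_cast h7
    have h9 := mul_le_mul_of_nonneg_right h5 (Nat.cast_nonneg (Nat.card π.range) : (0:ℝ) ≤ _)
    calc _ ≤ (Nat.card π.ker : ℝ) * (Fintype.card E : ℝ) * (Nat.card π.range : ℝ) := h9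
      _ = (Nat.card π.ker : ℝ) * (Nat.card π.range : ℝ) * (Fintype.card E : ℝ) := by ring
      _ = _ := by rw [h6]
  · have h1 := sum_push_mul π ν (fun x => if K < avg H μ x * (Fintype.card E : ℝ) then 1 else 0)
    rw [Finset.sum_filter, Finset.sum_filter]
    simp only [mul_ite, mul_one, mul_zero] at h1
    exact h1

end Grp

section Linear

variable {k : Type*} [Field k] {V E : Type*} [AddCommGroup V] [Module k V] [Fintype V]
  [AddCommGroup E] [Module k E] [Fintype E]

/-- `law_bad`: the quantity `kX` of LEMMA CONF is `> ε`. -/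
def BadK (π : V →ₗ[k] E) (ν : V → ℝ) (C : Submodule k (Module.Dual k V)) (ε : ℝ) : Prop :=
  ε < ∑ x with push π.toAddMonoidHom ν x <
      avg (C.dualCoannihilator.map π).toAddSubgroup (push π.toAddMonoidHom ν) x / 2,
    avg (C.dualCoannihilator.map π).toAddSubgroup (push π.toAddMonoidHom ν) x

/-- the quantity `ηX` of LEMMA CONF is `> η`. -/
def BadS (π : V →ₗ[k] E) (ν : V → ℝ) (C : Submodule k (Module.Dual k V)) (K η : ℝ) : Prop :=
  η < ∑ x with K < avg (C.dualCoannihilator.map π).toAddSubgroup (push π.toAddMonoidHom ν) x *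
      (Fintype.card E : ℝ), push π.toAddMonoidHom ν x

lemma map_toAdd (π : V →ₗ[k] E) (C : Submodule k (Module.Dual k V)) :
    (C.dualCoannihilator.map π).toAddSubgroup =
      (C.dualCoannihilator.toAddSubgroup).map π.toAddMonoidHom := rfl

/-- **test function, linear form** -/
theorem exists_test (π : V →ₗ[k] E) (ν : V → ℝ) (C : Submodule k (Module.Dual k V)) (ε : ℝ)
    (h : BadK π ν C ε) :
    ∃ g : V → ℝ, (∀ v, |g v| ≤ 1) ∧ (∀ v u, π u = 0 → g (v + u) = g v) ∧
      (∀ v, ∑ u : C.dualCoannihilator, g (v + (u : V)) = 0) ∧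
      ε / 2 ≤ ∑ v, ν v * g v := by
  obtain ⟨g, h1, h2, h3, h4⟩ := exists_test_grp π.toAddMonoidHom ν
    C.dualCoannihilator.toAddSubgroup
  refine ⟨g, h1, h2, fun v => ?_, ?_⟩
  · exact h3 v
  · unfold BadK at h
    rw [map_toAdd] at h
    linarith

/-- **special density, linear form**: a set `S` of labels determined by the special part. -/
theorem exists_special (π : V →ₗ[k] E) (ν : V → ℝ) (hν : ∀ v, 0 ≤ ν v) (sν : ∑ v, ν v = 1)
    (C : Submodule k (Module.Dual k V)) (K η : ℝ) (hK : 0 ≤ K) (h : BadS π ν C K η) :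
    ∃ S : Finset V, (∀ v v' : V, v - v' ∈ C.dualCoannihilator → (v ∈ S ↔ v' ∈ S)) ∧
      (S.card : ℝ) * K * (Nat.card (LinearMap.range π) : ℝ) ≤
        (Fintype.card V : ℝ) * (Fintype.card E : ℝ) ∧ η < ∑ v ∈ S, ν v := by
  obtain ⟨h1, h2, h3⟩ := special_set π.toAddMonoidHom ν hν sν C.dualCoannihilator.toAddSubgroup K hK
  refine ⟨univ.filter fun v => K < avg (C.dualCoannihilator.toAddSubgroup.map π.toAddMonoidHom)
    (push π.toAddMonoidHom ν) (π.toAddMonoidHom v) * (Fintype.card E : ℝ), ?_, ?_, ?_⟩
  · intro v v' hv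
    rw [Finset.mem_filter, Finset.mem_filter]
    have := h1 v v' hv
    simp only [Finset.mem_univ, true_and]
    exact this
  · exact h2
  · unfold BadS at h
    rw [map_toAdd, h3] at h
    exact h

end Linear

end Crest.Agent.R042.ConfB461
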