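import Mathlib

set_option autoImplicit false
set_option linter.unusedSectionVars false
open Finset

/-!
S0059 (row 42): the sampling / container theorem, part 1.
A: admissible weights on a finite set `Z`, entropy minimisers, midpoint gain.
B: the abstract algorithm (decision list of short certificates).
C: McDiarmid's inequality for the counting measure on `ι → V`.
-/

namespace Crest.Agent.R042.Cont666

/-! ### Part A: admissible weights, entropy, the midpoint gain -/

section Weights

variable {Z α : Type*} [Fintype Z] [DecidableEq Z]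

/-- admissible weights on `W ⊆ Z`: nonnegative, `∑ r a z w z ≤ 1` for all `a`,
pointwise at most `c`, total mass `μ`. -/
structure Adm (r : α → Z → ℝ) (c μ : ℝ) (W : Finset Z) (w : Z → ℝ) : Prop where
  nonneg : ∀ z, 0 ≤ w z
  supp : ∀ z, w z ≠ 0 → z ∈ W
  row : ∀ a, ∑ z, r a z * w z ≤ 1
  cap : ∀ z, w z ≤ c
  mass : ∑ z, w z = μ

/-- (negative) entropy -/
noncomputable def ent (w : Z → ℝ) : ℝ := ∑ z, w z * Real.log (w z)

def HasAdm (r : α → Z → ℝ) (c μ : ℝ) (W : Finset Z) : Prop := ∃ w, Adm r c μ W w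

variable {r : α → Z → ℝ} {c μ : ℝ} {W : Finset Z}

theorem Adm.mono {W' : Finset Z} {w : Z → ℝ} (h : Adm r c μ W w)
    (hW : W ⊆ W') : Adm r c μ W' w :=
  ⟨h.nonneg, fun z hz => hW (h.supp z hz), h.row, h.cap, h.mass⟩

theorem Adm.mid {w w' : Z → ℝ} (h : Adm r c μ W w)
    (h' : Adm r c μ W w') : Adm r c μ W (fun z => (w z + w' z) / 2) := by
  refine ⟨fun z => by linarith [h.nonneg z, h'.nonneg z], fun z hz => ?_, fun a => ?_,
    fun z => ?_, ?_⟩
  · by_contra hc
    have h1 : w z = 0 := by
      by_contra h1; exact hc (h.supp z h1)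
    have h2 : w' z = 0 := by
      by_contra h1; exact hc (h'.supp z h1)
    exact hz (by simp [h1, h2])
  · have h1 := h.row a
    have h2 := h'.row a
    have h3 : ∑ z, r a z * ((w z + w' z) / 2) =
        (∑ z, r a z * w z + ∑ z, r a z * w' z) / 2 := by
      rw [← Finset.sum_add_distrib, Finset.sum_div]
      exact Finset.sum_congr rfl fun z _ => by ring
    rw [h3]
    linarith
  · have h1 := h.cap z
    have h2 := h'.cap z
    linarith
  · rw [← Finset.sum_div, Finset.sum_add_distrib, h.mass, h'.mass]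
    ring

theorem isCompact_adm (r : α → Z → ℝ) (c μ : ℝ) (W : Finset Z) :
    IsCompact {w : Z → ℝ | Adm r c μ W w} := by
  have hK : IsCompact (Set.pi Set.univ (fun _ : Z => Set.Icc (0 : ℝ) c)) :=
    isCompact_univ_pi fun _ => isCompact_Icc
  refine hK.of_isClosed_subset ?_ ?_
  · have : {w : Z → ℝ | Adm r c μ W w} =
        (⋂ z, {w | 0 ≤ w z}) ∩ (⋂ z, ⋂ _ : z ∉ W, {w | w z = 0}) ∩
        (⋂ a : α, {w | ∑ z, r a z * w z ≤ 1}) ∩
        (⋂ z, {w | w z ≤ c}) ∩ {w | ∑ z, w z = μ} := by
      ext w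
      simp only [Set.mem_ofPred_eq, Set.mem_inter_iff, Set.mem_iInter]
      constructor
      · intro h
        exact ⟨⟨⟨⟨h.nonneg, fun z hz => by
          by_contra hc; exact hz (h.supp z hc)⟩, h.row⟩, h.cap⟩, h.mass⟩
      · rintro ⟨⟨⟨⟨h1, h2⟩, h3⟩, h4⟩, h5⟩
        exact ⟨h1, fun z hz => by
          by_contra hc; exact hz (h2 z hc), h3, h4, h5⟩
    rw [this]
    refine IsClosed.inter (IsClosed.inter (IsClosed.inter (IsClosed.inter ?_ ?_) ?_) ?_) ?_
    · exact isClosed_iInter fun z => isClosed_le continuous_const (continuous_apply z)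
    · exact isClosed_iInter fun z => isClosed_iInter fun _ =>
        isClosed_eq (continuous_apply z) continuous_const
    · refine isClosed_iInter fun a => isClosed_le ?_ continuous_const
      exact continuous_finsetSum _ fun b _ => continuous_const.mul (continuous_apply _)
    · exact isClosed_iInter fun z => isClosed_le (continuous_apply z) continuous_const
    · exact isClosed_eq (continuous_finsetSum _ fun b _ => continuous_apply _) continuous_const
  · intro w hw z _
    exact ⟨hw.nonneg z, hw.cap z⟩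

theorem exists_min (h : HasAdm r c μ W) :
    ∃ w, Adm r c μ W w ∧ ∀ w', Adm r c μ W w' → ent w ≤ ent w' := by
  have hc : Continuous (ent : (Z → ℝ) → ℝ) := by
    unfold ent
    refine continuous_finsetSum _ fun z _ => ?_
    exact Real.continuous_mul_log.comp (continuous_apply z)
  obtain ⟨w, hw, hmin⟩ := (isCompact_adm r c μ W).exists_isMinOn h hc.continuousOn
  exact ⟨w, hw, fun w' hw' => hmin hw'⟩

open Classical in
/-- the minimiser -/
noncomputable def mw (r : α → Z → ℝ) (c μ : ℝ) (W : Finset Z) : Z → ℝ :=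
  if h : HasAdm r c μ W then (exists_min h).choose else 0

theorem mw_adm (h : HasAdm r c μ W) : Adm r c μ W (mw r c μ W) := by
  unfold mw
  rw [dif_pos h]
  exact (exists_min h).choose_spec.1

theorem mw_min {w' : Z → ℝ} (h' : Adm r c μ W w') :
    ent (mw r c μ W) ≤ ent w' := by
  have h : HasAdm r c μ W := ⟨w', h'⟩
  unfold mw
  rw [dif_pos h]
  exact (exists_min h).choose_spec.2 w' h'

theorem mid_ineq {x y : ℝ} (hx : 0 ≤ x) (hy : 0 ≤ y) :
    (x + y) / 2 * Real.log ((x + y) / 2) ≤ (x * Real.log x + y * Real.log y) / 2 := by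
  have hx' : x ∈ Set.Ici (0 : ℝ) := hx
  have hy' : y ∈ Set.Ici (0 : ℝ) := hy
  have h1 : (0 : ℝ) ≤ 1 / 2 := by norm_num
  have h2 : (1 : ℝ) / 2 + 1 / 2 = 1 := by norm_num
  have := Real.convexOn_mul_log.2 hx' hy' h1 h1 h2
  simp only [smul_eq_mul] at this
  have e1 : (1 : ℝ) / 2 * x + 1 / 2 * y = (x + y) / 2 := by ring
  rw [e1] at this
  linarith

theorem mid_zero {x : ℝ} (hx : 0 ≤ x) :
    (x + 0) / 2 * Real.log ((x + 0) / 2) =
      (x * Real.log x + 0 * Real.log 0) / 2 - Real.log 2 / 2 * x := by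
  rcases hx.eq_or_lt with rfl | hx
  · simp
  · rw [add_zero, Real.log_div hx.ne' (by norm_num)]
    ring

/-- the gain of the midpoint trick -/
theorem gain {S : Finset Z} (h : HasAdm r c μ W) (h' : HasAdm r c μ (W \ S)) :
    ent (mw r c μ W) + Real.log 2 * ∑ z ∈ S, mw r c μ W z ≤ ent (mw r c μ (W \ S)) := by
  set w := mw r c μ W with hw
  set w' := mw r c μ (W \ S) with hw'
  have hwA : Adm r c μ W w := mw_adm h
  have hwA' : Adm r c μ (W \ S) w' := mw_adm h'
  have hwB' : Adm r c μ W w' := hwA'.mono sdiff_subset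
  have hmin := mw_min (hwA.mid hwB')
  rw [← hw] at hmin
  have hle : ent (fun z => (w z + w' z) / 2) ≤
      (ent w + ent w') / 2 - Real.log 2 / 2 * ∑ z ∈ S, w z := by
    unfold ent
    rw [← Finset.sum_add_distrib, Finset.sum_div, Finset.mul_sum]
    have h1 : ∑ z ∈ S, Real.log 2 / 2 * w z =
        ∑ z, if z ∈ S then Real.log 2 / 2 * w z else 0 := by
      rw [Finset.sum_ite_mem, Finset.univ_inter]
    rw [h1, ← Finset.sum_sub_distrib]
    refine Finset.sum_le_sum fun z _ => ?_
    by_cases hz : z ∈ S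
    · have h0 : w' z = 0 := by
        by_contra hc
        have := hwA'.supp z hc
        simp [hz] at this
      simp only [if_pos hz, h0]
      exact (mid_zero (hwA.nonneg z)).le
    · simp only [if_neg hz, sub_zero]
      exact mid_ineq (hwA.nonneg z) (hwA'.nonneg z)
  linarith

theorem mono_ent {W' : Finset Z} (hW : W' ⊆ W)
    (h' : HasAdm r c μ W') : ent (mw r c μ W) ≤ ent (mw r c μ W') :=
  mw_min ((mw_adm h').mono hW)

/-- lower bound of the entropy -/
theorem ent_ge (hμ : 0 < μ) {w : Z → ℝ}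
    (h : Adm r c μ W w) (hZ : 0 < Fintype.card Z) :
    μ * Real.log (μ / (Fintype.card Z : ℝ)) ≤ ent w := by
  have hN0 : (0 : ℝ) < (Fintype.card Z : ℝ) := by exact_mod_cast hZ
  set d : ℝ := μ / (Fintype.card Z : ℝ) with hd
  have hc0 : 0 < d := div_pos hμ hN0
  have key : ∀ x : ℝ, 0 ≤ x → x * Real.log d + (x - d) ≤ x * Real.log x := by
    intro x hx
    rcases hx.eq_or_lt with rfl | hx
    · simp; exact hc0.le
    · have h1 := Real.one_sub_inv_le_log_of_pos (div_pos hx hc0)
      rw [Real.log_div hx.ne' hc0.ne', inv_div] at h1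
      have h2 : x * (1 - d / x) ≤ x * (Real.log x - Real.log d) :=
        mul_le_mul_of_nonneg_left h1 hx.le
      have h3 : x * (1 - d / x) = x - d := by
        field_simp
      rw [h3] at h2
      linarith
  have h2 : ∑ z, (w z * Real.log d + (w z - d)) ≤ ent w :=
    Finset.sum_le_sum fun z _ => key _ (h.nonneg z)
  rw [Finset.sum_add_distrib, ← Finset.sum_mul, h.mass, Finset.sum_sub_distrib, h.mass,
    Finset.sum_const, Finset.card_univ, nsmul_eq_mul] at h2
  have h3 : (Fintype.card Z : ℝ) * d = μ := by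
    rw [hd]; field_simp
  rw [h3, sub_self, add_zero] at h2
  exact h2

/-- upper bound of the entropy -/
theorem ent_le {w : Z → ℝ} (h : Adm r c μ W w) : ent w ≤ μ * Real.log c := by
  rw [← h.mass, Finset.sum_mul]
  refine Finset.sum_le_sum fun z _ => ?_
  rcases (h.nonneg z).eq_or_lt with h0 | h0
  · rw [← h0]; simp
  · exact mul_le_mul_of_nonneg_left (Real.log_le_log h0 (h.cap z)) h0.le

end Weights

/-! ### Part B: the abstract algorithm -/

section Algorithm

variable {S Z : Type*}

open Classical in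
/-- run with fuel `k`: at a non-stopping state query `q s`; if it is the head of the list go
to `yes s`, otherwise to `no s`. -/
noncomputable def run (stop : S → Prop) (q : S → Z) (yes no : S → S) :
    ℕ → S → List Z → S
  | 0, s, _ => s
  | k + 1, s, [] => if stop s then s else run stop q yes no k (no s) []
  | k + 1, s, z :: L =>
      if stop s then s
      else if z = q s then run stop q yes no k (yes s) L
      else run stop q yes no k (no s) (z :: L)

theorem run_spec {stop : S → Prop} {q : S → Z} {yes no : S → S} {meas : S → ℕ}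
    {pot : S → ℝ} {g B : ℝ} (hg : 0 < g)
    (hmy : ∀ s, ¬ stop s → meas (yes s) < meas s)
    (hmn : ∀ s, ¬ stop s → meas (no s) < meas s)
    (hgain : ∀ s, ¬ stop s → ¬ stop (yes s) → pot s + g ≤ pot (yes s))
    (hmono : ∀ s, ¬ stop s → ¬ stop (no s) → pot s ≤ pot (no s))
    (hB : ∀ s, ¬ stop s → pot s ≤ B)
    (A : Set Z) (Inv : S → Prop)
    (hIy : ∀ s, Inv s → ¬ stop s → q s ∈ A → Inv (yes s))
    (hIn : ∀ s, Inv s → ¬ stop s → q s ∉ A → Inv (no s)) :
    ∀ (k : ℕ) (s : S), meas s < k → Inv s →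
      ∃ L : List Z, (∀ z ∈ L, z ∈ A) ∧ stop (run stop q yes no k s L) ∧
        Inv (run stop q yes no k s L) ∧ (stop s → L = []) ∧
        (¬ stop s → ((L.length : ℝ) - 1) * g ≤ B - pot s) := by
  intro k
  induction k with
  | zero => intro s hs; exact absurd hs (Nat.not_lt_zero _)
  | succ k ih =>
    intro s hs hI
    by_cases hst : stop s
    · refine ⟨[], by simp, ?_, ?_, fun _ => rfl, fun h => absurd hst h⟩
      · simp [run, hst]
      · simp [run, hst, hI]
    · by_cases hq : q s ∈ A
      · obtain ⟨L, h1, h2, h3, h4, h5⟩ := ih (yes s) (by have := hmy s hst; omega)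
          (hIy s hI hst hq)
        refine ⟨q s :: L, ?_, ?_, ?_, fun h => absurd h hst, fun _ => ?_⟩
        · intro z hz
          rcases List.mem_cons.1 hz with rfl | hz
          · exact hq
          · exact h1 z hz
        · simp [run, hst, h2]
        · simp [run, hst, h3]
        · rw [List.length_cons]
          push_cast
          by_cases hsy : stop (yes s)
          · rw [h4 hsy]
            simp
            exact hB s hst
          · have e1 := h5 hsy
            have e2 := hgain s hst hsy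
            nlinarith
      · obtain ⟨L, h1, h2, h3, h4, h5⟩ := ih (no s) (by have := hmn s hst; omega)
          (hIn s hI hst hq)
        refine ⟨L, h1, ?_, ?_, fun h => absurd h hst, fun _ => ?_⟩
        · cases L with
          | nil => simpa [run, hst] using h2
          | cons z L =>
            have hz : z ≠ q s := fun h => hq (h ▸ h1 z (by simp))
            simpa [run, hst, hz] using h2
        · cases L with
          | nil => simpa [run, hst] using h3
          | cons z L =>
            have hz : z ≠ q s := fun h => hq (h ▸ h1 z (by simp))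
            simpa [run, hst, hz] using h3
        · by_cases hsn : stop (no s)
          · rw [h4 hsn]
            have := hB s hst
            simp
            linarith
          · have e1 := h5 hsn
            have e2 := hmono s hst hsn
            linarith

end Algorithm

/-! ### Part C: bounded differences (McDiarmid), by counting -/

section McDiarmid

variable {V : Type*} [Fintype V] [DecidableEq V]

/-- one variable: mean zero form -/
theorem one_var (g : V → ℝ) (μ lam : ℝ) (hμ : ∑ v, g v = μ * (Fintype.card V : ℝ))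
    (hosc : ∀ v v', g v - g v' ≤ 1) :
    ∑ v, Real.exp (lam * (g v - μ)) ≤ (Fintype.card V : ℝ) * Real.exp (lam ^ 2 / 2) := by
  rcases isEmpty_or_nonempty V with hV | hV
  · simp
  have hN : (0 : ℝ) < Fintype.card V := by exact_mod_cast Fintype.card_pos
  have hup : ∀ v, g v - μ ≤ 1 := by
    intro v
    have h1 : ∑ v' : V, (g v - g v') ≤ ∑ _v' : V, (1 : ℝ) :=
      Finset.sum_le_sum fun v' _ => hosc v v'
    rw [Finset.sum_sub_distrib, hμ] at h1
    simp only [Finset.sum_const, Finset.card_univ, nsmul_eq_mul, mul_one] at h1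
    have : (Fintype.card V : ℝ) * (g v - μ) ≤ (Fintype.card V : ℝ) * 1 := by linarith
    exact le_of_mul_le_mul_left this hN
  have hlo : ∀ v, -1 ≤ g v - μ := by
    intro v
    have h1 : ∑ v' : V, (g v' - g v) ≤ ∑ _v' : V, (1 : ℝ) :=
      Finset.sum_le_sum fun v' _ => hosc v' v
    rw [Finset.sum_sub_distrib, hμ] at h1
    simp only [Finset.sum_const, Finset.card_univ, nsmul_eq_mul, mul_one] at h1
    have : (Fintype.card V : ℝ) * (μ - g v) ≤ (Fintype.card V : ℝ) * 1 := by linarith
    have := le_of_mul_le_mul_left this hN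
    linarith
  have hpt : ∀ x : ℝ, -1 ≤ x → x ≤ 1 →
      Real.exp (lam * x) ≤ Real.cosh lam + x * Real.sinh lam := by
    intro x h1 h2
    have ha : (0 : ℝ) ≤ (1 + x) / 2 := by linarith
    have hb : (0 : ℝ) ≤ (1 - x) / 2 := by linarith
    have hab : (1 + x) / 2 + (1 - x) / 2 = 1 := by ring
    have := convexOn_exp.2 (Set.mem_univ lam) (Set.mem_univ (-lam)) ha hb hab
    simp only [smul_eq_mul] at this
    have e1 : (1 + x) / 2 * lam + (1 - x) / 2 * -lam = lam * x := by ring
    rw [e1] at this
    rw [Real.cosh_eq, Real.sinh_eq]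
    linarith
  calc ∑ v, Real.exp (lam * (g v - μ))
      ≤ ∑ v, (Real.cosh lam + (g v - μ) * Real.sinh lam) :=
        Finset.sum_le_sum fun v _ => hpt _ (hlo v) (hup v)
    _ = (Fintype.card V : ℝ) * Real.cosh lam := by
        rw [Finset.sum_add_distrib, ← Finset.sum_mul, Finset.sum_sub_distrib, hμ]
        simp [mul_comm]
    _ ≤ _ := mul_le_mul_of_nonneg_left (Real.cosh_le_exp_half_sq lam) hN.le

theorem mgf : ∀ (k : ℕ) (f : (Fin k → V) → ℝ) (μ lam : ℝ),
    (∑ Y, f Y = μ * (Fintype.card V : ℝ) ^ k) →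
    (∀ Y Y' : Fin k → V, ∀ i, (∀ j, j ≠ i → Y j = Y' j) → f Y - f Y' ≤ 1) →
    ∑ Y, Real.exp (lam * (f Y - μ)) ≤
      (Fintype.card V : ℝ) ^ k * Real.exp (lam ^ 2 / 2 * k) := by
  intro k
  induction k with
  | zero =>
    intro f μ lam hμ _
    have h1 : ∑ Y : Fin 0 → V, f Y = f default := by
      rw [Fintype.sum_unique]
    rw [Fintype.sum_unique]
    rw [h1, pow_zero, mul_one] at hμ
    simp [hμ]
  | succ k ih =>
    intro f μ lam hμ hL
    rcases isEmpty_or_nonempty V with hV | hV
    · simp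
    have hN : (0 : ℝ) < Fintype.card V := by exact_mod_cast Fintype.card_pos
    have hNk : (0 : ℝ) < (Fintype.card V : ℝ) ^ k := pow_pos hN k
    have hsum : ∀ F : (Fin (k + 1) → V) → ℝ,
        ∑ Y, F Y = ∑ v : V, ∑ Y : Fin k → V, F (Fin.cons v Y) := by
      intro F
      rw [← (Fin.consEquiv fun _ : Fin (k + 1) => V).sum_comp, Fintype.sum_prod_type]
      rfl
    set g : V → ℝ := fun v => (∑ Y : Fin k → V, f (Fin.cons v Y)) / (Fintype.card V : ℝ) ^ k
      with hg
    have hgv : ∀ v, ∑ Y : Fin k → V, f (Fin.cons v Y) = g v * (Fintype.card V : ℝ) ^ k := by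
      intro v
      rw [hg]
      field_simp
    have hgsum : ∑ v, g v = μ * (Fintype.card V : ℝ) := by
      rw [hsum] at hμ
      simp_rw [hgv] at hμ
      rw [← Finset.sum_mul, pow_succ] at hμ
      have : (∑ v, g v) * (Fintype.card V : ℝ) ^ k =
        (μ * (Fintype.card V : ℝ)) * (Fintype.card V : ℝ) ^ k := by
        rw [hμ]; ring
      exact mul_right_cancel₀ hNk.ne' this
    have hosc : ∀ v v', g v - g v' ≤ 1 := by
      intro v v'
      have h1 : ∑ Y : Fin k → V, (f (Fin.cons v Y) - f (Fin.cons v' Y)) ≤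
          ∑ _Y : Fin k → V, (1 : ℝ) := by
        refine Finset.sum_le_sum fun Y _ => hL _ _ 0 ?_
        intro j hj
        obtain ⟨j', rfl⟩ := Fin.exists_succ_eq.2 hj
        simp
      rw [Finset.sum_sub_distrib, hgv, hgv] at h1
      simp only [Finset.sum_const, Finset.card_univ, nsmul_eq_mul, mul_one,
        Fintype.card_fun, Fintype.card_fin, Nat.cast_pow] at h1
      have : (g v - g v') * (Fintype.card V : ℝ) ^ k ≤ 1 * (Fintype.card V : ℝ) ^ k := by
        linarith
      exact le_of_mul_le_mul_right this hNk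
    have hin : ∀ v, ∑ Y : Fin k → V, Real.exp (lam * (f (Fin.cons v Y) - μ)) ≤
        Real.exp (lam * (g v - μ)) *
          ((Fintype.card V : ℝ) ^ k * Real.exp (lam ^ 2 / 2 * k)) := by
      intro v
      have h1 := ih (fun Y => f (Fin.cons v Y)) (g v) lam (hgv v) (by
        intro Y Y' i hY
        refine hL _ _ i.succ ?_
        intro j hj
        rcases Fin.eq_zero_or_eq_succ j with rfl | ⟨j', rfl⟩
        · simp
        · have : j' ≠ i := fun h => hj (by rw [h])
          simpa using hY j' this)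
      calc ∑ Y : Fin k → V, Real.exp (lam * (f (Fin.cons v Y) - μ))
          = ∑ Y : Fin k → V, Real.exp (lam * (g v - μ)) *
              Real.exp (lam * (f (Fin.cons v Y) - g v)) := by
            refine Finset.sum_congr rfl fun Y _ => ?_
            rw [← Real.exp_add]; congr 1; ring
        _ = Real.exp (lam * (g v - μ)) *
              ∑ Y : Fin k → V, Real.exp (lam * (f (Fin.cons v Y) - g v)) := by
            rw [Finset.mul_sum]
        _ ≤ _ := mul_le_mul_of_nonneg_left h1 (Real.exp_pos _).le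
    rw [hsum]
    calc ∑ v : V, ∑ Y : Fin k → V, Real.exp (lam * (f (Fin.cons v Y) - μ))
        ≤ ∑ v : V, Real.exp (lam * (g v - μ)) *
          ((Fintype.card V : ℝ) ^ k * Real.exp (lam ^ 2 / 2 * k)) :=
          Finset.sum_le_sum fun v _ => hin v
      _ = (∑ v : V, Real.exp (lam * (g v - μ))) *
          ((Fintype.card V : ℝ) ^ k * Real.exp (lam ^ 2 / 2 * k)) := by
          rw [Finset.sum_mul]
      _ ≤ ((Fintype.card V : ℝ) * Real.exp (lam ^ 2 / 2)) *
          ((Fintype.card V : ℝ) ^ k * Real.exp (lam ^ 2 / 2 * k)) :=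
          mul_le_mul_of_nonneg_right (one_var g μ lam hgsum hosc)
            (mul_nonneg hNk.le (Real.exp_pos _).le)
      _ = _ := by
          have : Real.exp (lam ^ 2 / 2 * ((k + 1 : ℕ) : ℝ)) =
            Real.exp (lam ^ 2 / 2) * Real.exp (lam ^ 2 / 2 * k) := by
            rw [← Real.exp_add]; congr 1; push_cast; ring
          rw [this, pow_succ (Fintype.card V : ℝ) k]; ring

/-- general index type -/
theorem mgf' {ι : Type*} [Fintype ι] [DecidableEq ι] (f : (ι → V) → ℝ) (μ lam : ℝ)
    (hμ : ∑ Y, f Y = μ * (Fintype.card V : ℝ) ^ (Fintype.card ι))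
    (hL : ∀ Y Y' : ι → V, ∀ i, (∀ j, j ≠ i → Y j = Y' j) → f Y - f Y' ≤ 1) :
    ∑ Y, Real.exp (lam * (f Y - μ)) ≤
      (Fintype.card V : ℝ) ^ (Fintype.card ι) * Real.exp (lam ^ 2 / 2 * Fintype.card ι) := by
  set e : ι ≃ Fin (Fintype.card ι) := Fintype.equivFin ι
  set E : (ι → V) ≃ (Fin (Fintype.card ι) → V) := Equiv.arrowCongr e (Equiv.refl V) with hE
  have h := mgf (Fintype.card ι) (fun Y => f (E.symm Y)) μ lam (by
    rw [← hμ]; exact E.symm.sum_comp f) (by
    intro Y Y' i hY
    refine hL _ _ (e.symm i) ?_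
    intro j hj
    have : e j ≠ i := fun h => hj (by rw [← h]; simp)
    simpa [hE] using hY (e j) this)
  calc ∑ Y, Real.exp (lam * (f Y - μ))
      = ∑ Y : Fin (Fintype.card ι) → V, Real.exp (lam * (f (E.symm Y) - μ)) :=
        (E.symm.sum_comp fun Y => Real.exp (lam * (f Y - μ))).symm
    _ ≤ _ := h

open Classical in
/-- upper tail -/
theorem tail {ι : Type*} [Fintype ι] [DecidableEq ι] (f : (ι → V) → ℝ) (m s n : ℝ)
    (hn : 0 < n) (hs : 0 ≤ s) (hcard : (Fintype.card ι : ℝ) ≤ n)
    (hV : 0 < Fintype.card V)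
    (hμ : ∑ Y, f Y ≤ m * (Fintype.card V : ℝ) ^ (Fintype.card ι))
    (hL : ∀ Y Y' : ι → V, ∀ i, (∀ j, j ≠ i → Y j = Y' j) → f Y - f Y' ≤ 1) :
    ((univ.filter fun Y => m + s ≤ f Y).card : ℝ) ≤
      (Fintype.card V : ℝ) ^ (Fintype.card ι) * Real.exp (- s ^ 2 / (2 * n)) := by
  have hN : (0 : ℝ) < Fintype.card V := by exact_mod_cast hV
  have hNk : (0 : ℝ) < (Fintype.card V : ℝ) ^ (Fintype.card ι) := pow_pos hN _
  set μ : ℝ := (∑ Y, f Y) / (Fintype.card V : ℝ) ^ (Fintype.card ι) with hμd
  have h1 : ∑ Y, f Y = μ * (Fintype.card V : ℝ) ^ (Fintype.card ι) := by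
    rw [hμd]; field_simp
  have hμm : μ ≤ m := by
    rw [hμd, div_le_iff₀ hNk]; exact hμ
  set lam : ℝ := s / n with hlam
  have hlam0 : 0 ≤ lam := div_nonneg hs hn.le
  have h2 := mgf' f μ lam h1 hL
  have h3 : ((univ.filter fun Y => m + s ≤ f Y).card : ℝ) * Real.exp (lam * s) ≤
      ∑ Y, Real.exp (lam * (f Y - μ)) := by
    calc ((univ.filter fun Y => m + s ≤ f Y).card : ℝ) * Real.exp (lam * s)
        = ∑ _Y ∈ univ.filter (fun Y => m + s ≤ f Y), Real.exp (lam * s) := by
          rw [Finset.sum_const, nsmul_eq_mul]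
      _ ≤ ∑ Y ∈ univ.filter (fun Y => m + s ≤ f Y), Real.exp (lam * (f Y - μ)) := by
          refine Finset.sum_le_sum fun Y hY => ?_
          rw [Finset.mem_filter] at hY
          refine Real.exp_le_exp.2 (mul_le_mul_of_nonneg_left ?_ hlam0)
          linarith [hY.2]
      _ ≤ _ := Finset.sum_le_univ_sum_of_nonneg fun Y => (Real.exp_pos _).le
  have h4 : ((univ.filter fun Y => m + s ≤ f Y).card : ℝ) * Real.exp (lam * s) ≤
      (Fintype.card V : ℝ) ^ (Fintype.card ι) * Real.exp (lam ^ 2 / 2 * n) := by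
    refine h3.trans (h2.trans (mul_le_mul_of_nonneg_left (Real.exp_le_exp.2 ?_) hNk.le))
    exact mul_le_mul_of_nonneg_left hcard (by positivity)
  have h5 : Real.exp (- s ^ 2 / (2 * n)) = Real.exp (lam ^ 2 / 2 * n) * Real.exp (-(lam * s)) := by
    rw [← Real.exp_add]
    congr 1
    rw [hlam]
    field_simp
    ring
  rw [h5, ← mul_assoc]
  have h6 : ((univ.filter fun Y => m + s ≤ f Y).card : ℝ) =
      ((univ.filter fun Y => m + s ≤ f Y).card : ℝ) * Real.exp (lam * s) *
        Real.exp (-(lam * s)) := by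
    rw [mul_assoc, ← Real.exp_add]; simp
  rw [h6]
  exact mul_le_mul_of_nonneg_right h4 (Real.exp_pos _).le

end McDiarmid

end Crest.Agent.R042.Cont666
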