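import Crest.Agent.R042.Cont1_666

set_option autoImplicit false
set_option linter.unusedSectionVars false
open Finset

/-!
S0059 (row 42): the sampling / container theorem, part 2: the containers, matching numbers.
-/

namespace Crest.Agent.R042.Cont666

/-! ### Part B': containers from (SS) -/

section Containers

variable {Z α : Type*} [Fintype Z] [DecidableEq Z] [Nonempty Z]

open Classical in
/-- **containers**: if every admissible weight on `Ω` has a point of its support with conflict
mass at least `g`, then every conflict-free set `A ⊆ Ω` is contained in a container `C L` which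
carries no admissible weight and is determined by a list `L` of at most `t` elements of `A`. -/
theorem containers (r : α → Z → ℝ) (c μ g : ℝ) (Ω : Finset Z) (R : Z → Z → Prop)
    (hμ : 0 < μ) (hc : 0 < c) (hg : 0 < g) (hirr : ∀ z, ¬ R z z)
    (hSS : ∀ w, Adm r c μ Ω w → ∃ z, w z ≠ 0 ∧ g ≤ ∑ z' ∈ univ.filter (fun z' => R z z'), w z')
    (t : ℕ) (ht : μ * Real.log (c * Fintype.card Z / μ) / (g * Real.log 2) + 1 ≤ t) :
    ∃ C : List Z → Finset Z, ∀ A : Set Z, (∀ z ∈ A, z ∈ Ω) →
      (∀ z ∈ A, ∀ z' ∈ A, z ≠ z' → ¬ R z z') →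
      ∃ L : List Z, (∀ z ∈ L, z ∈ A) ∧ L.length ≤ t ∧ (∀ z ∈ A, z ∈ C L) ∧
        ¬ HasAdm r c μ (C L) := by
  have hZ : 0 < Fintype.card Z := Fintype.card_pos
  have hZ' : (0 : ℝ) < (Fintype.card Z : ℝ) := by exact_mod_cast hZ
  have hlog2 : 0 < Real.log 2 := Real.log_pos (by norm_num)
  set stop : Finset Z → Prop := fun W => ¬ (HasAdm r c μ W ∧ W ⊆ Ω) with hstop
  have hq : ∀ W : Finset Z, ∃ z, ¬ stop W → (mw r c μ W z ≠ 0 ∧
      g ≤ ∑ z' ∈ univ.filter (fun z' => R z z'), mw r c μ W z') := by
    intro W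
    by_cases h : stop W
    · exact ⟨Classical.arbitrary Z, fun h' => absurd h h'⟩
    · have h' : HasAdm r c μ W ∧ W ⊆ Ω := not_not.1 h
      obtain ⟨z, hz⟩ := hSS _ ((mw_adm h'.1).mono h'.2)
      exact ⟨z, fun _ => hz⟩
  choose q hq using hq
  set yes : Finset Z → Finset Z := fun W => W \ univ.filter (fun z' => R (q W) z') with hyes
  set no : Finset Z → Finset Z := fun W => W.erase (q W) with hno
  set pot : Finset Z → ℝ := fun W => ent (mw r c μ W) with hpot
  refine ⟨fun L => run stop q yes no (Ω.card + 1) Ω L, ?_⟩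
  intro A hA hfree
  have key := run_spec (stop := stop) (q := q) (yes := yes) (no := no) (meas := Finset.card)
    (pot := pot) (g := Real.log 2 * g) (B := μ * Real.log c) (mul_pos hlog2 hg)
    (by
      intro W hW
      refine Finset.card_lt_card ?_
      rw [hyes]
      refine ⟨sdiff_subset, fun hsub => ?_⟩
      obtain ⟨h1, h2⟩ := hq W hW
      have h3 : ∃ z' ∈ univ.filter (fun z' => R (q W) z'), mw r c μ W z' ≠ 0 := by
        by_contra hcon
        push Not at hcon
        rw [Finset.sum_eq_zero hcon] at h2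
        linarith
      obtain ⟨z', hz', hne⟩ := h3
      have h4 := (mw_adm (not_not.1 hW).1).supp z' hne
      exact (Finset.mem_sdiff.1 (hsub h4)).2 hz')
    (by
      intro W hW
      obtain ⟨h1, h2⟩ := hq W hW
      exact Finset.card_erase_lt_of_mem ((mw_adm (not_not.1 hW).1).supp _ h1))
    (by
      intro W hW hW'
      obtain ⟨h1, h2⟩ := hq W hW
      have h3 := gain (S := univ.filter (fun z' => R (q W) z')) (not_not.1 hW).1
        (not_not.1 hW').1
      have h4 := mul_le_mul_of_nonneg_left h2 hlog2.le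
      rw [hpot]
      show ent (mw r c μ W) + Real.log 2 * g ≤
        ent (mw r c μ (W \ univ.filter (fun z' => R (q W) z')))
      linarith)
    (by
      intro W hW hW'
      exact mono_ent (Finset.erase_subset _ _) (not_not.1 hW').1)
    (by
      intro W hW
      exact ent_le (mw_adm (not_not.1 hW).1))
    A (fun W => (∀ z ∈ A, z ∈ W) ∧ W ⊆ Ω)
    (by
      rintro W ⟨h1, h2⟩ hW hqA
      refine ⟨fun z hz => ?_, sdiff_subset.trans h2⟩
      rw [hyes]
      refine Finset.mem_sdiff.2 ⟨h1 z hz, fun hR => ?_⟩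
      have hR' := (Finset.mem_filter.1 hR).2
      by_cases hqz : q W = z
      · rw [hqz] at hR'; exact hirr z hR'
      · exact hfree _ hqA _ hz hqz hR')
    (by
      rintro W ⟨h1, h2⟩ hW hqA
      refine ⟨fun z hz => ?_, (Finset.erase_subset _ _).trans h2⟩
      exact Finset.mem_erase.2 ⟨fun h => hqA (h ▸ hz), h1 z hz⟩)
    (Ω.card + 1) Ω (Nat.lt_succ_self _) ⟨hA, Finset.Subset.refl _⟩
  obtain ⟨L, h1, h2, h3, h4, h5⟩ := key
  refine ⟨L, h1, ?_, h3.1, fun h => h2 ⟨h, h3.2⟩⟩
  by_cases hst : stop Ω
  · rw [h4 hst]; simp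
  · have h6 := h5 hst
    have h7 := ent_ge hμ (mw_adm (not_not.1 hst).1) hZ
    have h8 : μ * Real.log (c * Fintype.card Z / μ) =
        μ * Real.log c - μ * Real.log (μ / (Fintype.card Z : ℝ)) := by
      rw [Real.log_div (by positivity) hμ.ne', Real.log_mul hc.ne' hZ'.ne',
        Real.log_div hμ.ne' hZ'.ne']
      ring
    have h9 : ((L.length : ℝ) - 1) * (g * Real.log 2) ≤
        μ * Real.log (c * Fintype.card Z / μ) := by
      rw [h8]
      have : ((L.length : ℝ) - 1) * (Real.log 2 * g) ≤ μ * Real.log c -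
        ent (mw r c μ Ω) := h6
      have e : ((L.length : ℝ) - 1) * (g * Real.log 2) =
        ((L.length : ℝ) - 1) * (Real.log 2 * g) := by ring
      rw [e]
      linarith
    have h10 : ((L.length : ℝ) - 1) ≤ μ * Real.log (c * Fintype.card Z / μ) /
        (g * Real.log 2) := by
      rw [le_div_iff₀ (mul_pos hg hlog2)]
      exact h9
    have h11 : (L.length : ℝ) ≤ (t : ℝ) := by linarith
    exact_mod_cast h11

end Containers

/-! ### Part D: families of disjoint index tuples -/

section Matching

variable {V : Type*} [Fintype V] [DecidableEq V] {ι : Type*} [Fintype ι] [DecidableEq ι] {s : ℕ}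

/-- a family of pairwise disjoint `s`-tuples of distinct indices -/
def IsMatch (M : Finset (Fin s → ι)) : Prop :=
  (∀ e ∈ M, Function.Injective e) ∧
    ∀ e ∈ M, ∀ e' ∈ M, e ≠ e' → ∀ i j, e i ≠ e' j

open Classical in
/-- the families with all values in `C` -/
noncomputable def fam (C : Finset (Fin s → V)) (Y : ι → V) : Finset (Finset (Fin s → ι)) :=
  univ.filter fun M => IsMatch M ∧ ∀ e ∈ M, (fun j => Y (e j)) ∈ C

theorem mem_fam {C : Finset (Fin s → V)} {Y : ι → V} {M : Finset (Fin s → ι)} :
    M ∈ fam C Y ↔ IsMatch M ∧ ∀ e ∈ M, (fun j => Y (e j)) ∈ C := by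
  classical
  simp [fam]

theorem fam_nonempty (C : Finset (Fin s → V)) (Y : ι → V) : (fam C Y).Nonempty :=
  ⟨∅, by rw [mem_fam]; simp [IsMatch]⟩

/-- the matching number -/
noncomputable def nu (C : Finset (Fin s → V)) (Y : ι → V) : ℕ := (fam C Y).sup Finset.card

/-- a maximum family -/
noncomputable def mm (C : Finset (Fin s → V)) (Y : ι → V) : Finset (Fin s → ι) :=
  (Finset.exists_mem_eq_sup (fam C Y) (fam_nonempty C Y) Finset.card).choose

theorem mm_mem (C : Finset (Fin s → V)) (Y : ι → V) : mm C Y ∈ fam C Y :=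
  (Finset.exists_mem_eq_sup (fam C Y) (fam_nonempty C Y) Finset.card).choose_spec.1

theorem mm_card (C : Finset (Fin s → V)) (Y : ι → V) : (mm C Y).card = nu C Y :=
  (Finset.exists_mem_eq_sup (fam C Y) (fam_nonempty C Y) Finset.card).choose_spec.2.symm

theorem le_nu {C : Finset (Fin s → V)} {Y : ι → V} {M : Finset (Fin s → ι)}
    (h : M ∈ fam C Y) : M.card ≤ nu C Y := Finset.le_sup (f := Finset.card) h

/-- 1-Lipschitz -/
theorem nu_lip (C : Finset (Fin s → V)) (Y Y' : ι → V) (i : ι)
    (h : ∀ j, j ≠ i → Y j = Y' j) : nu C Y ≤ nu C Y' + 1 := by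
  classical
  set M := mm C Y with hM
  obtain ⟨⟨h1, h2⟩, h3⟩ := mem_fam.1 (mm_mem C Y)
  rw [← hM] at h1 h2 h3
  set M' := M.filter (fun e => ∀ j, e j ≠ i) with hM'
  have h4 : M' ∈ fam C Y' := by
    rw [mem_fam]
    refine ⟨⟨fun e he => h1 e (Finset.mem_filter.1 he).1,
      fun e he e' he' => h2 e (Finset.mem_filter.1 he).1 e' (Finset.mem_filter.1 he').1⟩, ?_⟩
    intro e he
    have h5 := h3 e (Finset.mem_filter.1 he).1
    have h6 : (fun j => Y' (e j)) = fun j => Y (e j) := by
      funext j
      exact (h (e j) ((Finset.mem_filter.1 he).2 j)).symm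
    rw [h6]; exact h5
  have h7 : (M.filter (fun e => ¬ ∀ j, e j ≠ i)).card ≤ 1 := by
    rw [Finset.card_le_one]
    intro e he e' he'
    rw [Finset.mem_filter] at he he'
    by_contra hne
    obtain ⟨⟨j, hj⟩⟩ : Nonempty {j // e j = i} := by
      have := he.2
      push Not at this
      obtain ⟨j, hj⟩ := this
      exact ⟨⟨j, hj⟩⟩
    obtain ⟨⟨j', hj'⟩⟩ : Nonempty {j // e' j = i} := by
      have := he'.2
      push Not at this
      obtain ⟨j, hj⟩ := this
      exact ⟨⟨j, hj⟩⟩
    exact h2 e he.1 e' he'.1 hne j j' (by rw [hj, hj'])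
  have h8 : M'.card + (M.filter (fun e => ¬ ∀ j, e j ≠ i)).card = M.card := by
    rw [hM']; exact Finset.card_filter_add_card_filter_not (s := M) (fun e => ∀ j, e j ≠ i)
  have h9 := le_nu h4
  rw [← mm_card C Y, ← hM]
  omega

/-! #### counting values -/

theorem card_val_mul {k : ℕ} (hk : Fintype.card ι = k) (e : Fin s → ι)
    (he : Function.Injective e) (z : Fin s → V) :
    (univ.filter fun Y : ι → V => (fun j => Y (e j)) = z).card * (Fintype.card V) ^ s =
      (Fintype.card V) ^ k := by
  classical
  -- the filter is a `piFinset`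
  have h1 : (univ.filter fun Y : ι → V => (fun j => Y (e j)) = z) =
      Fintype.piFinset (fun i => if h : ∃ j, e j = i then {z h.choose} else (univ : Finset V)) := by
    ext Y
    rw [Fintype.mem_piFinset, Finset.mem_filter]
    simp only [Finset.mem_univ, true_and]
    constructor
    · intro h i
      by_cases hi : ∃ j, e j = i
      · rw [dif_pos hi, Finset.mem_singleton, ← h]
        show Y i = Y (e hi.choose)
        rw [hi.choose_spec]
      · rw [dif_neg hi]; exact Finset.mem_univ _
    · intro h
      funext j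
      have hi : ∃ j', e j' = e j := ⟨j, rfl⟩
      have h2 := h (e j)
      rw [dif_pos hi, Finset.mem_singleton] at h2
      have h3 : hi.choose = j := he hi.choose_spec
      rw [h3] at h2
      exact h2
  rw [h1, Fintype.card_piFinset]
  have h2 : ∀ i : ι, (if h : ∃ j, e j = i then ({z h.choose} : Finset V)
      else (univ : Finset V)).card = if (∃ j, e j = i) then 1 else Fintype.card V := by
    intro i
    split_ifs <;> simp
  simp_rw [h2]
  rw [Finset.prod_ite, Finset.prod_const_one, one_mul, Finset.prod_const]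
  have h3 : (univ.filter fun i : ι => ∃ j, e j = i).card = s := by
    have : (univ.filter fun i : ι => ∃ j, e j = i) = univ.image e := by
      ext i; simp
    rw [this, Finset.card_image_of_injective _ he]
    simp
  have h4 := Finset.card_filter_add_card_filter_not (s := (univ : Finset ι))
    (fun i => ∃ j, e j = i)
  rw [h3, Finset.card_univ, hk] at h4
  rw [← pow_add]
  congr 1
  omega

theorem card_pt_mul {k : ℕ} (hk : Fintype.card ι = k) (i : ι) (a : V) :
    (univ.filter fun Y : ι → V => Y i = a).card * (Fintype.card V) =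
      (Fintype.card V) ^ k := by
  classical
  have h := card_val_mul (s := 1) hk (fun _ : Fin 1 => i)
    (fun x y _ => Subsingleton.elim x y) (fun _ => a)
  rw [pow_one] at h
  rw [← h]
  congr 2
  ext Y
  simp only [Finset.mem_filter, Finset.mem_univ, true_and]
  constructor
  · intro hY; funext _; exact hY
  · intro hY; exact congrFun hY 0

end Matching

end Crest.Agent.R042.Cont666
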