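import Crest.Agent.R042.Cont2_666

set_option autoImplicit false
set_option linter.unusedSectionVars false
open Finset

/-!
S0059 (row 42): the sampling / container theorem, part 3: the mean of the matching number of a
container without admissible weight, tails, fibres.
-/

namespace Crest.Agent.R042.Cont666

section Mean

variable {V : Type*} [Fintype V] [DecidableEq V] {ι : Type*} [Fintype ι] [DecidableEq ι] {s : ℕ}

/-- multiplicity of `a` in the tuple `z` -/
def mult (a : V) (z : Fin s → V) : ℝ := ((univ.filter fun j => z j = a).card : ℝ)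

/-- admissible weights on `s`-tuples: `∑_j ∑_{z, z j = a} w z ≤ 1`, `w z ≤ (n/N)^(s-1)`,
total mass `δ N`. -/
def AdmS (n : ℕ) (δ : ℝ) (W : Finset (Fin s → V)) (w : (Fin s → V) → ℝ) : Prop :=
  Adm (fun a z => mult a z) (((n : ℝ) / (Fintype.card V : ℝ)) ^ (s - 1))
    (δ * (Fintype.card V : ℝ)) W w

/-- summed indicator -/
noncomputable def w0 (C : Finset (Fin s → V)) (ι : Type*) [Fintype ι] [DecidableEq ι]
    (z : Fin s → V) : ℝ :=
  ∑ Y : ι → V, ∑ e ∈ mm C Y, if (fun j => Y (e j)) = z then (1 : ℝ) else 0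

theorem sum_w0 (C : Finset (Fin s → V)) (f : (Fin s → V) → ℝ) :
    ∑ z, f z * w0 C ι z = ∑ Y : ι → V, ∑ e ∈ mm C Y, f (fun j => Y (e j)) := by
  unfold w0
  simp_rw [Finset.mul_sum]
  rw [Finset.sum_comm]
  refine Finset.sum_congr rfl fun Y _ => ?_
  rw [Finset.sum_comm]
  refine Finset.sum_congr rfl fun e _ => ?_
  simp

theorem w0_nonneg (C : Finset (Fin s → V)) (z : Fin s → V) : 0 ≤ w0 C ι z :=
  Finset.sum_nonneg fun Y _ => Finset.sum_nonneg fun e _ => by split_ifs <;> norm_num

theorem w0_supp (C : Finset (Fin s → V)) (z : Fin s → V) (h : w0 C ι z ≠ 0) : z ∈ C := by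
  by_contra hz
  apply h
  refine Finset.sum_eq_zero fun Y _ => Finset.sum_eq_zero fun e he => ?_
  rw [if_neg]
  intro h1
  exact hz (h1 ▸ (mem_fam.1 (mm_mem C Y)).2 e he)

theorem w0_row (C : Finset (Fin s → V)) (a : V) {k : ℕ} (hk : Fintype.card ι = k) :
    (∑ z, mult a z * w0 C ι z) * (Fintype.card V : ℝ) ≤
      (k : ℝ) * (Fintype.card V : ℝ) ^ k := by
  classical
  rw [sum_w0]
  have h1 : ∀ Y : ι → V, ∑ e ∈ mm C Y, mult a (fun j => Y (e j)) ≤
      ((univ.filter fun i => Y i = a).card : ℝ) := by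
    intro Y
    have h2 : ∑ e ∈ mm C Y, mult a (fun j => Y (e j)) =
        ((((mm C Y) ×ˢ (univ : Finset (Fin s))).filter
          (fun p => Y (p.1 p.2) = a)).card : ℝ) := by
      rw [Finset.card_filter, Finset.sum_product]
      push_cast
      refine Finset.sum_congr rfl fun e _ => ?_
      unfold mult
      rw [Finset.card_filter]
      push_cast
      rfl
    rw [h2]
    have h3 := (mem_fam.1 (mm_mem C Y)).1
    have h4 : (((mm C Y) ×ˢ (univ : Finset (Fin s))).filter
          (fun p => Y (p.1 p.2) = a)).card ≤ (univ.filter fun i => Y i = a).card := by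
      refine Finset.card_le_card_of_injOn (fun p => p.1 p.2) ?_ ?_
      · intro p hp
        simp only [Finset.coe_filter, Finset.mem_product, Set.mem_ofPred_eq] at hp
        simp only [Finset.coe_filter, Set.mem_ofPred_eq, Finset.mem_univ, true_and]
        exact hp.2
      · rintro ⟨e, j⟩ hp ⟨e', j'⟩ hp' heq
        simp only [Finset.coe_filter, Finset.mem_product, Set.mem_ofPred_eq] at hp hp'
        simp only at heq
        by_cases hee : e = e'
        · subst hee
          have := h3.1 e hp.1.1 heq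
          rw [this]
        · exact absurd heq (h3.2 e hp.1.1 e' hp'.1.1 hee j j')
    exact_mod_cast h4
  have h5 : ∑ Y : ι → V, ∑ e ∈ mm C Y, mult a (fun j => Y (e j)) ≤
      ∑ Y : ι → V, ((univ.filter fun i => Y i = a).card : ℝ) :=
    Finset.sum_le_sum fun Y _ => h1 Y
  have h6 : (∑ Y : ι → V, ((univ.filter fun i => Y i = a).card : ℝ)) *
      (Fintype.card V : ℝ) = (k : ℝ) * (Fintype.card V : ℝ) ^ k := by
    have h7 : ∑ Y : ι → V, ((univ.filter fun i => Y i = a).card : ℝ) =
        ∑ i : ι, ((univ.filter fun Y : ι → V => Y i = a).card : ℝ) := by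
      simp_rw [Finset.card_filter]
      push_cast
      rw [Finset.sum_comm]
    rw [h7, Finset.sum_mul]
    have h8 : ∀ i : ι, ((univ.filter fun Y : ι → V => Y i = a).card : ℝ) *
        (Fintype.card V : ℝ) = (Fintype.card V : ℝ) ^ k := by
      intro i
      have := card_pt_mul hk i a
      exact_mod_cast this
    rw [Finset.sum_congr rfl fun i _ => h8 i, Finset.sum_const, Finset.card_univ, hk,
      nsmul_eq_mul]
  rw [← h6]
  exact mul_le_mul_of_nonneg_right h5 (Nat.cast_nonneg _)

theorem w0_cap (C : Finset (Fin s → V)) (z : Fin s → V) {k : ℕ} (hk : Fintype.card ι = k) :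
    w0 C ι z * (Fintype.card V : ℝ) ^ s ≤ (k : ℝ) ^ s * (Fintype.card V : ℝ) ^ k := by
  classical
  have h1 : w0 C ι z ≤ ∑ Y : ι → V, ∑ e ∈ univ.filter (fun e : Fin s → ι =>
      Function.Injective e), if (fun j => Y (e j)) = z then (1 : ℝ) else 0 := by
    refine Finset.sum_le_sum fun Y _ => ?_
    refine Finset.sum_le_sum_of_subset_of_nonneg ?_ ?_
    · intro e he
      rw [Finset.mem_filter]
      exact ⟨Finset.mem_univ _, (mem_fam.1 (mm_mem C Y)).1.1 e he⟩
    · intro e _ _
      split_ifs <;> norm_num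
  rw [Finset.sum_comm] at h1
  have h2 : ∀ e ∈ univ.filter (fun e : Fin s → ι => Function.Injective e),
      (∑ Y : ι → V, if (fun j => Y (e j)) = z then (1 : ℝ) else 0) *
        (Fintype.card V : ℝ) ^ s = (Fintype.card V : ℝ) ^ k := by
    intro e he
    have h3 := card_val_mul hk e (Finset.mem_filter.1 he).2 z
    rw [Finset.card_filter] at h3
    exact_mod_cast h3
  have h3 : (∑ e ∈ univ.filter (fun e : Fin s → ι => Function.Injective e),
      ∑ Y : ι → V, if (fun j => Y (e j)) = z then (1 : ℝ) else 0) *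
        (Fintype.card V : ℝ) ^ s ≤ (k : ℝ) ^ s * (Fintype.card V : ℝ) ^ k := by
    rw [Finset.sum_mul, Finset.sum_congr rfl h2, Finset.sum_const, nsmul_eq_mul]
    refine mul_le_mul_of_nonneg_right ?_ (by positivity)
    have h4 : (univ.filter (fun e : Fin s → ι => Function.Injective e)).card ≤ k ^ s := by
      refine (Finset.card_le_univ _).trans ?_
      rw [Fintype.card_fun, Fintype.card_fin, hk]
    exact_mod_cast h4
  exact (mul_le_mul_of_nonneg_right h1 (by positivity)).trans h3

theorem cap_arith {δ N T k n : ℝ} {kk s : ℕ} (hδ : 0 < δ) (hN0 : 0 < N) (hT0 : 0 < T)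
    (hk0 : 0 ≤ k) (hkn : k ≤ n) (hs : 1 ≤ s) (hTk : δ * k * N ^ kk < T) :
    δ * N / T * (k ^ s * N ^ kk / N ^ s) ≤ (n / N) ^ (s - 1) := by
  obtain ⟨s', rfl⟩ : ∃ s', s = s' + 1 := ⟨s - 1, by omega⟩
  rw [Nat.add_sub_cancel]
  have h5 : δ * N / T * (k ^ (s' + 1) * N ^ kk / N ^ (s' + 1)) =
      (δ * k * N ^ kk) / T * (k / N) ^ s' := by
    rw [pow_succ k s', pow_succ N s', div_pow]
    field_simp
  rw [h5]
  have h6 : (δ * k * N ^ kk) / T ≤ 1 := by
    rw [div_le_one hT0]; exact hTk.le
  have h7 : (0 : ℝ) ≤ (k / N) ^ s' := by positivity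
  have h8 : (k / N) ^ s' ≤ (n / N) ^ s' :=
    pow_le_pow_left₀ (by positivity) (div_le_div_of_nonneg_right hkn hN0.le) _
  calc (δ * k * N ^ kk) / T * (k / N) ^ s' ≤ 1 * (k / N) ^ s' :=
        mul_le_mul_of_nonneg_right h6 h7
    _ = (k / N) ^ s' := one_mul _
    _ ≤ _ := h8

/-- the mean of the matching number of a container without admissible weight -/
theorem mean_le (C : Finset (Fin s → V)) {k n : ℕ} (hk : Fintype.card ι = k) (hkn : k ≤ n)
    {δ : ℝ} (hδ : 0 < δ) (hs : 1 ≤ s) (hV : 0 < Fintype.card V)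
    (hno : ¬ ∃ w, AdmS n δ C w) :
    ∑ Y : ι → V, (nu C Y : ℝ) ≤ δ * n * (Fintype.card V : ℝ) ^ k := by
  classical
  by_contra hcon
  push Not at hcon
  obtain ⟨T, hT⟩ : ∃ T : ℝ, T = ∑ Y : ι → V, (nu C Y : ℝ) := ⟨_, rfl⟩
  rw [← hT] at hcon
  obtain ⟨N, hN⟩ : ∃ N : ℝ, N = (Fintype.card V : ℝ) := ⟨_, rfl⟩
  rw [← hN] at hcon
  have hN0 : 0 < N := by rw [hN]; exact_mod_cast hV
  have hNk : 0 < N ^ k := pow_pos hN0 k
  have hT0 : 0 < T := lt_of_le_of_lt (by positivity) hcon
  have hTk : δ * k * N ^ k < T := by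
    refine lt_of_le_of_lt ?_ hcon
    have : (k : ℝ) ≤ n := by exact_mod_cast hkn
    have := mul_le_mul_of_nonneg_left this hδ.le
    exact mul_le_mul_of_nonneg_right this hNk.le
  -- k is positive
  have hkpos : 0 < k := by
    rcases Nat.eq_zero_or_pos k with h0 | h0
    · exfalso
      have hι : IsEmpty ι := Fintype.card_eq_zero_iff.1 (hk.trans h0)
      have : T = 0 := by
        rw [hT]
        refine Finset.sum_eq_zero fun Y _ => ?_
        rw [← mm_card]
        have : mm C Y = ∅ := by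
          rw [Finset.eq_empty_iff_forall_notMem]
          intro e _
          exact hι.elim (e ⟨0, hs⟩)
        rw [this]; simp
      rw [this] at hT0
      exact lt_irrefl _ hT0
    · exact h0
  have hk0 : (0 : ℝ) < k := by exact_mod_cast hkpos
  apply hno
  have hc0 : 0 ≤ δ * N / T := by positivity
  refine ⟨fun z => δ * N / T * w0 C ι z, ?_⟩
  unfold AdmS
  rw [← hN]
  refine ⟨?_, ?_, ?_, ?_, ?_⟩
  · intro z
    exact mul_nonneg hc0 (w0_nonneg C z)
  · intro z hz
    exact w0_supp (ι := ι) C z (right_ne_zero_of_mul hz)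
  · intro a
    have h1 := w0_row (ι := ι) C a hk
    rw [← hN] at h1
    have h2 : ∑ z, mult a z * (δ * N / T * w0 C ι z) =
        δ / T * ((∑ z, mult a z * w0 C ι z) * N) := by
      rw [Finset.sum_mul, Finset.mul_sum]
      exact Finset.sum_congr rfl fun z _ => by ring
    rw [h2]
    calc δ / T * ((∑ z, mult a z * w0 C ι z) * N) ≤ δ / T * (k * N ^ k) :=
          mul_le_mul_of_nonneg_left h1 (div_nonneg hδ.le hT0.le)
      _ = (δ * k * N ^ k) / T := by ring
      _ ≤ 1 := by
          rw [div_le_one hT0]; exact hTk.le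
  · intro z
    have h1 := w0_cap (ι := ι) C z hk
    rw [← hN] at h1
    have hNs : 0 < N ^ s := pow_pos hN0 s
    have h2 : w0 C ι z ≤ k ^ s * N ^ k / N ^ s := by
      rw [le_div_iff₀ hNs]; exact h1
    have h3 : δ * N / T * w0 C ι z ≤ δ * N / T * (k ^ s * N ^ k / N ^ s) :=
      mul_le_mul_of_nonneg_left h2 hc0
    have hkn' : (k : ℝ) ≤ n := by exact_mod_cast hkn
    exact h3.trans (cap_arith hδ hN0 hT0 hk0.le hkn' hs hTk)
  · have h1 := sum_w0 (ι := ι) C (fun _ => 1)
    simp only [one_mul, Finset.sum_const, nsmul_eq_mul, mul_one] at h1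
    rw [← Finset.mul_sum, h1]
    have h2 : ∑ Y : ι → V, ((mm C Y).card : ℝ) = T := by
      rw [hT]
      exact Finset.sum_congr rfl fun Y _ => by rw [mm_card]
    rw [h2]
    field_simp

open Classical in
/-- tail of the matching number of a container without admissible weight -/
theorem nu_tail (C : Finset (Fin s → V)) {k n : ℕ} (hk : Fintype.card ι = k) (hkn : k ≤ n)
    (hn : 0 < n) {δ : ℝ} (hδ : 0 < δ) (hs : 1 ≤ s) (hV : 0 < Fintype.card V)
    (hno : ¬ ∃ w, AdmS n δ C w) :
    ((univ.filter fun Y : ι → V => 2 * δ * n ≤ (nu C Y : ℝ)).card : ℝ) ≤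
      (Fintype.card V : ℝ) ^ k * Real.exp (- (δ ^ 2 * n / 2)) := by
  have h := tail (V := V) (ι := ι) (fun Y => (nu C Y : ℝ)) (δ * n) (δ * n) n
    (by exact_mod_cast hn) (by positivity) (by rw [hk]; exact_mod_cast hkn) hV
    (by rw [hk]; exact mean_le C hk hkn hδ hs hV hno)
    (by
      intro Y Y' i hY
      have := nu_lip C Y Y' i hY
      have : (nu C Y : ℝ) ≤ nu C Y' + 1 := by exact_mod_cast this
      linarith)
  rw [hk] at h
  have e1 : δ * (n : ℝ) + δ * n = 2 * δ * n := by ring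
  rw [e1] at h
  have e2 : -(δ * (n : ℝ)) ^ 2 / (2 * n) = -(δ ^ 2 * n / 2) := by
    have : (n : ℝ) ≠ 0 := by positivity
    field_simp
  rw [e2] at h
  exact h

end Mean

/-! ### fibres -/

section Fibre

variable {V : Type*} [Fintype V] [DecidableEq V] {ι : Type*} [Fintype ι] [DecidableEq ι]

/-- glue -/
def glue (J : Finset ι) (X : ι → V) (Y : {i // i ∉ J} → V) : ι → V :=
  fun i => if h : i ∈ J then X i else Y ⟨i, h⟩

theorem glue_in {J : Finset ι} {X : ι → V} {Y : {i // i ∉ J} → V} {i : ι} (h : i ∈ J) :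
    glue J X Y i = X i := by simp [glue, h]

theorem glue_out {J : Finset ι} {X : ι → V} {Y : {i // i ∉ J} → V} {i : ι} (h : i ∉ J) :
    glue J X Y i = Y ⟨i, h⟩ := by simp [glue, h]

/-- the swapping involution -/
def swp (J : Finset ι) (p : (ι → V) × ({i // i ∉ J} → V)) :
    (ι → V) × ({i // i ∉ J} → V) :=
  (glue J p.1 p.2, fun i => p.1 i.1)

theorem swp_invol (J : Finset ι) : Function.Involutive (swp (V := V) J) := by
  rintro ⟨X, Y⟩
  unfold swp
  ext i
  · by_cases h : i ∈ J
    · simp [glue, h]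
    · simp [glue, h]
  · simp only
    exact glue_out i.2

open Classical in
theorem count_fibre (J : Finset ι) (P : (ι → V) → Prop) (ε : ℝ) (hV : 0 < Fintype.card V)
    (h : ∀ X : ι → V, ((univ.filter fun Y : {i // i ∉ J} → V => P (glue J X Y)).card : ℝ) ≤
      (Fintype.card V : ℝ) ^ (Fintype.card {i // i ∉ J}) * ε) :
    ((univ.filter fun X : ι → V => P X).card : ℝ) ≤
      (Fintype.card V : ℝ) ^ (Fintype.card ι) * ε := by
  set m := Fintype.card {i // i ∉ J} with hm
  have hN0 : (0 : ℝ) < (Fintype.card V : ℝ) := by exact_mod_cast hV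
  have h1 : ∑ X : ι → V, ((univ.filter fun Y : {i // i ∉ J} → V => P (glue J X Y)).card : ℝ) ≤
      ∑ _X : ι → V, (Fintype.card V : ℝ) ^ m * ε := Finset.sum_le_sum fun X _ => h X
  have h2 : ∑ X : ι → V, ((univ.filter fun Y : {i // i ∉ J} → V => P (glue J X Y)).card : ℝ) =
      ((univ.filter fun X : ι → V => P X).card : ℝ) * (Fintype.card V : ℝ) ^ m := by
    have h3 : ∑ X : ι → V, ((univ.filter fun Y : {i // i ∉ J} → V =>
        P (glue J X Y)).card : ℝ) =
        ∑ p : (ι → V) × ({i // i ∉ J} → V), if P (swp J p).1 then (1 : ℝ) else 0 := by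
      rw [Fintype.sum_prod_type]
      refine Finset.sum_congr rfl fun X _ => ?_
      rw [Finset.card_filter]
      push_cast
      rfl
    have h3' : ∑ p : (ι → V) × ({i // i ∉ J} → V), (if P (swp J p).1 then (1 : ℝ) else 0) =
        ∑ p : (ι → V) × ({i // i ∉ J} → V), if P p.1 then (1 : ℝ) else 0 :=
      Equiv.sum_comp (swp_invol J).toPerm
        (fun p : (ι → V) × ({i // i ∉ J} → V) => if P p.1 then (1 : ℝ) else 0)
    rw [h3, h3', Fintype.sum_prod_type]
    have h3'' : ∀ X : ι → V, (∑ _y : {i // i ∉ J} → V, if P X then (1 : ℝ) else 0) =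
        (if P X then (1 : ℝ) else 0) * (Fintype.card V : ℝ) ^ m := by
      intro X
      rw [Finset.sum_const, Finset.card_univ, Fintype.card_fun, nsmul_eq_mul, hm]
      push_cast
      ring
    have h3''' : ∑ X : ι → V, (∑ _y : {i // i ∉ J} → V, if P X then (1 : ℝ) else 0) =
        ∑ X : ι → V, (if P X then (1 : ℝ) else 0) * (Fintype.card V : ℝ) ^ m :=
      Finset.sum_congr rfl fun X _ => h3'' X
    rw [← Finset.sum_mul] at h3'''
    refine Eq.trans h3''' ?_
    rw [Finset.card_filter]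
    push_cast
    rfl
  rw [h2] at h1
  simp only [Finset.sum_const, Finset.card_univ, nsmul_eq_mul, Fintype.card_fun] at h1
  push_cast at h1
  have h4 : 0 < (Fintype.card V : ℝ) ^ m := pow_pos hN0 m
  have h5 : ((univ.filter fun X : ι → V => P X).card : ℝ) * (Fintype.card V : ℝ) ^ m ≤
      ((Fintype.card V : ℝ) ^ (Fintype.card ι) * ε) * (Fintype.card V : ℝ) ^ m := by
    refine h1.trans (le_of_eq ?_)
    ring
  exact le_of_mul_le_mul_right h5 h4

end Fibre

end Crest.Agent.R042.Cont666
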