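import Crest.Agent.R042.Cont_666

set_option autoImplicit false
set_option linter.unusedSectionVars false
open Finset

/-!
S0059 (row 42): the sampling / container theorem for two families.
-/

namespace Crest.Agent.R042.Cont666

section Containers2

variable {Z α : Type*} [Fintype Z] [DecidableEq Z] [Nonempty Z]

open Classical in
/-- two-family containers -/
theorem containers2 (r : α → Z → ℝ) (c μ g : ℝ) (Ω : Finset Z) (R : Z → Z → Prop)
    (hμ : 0 < μ) (hc : 0 < c) (hg : 0 < g)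
    (hSS : ∀ w₁ w₂, Adm r c μ Ω w₁ → Adm r c μ Ω w₂ → ∃ z, w₁ z ≠ 0 ∧
      g ≤ ∑ z' ∈ univ.filter (fun z' => R z z'), w₂ z')
    (t : ℕ) (ht : μ * Real.log (c * Fintype.card Z / μ) / (g * Real.log 2) + 1 ≤ t) :
    ∃ C₁ C₂ : List Z → Finset Z, ∀ A₁ A₂ : Set Z, (∀ z ∈ A₁, z ∈ Ω) → (∀ z ∈ A₂, z ∈ Ω) →
      (∀ z ∈ A₁, ∀ z' ∈ A₂, ¬ R z z') →
      ∃ L : List Z, (∀ z ∈ L, z ∈ A₁) ∧ L.length ≤ t ∧ (∀ z ∈ A₁, z ∈ C₁ L) ∧
        (∀ z ∈ A₂, z ∈ C₂ L) ∧ (¬ HasAdm r c μ (C₁ L) ∨ ¬ HasAdm r c μ (C₂ L)) := by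
  have hZ : 0 < Fintype.card Z := Fintype.card_pos
  have hZ' : (0 : ℝ) < (Fintype.card Z : ℝ) := by exact_mod_cast hZ
  have hlog2 : 0 < Real.log 2 := Real.log_pos (by norm_num)
  set stop : Finset Z × Finset Z → Prop := fun W =>
    ¬ ((HasAdm r c μ W.1 ∧ W.1 ⊆ Ω) ∧ (HasAdm r c μ W.2 ∧ W.2 ⊆ Ω)) with hstop
  have hq : ∀ W : Finset Z × Finset Z, ∃ z, ¬ stop W → (mw r c μ W.1 z ≠ 0 ∧
      g ≤ ∑ z' ∈ univ.filter (fun z' => R z z'), mw r c μ W.2 z') := by
    intro W
    by_cases h : stop W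
    · exact ⟨Classical.arbitrary Z, fun h' => absurd h h'⟩
    · have h' := not_not.1 h
      obtain ⟨z, hz⟩ := hSS _ _ ((mw_adm h'.1.1).mono h'.1.2) ((mw_adm h'.2.1).mono h'.2.2)
      exact ⟨z, fun _ => hz⟩
  choose q hq using hq
  set yes : Finset Z × Finset Z → Finset Z × Finset Z := fun W =>
    (W.1, W.2 \ univ.filter (fun z' => R (q W) z')) with hyes
  set no : Finset Z × Finset Z → Finset Z × Finset Z := fun W =>
    (W.1.erase (q W), W.2) with hno
  set pot : Finset Z × Finset Z → ℝ := fun W => ent (mw r c μ W.2) with hpot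
  set meas : Finset Z × Finset Z → ℕ := fun W => W.1.card + W.2.card with hmeas
  refine ⟨fun L => (run stop q yes no (meas (Ω, Ω) + 1) (Ω, Ω) L).1,
    fun L => (run stop q yes no (meas (Ω, Ω) + 1) (Ω, Ω) L).2, ?_⟩
  intro A₁ A₂ hA₁ hA₂ hfree
  have key := run_spec (stop := stop) (q := q) (yes := yes) (no := no) (meas := meas)
    (pot := pot) (g := Real.log 2 * g) (B := μ * Real.log c) (mul_pos hlog2 hg)
    (by
      intro W hW
      have hlt : (W.2 \ univ.filter (fun z' => R (q W) z')).card < W.2.card := by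
        refine Finset.card_lt_card ?_
        refine ⟨sdiff_subset, fun hsub => ?_⟩
        obtain ⟨h1, h2⟩ := hq W hW
        have h3 : ∃ z' ∈ univ.filter (fun z' => R (q W) z'), mw r c μ W.2 z' ≠ 0 := by
          by_contra hcon
          push Not at hcon
          rw [Finset.sum_eq_zero hcon] at h2
          linarith
        obtain ⟨z', hz', hne⟩ := h3
        have h4 := (mw_adm (not_not.1 hW).2.1).supp z' hne
        exact (Finset.mem_sdiff.1 (hsub h4)).2 hz'
      show W.1.card + (W.2 \ univ.filter (fun z' => R (q W) z')).card < W.1.card + W.2.card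
      omega)
    (by
      intro W hW
      obtain ⟨h1, h2⟩ := hq W hW
      have hlt := Finset.card_erase_lt_of_mem ((mw_adm (not_not.1 hW).1.1).supp _ h1)
      show (W.1.erase (q W)).card + W.2.card < W.1.card + W.2.card
      omega)
    (by
      intro W hW hW'
      obtain ⟨h1, h2⟩ := hq W hW
      have h3 := gain (S := univ.filter (fun z' => R (q W) z')) (not_not.1 hW).2.1
        (not_not.1 hW').2.1
      have h4 := mul_le_mul_of_nonneg_left h2 hlog2.le
      show ent (mw r c μ W.2) + Real.log 2 * g ≤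
        ent (mw r c μ (W.2 \ univ.filter (fun z' => R (q W) z')))
      linarith)
    (by
      intro W hW hW'
      exact le_refl _)
    (by
      intro W hW
      exact ent_le (mw_adm (not_not.1 hW).2.1))
    A₁ (fun W => ((∀ z ∈ A₁, z ∈ W.1) ∧ W.1 ⊆ Ω) ∧ ((∀ z ∈ A₂, z ∈ W.2) ∧ W.2 ⊆ Ω))
    (by
      rintro W ⟨⟨h1, h2⟩, ⟨h3, h4⟩⟩ hW hqA
      refine ⟨⟨h1, h2⟩, ⟨fun z hz => ?_, sdiff_subset.trans h4⟩⟩
      refine Finset.mem_sdiff.2 ⟨h3 z hz, fun hR => ?_⟩
      exact hfree _ hqA _ hz (Finset.mem_filter.1 hR).2)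
    (by
      rintro W ⟨⟨h1, h2⟩, ⟨h3, h4⟩⟩ hW hqA
      refine ⟨⟨fun z hz => ?_, (Finset.erase_subset _ _).trans h2⟩, ⟨h3, h4⟩⟩
      exact Finset.mem_erase.2 ⟨fun h => hqA (h ▸ hz), h1 z hz⟩)
    (meas (Ω, Ω) + 1) (Ω, Ω) (Nat.lt_succ_self _)
    ⟨⟨hA₁, Finset.Subset.refl _⟩, ⟨hA₂, Finset.Subset.refl _⟩⟩
  obtain ⟨L, h1, h2, h3, h4, h5⟩ := key
  refine ⟨L, h1, ?_, h3.1.1, h3.2.1, ?_⟩
  · by_cases hst : stop (Ω, Ω)
    · rw [h4 hst]; simp
    · have h6 := h5 hst
      have h7 := ent_ge hμ (mw_adm (not_not.1 hst).2.1) hZ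
      have h8 : μ * Real.log (c * Fintype.card Z / μ) =
          μ * Real.log c - μ * Real.log (μ / (Fintype.card Z : ℝ)) := by
        rw [Real.log_div (by positivity) hμ.ne', Real.log_mul hc.ne' hZ'.ne',
          Real.log_div hμ.ne' hZ'.ne']
        ring
      have h9 : ((L.length : ℝ) - 1) * (g * Real.log 2) ≤
          μ * Real.log (c * Fintype.card Z / μ) := by
        rw [h8]
        have h6' : ((L.length : ℝ) - 1) * (Real.log 2 * g) ≤ μ * Real.log c -
          ent (mw r c μ Ω) := h6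
        have h7' : μ * Real.log (μ / (Fintype.card Z : ℝ)) ≤ ent (mw r c μ Ω) := h7
        have e : ((L.length : ℝ) - 1) * (g * Real.log 2) =
          ((L.length : ℝ) - 1) * (Real.log 2 * g) := by ring
        rw [e]
        linarith
      have h10 : ((L.length : ℝ) - 1) ≤ μ * Real.log (c * Fintype.card Z / μ) /
          (g * Real.log 2) := by
        rw [le_div_iff₀ (mul_pos hg hlog2)]
        exact h9
      have h11 : (L.length : ℝ) ≤ (t : ℝ) := by linarith
      exact_mod_cast h11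
  · by_contra hcon
    rw [not_or, not_not, not_not] at hcon
    exact h2 ⟨⟨hcon.1, h3.1.2⟩, ⟨hcon.2, h3.2.2⟩⟩

end Containers2

section Main2

variable {V : Type*} [Fintype V] [DecidableEq V] {s n : ℕ}

/-- the bad event for two families -/
def Bad2 (Ω : Finset (Fin s → V)) (R : (Fin s → V) → (Fin s → V) → Prop) (m : ℝ)
    (X : Fin n → V) : Prop :=
  ∃ M₁ M₂ : Finset (Fin s → Fin n), IsMatch M₁ ∧ IsMatch M₂ ∧
      (∀ e ∈ M₁, (fun j => X (e j)) ∈ Ω) ∧ (∀ e ∈ M₂, (fun j => X (e j)) ∈ Ω) ∧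
      (∀ e ∈ M₁, ∀ e' ∈ M₂, ¬ R (fun j => X (e j)) (fun j => X (e' j))) ∧
      m ≤ (M₁.card : ℝ) ∧ m ≤ (M₂.card : ℝ)

/-- restricting a family to the complement of the indices of a certificate -/
theorem restrict_fam {j : ℕ} (E : Fin j → (Fin s → Fin n)) (C : Finset (Fin s → V))
    (X : Fin n → V) (M : Finset (Fin s → Fin n)) (hM : IsMatch M)
    (hC : ∀ e ∈ M, (fun l => X (e l)) ∈ C) :
    M.card ≤ nu C (fun i : {i // i ∉ ind E} => X i.1) + s * j := by
  classical
  set M'' : Finset (Fin s → {i // i ∉ ind E}) :=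
    univ.filter (fun e'' => (fun l => (e'' l).1) ∈ M) with hM''
  have hfam : M'' ∈ fam C (fun i : {i // i ∉ ind E} => X i.1) := by
    rw [mem_fam]
    refine ⟨⟨?_, ?_⟩, ?_⟩
    · intro e he a b hab
      have := hM.1 _ (Finset.mem_filter.1 he).2
      exact this (by simpa using congrArg Subtype.val hab)
    · intro e he e' he' hne a b hab
      have hne' : (fun l => (e l).1) ≠ (fun l => (e' l).1) := by
        intro h
        apply hne
        funext l
        exact Subtype.ext (congrFun h l)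
      exact hM.2 _ (Finset.mem_filter.1 he).2 _ (Finset.mem_filter.1 he').2 hne' a b
        (congrArg Subtype.val hab)
    · intro e he
      exact hC _ (Finset.mem_filter.1 he).2
  -- members meeting `ind E`
  set B := M.filter (fun e => ∃ l, e l ∈ ind E) with hB
  have hind : (ind E).card ≤ s * j := by
    unfold ind
    refine (Finset.card_biUnion_le).trans ?_
    refine (Finset.sum_le_sum (g := fun _ => s) fun i _ => ?_).trans ?_
    · refine Finset.card_image_le.trans ?_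
      simp
    · simp [mul_comm]
  have hBc : B.card ≤ (ind E).card := by
    have hch : ∀ e ∈ B, ∃ x, x ∈ ind E ∧ ∃ l, e l = x := by
      intro e he
      obtain ⟨l, hl⟩ := (Finset.mem_filter.1 he).2
      exact ⟨e l, hl, l, rfl⟩
    rcases B.eq_empty_or_nonempty with hBe | ⟨e0, he0⟩
    · rw [hBe]; simp
    obtain ⟨x0, _, _⟩ := hch e0 he0
    have : Nonempty (Fin n) := ⟨x0⟩
    choose! f hf1 hf2 using hch
    refine Finset.card_le_card_of_injOn f (fun e he => hf1 e he) ?_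
    intro e he e' he' heq
    by_contra hne
    obtain ⟨l, hl⟩ := hf2 e he
    obtain ⟨l', hl'⟩ := hf2 e' he'
    exact hM.2 e (Finset.mem_filter.1 he).1 e' (Finset.mem_filter.1 he').1 hne l l'
      (by rw [hl, hl', heq])
  have hsub : M \ B ⊆ M''.image (fun e'' => fun l => (e'' l).1) := by
    intro e he
    rw [Finset.mem_sdiff] at he
    rw [Finset.mem_image]
    have hout : ∀ l, e l ∉ ind E := by
      intro l hl
      exact he.2 (Finset.mem_filter.2 ⟨he.1, l, hl⟩)
    refine ⟨fun l => ⟨e l, hout l⟩, ?_, rfl⟩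
    rw [hM'', Finset.mem_filter]
    exact ⟨Finset.mem_univ _, he.1⟩
  have hc1 : (M \ B).card ≤ M''.card :=
    (Finset.card_le_card hsub).trans Finset.card_image_le
  have hc2 : M.card - B.card ≤ (M \ B).card := Finset.le_card_sdiff _ _
  have hc4 := le_nu hfam
  omega

theorem certificate2 {t : ℕ} {δ : ℝ} (C₁ C₂ : List (Fin s → V) → Finset (Fin s → V))
    (Ω : Finset (Fin s → V)) (R : (Fin s → V) → (Fin s → V) → Prop)
    (hC : ∀ A₁ A₂ : Set (Fin s → V), (∀ z ∈ A₁, z ∈ Ω) → (∀ z ∈ A₂, z ∈ Ω) →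
      (∀ z ∈ A₁, ∀ z' ∈ A₂, ¬ R z z') →
      ∃ L : List (Fin s → V), (∀ z ∈ L, z ∈ A₁) ∧ L.length ≤ t ∧ (∀ z ∈ A₁, z ∈ C₁ L) ∧
        (∀ z ∈ A₂, z ∈ C₂ L) ∧
        ((¬ ∃ w, AdmS n δ (C₁ L) w) ∨ (¬ ∃ w, AdmS n δ (C₂ L) w)))
    (X : Fin n → V) (hX : Bad2 Ω R (2 * δ * n + s * t) X) :
    ∃ j ∈ Finset.range (t + 1), ∃ E : Fin j → (Fin s → Fin n),
      QQ δ C₁ E X ∨ QQ δ C₂ E X := by
  classical
  obtain ⟨M₁, M₂, hM₁, hM₂, hΩ₁, hΩ₂, hR, hc₁, hc₂⟩ := hX
  obtain ⟨L, h1, h2, h3, h3', h4⟩ := hC {z | ∃ e ∈ M₁, (fun j => X (e j)) = z}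
    {z | ∃ e ∈ M₂, (fun j => X (e j)) = z}
    (by rintro z ⟨e, he, rfl⟩; exact hΩ₁ e he)
    (by rintro z ⟨e, he, rfl⟩; exact hΩ₂ e he)
    (by
      rintro z ⟨e, he, rfl⟩ z' ⟨e', he', rfl⟩
      exact hR e he e' he')
  obtain ⟨El, h5, h6⟩ := exists_list_map (fun e : Fin s → Fin n => fun j => X (e j))
    (fun e => e ∈ M₁) L h1
  have hlen : El.length ≤ t := by
    rw [← h6, List.length_map] at h2; exact h2
  refine ⟨El.length, Finset.mem_range.2 (by omega), fun i => El.get i, ?_⟩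
  have hvals : vals X (fun i => El.get i) = L := by
    rw [← h6]
    unfold vals
    exact List.ofFn_getElem_eq_map El (fun e : Fin s → Fin n => fun j => X (e j))
  have hst : s * El.length ≤ s * t := Nat.mul_le_mul_left _ hlen
  have hst' : ((s * El.length : ℕ) : ℝ) ≤ s * t := by exact_mod_cast hst
  unfold QQ
  rw [hvals]
  rcases h4 with h4 | h4
  · left
    refine ⟨h4, ?_⟩
    have h7 := restrict_fam (fun i => El.get i) (C₁ L) X M₁ hM₁
      (fun e he => h3 _ ⟨e, he, rfl⟩)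
    have h8 : (M₁.card : ℝ) ≤ (nu (C₁ L) (fun i : {i // i ∉ ind fun i => El.get i} => X i.1) :
      ℝ) + ((s * El.length : ℕ) : ℝ) := by exact_mod_cast h7
    linarith
  · right
    refine ⟨h4, ?_⟩
    have h7 := restrict_fam (fun i => El.get i) (C₂ L) X M₂ hM₂
      (fun e he => h3' _ ⟨e, he, rfl⟩)
    have h8 : (M₂.card : ℝ) ≤ (nu (C₂ L) (fun i : {i // i ∉ ind fun i => El.get i} => X i.1) :
      ℝ) + ((s * El.length : ℕ) : ℝ) := by exact_mod_cast h7
    linarith

open Classical in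
/-- **sampling / container theorem**, two families, counting form. -/
theorem cont2 (n s t : ℕ) (δ κ : ℝ) (Ω : Finset (Fin s → V))
    (R : (Fin s → V) → (Fin s → V) → Prop)
    (hn : 0 < n) (hs : 1 ≤ s) (hδ : 0 < δ) (hκ : 0 < κ) (hV : 0 < Fintype.card V)
    (hSS : ∀ w₁ w₂, AdmS n δ Ω w₁ → AdmS n δ Ω w₂ → ∃ z, w₁ z ≠ 0 ∧
      κ * (Fintype.card V : ℝ) ≤ ∑ z' ∈ univ.filter (fun z' => R z z'), w₂ z')
    (ht : δ * Real.log ((n : ℝ) ^ (s - 1) / δ) / (κ * Real.log 2) + 1 ≤ t) :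
    ((univ.filter fun X : Fin n → V => Bad2 Ω R (2 * δ * n + s * t) X).card : ℝ) ≤
      2 * (t + 1) * (n : ℝ) ^ (s * t) * Real.exp (- (δ ^ 2 * n / 2)) *
        (Fintype.card V : ℝ) ^ n := by
  have hVne : Nonempty V := Fintype.card_pos_iff.1 hV
  have hN0 : (0 : ℝ) < (Fintype.card V : ℝ) := by exact_mod_cast hV
  have hn0 : (0 : ℝ) < (n : ℝ) := by exact_mod_cast hn
  have hn1 : (1 : ℝ) ≤ (n : ℝ) := by exact_mod_cast hn
  obtain ⟨C₁, C₂, hC⟩ := containers2 (Z := Fin s → V) (fun a z => mult a z)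
    (((n : ℝ) / (Fintype.card V : ℝ)) ^ (s - 1)) (δ * (Fintype.card V : ℝ))
    (κ * (Fintype.card V : ℝ)) Ω R (mul_pos hδ hN0) (pow_pos (div_pos hn0 hN0) _)
    (mul_pos hκ hN0) hSS t (by
      have h1 : (((n : ℝ) / (Fintype.card V : ℝ)) ^ (s - 1) *
          (Fintype.card (Fin s → V) : ℝ) / (δ * (Fintype.card V : ℝ))) =
          (n : ℝ) ^ (s - 1) / δ := by
        rw [Fintype.card_fun, Fintype.card_fin]
        obtain ⟨s', rfl⟩ : ∃ s', s = s' + 1 := ⟨s - 1, by omega⟩
        rw [Nat.add_sub_cancel]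
        push_cast
        rw [div_pow, pow_succ]
        field_simp
      rw [h1]
      have h2 : δ * (Fintype.card V : ℝ) * Real.log ((n : ℝ) ^ (s - 1) / δ) /
          (κ * (Fintype.card V : ℝ) * Real.log 2) =
          δ * Real.log ((n : ℝ) ^ (s - 1) / δ) / (κ * Real.log 2) := by
        have : Real.log 2 ≠ 0 := (Real.log_pos (by norm_num)).ne'
        field_simp
      rw [h2]
      exact ht)
  have hsub : (univ.filter fun X : Fin n → V => Bad2 Ω R (2 * δ * n + s * t) X) ⊆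
      ((Finset.range (t + 1)).biUnion fun j =>
        (univ : Finset (Fin j → (Fin s → Fin n))).biUnion fun E =>
          (univ.filter fun X => QQ δ C₁ E X) ∪ (univ.filter fun X => QQ δ C₂ E X)) := by
    intro X hX
    obtain ⟨j, hj, E, hE⟩ := certificate2 (n := n) (t := t) (δ := δ) C₁ C₂ Ω R
      (by
        intro A₁ A₂ h1 h1' h2
        obtain ⟨L, h3, h4, h5, h5', h6⟩ := hC A₁ A₂ h1 h1' h2
        exact ⟨L, h3, h4, h5, h5', h6⟩) X (Finset.mem_filter.1 hX).2
    rw [Finset.mem_biUnion]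
    refine ⟨j, hj, ?_⟩
    rw [Finset.mem_biUnion]
    refine ⟨E, Finset.mem_univ _, ?_⟩
    rw [Finset.mem_union]
    rcases hE with hE | hE
    · exact Or.inl (Finset.mem_filter.2 ⟨Finset.mem_univ _, hE⟩)
    · exact Or.inr (Finset.mem_filter.2 ⟨Finset.mem_univ _, hE⟩)
  set ε : ℝ := Real.exp (- (δ ^ 2 * n / 2)) with hε
  have hε0 : 0 < ε := Real.exp_pos _
  have h8 : ((Finset.range (t + 1)).biUnion fun j =>
      (univ : Finset (Fin j → (Fin s → Fin n))).biUnion fun E =>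
        (univ.filter fun X => QQ δ C₁ E X) ∪ (univ.filter fun X => QQ δ C₂ E X)).card ≤
    ∑ j ∈ Finset.range (t + 1), ∑ E : Fin j → (Fin s → Fin n),
      ((univ.filter fun X => QQ δ C₁ E X).card + (univ.filter fun X => QQ δ C₂ E X).card) :=
    Finset.card_biUnion_le.trans (Finset.sum_le_sum fun j _ => Finset.card_biUnion_le.trans
      (Finset.sum_le_sum fun E _ => Finset.card_union_le _ _))
  have h9 : (((Finset.range (t + 1)).biUnion fun j =>
      (univ : Finset (Fin j → (Fin s → Fin n))).biUnion fun E =>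
        (univ.filter fun X => QQ δ C₁ E X) ∪ (univ.filter fun X => QQ δ C₂ E X)).card : ℝ) ≤
    ∑ j ∈ Finset.range (t + 1), ∑ E : Fin j → (Fin s → Fin n),
      (((univ.filter fun X => QQ δ C₁ E X).card : ℝ) +
        ((univ.filter fun X => QQ δ C₂ E X).card : ℝ)) := by exact_mod_cast h8
  have h7 : ∑ j ∈ Finset.range (t + 1), ∑ E : Fin j → (Fin s → Fin n),
      (((univ.filter fun X => QQ δ C₁ E X).card : ℝ) +
        ((univ.filter fun X => QQ δ C₂ E X).card : ℝ)) ≤
      ∑ j ∈ Finset.range (t + 1), ∑ _E : Fin j → (Fin s → Fin n),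
        (2 * ((Fintype.card V : ℝ) ^ n * ε)) := by
    refine Finset.sum_le_sum fun j _ => Finset.sum_le_sum fun E _ => ?_
    have e1 := fixed_tail hn hs hδ hV C₁ E
    have e2 := fixed_tail hn hs hδ hV C₂ E
    rw [two_mul]
    exact add_le_add e1 e2
  have h10 : ∑ j ∈ Finset.range (t + 1), ∑ _E : Fin j → (Fin s → Fin n),
      (2 * ((Fintype.card V : ℝ) ^ n * ε)) ≤
      ∑ _j ∈ Finset.range (t + 1), (n : ℝ) ^ (s * t) *
        (2 * ((Fintype.card V : ℝ) ^ n * ε)) := by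
    refine Finset.sum_le_sum fun j hj => ?_
    rw [Finset.sum_const, Finset.card_univ, nsmul_eq_mul]
    refine mul_le_mul_of_nonneg_right ?_ (by positivity)
    rw [Fintype.card_fun, Fintype.card_fun, Fintype.card_fin, Fintype.card_fin,
      Fintype.card_fin]
    push_cast
    rw [← pow_mul]
    refine pow_le_pow_right₀ hn1 ?_
    have : j ≤ t := by
      have := Finset.mem_range.1 hj
      omega
    exact Nat.mul_le_mul_left s this
  rw [Finset.sum_const, Finset.card_range, nsmul_eq_mul] at h10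
  have h11 : ((univ.filter fun X : Fin n → V => Bad2 Ω R (2 * δ * n + s * t) X).card : ℝ) ≤
      (((Finset.range (t + 1)).biUnion fun j =>
        (univ : Finset (Fin j → (Fin s → Fin n))).biUnion fun E =>
          (univ.filter fun X => QQ δ C₁ E X) ∪ (univ.filter fun X => QQ δ C₂ E X)).card :
          ℝ) := by
    exact_mod_cast Finset.card_le_card hsub
  refine h11.trans (h9.trans (h7.trans (h10.trans (le_of_eq ?_))))
  push_cast
  ring

end Main2

end Crest.Agent.R042.Cont666
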