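import Mathlib
import Crest.Prelude.Def_CliqueMinor

/-! Row 42: S0057 follows from S0059 by counting (r42_doc sec 09). helper822. -/

set_option autoImplicit false
open Crest.CombinatoricsR.GraphMinor

namespace Crest.Agent.R042.From59822

/-- the literal text of S0059 -/
def S59A : Prop :=
    ∀ m₀ : ℕ, ∃ m : ℕ, m₀ ≤ m ∧ ∃ G : SimpleGraph (Fin m),
      Gᶜ.CliqueFree 3 ∧
      ∀ (k : ℕ) (e : Fin k → Fin m × Fin m),
        (∀ i, G.Adj (e i).1 (e i).2) →
        (∀ i j, i ≠ j → (e i).1 ≠ (e j).1 ∧ (e i).1 ≠ (e j).2 ∧ (e i).2 ≠ (e j).1 ∧ (e i).2 ≠ (e j).2) →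
        (∀ i j, i ≠ j →
          G.Adj (e i).1 (e j).1 ∨ G.Adj (e i).1 (e j).2 ∨ G.Adj (e i).2 (e j).1 ∨ G.Adj (e i).2 (e j).2) →
        100 * k < m

/-- the literal text of S0057 -/
def S57A : Prop :=
    ∀ m₀ : ℕ, ∃ m : ℕ, m₀ ≤ m ∧ ∃ G : SimpleGraph (Fin m),
      Gᶜ.CliqueFree 3 ∧ (m : ℝ) / 2 ≤ fractionalChromaticNumber G ∧
      ∀ (t : ℕ) (B : Fin t → Finset (Fin m)), IsCliqueMinorModel G B →
        (t : ℝ) < 26 * (m : ℝ) / 75 + 2 / 3 ∧ (t : ℝ) < fractionalChromaticNumber G

/-- independent sets of a graph with triangle free complement have at most two vertices -/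
lemma card_le_two {V : Type*} [DecidableEq V] (G : SimpleGraph V)
    (hG : Gᶜ.CliqueFree 3) (I : Finset V) (hI : G.IsIndepSet (I : Set V)) : I.card ≤ 2 := by
  by_contra hc
  push Not at hc
  obtain ⟨J, hJI, hJ⟩ := Finset.exists_subset_card_eq (show 3 ≤ I.card by omega)
  refine hG J ⟨?_, hJ⟩
  intro u hu v hv huv
  rw [SimpleGraph.compl_adj]
  exact ⟨huv, hI (hJI hu) (hJI hv) huv⟩

/-- the fractional chromatic number is at least half of the number of vertices -/
lemma half_le {V : Type*} [Fintype V] [DecidableEq V] (G : SimpleGraph V)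
    (hG : Gᶜ.CliqueFree 3) : (Fintype.card V : ℝ) / 2 ≤ fractionalChromaticNumber G := by
  unfold fractionalChromaticNumber
  apply le_csInf
  · refine ⟨_, fun I => if I.card = 1 then 1 else 0, ⟨?_, ?_, ?_⟩, rfl⟩
    · intro I
      show (0 : ℝ) ≤ if I.card = 1 then 1 else 0
      split_ifs <;> norm_num
    · intro I hI
      have h1 : I.card = 1 := by
        by_contra h
        exact hI (by simp [h])
      obtain ⟨a, rfl⟩ := Finset.card_eq_one.mp h1
      intro u hu v hv huv
      simp only [Finset.coe_singleton, Set.mem_singleton_iff] at hu hv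
      exact absurd (hu.trans hv.symm) huv
    · intro v
      have hmem : ({v} : Finset V) ∈ (Finset.univ : Finset (Finset V)).filter (fun I => v ∈ I) := by
        simp
      have := Finset.single_le_sum (f := fun I : Finset V => if I.card = 1 then (1 : ℝ) else 0)
        (s := (Finset.univ : Finset (Finset V)).filter (fun I => v ∈ I))
        (fun I _ => by split_ifs <;> norm_num) hmem
      simpa using this
  · rintro x ⟨w, ⟨hw0, hwI, hw1⟩, rfl⟩
    have h1 : (Fintype.card V : ℝ) ≤ ∑ v : V, ∑ I ∈ (Finset.univ : Finset (Finset V)).filter (fun I => v ∈ I), w I := by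
      calc (Fintype.card V : ℝ) = ∑ v : V, (1 : ℝ) := by simp
        _ ≤ _ := Finset.sum_le_sum (fun v _ => hw1 v)
    have h2 : ∑ v : V, ∑ I ∈ (Finset.univ : Finset (Finset V)).filter (fun I => v ∈ I), w I
        = ∑ I : Finset V, (I.card : ℝ) * w I := by
      simp_rw [Finset.sum_filter]
      rw [Finset.sum_comm]
      refine Finset.sum_congr rfl (fun I _ => ?_)
      rw [← Finset.sum_filter]
      simp
    have h3 : ∑ I : Finset V, (I.card : ℝ) * w I ≤ ∑ I : Finset V, 2 * w I := by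
      refine Finset.sum_le_sum (fun I _ => ?_)
      by_cases h : w I = 0
      · simp [h]
      · have hc : I.card ≤ 2 := card_le_two G hG I (hwI I h)
        have hc' : (I.card : ℝ) ≤ 2 := by exact_mod_cast hc
        exact mul_le_mul_of_nonneg_right hc' (hw0 I)
    rw [← Finset.mul_sum] at h3
    linarith

/-- the matching built from the small branch sets -/
lemma small_sets {m : ℕ} (G : SimpleGraph (Fin m))
    (hM : ∀ (k : ℕ) (e : Fin k → Fin m × Fin m),
        (∀ i, G.Adj (e i).1 (e i).2) →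
        (∀ i j, i ≠ j → (e i).1 ≠ (e j).1 ∧ (e i).1 ≠ (e j).2 ∧ (e i).2 ≠ (e j).1 ∧ (e i).2 ≠ (e j).2) →
        (∀ i j, i ≠ j →
          G.Adj (e i).1 (e j).1 ∨ G.Adj (e i).1 (e j).2 ∨ G.Adj (e i).2 (e j).1 ∨ G.Adj (e i).2 (e j).2) →
        100 * k < m)
    {t : ℕ} (B : Fin t → Finset (Fin m)) (hB : IsCliqueMinorModel G B) :
    100 * ((Finset.univ.filter (fun i => (B i).card = 1)).card / 2
      + (Finset.univ.filter (fun i => (B i).card = 2)).card) < m := by
  classical
  obtain ⟨hne, hdis, hcon, hadj⟩ := hB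
  set S1 := Finset.univ.filter (fun i => (B i).card = 1) with hS1
  set S2 := Finset.univ.filter (fun i => (B i).card = 2) with hS2
  have mS1 : ∀ i, i ∈ S1 → (B i).card = 1 := by intro i hi; simpa [hS1] using hi
  have mS2 : ∀ i, i ∈ S2 → (B i).card = 2 := by intro i hi; simpa [hS2] using hi
  -- the data of the matching
  have key : ∀ j : Fin (S1.card / 2 + S2.card), ∃ (i1 i2 : Fin t) (u v : Fin m),
      u ∈ B i1 ∧ v ∈ B i2 ∧ B i1 ⊆ {u, v} ∧ G.Adj u v ∧
      ((∃ h : j.val < S1.card / 2, i1 = S1.orderEmbOfFin rfl ⟨2 * j.val, by omega⟩ ∧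
          i2 = S1.orderEmbOfFin rfl ⟨2 * j.val + 1, by omega⟩) ∨
       (∃ h : S1.card / 2 ≤ j.val, i1 = S2.orderEmbOfFin rfl ⟨j.val - S1.card / 2, by omega⟩ ∧
          i2 = i1)) := by
    intro j
    by_cases hj : j.val < S1.card / 2
    · set i1 := S1.orderEmbOfFin rfl ⟨2 * j.val, by omega⟩ with hi1
      set i2 := S1.orderEmbOfFin rfl ⟨2 * j.val + 1, by omega⟩ with hi2
      have h1 : i1 ∈ S1 := Finset.orderEmbOfFin_mem _ _ _
      have h2 : i2 ∈ S1 := Finset.orderEmbOfFin_mem _ _ _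
      have h12 : i1 ≠ i2 := by
        rw [hi1, hi2]
        intro h
        have := (S1.orderEmbOfFin rfl).injective h
        simp only [Fin.mk.injEq] at this
        omega
      obtain ⟨u, hu⟩ := Finset.card_eq_one.mp (mS1 _ h1)
      obtain ⟨v, hv⟩ := Finset.card_eq_one.mp (mS1 _ h2)
      obtain ⟨a, ha, b, hb, hab⟩ := hadj i1 i2 h12
      rw [hu, Finset.mem_singleton] at ha
      rw [hv, Finset.mem_singleton] at hb
      subst ha hb
      refine ⟨i1, i2, a, b, by simp [hu], by simp [hv], ?_, hab, Or.inl ⟨hj, rfl, rfl⟩⟩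
      rw [hu]
      simp
    · set i1 := S2.orderEmbOfFin rfl ⟨j.val - S1.card / 2, by omega⟩ with hi1
      have h1 : i1 ∈ S2 := Finset.orderEmbOfFin_mem _ _ _
      obtain ⟨u, v, huv, hBuv⟩ := Finset.card_eq_two.mp (mS2 _ h1)
      have hmem : ∀ x ∈ B i1, x = u ∨ x = v := by
        intro x hx; rw [hBuv] at hx; simpa using hx
      have hadj' : G.Adj u v := by
        have hc := hcon i1
        have hmu : u ∈ (B i1 : Set (Fin m)) := by simp [hBuv]
        have hmv : v ∈ (B i1 : Set (Fin m)) := by simp [hBuv]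
        have hr := hc.preconnected ⟨u, hmu⟩ ⟨v, hmv⟩
        obtain ⟨p⟩ := hr
        cases p with
        | nil => exact absurd rfl huv
        | cons hh q =>
          rename_i w
          have hadjw : G.Adj u w.1 := hh
          rcases hmem w.1 w.2 with hw | hw
          · exact absurd hw.symm (G.ne_of_adj hadjw)
          · rw [hw] at hadjw; exact hadjw
      exact ⟨i1, i1, u, v, by simp [hBuv], by simp [hBuv], by rw [hBuv], hadj',
        Or.inr ⟨by omega, rfl, rfl⟩⟩
  choose i1 i2 u v hu hv hsub huv hcase using key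
  -- the indices are different
  have hidx : ∀ j j', j ≠ j' → i1 j ≠ i1 j' ∧ i1 j ≠ i2 j' ∧ i2 j ≠ i1 j' ∧ i2 j ≠ i2 j' := by
    have hS12 : ∀ (a : Fin S1.card) (b : Fin S2.card),
        S1.orderEmbOfFin rfl a ≠ S2.orderEmbOfFin rfl b := by
      intro a b hab
      have h1 : S1.orderEmbOfFin rfl a ∈ S1 := Finset.orderEmbOfFin_mem _ _ _
      have h2 : S2.orderEmbOfFin rfl b ∈ S2 := Finset.orderEmbOfFin_mem _ _ _
      rw [← hab] at h2
      have h3 := mS1 _ h1
      have h4 := mS2 _ h2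
      omega
    intro j j' hjj'
    have hval : j.val ≠ j'.val := fun h => hjj' (Fin.ext h)
    rcases hcase j with ⟨h, ha, hb⟩ | ⟨h, ha, hb⟩ <;>
      rcases hcase j' with ⟨h', ha', hb'⟩ | ⟨h', ha', hb'⟩
    · rw [ha, hb, ha', hb']
      refine ⟨?_, ?_, ?_, ?_⟩ <;>
      · intro heq
        have := (S1.orderEmbOfFin rfl).injective heq
        simp only [Fin.mk.injEq] at this
        omega
    · rw [hb', ha, hb, ha']
      exact ⟨hS12 _ _, hS12 _ _, hS12 _ _, hS12 _ _⟩
    · rw [hb, ha, ha', hb']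
      exact ⟨(hS12 _ _).symm, (hS12 _ _).symm, (hS12 _ _).symm, (hS12 _ _).symm⟩
    · rw [hb, hb', ha, ha']
      have hh : S2.orderEmbOfFin rfl ⟨j.val - S1.card / 2, by omega⟩
          ≠ S2.orderEmbOfFin rfl ⟨j'.val - S1.card / 2, by omega⟩ := by
        intro heq
        have := (S2.orderEmbOfFin rfl).injective heq
        simp only [Fin.mk.injEq] at this
        omega
      exact ⟨hh, hh, hh, hh⟩
  have hdd : ∀ {a b : Fin t} {x y : Fin m}, a ≠ b → x ∈ B a → y ∈ B b → x ≠ y := by
    intro a b x y hab hx hy hxy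
    subst hxy
    exact (Finset.disjoint_left.mp (hdis a b hab)) hx hy
  refine hM _ (fun j => (u j, v j)) (fun j => huv j) ?_ ?_
  · intro j j' hjj'
    obtain ⟨h1, h2, h3, h4⟩ := hidx j j' hjj'
    exact ⟨hdd h1 (hu j) (hu j'), hdd h2 (hu j) (hv j'), hdd h3 (hv j) (hu j'), hdd h4 (hv j) (hv j')⟩
  · intro j j' hjj'
    obtain ⟨h1, -, -, -⟩ := hidx j j' hjj'
    obtain ⟨x, hx, y, hy, hxy⟩ := hadj _ _ h1
    have hx' := hsub j hx
    have hy' := hsub j' hy
    simp only [Finset.mem_insert, Finset.mem_singleton] at hx' hy'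
    rcases hx' with rfl | rfl <;> rcases hy' with rfl | rfl <;> tauto

lemma count {m : ℕ} (G : SimpleGraph (Fin m)) {t : ℕ} (B : Fin t → Finset (Fin m))
    (hB : IsCliqueMinorModel G B) :
    3 * t ≤ m + 2 * (Finset.univ.filter (fun i => (B i).card = 1)).card
      + (Finset.univ.filter (fun i => (B i).card = 2)).card := by
  classical
  obtain ⟨hne, hdis, -, -⟩ := hB
  have h1 : ∑ i : Fin t, (B i).card ≤ m := by
    rw [← Finset.card_biUnion (fun i _ j _ hij => hdis i j hij)]
    calc _ ≤ (Finset.univ : Finset (Fin m)).card := Finset.card_le_univ _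
      _ = m := by simp
  have h2 : ∑ i : Fin t, 3 ≤ ∑ i : Fin t, ((B i).card + 2 * (if (B i).card = 1 then 1 else 0)
      + (if (B i).card = 2 then 1 else 0)) := by
    refine Finset.sum_le_sum (fun i _ => ?_)
    have := (hne i).card_pos
    split_ifs <;> omega
  rw [Finset.sum_add_distrib, Finset.sum_add_distrib, ← Finset.mul_sum, ← Finset.card_filter,
    ← Finset.card_filter] at h2
  simp only [Finset.sum_const, Finset.card_univ, Fintype.card_fin, smul_eq_mul] at h2
  omega

/-- **S0057 from S0059.** -/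
theorem s57 (h : S59A) : S57A := by
  classical
  intro m₀
  obtain ⟨m, hm, G, hG, hM⟩ := h (max m₀ 5)
  have hm0 : m₀ ≤ m := le_trans (le_max_left _ _) hm
  have hm5 : 5 ≤ m := le_trans (le_max_right _ _) hm
  have hchi : (m : ℝ) / 2 ≤ fractionalChromaticNumber G := by
    have := half_le G hG
    simpa using this
  refine ⟨m, hm0, G, hG, hchi, ?_⟩
  intro t B hB
  have h1 := small_sets G hM B hB
  have h2 := count G B hB
  have h3 : 75 * t < 26 * m + 50 := by omega
  have h4 : (75 : ℝ) * t < 26 * m + 50 := by exact_mod_cast h3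
  have h5 : (5 : ℝ) ≤ m := by exact_mod_cast hm5
  constructor
  · linarith
  · refine lt_of_lt_of_le ?_ hchi
    linarith

end Crest.Agent.R042.From59822
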