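import Mathlib
import Crest.Agent.R042.From59_822

/-! Row 42 / S0059, TOP SPINE.  `HJ s K` (helper169, with the independence clause of helper496): a
triangle-free graph in which every family of `≥ N/K` disjoint independent `≤ s`-sets has two
completely joined members.  `HJ 2 200` gives the literal S0059 by blow-up. -/

set_option autoImplicit false
set_option linter.unusedSectionVars false

namespace Crest.Agent.R042.S59Spine883

open Finset

/-- triangle-free `F` on `N` vertices such that every family of pairwise disjoint nonempty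
independent sets of size `≤ s`, no two of them completely joined, has fewer than `N / K` members. -/
def HJ (s K : ℕ) : Prop :=
  ∃ N : ℕ, 0 < N ∧ ∃ F : SimpleGraph (Fin N), F.CliqueFree 3 ∧
    ∀ S : Finset (Finset (Fin N)),
      (∀ A ∈ S, A.Nonempty ∧ A.card ≤ s ∧ ∀ a ∈ A, ∀ b ∈ A, ¬ F.Adj a b) →
      (∀ A ∈ S, ∀ B ∈ S, A ≠ B → Disjoint A B) →
      (∀ A ∈ S, ∀ B ∈ S, A ≠ B → ∃ a ∈ A, ∃ b ∈ B, ¬ F.Adj a b) →
      K * S.card < N

lemma HJ.mono {s s' K K' : ℕ} (h : HJ s' K') (hs : s ≤ s') (hK : K ≤ K') : HJ s K := by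
  obtain ⟨N, hN, F, hF, H⟩ := h
  refine ⟨N, hN, F, hF, ?_⟩
  intro S h1 h2 h3
  have := H S (fun A hA => ⟨(h1 A hA).1, (h1 A hA).2.1.trans hs, (h1 A hA).2.2⟩) h2 h3
  exact lt_of_le_of_lt (Nat.mul_le_mul_right _ hK) this

/-- the blow-up of `F` along a map. -/
def blow {N m : ℕ} (F : SimpleGraph (Fin N)) (π : Fin m → Fin N) : SimpleGraph (Fin m) :=
  F.comap π

lemma blow_adj {N m : ℕ} {F : SimpleGraph (Fin N)} {π : Fin m → Fin N} {x y : Fin m} :
    (blow F π).Adj x y ↔ F.Adj (π x) (π y) := Iff.rfl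

lemma blow_cliqueFree {N m : ℕ} {F : SimpleGraph (Fin N)} (hF : F.CliqueFree 3)
    (π : Fin m → Fin N) : (blow F π).CliqueFree 3 := by
  intro S hS
  rw [SimpleGraph.is3Clique_iff] at hS
  obtain ⟨a, b, c, hab, hac, hbc, _⟩ := hS
  refine hF {π a, π b, π c} ?_
  rw [SimpleGraph.is3Clique_iff]
  exact ⟨π a, π b, π c, hab, hac, hbc, rfl⟩

/-- LEMMA 0 for matchings: the literal S0059 from `HJ 2 200`. -/
theorem s59_of_HJ (h : HJ 2 200) : From59822.S59A := by
  classical
  obtain ⟨N, hN, F, hF, H⟩ := h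
  intro m₀
  set L : ℕ := m₀ + 1 with hL
  have hLpos : 0 < L := by omega
  let π : Fin (N * L) → Fin N := fun x => (finProdFinEquiv.symm x).1
  have hfib : ∀ i : Fin N, (Finset.univ.filter fun x => π x = i).card = L := by
    intro i
    have : (Finset.univ.filter fun x => π x = i) =
        (Finset.univ : Finset (Fin L)).map
          ⟨fun l => finProdFinEquiv (i, l), fun l l' hll => by
            have := finProdFinEquiv.injective hll
            exact (Prod.mk.injEq _ _ _ _ ▸ this).2⟩ := by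
      ext x
      simp only [Finset.mem_filter, Finset.mem_univ, true_and, Finset.mem_map]
      constructor
      · intro hx
        refine ⟨(finProdFinEquiv.symm x).2, ?_⟩
        rw [← hx]
        exact finProdFinEquiv.apply_symm_apply x
      · rintro ⟨l, rfl⟩
        show (finProdFinEquiv.symm (finProdFinEquiv (i, l))).1 = i
        rw [Equiv.symm_apply_apply]
    rw [this, Finset.card_map, Finset.card_univ, Fintype.card_fin]
  refine ⟨N * L, ?_, (blow F π)ᶜ, ?_, ?_⟩
  · calc m₀ ≤ L := by omega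
      _ = 1 * L := (one_mul L).symm
      _ ≤ N * L := Nat.mul_le_mul_right L hN
  · rw [compl_compl]
    exact blow_cliqueFree hF π
  intro k e he hdis hconn
  -- supports
  let sp : Fin k → Finset (Fin N) := fun i => {π (e i).1, π (e i).2}
  have hsp1 : ∀ i, π (e i).1 ∈ sp i := fun i => by simp [sp]
  have hsp2 : ∀ i, π (e i).2 ∈ sp i := fun i => by simp [sp]
  -- a maximal set of indices with disjoint supports
  let P : Finset (Fin k) → Prop := fun I => ∀ i ∈ I, ∀ j ∈ I, i ≠ j → Disjoint (sp i) (sp j)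
  obtain ⟨I, hI, hmax⟩ : ∃ I, P I ∧ ∀ J, P J → I ⊆ J → J = I := by
    have hne : ((Finset.univ : Finset (Finset (Fin k))).filter P).Nonempty :=
      ⟨∅, by simp [P]⟩
    obtain ⟨I, hI, hI2⟩ := Finset.exists_max_image _ Finset.card hne
    rw [Finset.mem_filter] at hI
    refine ⟨I, hI.2, ?_⟩
    intro J hJ hIJ
    have := hI2 J (Finset.mem_filter.2 ⟨Finset.mem_univ _, hJ⟩)
    exact (Finset.eq_of_subset_of_card_le hIJ this).symm
  -- the family of supports
  have hinj : Set.InjOn sp (I : Set (Fin k)) := by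
    intro i hi j hj hij
    by_contra hne
    have hd := hI i hi j hj hne
    rw [hij] at hd
    exact Finset.disjoint_left.1 hd (hsp1 j) (hsp1 j)
  have hcard : (I.image sp).card = I.card := Finset.card_image_of_injOn hinj
  have hlt : 200 * I.card < N := by
    rw [← hcard]
    apply H
    · intro A hA
      rw [Finset.mem_image] at hA
      obtain ⟨i, hi, rfl⟩ := hA
      have hnadj : ¬ F.Adj (π (e i).1) (π (e i).2) := by
        have := he i
        rw [SimpleGraph.compl_adj, blow_adj] at this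
        exact this.2
      refine ⟨⟨_, hsp1 i⟩, Finset.card_le_two, ?_⟩
      intro a ha b hb
      simp only [sp, Finset.mem_insert, Finset.mem_singleton] at ha hb
      rcases ha with rfl | rfl <;> rcases hb with rfl | rfl
      · exact F.loopless.irrefl _
      · exact hnadj
      · exact fun hh => hnadj hh.symm
      · exact F.loopless.irrefl _
    · intro A hA B hB hAB
      rw [Finset.mem_image] at hA hB
      obtain ⟨i, hi, rfl⟩ := hA
      obtain ⟨j, hj, rfl⟩ := hB
      exact hI i hi j hj (fun hh => hAB (by rw [hh]))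
    · intro A hA B hB hAB
      rw [Finset.mem_image] at hA hB
      obtain ⟨i, hi, rfl⟩ := hA
      obtain ⟨j, hj, rfl⟩ := hB
      have hij : i ≠ j := fun hh => hAB (by rw [hh])
      have key : ∀ x y : Fin (N * L), (blow F π)ᶜ.Adj x y → ¬ F.Adj (π x) (π y) := by
        intro x y hxy
        rw [SimpleGraph.compl_adj, blow_adj] at hxy
        exact hxy.2
      rcases hconn i j hij with h1 | h1 | h1 | h1
      · exact ⟨_, hsp1 i, _, hsp1 j, key _ _ h1⟩
      · exact ⟨_, hsp1 i, _, hsp2 j, key _ _ h1⟩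
      · exact ⟨_, hsp2 i, _, hsp1 j, key _ _ h1⟩
      · exact ⟨_, hsp2 i, _, hsp2 j, key _ _ h1⟩
  -- every edge meets the classes of the supports
  set U : Finset (Fin N) := I.biUnion sp with hU
  have hUc : U.card ≤ 2 * I.card := by
    refine Finset.card_biUnion_le.trans ?_
    calc ∑ i ∈ I, (sp i).card ≤ ∑ _i ∈ I, 2 := Finset.sum_le_sum fun i _ => Finset.card_le_two
      _ = 2 * I.card := by rw [Finset.sum_const, smul_eq_mul, mul_comm]
  set T : Finset (Fin (N * L)) := Finset.univ.filter fun x => π x ∈ U with hT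
  have hTc : T.card ≤ U.card * L := by
    have : T ⊆ U.biUnion fun i => Finset.univ.filter fun x => π x = i := by
      intro x hx
      rw [hT, Finset.mem_filter] at hx
      rw [Finset.mem_biUnion]
      exact ⟨π x, hx.2, Finset.mem_filter.2 ⟨Finset.mem_univ _, rfl⟩⟩
    refine (Finset.card_le_card this).trans (Finset.card_biUnion_le.trans ?_)
    rw [Finset.sum_congr rfl fun i _ => hfib i, Finset.sum_const, smul_eq_mul]
  have hmeet : ∀ j, ∃ x, (x = (e j).1 ∨ x = (e j).2) ∧ π x ∈ U := by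
    intro j
    by_cases hj : j ∈ I
    · exact ⟨_, Or.inl rfl, Finset.mem_biUnion.2 ⟨j, hj, hsp1 j⟩⟩
    by_contra hcon
    push Not at hcon
    have h1 : π (e j).1 ∉ U := hcon _ (Or.inl rfl)
    have h2 : π (e j).2 ∉ U := hcon _ (Or.inr rfl)
    have hPJ : P (insert j I) := by
      intro a ha b hb hab
      have hdisj : ∀ i ∈ I, Disjoint (sp j) (sp i) := by
        intro i hi
        rw [Finset.disjoint_left]
        intro x hx hx'
        have hxU : x ∈ U := Finset.mem_biUnion.2 ⟨i, hi, hx'⟩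
        simp only [sp, Finset.mem_insert, Finset.mem_singleton] at hx
        rcases hx with rfl | rfl
        · exact h1 hxU
        · exact h2 hxU
      rw [Finset.mem_insert] at ha hb
      rcases ha with rfl | ha <;> rcases hb with rfl | hb
      · exact absurd rfl hab
      · exact hdisj b hb
      · exact (hdisj a ha).symm
      · exact hI a ha b hb hab
    have := hmax _ hPJ (Finset.subset_insert _ _)
    exact hj (this ▸ Finset.mem_insert_self j I)
  choose x hx1 hx2 using hmeet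
  have hxinj : Function.Injective x := by
    intro i j hij
    by_contra hne
    obtain ⟨d1, d2, d3, d4⟩ := hdis i j hne
    rcases hx1 i with hi | hi <;> rcases hx1 j with hj | hj <;> rw [hi, hj] at hij
    · exact d1 hij
    · exact d2 hij
    · exact d3 hij
    · exact d4 hij
  have hk : k ≤ T.card := by
    have : (Finset.univ.image x).card = k := by
      rw [Finset.card_image_of_injective _ hxinj, Finset.card_univ, Fintype.card_fin]
    rw [← this]
    refine Finset.card_le_card ?_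
    intro y hy
    rw [Finset.mem_image] at hy
    obtain ⟨i, _, rfl⟩ := hy
    exact Finset.mem_filter.2 ⟨Finset.mem_univ _, hx2 i⟩
  have hk2 : k ≤ 2 * I.card * L := hk.trans (hTc.trans (Nat.mul_le_mul_right L hUc))
  calc 100 * k ≤ 100 * (2 * I.card * L) := Nat.mul_le_mul_left _ hk2
    _ = 200 * I.card * L := by ring
    _ < N * L := Nat.mul_lt_mul_of_pos_right hlt hLpos

/-- the pairs `z` and `z'` are completely joined. -/
def Conf {V : Type*} (F : SimpleGraph V) (z z' : V × V) : Prop :=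
  F.Adj z.1 z'.1 ∧ F.Adj z.1 z'.2 ∧ F.Adj z.2 z'.1 ∧ F.Adj z.2 z'.2

/-- triangle-free `F` on `n ≥ 3` vertices such that every set of pairwise disjoint non-adjacent
pairs, no two of them completely joined, has fewer than `n / K` members. -/
def PairConf (K : ℕ) : Prop :=
  ∃ n : ℕ, 3 ≤ n ∧ ∃ F : SimpleGraph (Fin n), F.CliqueFree 3 ∧
    ∀ M : Finset (Fin n × Fin n), (∀ z ∈ M, z.1 ≠ z.2 ∧ ¬ F.Adj z.1 z.2) →
      (∀ z ∈ M, ∀ z' ∈ M, z ≠ z' → z.1 ≠ z'.1 ∧ z.1 ≠ z'.2 ∧ z.2 ≠ z'.1 ∧ z.2 ≠ z'.2) →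
      (∀ z ∈ M, ∀ z' ∈ M, z ≠ z' → ¬ Conf F z z') → K * M.card < n

/-- in a triangle-free graph on at least three vertices some pair is not adjacent. -/
lemma exists_nonadj {n : ℕ} (hn : 3 ≤ n) {F : SimpleGraph (Fin n)} (hF : F.CliqueFree 3) :
    ∃ a b : Fin n, a ≠ b ∧ ¬ F.Adj a b := by
  by_contra hcon
  push Not at hcon
  have h : ∀ a b : Fin n, a ≠ b → F.Adj a b := hcon
  let a : Fin n := ⟨0, by omega⟩
  let b : Fin n := ⟨1, by omega⟩
  let c : Fin n := ⟨2, by omega⟩
  have hab : a ≠ b := by simp [a, b, Fin.ext_iff]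
  have hac : a ≠ c := by simp [a, c, Fin.ext_iff]
  have hbc : b ≠ c := by simp [b, c, Fin.ext_iff]
  refine hF {a, b, c} ?_
  rw [SimpleGraph.is3Clique_iff]
  exact ⟨a, b, c, h _ _ hab, h _ _ hac, h _ _ hbc, rfl⟩

/-- pairing up the singletons. -/
theorem hj_of_pairConf {K : ℕ} (h : PairConf (4 * K)) : HJ 2 K := by
  classical
  obtain ⟨n, hn, F, hF, H⟩ := h
  have hKn : 4 * K < n := by
    obtain ⟨a, b, hab, hnadj⟩ := exists_nonadj hn hF
    have := H {(a, b)} (by
      intro z hz
      rw [Finset.mem_singleton] at hz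
      subst hz
      exact ⟨hab, hnadj⟩) (by
      intro z hz z' hz' hne
      rw [Finset.mem_singleton] at hz hz'
      exact absurd (hz.trans hz'.symm) hne) (by
      intro z hz z' hz' hne
      rw [Finset.mem_singleton] at hz hz'
      exact absurd (hz.trans hz'.symm) hne)
    simpa using this
  refine ⟨n, by omega, F, hF, ?_⟩
  intro S h1 h2 h3
  set S2 : Finset (Finset (Fin n)) := S.filter fun A => A.card = 2 with hS2
  set V1 : Finset (Fin n) := Finset.univ.filter fun v => {v} ∈ S with hV1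
  have hScard : S.card ≤ V1.card + S2.card := by
    have hsub : S ⊆ V1.image (fun v => ({v} : Finset (Fin n))) ∪ S2 := by
      intro A hA
      obtain ⟨hne, hc, _⟩ := h1 A hA
      rw [Finset.mem_union]
      have hpos := hne.card_pos
      by_cases hA2 : A.card = 2
      · exact Or.inr (Finset.mem_filter.2 ⟨hA, hA2⟩)
      · left
        have hA1 : A.card = 1 := by omega
        obtain ⟨v, rfl⟩ := Finset.card_eq_one.1 hA1
        exact Finset.mem_image.2 ⟨v, Finset.mem_filter.2 ⟨Finset.mem_univ _, hA⟩, rfl⟩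
    refine (Finset.card_le_card hsub).trans ((Finset.card_union_le _ _).trans ?_)
    exact Nat.add_le_add_right Finset.card_image_le _
  -- ordered pairs of the 2-sets
  have hp : ∀ A : Finset (Fin n), ∃ z : Fin n × Fin n, A.card = 2 → z.1 ≠ z.2 ∧ A = {z.1, z.2} := by
    intro A
    by_cases hA : A.card = 2
    · obtain ⟨a, b, hab, hA'⟩ := Finset.card_eq_two.1 hA
      exact ⟨(a, b), fun _ => ⟨hab, hA'⟩⟩
    · exact ⟨(⟨0, by omega⟩, ⟨0, by omega⟩), fun h => absurd h hA⟩
  choose p hp using hp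
  -- pairs of singletons
  set s1 := V1.card with hs1
  let v : Fin s1 → Fin n := V1.orderEmbOfFin rfl
  have hvinj : Function.Injective v := (V1.orderEmbOfFin rfl).injective
  have hvmem : ∀ i, ({v i} : Finset (Fin n)) ∈ S := by
    intro i
    have := V1.orderEmbOfFin_mem rfl i
    exact (Finset.mem_filter.1 this).2
  let q : Fin (s1 / 2) → Fin n × Fin n := fun i =>
    (v ⟨2 * i.1, by have := i.2; omega⟩, v ⟨2 * i.1 + 1, by have := i.2; omega⟩)
  have hqinj : Function.Injective q := by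
    intro i j hij
    have := hvinj (congrArg Prod.fst hij)
    rw [Fin.mk.injEq] at this
    exact Fin.ext (by omega)
  -- set attached to a pair
  let M2 := S2.image p
  let M1 := (Finset.univ : Finset (Fin (s1 / 2))).image q
  have hM2 : ∀ z ∈ M2, z.1 ≠ z.2 ∧ ({z.1, z.2} : Finset (Fin n)) ∈ S := by
    intro z hz
    obtain ⟨A, hA, rfl⟩ := Finset.mem_image.1 hz
    rw [hS2, Finset.mem_filter] at hA
    obtain ⟨e1, e2⟩ := hp A hA.2
    exact ⟨e1, e2 ▸ hA.1⟩
  have hM1 : ∀ z ∈ M1, z.1 ≠ z.2 ∧ ({z.1} : Finset (Fin n)) ∈ S ∧ ({z.2} : Finset (Fin n)) ∈ S := by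
    intro z hz
    obtain ⟨i, _, rfl⟩ := Finset.mem_image.1 hz
    refine ⟨fun hh => ?_, hvmem _, hvmem _⟩
    have := hvinj hh
    rw [Fin.mk.injEq] at this
    omega
  have hM1d : ∀ z ∈ M1, ∀ z' ∈ M1, z ≠ z' →
      z.1 ≠ z'.1 ∧ z.1 ≠ z'.2 ∧ z.2 ≠ z'.1 ∧ z.2 ≠ z'.2 := by
    intro z hz z' hz' hne
    obtain ⟨i, _, rfl⟩ := Finset.mem_image.1 hz
    obtain ⟨j, _, rfl⟩ := Finset.mem_image.1 hz'
    have hij : i.1 ≠ j.1 := fun hh => hne (by rw [Fin.ext hh])
    refine ⟨?_, ?_, ?_, ?_⟩ <;> intro hh <;> have := hvinj hh <;> rw [Fin.mk.injEq] at this <;>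
      omega
  -- two members of `S` sharing a vertex are equal
  have hS : ∀ A ∈ S, ∀ B ∈ S, ∀ x, x ∈ A → x ∈ B → A = B := by
    intro A hA B hB x hxA hxB
    by_contra hne
    exact Finset.disjoint_left.1 (h2 A hA B hB hne) hxA hxB
  have hcross : ∀ z ∈ M1, ∀ z' ∈ M2, z.1 ≠ z'.1 ∧ z.1 ≠ z'.2 ∧ z.2 ≠ z'.1 ∧ z.2 ≠ z'.2 := by
    intro z hz z' hz'
    obtain ⟨_, b1, b2⟩ := hM1 z hz
    obtain ⟨c1, c2⟩ := hM2 z' hz'
    have key : ∀ x : Fin n, ({x} : Finset (Fin n)) ∈ S → x ≠ z'.1 ∧ x ≠ z'.2 := by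
      intro x hx
      constructor
      · rintro rfl
        have := hS _ hx _ c2 z'.1 (Finset.mem_singleton_self _) (Finset.mem_insert_self _ _)
        have hc : z'.2 ∈ ({z'.1} : Finset (Fin n)) := by rw [this]; simp
        exact c1 (Finset.mem_singleton.1 hc).symm
      · rintro rfl
        have := hS _ hx _ c2 z'.2 (Finset.mem_singleton_self _) (by simp)
        have hc : z'.1 ∈ ({z'.2} : Finset (Fin n)) := by rw [this]; simp
        exact c1 (Finset.mem_singleton.1 hc)
    exact ⟨(key _ b1).1, (key _ b1).2, (key _ b2).1, (key _ b2).2⟩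
  have hM2d : ∀ z ∈ M2, ∀ z' ∈ M2, z ≠ z' →
      z.1 ≠ z'.1 ∧ z.1 ≠ z'.2 ∧ z.2 ≠ z'.1 ∧ z.2 ≠ z'.2 := by
    intro z hz z' hz' hne
    obtain ⟨A, hA, rfl⟩ := Finset.mem_image.1 hz
    obtain ⟨B, hB, rfl⟩ := Finset.mem_image.1 hz'
    rw [hS2, Finset.mem_filter] at hA hB
    obtain ⟨e1, e2⟩ := hp A hA.2
    obtain ⟨f1, f2⟩ := hp B hB.2
    have hAB : A ≠ B := fun hh => hne (by rw [hh])
    have hd := h2 A hA.1 B hB.1 hAB
    have ha1 : (p A).1 ∈ A := (Finset.ext_iff.1 e2 _).2 (by simp)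
    have ha2 : (p A).2 ∈ A := (Finset.ext_iff.1 e2 _).2 (by simp)
    have hb1 : (p B).1 ∈ B := (Finset.ext_iff.1 f2 _).2 (by simp)
    have hb2 : (p B).2 ∈ B := (Finset.ext_iff.1 f2 _).2 (by simp)
    have key : ∀ x ∈ A, ∀ y ∈ B, x ≠ y := by
      rintro x hx y hy rfl
      exact Finset.disjoint_left.1 hd hx hy
    exact ⟨key _ ha1 _ hb1, key _ ha1 _ hb2, key _ ha2 _ hb1, key _ ha2 _ hb2⟩
  have hdisj12 : Disjoint M1 M2 := by
    rw [Finset.disjoint_left]
    intro z hz hz'
    exact (hcross z hz z hz').1 rfl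
  have hdall : ∀ z ∈ M1 ∪ M2, ∀ z' ∈ M1 ∪ M2, z ≠ z' →
      z.1 ≠ z'.1 ∧ z.1 ≠ z'.2 ∧ z.2 ≠ z'.1 ∧ z.2 ≠ z'.2 := by
    intro z hz z' hz' hne
    rw [Finset.mem_union] at hz hz'
    rcases hz with hz | hz <;> rcases hz' with hz' | hz'
    · exact hM1d z hz z' hz' hne
    · exact hcross z hz z' hz'
    · obtain ⟨d1, d2, d3, d4⟩ := hcross z' hz' z hz
      exact ⟨d1.symm, d3.symm, d2.symm, d4.symm⟩
    · exact hM2d z hz z' hz' hne
  -- two different members of `S` are not completely joined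
  have hnc : ∀ A ∈ S, ∀ B ∈ S, A ≠ B → ∃ a ∈ A, ∃ b ∈ B, ¬ F.Adj a b := h3
  have hsub1 : ∀ z ∈ M1 ∪ M2, ∃ A ∈ S, z.1 ∈ A ∧ ∀ a ∈ A, a = z.1 ∨ a = z.2 := by
    intro z hz
    rw [Finset.mem_union] at hz
    rcases hz with hz | hz
    · obtain ⟨_, b1, _⟩ := hM1 z hz
      exact ⟨_, b1, Finset.mem_singleton_self _, fun a ha => Or.inl (Finset.mem_singleton.1 ha)⟩
    · obtain ⟨_, c2⟩ := hM2 z hz
      refine ⟨_, c2, by simp, ?_⟩
      intro a ha
      simpa using ha
  have hfin := H (M1 ∪ M2) (by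
      intro z hz
      rw [Finset.mem_union] at hz
      rcases hz with hz | hz
      · obtain ⟨b0, b1, b2⟩ := hM1 z hz
        refine ⟨b0, ?_⟩
        obtain ⟨a, ha, b, hb, hab⟩ := hnc _ b1 _ b2 (by
          intro hh
          have : z.1 ∈ ({z.2} : Finset (Fin n)) := by rw [← hh]; simp
          exact b0 (Finset.mem_singleton.1 this))
        rw [Finset.mem_singleton] at ha hb
        rwa [ha, hb] at hab
      · obtain ⟨c1, c2⟩ := hM2 z hz
        exact ⟨c1, (h1 _ c2).2.2 _ (by simp) _ (by simp)⟩) hdall (by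
      intro z hz z' hz' hne hconf
      obtain ⟨A, hA, hzA, hA'⟩ := hsub1 z hz
      obtain ⟨B, hB, hzB, hB'⟩ := hsub1 z' hz'
      have hAB : A ≠ B := by
        rintro rfl
        obtain ⟨d1, d2, _, _⟩ := hdall z hz z' hz' hne
        rcases hB' z.1 hzA with h | h
        · exact d1 h
        · exact d2 h
      obtain ⟨a, ha, b, hb, hab⟩ := hnc A hA B hB hAB
      obtain ⟨k1, k2, k3, k4⟩ := hconf
      rcases hA' a ha with rfl | rfl <;> rcases hB' b hb with rfl | rfl
      · exact hab k1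
      · exact hab k2
      · exact hab k3
      · exact hab k4)
  have hM1c : M1.card = s1 / 2 := by
    rw [Finset.card_image_of_injective _ hqinj, Finset.card_univ, Fintype.card_fin]
  have hM2c : M2.card = S2.card := by
    apply Finset.card_image_of_injOn
    intro A hA B hB hAB
    rw [Finset.mem_coe, hS2, Finset.mem_filter] at hA hB
    rw [(hp A hA.2).2, (hp B hB.2).2, hAB]
  rw [Finset.card_union_of_disjoint hdisj12, hM1c, hM2c] at hfin
  have hb : S.card ≤ 2 * (s1 / 2 + S2.card) + 1 := by omega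
  have e1 : K * S.card ≤ K * (2 * (s1 / 2 + S2.card) + 1) := Nat.mul_le_mul_left _ hb
  have e2 : K * (2 * (s1 / 2 + S2.card) + 1) = 2 * (K * (s1 / 2 + S2.card)) + K := by ring
  have e3 : 4 * K * (s1 / 2 + S2.card) = 4 * (K * (s1 / 2 + S2.card)) := by ring
  rw [e3] at hfin
  omega

/-- the literal S0059 from `PairConf 800`. -/
theorem s59_of_pairConf (h : PairConf 800) : From59822.S59A :=
  s59_of_HJ (hj_of_pairConf (K := 200) h)

end Crest.Agent.R042.S59Spine883
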