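import Mathlib
import Crest.Agent.R042.S59Spine_883

/-! Row 42 / S0059, S0057, S0060: the frozen two-family pair form `HJB K` (helper840) and its
reduction to two matchings `PairConf2`. -/

set_option autoImplicit false
set_option linter.unusedSectionVars false

namespace Crest.Agent.R042.S59Spine883

open Finset

/-- a family of pairwise disjoint nonempty independent sets of size at most two. -/
def IsFam {N : ℕ} (F : SimpleGraph (Fin N)) (S : Finset (Finset (Fin N))) : Prop :=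
  (∀ A ∈ S, A.Nonempty ∧ A.card ≤ 2 ∧ ∀ a ∈ A, ∀ b ∈ A, ¬ F.Adj a b) ∧
    ∀ A ∈ S, ∀ B ∈ S, A ≠ B → Disjoint A B

/-- two-family form: triangle-free `F` on `N` vertices such that any two families of at least
`N / K` pairwise disjoint independent `≤ 2`-sets have a completely joined pair of members. -/
def HJB (K : ℕ) : Prop :=
  ∃ N : ℕ, 0 < N ∧ ∃ F : SimpleGraph (Fin N), F.CliqueFree 3 ∧
    ∀ 𝒜 ℬ : Finset (Finset (Fin N)), IsFam F 𝒜 → IsFam F ℬ → N ≤ K * 𝒜.card →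
      N ≤ K * ℬ.card → ∃ A ∈ 𝒜, ∃ B ∈ ℬ, ∀ a ∈ A, ∀ b ∈ B, F.Adj a b

/-- helper169's form. -/
def S59B (K : ℕ) : Prop :=
  ∃ N : ℕ, 0 < N ∧ ∃ F : SimpleGraph (Fin N), F.CliqueFree 3 ∧
    ∀ 𝒜 ℬ : Finset (Finset (Fin N)),
      (∀ S ∈ 𝒜 ∪ ℬ, S.Nonempty ∧ S.card ≤ 2 ∧ ∀ a ∈ S, ∀ b ∈ S, ¬ F.Adj a b) →
      (∀ S ∈ 𝒜 ∪ ℬ, ∀ T ∈ 𝒜 ∪ ℬ, S ≠ T → Disjoint S T) → Disjoint 𝒜 ℬ →
      (∀ S ∈ 𝒜, ∀ T ∈ ℬ, ∃ a ∈ S, ∃ b ∈ T, ¬ F.Adj a b) → K * 𝒜.card < N ∨ K * ℬ.card < N

theorem hj_of_hjb {K : ℕ} (h : HJB K) : HJ 2 K := by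
  obtain ⟨N, hN, F, hF, H⟩ := h
  refine ⟨N, hN, F, hF, ?_⟩
  intro S h1 h2 h3
  by_contra hcon
  push Not at hcon
  obtain ⟨A, hA, B, hB, hAB⟩ := H S S ⟨h1, h2⟩ ⟨h1, h2⟩ hcon hcon
  have hne : A ≠ B := by
    rintro rfl
    obtain ⟨a, ha⟩ := (h1 A hA).1
    exact F.loopless.irrefl a (hAB a ha a ha)
  obtain ⟨a, ha, b, hb, hab⟩ := h3 A hA B hB hne
  exact hab (hAB a ha b hb)

theorem s59B_of_hjb {K : ℕ} (h : HJB K) : S59B K := by
  obtain ⟨N, hN, F, hF, H⟩ := h
  refine ⟨N, hN, F, hF, ?_⟩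
  intro 𝒜 ℬ h1 h2 _ h4
  by_contra hcon
  push Not at hcon
  obtain ⟨A, hA, B, hB, hAB⟩ := H 𝒜 ℬ
    ⟨fun S hS => h1 S (Finset.mem_union_left _ hS), fun S hS T hT =>
      h2 S (Finset.mem_union_left _ hS) T (Finset.mem_union_left _ hT)⟩
    ⟨fun S hS => h1 S (Finset.mem_union_right _ hS), fun S hS T hT =>
      h2 S (Finset.mem_union_right _ hS) T (Finset.mem_union_right _ hT)⟩ hcon.1 hcon.2
  obtain ⟨a, ha, b, hb, hab⟩ := h4 A hA B hB
  exact hab (hAB a ha b hb)

/-- S0059 from the two-family form. -/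
theorem s59_of_hjb (h : HJB 200) : From59822.S59A := s59_of_HJ (hj_of_hjb h)

/-- pairwise disjoint non-adjacent pairs. -/
def IsMat {V : Type*} (F : SimpleGraph V) (M : Finset (V × V)) : Prop :=
  (∀ z ∈ M, z.1 ≠ z.2 ∧ ¬ F.Adj z.1 z.2) ∧
    ∀ z ∈ M, ∀ z' ∈ M, z ≠ z' → z.1 ≠ z'.1 ∧ z.1 ≠ z'.2 ∧ z.2 ≠ z'.1 ∧ z.2 ≠ z'.2

/-- two matchings of at least `n / K` non-adjacent pairs contain a completely joined pair. -/
def PairConf2 (K : ℕ) : Prop :=
  ∃ n : ℕ, 0 < n ∧ K ≤ n ∧ ∃ F : SimpleGraph (Fin n), F.CliqueFree 3 ∧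
    ∀ M₁ M₂ : Finset (Fin n × Fin n), IsMat F M₁ → IsMat F M₂ → n ≤ K * M₁.card →
      n ≤ K * M₂.card → ∃ z ∈ M₁, ∃ z' ∈ M₂, Conf F z z'

/-- a family is carried by a matching of at least `(|S| - 2) / 2` pairs. -/
theorem exists_mat {N : ℕ} {F : SimpleGraph (Fin N)} (hF : F.CliqueFree 3)
    {S : Finset (Finset (Fin N))} (hS : IsFam F S) :
    ∃ M : Finset (Fin N × Fin N), IsMat F M ∧ S.card ≤ 2 * M.card + 2 ∧
      ∀ z ∈ M, ∃ A ∈ S, ∀ a ∈ A, a = z.1 ∨ a = z.2 := by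
  classical
  let car : Fin N × Fin N → Prop := fun z =>
    (({z.1, z.2} : Finset (Fin N)) ∈ S) ∨ (({z.1} : Finset (Fin N)) ∈ S ∧ ({z.2} : Finset _) ∈ S)
  let P : Finset (Fin N × Fin N) → Prop := fun M => IsMat F M ∧ ∀ z ∈ M, car z
  obtain ⟨M, hM, hmax⟩ : ∃ M, P M ∧ ∀ J, P J → M ⊆ J → J = M := by
    have hne : ((Finset.univ : Finset (Finset (Fin N × Fin N))).filter P).Nonempty :=
      ⟨∅, by simp [P, IsMat]⟩
    obtain ⟨I, hI, hI2⟩ := Finset.exists_max_image _ Finset.card hne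
    rw [Finset.mem_filter] at hI
    refine ⟨I, hI.2, ?_⟩
    intro J hJ hIJ
    have := hI2 J (Finset.mem_filter.2 ⟨Finset.mem_univ _, hJ⟩)
    exact (Finset.eq_of_subset_of_card_le hIJ this).symm
  obtain ⟨⟨hM1, hM2⟩, hM3⟩ := hM
  set U : Finset (Fin N) := M.biUnion fun z => {z.1, z.2} with hU
  have hUc : U.card ≤ 2 * M.card := by
    refine Finset.card_biUnion_le.trans ?_
    calc ∑ z ∈ M, ({z.1, z.2} : Finset (Fin N)).card ≤ ∑ _z ∈ M, 2 :=
          Finset.sum_le_sum fun i _ => Finset.card_le_two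
      _ = 2 * M.card := by rw [Finset.sum_const, smul_eq_mul, mul_comm]
  have hmemU : ∀ x, x ∉ U → ∀ z ∈ M, x ≠ z.1 ∧ x ≠ z.2 := by
    intro x hx z hz
    constructor
    · rintro rfl
      exact hx (Finset.mem_biUnion.2 ⟨z, hz, by simp⟩)
    · rintro rfl
      exact hx (Finset.mem_biUnion.2 ⟨z, hz, by simp⟩)
  -- adding a pair
  have hadd : ∀ x y : Fin N, x ≠ y → ¬ F.Adj x y → x ∉ U → y ∉ U → car (x, y) → False := by
    intro x y hxy hnadj hx hy hc
    have hPJ : P (insert (x, y) M) := by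
      refine ⟨⟨?_, ?_⟩, ?_⟩
      · intro z hz
        rw [Finset.mem_insert] at hz
        rcases hz with rfl | hz
        · exact ⟨hxy, hnadj⟩
        · exact hM1 z hz
      · intro z hz z' hz' hne
        rw [Finset.mem_insert] at hz hz'
        rcases hz with rfl | hz <;> rcases hz' with rfl | hz'
        · exact absurd rfl hne
        · exact ⟨(hmemU x hx z' hz').1, (hmemU x hx z' hz').2, (hmemU y hy z' hz').1,
            (hmemU y hy z' hz').2⟩
        · exact ⟨(hmemU x hx z hz).1.symm, (hmemU y hy z hz).1.symm,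
            (hmemU x hx z hz).2.symm, (hmemU y hy z hz).2.symm⟩
        · exact hM2 z hz z' hz' hne
      · intro z hz
        rw [Finset.mem_insert] at hz
        rcases hz with rfl | hz
        · exact hc
        · exact hM3 z hz
    have := hmax _ hPJ (Finset.subset_insert _ _)
    have hmem : (x, y) ∈ M := this ▸ Finset.mem_insert_self _ M
    exact (hmemU x hx _ hmem).1 rfl
  refine ⟨M, ⟨hM1, hM2⟩, ?_, ?_⟩
  · -- counting
    set S1 := S.filter fun A => ¬ Disjoint A U with hS1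
    set S0 := S.filter fun A => Disjoint A U with hS0
    have hsplit : S.card = S0.card + S1.card := by
      rw [hS0, hS1]
      exact (Finset.card_filter_add_card_filter_not (s := S) (fun A => Disjoint A U)).symm
    have hS1c : S1.card ≤ U.card := by
      have hex : ∀ A : Finset (Fin N), ∃ x : Option (Fin N), A ∈ S1 →
          ∃ y ∈ A, y ∈ U ∧ x = some y := by
        intro A
        by_cases hA : A ∈ S1
        · rw [hS1, Finset.mem_filter, Finset.not_disjoint_iff] at hA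
          obtain ⟨_, y, hy1, hy2⟩ := hA
          exact ⟨some y, fun _ => ⟨y, hy1, hy2, rfl⟩⟩
        · exact ⟨none, fun h => absurd h hA⟩
      choose x hx using hex
      have h1 : (S1.image x).card = S1.card := by
        apply Finset.card_image_of_injOn
        intro A hA B hB hAB
        obtain ⟨y, hy1, _, hy3⟩ := hx A hA
        obtain ⟨y', hy1', _, hy3'⟩ := hx B hB
        by_contra hne
        have hyy : y = y' := by
          have : some y = some y' := by rw [← hy3, ← hy3']; exact hAB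
          exact Option.some.inj this
        subst hyy
        rw [Finset.mem_coe, hS1, Finset.mem_filter] at hA hB
        exact Finset.disjoint_left.1 (hS.2 A hA.1 B hB.1 hne) hy1 hy1'
      rw [← h1]
      have h2 : S1.image x ⊆ U.image some := by
        intro o ho
        obtain ⟨A, hA, rfl⟩ := Finset.mem_image.1 ho
        obtain ⟨y, _, hy2, hy3⟩ := hx A hA
        rw [hy3]
        exact Finset.mem_image_of_mem _ hy2
      exact (Finset.card_le_card h2).trans Finset.card_image_le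
    have hsingle : ∀ A ∈ S0, ∃ v, A = {v} ∧ v ∉ U := by
      intro A hA
      rw [hS0, Finset.mem_filter] at hA
      obtain ⟨hAS, hAU⟩ := hA
      obtain ⟨hne, hc, hind⟩ := hS.1 A hAS
      have hpos := hne.card_pos
      by_cases hA2 : A.card = 2
      · exfalso
        obtain ⟨a, b, hab, rfl⟩ := Finset.card_eq_two.1 hA2
        have ha : a ∉ U := fun h => Finset.disjoint_left.1 hAU (by simp) h
        have hb : b ∉ U := fun h => Finset.disjoint_left.1 hAU (by simp) h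
        exact hadd a b hab (hind a (by simp) b (by simp)) ha hb (Or.inl hAS)
      · obtain ⟨v, rfl⟩ := Finset.card_eq_one.1 (by omega : A.card = 1)
        exact ⟨v, rfl, fun h => Finset.disjoint_left.1 hAU (by simp) h⟩
    have hS0c : S0.card ≤ 2 := by
      by_contra hcon
      push Not at hcon
      obtain ⟨A, B, C, hA, hB, hC, hAB, hAC, hBC⟩ := Finset.two_lt_card_iff.1 hcon
      obtain ⟨a, rfl, ha⟩ := hsingle A hA
      obtain ⟨b, rfl, hb⟩ := hsingle B hB
      obtain ⟨c, rfl, hc⟩ := hsingle C hC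
      have hab : a ≠ b := fun h => hAB (by rw [h])
      have hac : a ≠ c := fun h => hAC (by rw [h])
      have hbc : b ≠ c := fun h => hBC (by rw [h])
      rw [hS0, Finset.mem_filter] at hA hB hC
      have key : ∀ x y : Fin N, x ≠ y → x ∉ U → y ∉ U → ({x} : Finset (Fin N)) ∈ S →
          ({y} : Finset (Fin N)) ∈ S → F.Adj x y := by
        intro x y hxy hx hy hxS hyS
        by_contra hn
        exact hadd x y hxy hn hx hy (Or.inr ⟨hxS, hyS⟩)
      refine hF {a, b, c} ?_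
      rw [SimpleGraph.is3Clique_iff]
      exact ⟨a, b, c, key a b hab ha hb hA.1 hB.1, key a c hac ha hc hA.1 hC.1,
        key b c hbc hb hc hB.1 hC.1, rfl⟩
    omega
  · intro z hz
    rcases hM3 z hz with h | ⟨h, _⟩
    · refine ⟨_, h, ?_⟩
      intro a ha
      simpa using ha
    · exact ⟨_, h, fun a ha => Or.inl (Finset.mem_singleton.1 ha)⟩

theorem hjb_of_pairConf2 {K : ℕ} (h : PairConf2 (4 * K)) : HJB K := by
  obtain ⟨n, hn, hK, F, hF, H⟩ := h
  refine ⟨n, hn, F, hF, ?_⟩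
  intro 𝒜 ℬ hA hB hAc hBc
  obtain ⟨M₁, a1, a2, a3⟩ := exists_mat hF hA
  obtain ⟨M₂, b1, b2, b3⟩ := exists_mat hF hB
  have key : ∀ a b : ℕ, n ≤ K * a → a ≤ 2 * b + 2 → n ≤ 4 * K * b := by
    intro a b h1 h2
    have h3 : K * a ≤ K * (2 * b + 2) := Nat.mul_le_mul_left _ h2
    have h4 : K * (2 * b + 2) = 2 * (K * b) + 2 * K := by ring
    have h5 : 4 * K * b = 4 * (K * b) := by ring
    omega
  obtain ⟨z, hz, z', hz', h1, h2, h3, h4⟩ := H M₁ M₂ a1 b1 (key _ _ hAc a2) (key _ _ hBc b2)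
  obtain ⟨A, hAA, hA'⟩ := a3 z hz
  obtain ⟨B, hBB, hB'⟩ := b3 z' hz'
  refine ⟨A, hAA, B, hBB, ?_⟩
  intro a ha b hb
  rcases hA' a ha with rfl | rfl <;> rcases hB' b hb with rfl | rfl
  · exact h1
  · exact h2
  · exact h3
  · exact h4

end Crest.Agent.R042.S59Spine883
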