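import Crest.Agent.R042.ContB_666
import Crest.Agent.R042.HJB_883

set_option autoImplicit false
set_option linter.unusedSectionVars false
open Finset

/-!
S0059 (row 42): from average conflict density of admissible weights to `PairConf2` (883).
-/

namespace Crest.Agent.R042.Cont666

/-! ### numbers -/

theorem numbers (δ : ℝ) (hδ : 0 < δ) (hδ1 : δ ≤ 1) : ∃ n0 : ℕ, ∀ n : ℕ, n0 ≤ n → 0 < n ∧
    ∃ t : ℕ, δ * Real.log ((n : ℝ) ^ (2 - 1) / δ) /
        ((n : ℝ) ^ (-(99 : ℝ) / 100) * Real.log 2) + 1 ≤ t ∧ (t : ℝ) ≤ δ * n ∧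
      2 * (t + 1) * (n : ℝ) ^ (2 * t) * Real.exp (- (δ ^ 2 * n / 2)) < 1 := by
  obtain ⟨A, hA⟩ : ∃ A : ℝ, A = 2 * δ * (400 + |Real.log δ|) + 2 := ⟨_, rfl⟩
  have habs := abs_nonneg (Real.log δ)
  have hA2 : 2 ≤ A := by
    rw [hA]
    have : 0 ≤ 2 * δ * (400 + |Real.log δ|) := by positivity
    linarith
  obtain ⟨y0, hy0⟩ : ∃ y0 : ℝ, y0 = 1 + 802 * (2 * A + 1) / δ ^ 2 + (A + 1) / δ := ⟨_, rfl⟩
  have hy0a : 0 ≤ 802 * (2 * A + 1) / δ ^ 2 := by positivity
  have hy0b : 0 ≤ (A + 1) / δ := by positivity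
  have hy01 : 1 ≤ y0 := by rw [hy0]; linarith
  refine ⟨⌈y0 ^ (400 : ℝ)⌉₊, fun n hn => ?_⟩
  have hn' : y0 ^ (400 : ℝ) ≤ n := (Nat.le_ceil _).trans (by exact_mod_cast hn)
  have hn1 : (1 : ℝ) ≤ n := (Real.one_le_rpow hy01 (by norm_num)).trans hn'
  have hn0 : (0 : ℝ) < n := by linarith
  have hnpos : 0 < n := by exact_mod_cast hn0
  refine ⟨hnpos, ?_⟩
  obtain ⟨y, hy⟩ : ∃ y : ℝ, y = (n : ℝ) ^ ((1 : ℝ) / 400) := ⟨_, rfl⟩
  obtain ⟨P, hP⟩ : ∃ P : ℝ, P = (n : ℝ) ^ ((99 : ℝ) / 100) := ⟨_, rfl⟩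
  have hypos : 0 < y := by rw [hy]; exact Real.rpow_pos_of_pos hn0 _
  have hPpos : 0 < P := by rw [hP]; exact Real.rpow_pos_of_pos hn0 _
  have hP1 : 1 ≤ P := by rw [hP]; exact Real.one_le_rpow hn1 (by norm_num)
  have hy4 : y ^ 4 = (n : ℝ) ^ ((1 : ℝ) / 100) := by
    rw [hy, ← Real.rpow_natCast, ← Real.rpow_mul hn0.le]
    norm_num
  have hPy : P * y ^ 4 = n := by
    rw [hy4, hP, ← Real.rpow_add hn0]
    norm_num
  have hyy0 : y0 ≤ y := by
    have h1 : (y0 ^ (400 : ℝ)) ^ ((1 : ℝ) / 400) ≤ (n : ℝ) ^ ((1 : ℝ) / 400) :=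
      Real.rpow_le_rpow (by positivity) hn' (by norm_num)
    rw [← Real.rpow_mul (by linarith), ← hy] at h1
    norm_num at h1
    exact h1
  have hy1 : 1 ≤ y := hy01.trans hyy0
  have hPinv : (n : ℝ) ^ (-(99 : ℝ) / 100) = P⁻¹ := by
    rw [hP, ← Real.rpow_neg hn0.le]
    congr 1
    norm_num
  have hlogn : Real.log n ≤ 400 * y := by
    have := Real.log_le_rpow_div hn0.le (show (0 : ℝ) < 1 / 400 by norm_num)
    rw [← hy] at this
    linarith
  have hlogn0 : 0 ≤ Real.log n := Real.log_nonneg hn1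
  have hlog2a : (1 : ℝ) / 2 ≤ Real.log 2 := by
    have := Real.log_two_gt_d9; linarith
  have hlog2 : 0 < Real.log 2 := by linarith
  obtain ⟨v, hv⟩ : ∃ v : ℝ, v = δ * Real.log ((n : ℝ) ^ (2 - 1) / δ) /
        ((n : ℝ) ^ (-(99 : ℝ) / 100) * Real.log 2) := ⟨_, rfl⟩
  rw [← hv]
  have hlogd : Real.log ((n : ℝ) ^ (2 - 1) / δ) = Real.log n - Real.log δ := by
    rw [Nat.add_one_sub_one, pow_one, Real.log_div hn0.ne' hδ.ne']
  have hlogd0 : 0 ≤ Real.log n - Real.log δ := by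
    have := Real.log_nonpos hδ.le hδ1
    linarith
  have hv' : v = δ * (Real.log n - Real.log δ) * P / Real.log 2 := by
    rw [hv, hlogd, hPinv]
    field_simp
  have hv0 : 0 ≤ v := by
    rw [hv']
    positivity
  have hvle : v ≤ (A - 2) * (P * y) := by
    rw [hv', div_le_iff₀ hlog2]
    have h1 : Real.log n - Real.log δ ≤ (400 + |Real.log δ|) * y := by
      have h2 : -Real.log δ ≤ |Real.log δ| := neg_le_abs _
      have h3 : |Real.log δ| ≤ |Real.log δ| * y := le_mul_of_one_le_right habs hy1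
      linarith
    have h3 : δ * (Real.log n - Real.log δ) * P ≤
        δ * ((400 + |Real.log δ|) * y) * P :=
      mul_le_mul_of_nonneg_right (mul_le_mul_of_nonneg_left h1 hδ.le) hPpos.le
    have h4 : δ * ((400 + |Real.log δ|) * y) * P = (A - 2) * (P * y) * (1 / 2) := by
      rw [hA]; ring
    have h5 : (A - 2) * (P * y) * (1 / 2) ≤ (A - 2) * (P * y) * Real.log 2 :=
      mul_le_mul_of_nonneg_left hlog2a (mul_nonneg (by linarith) (by positivity))
    linarith
  refine ⟨⌈v⌉₊ + 1, ?_, ?_⟩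
  · push_cast
    have := Nat.le_ceil v
    linarith
  have hPy1 : 1 ≤ P * y := by
    have := mul_le_mul hP1 hy1 zero_le_one hPpos.le
    linarith
  obtain ⟨t, htdef⟩ : ∃ t : ℕ, t = ⌈v⌉₊ + 1 := ⟨_, rfl⟩
  rw [← htdef]
  have ht : (t : ℝ) ≤ A * (P * y) := by
    have h1 := Nat.ceil_lt_add_one hv0
    rw [htdef]
    push_cast
    have h3 : (A - 2) * (P * y) + 2 ≤ A * (P * y) := by
      have : A * (P * y) = (A - 2) * (P * y) + 2 * (P * y) := by ring
      rw [this]
      linarith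
    linarith
  have hy3 : (A + 1) ≤ δ * y ^ 3 := by
    have h1 : (A + 1) / δ ≤ y := by
      have : (A + 1) / δ ≤ y0 := by rw [hy0]; linarith
      exact this.trans hyy0
    have h2 : A + 1 ≤ y * δ := by rwa [div_le_iff₀ hδ] at h1
    have h3 : y ≤ y ^ 3 := by
      calc y = y ^ 1 := (pow_one y).symm
        _ ≤ y ^ 3 := pow_le_pow_right₀ hy1 (by norm_num)
    have h4 : δ * y ≤ δ * y ^ 3 := mul_le_mul_of_nonneg_left h3 hδ.le
    linarith
  have hy2 : 802 * (2 * A + 1) < δ ^ 2 * y ^ 2 := by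
    have h1 : 802 * (2 * A + 1) / δ ^ 2 < y := by
      have : 802 * (2 * A + 1) / δ ^ 2 < y0 := by rw [hy0]; linarith
      exact this.trans_le hyy0
    have h2 : 802 * (2 * A + 1) < y * δ ^ 2 := by rwa [div_lt_iff₀ (by positivity)] at h1
    have h3 : y ≤ y ^ 2 := by
      calc y = y ^ 1 := (pow_one y).symm
        _ ≤ y ^ 2 := pow_le_pow_right₀ hy1 (by norm_num)
    have h4 : δ ^ 2 * y ≤ δ ^ 2 * y ^ 2 := mul_le_mul_of_nonneg_left h3 (by positivity)
    linarith
  have hPy2 : 1 ≤ P * y ^ 2 := by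
    have := mul_le_mul hP1 (one_le_pow₀ hy1 : 1 ≤ y ^ 2) zero_le_one hPpos.le
    linarith
  have htn : (t : ℝ) + 1 ≤ δ * n := by
    rw [← hPy]
    have h2 : (A + 1) * (P * y) ≤ δ * y ^ 3 * (P * y) :=
      mul_le_mul_of_nonneg_right hy3 (by positivity)
    have h3 : δ * y ^ 3 * (P * y) = δ * (P * y ^ 4) := by ring
    have h4 : (A + 1) * (P * y) = A * (P * y) + P * y := by ring
    linarith
  refine ⟨by linarith, ?_⟩
  have htn' : (t : ℝ) + 1 ≤ n := by
    have : δ * n ≤ 1 * n := mul_le_mul_of_nonneg_right hδ1 hn0.le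
    linarith
  have ht0 : (0 : ℝ) ≤ t := Nat.cast_nonneg _
  have h1 : 2 * ((t : ℝ) + 1) * (n : ℝ) ^ (2 * t) ≤
      Real.exp (1 + Real.log n + 2 * t * Real.log n) := by
    rw [Real.exp_add, Real.exp_add, Real.exp_log hn0]
    have h2 : Real.exp (2 * t * Real.log n) = (n : ℝ) ^ (2 * t) := by
      rw [← Real.rpow_natCast, Real.rpow_def_of_pos hn0]
      congr 1
      push_cast
      ring
    rw [h2]
    have h3 : (2 : ℝ) ≤ Real.exp 1 := by
      have := Real.add_one_le_exp (1 : ℝ); linarith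
    have h4 : 2 * ((t : ℝ) + 1) ≤ Real.exp 1 * n :=
      mul_le_mul h3 htn' (by positivity) (Real.exp_pos _).le
    exact mul_le_mul_of_nonneg_right h4 (by positivity)
  have h5 : 1 + Real.log n + 2 * t * Real.log n < δ ^ 2 * n / 2 := by
    have h6 : 2 * t * Real.log n ≤ 2 * (A * (P * y)) * (400 * y) :=
      mul_le_mul (by linarith) hlogn hlogn0 (by positivity)
    have h7 : 2 * (A * (P * y)) * (400 * y) = 800 * A * (P * y ^ 2) := by ring
    have h8 : y ≤ P * y ^ 2 := by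
      have e1 : y = 1 * (y * 1) := by ring
      have e2 : P * y ^ 2 = P * (y * y) := by ring
      rw [e2]
      calc y = 1 * (y * 1) := e1
        _ ≤ P * (y * y) := mul_le_mul hP1 (mul_le_mul_of_nonneg_left hy1 hypos.le)
            (by positivity) hPpos.le
    have h9 : 1 + Real.log n + 2 * t * Real.log n ≤ 401 * (2 * A + 1) * (P * y ^ 2) := by
      have e3 : 401 * (2 * A + 1) * (P * y ^ 2) =
        P * y ^ 2 + 400 * (P * y ^ 2) + 802 * A * (P * y ^ 2) := by ring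
      rw [e3]
      have e4 : 800 * A * (P * y ^ 2) ≤ 802 * A * (P * y ^ 2) :=
        mul_le_mul_of_nonneg_right (by linarith) (by positivity)
      linarith
    have h10 : 401 * (2 * A + 1) * (P * y ^ 2) < δ ^ 2 * n / 2 := by
      rw [← hPy]
      have h11 : 802 * (2 * A + 1) * (P * y ^ 2) < δ ^ 2 * y ^ 2 * (P * y ^ 2) :=
        mul_lt_mul_of_pos_right hy2 (by positivity)
      have h12 : δ ^ 2 * y ^ 2 * (P * y ^ 2) = δ ^ 2 * (P * y ^ 4) := by ring
      linarith
    linarith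
  calc 2 * ((t : ℝ) + 1) * (n : ℝ) ^ (2 * t) * Real.exp (- (δ ^ 2 * n / 2))
      ≤ Real.exp (1 + Real.log n + 2 * t * Real.log n) * Real.exp (- (δ ^ 2 * n / 2)) :=
        mul_le_mul_of_nonneg_right h1 (Real.exp_pos _).le
    _ = Real.exp (1 + Real.log n + 2 * t * Real.log n - δ ^ 2 * n / 2) := by
        rw [← Real.exp_add]; congr 1
    _ < 1 := by
        rw [Real.exp_lt_one_iff]; linarith

/-! ### the interface for the construction -/

section Interface

variable {V : Type*} [Fintype V] [DecidableEq V]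

/-- admissible weights on pairs. -/
structure AdmP (n : ℕ) (δ : ℝ) (E : V → V → Prop) (w : V × V → ℝ) : Prop where
  nonneg : ∀ z, 0 ≤ w z
  supp : ∀ a b, w (a, b) ≠ 0 → ¬ E a b
  row : ∀ a, ∑ b, w (a, b) + ∑ b, w (b, a) ≤ 1
  cap : ∀ z, w z ≤ (n : ℝ) / (Fintype.card V : ℝ)
  mass : ∑ z, w z = δ * (Fintype.card V : ℝ)

open Classical in
/-- average conflict density of two admissible weights. -/
def SSP (n : ℕ) (δ κ : ℝ) (E : V → V → Prop) : Prop :=
  ∀ w₁ w₂ : V × V → ℝ, AdmP n δ E w₁ → AdmP n δ E w₂ →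
    κ * (Fintype.card V : ℝ) * (δ * (Fintype.card V : ℝ)) ≤
      ∑ z : V × V, ∑ z' : V × V,
        if (E z.1 z'.1 ∧ E z.1 z'.2 ∧ E z.2 z'.1 ∧ E z.2 z'.2) then w₁ z * w₂ z' else 0

/-- conflict of two pairs given as functions on `Fin 2` -/
def conf2 (E : V → V → Prop) (z z' : Fin 2 → V) : Prop :=
  E (z 0) (z' 0) ∧ E (z 0) (z' 1) ∧ E (z 1) (z' 0) ∧ E (z 1) (z' 1)

/-- pairs as functions on `Fin 2` -/
theorem sum_fin2 (f : (Fin 2 → V) → ℝ) : ∑ z : Fin 2 → V, f z = ∑ p : V × V, f ![p.1, p.2] := by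
  rw [← (finTwoArrowEquiv V).symm.sum_comp]
  rfl

theorem admP_of_admS {n : ℕ} {δ : ℝ} {E : V → V → Prop} {Ω : Finset (Fin 2 → V)}
    (hΩ : ∀ z, z ∈ Ω ↔ ¬ E (z 0) (z 1)) {w : (Fin 2 → V) → ℝ} (h : AdmS n δ Ω w) :
    AdmP n δ E (fun p => w ![p.1, p.2]) := by
  refine ⟨fun z => h.nonneg _, ?_, ?_, ?_, ?_⟩
  · intro a b hab
    have := (hΩ _).1 (h.supp _ hab)
    simpa using this
  · intro a
    have h1 := h.row a
    rw [sum_fin2 (fun z => mult a z * w z)] at h1
    have h2 : ∀ p : V × V, mult a ![p.1, p.2] =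
        (if p.1 = a then (1 : ℝ) else 0) + (if p.2 = a then (1 : ℝ) else 0) := by
      intro p
      unfold mult
      rw [Finset.card_filter, Fin.sum_univ_two, Nat.cast_add, Nat.cast_ite, Nat.cast_ite]
      simp
    simp_rw [h2, add_mul, Finset.sum_add_distrib] at h1
    rw [Fintype.sum_prod_type, Fintype.sum_prod_type] at h1
    simp only [ite_mul, one_mul, zero_mul, Finset.sum_ite_eq', Finset.mem_univ, if_true] at h1
    rw [Finset.sum_comm] at h1
    simp only [Finset.sum_ite_eq', Finset.mem_univ, if_true] at h1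
    exact h1
  · intro z
    have := h.cap ![z.1, z.2]
    simpa using this
  · have := h.mass
    rw [sum_fin2 w] at this
    exact this

open Classical in
/-- **the interface**: average conflict density `≥ n^(-99/100)` gives `PairConf2`. -/
theorem pairConf2_of (K : ℕ) (hK : 0 < K) : ∃ n0 : ℕ, ∀ n : ℕ, n0 ≤ n →
    ∀ (V : Type) [Fintype V] [DecidableEq V] [Nonempty V] (E : V → V → Prop),
      (∀ a b, E a b → E b a) → (∀ a, ¬ E a a) →
      (∀ a b c, E a b → E b c → E a c → False) →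
      SSP n (1 / (4 * (K : ℝ))) ((n : ℝ) ^ (-(99 : ℝ) / 100)) E →
      S59Spine883.PairConf2 K := by
  have hK0 : (0 : ℝ) < K := by exact_mod_cast hK
  have hK1 : (1 : ℝ) ≤ K := by exact_mod_cast hK
  obtain ⟨δ, hδd⟩ : ∃ δ : ℝ, δ = 1 / (4 * (K : ℝ)) := ⟨_, rfl⟩
  have hδ : 0 < δ := by rw [hδd]; positivity
  have hδ1 : δ ≤ 1 := by
    rw [hδd, div_le_one (by positivity)]; linarith
  rw [← hδd]
  obtain ⟨n0, hn0⟩ := numbers δ hδ hδ1
  refine ⟨max n0 K, ?_⟩
  intro n hn V _ _ _ E hsymm hirr htri hSSP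
  obtain ⟨hnpos, t, ht1, ht2, ht3⟩ := hn0 n (le_trans (le_max_left _ _) hn)
  have hKn : K ≤ n := le_trans (le_max_right _ _) hn
  have hn0' : (0 : ℝ) < n := by exact_mod_cast hnpos
  have hV : 0 < Fintype.card V := Fintype.card_pos
  have hN0 : (0 : ℝ) < (Fintype.card V : ℝ) := by exact_mod_cast hV
  set Ω : Finset (Fin 2 → V) := univ.filter fun z => ¬ E (z 0) (z 1) with hΩ
  have hΩm : ∀ z, z ∈ Ω ↔ ¬ E (z 0) (z 1) := by
    intro z; rw [hΩ, Finset.mem_filter]; simp
  have hcount := cont2 (V := V) n 2 t δ ((n : ℝ) ^ (-(99 : ℝ) / 100)) Ω (conf2 E) hnpos (by norm_num)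
    hδ (Real.rpow_pos_of_pos hn0' _) hV (by
      intro w₁ w₂ h₁ h₂
      by_contra hcon
      push Not at hcon
      have h3 := hSSP _ _ (admP_of_admS hΩm h₁) (admP_of_admS hΩm h₂)
      have h4 : ∑ z : V × V, ∑ z' : V × V,
          (if (E z.1 z'.1 ∧ E z.1 z'.2 ∧ E z.2 z'.1 ∧ E z.2 z'.2) then
            w₁ ![z.1, z.2] * w₂ ![z'.1, z'.2] else 0) =
          ∑ z : Fin 2 → V, w₁ z * ∑ z' ∈ univ.filter (fun z' => conf2 E z z'), w₂ z' := by
        rw [sum_fin2 (fun z => w₁ z * ∑ z' ∈ univ.filter (fun z' => conf2 E z z'), w₂ z')]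
        refine Finset.sum_congr rfl fun z _ => ?_
        rw [Finset.sum_filter, sum_fin2, Finset.mul_sum]
        refine Finset.sum_congr rfl fun z' _ => ?_
        by_cases hc : E z.1 z'.1 ∧ E z.1 z'.2 ∧ E z.2 z'.1 ∧ E z.2 z'.2
        · have hc' : conf2 E ![z.1, z.2] ![z'.1, z'.2] := by simpa [conf2] using hc
          rw [if_pos hc, if_pos hc']
        · have hc' : ¬ conf2 E ![z.1, z.2] ![z'.1, z'.2] := by simpa [conf2] using hc
          rw [if_neg hc, if_neg hc', mul_zero]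
      rw [h4] at h3
      have h5 : ∑ z : Fin 2 → V, w₁ z * ∑ z' ∈ univ.filter (fun z' => conf2 E z z'), w₂ z' <
          ∑ z : Fin 2 → V, w₁ z * ((n : ℝ) ^ (-(99 : ℝ) / 100) * (Fintype.card V : ℝ)) := by
        have hex : ∃ z, w₁ z ≠ 0 := by
          by_contra hall
          push Not at hall
          have := h₁.mass
          rw [Finset.sum_eq_zero (fun z _ => hall z)] at this
          have hpos : 0 < δ * (Fintype.card V : ℝ) := by positivity
          linarith
        obtain ⟨z0, hz0⟩ := hex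
        refine Finset.sum_lt_sum (fun z _ => ?_) ⟨z0, Finset.mem_univ _, ?_⟩
        · by_cases hz : w₁ z = 0
          · rw [hz]; simp
          · exact mul_le_mul_of_nonneg_left (hcon z hz).le (h₁.nonneg z)
        · have hpos : 0 < w₁ z0 := lt_of_le_of_ne (h₁.nonneg z0) (Ne.symm hz0)
          exact mul_lt_mul_of_pos_left (hcon z0 hz0) hpos
      rw [← Finset.sum_mul, h₁.mass] at h5
      linarith) ht1
  -- a good sample
  have hgood : ∃ X : Fin n → V, ¬ Bad2 Ω (conf2 E) (2 * δ * n + (2 : ℕ) * t) X := by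
    by_contra hall
    push Not at hall
    rw [Finset.filter_true_of_mem (fun X _ => hall X), Finset.card_univ, Fintype.card_fun,
      Fintype.card_fin] at hcount
    push_cast at hcount
    have hNn : (0 : ℝ) < (Fintype.card V : ℝ) ^ n := pow_pos hN0 n
    have h1 : 2 * ((t : ℝ) + 1) * (n : ℝ) ^ (2 * t) * Real.exp (- (δ ^ 2 * n / 2)) *
        (Fintype.card V : ℝ) ^ n < 1 * (Fintype.card V : ℝ) ^ n :=
      mul_lt_mul_of_pos_right ht3 hNn
    linarith
  obtain ⟨X, hX⟩ := hgood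
  -- the graph
  let F : SimpleGraph (Fin n) :=
    { Adj := fun i j => E (X i) (X j)
      symm := ⟨fun i j h => hsymm _ _ h⟩
      loopless := ⟨fun i h => hirr _ h⟩ }
  refine ⟨n, hnpos, hKn, F, ?_, ?_⟩
  · intro T hT
    rw [SimpleGraph.is3Clique_iff] at hT
    obtain ⟨a, b, c, hab, hac, hbc, _⟩ := hT
    exact htri _ _ _ hab hbc hac
  · intro M₁ M₂ hM₁ hM₂ hc₁ hc₂
    by_contra hcon
    push Not at hcon
    apply hX
    have himg : ∀ M : Finset (Fin n × Fin n), S59Spine883.IsMat F M → n ≤ K * M.card →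
        IsMatch (M.image fun z : Fin n × Fin n => (![z.1, z.2] : Fin 2 → Fin n)) ∧
        (∀ e ∈ M.image (fun z : Fin n × Fin n => (![z.1, z.2] : Fin 2 → Fin n)),
          (fun j => X (e j)) ∈ Ω) ∧
        2 * δ * n + (2 : ℕ) * t ≤
          ((M.image fun z : Fin n × Fin n => (![z.1, z.2] : Fin 2 → Fin n)).card : ℝ) := by
      intro M hM hc
      have hinj : Function.Injective
          (fun z : Fin n × Fin n => (![z.1, z.2] : Fin 2 → Fin n)) := by
        intro z z' h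
        have h0 := congrFun h 0
        have h1 := congrFun h 1
        simp at h0 h1
        exact Prod.ext h0 h1
      refine ⟨⟨?_, ?_⟩, ?_, ?_⟩
      · intro e he
        obtain ⟨z, hz, rfl⟩ := Finset.mem_image.1 he
        have hne := (hM.1 z hz).1
        intro i j hij
        fin_cases i <;> fin_cases j <;> simp_all
      · intro e he e' he' hne
        obtain ⟨z, hz, rfl⟩ := Finset.mem_image.1 he
        obtain ⟨z', hz', rfl⟩ := Finset.mem_image.1 he'
        have hzz : z ≠ z' := fun h => hne (by rw [h])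
        obtain ⟨g1, g2, g3, g4⟩ := hM.2 z hz z' hz' hzz
        intro i j
        fin_cases i <;> fin_cases j <;> simp_all
      · intro e he
        obtain ⟨z, hz, rfl⟩ := Finset.mem_image.1 he
        rw [hΩm]
        exact (hM.1 z hz).2
      · rw [Finset.card_image_of_injective _ hinj]
        have h1 : (n : ℝ) ≤ K * M.card := by exact_mod_cast hc
        have h2 : 4 * δ * n ≤ M.card := by
          rw [hδd]
          have : 4 * (1 / (4 * (K : ℝ))) * n = n / K := by field_simp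
          rw [this, div_le_iff₀ hK0]
          linarith
        push_cast
        linarith
    obtain ⟨a1, a2, a3⟩ := himg M₁ hM₁ hc₁
    obtain ⟨b1, b2, b3⟩ := himg M₂ hM₂ hc₂
    refine ⟨_, _, a1, b1, a2, b2, ?_, a3, b3⟩
    intro e he e' he' hRR
    obtain ⟨z, hz, rfl⟩ := Finset.mem_image.1 he
    obtain ⟨z', hz', rfl⟩ := Finset.mem_image.1 he'
    exact hcon z hz z' hz' hRR

end Interface

end Crest.Agent.R042.Cont666
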