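import Crest.Agent.R042.Cont3_666

set_option autoImplicit false
set_option linter.unusedSectionVars false
open Finset

/-!
S0059 (row 42): the sampling / container theorem, main statement `cont` (counting form, all `s`).
-/

namespace Crest.Agent.R042.Cont666

theorem exists_list_map {A B : Type*} (f : A → B) (P : A → Prop) (L : List B)
    (h : ∀ z ∈ L, ∃ e, P e ∧ f e = z) : ∃ E : List A, (∀ e ∈ E, P e) ∧ E.map f = L := by
  induction L with
  | nil => exact ⟨[], by simp, rfl⟩
  | cons z L ih =>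
    obtain ⟨E, h1, h2⟩ := ih (fun z hz => h z (List.mem_cons_of_mem _ hz))
    obtain ⟨e, he, hez⟩ := h z List.mem_cons_self
    refine ⟨e :: E, ?_, by rw [List.map_cons, h2, hez]⟩
    intro e' he'
    rcases List.mem_cons.1 he' with rfl | he'
    · exact he
    · exact h1 e' he'

section Main

variable {V : Type*} [Fintype V] [DecidableEq V] {s n : ℕ}

/-- indices used by a list of tuples -/
def ind {j : ℕ} (E : Fin j → (Fin s → Fin n)) : Finset (Fin n) :=
  univ.biUnion fun i => univ.image (E i)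

theorem mem_ind {j : ℕ} {E : Fin j → (Fin s → Fin n)} {x : Fin n} :
    x ∈ ind E ↔ ∃ i l, E i l = x := by
  simp [ind]

/-- values of a list of index tuples -/
def vals (X : Fin n → V) {j : ℕ} (E : Fin j → (Fin s → Fin n)) : List (Fin s → V) :=
  List.ofFn fun i => fun l => X (E i l)

theorem vals_glue {j : ℕ} (E : Fin j → (Fin s → Fin n)) (X : Fin n → V)
    (Y : {i // i ∉ ind E} → V) : vals (glue (ind E) X Y) E = vals X E := by
  unfold vals
  congr 1
  funext i l
  exact glue_in (mem_ind.2 ⟨i, l, rfl⟩)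

/-- the event for a fixed certificate -/
def QQ (δ : ℝ) (C : List (Fin s → V) → Finset (Fin s → V)) {j : ℕ}
    (E : Fin j → (Fin s → Fin n)) (X : Fin n → V) : Prop :=
  (¬ ∃ w, AdmS n δ (C (vals X E)) w) ∧
      2 * δ * n ≤ (nu (C (vals X E)) (fun i : {i // i ∉ ind E} => X i.1) : ℝ)

/-- the bad event: a large conflict-free family of disjoint tuples -/
def Bad (Ω : Finset (Fin s → V)) (R : (Fin s → V) → (Fin s → V) → Prop) (m : ℝ)
    (X : Fin n → V) : Prop :=
  ∃ M : Finset (Fin s → Fin n), IsMatch M ∧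
      (∀ e ∈ M, (fun j => X (e j)) ∈ Ω) ∧
      (∀ e ∈ M, ∀ e' ∈ M, e ≠ e' → ¬ R (fun j => X (e j)) (fun j => X (e' j))) ∧
      m ≤ (M.card : ℝ)

open Classical in
theorem fixed_tail (hn : 0 < n) (hs : 1 ≤ s) {δ : ℝ} (hδ : 0 < δ) (hV : 0 < Fintype.card V)
    (C : List (Fin s → V) → Finset (Fin s → V)) {j : ℕ} (E : Fin j → (Fin s → Fin n)) :
    ((univ.filter fun X : Fin n → V => QQ δ C E X).card : ℝ) ≤
      (Fintype.card V : ℝ) ^ n * Real.exp (- (δ ^ 2 * n / 2)) := by
  have h := count_fibre (V := V) (ι := Fin n) (ind E)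
    (fun X => QQ δ C E X)
    (Real.exp (- (δ ^ 2 * n / 2))) hV (by
      intro X
      have hcard : Fintype.card {i // i ∉ ind E} ≤ n := by
        have := Fintype.card_subtype_le (fun i : Fin n => i ∉ ind E)
        rwa [Fintype.card_fin] at this
      have hY : ∀ Y : {i // i ∉ ind E} → V,
          (fun i : {i // i ∉ ind E} => glue (ind E) X Y i.1) = Y := by
        intro Y
        funext i
        exact glue_out i.2
      by_cases hno : ∃ w, AdmS n δ (C (vals X E)) w
      · have : (univ.filter fun Y : {i // i ∉ ind E} → V =>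
            QQ δ C E (glue (ind E) X Y)) = ∅ := by
          rw [Finset.filter_eq_empty_iff]
          intro Y _ hc
          unfold QQ at hc
          rw [vals_glue] at hc
          exact hc.1 hno
        rw [this]
        simp only [Finset.card_empty, Nat.cast_zero]
        positivity
      · have h1 := nu_tail (V := V) (ι := {i // i ∉ ind E}) (C (vals X E)) rfl hcard hn hδ hs
          hV hno
        refine le_trans ?_ h1
        have h2 : (univ.filter fun Y : {i // i ∉ ind E} → V =>
            QQ δ C E (glue (ind E) X Y)) ⊆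
            (univ.filter fun Y : {i // i ∉ ind E} → V =>
              2 * δ * n ≤ (nu (C (vals X E)) Y : ℝ)) := by
          intro Y hY'
          rw [Finset.mem_filter] at hY' ⊢
          refine ⟨Finset.mem_univ _, ?_⟩
          have h3 := hY'.2.2
          rw [vals_glue, hY Y] at h3
          exact h3
        exact_mod_cast Finset.card_le_card h2)
  rw [Fintype.card_fin] at h
  exact h

/-- the bad event gives a certificate -/
theorem certificate {t : ℕ} {δ : ℝ} (C : List (Fin s → V) → Finset (Fin s → V))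
    (Ω : Finset (Fin s → V)) (R : (Fin s → V) → (Fin s → V) → Prop)
    (hC : ∀ A : Set (Fin s → V), (∀ z ∈ A, z ∈ Ω) →
      (∀ z ∈ A, ∀ z' ∈ A, z ≠ z' → ¬ R z z') →
      ∃ L : List (Fin s → V), (∀ z ∈ L, z ∈ A) ∧ L.length ≤ t ∧ (∀ z ∈ A, z ∈ C L) ∧
        ¬ ∃ w, AdmS n δ (C L) w)
    (X : Fin n → V) (M : Finset (Fin s → Fin n)) (hM : IsMatch M)
    (hMΩ : ∀ e ∈ M, (fun j => X (e j)) ∈ Ω)
    (hMR : ∀ e ∈ M, ∀ e' ∈ M, e ≠ e' → ¬ R (fun j => X (e j)) (fun j => X (e' j)))
    (hcard : 2 * δ * n + t ≤ (M.card : ℝ)) :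
    ∃ j ∈ Finset.range (t + 1), ∃ E : Fin j → (Fin s → Fin n),
      (¬ ∃ w, AdmS n δ (C (vals X E)) w) ∧
      2 * δ * n ≤ (nu (C (vals X E)) (fun i : {i // i ∉ ind E} => X i.1) : ℝ) := by
  classical
  obtain ⟨L, h1, h2, h3, h4⟩ := hC {z | ∃ e ∈ M, (fun j => X (e j)) = z}
    (by rintro z ⟨e, he, rfl⟩; exact hMΩ e he)
    (by
      rintro z ⟨e, he, rfl⟩ z' ⟨e', he', rfl⟩ hne
      refine hMR e he e' he' ?_
      rintro rfl
      exact hne rfl)
  obtain ⟨El, h5, h6⟩ := exists_list_map (fun e : Fin s → Fin n => fun j => X (e j))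
    (fun e => e ∈ M) L h1
  have hlen : El.length ≤ t := by
    rw [← h6, List.length_map] at h2; exact h2
  refine ⟨El.length, Finset.mem_range.2 (by omega), fun i => El.get i, ?_⟩
  have hvals : vals X (fun i => El.get i) = L := by
    rw [← h6]
    unfold vals
    exact List.ofFn_getElem_eq_map El (fun e : Fin s → Fin n => fun j => X (e j))
  rw [hvals]
  refine ⟨h4, ?_⟩
  set E : Fin El.length → (Fin s → Fin n) := fun i => El.get i with hE
  -- the remaining family
  set M'' : Finset (Fin s → {i // i ∉ ind E}) :=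
    univ.filter (fun e'' => (fun l => (e'' l).1) ∈ M) with hM''
  have hfam : M'' ∈ fam (C L) (fun i : {i // i ∉ ind E} => X i.1) := by
    rw [mem_fam]
    refine ⟨⟨?_, ?_⟩, ?_⟩
    · intro e he a b hab
      have := hM.1 _ (Finset.mem_filter.1 he).2
      exact this (by simpa using congrArg Subtype.val hab)
    · intro e he e' he' hne a b hab
      have hne' : (fun l => (e l).1) ≠ (fun l => (e' l).1) := by
        intro h
        apply hne
        funext l
        exact Subtype.ext (congrFun h l)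
      exact hM.2 _ (Finset.mem_filter.1 he).2 _ (Finset.mem_filter.1 he').2 hne' a b
        (congrArg Subtype.val hab)
    · intro e he
      exact h3 _ ⟨_, (Finset.mem_filter.1 he).2, rfl⟩
  have hsub : M \ El.toFinset ⊆ M''.image (fun e'' => fun l => (e'' l).1) := by
    intro e he
    rw [Finset.mem_sdiff, List.mem_toFinset] at he
    rw [Finset.mem_image]
    have hout : ∀ l, e l ∉ ind E := by
      intro l hl
      obtain ⟨i, l', hil⟩ := mem_ind.1 hl
      have hmem : E i ∈ El := El.get_mem i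
      have hne : E i ≠ e := fun h => he.2 (h ▸ hmem)
      exact hM.2 _ (h5 _ hmem) _ he.1 hne l' l hil
    refine ⟨fun l => ⟨e l, hout l⟩, ?_, rfl⟩
    rw [hM'', Finset.mem_filter]
    exact ⟨Finset.mem_univ _, he.1⟩
  have hc1 : (M \ El.toFinset).card ≤ M''.card :=
    (Finset.card_le_card hsub).trans Finset.card_image_le
  have hc2 : M.card - El.toFinset.card ≤ (M \ El.toFinset).card :=
    Finset.le_card_sdiff _ _
  have hc3 : El.toFinset.card ≤ El.length := List.toFinset_card_le El
  have hc4 := le_nu hfam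
  have hc5 : M.card ≤ nu (C L) (fun i : {i // i ∉ ind E} => X i.1) + t := by omega
  have hc6 : (M.card : ℝ) ≤ nu (C L) (fun i : {i // i ∉ ind E} => X i.1) + t := by
    exact_mod_cast hc5
  linarith

open Classical in
/-- **sampling / container theorem**, counting form. -/
theorem cont (n s t : ℕ) (δ κ : ℝ) (Ω : Finset (Fin s → V))
    (R : (Fin s → V) → (Fin s → V) → Prop)
    (hn : 0 < n) (hs : 1 ≤ s) (hδ : 0 < δ) (hκ : 0 < κ) (hV : 0 < Fintype.card V)
    (hirr : ∀ z, ¬ R z z)
    (hSS : ∀ w, AdmS n δ Ω w → ∃ z, w z ≠ 0 ∧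
      κ * (Fintype.card V : ℝ) ≤ ∑ z' ∈ univ.filter (fun z' => R z z'), w z')
    (ht : δ * Real.log ((n : ℝ) ^ (s - 1) / δ) / (κ * Real.log 2) + 1 ≤ t) :
    ((univ.filter fun X : Fin n → V => Bad Ω R (2 * δ * n + t) X).card : ℝ) ≤
      (t + 1) * (n : ℝ) ^ (s * t) * Real.exp (- (δ ^ 2 * n / 2)) *
        (Fintype.card V : ℝ) ^ n := by
  have hVne : Nonempty V := Fintype.card_pos_iff.1 hV
  have hN0 : (0 : ℝ) < (Fintype.card V : ℝ) := by exact_mod_cast hV
  have hn0 : (0 : ℝ) < (n : ℝ) := by exact_mod_cast hn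
  have hn1 : (1 : ℝ) ≤ (n : ℝ) := by exact_mod_cast hn
  obtain ⟨C, hC⟩ := containers (Z := Fin s → V) (fun a z => mult a z)
    (((n : ℝ) / (Fintype.card V : ℝ)) ^ (s - 1)) (δ * (Fintype.card V : ℝ))
    (κ * (Fintype.card V : ℝ)) Ω R (mul_pos hδ hN0) (pow_pos (div_pos hn0 hN0) _)
    (mul_pos hκ hN0) hirr hSS t (by
      have h1 : (((n : ℝ) / (Fintype.card V : ℝ)) ^ (s - 1) *
          (Fintype.card (Fin s → V) : ℝ) / (δ * (Fintype.card V : ℝ))) =
          (n : ℝ) ^ (s - 1) / δ := by
        rw [Fintype.card_fun, Fintype.card_fin]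
        obtain ⟨s', rfl⟩ : ∃ s', s = s' + 1 := ⟨s - 1, by omega⟩
        rw [Nat.add_sub_cancel]
        push_cast
        rw [div_pow, pow_succ]
        field_simp
      rw [h1]
      have h2 : δ * (Fintype.card V : ℝ) * Real.log ((n : ℝ) ^ (s - 1) / δ) /
          (κ * (Fintype.card V : ℝ) * Real.log 2) =
          δ * Real.log ((n : ℝ) ^ (s - 1) / δ) / (κ * Real.log 2) := by
        have : Real.log 2 ≠ 0 := (Real.log_pos (by norm_num)).ne'
        field_simp
      rw [h2]
      exact ht)
  have hsub : (univ.filter fun X : Fin n → V => Bad Ω R (2 * δ * n + t) X) ⊆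
      (Finset.range (t + 1)).biUnion fun j =>
        (univ : Finset (Fin j → (Fin s → Fin n))).biUnion fun E =>
          univ.filter fun X => QQ δ C E X := by
    intro X hX
    obtain ⟨M, hM1, hM2, hM3, hM4⟩ := (Finset.mem_filter.1 hX).2
    obtain ⟨j, hj, E, hE⟩ := certificate (n := n) (t := t) (δ := δ) C Ω R
      (by
        intro A h1 h2
        obtain ⟨L, h3, h4, h5, h6⟩ := hC A h1 h2
        exact ⟨L, h3, h4, h5, h6⟩) X M hM1 hM2 hM3 hM4
    rw [Finset.mem_biUnion]
    refine ⟨j, hj, ?_⟩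
    rw [Finset.mem_biUnion]
    exact ⟨E, Finset.mem_univ _, Finset.mem_filter.2 ⟨Finset.mem_univ _, hE⟩⟩
  set ε : ℝ := Real.exp (- (δ ^ 2 * n / 2)) with hε
  have hε0 : 0 < ε := Real.exp_pos _
  have h7 : (((Finset.range (t + 1)).biUnion fun j =>
        (univ : Finset (Fin j → (Fin s → Fin n))).biUnion fun E =>
          univ.filter fun X => QQ δ C E X).card : ℝ) ≤
      ∑ j ∈ Finset.range (t + 1), ∑ _E : Fin j → (Fin s → Fin n),
        (Fintype.card V : ℝ) ^ n * ε := by
    have h8 : ((Finset.range (t + 1)).biUnion fun j =>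
        (univ : Finset (Fin j → (Fin s → Fin n))).biUnion fun E =>
          univ.filter fun X => QQ δ C E X).card ≤
      ∑ j ∈ Finset.range (t + 1), ∑ E : Fin j → (Fin s → Fin n),
        (univ.filter fun X => QQ δ C E X).card :=
      Finset.card_biUnion_le.trans (Finset.sum_le_sum fun j _ => Finset.card_biUnion_le)
    have h9 : (((Finset.range (t + 1)).biUnion fun j =>
        (univ : Finset (Fin j → (Fin s → Fin n))).biUnion fun E =>
          univ.filter fun X => QQ δ C E X).card : ℝ) ≤
      ∑ j ∈ Finset.range (t + 1), ∑ E : Fin j → (Fin s → Fin n),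
        ((univ.filter fun X => QQ δ C E X).card : ℝ) := by exact_mod_cast h8
    exact h9.trans (Finset.sum_le_sum fun j _ => Finset.sum_le_sum fun E _ =>
      fixed_tail hn hs hδ hV C E)
  have h10 : ∑ j ∈ Finset.range (t + 1), ∑ _E : Fin j → (Fin s → Fin n),
      (Fintype.card V : ℝ) ^ n * ε ≤
      ∑ _j ∈ Finset.range (t + 1), (n : ℝ) ^ (s * t) * ((Fintype.card V : ℝ) ^ n * ε) := by
    refine Finset.sum_le_sum fun j hj => ?_
    rw [Finset.sum_const, Finset.card_univ, nsmul_eq_mul]
    refine mul_le_mul_of_nonneg_right ?_ (by positivity)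
    rw [Fintype.card_fun, Fintype.card_fun, Fintype.card_fin, Fintype.card_fin,
      Fintype.card_fin]
    push_cast
    rw [← pow_mul]
    refine pow_le_pow_right₀ hn1 ?_
    have : j ≤ t := by
      have := Finset.mem_range.1 hj
      omega
    exact Nat.mul_le_mul_left s this
  rw [Finset.sum_const, Finset.card_range, nsmul_eq_mul] at h10
  have h11 : ((univ.filter fun X : Fin n → V => Bad Ω R (2 * δ * n + t) X).card : ℝ) ≤
      (((Finset.range (t + 1)).biUnion fun j =>
        (univ : Finset (Fin j → (Fin s → Fin n))).biUnion fun E =>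
          univ.filter fun X => QQ δ C E X).card : ℝ) := by
    exact_mod_cast Finset.card_le_card hsub
  refine h11.trans (h7.trans (h10.trans (le_of_eq ?_)))
  push_cast
  ring

end Main

end Crest.Agent.R042.Cont666
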