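import Mathlib

/-!
Row 42, S0059.  (L1): multipartite Kleitman–Winston container count.

`ι` = the pairs of a matching, `A e` = the possible label pairs of `e`, `R e a f b` = conflict.
If every large sub-box `B` of relative log-density less than `x0` contains a label pair of weighted conflict
degree at least `g`, then the number of conflict-free choices is at most
`exp (-x0) * (1 + ∑ e, h |A e|) ^ t * ∏ |A e|`, `x0 ≤ t g`.
-/

set_option autoImplicit false

open Finset Classical

namespace Crest.Agent.R042.Cont767

variable {ι L : Type*} [Fintype ι]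

/-- conflict-free choices in the box `B` -/
noncomputable def cf (R : ι → L → ι → L → Prop) (B : ι → Finset L) : Finset (ι → L) :=
  (Fintype.piFinset B).filter fun l => ∀ e f, e ≠ f → ¬ R e (l e) f (l f)

/-- harmonic numbers -/
noncomputable def h (b : ℕ) : ℝ := ∑ i ∈ range b, 1 / ((i : ℝ) + 1)

lemma h_succ (b : ℕ) : h (b + 1) = h b + 1 / ((b : ℝ) + 1) := by
  rw [h, sum_range_succ, ← h]

lemma h_nonneg (b : ℕ) : 0 ≤ h b := sum_nonneg fun i _ => by positivity

lemma h_mono {a b : ℕ} (hab : a ≤ b) : h a ≤ h b := by
  apply sum_le_sum_of_subset_of_nonneg (range_subset_range.mpr hab)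
  intro i _ _; positivity

lemma h_ge {b : ℕ} (_hb : 1 ≤ b) : 1 / (b : ℝ) ≤ h b := by
  obtain ⟨c, rfl⟩ : ∃ c, b = c + 1 := ⟨b - 1, by omega⟩
  rw [h_succ]; push_cast
  have := h_nonneg c
  linarith

lemma h_le (b : ℕ) (hb : 1 ≤ b) : h b ≤ 1 + Real.log b := by
  have h1 := harmonic_le_one_add_log b
  have h2 : ((harmonic b : ℚ) : ℝ) = h b := by
    rw [harmonic, h]; push_cast
    apply sum_congr rfl; intro i _; rw [one_div]
  rw [← h2]; exact h1

lemma cf_card_le (R : ι → L → ι → L → Prop) (B : ι → Finset L) :
    ((cf R B).card : ℝ) ≤ ∏ e, ((B e).card : ℝ) := by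
  have : (cf R B).card ≤ ∏ e, (B e).card := by
    rw [← Fintype.card_piFinset]
    exact card_le_card (filter_subset _ _)
  exact_mod_cast this

lemma cf_empty (R : ι → L → ι → L → Prop) (B : ι → Finset L) (e : ι) (he : B e = ∅) :
    (cf R B).card = 0 := by
  have : (cf R B).card ≤ ∏ e, (B e).card := by
    rw [← Fintype.card_piFinset]
    exact card_le_card (filter_subset _ _)
  have h0 : ∏ e, (B e).card = 0 := prod_eq_zero (mem_univ e) (by rw [he, card_empty])
  omega

/-- the box after `no` -/
noncomputable def Bm (B : ι → Finset L) (e : ι) (a : L) : ι → Finset L :=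
  Function.update B e ((B e).erase a)

/-- the box after `yes` -/
noncomputable def Bp (R : ι → L → ι → L → Prop) (S : Finset ι) (B : ι → Finset L) (e : ι) (a : L) :
    ι → Finset L :=
  fun f => if f = e then {a} else if f ∈ S then (B f).filter (fun m => ¬ R e a f m) else B f

lemma cf_split (R : ι → L → ι → L → Prop) (S : Finset ι) (B : ι → Finset L) (e : ι) (a : L) :
    (cf R B).card ≤ (cf R (Bm B e a)).card + (cf R (Bp R S B e a)).card := by
  refine le_trans (card_le_card (t := cf R (Bm B e a) ∪ cf R (Bp R S B e a)) ?_) (card_union_le _ _)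
  intro l hl
  rw [cf, mem_filter, Fintype.mem_piFinset] at hl
  obtain ⟨hl1, hl2⟩ := hl
  rw [mem_union]
  by_cases hc : l e = a
  · right
    rw [cf, mem_filter, Fintype.mem_piFinset]
    refine ⟨fun f => ?_, hl2⟩
    unfold Bp
    split_ifs with h1 h2
    · rw [h1, hc]; exact mem_singleton_self a
    · rw [mem_filter]
      refine ⟨hl1 f, ?_⟩
      have := hl2 e f (Ne.symm h1)
      rwa [hc] at this
    · exact hl1 f
  · left
    rw [cf, mem_filter, Fintype.mem_piFinset]
    refine ⟨fun f => ?_, hl2⟩
    unfold Bm
    by_cases h1 : f = e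
    · subst h1
      rw [Function.update_self, mem_erase]
      exact ⟨hc, hl1 f⟩
    · rw [Function.update_of_ne h1]; exact hl1 f

lemma pow_aux {u c : ℝ} (hu : 0 ≤ u) (hc : 0 ≤ c) (r : ℕ) :
    u ^ (r + 1) + c * u ^ r ≤ (u + c) ^ (r + 1) := by
  have h1 : u ^ r ≤ (u + c) ^ r := pow_le_pow_left₀ hu (by linarith) r
  calc u ^ (r + 1) + c * u ^ r = (u + c) * u ^ r := by ring
    _ ≤ (u + c) * (u + c) ^ r := mul_le_mul_of_nonneg_left h1 (by linarith)
    _ = (u + c) ^ (r + 1) := by ring

/-- the supersaturation hypothesis -/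
def SS (R : ι → L → ι → L → Prop) (A : ι → Finset L) (g x0 : ℝ) (t : ℕ) : Prop :=
  ∀ S : Finset ι, Fintype.card ι ≤ S.card + t → ∀ B : ι → Finset L, (∀ e, (B e).Nonempty) →
    (∀ e ∈ S, B e ⊆ A e) → ∑ e ∈ S, Real.log ((A e).card / (B e).card) < x0 →
    ∃ e ∈ S, ∃ a ∈ B e,
      g ≤ ∑ f ∈ S.erase e, (((B f).filter fun m => R e a f m).card : ℝ) / (B f).card

lemma main (R : ι → L → ι → L → Prop) (A : ι → Finset L) (g x0 : ℝ) (t : ℕ) (hg : 0 < g)
    (hSS : SS R A g x0 t) (r : ℕ) : ∀ (n : ℕ) (S : Finset ι) (B : ι → Finset L) (x : ℝ),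
    ∑ e, (B e).card = n → x ≤ r * g → Fintype.card ι + r ≤ S.card + t → (∀ e ∈ S, B e ⊆ A e) →
    (∑ e ∈ S, Real.log ((A e).card / (B e).card) ≤ x0 - x) →
    ((cf R B).card : ℝ) ≤ Real.exp (-x) * (1 + ∑ e ∈ S, h (B e).card) ^ r
      * ∏ e, ((B e).card : ℝ) := by
  induction r with
  | zero =>
    intro n S B x hn hx _ _ _
    have hx' : x ≤ 0 := by simpa using hx
    have h1 := cf_card_le R B
    have h2 : (1 : ℝ) ≤ Real.exp (-x) := Real.one_le_exp (by linarith)
    have h3 : 0 ≤ ∏ e, ((B e).card : ℝ) := prod_nonneg fun _ _ => by positivity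
    rw [pow_zero, mul_one]
    nlinarith
  | succ r ih =>
    intro n
    induction n using Nat.strong_induction_on with
    | _ n ihn =>
    intro S B x hn hx hS hBA hlog
    have hP : 0 ≤ ∏ e, ((B e).card : ℝ) := prod_nonneg fun _ _ => by positivity
    have hH : (1 : ℝ) ≤ 1 + ∑ e ∈ S, h (B e).card := by
      have : 0 ≤ ∑ e ∈ S, h (B e).card := sum_nonneg fun _ _ => h_nonneg _
      linarith
    by_cases hne : ∀ e, (B e).Nonempty
    swap
    · push Not at hne
      obtain ⟨e, he⟩ := hne
      rw [cf_empty R B e (by simpa using he)]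
      push_cast
      positivity
    by_cases hx0 : x ≤ 0
    · have h1 := cf_card_le R B
      have h2 : (1 : ℝ) ≤ Real.exp (-x) := Real.one_le_exp (by linarith)
      have h3 : (1 : ℝ) ≤ (1 + ∑ e ∈ S, h (B e).card) ^ (r + 1) := one_le_pow₀ hH
      calc ((cf R B).card : ℝ) ≤ ∏ e, ((B e).card : ℝ) := h1
        _ = 1 * 1 * ∏ e, ((B e).card : ℝ) := by ring
        _ ≤ _ := by
          apply mul_le_mul_of_nonneg_right _ hP
          exact mul_le_mul h2 h3 (by norm_num) (by positivity)
    push Not at hx0
    obtain ⟨e, heS, a, haB, hdeg⟩ := hSS S (by omega) B hne hBA (by linarith)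
    -- the size of `B e`
    obtain ⟨b, hb⟩ : ∃ b, (B e).card = b + 1 :=
      ⟨(B e).card - 1, by have := (hne e).card_pos; omega⟩
    obtain ⟨Q, hQ⟩ : ∃ Q : ℝ, Q = ∏ f ∈ univ.erase e, ((B f).card : ℝ) := ⟨_, rfl⟩
    have hQ0 : 0 ≤ Q := by rw [hQ]; exact prod_nonneg fun _ _ => Nat.cast_nonneg _
    have hPQ : ∏ f, ((B f).card : ℝ) = ((b : ℝ) + 1) * Q := by
      rw [hQ, ← mul_prod_erase univ _ (mem_univ e), hb]; push_cast; ring
    set u : ℝ := 1 + ∑ f ∈ S, h (B f).card - 1 / ((b : ℝ) + 1) with hu
    have hu1 : 1 + ∑ f ∈ S.erase e, h (B f).card ≤ u := by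
      rw [hu, ← add_sum_erase S _ heS, hb, h_succ]
      have := h_nonneg b
      linarith
    have hu0 : 0 ≤ u := by
      have : 0 ≤ ∑ f ∈ S.erase e, h (B f).card := sum_nonneg fun _ _ => h_nonneg _
      linarith
    -- the `no` branch
    have hno : ((cf R (Bm B e a)).card : ℝ) ≤ Real.exp (-x) * u ^ (r + 1) * (((b : ℝ) + 1) * Q) := by
      rcases Nat.eq_zero_or_pos b with hb0 | hb0
      · rw [cf_empty R (Bm B e a) e (by
          unfold Bm; rw [Function.update_self, ← card_eq_zero, card_erase_of_mem haB, hb, hb0])]
        push_cast; positivity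
      · have hbr : (0 : ℝ) < b := by exact_mod_cast hb0
        have hcm : (Bm B e a e).card = b := by
          unfold Bm; rw [Function.update_self, card_erase_of_mem haB, hb]; rfl
        have hcf : ∀ f, f ≠ e → Bm B e a f = B f := fun f hf => by
          unfold Bm; rw [Function.update_of_ne hf]
        have hsum : ∑ f, (Bm B e a f).card < n := by
          rw [← hn]
          apply sum_lt_sum
          · intro f _
            by_cases hf : f = e
            · rw [hf, hcm, hb]; omega
            · rw [hcf f hf]
          · exact ⟨e, mem_univ e, by rw [hcm, hb]; omega⟩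
        have hlogb : 0 ≤ Real.log (((b : ℝ) + 1) / b) :=
          Real.log_nonneg (by rw [le_div_iff₀ hbr]; linarith)
        have hrec := ihn _ hsum S (Bm B e a) (x - Real.log (((b : ℝ) + 1) / b)) rfl
          (by linarith) hS (by
            intro f hf
            by_cases hfe : f = e
            · rw [hfe]; unfold Bm; rw [Function.update_self]
              exact (erase_subset _ _).trans (hBA e heS)
            · rw [hcf f hfe]; exact hBA f hf) (by
            have e1 : ∑ f ∈ S, Real.log ((A f).card / (Bm B e a f).card)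
                = ∑ f ∈ S, Real.log ((A f).card / (B f).card) + Real.log (((b : ℝ) + 1) / b) := by
              rw [← add_sum_erase S _ heS, ← add_sum_erase S (fun f => Real.log ((A f).card / (B f).card)) heS]
              have e2 : ∑ f ∈ S.erase e, Real.log ((A f).card / (Bm B e a f).card)
                  = ∑ f ∈ S.erase e, Real.log ((A f).card / (B f).card) :=
                sum_congr rfl fun f hf => by rw [hcf f (ne_of_mem_erase hf)]
              have hA : (0 : ℝ) < (A e).card := by
                have := card_le_card (hBA e heS)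
                have h2 : 0 < (A e).card := by omega
                exact_mod_cast h2
              rw [e2, hcm, hb, Real.log_div hA.ne' hbr.ne', Real.log_div hA.ne' (by positivity),
                Real.log_div (by positivity) hbr.ne']
              push_cast; ring
            rw [e1]; linarith)
        refine hrec.trans (le_of_eq ?_)
        have e3 : ∑ f ∈ S, h (Bm B e a f).card = ∑ f ∈ S, h (B f).card - 1 / ((b : ℝ) + 1) := by
          rw [← add_sum_erase S _ heS, ← add_sum_erase S (fun f => h (B f).card) heS]
          have e2 : ∑ f ∈ S.erase e, h (Bm B e a f).card = ∑ f ∈ S.erase e, h (B f).card :=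
            sum_congr rfl fun f hf => by rw [hcf f (ne_of_mem_erase hf)]
          rw [e2, hcm, hb, h_succ]; ring
        have e4 : ∏ f, ((Bm B e a f).card : ℝ) = b * Q := by
          rw [hQ, ← mul_prod_erase univ _ (mem_univ e), hcm]
          congr 1
          exact prod_congr rfl fun f hf => by rw [hcf f (ne_of_mem_erase hf)]
        have e5 : Real.exp (-(x - Real.log (((b : ℝ) + 1) / b)))
            = Real.exp (-x) * (((b : ℝ) + 1) / b) := by
          rw [neg_sub, sub_eq_neg_add, Real.exp_add, Real.exp_log (by positivity)]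
        rw [e3, e4, e5, hu]
        have e6 : 1 + (∑ f ∈ S, h (B f).card - 1 / ((b : ℝ) + 1))
            = 1 + ∑ f ∈ S, h (B f).card - 1 / ((b : ℝ) + 1) := by ring
        rw [e6]
        field_simp
    -- the `yes` branch
    have hyes : ((cf R (Bp R S B e a)).card : ℝ) ≤ Real.exp (-x) * u ^ r * Q := by
      have hBpe : Bp R S B e a e = {a} := by unfold Bp; rw [if_pos rfl]
      have hBpS : ∀ f ∈ S.erase e, Bp R S B e a f = (B f).filter (fun m => ¬ R e a f m) := by
        intro f hf
        unfold Bp; rw [if_neg (ne_of_mem_erase hf), if_pos (mem_of_mem_erase hf)]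
      have hBpN : ∀ f, f ≠ e → f ∉ S → Bp R S B e a f = B f := by
        intro f hf hfS
        unfold Bp; rw [if_neg hf, if_neg hfS]
      by_cases hemp : ∃ f, Bp R S B e a f = ∅
      · obtain ⟨f, hf⟩ := hemp
        rw [cf_empty R _ f hf]; push_cast; positivity
      push Not at hemp
      have hpos : ∀ f, (0 : ℝ) < (Bp R S B e a f).card := fun f => by
        have := (hemp f); exact_mod_cast this.card_pos
      have hposB : ∀ f, (0 : ℝ) < (B f).card := fun f => by exact_mod_cast (hne f).card_pos
      set G : ℝ := ∑ f ∈ S.erase e, Real.log ((B f).card / (Bp R S B e a f).card) with hG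
      have hGg : g ≤ G := by
        refine hdeg.trans (sum_le_sum fun f hf => ?_)
        have hc : ((B f).filter fun m => R e a f m).card + (Bp R S B e a f).card = (B f).card := by
          rw [hBpS f hf]; exact card_filter_add_card_filter_not _
        have hc' : (((B f).filter fun m => R e a f m).card : ℝ)
            = (B f).card - (Bp R S B e a f).card := by
          have := congrArg (Nat.cast : ℕ → ℝ) hc
          push_cast at this; linarith
        rw [hc']
        have h1 := Real.one_sub_inv_le_log_of_pos (div_pos (hposB f) (hpos f))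
        rw [inv_div] at h1
        refine le_trans (le_of_eq ?_) h1
        rw [sub_div, div_self (hposB f).ne']
      have hcard' : Fintype.card ι + r ≤ (S.erase e).card + t := by
        rw [card_erase_of_mem heS]
        have : 0 < S.card := card_pos.mpr ⟨e, heS⟩
        omega
      have hrec := ih _ (S.erase e) (Bp R S B e a) (x - G) rfl (by
          have : ((r + 1 : ℕ) : ℝ) * g = r * g + g := by push_cast; ring
          rw [this] at hx; linarith) hcard' (by
          intro f hf
          rw [hBpS f hf]
          exact (filter_subset _ _).trans (hBA f (mem_of_mem_erase hf))) (by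
          have e1 : ∑ f ∈ S.erase e, Real.log ((A f).card / (Bp R S B e a f).card)
              = ∑ f ∈ S.erase e, Real.log ((A f).card / (B f).card) + G := by
            rw [hG, ← sum_add_distrib]
            apply sum_congr rfl
            intro f hf
            have hA : (0 : ℝ) < (A f).card := by
              have := card_le_card (hBA f (mem_of_mem_erase hf))
              have h2 := (hne f).card_pos
              exact_mod_cast lt_of_lt_of_le h2 this
            rw [Real.log_div hA.ne' (hpos f).ne', Real.log_div hA.ne' (hposB f).ne',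
              Real.log_div (hposB f).ne' (hpos f).ne']
            ring
          have e2 : ∑ f ∈ S.erase e, Real.log ((A f).card / (B f).card)
              ≤ ∑ f ∈ S, Real.log ((A f).card / (B f).card) := by
            rw [← add_sum_erase S _ heS]
            have : 0 ≤ Real.log ((A e).card / (B e).card) := by
              apply Real.log_nonneg
              rw [le_div_iff₀ (hposB e), one_mul]
              exact_mod_cast card_le_card (hBA e heS)
            linarith
          rw [e1]; linarith)
      refine hrec.trans ?_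
      have e4 : ∏ f, ((Bp R S B e a f).card : ℝ) ≤ Q * Real.exp (-G) := by
        rw [← mul_prod_erase univ _ (mem_univ e), hBpe, card_singleton, Nat.cast_one, one_mul, hG,
          ← sum_neg_distrib, Real.exp_sum, hQ]
        have hsub : S.erase e ⊆ univ.erase e := erase_subset_erase _ (subset_univ S)
        rw [← prod_sdiff hsub, ← prod_sdiff hsub, mul_assoc]
        refine le_of_eq ?_
        congr 1
        · apply prod_congr rfl
          intro f hf
          rw [mem_sdiff] at hf
          have hfe : f ≠ e := ne_of_mem_erase hf.1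
          rw [hBpN f hfe (fun hfS => hf.2 (mem_erase.mpr ⟨hfe, hfS⟩))]
        · rw [← prod_mul_distrib]
          apply prod_congr rfl
          intro f _
          rw [← Real.log_inv, inv_div, Real.exp_log (div_pos (hpos f) (hposB f))]
          rw [mul_div_cancel₀ _ (hposB f).ne']
      have e5 : (1 + ∑ f ∈ S.erase e, h (Bp R S B e a f).card) ^ r ≤ u ^ r := by
        apply pow_le_pow_left₀
        · have : 0 ≤ ∑ f ∈ S.erase e, h (Bp R S B e a f).card := sum_nonneg fun _ _ => h_nonneg _
          linarith
        · refine le_trans ?_ hu1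
          have : ∑ f ∈ S.erase e, h (Bp R S B e a f).card ≤ ∑ f ∈ S.erase e, h (B f).card := by
            apply sum_le_sum
            intro f hf
            rw [hBpS f hf]
            exact h_mono (card_le_card (filter_subset _ _))
          linarith
      calc Real.exp (-(x - G)) * (1 + ∑ f ∈ S.erase e, h (Bp R S B e a f).card) ^ r
            * ∏ f, ((Bp R S B e a f).card : ℝ)
          ≤ Real.exp (-(x - G)) * u ^ r * (Q * Real.exp (-G)) := by
            apply mul_le_mul _ e4 (prod_nonneg fun _ _ => by positivity) (by positivity)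
            exact mul_le_mul_of_nonneg_left e5 (Real.exp_nonneg _)
        _ = (Real.exp (-(x - G)) * Real.exp (-G)) * u ^ r * Q := by ring
        _ = Real.exp (-x) * u ^ r * Q := by
            rw [← Real.exp_add]; congr 3; ring
    have hsplit : ((cf R B).card : ℝ) ≤ (cf R (Bm B e a)).card + (cf R (Bp R S B e a)).card := by
      exact_mod_cast cf_split R S B e a
    have hb1 : (0 : ℝ) < (b : ℝ) + 1 := by positivity
    have hfin := pow_aux hu0 (c := 1 / ((b : ℝ) + 1)) (by positivity) r
    have hu2 : u + 1 / ((b : ℝ) + 1) = 1 + ∑ f ∈ S, h (B f).card := by rw [hu]; ring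
    rw [hu2] at hfin
    calc ((cf R B).card : ℝ) ≤ Real.exp (-x) * u ^ (r + 1) * (((b : ℝ) + 1) * Q)
          + Real.exp (-x) * u ^ r * Q := hsplit.trans (add_le_add hno hyes)
      _ = Real.exp (-x) * (u ^ (r + 1) + 1 / ((b : ℝ) + 1) * u ^ r) * (((b : ℝ) + 1) * Q) := by
          field_simp
      _ ≤ Real.exp (-x) * (1 + ∑ f ∈ S, h (B f).card) ^ (r + 1) * (((b : ℝ) + 1) * Q) := by
          apply mul_le_mul_of_nonneg_right _ (by positivity)
          exact mul_le_mul_of_nonneg_left hfin (Real.exp_nonneg _)
      _ = _ := by rw [hPQ]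

/-- **(L1) container count.** -/
theorem container (R : ι → L → ι → L → Prop) (A : ι → Finset L) (g x0 : ℝ) (t a : ℕ) (hg : 0 < g)
    (hx0 : x0 ≤ t * g) (hA : ∀ e, (A e).card ≤ a) (ha : 1 ≤ a) (hSS : SS R A g x0 t) :
    ((cf R A).card : ℝ) ≤ Real.exp (-x0) * (1 + Fintype.card ι * (1 + Real.log a)) ^ t
      * ∏ e, ((A e).card : ℝ) := by
  have h1 := main R A g x0 t hg hSS t _ univ A x0 rfl hx0 (by rw [card_univ]) (fun _ _ => le_rfl) (by
    rw [sub_self]
    apply sum_nonpos
    intro e _
    by_cases h0 : ((A e).card : ℝ) = 0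
    · rw [h0]; simp
    · rw [div_self h0, Real.log_one])
  refine h1.trans ?_
  apply mul_le_mul_of_nonneg_right _ (prod_nonneg fun _ _ => by positivity)
  apply mul_le_mul_of_nonneg_left _ (Real.exp_nonneg _)
  apply pow_le_pow_left₀
  · have : 0 ≤ ∑ e, h (A e).card := sum_nonneg fun _ _ => h_nonneg _
    linarith
  · have : ∑ e, h (A e).card ≤ ∑ _e : ι, (1 + Real.log a) := by
      apply sum_le_sum
      intro e _
      exact (h_mono (hA e)).trans (h_le a ha)
    rw [sum_const, card_univ, nsmul_eq_mul] at this
    linarith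

end Crest.Agent.R042.Cont767
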