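import Crest.Agent.R042.Step_477

/-!
# Row 42 (S0059, Plan B): COR + LI in the letters of helper477

`Dep u ω` = the blocks whose rows meet the span of the earlier rows.  The rows of the other blocks
are linearly independent (`li_compl`), and few blocks are dependent (`cor`).
-/

set_option autoImplicit false

namespace Crest.Agent.R042.Cor420

open Finset Function Seq477 Step477
open scoped Classical

noncomputable section

variable {F W Ω : Type*} [Field F] [AddCommGroup W] [Module F W]

/-- the span of the rows of the blocks before `k` -/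
def prevSpan (F : Type*) [Field F] {W : Type*} [AddCommGroup W] [Module F W]
    (u : Ω → Bool → W) {b : ℕ} (ω : Fin b → Ω) (k : Fin b) : Submodule F W :=
  Submodule.span F {w | ∃ l < k, ∃ j, w = u (ω l) j}

/-- the dependent blocks -/
def Dep (F : Type*) [Field F] {W : Type*} [AddCommGroup W] [Module F W]
    (u : Ω → Bool → W) {b : ℕ} (ω : Fin b → Ω) : Finset (Fin b) :=
  univ.filter (fun k => ∃ α : Bool → F, α ≠ 0 ∧ ∑ j, α j • u (ω k) j ∈
    Submodule.span F {w | ∃ l < k, ∃ j, w = u (ω l) j})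

/-- **LI**: the rows of the non dependent blocks are independent -/
theorem li_compl (u : Ω → Bool → W) {b : ℕ} (ω : Fin b → Ω) :
    LinearIndependent F (fun p : {p : Fin b × Bool // p.1 ∉ Dep F u ω} => u (ω p.1.1) p.1.2) := by
  rw [Fintype.linearIndependent_iff]
  intro g hg
  by_contra hcon
  push Not at hcon
  -- extend by zero
  let G : Fin b → Bool → F := fun l j =>
    if h : l ∉ Dep F u ω then g ⟨(l, j), h⟩ else 0
  have hG0 : ∑ l, ∑ j, G l j • u (ω l) j = 0 := by
    rw [← Fintype.sum_prod_type' (f := fun l j => G l j • u (ω l) j)]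
    rw [← hg]
    have h1 : ∑ x : Fin b × Bool, G x.1 x.2 • u (ω x.1) x.2 =
        ∑ x ∈ univ.filter (fun x : Fin b × Bool => x.1 ∉ Dep F u ω),
          G x.1 x.2 • u (ω x.1) x.2 := by
      symm
      refine Finset.sum_subset (Finset.filter_subset _ _) ?_
      intro x _ hx
      have h2 : ¬ (x.1 ∉ Dep F u ω) := by
        intro h; exact hx (Finset.mem_filter.2 ⟨mem_univ _, h⟩)
      simp only [G, dif_neg h2, zero_smul]
    rw [h1, ← Finset.sum_subtype_eq_sum_filter]
    rw [Finset.subtype_univ]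
    refine Finset.sum_congr rfl fun p _ => ?_
    have h3 : p.1.1 ∉ Dep F u ω := p.2
    simp only [G, dif_pos h3]
  -- the last block with a nonzero coefficient
  let T : Finset (Fin b) := univ.filter fun l => ∃ j, G l j ≠ 0
  have hT : T.Nonempty := by
    obtain ⟨p, hp⟩ := hcon
    refine ⟨p.1.1, Finset.mem_filter.2 ⟨mem_univ _, p.1.2, ?_⟩⟩
    have h3 : p.1.1 ∉ Dep F u ω := p.2
    simp only [G, dif_pos h3]
    exact hp
  let l0 := T.max' hT
  have hl0 : l0 ∈ T := T.max'_mem hT
  obtain ⟨j0, hj0⟩ := (Finset.mem_filter.1 hl0).2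
  have hnd : l0 ∉ Dep F u ω := by
    intro h
    apply hj0
    simp only [G, dif_neg (not_not.2 h)]
  apply hnd
  refine Finset.mem_filter.2 ⟨mem_univ _, G l0, ?_, ?_⟩
  · intro h; exact hj0 (congrFun h j0)
  · have h4 : ∑ j, G l0 j • u (ω l0) j = - ∑ l ∈ univ.erase l0, ∑ j, G l j • u (ω l) j := by
      rw [eq_neg_iff_add_eq_zero,
        Finset.add_sum_erase univ (fun l => ∑ j, G l j • u (ω l) j) (mem_univ l0)]
      exact hG0
    rw [h4]
    refine Submodule.neg_mem _ (Submodule.sum_mem _ fun l hl => ?_)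
    by_cases hlt : l < l0
    · exact Submodule.sum_mem _ fun j _ =>
        Submodule.smul_mem _ _ (Submodule.subset_span ⟨l, hlt, j, rfl⟩)
    · have hgt : l0 < l := lt_of_le_of_ne (not_lt.1 hlt) (Ne.symm (Finset.ne_of_mem_erase hl))
      have hlT : l ∉ T := fun h => absurd (T.le_max' l h) (not_le.2 hgt)
      have h5 : ∀ j, G l j = 0 := by
        intro j
        by_contra h
        exact hlT (Finset.mem_filter.2 ⟨mem_univ _, j, h⟩)
      have h6 : ∑ j, G l j • u (ω l) j = 0 :=
        Finset.sum_eq_zero fun j _ => by rw [h5 j, zero_smul]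
      rw [h6]
      exact Submodule.zero_mem _

/-- the combination of the earlier rows with coefficients `p` -/
def comb (u : Ω → Bool → W) {b : ℕ} (ω : Fin b → Ω) (k : Fin b) (p : Fin b → Bool → F) : W :=
  ∑ l, if l < k then ∑ j, p l j • u (ω l) j else 0

theorem exists_comb (u : Ω → Bool → W) {b : ℕ} (ω : Fin b → Ω) (k : Fin b) (y : W)
    (hy : y ∈ Submodule.span F {w | ∃ l < k, ∃ j, w = u (ω l) j}) :
    ∃ p : Fin b → Bool → F, y = comb u ω k p := by
  induction hy using Submodule.span_induction with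
  | mem y hy =>
    obtain ⟨l, hl, j, rfl⟩ := hy
    refine ⟨fun l' j' => if l' = l ∧ j' = j then 1 else 0, ?_⟩
    unfold comb
    rw [Finset.sum_eq_single l]
    · rw [if_pos hl, Finset.sum_eq_single j]
      · simp
      · intro j' _ hj'; simp [hj']
      · intro h; exact absurd (mem_univ _) h
    · intro l' _ hl'; simp [hl']
    · intro h; exact absurd (mem_univ _) h
  | zero => exact ⟨fun _ _ => 0, by unfold comb; simp⟩
  | add y z _ _ h1 h2 =>
    obtain ⟨p, hp⟩ := h1
    obtain ⟨r, hr⟩ := h2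
    refine ⟨fun l j => p l j + r l j, ?_⟩
    rw [hp, hr]
    unfold comb
    rw [← Finset.sum_add_distrib]
    refine Finset.sum_congr rfl fun l _ => ?_
    split_ifs
    · rw [← Finset.sum_add_distrib]
      exact Finset.sum_congr rfl fun j _ => by rw [add_smul]
    · simp
  | smul c y _ h1 =>
    obtain ⟨p, hp⟩ := h1
    refine ⟨fun l j => c * p l j, ?_⟩
    rw [hp]
    unfold comb
    rw [Finset.smul_sum]
    refine Finset.sum_congr rfl fun l _ => ?_
    split_ifs
    · rw [Finset.smul_sum]
      exact Finset.sum_congr rfl fun j _ => by rw [mul_smul]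
    · simp

theorem comb_update (u : Ω → Bool → W) {b : ℕ} (ω : Fin b → Ω) (k i : Fin b) (hki : k ≤ i) (x : Ω)
    (p : Fin b → Bool → F) : comb u (update ω i x) k p = comb u ω k p := by
  unfold comb
  refine Finset.sum_congr rfl fun l _ => ?_
  split_ifs with h
  · have hne : l ≠ i := (lt_of_lt_of_le h hki).ne
    rw [update_of_ne hne]
  · rfl

variable [Fintype Ω] {τ : Ω → ℝ} {u : Ω → Bool → W} {D : Ω → Bool → Submodule F W} {δ : ℝ}

theorem Law.delta_nonneg (H : Law τ u D δ) : 0 ≤ δ :=
  (pr_nonneg H.nonneg _).trans (H.t1 0 (fun _ => 1) (by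
    intro h; have := congrFun h true; simp at this))

/-- the event of one pattern -/
def Pat (u : Ω → Bool → W) {b h : ℕ} (κ : Fin h → Fin b) (α : Fin h → Bool → F)
    (p : Fin h → Fin b → Bool → F) (r : Fin h) (ω : Fin b → Ω) : Prop :=
  α r ≠ 0 ∧ ∑ j, α r j • u (ω (κ r)) j = comb u ω (κ r) (p r)

theorem pat_bound (H : Law τ u D δ) {b h : ℕ} (κ : Fin h → Fin b) (hκ : StrictMono κ)
    (α : Fin h → Bool → F) (p : Fin h → Fin b → Bool → F) :
    Ex τ (fun ω : Fin b → Ω => ind (∀ r, Pat u κ α p r ω)) ≤ δ ^ h := by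
  refine seq_bound H.nonneg H.sum_one δ (Law.delta_nonneg H) h κ κ
    (fun r ω => Pat u κ α p r ω) ?_ ?_
  · intro r t hrt ω x
    have hlt : κ r < κ t := hκ hrt
    have h2 : ∀ inst : DecidableEq (Fin b),
        Pat u κ α p r (@update (Fin b) (fun _ => Ω) inst ω (κ t) x) ↔ Pat u κ α p r ω := by
      intro inst
      have hi : inst = instDecidableEqFin b := Subsingleton.elim _ _
      subst hi
      unfold Pat
      rw [update_of_ne hlt.ne, comb_update u ω (κ r) (κ t) hlt.le x (p r)]
    exact ⟨h2 _, h2 _⟩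
  · intro r ω
    have h1 : ∀ (inst : DecidableEq (Fin b)) (x y : Ω), Pat u κ α p r
        (@update (Fin b) (fun _ => Ω) inst (@update (Fin b) (fun _ => Ω) inst ω (κ r) x) (κ r) y) ↔
        (α r ≠ 0 ∧ ∑ j, α r j • u y j = comb u ω (κ r) (p r)) := by
      intro inst x y
      have hi : inst = instDecidableEqFin b := Subsingleton.elim _ _
      subst hi
      rw [update_idem]
      unfold Pat
      rw [update_self, comb_update u ω (κ r) (κ r) le_rfl y (p r)]
    simp only [h1]
    rw [← Finset.sum_mul, H.sum_one, one_mul]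
    by_cases hα : α r = 0
    · have : ∑ y, τ y * ind (α r ≠ 0 ∧ ∑ j, α r j • u y j = comb u ω (κ r) (p r)) = 0 := by
        refine Finset.sum_eq_zero fun y _ => ?_
        rw [ind_false, mul_zero]
        rintro ⟨h, -⟩; exact h hα
      rw [this]; exact Law.delta_nonneg H
    · refine le_trans ?_ (H.t1 (comb u ω (κ r) (p r)) (α r) hα)
      exact pr_mono H.nonneg fun y hy => hy.2

/-- **COR** -/
theorem cor [Fintype F] (H : Law τ u D δ) (b h : ℕ) :
    Ex τ (fun ω : Fin b → Ω => ind (h ≤ (Dep F u ω).card)) ≤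
      (Fintype.card ((Fin h → Fin b) × (Fin h → Bool → F) × (Fin h → Fin b → Bool → F)) : ℝ)
        * δ ^ h := by
  have h1 : ∀ ω : Fin b → Ω, ind (h ≤ (Dep F u ω).card) ≤
      ∑ t ∈ (univ : Finset ((Fin h → Fin b) × (Fin h → Bool → F) × (Fin h → Fin b → Bool → F))),
        ind (StrictMono t.1 ∧ ∀ r, Pat u t.1 t.2.1 t.2.2 r ω) := by
    intro ω
    by_cases hω : h ≤ (Dep F u ω).card
    · obtain ⟨S, hS, hSc⟩ := Finset.exists_subset_card_eq hω
      let κ : Fin h ↪o Fin b := S.orderEmbOfFin hSc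
      have hmem : ∀ r, κ r ∈ Dep F u ω := fun r => hS (S.orderEmbOfFin_mem hSc r)
      have hch : ∀ r, ∃ α : Bool → F, α ≠ 0 ∧ ∃ p : Fin b → Bool → F,
          ∑ j, α j • u (ω (κ r)) j = comb u ω (κ r) p := by
        intro r
        have hr := hmem r
        simp only [Dep, Finset.mem_filter, Finset.mem_univ, true_and] at hr
        obtain ⟨α, hα, hsp⟩ := hr
        obtain ⟨p, hp⟩ := exists_comb u ω (κ r) _ hsp
        exact ⟨α, hα, p, hp⟩
      choose α hα p hp using hch
      have hle := Finset.single_le_sum (f := fun t : (Fin h → Fin b) × (Fin h → Bool → F) ×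
        (Fin h → Fin b → Bool → F) => ind (StrictMono t.1 ∧ ∀ r, Pat u t.1 t.2.1 t.2.2 r ω))
        (fun t _ => ind_nonneg _) (mem_univ ((fun r => κ r), α, p))
      refine le_trans ?_ hle
      rw [ind_true hω, ind_true]
      exact ⟨κ.strictMono, fun r => ⟨hα r, hp r⟩⟩
    · rw [ind_false hω]
      exact Finset.sum_nonneg fun t _ => ind_nonneg _
  refine (Ex_mono H.nonneg h1).trans ?_
  rw [Ex_sum]
  have h2 : ∀ t ∈ (univ : Finset ((Fin h → Fin b) × (Fin h → Bool → F) ×
      (Fin h → Fin b → Bool → F))),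
      Ex τ (fun ω : Fin b → Ω => ind (StrictMono t.1 ∧ ∀ r, Pat u t.1 t.2.1 t.2.2 r ω)) ≤
        δ ^ h := by
    intro t _
    by_cases ht : StrictMono t.1
    · refine le_trans (Ex_mono H.nonneg fun ω => ind_mono fun hh => hh.2) ?_
      exact pat_bound H t.1 ht t.2.1 t.2.2
    · have h3 : Ex τ (fun ω : Fin b → Ω => ind (StrictMono t.1 ∧
          ∀ r, Pat u t.1 t.2.1 t.2.2 r ω)) = 0 := by
        unfold Ex
        refine Finset.sum_eq_zero fun ω _ => ?_
        have h4 : ind (StrictMono t.1 ∧ ∀ r, Pat u t.1 t.2.1 t.2.2 r ω) = 0 :=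
          ind_false fun hh => ht hh.1
        simp only [h4, mul_zero]
      rw [h3]
      exact pow_nonneg (Law.delta_nonneg H) h
  refine (Finset.sum_le_sum h2).trans ?_
  rw [Finset.sum_const, Finset.card_univ, nsmul_eq_mul]

end

end Crest.Agent.R042.Cor420
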