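import Mathlib
import Crest.Agent.R042.Menger_353

/-! Row 42, sec 03 of S0058: list colourings of `G[W]`, bad instances, critical pairs and their
connectivity. Everything takes place inside a finite vertex set `W` of an arbitrary type. -/

set_option autoImplicit false
set_option linter.unusedSectionVars false
set_option linter.unusedDecidableInType false

namespace Crest.Agent.R042.Crit872

open Finset Crest.Agent.R042.Menger353
open scoped Classical

variable {V : Type*} [DecidableEq V]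

/-- `c` is proper on `W`. -/
def PropOn (G : SimpleGraph V) (W : Finset V) (c : V → ℕ) : Prop :=
  ∀ u ∈ W, ∀ v ∈ W, G.Adj u v → c u ≠ c v

/-- `G[W]` is colourable from the lists `L`. -/
def LCol (G : SimpleGraph V) (W : Finset V) (L : V → Finset ℕ) : Prop :=
  ∃ c : V → ℕ, (∀ v ∈ W, c v ∈ L v) ∧ PropOn G W c

/-- `G[W]` is `k`-choosable. -/
def Choos (G : SimpleGraph V) (W : Finset V) (k : ℕ) : Prop :=
  ∀ L : V → Finset ℕ, (∀ v ∈ W, k ≤ (L v).card) → LCol G W L

/-- the colouring `f` of `Z` extends to `W` with colours from `L` outside `Z`. -/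
def Ext (G : SimpleGraph V) (W Z : Finset V) (L : V → Finset ℕ) (f : V → ℕ) : Prop :=
  ∃ c : V → ℕ, (∀ z ∈ Z, c z = f z) ∧ (∀ v ∈ W, v ∉ Z → c v ∈ L v) ∧ PropOn G W c

/-- bad instance. -/
structure Bad (G : SimpleGraph V) (k th : ℕ) (W Z : Finset V) (L : V → Finset ℕ) (f : V → ℕ) :
    Prop where
  sub : Z ⊆ W
  card : Z.card ≤ 2 * th
  lists : ∀ v ∈ W, v ∉ Z → k ≤ (L v).card
  proper : PropOn G Z f
  noExt : ¬ Ext G W Z L f

/-- `(G[W], Z)` is `(k,th)`-critical. -/
def Crit (G : SimpleGraph V) (k th : ℕ) (W Z : Finset V) : Prop :=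
  (∃ L f, Bad G k th W Z L f) ∧ ∀ W', W' ⊂ W → ∀ Z' L' f', ¬ Bad G k th W' Z' L' f'

variable {G : SimpleGraph V} {W W' Z A B Q U : Finset V} {k m t th : ℕ}
  {L : V → Finset ℕ} {c f : V → ℕ}

/-! ### API of `PropOn`, `LCol`, `Choos` -/

lemma PropOn.mono (h : PropOn G W c) (hs : W' ⊆ W) : PropOn G W' c :=
  fun u hu v hv => h u (hs hu) v (hs hv)

lemma PropOn.congr (h : PropOn G W c) (he : ∀ v ∈ W, f v = c v) : PropOn G W f := by
  intro u hu v hv huv
  rw [he u hu, he v hv]
  exact h u hu v hv huv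

/-- THE extension lemma: a proper colouring of `U` extends to `U ∪ Q` from lists which exceed
`m` by the number of neighbours in `U`, if `G[Q]` is `m`-choosable. -/
theorem extend (hU : PropOn G U c) (hQ : Choos G Q m) (_hd : Disjoint U Q)
    (hL : ∀ v ∈ Q, m + (U.filter (G.Adj v)).card ≤ (L v).card) :
    ∃ c' : V → ℕ, (∀ u, u ∉ Q → c' u = c u) ∧ (∀ v ∈ Q, c' v ∈ L v) ∧ PropOn G (U ∪ Q) c' := by
  obtain ⟨e, he, hp⟩ := hQ (fun v => L v \ ((U.filter (G.Adj v)).image c)) (by
    intro v hv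
    have h1 := Finset.le_card_sdiff ((U.filter (G.Adj v)).image c) (L v)
    have h2 : ((U.filter (G.Adj v)).image c).card ≤ (U.filter (G.Adj v)).card :=
      Finset.card_image_le
    have h3 := hL v hv
    omega)
  refine ⟨fun v => if v ∈ Q then e v else c v, ?_, ?_, ?_⟩
  · intro u hu
    simp [hu]
  · intro v hv
    have := he v hv
    simp only [hv, if_true]
    exact (Finset.mem_sdiff.1 this).1
  · intro u hu v hv huv
    have key : ∀ x ∈ Q, ∀ y ∈ U, G.Adj x y → e x ≠ c y := by
      intro x hx y hy hxy hxe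
      have := (Finset.mem_sdiff.1 (he x hx)).2
      exact this (Finset.mem_image.2 ⟨y, Finset.mem_filter.2 ⟨hy, hxy⟩, hxe.symm⟩)
    have hUQ : ∀ x ∈ U ∪ Q, x ∉ Q → x ∈ U := by
      intro x hx hxQ
      rcases Finset.mem_union.1 hx with h | h
      · exact h
      · exact absurd h hxQ
    by_cases h1 : u ∈ Q <;> by_cases h2 : v ∈ Q
    · simp only [h1, h2, if_true]
      exact hp u h1 v h2 huv
    · simp only [h1, h2, if_true, if_false]
      exact key u h1 v (hUQ v hv h2) huv
    · simp only [h1, h2, if_true, if_false]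
      exact (key v h2 u (hUQ u hu h1) huv.symm).symm
    · simp only [h1, h2, if_false]
      exact hU u (hUQ u hu h1) v (hUQ v hv h2) huv

lemma Choos.mono_k (h : Choos G W k) (hk : k ≤ m) : Choos G W m :=
  fun L hL => h L (fun v hv => hk.trans (hL v hv))

lemma Choos.mono (h : Choos G W k) (hs : W' ⊆ W) : Choos G W' k := by
  intro L hL
  obtain ⟨c, hc, hp⟩ := h (fun v => if v ∈ W' then L v else Finset.range k) (by
    intro v _
    by_cases hv : v ∈ W'
    · simpa [hv] using hL v hv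
    · simp [hv])
  refine ⟨c, ?_, hp.mono hs⟩
  intro v hv
  have := hc v (hs hv)
  simpa [hv] using this

lemma choos_empty : Choos G (∅ : Finset V) k :=
  fun _ _ => ⟨fun _ => 0, by simp, by intro u hu; simp at hu⟩

lemma choos_singleton (v : V) (hk : 1 ≤ k) : Choos G ({v} : Finset V) k := by
  intro L hL
  have h1 : (L v).Nonempty := Finset.card_pos.1 (by
    have := hL v (Finset.mem_singleton_self v)
    omega)
  obtain ⟨a, ha⟩ := h1
  refine ⟨fun _ => a, ?_, ?_⟩
  · intro u hu
    rw [Finset.mem_singleton.1 hu]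
    exact ha
  · intro u hu w hw huw
    rw [Finset.mem_singleton.1 hu, Finset.mem_singleton.1 hw] at huw
    exact absurd huw (G.loopless.irrefl v)

/-- union with bounded back degree. -/
lemma Choos.union (hU : Choos G U k) (hQ : Choos G Q m)
    (ht : ∀ v ∈ Q, v ∉ U → (U.filter (G.Adj v)).card ≤ t) (hk : m + t ≤ k) :
    Choos G (U ∪ Q) k := by
  intro L hL
  obtain ⟨c, hc, hp⟩ := hU L (fun v hv => hL v (Finset.mem_union_left _ hv))
  have hd : Disjoint U (Q \ U) := Finset.disjoint_sdiff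
  obtain ⟨c', h1, h2, h3⟩ := extend (L := L) hp (hQ.mono Finset.sdiff_subset) hd (by
    intro v hv
    obtain ⟨hvQ, hvU⟩ := Finset.mem_sdiff.1 hv
    have h4 := ht v hvQ hvU
    have h5 := hL v (Finset.mem_union_right _ hvQ)
    omega)
  refine ⟨c', ?_, ?_⟩
  · intro v hv
    by_cases hvU : v ∈ U
    · rw [h1 v (by simp [hvU])]
      exact hc v hvU
    · rcases Finset.mem_union.1 hv with h | h
      · exact absurd h hvU
      · exact h2 v (Finset.mem_sdiff.2 ⟨h, hvU⟩)
  · rw [Finset.union_sdiff_self_eq_union] at h3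
    exact h3

/-- disjoint union without edges in between. -/
lemma Choos.union_nadj (hU : Choos G U k) (hQ : Choos G Q k)
    (hn : ∀ u ∈ U, ∀ v ∈ Q, v ∉ U → ¬ G.Adj v u) : Choos G (U ∪ Q) k := by
  refine Choos.union (t := 0) hU hQ ?_ (by omega)
  intro v hv hvU
  rw [Nat.le_zero, Finset.card_eq_zero, Finset.filter_eq_empty_iff]
  intro u hu
  exact hn u hu v hv hvU

/-- `d`-degenerate graphs are `d+1`-choosable. -/
theorem choos_of_degenerate (d : ℕ) (h : ∀ X ⊆ W, X.Nonempty →
    ∃ x ∈ X, (X.filter (G.Adj x)).card ≤ d) : Choos G W (d + 1) := by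
  induction hn : W.card using Nat.strong_induction_on generalizing W with
  | _ n ih =>
    rcases W.eq_empty_or_nonempty with rfl | hW
    · exact choos_empty
    · obtain ⟨x, hx, hxd⟩ := h W (Finset.Subset.refl _) hW
      have h1 : Choos G (W.erase x) (d + 1) :=
        ih (W.erase x).card (by rw [← hn]; exact Finset.card_erase_lt_of_mem hx)
          (fun X hX hXn => h X (hX.trans (Finset.erase_subset _ _)) hXn) rfl
      have h2 : Choos G (W.erase x ∪ {x}) (d + 1) := by
        refine Choos.union (m := 1) (t := d) h1 (choos_singleton x le_rfl) ?_ (by omega)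
        intro v hv _
        rw [Finset.mem_singleton.1 hv]
        exact (Finset.card_le_card (Finset.filter_subset_filter _ (Finset.erase_subset _ _))).trans
          hxd
      have h3 : W.erase x ∪ {x} = W := by
        ext y
        simp only [Finset.mem_union, Finset.mem_erase, Finset.mem_singleton]
        constructor
        · rintro (⟨_, h⟩ | h)
          · exact h
          · rw [h]; exact hx
        · intro hy
          by_cases hyx : y = x
          · exact Or.inr hyx
          · exact Or.inl ⟨hyx, hy⟩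
      rwa [h3] at h2

/-- a set of fewer than or exactly `k` vertices is `k`-choosable. -/
lemma choos_of_card (h : W.card ≤ k) : Choos G W k := by
  rcases W.eq_empty_or_nonempty with rfl | hW
  · exact choos_empty
  · have hpos := Finset.card_pos.2 hW
    have : Choos G W ((W.card - 1) + 1) := by
      refine choos_of_degenerate _ ?_
      intro X hX hXn
      obtain ⟨x, hx⟩ := hXn
      refine ⟨x, hx, ?_⟩
      have h1 : X.filter (G.Adj x) ⊆ W.erase x := by
        intro y hy
        obtain ⟨hyX, hxy⟩ := Finset.mem_filter.1 hy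
        exact Finset.mem_erase.2 ⟨hxy.ne', hX hyX⟩
      calc (X.filter (G.Adj x)).card ≤ (W.erase x).card := Finset.card_le_card h1
        _ = W.card - 1 := Finset.card_erase_of_mem (hX hx)
    exact this.mono_k (by omega)

/-! ### critical pairs -/

lemma Bad.ext_of_not (hs : Z ⊆ W) (hc : Z.card ≤ 2 * th)
    (hl : ∀ v ∈ W, v ∉ Z → k ≤ (L v).card) (hp : PropOn G Z f)
    (h : ¬ Bad G k th W Z L f) : Ext G W Z L f := by
  by_contra hne
  exact h ⟨hs, hc, hl, hp, hne⟩

theorem exists_crit_of_bad (h : ∃ Z L f, Bad G k th W Z L f) :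
    ∃ H ⊆ W, ∃ Z, Crit G k th H Z := by
  induction hn : W.card using Nat.strong_induction_on generalizing W with
  | _ n ih =>
    by_cases hmin : ∃ W', W' ⊂ W ∧ ∃ Z' L' f', Bad G k th W' Z' L' f'
    · obtain ⟨W', hW', hbad⟩ := hmin
      obtain ⟨H, hH, Z, hZ⟩ := ih W'.card (by rw [← hn]; exact Finset.card_lt_card hW') hbad rfl
      exact ⟨H, hH.trans hW'.subset, Z, hZ⟩
    · obtain ⟨Z, L, f, hb⟩ := h
      refine ⟨W, Finset.Subset.refl _, Z, ⟨L, f, hb⟩, ?_⟩
      intro W' hW' Z' L' f' hb'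
      exact hmin ⟨W', hW', Z', L', f', hb'⟩

/-- EXISTENCE: if `G[W]` is not `k`-choosable it contains a `(k,th)`-critical pair. -/
theorem exists_crit (th : ℕ) (h : ¬ Choos G W k) : ∃ H ⊆ W, ∃ Z, Crit G k th H Z := by
  unfold Choos at h
  push Not at h
  obtain ⟨L, hL, hn⟩ := h
  refine exists_crit_of_bad ⟨∅, L, fun _ => 0, ⟨by simp, by simp, fun v hv _ => hL v hv,
    by intro u hu; simp at hu, ?_⟩⟩
  rintro ⟨c, -, h2, h3⟩
  exact hn ⟨c, fun v hv => h2 v hv (by simp), h3⟩

lemma Crit.sub (h : Crit G k th W Z) : Z ⊆ W := by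
  obtain ⟨⟨L, f, hb⟩, -⟩ := h
  exact hb.sub

lemma Crit.card (h : Crit G k th W Z) : Z.card ≤ 2 * th := by
  obtain ⟨⟨L, f, hb⟩, -⟩ := h
  exact hb.card

/-- FACT: a nonempty set `Q` outside `Z` all of whose vertices have at most `t` neighbours in
`W - Z - Q` has choosability `> k - |Z| - t`. -/
theorem Crit.fact (h : Crit G k th W Z) (hQ : Q ⊆ W \ Z) (hne : Q.Nonempty)
    (ht : ∀ v ∈ Q, (((W \ Z) \ Q).filter (G.Adj v)).card ≤ t) :
    ¬ Choos G Q (k - Z.card - t) := by
  intro hch
  obtain ⟨⟨L, f, hb⟩, hmin⟩ := h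
  have hss : W \ Q ⊂ W := by
    obtain ⟨q, hq⟩ := hne
    refine Finset.ssubset_iff_subset_ne.2 ⟨Finset.sdiff_subset, ?_⟩
    intro he
    have : q ∈ W \ Q := by rw [he]; exact (Finset.mem_sdiff.1 (hQ hq)).1
    exact (Finset.mem_sdiff.1 this).2 hq
  have hZQ : Z ⊆ W \ Q := by
    intro z hz
    exact Finset.mem_sdiff.2 ⟨hb.sub hz, fun hzQ => (Finset.mem_sdiff.1 (hQ hzQ)).2 hz⟩
  obtain ⟨c, h1, h2, h3⟩ := Bad.ext_of_not (L := L) hZQ hb.card
    (fun v hv hvZ => hb.lists v (Finset.mem_sdiff.1 hv).1 hvZ) hb.proper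
    (hmin (W \ Q) hss Z L f)
  obtain ⟨c', g1, g2, g3⟩ := extend (L := L) (U := W \ Q) (Q := Q) h3 hch
    Finset.sdiff_disjoint (by
      intro v hv
      have hvW := Finset.mem_sdiff.1 (hQ hv)
      have e1 := hb.lists v hvW.1 hvW.2
      have e2 := ht v hv
      have e3 : (W \ Q).filter (G.Adj v) ⊆ Z ∪ ((W \ Z) \ Q).filter (G.Adj v) := by
        intro x hx
        obtain ⟨hx1, hx2⟩ := Finset.mem_filter.1 hx
        obtain ⟨hx3, hx4⟩ := Finset.mem_sdiff.1 hx1
        by_cases hxZ : x ∈ Z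
        · exact Finset.mem_union_left _ hxZ
        · exact Finset.mem_union_right _ (Finset.mem_filter.2
            ⟨Finset.mem_sdiff.2 ⟨Finset.mem_sdiff.2 ⟨hx3, hxZ⟩, hx4⟩, hx2⟩)
      have e4 := (Finset.card_le_card e3).trans (Finset.card_union_le _ _)
      by_cases hk : Z.card + t ≤ k
      · omega
      · -- then `k - |Z| - t = 0`, but `Q` nonempty is not `0`-choosable
        exfalso
        have h0 : k - Z.card - t = 0 := by omega
        rw [h0] at hch
        obtain ⟨c0, hc0, -⟩ := hch (fun _ => ∅) (by intro v _; simp)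
        exact absurd (hc0 v hv) (by simp))
  refine hb.noExt ⟨c', ?_, ?_, ?_⟩
  · intro z hz
    rw [g1 z (Finset.mem_sdiff.1 (hZQ hz)).2]
    exact h1 z hz
  · intro v hv hvZ
    by_cases hvQ : v ∈ Q
    · exact g2 v hvQ
    · rw [g1 v hvQ]
      exact h2 v (Finset.mem_sdiff.2 ⟨hv, hvQ⟩) hvZ
  · rwa [Finset.sdiff_union_of_subset (hQ.trans Finset.sdiff_subset)] at g3

lemma Crit.nonempty (h : Crit G k th W Z) : (W \ Z).Nonempty := by
  by_contra hne
  rw [Finset.not_nonempty_iff_eq_empty] at hne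
  obtain ⟨⟨L, f, hb⟩, -⟩ := h
  have hWZ : W ⊆ Z := Finset.sdiff_eq_empty_iff_subset.1 hne
  exact hb.noExt ⟨f, fun _ _ => rfl, fun v hv hvZ => absurd (hWZ hv) hvZ, hb.proper.mono hWZ⟩

/-- (C0) -/
theorem Crit.C0 (h : Crit G k th W Z) {v : V} (hv : v ∈ W \ Z) :
    k ≤ (W.filter (G.Adj v)).card := by
  by_contra hlt
  push Not at hlt
  obtain ⟨⟨L, f, hb⟩, hmin⟩ := h
  obtain ⟨hvW, hvZ⟩ := Finset.mem_sdiff.1 hv
  have hss : W.erase v ⊂ W := Finset.erase_ssubset hvW
  have hZ : Z ⊆ W.erase v := fun z hz => Finset.mem_erase.2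
    ⟨fun he => hvZ (he ▸ hz), hb.sub hz⟩
  obtain ⟨c, h1, h2, h3⟩ := Bad.ext_of_not (L := L) hZ hb.card
    (fun x hx hxZ => hb.lists x (Finset.mem_of_mem_erase hx) hxZ) hb.proper
    (hmin _ hss Z L f)
  obtain ⟨c', g1, g2, g3⟩ := extend (L := L) (U := W.erase v) (Q := {v}) (m := 1) h3
    (choos_singleton v le_rfl) (by simp) (by
      intro x hx
      rw [Finset.mem_singleton.1 hx]
      have e1 := hb.lists v hvW hvZ
      have e2 : ((W.erase v).filter (G.Adj v)).card ≤ (W.filter (G.Adj v)).card :=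
        Finset.card_le_card (Finset.filter_subset_filter _ (Finset.erase_subset _ _))
      omega)
  refine hb.noExt ⟨c', ?_, ?_, ?_⟩
  · intro z hz
    rw [g1 z (by simpa using (Finset.mem_erase.1 (hZ hz)).1)]
    exact h1 z hz
  · intro x hx hxZ
    by_cases hxv : x = v
    · exact g2 x (by simp [hxv])
    · rw [g1 x (by simpa using hxv)]
      exact h2 x (Finset.mem_erase.2 ⟨hxv, hx⟩) hxZ
  · have : W.erase v ∪ {v} = W := by
      ext y
      simp only [Finset.mem_union, Finset.mem_erase, Finset.mem_singleton]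
      constructor
      · rintro (⟨_, h⟩ | h)
        · exact h
        · rw [h]; exact hvW
      · intro hy
        by_cases hyx : y = v
        · exact Or.inr hyx
        · exact Or.inl ⟨hyx, hy⟩
    rwa [this] at g3

/-- (C1), list form. -/
theorem Crit.C1 (h : Crit G k th W Z) : ¬ Choos G (W \ Z) (k - Z.card) := by
  have h1 := h.fact (Finset.Subset.refl _) h.nonempty (t := 0) (by
    intro v _
    simp)
  simpa using h1

theorem Crit.C1' (h : Crit G k th W Z) : ¬ Choos G (W \ Z) (k - 2 * th) := by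
  intro hc
  exact h.C1 (hc.mono_k (by have := h.card; omega))

theorem Crit.lt_card (h : Crit G k th W Z) : k - Z.card < (W \ Z).card := by
  by_contra hle
  push Not at hle
  exact h.C1 (choos_of_card hle)

theorem Crit.lt_card' (h : Crit G k th W Z) : k < W.card := by
  obtain ⟨v, hv⟩ := h.nonempty
  have h1 := h.C0 hv
  have h2 : W.filter (G.Adj v) ⊆ W.erase v := by
    intro x hx
    obtain ⟨hx1, hx2⟩ := Finset.mem_filter.1 hx
    exact Finset.mem_erase.2 ⟨hx2.ne', hx1⟩
  have h3 := Finset.card_le_card h2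
  have hvW := (Finset.mem_sdiff.1 hv).1
  rw [Finset.card_erase_of_mem hvW] at h3
  have := Finset.card_pos.2 ⟨v, hvW⟩
  omega

private lemma C2_aux (h : Crit G k th W Z) (hs : Sep G W A B) (hc : (A ∩ B).card ≤ th)
    (hZ : (Z ∩ (B \ A)).card ≤ th) : A \ B ⊆ Z ∨ B \ A ⊆ Z := by
  by_contra hne
  push Not at hne
  obtain ⟨hnA, hnB⟩ := hne
  obtain ⟨a, haAB, haZ⟩ := Finset.not_subset.1 hnA
  obtain ⟨b, hbBA, hbZ⟩ := Finset.not_subset.1 hnB
  obtain ⟨haA, haB⟩ := Finset.mem_sdiff.1 haAB
  obtain ⟨hbB, hbA⟩ := Finset.mem_sdiff.1 hbBA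
  have hAW : A ⊆ W := hs.left_sub
  have hBW : B ⊆ W := hs.right_sub
  obtain ⟨⟨L, f, hb⟩, hmin⟩ := h
  -- first extension, to `A ∪ Z`
  have hss1 : A ∪ Z ⊂ W := by
    refine Finset.ssubset_iff_subset_ne.2 ⟨Finset.union_subset hAW hb.sub, ?_⟩
    intro he
    have : b ∈ A ∪ Z := by rw [he]; exact hBW hbB
    rcases Finset.mem_union.1 this with h | h
    · exact hbA h
    · exact hbZ h
  obtain ⟨p, p1, p2, p3⟩ := Bad.ext_of_not (L := L) (W := A ∪ Z) (Z := Z)
    Finset.subset_union_right hb.card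
    (fun v hv hvZ => hb.lists v (hss1.subset hv) hvZ) hb.proper (hmin _ hss1 Z L f)
  -- second extension, to `B`
  have hss2 : B ⊂ W := by
    refine Finset.ssubset_iff_subset_ne.2 ⟨hBW, ?_⟩
    intro he
    exact haB (by rw [he]; exact hAW haA)
  set Z2 : Finset V := (A ∩ B) ∪ (Z ∩ (B \ A)) with hZ2
  have hZ2B : Z2 ⊆ B := by
    intro x hx
    rcases Finset.mem_union.1 hx with h | h
    · exact (Finset.mem_inter.1 h).2
    · exact (Finset.mem_sdiff.1 (Finset.mem_inter.1 h).2).1
  have hZ2W : Z2 ⊆ A ∪ Z := by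
    intro x hx
    rcases Finset.mem_union.1 hx with h | h
    · exact Finset.mem_union_left _ (Finset.mem_inter.1 h).1
    · exact Finset.mem_union_right _ (Finset.mem_inter.1 h).1
  have hZ2c : Z2.card ≤ 2 * th := (Finset.card_union_le _ _).trans (by omega)
  have hZ2' : ∀ v ∈ B, v ∉ Z2 → v ∉ A ∧ v ∉ Z := by
    intro v hv hvZ2
    have hvA : v ∉ A := fun h => hvZ2 (Finset.mem_union_left _ (Finset.mem_inter.2 ⟨h, hv⟩))
    exact ⟨hvA, fun h => hvZ2 (Finset.mem_union_right _
      (Finset.mem_inter.2 ⟨h, Finset.mem_sdiff.2 ⟨hv, hvA⟩⟩))⟩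
  obtain ⟨q, q1, q2, q3⟩ := Bad.ext_of_not (L := L) (W := B) (Z := Z2) hZ2B hZ2c
    (fun v hv hvZ => hb.lists v (hBW hv) (hZ2' v hv hvZ).2) (p3.mono hZ2W) (hmin _ hss2 Z2 L p)
  have hAB : ∀ v ∈ W, v ∉ A → v ∈ B := by
    intro v hv hvA
    rw [← hs.union] at hv
    rcases Finset.mem_union.1 hv with h | h
    · exact absurd h hvA
    · exact h
  refine hb.noExt ⟨fun v => if v ∈ A then p v else q v, ?_, ?_, ?_⟩
  · intro z hz
    by_cases hzA : z ∈ A
    · simp only [hzA, if_true]
      exact p1 z hz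
    · simp only [hzA, if_false]
      have hzB := hAB z (hb.sub hz) hzA
      rw [q1 z (Finset.mem_union_right _
        (Finset.mem_inter.2 ⟨hz, Finset.mem_sdiff.2 ⟨hzB, hzA⟩⟩))]
      exact p1 z hz
  · intro v hv hvZ
    by_cases hvA : v ∈ A
    · simp only [hvA, if_true]
      exact p2 v (Finset.mem_union_left _ hvA) hvZ
    · simp only [hvA, if_false]
      refine q2 v (hAB v hv hvA) ?_
      intro hv2
      rcases Finset.mem_union.1 hv2 with h | h
      · exact hvA (Finset.mem_inter.1 h).1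
      · exact hvZ (Finset.mem_inter.1 h).1
  · have cross : ∀ u ∈ A, ∀ v ∈ W, v ∉ A → G.Adj u v → p u ≠ q v := by
      intro u hu v hv hvA huv
      have hvB := hAB v hv hvA
      have huB : u ∈ B := by
        by_contra huB
        exact hs.nadj u hu huB v hvB hvA huv
      rw [← q1 u (Finset.mem_union_left _ (Finset.mem_inter.2 ⟨hu, huB⟩))]
      exact q3 u huB v hvB huv
    intro u hu v hv huv
    by_cases h1 : u ∈ A <;> by_cases h2 : v ∈ A
    · simp only [h1, h2, if_true]
      exact p3 u (Finset.mem_union_left _ h1) v (Finset.mem_union_left _ h2) huv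
    · simp only [h1, h2, if_true, if_false]
      exact cross u h1 v hv h2 huv
    · simp only [h1, h2, if_true, if_false]
      exact (cross v h2 u hu h1 huv.symm).symm
    · simp only [h1, h2, if_false]
      exact q3 u (hAB u hu h1) v (hAB v hv h2) huv

/-- (C2) -/
theorem Crit.C2 (h : Crit G k th W Z) (hs : Sep G W A B) (hc : (A ∩ B).card ≤ th) :
    A \ B ⊆ Z ∨ B \ A ⊆ Z := by
  by_cases hZ : (Z ∩ (B \ A)).card ≤ th
  · exact C2_aux h hs hc hZ
  · have h1 : (Z ∩ (A \ B)).card + (Z ∩ (B \ A)).card ≤ Z.card := by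
      rw [← Finset.card_union_of_disjoint]
      · refine Finset.card_le_card ?_
        intro x hx
        rcases Finset.mem_union.1 hx with h | h
        · exact (Finset.mem_inter.1 h).1
        · exact (Finset.mem_inter.1 h).1
      · rw [Finset.disjoint_left]
        intro x hx hx'
        exact (Finset.mem_sdiff.1 (Finset.mem_inter.1 hx').2).2
          (Finset.mem_sdiff.1 (Finset.mem_inter.1 hx).2).1
    have h2 := h.card
    have h3 := C2_aux h hs.symm (by rw [Finset.inter_comm]; exact hc) (by omega)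
    exact h3.symm

/-- form of (C2) which is used to find paths: no separation of order `≤ th` separates two vertices
outside `Z`. -/
theorem Crit.C2' (h : Crit G k th W Z) (hs : Sep G W A B) (hc : (A ∩ B).card ≤ th) {x y : V}
    (hx : x ∈ A) (hxB : x ∉ B) (hxZ : x ∉ Z) (hy : y ∈ B) (hyA : y ∉ A) : y ∈ Z := by
  rcases h.C2 hs hc with h1 | h1
  · exact absurd (h1 (Finset.mem_sdiff.2 ⟨hx, hxB⟩)) hxZ
  · exact h1 (Finset.mem_sdiff.2 ⟨hy, hyA⟩)

end Crest.Agent.R042.Crit872
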