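import Crest.Agent.R042.RowWin_543

/-!
# CTRL: the controlled functionals of two windows (row 42, S0059, LOC)

`Sp` = the special vectors.  If `u, u'` are independent modulo `Sp`, then the only functionals
`f ↦ f u z + f u' z'` which vanish on all symmetric forms killing `Sp` are the special ones
(`z, z' ∈ Sp`) and the symmetry digit `(z, z') = (u', -u)`.
No frames, no grid, no case distinction (degenerate / nondegenerate plane).
-/

set_option autoImplicit false

namespace Crest.Agent.R042.Ctrl420

open Crest.Agent.R042.RowWin543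

variable {k U : Type*} [Field k] [AddCommGroup U] [Module k U]

/-- `u, u'` are independent modulo `Sp` -/
def Ind2 (Sp : Submodule k U) (u u' : U) : Prop :=
  ∀ a b : k, a • u + b • u' ∈ Sp → a = 0 ∧ b = 0

theorem Ind2.symm {Sp : Submodule k U} {u u' : U} (h : Ind2 Sp u u') : Ind2 Sp u' u := by
  intro a b hab
  have := h b a (by rwa [add_comm])
  exact ⟨this.2, this.1⟩

/-- a functional vanishing on `Sp` with prescribed values at `u, u'` -/
theorem exists_fun (Sp : Submodule k U) (u u' : U) (h : Ind2 Sp u u') (c c' : k) :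
    ∃ l : U →ₗ[k] k, (∀ t ∈ Sp, l t = 0) ∧ l u = c ∧ l u' = c' := by
  classical
  let v : Fin 2 → U ⧸ Sp := ![Sp.mkQ u, Sp.mkQ u']
  have hv : LinearIndependent k v := by
    rw [LinearIndependent.pair_iff]
    intro a b hab
    apply h a b
    have h1 : Sp.mkQ (a • u + b • u') = 0 := by
      rw [map_add, map_smul, map_smul]; exact hab
    rwa [Submodule.mkQ_apply, Submodule.Quotient.mk_eq_zero] at h1
  obtain ⟨g, hg⟩ := LinearMap.exists_extend (p := Submodule.span k (Set.range v))
    ((Fintype.linearCombination k ![c, c']).comp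
      ((Finsupp.linearEquivFunOnFinite k k (Fin 2)).toLinearMap.comp hv.repr))
  have key : ∀ i, g (v i) = ![c, c'] i := by
    intro i
    have hk : v i ∈ Submodule.span k (Set.range v) := Submodule.subset_span ⟨i, rfl⟩
    have h5 : g (v i) = ((Fintype.linearCombination k ![c, c']).comp
      ((Finsupp.linearEquivFunOnFinite k k (Fin 2)).toLinearMap.comp hv.repr)) ⟨v i, hk⟩ := by
      rw [← hg]; rfl
    rw [h5, LinearMap.comp_apply, LinearMap.comp_apply, hv.repr_eq_single i ⟨v i, hk⟩ rfl]
    simp only [Fintype.linearCombination_apply, LinearEquiv.coe_coe,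
      Finsupp.linearEquivFunOnFinite_single, Fin.sum_univ_two, smul_eq_mul]
    fin_cases i <;> simp
  refine ⟨g.comp Sp.mkQ, ?_, ?_, ?_⟩
  · intro t ht
    have : Sp.mkQ t = 0 := by
      rw [Submodule.mkQ_apply, Submodule.Quotient.mk_eq_zero]; exact ht
    rw [LinearMap.comp_apply, this, map_zero]
  · have := key 0
    simpa [v] using this
  · have := key 1
    simpa [v] using this

/-- functionals vanishing on `Sp` separate the points modulo `Sp` -/
theorem sep (Sp : Submodule k U) (x : U)
    (h : ∀ l : U →ₗ[k] k, (∀ t ∈ Sp, l t = 0) → l x = 0) : x ∈ Sp := by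
  rw [← Submodule.Quotient.mk_eq_zero Sp, ← Module.forall_dual_apply_eq_zero_iff k]
  intro g
  have := h (g.comp Sp.mkQ) (fun t ht => by
    have h1 : Sp.mkQ t = 0 := by
      rw [Submodule.mkQ_apply, Submodule.Quotient.mk_eq_zero]; exact ht
    rw [LinearMap.comp_apply, h1, map_zero])
  simpa using this

/-- `l ⊗ m + m ⊗ l` -/
def symPair (l m : U →ₗ[k] k) : U →ₗ[k] U →ₗ[k] k :=
  ((LinearMap.lsmul k (U →ₗ[k] k)).flip m).comp l + ((LinearMap.lsmul k (U →ₗ[k] k)).flip l).comp m

theorem symPair_apply (l m : U →ₗ[k] k) (x y : U) :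
    symPair l m x y = l x * m y + m x * l y := by
  simp [symPair]

theorem symPair_mem (l m : U →ₗ[k] k) : symPair l m ∈ SymForm k U := by
  intro x y
  rw [symPair_apply, symPair_apply]; ring

/-- `l ⊗ l` -/
def symSq (l : U →ₗ[k] k) : U →ₗ[k] U →ₗ[k] k :=
  ((LinearMap.lsmul k (U →ₗ[k] k)).flip l).comp l

theorem symSq_apply (l : U →ₗ[k] k) (x y : U) : symSq l x y = l x * l y := by
  simp [symSq]

theorem symSq_mem (l : U →ₗ[k] k) : symSq l ∈ SymForm k U := by
  intro x y
  rw [symSq_apply, symSq_apply]; ring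

/-- **CTRL** -/
theorem ctrl (Sp : Submodule k U) (u u' z z' : U) (h : Ind2 Sp u u')
    (hz : ∀ f ∈ SymForm k U, (∀ x, ∀ t ∈ Sp, f x t = 0) → f u z + f u' z' = 0) :
    ∃ α : k, z - α • u' ∈ Sp ∧ z' + α • u ∈ Sp := by
  obtain ⟨l, hl, hlu, hlu'⟩ := exists_fun Sp u u' h 1 0
  obtain ⟨m, hm, hmu, hmu'⟩ := exists_fun Sp u u' h 0 1
  have hsq : ∀ n : U →ₗ[k] k, (∀ t ∈ Sp, n t = 0) → n u * n z + n u' * n z' = 0 := by
    intro n hn
    have := hz (symSq n) (symSq_mem n) (fun x t ht => by rw [symSq_apply, hn t ht, mul_zero])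
    rwa [symSq_apply, symSq_apply] at this
  have hpair : ∀ n p : U →ₗ[k] k, (∀ t ∈ Sp, n t = 0) → (∀ t ∈ Sp, p t = 0) →
      (n u * p z + p u * n z) + (n u' * p z' + p u' * n z') = 0 := by
    intro n p hn hp
    have := hz (symPair n p) (symPair_mem n p)
      (fun x t ht => by rw [symPair_apply, hn t ht, hp t ht]; ring)
    rwa [symPair_apply, symPair_apply] at this
  have h1 : l z = 0 := by simpa [hlu, hlu'] using hsq l hl
  have h2 : m z' = 0 := by simpa [hmu, hmu'] using hsq m hm
  have h3 : m z + l z' = 0 := by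
    have := hpair l m hl hm
    simpa [hlu, hlu', hmu, hmu'] using this
  refine ⟨m z, ?_, ?_⟩
  · apply sep
    intro p hp
    have := hpair l p hl hp
    rw [hlu, hlu', h1] at this
    rw [map_sub, map_smul, smul_eq_mul]
    have h4 : l z' = - m z := by linear_combination h3
    rw [h4] at this
    linear_combination this
  · apply sep
    intro p hp
    have := hpair m p hm hp
    rw [hmu, hmu', h2] at this
    rw [map_add, map_smul, smul_eq_mul]
    linear_combination this

end Crest.Agent.R042.Ctrl420
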