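import Crest.Agent.R042.BL_582
import Crest.Agent.R042.KLsup_313

/-! Row 42, S0059, label level: BLDATA (chain of subspaces on a finite grid for the conditional
relative entropy), LIN (independent windows meet a subspace in independent subspaces), BLDEAD
(density of the dead set). -/

set_option autoImplicit false
set_option linter.unusedSectionVars false
set_option linter.unusedSimpArgs false

open Module Finset

namespace Crest.Agent.R042.Dead582

section Lin

variable {k Y : Type*} [Field k] [AddCommGroup Y] [Module k Y] [Module.Finite k Y]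

/-- dimension of the image in `Y ⧸ C` -/
lemma finrank_map_mkQ (C S : Submodule k Y) :
    (finrank k (S.map C.mkQ) : ℝ) = finrank k S - finrank k ↥(C ⊓ S) := by
  have h := LinearMap.finrank_range_add_finrank_ker (C.mkQ.comp S.subtype)
  have h1 : LinearMap.range (C.mkQ.comp S.subtype) = S.map C.mkQ := by
    rw [LinearMap.range_comp, Submodule.range_subtype]
  have h2 : finrank k (LinearMap.ker (C.mkQ.comp S.subtype)) = finrank k ↥(C ⊓ S) := by
    rw [LinearMap.ker_comp, Submodule.ker_mkQ]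
    have e := (Submodule.comapSubtypeEquivOfLe (p := C ⊓ S) (q := S) inf_le_right).finrank_eq
    rw [← e, Submodule.comap_inf, Submodule.comap_subtype_self, inf_top_eq]
  rw [h1, h2] at h
  have h' : (finrank k (S.map C.mkQ) : ℝ) + finrank k ↥(C ⊓ S) = finrank k S := by
    exact_mod_cast h
  linarith

lemma finrank_comap_mkQ (C : Submodule k Y) (T : Submodule k (Y ⧸ C)) :
    (finrank k (T.comap C.mkQ) : ℝ) = finrank k T + finrank k C := by
  have h := finrank_map_mkQ C (T.comap C.mkQ)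
  rw [Submodule.map_comap_eq, Submodule.range_mkQ, top_inf_eq] at h
  have h2 : C ⊓ T.comap C.mkQ = C := by
    rw [inf_eq_left]
    exact Submodule.le_comap_mkQ C T
  rw [h2] at h
  linarith

/-- independent modulo `C` -/
def IndMod {ι : Type*} [Fintype ι] (C : Submodule k Y) (W : ι → Submodule k Y) : Prop :=
  ∀ w : ι → Y, (∀ j, w j ∈ W j) → ∑ j, w j ∈ C → ∀ j, w j ∈ C

/-- LIN -/
theorem lin {ι : Type*} [Fintype ι] (C : Submodule k Y) (W : ι → Submodule k Y)
    (hW : IndMod C W) (S : Submodule k Y) :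
    ∑ j, ((finrank k ↥((W j ⊔ C) ⊓ S) : ℝ) - finrank k ↥(C ⊓ S)) ≤
      (finrank k S : ℝ) - finrank k ↥(C ⊓ S) := by
  classical
  have e1 : ∀ j, ((finrank k ↥((W j ⊔ C) ⊓ S) : ℝ) - finrank k ↥(C ⊓ S)) =
      finrank k ↥(((W j ⊔ C) ⊓ S).map C.mkQ) := by
    intro j
    rw [finrank_map_mkQ]
    have : C ⊓ ((W j ⊔ C) ⊓ S) = C ⊓ S := by
      rw [← inf_assoc, inf_eq_left.2 (le_sup_right : C ≤ W j ⊔ C)]
    rw [this]
  rw [← finrank_map_mkQ C S]
  simp_rw [e1]
  let A : ι → Submodule k (Y ⧸ C) := fun j => ((W j ⊔ C) ⊓ S).map C.mkQ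
  let f : ((j : ι) → A j) →ₗ[k] (Y ⧸ C) := LinearMap.lsum k (fun j => A j) k (fun j => (A j).subtype)
  have hf : ∀ v, f v = ∑ j, (v j : Y ⧸ C) := by
    intro v
    simp [f, LinearMap.lsum_apply]
  have hr : LinearMap.range f ≤ S.map C.mkQ := by
    rintro _ ⟨v, rfl⟩
    rw [hf]
    refine Submodule.sum_mem _ fun j _ => ?_
    exact Submodule.map_mono inf_le_right (v j).2
  have hinj : Function.Injective f := by
    rw [← LinearMap.ker_eq_bot, LinearMap.ker_eq_bot']
    intro v hv
    rw [hf] at hv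
    have hlift : ∀ j, ∃ w ∈ W j, C.mkQ w = (v j : Y ⧸ C) := by
      intro j
      obtain ⟨y, hy, hyv⟩ := Submodule.mem_map.1 (v j).2
      obtain ⟨w, hw, c, hc, rfl⟩ := Submodule.mem_sup.1 hy.1
      refine ⟨w, hw, ?_⟩
      rw [← hyv, map_add]
      have : C.mkQ c = 0 := by simpa using hc
      rw [this, add_zero]
    choose w hw hwv using hlift
    have hsum : ∑ j, w j ∈ C := by
      have : C.mkQ (∑ j, w j) = 0 := by
        rw [map_sum]; simp_rw [hwv]; exact hv
      rwa [Submodule.mkQ_apply, Submodule.Quotient.mk_eq_zero] at this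
    have h0 := hW w hw hsum
    funext j
    apply Subtype.ext
    rw [← hwv j]
    have : C.mkQ (w j) = 0 := by simpa using h0 j
    rw [this]; rfl
  have h1 : finrank k ((j : ι) → A j) = ∑ j, finrank k (A j) := Module.finrank_pi_fintype k
  have h2 : finrank k ((j : ι) → A j) ≤ finrank k ↥(S.map C.mkQ) :=
    LinearMap.finrank_le_finrank_of_injective (f := LinearMap.codRestrict (S.map C.mkQ) f
      (fun v => hr ⟨v, rfl⟩)) (by
        intro a b hab
        apply hinj
        exact congrArg Subtype.val hab)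
  rw [h1] at h2
  exact_mod_cast h2

end Lin

section Chain

variable {k Y : Type*} [Field k] [AddCommGroup Y] [Module k Y] [Module.Finite k Y] [Finite Y]

/-- relative form of `bl` -/
theorem bl_rel (h : Submodule k Y → ℝ)
    (hsup : ∀ S T, h S + h T ≤ h (S ⊔ T) + h (S ⊓ T)) (hmono : Monotone h)
    (C : Submodule k Y) (b : ℝ) (hb : h ⊤ - h C ≤ b) :
    ∃ (S : Fin (finrank k Y) → Submodule k Y) (ν : Fin (finrank k Y) → ℝ),
      (∀ i, 0 ≤ ν i) ∧ (∀ i, C ≤ S i) ∧ (∀ i, ν i ≤ b) ∧
      ∑ i, ν i * ((finrank k (S i) : ℝ) - finrank k C) ≤ b ∧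
      ∀ W, h (W ⊔ C) - h C ≤ ∑ i, ν i * ((finrank k ↥((W ⊔ C) ⊓ S i) : ℝ) - finrank k C) := by
  classical
  have hb0 : 0 ≤ b := by
    have := hmono (le_top : C ≤ ⊤)
    linarith
  let H : Submodule k (Y ⧸ C) → ℝ := fun T => h (T.comap C.mkQ) - h C
  have : Finite (Y ⧸ C) := Finite.of_surjective _ (Submodule.mkQ_surjective C)
  have H0 : H ⊥ = 0 := by
    simp [H, Submodule.comap_bot]
  have Hm : Monotone H := fun S T hST => by
    have := hmono (Submodule.comap_mono (f := C.mkQ) hST)
    simp only [H]; linarith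
  have Hs : ∀ S T, H S + H T ≤ H (S ⊔ T) + H (S ⊓ T) := by
    intro S T
    have e1 : (S ⊔ T).comap C.mkQ = S.comap C.mkQ ⊔ T.comap C.mkQ := by
      apply le_antisymm
      · have := Submodule.comap_map_eq C.mkQ (S.comap C.mkQ ⊔ T.comap C.mkQ)
        rw [Submodule.map_sup, Submodule.map_comap_eq, Submodule.map_comap_eq,
          Submodule.range_mkQ, top_inf_eq, top_inf_eq, Submodule.ker_mkQ] at this
        rw [this]
        exact sup_le le_rfl ((Submodule.le_comap_mkQ C S).trans le_sup_left)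
      · exact sup_le (Submodule.comap_mono le_sup_left) (Submodule.comap_mono le_sup_right)
    have e2 : (S ⊓ T).comap C.mkQ = S.comap C.mkQ ⊓ T.comap C.mkQ := Submodule.comap_inf _ _ _
    have := hsup (S.comap C.mkQ) (T.comap C.mkQ)
    simp only [H]
    rw [e1, e2]
    linarith
  have Htop : H ⊤ ≤ b := by
    simp only [H, Submodule.comap_top]; exact hb
  have Hb : ∀ S, H S ≤ b * (finrank k S : ℝ) := by
    intro S
    rcases Nat.eq_zero_or_pos (finrank k S) with h1 | h1
    · have : S = ⊥ := Submodule.finrank_eq_zero.1 h1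
      rw [this, H0]
      simp
    · have h2 : H S ≤ b := (Hm le_top).trans Htop
      have h3 : (1 : ℝ) ≤ finrank k S := by exact_mod_cast h1
      nlinarith
  obtain ⟨S, ν, hν, -, hsum, hνc, hW⟩ := BL582.bl (K := k) b hb0 H H0 Hs Hm Hb
  have hle : finrank k (Y ⧸ C) ≤ finrank k Y := Submodule.finrank_quotient_le C
  -- padding
  let S' : Fin (finrank k Y) → Submodule k Y := fun i =>
    if hi : (i : ℕ) < finrank k (Y ⧸ C) then (S ⟨i, hi⟩).comap C.mkQ else C
  let ν' : Fin (finrank k Y) → ℝ := fun i =>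
    if hi : (i : ℕ) < finrank k (Y ⧸ C) then ν ⟨i, hi⟩ else 0
  have hpad : ∀ (F : Fin (finrank k (Y ⧸ C)) → ℝ) (G : Fin (finrank k Y) → ℝ),
      (∀ i : Fin (finrank k (Y ⧸ C)), G (Fin.castLE hle i) = F i) →
      (∀ i : Fin (finrank k Y), ¬ (i : ℕ) < finrank k (Y ⧸ C) → G i = 0) →
      ∑ i, G i = ∑ i, F i := by
    intro F G h1 h2
    have : ∑ i, F i = ∑ i ∈ univ.map (Fin.castLEEmb hle), G i := by
      rw [Finset.sum_map]
      exact Finset.sum_congr rfl fun i _ => (h1 i).symm
    rw [this]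
    symm
    apply Finset.sum_subset (Finset.subset_univ _)
    intro i _ hi
    apply h2
    intro hlt
    apply hi
    rw [Finset.mem_map]
    exact ⟨⟨i, hlt⟩, Finset.mem_univ _, by ext; simp⟩
  have hS' : ∀ i : Fin (finrank k (Y ⧸ C)), S' (Fin.castLE hle i) = (S i).comap C.mkQ := by
    intro i
    exact dif_pos i.2
  have hν' : ∀ i : Fin (finrank k (Y ⧸ C)), ν' (Fin.castLE hle i) = ν i := by
    intro i
    exact dif_pos i.2
  have hνle : ∀ i, ν i ≤ b := by
    intro i
    have : ν i ≤ ∑ j, ν j := Finset.single_le_sum (fun j _ => hν j) (Finset.mem_univ i)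
    linarith
  refine ⟨S', ν', ?_, ?_, ?_, ?_, ?_⟩
  · intro i
    simp only [ν']
    split_ifs
    · exact hν _
    · exact le_rfl
  · intro i
    simp only [S']
    split_ifs
    · exact Submodule.le_comap_mkQ C _
    · exact le_rfl
  · intro i
    simp only [ν']
    split_ifs
    · exact hνle _
    · exact hb0
  · rw [hpad (fun i => ν i * (finrank k (S i) : ℝ))]
    · rw [hsum]; exact Htop
    · intro i
      rw [hS', hν', finrank_comap_mkQ]
      ring
    · intro i hi
      simp [ν', hi]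
  · intro W
    have h1 := hW ((W ⊔ C).map C.mkQ)
    have e1 : ((W ⊔ C).map C.mkQ).comap C.mkQ = W ⊔ C := by
      rw [Submodule.comap_map_eq, Submodule.ker_mkQ, sup_assoc, sup_idem]
    have e2 : H ((W ⊔ C).map C.mkQ) = h (W ⊔ C) - h C := by
      simp only [H]; rw [e1]
    rw [e2] at h1
    refine h1.trans (le_of_eq ?_)
    symm
    apply hpad
    · intro i
      rw [hS', hν']
      have e3 : (W ⊔ C) ⊓ (S i).comap C.mkQ = (((W ⊔ C).map C.mkQ) ⊓ S i).comap C.mkQ := by
        rw [Submodule.comap_inf, e1]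
      rw [e3, finrank_comap_mkQ]
      ring
    · intro i hi
      simp [ν', hi]

/-- the grid -/
noncomputable def N0 (k Y : Type*) [Field k] [AddCommGroup Y] [Module k Y] : ℕ := finrank k Y * finrank k Y + 1

/-- number of grid values -/
noncomputable def Mx (k Y : Type*) [Field k] [AddCommGroup Y] [Module k Y] (b : ℝ) : ℕ :=
  ⌈b⌉₊ * N0 k Y + 2

/-- the data of a conditional law: a chain of subspaces with weights on the grid -/
abbrev Chain (k Y : Type*) [Field k] [AddCommGroup Y] [Module k Y] (b : ℝ) : Type _ :=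
  Fin (finrank k Y) → Submodule k Y × Fin (Mx k Y b)

/-- the weight of the `i`-th member -/
noncomputable def wt {b : ℝ} (θ : Chain k Y b) (i : Fin (finrank k Y)) : ℝ :=
  ((θ i).2 : ℕ) / (N0 k Y : ℝ)

lemma wt_nonneg {b : ℝ} (θ : Chain k Y b) (i : Fin (finrank k Y)) : 0 ≤ wt θ i := by
  unfold wt; positivity

/-- admissible data: members contain `C`, total weight at most `b + 1` -/
def Adm {b : ℝ} (C : Submodule k Y) (θ : Chain k Y b) : Prop :=
  (∀ i, C ≤ (θ i).1) ∧ ∑ i, wt θ i * ((finrank k (θ i).1 : ℝ) - finrank k C) ≤ b + 1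

/-- the value of a chain on a subspace (relative to `C`) -/
noncomputable def val {b : ℝ} (C : Submodule k Y) (θ : Chain k Y b) (W : Submodule k Y) : ℝ :=
  ∑ i, wt θ i * ((finrank k ↥((W ⊔ C) ⊓ (θ i).1) : ℝ) - finrank k C)

/-- BLDATA, abstract -/
theorem bldata (h : Submodule k Y → ℝ)
    (hsup : ∀ S T, h S + h T ≤ h (S ⊔ T) + h (S ⊓ T)) (hmono : Monotone h)
    (C : Submodule k Y) (b : ℝ) (hb : h ⊤ - h C ≤ b) :
    ∃ θ : Chain k Y b, Adm C θ ∧ ∀ W, h (W ⊔ C) - h C ≤ val C θ W := by
  classical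
  obtain ⟨S, ν, hν, hC, hνb, hsum, hW⟩ := bl_rel h hsup hmono C b hb
  have hN : (0 : ℝ) < N0 k Y := by unfold N0; positivity
  have hb0 : 0 ≤ b := by
    have := hmono (le_top : C ≤ ⊤)
    linarith
  have hlt : ∀ i, ⌈ν i * N0 k Y⌉₊ < Mx k Y b := by
    intro i
    have h1 : (⌈ν i * N0 k Y⌉₊ : ℝ) < ν i * N0 k Y + 1 :=
      Nat.ceil_lt_add_one (mul_nonneg (hν i) hN.le)
    have h2 : ν i * N0 k Y ≤ ⌈b⌉₊ * N0 k Y :=
      mul_le_mul_of_nonneg_right ((hνb i).trans (Nat.le_ceil b)) hN.le
    have h3 : (⌈ν i * N0 k Y⌉₊ : ℝ) < (Mx k Y b : ℝ) := by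
      unfold Mx; push_cast; linarith
    exact_mod_cast h3
  let θ : Chain k Y b := fun i => (S i, ⟨⌈ν i * N0 k Y⌉₊, hlt i⟩)
  have hw1 : ∀ i, ν i ≤ wt θ i := by
    intro i
    unfold wt
    rw [le_div_iff₀ hN]
    exact Nat.le_ceil _
  have hw2 : ∀ i, wt θ i ≤ ν i + 1 / N0 k Y := by
    intro i
    unfold wt
    rw [div_le_iff₀ hN, add_mul, one_div, inv_mul_cancel₀ hN.ne']
    exact (Nat.ceil_lt_add_one (mul_nonneg (hν i) hN.le)).le
  refine ⟨θ, ⟨hC, ?_⟩, ?_⟩
  · have h1 : ∀ i, wt θ i * ((finrank k (θ i).1 : ℝ) - finrank k C) ≤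
        ν i * ((finrank k (S i) : ℝ) - finrank k C) + (finrank k Y : ℝ) / N0 k Y := by
      intro i
      have ha : (0 : ℝ) ≤ (finrank k (S i) : ℝ) - finrank k C := by
        have : (finrank k C : ℝ) ≤ finrank k (S i) := by
          exact_mod_cast Submodule.finrank_mono (hC i)
        linarith
      have hb' : (finrank k (S i) : ℝ) - finrank k C ≤ finrank k Y := by
        have h1 : (finrank k (S i) : ℝ) ≤ finrank k Y := by
          exact_mod_cast Submodule.finrank_le (S i)
        have h2 : (0 : ℝ) ≤ finrank k C := Nat.cast_nonneg _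
        linarith
      have hc : (1 : ℝ) / N0 k Y * ((finrank k (S i) : ℝ) - finrank k C) ≤
          (finrank k Y : ℝ) / N0 k Y := by
        rw [div_mul_eq_mul_div, one_mul]
        exact div_le_div_of_nonneg_right hb' hN.le
      have := mul_le_mul_of_nonneg_right (hw2 i) ha
      have e : (θ i).1 = S i := rfl
      rw [e]
      nlinarith
    calc _ ≤ ∑ i : Fin (finrank k Y), (ν i * ((finrank k (S i) : ℝ) - finrank k C)
          + (finrank k Y : ℝ) / N0 k Y) := Finset.sum_le_sum fun i _ => h1 i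
      _ = ∑ i, ν i * ((finrank k (S i) : ℝ) - finrank k C)
          + (finrank k Y : ℝ) * ((finrank k Y : ℝ) / N0 k Y) := by
        rw [Finset.sum_add_distrib, Finset.sum_const, Finset.card_univ, Fintype.card_fin,
          nsmul_eq_mul]
      _ ≤ b + 1 := by
        have : (finrank k Y : ℝ) * ((finrank k Y : ℝ) / N0 k Y) ≤ 1 := by
          rw [← mul_div_assoc, div_le_one hN]
          unfold N0; push_cast; linarith
        linarith
  · intro W
    refine (hW W).trans ?_
    unfold val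
    refine Finset.sum_le_sum fun i _ => ?_
    refine mul_le_mul_of_nonneg_right (hw1 i) ?_
    have : (finrank k C : ℝ) ≤ finrank k ↥((W ⊔ C) ⊓ S i) := by
      exact_mod_cast Submodule.finrank_mono (le_inf le_sup_right (hC i))
    linarith

lemma card_submodule_le : Nat.card (Submodule k Y) ≤ Nat.card Y ^ finrank k Y := by
  classical
  have : Fintype Y := Fintype.ofFinite Y
  let F : (Fin (finrank k Y) → Y) → Submodule k Y := fun v => Submodule.span k (Set.range v)
  have hF : Function.Surjective F := by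
    intro S
    have b := Module.finBasis k S
    have hle : finrank k S ≤ finrank k Y := Submodule.finrank_le S
    refine ⟨fun i => if hi : (i : ℕ) < finrank k S then (b ⟨i, hi⟩ : Y) else 0, ?_⟩
    apply le_antisymm
    · refine Submodule.span_le.2 ?_
      rintro _ ⟨i, rfl⟩
      by_cases hi : (i : ℕ) < finrank k S
      · simp only [hi, dif_pos]; exact (b ⟨i, hi⟩).2
      · simp only [hi, dif_neg, not_false_eq_true]; exact S.zero_mem
    · intro x hx
      have h1 := b.sum_repr ⟨x, hx⟩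
      have h2 : x = ∑ i, b.repr ⟨x, hx⟩ i • (b i : Y) := by
        have h3 := congrArg (Subtype.val) h1
        refine h3.symm.trans ?_
        rw [AddSubmonoidClass.coe_finsetSum]
        rfl
      rw [h2]
      refine Submodule.sum_mem _ fun i _ => Submodule.smul_mem _ _ ?_
      refine Submodule.subset_span ⟨Fin.castLE hle i, ?_⟩
      simp
  calc Nat.card (Submodule k Y) ≤ Nat.card (Fin (finrank k Y) → Y) :=
        Nat.card_le_card_of_surjective F hF
    _ = Nat.card Y ^ finrank k Y := by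
        rw [Nat.card_fun, Nat.card_eq_fintype_card (α := Fin (finrank k Y)), Fintype.card_fin]

instance finite_sub : Finite (Submodule k Y) :=
  Finite.of_injective (fun S : Submodule k Y => (S : Set Y)) SetLike.coe_injective

instance finite_chain (b : ℝ) : Finite (Chain k Y b) := by
  unfold Chain; infer_instance

/-- number of data -/
theorem card_chain_le (b : ℝ) :
    Nat.card (Chain k Y b) ≤ (Nat.card Y ^ finrank k Y * Mx k Y b) ^ finrank k Y := by
  unfold Chain
  rw [Nat.card_fun, Nat.card_prod, Nat.card_eq_fintype_card (α := Fin (Mx k Y b)),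
    Nat.card_eq_fintype_card (α := Fin (finrank k Y)), Fintype.card_fin, Fintype.card_fin]
  exact Nat.pow_le_pow_left (Nat.mul_le_mul_right _ card_submodule_le) _

end Chain

section KL

variable {k V : Type*} [Field k] [Fintype k] [AddCommGroup V] [Module k V] [Fintype V]

instance finite_dual : Finite (Module.Dual k V) := by
  have : FiniteDimensional k V := inferInstance
  exact Module.finite_of_finite k

/-- BLDATA for the relative entropy of a law -/
theorem bldata_kl (μ : V → ℝ) (hμ : ∀ x, 0 ≤ μ x) (sμ : ∑ x, μ x = 1)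
    (C : Submodule k (Module.Dual k V)) (b : ℝ) (hb : KLsup313.kl k μ ⊤ ≤ b) :
    ∃ θ : Chain k (Module.Dual k V) b, Adm C θ ∧
      ∀ W, KLsup313.kl k μ (W ⊔ C) - KLsup313.kl k μ C ≤ val C θ W := by
  have : FiniteDimensional k V := inferInstance
  refine bldata (fun S => KLsup313.kl k μ S) (fun S T => KLsup313.kl_supermod μ hμ sμ S T)
    (fun S T h => KLsup313.kl_mono μ hμ sμ h) C b ?_
  have := KLsup313.kl_nonneg (k := k) μ hμ sμ C
  linarith

end KL

section Dead

variable {k Y : Type*} [Field k] [AddCommGroup Y] [Module k Y] [Module.Finite k Y] [Finite Y]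

/-- BLDEAD, greedy form -/
theorem bldead {Ω : Type*} [Fintype Ω] {N : ℕ} {β : ℝ} (P : Ω → Prop) [DecidablePred P]
    (Ind : (Fin N → Ω) → Prop)
    (hN : 0 < N) (hgreedy : ∀ X : Finset Ω, (∀ R ∈ X, P R) → β < (X.card : ℝ) →
      ∃ r : Fin N → Ω, (∀ j, r j ∈ X) ∧ Ind r)
    {C : Submodule k Y} {b : ℝ} {θ : Chain k Y b} (hθ : Adm C θ)
    (nn : Submodule k Y → Ω → ℝ) (κ : ℝ) (hκ : 0 ≤ κ)
    (hnn : ∀ r, Ind r → ∀ S, C ≤ S →
      ∑ j, nn S (r j) ≤ κ * ((finrank k S : ℝ) - finrank k C))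
    (ε : ℝ) (hε : κ * (b + 1) ≤ N * ε) [DecidablePred fun R => ε < ∑ i, wt θ i * nn (θ i).1 R] :
    ((univ.filter fun R => P R ∧ ε < ∑ i, wt θ i * nn (θ i).1 R).card : ℝ) ≤ β := by
  classical
  by_contra h1
  rw [not_le] at h1
  obtain ⟨r, hr, hI⟩ := hgreedy (univ.filter fun R => P R ∧ ε < ∑ i, wt θ i * nn (θ i).1 R)
    (fun R hR => (Finset.mem_filter.1 hR).2.1) (by convert h1)
  have h3 : ∀ j, ε < ∑ i, wt θ i * nn (θ i).1 (r j) := fun j => (Finset.mem_filter.1 (hr j)).2.2
  have h4 : (N : ℝ) * ε < ∑ j : Fin N, ∑ i, wt θ i * nn (θ i).1 (r j) := by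
    have : Nonempty (Fin N) := ⟨⟨0, hN⟩⟩
    calc (N : ℝ) * ε = ∑ _j : Fin N, ε := by
          rw [Finset.sum_const, Finset.card_univ, Fintype.card_fin, nsmul_eq_mul]
      _ < _ := Finset.sum_lt_sum_of_nonempty Finset.univ_nonempty fun j _ => h3 j
  have h5 : ∑ j : Fin N, ∑ i, wt θ i * nn (θ i).1 (r j) ≤ κ * (b + 1) := by
    rw [Finset.sum_comm]
    calc ∑ i, ∑ j, wt θ i * nn (θ i).1 (r j) = ∑ i, wt θ i * ∑ j, nn (θ i).1 (r j) := by
          simp_rw [Finset.mul_sum]
      _ ≤ ∑ i, wt θ i * (κ * ((finrank k (θ i).1 : ℝ) - finrank k C)) :=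
          Finset.sum_le_sum fun i _ =>
            mul_le_mul_of_nonneg_left (hnn r hI _ (hθ.1 i)) (wt_nonneg θ i)
      _ = κ * ∑ i, wt θ i * ((finrank k (θ i).1 : ℝ) - finrank k C) := by
          rw [Finset.mul_sum]
          exact Finset.sum_congr rfl fun i _ => by ring
      _ ≤ κ * (b + 1) := mul_le_mul_of_nonneg_left hθ.2 hκ
  linarith

end Dead

end Crest.Agent.R042.Dead582
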