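import Mathlib

/-!
Row 42 (S0059), label level: one-block interpolation lemmas, valid for EVERY pair (P,P'),
also with a degenerate plane (a isotropic, a in U).
-/

set_option autoImplicit false

namespace Crest.Agent.R042.DegInterp910

open Module

variable {K : Type*} [Field K] {V : Type*} [AddCommGroup V] [Module K V]

/-- `U = {x : B p x = 0, B a x = 0}`. -/
def UU (B : V →ₗ[K] V →ₗ[K] K) (p a : V) : Submodule K V :=
  LinearMap.ker (B p) ⊓ LinearMap.ker (B a)

theorem mem_UU {B : V →ₗ[K] V →ₗ[K] K} {p a x : V} :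
    x ∈ UU B p a ↔ B p x = 0 ∧ B a x = 0 := by
  simp [UU]

/-- the hypotheses on one block -/
structure Blk (B : V →ₗ[K] V →ₗ[K] K) (p a : V) : Prop where
  symm : ∀ x y, B x y = B y x
  nd : ∀ x, (∀ y, B x y = 0) → x = 0
  pp : B p p ≠ 0
  pa : B p a = 0
  ne : a ≠ 0

variable {B : V →ₗ[K] V →ₗ[K] K} {p a : V}

theorem Blk.inj (h : Blk B p a) : Function.Injective B := by
  rw [← LinearMap.ker_eq_bot, LinearMap.ker_eq_bot']
  intro x hx
  exact h.nd x fun y => by rw [hx]; rfl

theorem Blk.surj [FiniteDimensional K V] (h : Blk B p a) : Function.Surjective B :=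
  (LinearMap.injective_iff_surjective_of_finrank_eq_finrank
    (f := B) (by rw [Subspace.dual_finrank_eq.symm])).1 h.inj

/-- functionals killing `a` are, modulo `B p`, of the form `B u` with `u ∈ U`. -/
theorem exists_rep [FiniteDimensional K V] (h : Blk B p a)
    (η : V →ₗ[K] K) (hη : η a = 0) :
    ∃ u ∈ UU B p a, ∃ α : K, B u = η + α • B p := by
  obtain ⟨u', hu'⟩ := h.surj η
  refine ⟨u' - (B p u' / B p p) • p, mem_UU.2 ⟨?_, ?_⟩, -(B p u' / B p p), ?_⟩
  · simp [h.pp]
  · have h1 : B a u' = 0 := by rw [h.symm, hu', hη]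
    have h2 : B a p = 0 := by rw [h.symm, h.pa]
    simp [h1, h2]
  · rw [map_sub, map_smul, hu']
    ext y; simp; ring

theorem Blk.a_p (h : Blk B p a) : B a p = 0 := by rw [h.symm, h.pa]

/-- `U` has codimension two -/
theorem finrank_UU [FiniteDimensional K V] (h : Blk B p a) {n : ℕ} (hn : finrank K V = n + 2) :
    finrank K (UU B p a) = n := by
  -- the map `(B p, B a) : V → K × K` is surjective
  let f : V →ₗ[K] K × K := (B p).prod (B a)
  have hker : LinearMap.ker f = UU B p a := by
    ext x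
    simp [f, mem_UU, LinearMap.mem_ker]
  obtain ⟨y, hy⟩ : ∃ y, B a y ≠ 0 := by
    by_contra hcon
    push Not at hcon
    exact h.ne (h.nd a hcon)
  have hsurj : LinearMap.range f = ⊤ := by
    rw [LinearMap.range_eq_top]
    rintro ⟨s, t⟩
    -- y' = y - (B p y / B p p) p has B p y' = 0, B a y' = B a y
    refine ⟨(s / B p p) • p + (t / B a y) • (y - (B p y / B p p) • p), ?_⟩
    have h1 : B p ((s / B p p) • p + (t / B a y) • (y - (B p y / B p p) • p)) = s := by
      have := h.pp
      simp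
      field_simp
      ring
    have h2 : B a ((s / B p p) • p + (t / B a y) • (y - (B p y / B p p) • p)) = t := by
      simp [h.a_p, hy]
    show ((B p) _, (B a) _) = (s, t)
    rw [h1, h2]
  have h3 := LinearMap.finrank_range_add_finrank_ker f
  rw [hsurj, finrank_top, Module.finrank_prod, Module.finrank_self, hker, hn] at h3
  omega

/-- a projection onto `U` which kills `a` when `a ∉ U` -/
theorem exists_proj (U : Submodule K V) (a : V) :
    ∃ π : V →ₗ[K] U, (∀ x : U, π x = x) ∧ (a ∉ U → π a = 0) := by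
  by_cases ha : a ∈ U
  · obtain ⟨W, hW⟩ := Submodule.exists_isCompl U
    exact ⟨U.projectionOnto W hW, fun x => Submodule.projectionOnto_apply_left hW x,
      fun h => absurd ha h⟩
  · have ha0 : a ≠ 0 := by
      rintro rfl; exact ha (Submodule.zero_mem _)
    have hd : Disjoint (Submodule.span K {a}) U :=
      ((Submodule.disjoint_span_singleton' ha0).2 ha).symm
    obtain ⟨W, hle, hW⟩ := hd.exists_isCompl
    have haW : a ∈ W := hle (Submodule.mem_span_singleton_self a)
    refine ⟨U.projectionOnto W hW.symm, fun x => Submodule.projectionOnto_apply_left hW.symm x,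
      fun _ => ?_⟩
    exact Submodule.projectionOnto_apply_right hW.symm ⟨a, haW⟩

/-- automorphisms act transitively on nonzero vectors -/
theorem exists_equiv_apply_eq {W : Type*} [AddCommGroup W] [Module K W] [FiniteDimensional K W]
    {x y : W} (hx : x ≠ 0) (hy : y ≠ 0) : ∃ g : W ≃ₗ[K] W, g x = y := by
  let f := (LinearEquiv.toSpanNonzeroSingleton K W x hx).symm ≪≫ₗ
    LinearEquiv.toSpanNonzeroSingleton K W y hy
  obtain ⟨g, hg⟩ := Submodule.exists_linearEquiv_restrict_eq f
  refine ⟨g, ?_⟩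
  have h1 := hg ⟨x, Submodule.mem_span_singleton_self x⟩
  have h2 : f ⟨x, Submodule.mem_span_singleton_self x⟩ =
      ⟨y, Submodule.mem_span_singleton_self y⟩ := by
    simp only [f, LinearEquiv.trans_apply]
    have : (LinearEquiv.toSpanNonzeroSingleton K W x hx).symm
        ⟨x, Submodule.mem_span_singleton_self x⟩ = 1 := by
      rw [LinearEquiv.symm_apply_eq, LinearEquiv.toSpanNonzeroSingleton_one]
    rw [this, LinearEquiv.toSpanNonzeroSingleton_one]
  rw [h2] at h1
  exact h1.symm

/-- basis of `W` with prescribed nonzero value of a nonzero combination -/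
theorem exists_basis_sum {W : Type*} [AddCommGroup W] [Module K W] [FiniteDimensional K W]
    {n : ℕ} (hn : finrank K W = n) (a : W) (ha : a ≠ 0) :
    ∃ b : Basis (Fin n) K W, ∑ i, b i = a := by
  let c := finBasisOfFinrankEq K W hn
  have hpos : 0 < n := by
    rcases Nat.eq_zero_or_pos n with h0 | h0
    · subst h0
      exact absurd (by
        have := (Module.finrank_zero_iff (R := K)).1 hn
        exact Subsingleton.elim a 0) ha
    · exact h0
  have hs : ∑ i, c i ≠ 0 := by
    intro h0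
    have h1 := Fintype.linearIndependent_iff.1 c.linearIndependent (fun _ => 1) (by simpa using h0)
      ⟨0, hpos⟩
    exact one_ne_zero h1
  obtain ⟨g, hg⟩ := exists_equiv_apply_eq (K := K) hs ha
  refine ⟨c.map g, ?_⟩
  rw [← hg, map_sum]
  simp

theorem exists_basis_zero {W : Type*} [AddCommGroup W] [Module K W] [FiniteDimensional K W]
    {n : ℕ} (hn : finrank K W = n) (a : W) (ha : a ≠ 0) :
    ∃ b : Basis (Fin n) K W, ∀ i : Fin n, (i : ℕ) = 0 → b i = a := by
  let c := finBasisOfFinrankEq K W hn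
  have hpos : 0 < n := by
    rcases Nat.eq_zero_or_pos n with h0 | h0
    · subst h0
      exact absurd (by
        have := (Module.finrank_zero_iff (R := K)).1 hn
        exact Subsingleton.elim a 0) ha
    · exact h0
  obtain ⟨g, hg⟩ := exists_equiv_apply_eq (K := K) (c.ne_zero ⟨0, hpos⟩) ha
  refine ⟨c.map g, fun i hi => ?_⟩
  have : i = ⟨0, hpos⟩ := Fin.ext hi
  rw [this, ← hg]; simp

/-- **J-blocks**: `n+1` points `e 0, .., e n` of `U`. -/
theorem blockJ [FiniteDimensional K V] (h : Blk B p a) {n : ℕ} (hn : finrank K V = n + 2) :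
    ∃ e : Fin (n + 1) → V, (∀ g, e g ∈ UU B p a) ∧ ∀ g, ∀ η : V →ₗ[K] K, η a = 0 →
      ∃ F : V →ₗ[K] V →ₗ[K] K, (∃ α : K, F (e g) = η + α • B p) ∧
        (∀ g', g' ≠ g → ∃ α : K, F (e g') = α • B (e g')) ∧
        (∀ x ∈ UU B p a, F x a = 0) ∧ (g ≠ 0 → ∃ α : K, F a = α • B a) := by
  have hU := finrank_UU h hn
  obtain ⟨π, hπ, hπa⟩ := exists_proj (UU B p a) a
  -- frame
  obtain ⟨b, hb⟩ : ∃ b : Basis (Fin n) K (UU B p a),
      a ∈ UU B p a → ((∑ i, b i : UU B p a) : V) = a := by
    by_cases ha : a ∈ UU B p a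
    · obtain ⟨b, hb⟩ := exists_basis_sum hU (⟨a, ha⟩ : UU B p a)
        (fun h0 => h.ne (congrArg Subtype.val h0))
      exact ⟨b, fun _ => by rw [hb]⟩
    · exact ⟨finBasisOfFinrankEq K _ hU, fun h' => absurd h' ha⟩
  let s : UU B p a := ∑ i, b i
  let e : Fin (n + 1) → V := Fin.cons (s : V) (fun i => (b i : V))
  have e0 : e 0 = s := rfl
  have es : ∀ i : Fin n, e i.succ = b i := fun i => rfl
  refine ⟨e, fun g => ?_, fun g η hη => ?_⟩
  · refine Fin.cases ?_ (fun i => ?_) g
    · rw [e0]; exact s.2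
    · rw [es]; exact (b i).2
  obtain ⟨u, hu, α, hα⟩ := exists_rep h η hη
  -- coordinates of `u`
  let β : Fin n → K := fun i => b.repr ⟨u, hu⟩ i
  have hβ : (∑ i, β i • (b i : V)) = u := by
    have h2 := congrArg ((UU B p a).subtype) (b.sum_repr ⟨u, hu⟩)
    simp only [map_sum, map_smul, Submodule.subtype_apply] at h2
    exact h2
  -- the operator
  refine Fin.cases ?_ (fun g₀ => ?_) g
  · -- g = 0 : A b_i = β_i b_i
    let A : UU B p a →ₗ[K] V := b.constr K (fun i => β i • (b i : V))
    have hA : ∀ i, A (b i) = β i • (b i : V) := fun i => b.constr_basis K _ i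
    refine ⟨B ∘ₗ A ∘ₗ π, ⟨α, ?_⟩, ?_, ?_, fun h0 => absurd rfl h0⟩
    · have h1 : A s = u := by
        rw [← hβ]; simp only [s, map_sum, hA]
      simp only [LinearMap.comp_apply, e0, hπ, h1, hα]
    · intro g' hg'
      obtain ⟨i, rfl⟩ := Fin.exists_succ_eq_of_ne_zero hg'
      refine ⟨β i, ?_⟩
      simp only [LinearMap.comp_apply, es, hπ, hA, map_smul]
    · intro x hx
      have h2 : ∀ y : UU B p a, A y ∈ UU B p a := by
        intro y
        rw [← b.sum_repr y, map_sum]
        refine Submodule.sum_mem _ fun i _ => ?_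
        rw [map_smul, hA]
        exact Submodule.smul_mem _ _ (Submodule.smul_mem _ _ (b i).2)
      simp only [LinearMap.comp_apply]
      rw [h.symm]
      exact (mem_UU.1 (h2 _)).2
  · -- g = succ g₀
    let A : UU B p a →ₗ[K] V := b.constr K (fun i =>
      if i = g₀ then u else (β g₀ - β i) • (b i : V))
    have hA : ∀ i, A (b i) = if i = g₀ then u else (β g₀ - β i) • (b i : V) :=
      fun i => b.constr_basis K _ i
    have hAs : A s = β g₀ • (s : V) := by
      simp only [s, map_sum, hA]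
      rw [← Finset.add_sum_erase _ _ (Finset.mem_univ g₀), if_pos rfl]
      have h3 : ∑ x ∈ Finset.univ.erase g₀, (if x = g₀ then u else (β g₀ - β x) • (b x : V))
          = ∑ x ∈ Finset.univ.erase g₀, (β g₀ - β x) • (b x : V) :=
        Finset.sum_congr rfl fun x hx => if_neg (Finset.ne_of_mem_erase hx)
      rw [h3, ← hβ, ← Finset.add_sum_erase _ (fun i => β i • (b i : V)) (Finset.mem_univ g₀),
        AddSubmonoidClass.coe_finsetSum, Finset.smul_sum,
        ← Finset.add_sum_erase _ (fun i => β g₀ • (b i : V)) (Finset.mem_univ g₀), add_assoc,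
        ← Finset.sum_add_distrib]
      congr 1
      refine Finset.sum_congr rfl fun x _ => ?_
      rw [sub_smul]; abel
    have h2 : ∀ y : UU B p a, A y ∈ UU B p a := by
      intro y
      rw [← b.sum_repr y, map_sum]
      refine Submodule.sum_mem _ fun i _ => ?_
      rw [map_smul, hA]
      refine Submodule.smul_mem _ _ ?_
      split_ifs
      · exact hu
      · exact Submodule.smul_mem _ _ (b i).2
    refine ⟨B ∘ₗ A ∘ₗ π, ⟨α, ?_⟩, ?_, ?_, ?_⟩
    · simp only [LinearMap.comp_apply, es, hπ, hA, if_pos, hα]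
    · intro g' hg'
      rcases Fin.eq_zero_or_eq_succ g' with rfl | ⟨i, rfl⟩
      · refine ⟨β g₀, ?_⟩
        simp only [LinearMap.comp_apply, e0, hπ, hAs, map_smul]
      · have hne : i ≠ g₀ := fun hh => hg' (by rw [hh])
        refine ⟨β g₀ - β i, ?_⟩
        simp only [LinearMap.comp_apply, es, hπ, hA, if_neg hne, map_smul]
    · intro x hx
      simp only [LinearMap.comp_apply]
      rw [h.symm]
      exact (mem_UU.1 (h2 _)).2
    · intro _
      by_cases ha : a ∈ UU B p a
      · refine ⟨β g₀, ?_⟩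
        have h4 : π a = s := by
          have h5 : (s : V) = a := hb ha
          exact (hπ ⟨a, ha⟩).trans (Subtype.ext h5.symm)
        simp only [LinearMap.comp_apply, h4, hAs, map_smul]
        rw [show (s : V) = a from hb ha]
      · refine ⟨0, ?_⟩
        simp only [LinearMap.comp_apply, hπa ha, map_zero, zero_smul]

/-- **N-blocks**: `n` points of `U`. -/
theorem blockN [FiniteDimensional K V] (h : Blk B p a) {n : ℕ} (hn : finrank K V = n + 2) :
    ∃ e : Fin n → V, (∀ g, e g ∈ UU B p a) ∧ ∀ g, ∀ η : V →ₗ[K] K,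
      ∃ F : V →ₗ[K] V →ₗ[K] K, F (e g) = η ∧ (∀ g', g' ≠ g → F (e g') = 0) ∧
        ((g : ℕ) ≠ 0 → F a = 0) := by
  have hU := finrank_UU h hn
  obtain ⟨π, hπ, hπa⟩ := exists_proj (UU B p a) a
  obtain ⟨b, hb⟩ : ∃ b : Basis (Fin n) K (UU B p a),
      a ∈ UU B p a → ∀ i : Fin n, (i : ℕ) = 0 → ((b i : UU B p a) : V) = a := by
    by_cases ha : a ∈ UU B p a
    · obtain ⟨b, hb⟩ := exists_basis_zero hU (⟨a, ha⟩ : UU B p a)
        (fun h0 => h.ne (congrArg Subtype.val h0))
      exact ⟨b, fun _ i hi => by rw [hb i hi]⟩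
    · exact ⟨finBasisOfFinrankEq K _ hU, fun h' => absurd h' ha⟩
  refine ⟨fun i => b i, fun g => (b g).2, fun g η => ?_⟩
  refine ⟨(b.coord g ∘ₗ π).smulRight η, ?_, ?_, ?_⟩
  · ext y
    simp [hπ]
  · intro g' hg'
    ext y
    simp [hπ, hg']
  · intro hg0
    by_cases ha : a ∈ UU B p a
    · have hpos : 0 < n := lt_of_le_of_lt (Nat.zero_le _) g.2
      have h4 : π a = b ⟨0, hpos⟩ := by
        have h5 := hb ha ⟨0, hpos⟩ rfl
        exact (hπ ⟨a, ha⟩).trans (Subtype.ext h5.symm)
      ext y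
      have h7 : (⟨0, hpos⟩ : Fin n) ≠ g := fun hh => hg0 (by rw [← hh])
      simp [h4, h7]
    · ext y
      simp [hπa ha]

/-- **block one** -/
theorem block1 (h : Blk B p a) {e₁ : V} (he : e₁ ∈ UU B p a) (he' : B e₁ e₁ ≠ 0)
    (η : V →ₗ[K] K) :
    ∃ F : V →ₗ[K] V →ₗ[K] K, F e₁ = η ∧ (∀ x, B e₁ x = 0 → F x = 0) ∧ F a = 0 := by
  refine ⟨((B e₁ e₁)⁻¹ • B e₁).smulRight η, ?_, ?_, ?_⟩
  · ext y; simp [he']
  · intro x hx; ext y; simp [hx]
  · have : B e₁ a = 0 := by rw [h.symm]; exact (mem_UU.1 he).2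
    ext y; simp [this]

end Crest.Agent.R042.DegInterp910
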