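import Mathlib
import Crest.Agent.R042.DegInterp_910

/-!
Row 42 (S0059), label level: TWO-COPY one-block interpolation lemmas (left copy `(V,B,p,a)`,
right copy `(V',B',p',a')`, e.g. the Frobenius twist), valid for every pair (P,P'), also with
a degenerate plane.  Frames are explicit, so the mirror statements are the same lemmas with the
two copies exchanged.
-/

set_option autoImplicit false

namespace Crest.Agent.R042.DegInterp2_144

open Module
open Crest.Agent.R042.DegInterp910

variable {K : Type*} [Field K] {V V' : Type*} [AddCommGroup V] [Module K V]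
  [AddCommGroup V'] [Module K V']

/-- J-frame: `e 1, .., e n` a basis of `U`, `e 0` their sum, `e 0 = a` if `a ∈ U`. -/
structure FrJ (B : V →ₗ[K] V →ₗ[K] K) (p a : V) {n : ℕ} (e : Fin (n + 1) → V) : Prop where
  li : LinearIndependent K (fun i : Fin n => e i.succ)
  mem : ∀ i : Fin n, e i.succ ∈ UU B p a
  zero : e 0 = ∑ i : Fin n, e i.succ
  deg : a ∈ UU B p a → e 0 = a

/-- N-frame: `e 0, .., e (n-1)` a basis of `U`, `e 0 = a` if `a ∈ U`. -/
structure FrN (B : V →ₗ[K] V →ₗ[K] K) (p a : V) {n : ℕ} (e : Fin n → V) : Prop where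
  li : LinearIndependent K e
  mem : ∀ i, e i ∈ UU B p a
  deg : a ∈ UU B p a → ∀ i : Fin n, (i : ℕ) = 0 → e i = a

variable {B : V →ₗ[K] V →ₗ[K] K} {p a : V} {B' : V' →ₗ[K] V' →ₗ[K] K} {p' a' : V'}

theorem FrJ.mem_all {n : ℕ} {e : Fin (n + 1) → V} (he : FrJ B p a e) (g : Fin (n + 1)) :
    e g ∈ UU B p a := by
  refine Fin.cases ?_ (fun i => he.mem i) g
  rw [he.zero]
  exact Submodule.sum_mem _ fun i _ => he.mem i

theorem exists_frJ [FiniteDimensional K V] (h : Blk B p a) {n : ℕ} (hn : finrank K V = n + 2) :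
    ∃ e : Fin (n + 1) → V, FrJ B p a e := by
  have hU := finrank_UU h hn
  obtain ⟨b, hb⟩ : ∃ b : Basis (Fin n) K (UU B p a),
      a ∈ UU B p a → ((∑ i, b i : UU B p a) : V) = a := by
    by_cases ha : a ∈ UU B p a
    · obtain ⟨b, hb⟩ := exists_basis_sum hU (⟨a, ha⟩ : UU B p a)
        (fun h0 => h.ne (congrArg Subtype.val h0))
      exact ⟨b, fun _ => by rw [hb]⟩
    · exact ⟨finBasisOfFinrankEq K _ hU, fun h' => absurd h' ha⟩
  let s : UU B p a := ∑ i, b i
  let e : Fin (n + 1) → V := Fin.cons (s : V) (fun i => (b i : V))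
  have e0 : e 0 = s := rfl
  have es : ∀ i : Fin n, e i.succ = b i := fun i => rfl
  refine ⟨e, ⟨?_, fun i => ?_, ?_, fun ha => ?_⟩⟩
  · have h1 : LinearIndependent K (fun i : Fin n => ((b i : UU B p a) : V)) :=
      b.linearIndependent.map' (UU B p a).subtype (Submodule.ker_subtype _)
    exact h1
  · rw [es]; exact (b i).2
  · rw [e0]
    simp only [es, s, AddSubmonoidClass.coe_finsetSum]
  · rw [e0]; exact hb ha

theorem exists_frN [FiniteDimensional K V] (h : Blk B p a) {n : ℕ} (hn : finrank K V = n + 2) :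
    ∃ e : Fin n → V, FrN B p a e := by
  have hU := finrank_UU h hn
  obtain ⟨b, hb⟩ : ∃ b : Basis (Fin n) K (UU B p a),
      a ∈ UU B p a → ∀ i : Fin n, (i : ℕ) = 0 → ((b i : UU B p a) : V) = a := by
    by_cases ha : a ∈ UU B p a
    · obtain ⟨b, hb⟩ := exists_basis_zero hU (⟨a, ha⟩ : UU B p a)
        (fun h0 => h.ne (congrArg Subtype.val h0))
      exact ⟨b, fun _ i hi => by rw [hb i hi]⟩
    · exact ⟨finBasisOfFinrankEq K _ hU, fun h' => absurd h' ha⟩
  refine ⟨fun i => b i, ⟨?_, fun i => (b i).2, hb⟩⟩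
  exact b.linearIndependent.map' (UU B p a).subtype (Submodule.ker_subtype _)

/-- a family of the right size, independent, inside `U`, is a basis of `U` -/
theorem exists_basis_of_li [FiniteDimensional K V] (h : Blk B p a) {n : ℕ}
    (hn : finrank K V = n + 2) {e : Fin n → V} (li : LinearIndependent K e)
    (mem : ∀ i, e i ∈ UU B p a) :
    ∃ b : Basis (Fin n) K (UU B p a), ∀ i, ((b i : UU B p a) : V) = e i := by
  have hU := finrank_UU h hn
  have h1 : LinearIndependent K (fun i : Fin n => (⟨e i, mem i⟩ : UU B p a)) := by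
    apply LinearIndependent.of_comp (UU B p a).subtype
    exact li
  rcases Nat.eq_zero_or_pos n with h0 | h0
  · subst h0
    exact ⟨finBasisOfFinrankEq K _ hU, fun i => i.elim0⟩
  · have : Nonempty (Fin n) := ⟨⟨0, h0⟩⟩
    refine ⟨basisOfLinearIndependentOfCardEqFinrank h1 (by rw [Fintype.card_fin, hU]), fun i => ?_⟩
    rw [coe_basisOfLinearIndependentOfCardEqFinrank]

/-- **J-blocks, two copies.** -/
theorem blockJ2 [FiniteDimensional K V] [FiniteDimensional K V'] (h : Blk B p a)
    (h' : Blk B' p' a') {n : ℕ} (hn : finrank K V = n + 2) (hn' : finrank K V' = n + 2)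
    {e : Fin (n + 1) → V} (he : FrJ B p a e) {e' : Fin (n + 1) → V'} (he' : FrJ B' p' a' e')
    (hdeg : a ∈ UU B p a → a' ∈ UU B' p' a') (g : Fin (n + 1)) (η : V' →ₗ[K] K)
    (hη : η a' = 0) :
    ∃ F : V →ₗ[K] V' →ₗ[K] K, (∃ α : K, F (e g) = η + α • B' p') ∧
        (∀ g', g' ≠ g → ∃ α : K, F (e g') = α • B' (e' g')) ∧
        (∀ x ∈ UU B p a, F x a' = 0) ∧ (g ≠ 0 → ∃ α : K, F a = α • B' a') := by
  obtain ⟨π, hπ, hπa⟩ := exists_proj (UU B p a) a
  obtain ⟨b, hb⟩ := exists_basis_of_li h hn he.li he.mem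
  obtain ⟨b', hb'⟩ := exists_basis_of_li h' hn' he'.li he'.mem
  let s : UU B p a := ∑ i, b i
  have e0 : e 0 = s := by
    rw [he.zero]; simp only [s, AddSubmonoidClass.coe_finsetSum, hb]
  have es : ∀ i : Fin n, e i.succ = b i := fun i => (hb i).symm
  obtain ⟨u, hu, α, hα⟩ := exists_rep h' η hη
  let β : Fin n → K := fun i => b'.repr ⟨u, hu⟩ i
  have hβ : (∑ i, β i • e' (Fin.succ i)) = u := by
    have h2 := congrArg ((UU B' p' a').subtype) (b'.sum_repr ⟨u, hu⟩)
    simp only [map_sum, map_smul, Submodule.subtype_apply, hb'] at h2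
    exact h2
  have hmem : ∀ i : Fin n, e' i.succ ∈ UU B' p' a' := he'.mem
  refine Fin.cases ?_ (fun g₀ => ?_) g
  · let A : UU B p a →ₗ[K] V' := b.constr K (fun i => β i • e' (Fin.succ i))
    have hA : ∀ i, A (b i) = β i • e' (Fin.succ i) := fun i => b.constr_basis K _ i
    refine ⟨B' ∘ₗ A ∘ₗ π, ⟨α, ?_⟩, ?_, ?_, fun h0 => absurd rfl h0⟩
    · have h1 : A s = u := by
        rw [← hβ]; simp only [s, map_sum, hA]
      simp only [LinearMap.comp_apply, e0, hπ, h1, hα]
    · intro g' hg'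
      obtain ⟨i, rfl⟩ := Fin.exists_succ_eq_of_ne_zero hg'
      refine ⟨β i, ?_⟩
      simp only [LinearMap.comp_apply, es, hπ, hA, map_smul]
    · intro x hx
      have h2 : ∀ y : UU B p a, A y ∈ UU B' p' a' := by
        intro y
        rw [← b.sum_repr y, map_sum]
        refine Submodule.sum_mem _ fun i _ => ?_
        rw [map_smul, hA]
        exact Submodule.smul_mem _ _ (Submodule.smul_mem _ _ (hmem i))
      simp only [LinearMap.comp_apply]
      rw [h'.symm]
      exact (mem_UU.1 (h2 _)).2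
  · let A : UU B p a →ₗ[K] V' := b.constr K (fun i =>
      if i = g₀ then u else (β g₀ - β i) • e' (Fin.succ i))
    have hA : ∀ i, A (b i) = if i = g₀ then u else (β g₀ - β i) • e' (Fin.succ i) :=
      fun i => b.constr_basis K _ i
    have hAs : A s = β g₀ • e' 0 := by
      rw [he'.zero]
      simp only [s, map_sum, hA]
      rw [← Finset.add_sum_erase _ _ (Finset.mem_univ g₀), if_pos rfl]
      have h3 : ∑ x ∈ Finset.univ.erase g₀, (if x = g₀ then u else (β g₀ - β x) • e' (Fin.succ x))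
          = ∑ x ∈ Finset.univ.erase g₀, (β g₀ - β x) • e' (Fin.succ x) :=
        Finset.sum_congr rfl fun x hx => if_neg (Finset.ne_of_mem_erase hx)
      rw [h3, ← hβ, ← Finset.add_sum_erase _ (fun i => β i • e' (Fin.succ i)) (Finset.mem_univ g₀),
        Finset.smul_sum,
        ← Finset.add_sum_erase _ (fun i => β g₀ • e' (Fin.succ i)) (Finset.mem_univ g₀), add_assoc,
        ← Finset.sum_add_distrib]
      congr 1
      refine Finset.sum_congr rfl fun x _ => ?_
      rw [sub_smul]; abel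
    have h2 : ∀ y : UU B p a, A y ∈ UU B' p' a' := by
      intro y
      rw [← b.sum_repr y, map_sum]
      refine Submodule.sum_mem _ fun i _ => ?_
      rw [map_smul, hA]
      refine Submodule.smul_mem _ _ ?_
      split_ifs
      · exact hu
      · exact Submodule.smul_mem _ _ (hmem i)
    refine ⟨B' ∘ₗ A ∘ₗ π, ⟨α, ?_⟩, ?_, ?_, ?_⟩
    · simp only [LinearMap.comp_apply, es, hπ, hA, if_pos, hα]
    · intro g' hg'
      rcases Fin.eq_zero_or_eq_succ g' with rfl | ⟨i, rfl⟩
      · refine ⟨β g₀, ?_⟩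
        simp only [LinearMap.comp_apply, e0, hπ, hAs, map_smul]
      · have hne : i ≠ g₀ := fun hh => hg' (by rw [hh])
        refine ⟨β g₀ - β i, ?_⟩
        simp only [LinearMap.comp_apply, es, hπ, hA, if_neg hne, map_smul]
    · intro x hx
      simp only [LinearMap.comp_apply]
      rw [h'.symm]
      exact (mem_UU.1 (h2 _)).2
    · intro _
      by_cases ha : a ∈ UU B p a
      · refine ⟨β g₀, ?_⟩
        have h4 : π a = s := by
          have h5 : (s : V) = a := by rw [← e0]; exact he.deg ha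
          exact (hπ ⟨a, ha⟩).trans (Subtype.ext h5.symm)
        simp only [LinearMap.comp_apply, h4, hAs, map_smul]
        rw [he'.deg (hdeg ha)]
      · refine ⟨0, ?_⟩
        simp only [LinearMap.comp_apply, hπa ha, map_zero, zero_smul]

/-- **N-blocks, two copies** (`V'` arbitrary). -/
theorem blockN2 [FiniteDimensional K V] (h : Blk B p a) {n : ℕ} (hn : finrank K V = n + 2)
    {e : Fin n → V} (he : FrN B p a e) (g : Fin n) (η : V' →ₗ[K] K) :
    ∃ F : V →ₗ[K] V' →ₗ[K] K, F (e g) = η ∧ (∀ g', g' ≠ g → F (e g') = 0) ∧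
        ((g : ℕ) ≠ 0 → F a = 0) := by
  obtain ⟨π, hπ, hπa⟩ := exists_proj (UU B p a) a
  obtain ⟨b, hb⟩ := exists_basis_of_li h hn he.li he.mem
  refine ⟨(b.coord g ∘ₗ π).smulRight η, ?_, ?_, ?_⟩
  · ext y
    simp [← hb, hπ]
  · intro g' hg'
    ext y
    simp [← hb, hπ, hg']
  · intro hg0
    by_cases ha : a ∈ UU B p a
    · have hpos : 0 < n := lt_of_le_of_lt (Nat.zero_le _) g.2
      have h4 : π a = b ⟨0, hpos⟩ := by
        have h5 : ((b ⟨0, hpos⟩ : UU B p a) : V) = a := by
          rw [hb]; exact he.deg ha ⟨0, hpos⟩ rfl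
        exact (hπ ⟨a, ha⟩).trans (Subtype.ext h5.symm)
      ext y
      have h7 : (⟨0, hpos⟩ : Fin n) ≠ g := fun hh => hg0 (by rw [← hh])
      simp [h4, h7]
    · ext y
      simp [hπa ha]

/-- **block one, two copies** (`V'` arbitrary). -/
theorem block12 (h : Blk B p a) {e₁ : V} (he : e₁ ∈ UU B p a) (he' : B e₁ e₁ ≠ 0)
    (η : V' →ₗ[K] K) :
    ∃ F : V →ₗ[K] V' →ₗ[K] K, F e₁ = η ∧ (∀ x, B e₁ x = 0 → F x = 0) ∧ F a = 0 := by
  refine ⟨((B e₁ e₁)⁻¹ • B e₁).smulRight η, ?_, ?_, ?_⟩
  · ext y; simp [he']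
  · intro x hx; ext y; simp [hx]
  · have : B e₁ a = 0 := by rw [h.symm]; exact (mem_UU.1 he).2
    ext y; simp [this]

/-! ### semilinear transport of blocks and frames -/

section twist

/-- `φ` is a `σ`-semilinear bijection carrying `B` to `B'`. -/
structure Twist (σ : K ≃+* K) (B : V →ₗ[K] V →ₗ[K] K) (B' : V' →ₗ[K] V' →ₗ[K] K)
    (φ : V → V') : Prop where
  add : ∀ x y, φ (x + y) = φ x + φ y
  smul : ∀ (c : K) x, φ (c • x) = σ c • φ x
  bij : Function.Bijective φ
  form : ∀ x y, B' (φ x) (φ y) = σ (B x y)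

variable {σ : K ≃+* K} {φ : V → V'}

theorem Twist.zero (T : Twist σ B B' φ) : φ 0 = 0 := by
  have := T.add 0 0
  simpa using this

theorem Twist.sum (T : Twist σ B B' φ) {ι : Type*} (s : Finset ι) (f : ι → V) :
    φ (∑ i ∈ s, f i) = ∑ i ∈ s, φ (f i) := by
  classical
  induction s using Finset.induction_on with
  | empty => simpa using T.zero
  | insert i s hi ih => rw [Finset.sum_insert hi, Finset.sum_insert hi, T.add, ih]

theorem Twist.mem_UU_iff (T : Twist σ B B' φ) {x : V} :
    φ x ∈ UU B' (φ p) (φ a) ↔ x ∈ UU B p a := by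
  rw [mem_UU, mem_UU, T.form, T.form]
  simp

theorem Twist.blk (T : Twist σ B B' φ) (h : Blk B p a) : Blk B' (φ p) (φ a) where
  symm := by
    intro x y
    obtain ⟨x, rfl⟩ := T.bij.2 x
    obtain ⟨y, rfl⟩ := T.bij.2 y
    rw [T.form, T.form, h.symm]
  nd := by
    intro x hx
    obtain ⟨x, rfl⟩ := T.bij.2 x
    have : x = 0 := h.nd x fun y => by
      have := hx (φ y)
      rw [T.form] at this
      simpa using this
    rw [this, T.zero]
  pp := by rw [T.form]; simpa using h.pp
  pa := by rw [T.form, h.pa, map_zero]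
  ne := by
    intro h0
    exact h.ne (T.bij.1 (by rw [h0, T.zero]))

theorem Twist.li (T : Twist σ B B' φ) {n : ℕ} {e : Fin n → V} (h : LinearIndependent K e) :
    LinearIndependent K (fun i => φ (e i)) := by
  rw [Fintype.linearIndependent_iff] at h ⊢
  intro c hc i
  have h1 : ∑ i, (σ.symm (c i)) • e i = 0 := by
    apply T.bij.1
    rw [T.zero, T.sum]
    simpa [T.smul] using hc
  have h2 := h _ h1 i
  have h3 := congrArg σ h2
  simpa using h3

theorem Twist.frJ (T : Twist σ B B' φ) {n : ℕ} {e : Fin (n + 1) → V} (he : FrJ B p a e) :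
    FrJ B' (φ p) (φ a) (fun g => φ (e g)) where
  li := T.li he.li
  mem := fun i => T.mem_UU_iff.2 (he.mem i)
  zero := by rw [he.zero, T.sum]
  deg := fun h => by rw [he.deg (T.mem_UU_iff.1 h)]

theorem Twist.frN (T : Twist σ B B' φ) {n : ℕ} {e : Fin n → V} (he : FrN B p a e) :
    FrN B' (φ p) (φ a) (fun g => φ (e g)) where
  li := T.li he.li
  mem := fun i => T.mem_UU_iff.2 (he.mem i)
  deg := fun h i hi => by rw [he.deg (T.mem_UU_iff.1 h) i hi]

/-- the standard twist: `σ` applied to the coordinates, `B` with matrix fixed by `σ`. -/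
theorem twist_coord {ι : Type*} (σ : K ≃+* K) (B : (ι → K) →ₗ[K] (ι → K) →ₗ[K] K)
    (hB : ∀ x y : ι → K, B (fun i => σ (x i)) (fun i => σ (y i)) = σ (B x y)) :
    Twist σ B B (fun x i => σ (x i)) where
  add := fun x y => by ext i; simp
  smul := fun c x => by ext i; simp
  bij := by
    refine ⟨fun x y hxy => ?_, fun y => ⟨fun i => σ.symm (y i), by ext i; simp⟩⟩
    ext i
    exact σ.injective (congrFun hxy i)
  form := hB

end twist

end Crest.Agent.R042.DegInterp2_144
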