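import Mathlib
import Crest.Agent.R042.Crit_374

/-! Row 42 / S0058, sec 10.6: the dichotomy "many disjoint hard sets or (NS)". helper822. -/

set_option autoImplicit false
set_option linter.unusedSectionVars false

namespace Crest.Agent.R042.Dicho822

open Finset Crit374

variable {V : Type*} [DecidableEq V]

/-- (NS): no two disjoint subsets of `V0` are both hard for lists of size `k - Δ`. -/
def NS (G : SimpleGraph V) (V0 : Finset V) (k Δ : ℕ) : Prop :=
  ∀ A B : Finset V, A ⊆ V0 → B ⊆ V0 → Disjoint A B →
    ¬ Choos G A (k - Δ) → ¬ Choos G B (k - Δ) → False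

/-- **(10.6)** `phi(W) > k + n Δ`: either `2 ^ n` disjoint subsets with `phi > k`, or a subset `V0`
with `phi(V0) > k'`, `k + Δ ≤ k' ≤ k + n Δ` and (NS). -/
theorem dichotomy (G : SimpleGraph V) (Δ k : ℕ) : ∀ (n : ℕ) (W : Finset V),
    ¬ Choos G W (k + n * Δ) →
    (∃ F : Fin (2 ^ n) → Finset V, (∀ i, F i ⊆ W) ∧ (∀ i j, i ≠ j → Disjoint (F i) (F j)) ∧
      ∀ i, ¬ Choos G (F i) k) ∨
    (∃ V0 ⊆ W, ∃ k', k + Δ ≤ k' ∧ k' ≤ k + n * Δ ∧ ¬ Choos G V0 k' ∧ NS G V0 k' Δ) := by
  intro n
  induction n with
  | zero =>
    intro W hW
    left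
    refine ⟨fun _ => W, fun _ => subset_refl W, ?_, ?_⟩
    · intro i j hij
      have hi := i.isLt
      have hj := j.isLt
      exact absurd (Fin.ext (by omega)) hij
    · intro _
      simpa using hW
  | succ n ih =>
    intro W hW
    by_cases hNS : NS G W (k + (n + 1) * Δ) Δ
    · right
      refine ⟨W, subset_refl W, k + (n + 1) * Δ, ?_, le_refl _, hW, hNS⟩
      nlinarith [Nat.zero_le (n * Δ)]
    · unfold NS at hNS
      push Not at hNS
      obtain ⟨A, B, hAW, hBW, hAB, hA, hB, -⟩ := hNS
      have hk : k + (n + 1) * Δ - Δ = k + n * Δ := by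
        rw [Nat.add_mul, Nat.one_mul]; omega
      rw [hk] at hA hB
      rcases ih A hA with ⟨FA, hFA1, hFA2, hFA3⟩ | ⟨V0, hV0, k', h1, h2, h3, h4⟩
      · rcases ih B hB with ⟨FB, hFB1, hFB2, hFB3⟩ | ⟨V0, hV0, k', h1, h2, h3, h4⟩
        · left
          have hp : 2 ^ (n + 1) = 2 ^ n + 2 ^ n := by rw [pow_succ]; omega
          refine ⟨fun i => if h : i.val < 2 ^ n then FA ⟨i.val, h⟩
            else FB ⟨i.val - 2 ^ n, by have := i.isLt; omega⟩, ?_, ?_, ?_⟩
          · intro i
            by_cases h : i.val < 2 ^ n
            · simp only [h, dite_true]; exact (hFA1 _).trans hAW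
            · simp only [h, dite_false]; exact (hFB1 _).trans hBW
          · intro i j hij
            have hv : i.val ≠ j.val := fun h => hij (Fin.ext h)
            by_cases h : i.val < 2 ^ n <;> by_cases h' : j.val < 2 ^ n
            · simp only [h, h', dite_true]
              exact hFA2 _ _ (fun e => hv (by simpa using e))
            · simp only [h, h', dite_true, dite_false]
              exact Finset.disjoint_of_subset_left (hFA1 _)
                (Finset.disjoint_of_subset_right (hFB1 _) hAB)
            · simp only [h, h', dite_true, dite_false]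
              exact (Finset.disjoint_of_subset_left (hFA1 _)
                (Finset.disjoint_of_subset_right (hFB1 _) hAB)).symm
            · simp only [h, h', dite_false]
              refine hFB2 _ _ (fun e => hv ?_)
              have := congrArg Fin.val e
              simp only at this
              omega
          · intro i
            by_cases h : i.val < 2 ^ n
            · simp only [h, dite_true]; exact hFA3 _
            · simp only [h, dite_false]; exact hFB3 _
        · right
          refine ⟨V0, hV0.trans hBW, k', h1, h2.trans ?_, h3, h4⟩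
          nlinarith
      · right
        refine ⟨V0, hV0.trans hAW, k', h1, h2.trans ?_, h3, h4⟩
        nlinarith

end Crest.Agent.R042.Dicho822
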