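import Mathlib

/-!
# Base-`Q` digit substitution and Schwartz–Zippel

`K` finite field (or any field here), `h` a nonzero polynomial in the variables `X (v,i)`,
`v ∈ V`, `i < k`, every monomial of `h` having degree at most `D` in each block `i`, `D < Q`.
Substituting `X (v,i) := x v ^ (Q^i)` gives a nonzero polynomial, and over a field of
cardinality `Q^k` at most a `D/(Q-1)` fraction of the `x : V → K` are zeros.
-/

namespace Crest.Agent.R042.DigitSZ_853
open MvPolynomial Finset

variable {V : Type*} [Fintype V] [DecidableEq V] {K : Type*} [Field K] {k : ℕ}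

/-- digits to number, blockwise -/
noncomputable def collapse (Q : ℕ) (m : (V × Fin k) →₀ ℕ) : V →₀ ℕ :=
  Finsupp.equivFunOnFinite.symm fun v => ∑ i : Fin k, m (v, i) * Q ^ (i : ℕ)

omit [DecidableEq V] in
lemma collapse_apply (Q : ℕ) (m : (V × Fin k) →₀ ℕ) (v : V) :
    collapse Q m v = ∑ i : Fin k, m (v, i) * Q ^ (i : ℕ) := rfl

omit [DecidableEq V] in
lemma collapse_inj {Q : ℕ} {m m' : (V × Fin k) →₀ ℕ} (hm : ∀ p, m p < Q) (hm' : ∀ p, m' p < Q)
    (h : collapse Q m = collapse Q m') : m = m' := by
  ext ⟨v, i⟩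
  have hv := DFunLike.congr_fun h v
  rw [collapse_apply, collapse_apply] at hv
  have := (finFunctionFinEquiv (m := Q) (n := k)).injective
    (a₁ := fun i => ⟨m (v, i), hm _⟩) (a₂ := fun i => ⟨m' (v, i), hm' _⟩) (by
      apply Fin.ext
      rw [finFunctionFinEquiv_apply_val, finFunctionFinEquiv_apply_val]
      exact hv)
  have h2 := congrFun this i
  simpa using congrArg Fin.val h2

/-- the substituted polynomial -/
noncomputable def subst (Q : ℕ) (h : MvPolynomial (V × Fin k) K) : MvPolynomial V K :=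
  aeval (fun p : V × Fin k => (X p.1 : MvPolynomial V K) ^ (Q ^ (p.2 : ℕ))) h

omit [Fintype V] [DecidableEq V] in
lemma eval_subst (Q : ℕ) (h : MvPolynomial (V × Fin k) K) (x : V → K) :
    eval x (subst Q h) = eval (fun p : V × Fin k => x p.1 ^ (Q ^ (p.2 : ℕ))) h := by
  unfold subst
  have : (MvPolynomial.eval x).comp (aeval (R := K) (fun p : V × Fin k =>
      (X p.1 : MvPolynomial V K) ^ (Q ^ (p.2 : ℕ)))).toRingHom
      = MvPolynomial.eval (fun p : V × Fin k => x p.1 ^ (Q ^ (p.2 : ℕ))) := by
    apply MvPolynomial.ringHom_ext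
    · intro a; simp
    · intro p; simp
  exact congrArg (fun f => f h) this

omit [DecidableEq V] in
lemma subst_monomial (Q : ℕ) (m : (V × Fin k) →₀ ℕ) (c : K) :
    subst Q (monomial m c) = monomial (collapse Q m) c := by
  unfold subst
  rw [aeval_monomial]
  rw [MvPolynomial.monomial_eq (s := collapse Q m)]
  congr 1
  rw [Finsupp.prod_fintype _ _ (by simp), Finsupp.prod_fintype _ _ (by simp)]
  rw [Fintype.prod_prod_type]
  refine Finset.prod_congr rfl fun v _ => ?_
  rw [collapse_apply, ← Finset.prod_pow_eq_pow_sum]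
  refine Finset.prod_congr rfl fun i _ => ?_
  rw [← pow_mul, mul_comm]

omit [DecidableEq V] in
lemma subst_eq_sum (Q : ℕ) (h : MvPolynomial (V × Fin k) K) :
    subst Q h = ∑ m ∈ h.support, monomial (collapse Q m) (coeff m h) := by
  conv_lhs => rw [h.as_sum]
  unfold subst
  rw [map_sum]
  exact Finset.sum_congr rfl fun m _ => subst_monomial Q m _

lemma coeff_subst {Q : ℕ} {h : MvPolynomial (V × Fin k) K}
    (hdeg : ∀ m ∈ h.support, ∀ p, m p < Q) {m : (V × Fin k) →₀ ℕ} (hm : m ∈ h.support) :
    coeff (collapse Q m) (subst Q h) = coeff m h := by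
  classical
  rw [subst_eq_sum, coeff_sum]
  rw [Finset.sum_eq_single m]
  · simp
  · intro m' hm' hne
    rw [coeff_monomial, if_neg]
    intro heq
    exact hne (collapse_inj (hdeg _ hm') (hdeg _ hm) heq)
  · intro h'; exact absurd hm h'

lemma subst_ne_zero {Q : ℕ} {h : MvPolynomial (V × Fin k) K}
    (hdeg : ∀ m ∈ h.support, ∀ p, m p < Q) (hne : h ≠ 0) : subst Q h ≠ 0 := by
  obtain ⟨m, hm⟩ := support_nonempty.2 hne
  intro h0
  have := coeff_subst hdeg hm
  rw [h0, coeff_zero] at this
  exact (mem_support_iff.1 hm) this.symm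

lemma geom_mul (Q k : ℕ) (hQ : 1 ≤ Q) : (∑ i : Fin k, Q ^ (i : ℕ)) * (Q - 1) + 1 = Q ^ k := by
  have h1 : (∑ i : Fin k, Q ^ (i : ℕ)) = ∑ i ∈ Finset.range k, Q ^ i :=
    (Finset.sum_range (fun i => Q ^ i)).symm
  rw [h1]
  induction k with
  | zero => simp
  | succ k ih =>
    rw [Finset.sum_range_succ, add_mul, pow_succ]
    have : (∑ i ∈ Finset.range k, Q ^ i) * (Q - 1) + 1 = Q ^ k := by
      apply ih
      exact (Finset.sum_range (fun i => Q ^ i)).symm
    obtain ⟨q, rfl⟩ : ∃ q, Q = q + 1 := ⟨Q - 1, by omega⟩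
    simp only [Nat.add_sub_cancel] at this ⊢
    nlinarith [this]

omit [DecidableEq V] in
lemma collapse_sum_le {Q D : ℕ} (m : (V × Fin k) →₀ ℕ) (hm : ∀ i, ∑ v, m (v, i) ≤ D) :
    ∑ v, collapse Q m v ≤ D * ∑ i : Fin k, Q ^ (i : ℕ) := by
  simp only [collapse_apply]
  rw [Finset.sum_comm, Finset.mul_sum]
  refine Finset.sum_le_sum fun i _ => ?_
  rw [← Finset.sum_mul]
  exact Nat.mul_le_mul_right _ (hm i)

/-- Schwartz–Zippel, plain form over an arbitrary finite index type: number of zeros. -/
lemma sz_card [Fintype K] [DecidableEq K] (p : MvPolynomial V K) (hp : p ≠ 0) :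
    (Finset.univ.filter fun x : V → K => eval x p = 0).card * Fintype.card K
      ≤ p.totalDegree * Fintype.card K ^ Fintype.card V := by
  classical
  let e := Fintype.equivFin V
  let p' := rename e p
  have hp' : p' ≠ 0 := by
    intro h
    apply hp
    exact rename_injective e e.injective (by simpa [p'] using h)
  have h1 := schwartz_zippel_totalDegree hp' (Finset.univ : Finset K)
  have hcard : (Finset.univ.filter fun x : V → K => eval x p = 0).card
      = #{f ∈ Fintype.piFinset fun _ ↦ (Finset.univ : Finset K) | eval f p' = 0} := by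
    refine Finset.card_bij' (fun x _ => fun i => x (e.symm i)) (fun f _ => fun v => f (e v)) ?_ ?_ ?_ ?_
    · intro x hx
      simp only [Finset.mem_filter, Finset.mem_univ, true_and, Fintype.mem_piFinset, implies_true,
        p', eval_rename] at hx ⊢
      have hc : ((fun i => x (e.symm i)) ∘ ⇑e) = x := by ext v; simp
      rw [hc]; exact hx
    · intro f hf
      simp only [Finset.mem_filter, Finset.mem_univ, true_and, Fintype.mem_piFinset, implies_true,
        p', eval_rename] at hf ⊢
      exact hf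
    · intro x _; ext v; simp
    · intro f _; ext v; simp
  have htd : p'.totalDegree ≤ p.totalDegree := totalDegree_rename_le _ _
  rw [← hcard] at h1
  have hK : (0 : ℚ≥0) < (Fintype.card K : ℚ≥0) := by exact_mod_cast Fintype.card_pos
  rw [Finset.card_univ, div_le_div_iff₀ (by positivity) hK] at h1
  have h2 : ((Finset.univ.filter fun x : V → K => eval x p = 0).card * Fintype.card K : ℚ≥0)
      ≤ p'.totalDegree * (Fintype.card K : ℚ≥0) ^ Fintype.card V := h1
  have h3 : (Finset.univ.filter fun x : V → K => eval x p = 0).card * Fintype.card K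
      ≤ p'.totalDegree * Fintype.card K ^ Fintype.card V := by exact_mod_cast h2
  exact h3.trans (Nat.mul_le_mul_right _ htd)

/-- **digit Schwartz–Zippel**: the zeros of the substituted function. -/
theorem digit_sz [Fintype K] [DecidableEq K] {Q D : ℕ} (hD : D < Q)
    (hK : Fintype.card K = Q ^ k)
    (h : MvPolynomial (V × Fin k) K) (hne : h ≠ 0)
    (hdeg : ∀ m ∈ h.support, ∀ i, ∑ v, m (v, i) ≤ D) :
    (Finset.univ.filter fun x : V → K =>
        eval (fun p : V × Fin k => x p.1 ^ (Q ^ (p.2 : ℕ))) h = 0).card * (Q - 1)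
      ≤ D * Fintype.card K ^ Fintype.card V := by
  have hlt : ∀ m ∈ h.support, ∀ p, m p < Q := by
    intro m hm p
    refine lt_of_le_of_lt ?_ hD
    refine le_trans ?_ (hdeg m hm p.2)
    exact Finset.single_le_sum (f := fun v => m (v, p.2)) (fun _ _ => Nat.zero_le _)
      (Finset.mem_univ p.1)
  have hne' := subst_ne_zero hlt hne
  have h1 := sz_card (subst Q h) hne'
  have hset : (Finset.univ.filter fun x : V → K =>
        eval (fun p : V × Fin k => x p.1 ^ (Q ^ (p.2 : ℕ))) h = 0)
      = Finset.univ.filter fun x : V → K => eval x (subst Q h) = 0 := by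
    ext x; simp [eval_subst]
  rw [hset]
  have htd : (subst Q h).totalDegree ≤ D * ∑ i : Fin k, Q ^ (i : ℕ) := by
    rw [subst_eq_sum]
    refine totalDegree_finsetSum_le fun m hm => ?_
    refine (totalDegree_monomial_le _ _).trans ?_
    rw [Finsupp.sum_fintype _ _ (by simp)]
    exact collapse_sum_le m (hdeg m hm)
  have hQ : 1 ≤ Q := by omega
  have hg := geom_mul Q k hQ
  set Z := (Finset.univ.filter fun x : V → K => eval x (subst Q h) = 0).card
  set S := ∑ i : Fin k, Q ^ (i : ℕ)
  set N := Fintype.card K ^ Fintype.card V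
  have hKpos : 0 < Fintype.card K := Fintype.card_pos
  have h2 : Z * Fintype.card K ≤ D * S * N := h1.trans (Nat.mul_le_mul_right _ htd)
  have h3 : Z * (Q - 1) * Fintype.card K ≤ D * N * Fintype.card K := by
    calc Z * (Q - 1) * Fintype.card K = Z * Fintype.card K * (Q - 1) := by ring
      _ ≤ D * S * N * (Q - 1) := Nat.mul_le_mul_right _ h2
      _ = D * N * (S * (Q - 1)) := by ring
      _ ≤ D * N * Fintype.card K := by
          refine Nat.mul_le_mul_left _ ?_
          rw [hK, ← hg]; omega
  exact Nat.le_of_mul_le_mul_right h3 hKpos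

end Crest.Agent.R042.DigitSZ_853
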