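import Crest.Agent.R042.TEInst_755

/-!
# Row 42 / S0059: dimension of the windows of the frozen family

`dim_KK (T_P ⊓ T_R) = (2d-1)^kp`, `dim_k0 U_{P,R} = L * ([KK:k0] * (2d-1)^kp)` for `b_P ≠ b_R`.
-/

set_option autoImplicit false
set_option linter.unusedSectionVars false

namespace Crest.Agent.R042.Dim755

open Finset Function Crest.Agent.R042.TEInst755

section Tensor

open Crest.Agent.R042.Spec730

variable {F ι : Type*} [Field F] [Fintype ι] [DecidableEq ι] {k n : ℕ}

/-- full contraction -/
def ct (g : Fin k → (ι → F) →ₗ[F] F) : ((Fin k → ι) → F) →ₗ[F] F where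
  toFun t := ∑ al : Fin k → ι, (∏ i, g i (Pi.single (al i) 1)) * t al
  map_add' s t := by simp [mul_add, sum_add_distrib]
  map_smul' c t := by
    simp only [Pi.smul_apply, smul_eq_mul, RingHom.id_apply, mul_sum]
    exact sum_congr rfl fun al _ => by ring

theorem ct_pure (g : Fin k → (ι → F) →ₗ[F] F) (c : Fin k → ι → F) :
    ct g (Spec730.pure c) = ∏ i, g i (c i) := by
  have h : ∀ i, g i (c i) = ∑ x : ι, g i (Pi.single x 1) * c i x := by
    intro i
    have hc : c i = ∑ x : ι, c i x • (Pi.single x (1 : F) : ι → F) := by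
      funext y
      simp [Finset.sum_apply, Pi.single_apply]
    conv_lhs => rw [hc]
    rw [map_sum]
    exact sum_congr rfl fun x _ => by rw [map_smul, smul_eq_mul, mul_comm]
  simp_rw [h]
  rw [Finset.prod_univ_sum, Fintype.piFinset_univ]
  show ∑ al : Fin k → ι, (∏ i, g i (Pi.single (al i) 1)) * Spec730.pure c al = _
  exact sum_congr rfl fun al _ => by unfold Spec730.pure; rw [Finset.prod_mul_distrib]

theorem ctr_pure (φ : (ι → F) →ₗ[F] F) (i : Fin k) (c : Fin k → ι → F) (h : φ (c i) = 0) :
    ctr φ i (Spec730.pure c) = 0 := by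
  funext al
  unfold ctr
  have h1 : ∀ j : ι, Spec730.pure c (update al i j) =
      c i j * ∏ i' ∈ univ.erase i, c i' (al i') := by
    intro j
    unfold Spec730.pure
    rw [← mul_prod_erase univ _ (mem_univ i), update_self]
    congr 1
    exact prod_congr rfl fun i' hi' => by rw [update_of_ne (ne_of_mem_erase hi')]
  have h2 : φ (c i) = ∑ x : ι, φ (Pi.single x 1) * c i x := by
    have hc : c i = ∑ x : ι, c i x • (Pi.single x (1 : F) : ι → F) := by
      funext y
      simp [Finset.sum_apply, Pi.single_apply]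
    conv_lhs => rw [hc]
    rw [map_sum]
    exact sum_congr rfl fun x _ => by rw [map_smul, smul_eq_mul, mul_comm]
  calc ∑ j, φ (Pi.single j 1) * Spec730.pure c (update al i j) =
      ∑ j, (φ (Pi.single j 1) * c i j) * ∏ i' ∈ univ.erase i, c i' (al i') :=
        sum_congr rfl fun j _ => by rw [h1]; ring
    _ = 0 := by rw [← Finset.sum_mul, ← h2, h, zero_mul]

/-- dimension of the tensors killed by two independent functionals in every block -/
theorem finrank_ker (φ ψ : Fin k → (ι → F) →ₗ[F] F) (p p' : Fin k → ι → F)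
    (h1 : ∀ i, φ i (p i) = 1) (h2 : ∀ i, φ i (p' i) = 0) (h3 : ∀ i, ψ i (p i) = 0)
    (h4 : ∀ i, ψ i (p' i) = 1) (T : Submodule F ((Fin k → ι) → F))
    (hT : ∀ t, t ∈ T ↔ (∀ i, ctr (φ i) i t = 0) ∧ ∀ i, ctr (ψ i) i t = 0) :
    Module.finrank F T = (Fintype.card ι - 2) ^ k := by
  classical
  let N : Fin k → Submodule F (ι → F) := fun i => LinearMap.ker (φ i) ⊓ LinearMap.ker (ψ i)
  have hN : ∀ i, Module.finrank F (N i) = Fintype.card ι - 2 := by
    intro i
    let g : (ι → F) →ₗ[F] F × F := (φ i).prod (ψ i)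
    have hker : LinearMap.ker g = N i := LinearMap.ker_prod _ _
    have hsurj : Function.Surjective g := by
      rintro ⟨a, b⟩
      refine ⟨a • p i + b • p' i, ?_⟩
      show (φ i _, ψ i _) = _
      rw [map_add, map_add, map_smul, map_smul, map_smul, map_smul, h1, h2, h3, h4]
      simp
    have h5 := LinearMap.finrank_range_add_finrank_ker g
    rw [LinearMap.range_eq_top.2 hsurj, finrank_top, hker, Module.finrank_prod,
      Module.finrank_self, Module.finrank_fintype_fun_eq_card] at h5
    omega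
  let be : ∀ i, Module.Basis (Fin (Fintype.card ι - 2)) F (N i) := fun i =>
    (Module.finBasisOfFinrankEq F (N i) (hN i))
  let c : ∀ _ : Fin k, Fin (Fintype.card ι - 2) → ι → F := fun i j => (be i j : ι → F)
  have hc : ∀ i j, φ i (c i j) = 0 ∧ ψ i (c i j) = 0 := fun i j =>
    Submodule.mem_inf.1 (be i j).2
  have hcli : ∀ i, LinearIndependent F (c i) := by
    intro i
    have h := (be i).linearIndependent.map' (N i).subtype (Submodule.ker_subtype _)
    exact h
  -- left inverses
  have hg : ∀ i, ∃ g : (ι → F) →ₗ[F] (Fin (Fintype.card ι - 2) → F),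
      ∀ j, g (c i j) = Pi.single j 1 := by
    intro i
    obtain ⟨g, hg⟩ := LinearMap.exists_leftInverse_of_injective
      (Fintype.linearCombination F (c i))
      (LinearMap.ker_eq_bot.2 (linearIndependent_iff_injective_fintypeLinearCombination.1 (hcli i)))
    refine ⟨g, fun j => ?_⟩
    have h5 := LinearMap.congr_fun hg (Pi.single j 1)
    rw [LinearMap.comp_apply, Fintype.linearCombination_apply_single, one_smul] at h5
    exact h5
  choose g hg using hg
  let Ψ : ((Fin k → Fin (Fintype.card ι - 2)) → F) →ₗ[F] ((Fin k → ι) → F) :=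
    Fintype.linearCombination F (fun γ : Fin k → Fin (Fintype.card ι - 2) =>
      Spec730.pure fun i => c i (γ i))
  have hΨ : ∀ s, Ψ s = ∑ γ, s γ • Spec730.pure fun i => c i (γ i) := fun s =>
    Fintype.linearCombination_apply F _ s
  have hinj : Function.Injective Ψ := by
    rw [← LinearMap.ker_eq_bot, LinearMap.ker_eq_bot']
    intro s hs
    funext γ
    have h5 : ct (fun i => (LinearMap.proj (γ i)).comp (g i)) (Ψ s) = s γ := by
      rw [hΨ, map_sum, Finset.sum_eq_single γ]
      · rw [map_smul, ct_pure]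
        simp [hg]
      · intro γ' _ hne
        rw [map_smul, ct_pure]
        obtain ⟨i, hi⟩ := Function.ne_iff.1 hne
        rw [Finset.prod_eq_zero (mem_univ i), smul_zero]
        simp [hg, Ne.symm hi]
      · intro h; exact absurd (mem_univ γ) h
    rw [hs, map_zero] at h5
    exact h5.symm
  have hrange : LinearMap.range Ψ = T := by
    apply le_antisymm
    · rintro _ ⟨s, rfl⟩
      rw [hΨ]
      refine Submodule.sum_mem _ fun γ _ => Submodule.smul_mem _ _ ?_
      rw [hT]
      exact ⟨fun i => ctr_pure _ i _ (hc i _).1, fun i => ctr_pure _ i _ (hc i _).2⟩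
    · intro t ht
      rw [hT] at ht
      have h5 := mem_span_pure φ ψ p p' h1 h2 h3 h4 t ht.1 ht.2
      refine Submodule.span_le.2 ?_ h5
      rintro _ ⟨x, hx, rfl⟩
      -- coordinates
      have hx' : ∀ i, ∃ a : Fin (Fintype.card ι - 2) → F, x i = ∑ j, a j • c i j := by
        intro i
        have h6 : x i ∈ N i := Submodule.mem_inf.2 ⟨(hx i).1, (hx i).2⟩
        refine ⟨fun j => (be i).repr ⟨x i, h6⟩ j, ?_⟩
        have h7 := congrArg ((N i).subtype) ((be i).sum_repr ⟨x i, h6⟩)
        rw [map_sum] at h7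
        simp only [map_smul, Submodule.subtype_apply] at h7
        exact h7.symm
      choose a ha using hx'
      refine ⟨fun γ => ∏ i, a i (γ i), ?_⟩
      rw [hΨ]
      funext al
      rw [Finset.sum_apply]
      unfold Spec730.pure
      have h8 : ∀ i, x i (al i) = ∑ j, a i j * c i j (al i) := by
        intro i
        rw [ha i, Finset.sum_apply]
        exact sum_congr rfl fun j _ => by rw [Pi.smul_apply, smul_eq_mul]
      simp_rw [h8]
      rw [Finset.prod_univ_sum, Fintype.piFinset_univ]
      refine sum_congr rfl fun γ _ => ?_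
      rw [Pi.smul_apply, smul_eq_mul, ← Finset.prod_mul_distrib]
  rw [← hrange, LinearMap.finrank_range_of_inj hinj, Module.finrank_fintype_fun_eq_card,
    Fintype.card_fun, Fintype.card_fin, Fintype.card_fin]

end Tensor

section Fam

open Crest.Agent.R042.Fam543 Crest.Agent.R042.Inst592 Crest.Agent.R042.Gen592

variable {k0 KK : Type} [Field k0] [Field KK] [Algebra k0 KK] [Fintype k0] [Fintype KK]
  [CharP KK 2]

theorem card_Ix (d : ℕ) : Fintype.card (Ix d) = 2 * d + 1 := by
  rw [Fintype.card_option, Fintype.card_prod, Fintype.card_fin, Fintype.card_bool, mul_comm]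

/-- `dim_KK (T_P ⊓ T_R) = (2d-1)^kp` -/
theorem finrank_T1 (e : ℕ) {d kp : ℕ} (b b' : Ix d → KK)
    (hli : LinearIndependent KK ![b, b']) :
    Module.finrank KK ↥(T1 (kp := kp) (2 ^ e) b ⊓ T1 (2 ^ e) b') = (2 * d - 1) ^ kp := by
  classical
  -- dual vectors
  let BB : (Ix d → KK) →ₗ[KK] (Ix d → KK) →ₗ[KK] KK := LinearMap.mk₂ KK (fun x y => B x y)
    (fun x x' y => B_add_left x x' y) (fun c x y => B_smul_left c x y)
    (fun x y y' => by rw [B_comm, B_add_left, B_comm y, B_comm y'])
    (fun c x y => by rw [B_comm, B_smul_left, B_comm, smul_eq_mul])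
  have hBB : ∀ x y, BB x y = B x y := fun x y => rfl
  have hker : LinearMap.ker BB = ⊥ := by
    rw [LinearMap.ker_eq_bot']
    intro x hx
    funext j
    have h := LinearMap.congr_fun hx (Pi.single (sw j) 1)
    rw [hBB, LinearMap.zero_apply] at h
    unfold B at h
    rw [Finset.sum_eq_single (sw j)] at h
    · simpa [sw_sw] using h
    · intro i _ hi
      rw [Pi.single_eq_of_ne hi, mul_zero]
    · intro hh; exact absurd (mem_univ _) hh
  have hli2 : LinearIndependent KK ![BB b, BB b'] := by
    have h := hli.map' BB hker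
    have h0 : (⇑BB ∘ ![b, b']) = ![BB b, BB b'] := by
      funext i
      fin_cases i <;> rfl
    rw [h0] at h
    exact h
  have hsurj := surj_of_indep _ hli2
  have hex : ∀ x y : KK, ∃ v : Ix d → KK, B b v = x ∧ B b' v = y := by
    intro x y
    obtain ⟨v, hv⟩ := hsurj ![x, y]
    have e1 : BB b v = x := by simpa using congrFun hv 0
    have e2 : BB b' v = y := by simpa using congrFun hv 1
    exact ⟨v, e1, e2⟩
  obtain ⟨w, hw, hw'⟩ := hex 1 0
  obtain ⟨w', hw1, hw1'⟩ := hex 0 1
  have hpos : ∀ i : ℕ, (2 ^ e) ^ i ≠ 0 := fun i => pow_ne_zero _ (pow_ne_zero _ two_ne_zero)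
  have h := finrank_ker (fun i : Fin kp => phiB (2 ^ e) b i) (fun i : Fin kp => phiB (2 ^ e) b' i)
    (fun i j => w j ^ ((2 ^ e) ^ (i : ℕ))) (fun i j => w' j ^ ((2 ^ e) ^ (i : ℕ)))
    (fun i => by rw [phiB_pow, hw, one_pow]) (fun i => by rw [phiB_pow, hw1, zero_pow (hpos i)])
    (fun i => by rw [phiB_pow, hw', zero_pow (hpos i)]) (fun i => by rw [phiB_pow, hw1', one_pow])
    (T1 (kp := kp) (2 ^ e) b ⊓ T1 (2 ^ e) b') (fun t => by
      rw [Submodule.mem_inf, mem_T1, mem_T1]
      simp only [ctr_phiB])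
  rw [h, card_Ix]
  congr 1

/-- two distinct normalised vectors are independent -/
theorem li_of_ne {d : ℕ} {b b' : Ix d → KK} (h0 : b none = 1) (h0' : b' none = 1) (h : b ≠ b') :
    LinearIndependent KK ![b, b'] := by
  rw [LinearIndependent.pair_iff]
  intro s t hst
  have h1 : s + t = 0 := by
    have := congrFun hst none
    simpa [h0, h0'] using this
  have h2 : t = -s := by linear_combination h1
  subst h2
  have h3 : s • (b - b') = 0 := by
    rw [smul_sub, ← hst]; simp [sub_eq_add_neg]
  rcases smul_eq_zero.1 h3 with h4 | h4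
  · subst h4; simp
  · exact absurd (sub_eq_zero.1 h4) h

/-- `dim_k0 U_{P,R} = L * ([KK:k0] * (2d-1)^kp)` -/
theorem finrank_UPQ (e : ℕ) {d kp L : ℕ} (P R : Ty k0 KK d L)
    (hli : LinearIndependent KK ![P.b, R.b]) :
    Module.finrank k0 ↥(UPQ (2 ^ e) kp P R) = L * (Module.finrank k0 KK * (2 * d - 1) ^ kp) := by
  rw [TEInst755.finrank_UPQ, ← finrank_T1 (kp := kp) e P.b R.b hli]
  congr 1
  exact (Module.finrank_mul_finrank k0 KK _).symm

theorem finrank_UPQ_om (e : ℕ) {K : Set k0} {d kp L : ℕ} (P R : Om KK K d L)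
    (h : P.1.b ≠ R.1.b) :
    Module.finrank k0 ↥(UPQ (2 ^ e) kp P.1 R.1) =
      L * (Module.finrank k0 KK * (2 * d - 1) ^ kp) :=
  finrank_UPQ e P.1 R.1 (li_of_ne P.2.b0 R.2.b0 h)

/-- types in perpendicular position have different vectors -/
theorem ne_of_perp {K : Set k0} {d L : ℕ} (P R : Om KK K d L) (h : Perp P.1 R.1) :
    P.1.b ≠ R.1.b := by
  intro heq
  have h1 := P.2.aniso
  apply h1
  unfold Perp at h ⊢
  rw [heq] at h ⊢
  exact h

end Fam

end Crest.Agent.R042.Dim755
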