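import Crest.Agent.R042.SpecFam_730
import Crest.Agent.R042.Ctrl_420

/-!
# Row 42, S0059: the image of the labels killed by all special functionals

For the literal family `Fam543` and the four windows of `SpecFam730`:
`winX '' (C^⊥) = ann CX`, where `C` is any space of special functionals of the side `X`.
-/

set_option autoImplicit false
set_option linter.unusedSectionVars false

namespace Crest.Agent.R042.ExFam726

open Crest.Agent.R042.Fam543 Crest.Agent.R042.Spec730 Crest.Agent.R042.SpecFam730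
open Crest.Agent.R042.RowWin543 Crest.Agent.R042.Ctrl420

section psi

variable {F : Type*} [Field F] {k : ℕ} {ι : Type*} [Fintype ι] [DecidableEq ι]

/-- rank one functional on tensors -/
def psi (g : Fin k → ι → F) : ((Fin k → ι) → F) →ₗ[F] F where
  toFun t := ∑ al : Fin k → ι, (∏ i, g i (al i)) * t al
  map_add' s t := by
    simp only [Pi.add_apply, mul_add, Finset.sum_add_distrib]
  map_smul' c t := by
    simp only [Pi.smul_apply, smul_eq_mul, RingHom.id_apply, Finset.mul_sum]
    exact Finset.sum_congr rfl fun al _ => by ring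

theorem psi_apply (g : Fin k → ι → F) (t : (Fin k → ι) → F) :
    psi g t = ∑ al : Fin k → ι, (∏ i, g i (al i)) * t al := rfl

theorem psi_pure (g c : Fin k → ι → F) : psi g (Spec730.pure c) = ∏ i, ∑ j, g i j * c i j := by
  rw [psi_apply, Finset.prod_univ_sum, Fintype.piFinset_univ]
  refine Finset.sum_congr rfl fun al _ => ?_
  unfold Spec730.pure
  rw [Finset.prod_mul_distrib]

theorem psi_zero [Inhabited ι] (g : Fin k → ι → F) (i0 : Fin k) (t : (Fin k → ι) → F)
    (h : ∀ al : Fin k → ι, ∑ j, g i0 j * t (Function.update al i0 j) = 0) : psi g t = 0 := by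
  rw [psi_apply, ← Equiv.sum_comp (Equiv.funSplitAt i0 ι).symm, Fintype.sum_prod_type_right]
  refine Finset.sum_eq_zero fun r _ => ?_
  let al0 : Fin k → ι := (Equiv.funSplitAt i0 ι).symm (default, r)
  have hup : ∀ j, (Equiv.funSplitAt i0 ι).symm (j, r) = Function.update al0 i0 j := by
    intro j
    funext i
    by_cases hi : i = i0
    · subst hi
      simp [Equiv.funSplitAt_symm_apply]
    · simp [al0, Equiv.funSplitAt_symm_apply, hi]
  have h1 : ∀ j, (∏ i, g i (((Equiv.funSplitAt i0 ι).symm (j, r)) i)) *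
      t ((Equiv.funSplitAt i0 ι).symm (j, r)) =
      (∏ i ∈ Finset.univ.erase i0, g i (al0 i)) * (g i0 j * t (Function.update al0 i0 j)) := by
    intro j
    rw [hup j, ← Finset.mul_prod_erase Finset.univ _ (Finset.mem_univ i0), Function.update_self]
    have : ∏ i ∈ Finset.univ.erase i0, g i (Function.update al0 i0 j i) =
        ∏ i ∈ Finset.univ.erase i0, g i (al0 i) :=
      Finset.prod_congr rfl fun i hi => by
        rw [Function.update_of_ne (Finset.ne_of_mem_erase hi)]
    rw [this]; ring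
  rw [Finset.sum_congr rfl fun j _ => h1 j, ← Finset.mul_sum, h al0, mul_zero]

/-- a functional with prescribed values on an independent family -/
theorem exists_functional {V : Type*} [AddCommGroup V] [Module F V] {n : ℕ} (w : Fin n → V)
    (hw : LinearIndependent F w) (c : Fin n → F) : ∃ φ : V →ₗ[F] F, ∀ j, φ (w j) = c j := by
  classical
  obtain ⟨g, hg⟩ := LinearMap.exists_leftInverse_of_injective (Fintype.linearCombination F w)
    (by rw [LinearMap.ker_eq_bot]; exact hw.fintypeLinearCombination_injective)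
  refine ⟨(Fintype.linearCombination F c).comp g, fun j => ?_⟩
  have h1 : g (w j) = Pi.single j 1 := by
    have := LinearMap.congr_fun hg (Pi.single j 1)
    simpa [Fintype.linearCombination_apply_single] using this
  rw [LinearMap.comp_apply, h1]
  simp [Fintype.linearCombination_apply_single]

theorem sum_single (φ : (ι → F) →ₗ[F] F) (c : ι → F) :
    ∑ j, φ (Pi.single j 1) * c j = φ c := by
  have hc : c = ∑ x : ι, c x • (Pi.single x (1 : F) : ι → F) := by
    funext y
    simp [Finset.sum_apply, Pi.single_apply]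
  conv_rhs => rw [hc]
  rw [map_sum]
  exact Finset.sum_congr rfl fun x _ => by rw [map_smul, smul_eq_mul, mul_comm]

/-- `psi` kills the special tensors when `φ i (a i) = 0` outside one block -/
theorem psi_spec (g : Fin k → ι → F) (a : Fin k → ι → F) (m : ℕ) (S : Finset (Fin k))
    (hS : S.card < m) (hg : ∀ i ∉ S, ∑ j, g i j * a i j = 0) (t : (Fin k → ι) → F)
    (ht : t ∈ spec m a) : psi g t = 0 := by
  refine Submodule.span_induction (p := fun t _ => psi g t = 0) ?_ (map_zero _) ?_ ?_ ht
  · rintro x ⟨c, s, hs, hc, rfl⟩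
    rw [psi_pure]
    obtain ⟨i, hi, hiS⟩ : ∃ i ∈ s, i ∉ S := by
      by_contra hcon
      push Not at hcon
      have : s ⊆ S := hcon
      exact absurd (Finset.card_le_card this) (by omega)
    refine Finset.prod_eq_zero (Finset.mem_univ i) ?_
    rw [hc i hi]; exact hg i hiS
  · intro x y _ _ hx hy; rw [map_add, hx, hy, add_zero]
  · intro b x _ hx; rw [map_smul, hx, smul_zero]

end psi

variable {k0 KK : Type} [Field k0] [Field KK] [Algebra k0 KK]

/-- twists of independent vectors are independent -/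
theorem tw_indep_gen [CharP KK 2] [Finite KK] (e : ℕ) {d kp n : ℕ} (v : Fin n → Ix d → KK)
    (h : LinearIndependent KK v) (i : Fin kp) :
    LinearIndependent KK (fun j => tw (2 ^ e) kp (v j) i) := by
  have : ExpChar KK 2 := ExpChar.prime Nat.prime_two
  rw [Fintype.linearIndependent_iff] at h ⊢
  intro s hst
  have hb : Function.Bijective (iterateFrobenius KK 2 (e * i)) := by
    rw [coe_iterateFrobenius]
    exact (Finite.injective_iff_bijective.1 (frobenius_inj KK 2)).iterate _
  choose s' hs' using fun j => hb.2 (s j)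
  have hpw : ∀ x : KK, x ^ (2 ^ e) ^ (i : ℕ) = iterateFrobenius KK 2 (e * i) x := by
    intro x
    rw [iterateFrobenius_def, ← pow_mul]
  have h0 : ∑ j, s' j • v j = 0 := by
    funext x
    have h1 := congrFun hst x
    simp only [tw, Finset.sum_apply, Pi.smul_apply, smul_eq_mul, Pi.zero_apply, hpw, ← hs',
      ← map_mul, ← map_sum] at h1 ⊢
    exact (map_eq_zero_iff _ hb.1).1 h1
  intro j
  rw [← hs' j, h s' h0 j, map_zero]

/-- coefficient vector of a functional -/
def coeff {d : ℕ} (φ : (Ix d → KK) →ₗ[KK] KK) : Ix d → KK := fun j => φ (Pi.single j 1)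

section glue

variable [CharP KK 2] [Finite KK]

/-- **(X1)** the gluing term occurs only for perpendicular types -/
theorem glue_perp (e m : ℕ) (hm : 2 ≤ m) {d kp L : ℕ} (hkp : 0 < kp) (R R' : Ty k0 KK d L)
    (a : Ix d → KK) (hind : LinearIndependent KK ![a, R'.b]) (hE : ∃ l, R'.E l ≠ 0)
    (hlam : R'.lam ≠ 0) (z : U KK d kp L) (hz : z ∈ UP (2 ^ e) kp R) (c : k0) (hc : c ≠ 0)
    (hsp : z - c • uvec (2 ^ e) kp R' ∈ specU k0 (2 ^ e) m kp L a) : Perp R R' := by
  classical
  obtain ⟨l, hl⟩ := hE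
  let i0 : Fin kp := ⟨0, hkp⟩
  have hφ : ∀ i : Fin kp, ∃ φ : (Ix d → KK) →ₗ[KK] KK,
      φ (tw (2 ^ e) kp a i) = 0 ∧ φ (tw (2 ^ e) kp R'.b i) = 1 := by
    intro i
    obtain ⟨φ, h⟩ := exists_functional _ (tw_indep e a R'.b hind i) ![0, 1]
    exact ⟨φ, by simpa using h 0, by simpa using h 1⟩
  choose φ hφa hφb using hφ
  let g : Fin kp → Ix d → KK := fun i => if i = i0 then
    (fun j => (R.b (sw j)) ^ ((2 ^ e) ^ (i0 : ℕ))) else coeff (φ i)
  have hg0 : g i0 = fun j => (R.b (sw j)) ^ ((2 ^ e) ^ (i0 : ℕ)) := by simp [g]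
  have hgi : ∀ i, i ≠ i0 → g i = coeff (φ i) := fun i hi => by simp [g, hi]
  -- the window vector
  have h1 : psi g (z l) = 0 := by
    refine psi_zero g i0 (z l) fun al => ?_
    have h2 := congrFun ((mem_T1.1 (hz l)) i0) al
    rw [hg0]
    exact h2
  -- the special vector
  have h2 : psi g ((z - c • uvec (2 ^ e) kp R') l) = 0 := by
    refine psi_spec g (tw (2 ^ e) kp a) m {i0} (by rw [Finset.card_singleton]; omega) ?_ _ (hsp l)
    intro i hi
    rw [Finset.mem_singleton] at hi
    rw [hgi i hi]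
    unfold coeff
    rw [sum_single]
    exact hφa i
  -- the point
  have h3 : psi g (Phi (2 ^ e) R'.b : U0 KK d kp) = (B R.b R'.b) ^ ((2 ^ e) ^ (i0 : ℕ)) := by
    rw [Phi_eq, psi_pure, ← Finset.mul_prod_erase Finset.univ _ (Finset.mem_univ i0)]
    have h4 : ∏ i ∈ Finset.univ.erase i0, ∑ j, g i j * tw (2 ^ e) kp R'.b i j = 1 := by
      refine Finset.prod_eq_one fun i hi => ?_
      rw [hgi i (Finset.ne_of_mem_erase hi)]
      unfold coeff
      rw [sum_single]
      exact hφb i
    rw [h4, mul_one, hg0]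
    unfold B
    rw [← pow_mul, sum_pow_char_pow]
    exact Finset.sum_congr rfl fun j _ => by rw [mul_pow]; rfl
  have h5 : (z - c • uvec (2 ^ e) kp R') l =
      z l - (algebraMap k0 KK c * (algebraMap k0 KK (R'.E l) * R'.lam)) •
        (Phi (2 ^ e) R'.b : U0 KK d kp) := by
    rw [Pi.sub_apply, Pi.smul_apply]
    congr 1
    rw [← algebraMap_smul KK c, uvec, smul_smul]
  rw [h5, map_sub, h1, map_smul, h3, zero_sub, neg_eq_zero, smul_eq_mul] at h2
  have hinj := FaithfulSMul.algebraMap_injective k0 KK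
  have hc' : algebraMap k0 KK c * (algebraMap k0 KK (R'.E l) * R'.lam) ≠ 0 := by
    refine mul_ne_zero ?_ (mul_ne_zero ?_ hlam)
    · rwa [Ne, map_eq_zero_iff _ hinj]
    · rwa [Ne, map_eq_zero_iff _ hinj]
  have h6 := (mul_eq_zero.1 h2).resolve_left hc'
  exact pow_eq_zero_iff (pow_ne_zero _ (pow_ne_zero _ two_ne_zero)) |>.1 h6

/-- two rows are independent modulo the special space -/
theorem ind2_of (e m : ℕ) (hm : 1 ≤ m) {d kp L : ℕ} (hkp : 0 < kp) (R R' : Ty k0 KK d L)
    (a : Ix d → KK) (hind : LinearIndependent KK ![a, R.b, R'.b]) (hE : ∃ l, R.E l ≠ 0)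
    (hE' : ∃ l, R'.E l ≠ 0) (hlam : R.lam ≠ 0) (hlam' : R'.lam ≠ 0) :
    Ind2 (specU k0 (2 ^ e) m kp L a) (uvec (2 ^ e) kp R) (uvec (2 ^ e) kp R') := by
  classical
  have hinj := FaithfulSMul.algebraMap_injective k0 KK
  -- one-sided statement
  have key : ∀ R R' : Ty k0 KK d L, LinearIndependent KK ![a, R.b, R'.b] → (∃ l, R.E l ≠ 0) →
      R.lam ≠ 0 → ∀ α β : k0, α • uvec (2 ^ e) kp R + β • uvec (2 ^ e) kp R' ∈
        specU k0 (2 ^ e) m kp L a → α = 0 := by
    intro R R' hind hE hlam α β hmem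
    obtain ⟨l, hl⟩ := hE
    have hφ : ∀ i : Fin kp, ∃ φ : (Ix d → KK) →ₗ[KK] KK, φ (tw (2 ^ e) kp a i) = 0 ∧
        φ (tw (2 ^ e) kp R.b i) = 1 ∧ φ (tw (2 ^ e) kp R'.b i) = 0 := by
      intro i
      obtain ⟨φ, h⟩ := exists_functional _ (tw_indep_gen e ![a, R.b, R'.b] hind i) ![0, 1, 0]
      exact ⟨φ, by simpa using h 0, by simpa using h 1, by simpa using h 2⟩
    choose φ hφa hφb hφc using hφ
    let g : Fin kp → Ix d → KK := fun i => coeff (φ i)
    have hgs : ∀ i (c : Ix d → KK), ∑ j, g i j * c j = φ i c := fun i c => sum_single (φ i) c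
    have h2 : psi g ((α • uvec (2 ^ e) kp R + β • uvec (2 ^ e) kp R') l) = 0 := by
      refine psi_spec g (tw (2 ^ e) kp a) m ∅ (by rw [Finset.card_empty]; omega) ?_ _ (hmem l)
      intro i _
      rw [hgs, hφa]
    have h3 : psi g (Phi (2 ^ e) R.b : U0 KK d kp) = 1 := by
      rw [Phi_eq, psi_pure]
      exact Finset.prod_eq_one fun i _ => by rw [hgs, hφb]
    have h4 : psi g (Phi (2 ^ e) R'.b : U0 KK d kp) = 0 := by
      rw [Phi_eq, psi_pure]
      exact Finset.prod_eq_zero (Finset.mem_univ ⟨0, hkp⟩) (by rw [hgs, hφc])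
    have h5 : (α • uvec (2 ^ e) kp R + β • uvec (2 ^ e) kp R') l =
        (algebraMap k0 KK α * (algebraMap k0 KK (R.E l) * R.lam)) •
          (Phi (2 ^ e) R.b : U0 KK d kp) +
        (algebraMap k0 KK β * (algebraMap k0 KK (R'.E l) * R'.lam)) •
          (Phi (2 ^ e) R'.b : U0 KK d kp) := by
      rw [Pi.add_apply, Pi.smul_apply, Pi.smul_apply]
      congr 1
      · rw [← algebraMap_smul KK α, uvec, smul_smul]
      · rw [← algebraMap_smul KK β, uvec, smul_smul]
    rw [h5, map_add, map_smul, map_smul, h3, h4, smul_zero, add_zero, smul_eq_mul, mul_one] at h2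
    have h6 : algebraMap k0 KK (R.E l) * R.lam ≠ 0 :=
      mul_ne_zero (by rwa [Ne, map_eq_zero_iff _ hinj]) hlam
    exact (map_eq_zero_iff _ hinj).1 ((mul_eq_zero.1 h2).resolve_right h6)
  have hind' : LinearIndependent KK ![a, R'.b, R.b] := by
    have := hind.comp ![0, 2, 1] (by decide)
    convert this using 1
    funext i
    fin_cases i <;> rfl
  intro α β hmem
  exact ⟨key R R' hind hE hlam α β hmem, key R' R hind' hE' hlam' β α (by rwa [add_comm])⟩

end glue

end Crest.Agent.R042.ExFam726
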