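import Mathlib

/-!
# Richness of the random `K`-valued coordinates (row 42, S0059)

`G` = the (finite) alphabet group `K`, `E i l` = the `l`-th coordinate of the type `i`.
`Rich E`: for two different types `i, j` and every `g : G` some coordinate has `E i l = g * E j l`.
Almost all `E` are rich as soon as `L ≥ |G| (2 log |ι| + log |G| + 3)`; a rich `E` solves the four
digit equations of every live quadruple by words `c • E_l`.
-/

set_option autoImplicit false

open scoped BigOperators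
open Finset

namespace Crest.Agent.R042.Rich380

section count

variable {ι G : Type*} [Fintype ι] [DecidableEq ι] [Group G] [Fintype G] [DecidableEq G] {L : ℕ}

/-- richness of the coordinates -/
def Rich {ι G : Type*} [Group G] {L : ℕ} (E : ι → Fin L → G) : Prop :=
  ∀ i j, i ≠ j → ∀ g : G, ∃ l, E i l = g * E j l

instance decRich (E : ι → Fin L → G) : Decidable (Rich E) := by
  unfold Rich; infer_instance

/-- `{f // f i = g * f j} × G ≃ (ι → G)` -/
def eqv (i j : ι) (hij : i ≠ j) (g : G) : {f : ι → G // f i = g * f j} × G ≃ (ι → G) where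
  toFun p := Function.update p.1.1 i p.2
  invFun f := (⟨Function.update f i (g * f j), by
    rw [Function.update_self, Function.update_of_ne hij.symm]⟩, f i)
  left_inv p := by
    obtain ⟨⟨f, hf⟩, a⟩ := p
    refine Prod.ext (Subtype.ext ?_) ?_
    · simp only [Function.update_of_ne hij.symm, Function.update_idem, ← hf, Function.update_eq_self]
    · simp
  right_inv f := by
    simp

theorem card_eq (i j : ι) (hij : i ≠ j) (g : G) :
    (univ.filter fun f : ι → G => f i = g * f j).card * Fintype.card G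
      = Fintype.card G ^ Fintype.card ι := by
  have h := Fintype.card_congr (eqv i j hij g)
  rw [Fintype.card_prod, Fintype.card_subtype, Fintype.card_fun] at h
  exact h

theorem card_ne (i j : ι) (hij : i ≠ j) (g : G) :
    (univ.filter fun f : ι → G => f i ≠ g * f j).card * Fintype.card G
      = (Fintype.card G - 1) * Fintype.card G ^ Fintype.card ι := by
  have h1 := card_eq i j hij g
  have h2 := card_filter_add_card_filter_not (s := (univ : Finset (ι → G)))
    (fun f : ι → G => f i = g * f j)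
  rw [card_univ, Fintype.card_fun] at h2
  have h3 : (univ.filter fun f : ι → G => f i ≠ g * f j).card
      = (univ.filter fun f : ι → G => ¬ f i = g * f j).card := rfl
  rw [h3, Nat.sub_mul, one_mul, ← h1]
  have h4 : (univ.filter fun f : ι → G => ¬ f i = g * f j).card * Fintype.card G
      + (univ.filter fun f : ι → G => f i = g * f j).card * Fintype.card G
      = Fintype.card G * ((univ.filter fun f : ι → G => f i = g * f j).card * Fintype.card G) := by
    rw [← add_mul, add_comm, h2, ← h1]; ring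
  omega

/-- one pair `i ≠ j`, one `g` -/
theorem card_bad (i j : ι) (hij : i ≠ j) (g : G) :
    (univ.filter fun E : ι → Fin L → G => ∀ l, E i l ≠ g * E j l).card * Fintype.card G ^ L
      = (Fintype.card G - 1) ^ L * (Fintype.card G ^ L) ^ Fintype.card ι := by
  set s : Finset (ι → G) := univ.filter fun f : ι → G => f i ≠ g * f j with hs
  have h1 : (univ.filter fun E : ι → Fin L → G => ∀ l, E i l ≠ g * E j l).card
      = (Fintype.piFinset (fun _ : Fin L => s)).card := by
    refine card_bij' (fun E _ => fun l i => E i l) (fun F _ => fun i l => F l i) ?_ ?_ ?_ ?_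
    · intro E hE
      rw [Fintype.mem_piFinset]
      intro l
      rw [hs, mem_filter]
      exact ⟨mem_univ _, (mem_filter.1 hE).2 l⟩
    · intro F hF
      rw [mem_filter]
      refine ⟨mem_univ _, fun l => ?_⟩
      have := Fintype.mem_piFinset.1 hF l
      rw [hs, mem_filter] at this
      exact this.2
    · intro E _; rfl
    · intro F _; rfl
  rw [h1, Fintype.card_piFinset, prod_const, card_univ, Fintype.card_fin, ← mul_pow,
    card_ne i j hij g, mul_pow]
  congr 1
  rw [← pow_mul, ← pow_mul, mul_comm]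

/-- **counting form of richness** -/
theorem rich_count :
    (univ.filter fun E : ι → Fin L → G => ¬ Rich E).card * Fintype.card G ^ L
      ≤ Fintype.card ι ^ 2 * Fintype.card G *
        ((Fintype.card G - 1) ^ L * (Fintype.card G ^ L) ^ Fintype.card ι) := by
  classical
  set B : ι × ι × G → Finset (ι → Fin L → G) := fun p =>
    if p.1 ≠ p.2.1 then univ.filter fun E : ι → Fin L → G => ∀ l, E p.1 l ≠ p.2.2 * E p.2.1 l
    else ∅ with hB
  have h1 : (univ.filter fun E : ι → Fin L → G => ¬ Rich E) ⊆ univ.biUnion B := by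
    intro E hE
    have h := (mem_filter.1 hE).2
    unfold Rich at h
    push Not at h
    obtain ⟨i, j, hij, g, hg⟩ := h
    rw [mem_biUnion]
    refine ⟨(i, j, g), mem_univ _, ?_⟩
    simp only [hB, if_pos (show (i ≠ j) from hij)]
    exact mem_filter.2 ⟨mem_univ _, hg⟩
  have h2 : ∀ p : ι × ι × G, (B p).card * Fintype.card G ^ L
      ≤ (Fintype.card G - 1) ^ L * (Fintype.card G ^ L) ^ Fintype.card ι := by
    intro p
    by_cases hp : p.1 ≠ p.2.1
    · simp only [hB, if_pos hp]
      exact (card_bad p.1 p.2.1 hp p.2.2).le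
    · simp only [hB, if_neg hp]
      simp
  calc (univ.filter fun E : ι → Fin L → G => ¬ Rich E).card * Fintype.card G ^ L
      ≤ (∑ p, (B p).card) * Fintype.card G ^ L :=
        Nat.mul_le_mul_right _ ((card_le_card h1).trans card_biUnion_le)
    _ = ∑ p, (B p).card * Fintype.card G ^ L := by rw [sum_mul]
    _ ≤ ∑ _p : ι × ι × G,
        ((Fintype.card G - 1) ^ L * (Fintype.card G ^ L) ^ Fintype.card ι) :=
        sum_le_sum fun p _ => h2 p
    _ = _ := by
        rw [sum_const, card_univ, Fintype.card_prod, Fintype.card_prod, smul_eq_mul]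
        ring

/-- the version for a sample of `A × (Fin L → G)`: only the second components matter -/
theorem rich_count_prod {A : Type*} [Fintype A] :
    (univ.filter fun x : ι → A × (Fin L → G) => ¬ Rich fun i => (x i).2).card
        * Fintype.card G ^ L
      ≤ Fintype.card ι ^ 2 * Fintype.card G *
        ((Fintype.card G - 1) ^ L * Fintype.card (ι → A × (Fin L → G))) := by
  classical
  have h1 : (univ.filter fun x : ι → A × (Fin L → G) => ¬ Rich fun i => (x i).2).card
      = Fintype.card (ι → A) * (univ.filter fun E : ι → Fin L → G => ¬ Rich E).card := by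
    rw [← card_univ (α := ι → A), ← card_product]
    refine card_bij' (fun x _ => (fun i => (x i).1, fun i => (x i).2))
      (fun p _ => fun i => (p.1 i, p.2 i)) ?_ ?_ ?_ ?_
    · intro x hx
      rw [mem_product]
      exact ⟨mem_univ _, mem_filter.2 ⟨mem_univ _, (mem_filter.1 hx).2⟩⟩
    · intro p hp
      rw [mem_product] at hp
      exact mem_filter.2 ⟨mem_univ _, (mem_filter.1 hp.2).2⟩
    · intro x _; rfl
    · intro p _; rfl
  have h2 : Fintype.card (ι → A × (Fin L → G))
      = Fintype.card (ι → A) * (Fintype.card G ^ L) ^ Fintype.card ι := by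
    rw [Fintype.card_fun, Fintype.card_prod, Fintype.card_fun, Fintype.card_fin, mul_pow,
      Fintype.card_fun]
  rw [h1, h2]
  have h := Nat.mul_le_mul_left (Fintype.card (ι → A)) (rich_count (ι := ι) (G := G) (L := L))
  calc Fintype.card (ι → A) * (univ.filter fun E : ι → Fin L → G => ¬ Rich E).card
        * Fintype.card G ^ L
      = Fintype.card (ι → A) * ((univ.filter fun E : ι → Fin L → G => ¬ Rich E).card
        * Fintype.card G ^ L) := by ring
    _ ≤ _ := h
    _ = _ := by ring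

/-- numbers: `L ≥ |G| (2 log N + log |G| + t)` makes the exceptional fraction `≤ exp (-t)` -/
theorem frac_le {g N : ℕ} (hg : 1 ≤ g) (hN : 1 ≤ N) {t : ℝ}
    (hL : (g : ℝ) * (2 * Real.log N + Real.log g + t) ≤ L) :
    (N : ℝ) ^ 2 * g * ((g - 1 : ℕ) : ℝ) ^ L ≤ Real.exp (-t) * (g : ℝ) ^ L := by
  have hg0 : (0 : ℝ) < g := by exact_mod_cast hg
  have hN0 : (0 : ℝ) < N := by exact_mod_cast hN
  have h1 : ((g - 1 : ℕ) : ℝ) = g * (1 - 1 / g) := by
    rw [Nat.cast_sub hg]; field_simp; simp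
  have h2 : (1 - 1 / (g : ℝ)) ≤ Real.exp (-(1 / g)) := by
    have := Real.add_one_le_exp (-(1 / (g : ℝ))); linarith
  have h3 : 0 ≤ 1 - 1 / (g : ℝ) := by
    have : 1 / (g : ℝ) ≤ 1 := by
      rw [div_le_one hg0]; exact_mod_cast hg
    linarith
  have h4 : (1 - 1 / (g : ℝ)) ^ L ≤ Real.exp (-(L / g)) := by
    calc (1 - 1 / (g : ℝ)) ^ L ≤ Real.exp (-(1 / g)) ^ L := pow_le_pow_left₀ h3 h2 L
      _ = Real.exp (-(L / g)) := by rw [← Real.exp_nat_mul]; congr 1; ring
  have h5 : (N : ℝ) ^ 2 * g = Real.exp (2 * Real.log N + Real.log g) := by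
    rw [Real.exp_add, Real.exp_log hg0, two_mul, Real.exp_add, Real.exp_log hN0, pow_two]
  have h6 : 2 * Real.log N + Real.log g + t ≤ L / g := by
    rw [le_div_iff₀ hg0]; linarith
  calc (N : ℝ) ^ 2 * g * ((g - 1 : ℕ) : ℝ) ^ L
      = Real.exp (2 * Real.log N + Real.log g) * ((1 - 1 / (g : ℝ)) ^ L * (g : ℝ) ^ L) := by
        rw [h1, mul_pow, ← h5]; ring
    _ ≤ Real.exp (2 * Real.log N + Real.log g) * (Real.exp (-(L / g)) * (g : ℝ) ^ L) := by
        gcongr
    _ = Real.exp (2 * Real.log N + Real.log g - L / g) * (g : ℝ) ^ L := by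
        rw [← mul_assoc, ← Real.exp_add]; congr 2
    _ ≤ Real.exp (-t) * (g : ℝ) ^ L := by
        gcongr; linarith

/-- **(RICH)**: at most a fraction `exp (-t)` of the samples `x : ι → A × (Fin L → G)` is not
rich -/
theorem rich_frac {A : Type*} [Fintype A] [Nonempty ι] {t : ℝ}
    (hL : (Fintype.card G : ℝ) * (2 * Real.log (Fintype.card ι) + Real.log (Fintype.card G) + t)
      ≤ L) :
    ((univ.filter fun x : ι → A × (Fin L → G) => ¬ Rich fun i => (x i).2).card : ℝ)
      ≤ Real.exp (-t) * Fintype.card (ι → A × (Fin L → G)) := by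
  classical
  have hg : 1 ≤ Fintype.card G := Fintype.card_pos
  have hN : 1 ≤ Fintype.card ι := Fintype.card_pos
  have hgL : (0 : ℝ) < (Fintype.card G : ℝ) ^ L := by positivity
  have h1 : ((univ.filter fun x : ι → A × (Fin L → G) => ¬ Rich fun i => (x i).2).card : ℝ)
        * (Fintype.card G : ℝ) ^ L
      ≤ (Fintype.card ι : ℝ) ^ 2 * Fintype.card G *
        (((Fintype.card G - 1 : ℕ) : ℝ) ^ L * Fintype.card (ι → A × (Fin L → G))) := by
    exact_mod_cast rich_count_prod (ι := ι) (G := G) (L := L) (A := A)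
  have h2 := frac_le (L := L) hg hN hL
  have h3 : ((univ.filter fun x : ι → A × (Fin L → G) => ¬ Rich fun i => (x i).2).card : ℝ)
        * (Fintype.card G : ℝ) ^ L
      ≤ (Real.exp (-t) * Fintype.card (ι → A × (Fin L → G))) * (Fintype.card G : ℝ) ^ L := by
    calc _ ≤ _ := h1
      _ = ((Fintype.card ι : ℝ) ^ 2 * Fintype.card G * ((Fintype.card G - 1 : ℕ) : ℝ) ^ L)
          * Fintype.card (ι → A × (Fin L → G)) := by ring
      _ ≤ (Real.exp (-t) * (Fintype.card G : ℝ) ^ L) * Fintype.card (ι → A × (Fin L → G)) := by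
          gcongr
      _ = _ := by ring
  exact le_of_mul_le_mul_right h3 hgL

end count

section words

variable {ι F : Type*} [Field F] {L : ℕ} {K : Set F}

/-- richness for a `K`-valued family, `K` a set of nonzero elements closed under division -/
def RichF {ι F : Type*} [Field F] {L : ℕ} (K : Set F) (E : ι → Fin L → F) : Prop :=
  ∀ i j, i ≠ j → ∀ g ∈ K, ∃ l, E i l = g * E j l

/-- **(a)**: every pair `(k, k')` is taken by a word `c • E_l` at two different types -/
theorem two_values (E : ι → Fin L → F) (hE : RichF K E) (hEK : ∀ i l, E i l ∈ K)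
    (h0 : (0 : F) ∉ K) (hdiv : ∀ a ∈ K, ∀ b ∈ K, a / b ∈ K)
    {i j : ι} (hij : i ≠ j) {k k' : F} (hk : k ∈ K) (hk' : k' ∈ K) :
    ∃ c ∈ K, ∃ l, c * E i l = k ∧ c * E j l = k' := by
  obtain ⟨l, hl⟩ := hE i j hij (k / k') (hdiv k hk k' hk')
  have hj : E j l ≠ 0 := fun h => h0 (h ▸ hEK j l)
  have hk0 : k' ≠ 0 := fun h => h0 (h ▸ hk')
  refine ⟨k' / E j l, hdiv _ hk' _ (hEK j l), l, ?_, ?_⟩
  · rw [hl]; field_simp
  · field_simp

/-- **(b) the four digit equations.**  `P, P'` / `Q, Q'` four types, every `D_i` not in `K`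
(`K` complete: every element outside `K` is a difference of two elements of `K`).
`w₁ = xz, w₂ = xw, w₃ = yz, w₄ = yw` with `x : P`, `y : P'`, `z : Q`, `w : Q'`. -/
theorem four_words (E : ι → Fin L → F) (hE : RichF K E) (hEK : ∀ i l, E i l ∈ K)
    (h0 : (0 : F) ∉ K) (hdiv : ∀ a ∈ K, ∀ b ∈ K, a / b ∈ K)
    (hcomp : ∀ d : F, d ∉ K → ∃ a ∈ K, ∃ b ∈ K, a - b = d)
    {P P' Q Q' : ι} (h1 : P ≠ Q) (h2 : P ≠ Q') (h3 : P' ≠ Q) (h4 : P' ≠ Q')
    {D₁ D₂ D₃ D₄ : F} (hD₁ : D₁ ∉ K) (hD₂ : D₂ ∉ K) (hD₃ : D₃ ∉ K) (hD₄ : D₄ ∉ K) :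
    ∃ c : Fin 4 → F, ∃ l : Fin 4 → Fin L, (∀ i, c i ∈ K) ∧
      c 0 * E P' (l 0) - c 2 * E P (l 2) = D₁ ∧
      c 1 * E P' (l 1) - c 3 * E P (l 3) = D₂ ∧
      c 0 * E Q' (l 0) - c 1 * E Q (l 1) = D₃ ∧
      c 2 * E Q' (l 2) - c 3 * E Q (l 3) = D₄ := by
  obtain ⟨a₁, ha₁, a₃, ha₃, hd₁⟩ := hcomp D₁ hD₁
  obtain ⟨a₂, ha₂, a₄, ha₄, hd₂⟩ := hcomp D₂ hD₂
  obtain ⟨b₁, hb₁, b₂, hb₂, hd₃⟩ := hcomp D₃ hD₃
  obtain ⟨b₃, hb₃, b₄, hb₄, hd₄⟩ := hcomp D₄ hD₄
  obtain ⟨c₁, hc₁, l₁, e₁, e₁'⟩ := two_values E hE hEK h0 hdiv h4 ha₁ hb₁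
  obtain ⟨c₂, hc₂, l₂, e₂, e₂'⟩ := two_values E hE hEK h0 hdiv h3 ha₂ hb₂
  obtain ⟨c₃, hc₃, l₃, e₃, e₃'⟩ := two_values E hE hEK h0 hdiv h2 ha₃ hb₃
  obtain ⟨c₄, hc₄, l₄, e₄, e₄'⟩ := two_values E hE hEK h0 hdiv h1 ha₄ hb₄
  refine ⟨![c₁, c₂, c₃, c₄], ![l₁, l₂, l₃, l₄], ?_, ?_, ?_, ?_, ?_⟩
  · intro i; fin_cases i <;> simpa
  · simpa [e₁, e₃] using hd₁
  · simpa [e₂, e₄] using hd₂
  · simpa [e₁', e₂'] using hd₃
  · simpa [e₃', e₄'] using hd₄

/-- the subgroup form gives `RichF` -/
theorem richF_of_rich (H : Subgroup Fˣ) (E : ι → Fin L → H) (hE : Rich E) :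
    RichF (K := {x : F | ∃ u ∈ H, (u : F) = x}) (fun i l => (((E i l : H) : Fˣ) : F)) := by
  rintro i j hij g ⟨u, hu, rfl⟩
  obtain ⟨l, hl⟩ := hE i j hij ⟨u, hu⟩
  refine ⟨l, ?_⟩
  show (((E i l : H) : Fˣ) : F) = (u : F) * (((E j l : H) : Fˣ) : F)
  rw [hl]; simp

end words

end Crest.Agent.R042.Rich380
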