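import Crest.Agent.R042.Inst_592
import Crest.Agent.R042.Rich_380

/-! Row 42 / S0059, T-level instance, part 3: richness (Rich_380) of the random sample in `Om KK K d L`. -/

set_option autoImplicit false
set_option linter.unusedSectionVars false

namespace Crest.Agent.R042.RichOm592

open Finset Function
open scoped Classical
open Crest.Agent.R042.Fam543 Crest.Agent.R042.Gen592 Crest.Agent.R042.Inst592
open Crest.Agent.R042.Rich380

variable {k0 KK : Type} [Field k0] [Field KK] [Algebra k0 KK]

/-- the alphabet as a subgroup -/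
def HH {K : Set k0} (hK : Fam543.Alph K) : Subgroup k0ˣ where
  carrier := {u | (u : k0) ∈ K}
  mul_mem' := by
    intro a b ha hb
    simpa using hK.mul _ ha _ hb
  one_mem' := by simpa using hK.one
  inv_mem' := by
    intro a ha
    simpa using hK.inv _ ha

theorem mem_HH {K : Set k0} (hK : Fam543.Alph K) {u : k0ˣ} : u ∈ HH hK ↔ (u : k0) ∈ K := Iff.rfl

/-- `K ≃ HH` -/
def eqK {K : Set k0} (hK : Fam543.Alph K) : K ≃ HH hK where
  toFun x := ⟨Units.mk0 x.1 (hK.ne_zero x.2), x.2⟩
  invFun u := ⟨(u.1 : k0), u.2⟩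
  left_inv x := rfl
  right_inv u := by
    apply Subtype.ext
    apply Units.ext
    rfl

/-- the sample space as `A × (Fin L → G)` -/
def omEquiv' {K : Set k0} (hK : Fam543.Alph K) (d L : ℕ) :
    Om KK K d L ≃ (WW KK d × {l : KK // Algebra.trace k0 KK l = 1}) × (Fin L → HH hK) :=
  (omEquiv K d L).trans ((Equiv.prodAssoc _ _ _).symm.trans
    (Equiv.prodCongr (Equiv.refl _) (Equiv.arrowCongr (Equiv.refl _) (eqK hK))))

theorem omEquiv'_snd {K : Set k0} (hK : Fam543.Alph K) {d L : ℕ} (R : Om KK K d L) (l : Fin L) :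
    ((((omEquiv' hK d L R).2 l : HH hK) : k0ˣ) : k0) = R.1.E l := rfl

theorem richF_of {K : Set k0} (hK : Fam543.Alph K) {d L : ℕ} {ι : Type*} (x : ι → Om KK K d L)
    (h : Rich fun i => (omEquiv' hK d L (x i)).2) : RichF K (fun i => (x i).1.E) := by
  have h1 := richF_of_rich (HH hK) _ h
  intro i j hij g hg
  exact h1 i j hij g ⟨Units.mk0 g (hK.ne_zero hg), hg, rfl⟩

variable [Fintype k0] [Fintype KK]

/-- **richness of the random sample**: `|K| (2 log N + log |K| + t) ≤ L` makes the bad fraction
at most `exp (-t)`. -/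
theorem rich_bad {K : Set k0} (hK : Fam543.Alph K) (d L : ℕ) {ι : Type*} [Fintype ι] [Nonempty ι]
    {t : ℝ} (hL : (Fintype.card K : ℝ) *
      (2 * Real.log (Fintype.card ι) + Real.log (Fintype.card K) + t) ≤ L) :
    (((univ.filter fun x : ι → Om KK K d L => ¬ RichF K (fun i => (x i).1.E)).card : ℕ) : ℝ) ≤
      Real.exp (-t) * (Fintype.card (Om KK K d L) : ℝ) ^ Fintype.card ι := by
  have hc : Fintype.card K = Fintype.card (HH hK) := Fintype.card_congr (eqK hK)
  rw [hc] at hL
  have h := rich_frac (ι := ι) (G := HH hK) (L := L)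
    (A := WW KK d × {l : KK // Algebra.trace k0 KK l = 1}) (t := t) hL
  have h1 : (univ.filter fun x : ι → Om KK K d L => ¬ RichF K (fun i => (x i).1.E)).card ≤
      (univ.filter fun y : ι → (WW KK d × {l : KK // Algebra.trace k0 KK l = 1}) ×
        (Fin L → HH hK) => ¬ Rich fun i => (y i).2).card := by
    refine Finset.card_le_card_of_injOn (fun x i => omEquiv' hK d L (x i)) ?_ ?_
    · intro x hx
      rw [Finset.mem_coe, Finset.mem_filter] at hx ⊢
      refine ⟨Finset.mem_univ _, fun hr => hx.2 (richF_of hK x hr)⟩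
    · intro x _ y _ hxy
      funext i
      exact (omEquiv' hK d L).injective (congrFun hxy i)
  have h2 : Fintype.card (ι → (WW KK d × {l : KK // Algebra.trace k0 KK l = 1}) ×
      (Fin L → HH hK)) = Fintype.card (Om KK K d L) ^ Fintype.card ι := by
    rw [Fintype.card_fun, ← Fintype.card_congr (omEquiv' hK d L)]
  rw [h2] at h
  push_cast at h
  refine le_trans (Nat.cast_le.mpr h1) (le_trans (le_of_eq ?_) h)
  congr!

end Crest.Agent.R042.RichOm592
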