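import Crest.Agent.R042.TLevC_333

/-! Row 42 / S0059, T-level, part D: the union bound over fingerprints. -/

set_option autoImplicit false
set_option linter.unusedSectionVars false

namespace Crest.Agent.R042.TLev333

open Finset Function
open scoped Classical

/-- number of finsets with at most `ℓ` elements. -/
lemma card_small {σ : Type*} [Fintype σ] (ℓ : ℕ) :
    (univ.filter fun Φ : Finset σ => Φ.card ≤ ℓ).card ≤ (Fintype.card σ + 1) ^ ℓ := by
  have h1 : (univ.filter fun Φ : Finset σ => Φ.card ≤ ℓ) ⊆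
      (univ : Finset (Fin ℓ → Option σ)).image
        (fun F => univ.filter fun s : σ => ∃ k, F k = some s) := by
    intro Φ hΦ
    rw [Finset.mem_filter] at hΦ
    rw [Finset.mem_image]
    refine ⟨fun k => Φ.toList[(k : ℕ)]?, Finset.mem_univ _, ?_⟩
    ext s
    rw [Finset.mem_filter]
    constructor
    · rintro ⟨_, k, hk⟩
      rw [List.getElem?_eq_some_iff] at hk
      obtain ⟨h, h'⟩ := hk
      rw [← Finset.mem_toList, ← h']
      exact List.getElem_mem _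
    · intro hs
      refine ⟨Finset.mem_univ _, ?_⟩
      rw [← Finset.mem_toList, List.mem_iff_getElem] at hs
      obtain ⟨k, hk, hk'⟩ := hs
      have hk2 : k < ℓ := by
        rw [Finset.length_toList] at hk
        omega
      refine ⟨⟨k, hk2⟩, ?_⟩
      rw [List.getElem?_eq_some_iff]
      exact ⟨hk, hk'⟩
  calc _ ≤ _ := Finset.card_le_card h1
    _ ≤ (univ : Finset (Fin ℓ → Option σ)).card := Finset.card_image_le
    _ = _ := by rw [Finset.card_univ, Fintype.card_fun, Fintype.card_option, Fintype.card_fin]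

namespace Sys

variable {I Ω σ : Type*} [Fintype Ω] [Fintype I] [DecidableEq I] [Fintype σ] [DecidableEq σ]
  (S : Sys I Ω σ)

/-- the sample `x` is good for the system `S` (fingerprint size `ℓ`, threshold `r`). -/
def Good (ℓ r : ℕ) (x : I → Ω) : Prop :=
  ∀ Φ : Finset σ, Φ.card ≤ ℓ → S.PD Φ →
    (∀ J : Finset I, J.card = r → (∀ j ∈ J, j ∉ S.U Φ) → ∃ j ∈ J, x j ∉ S.Z ℓ Φ x) ∧
    (∀ P : Finset (I × I), P.card = r → (∀ p ∈ P, p.1 ≠ p.2 ∧ p.1 ∉ S.U Φ ∧ p.2 ∉ S.U Φ) →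
      (∀ p ∈ P, ∀ p' ∈ P, p ≠ p' → p.1 ≠ p'.1 ∧ p.1 ≠ p'.2 ∧ p.2 ≠ p'.1 ∧ p.2 ≠ p'.2) →
      ∃ p ∈ P, (x p.1, x p.2) ∉ S.A ℓ Φ x)

variable {S}

theorem card_bad_le [Nonempty Ω] (ℓ r : ℕ)
    (hE : 1 ≤ S.η * ℓ * S.ρ ^ 4) (hE' : 1024 ≤ S.η * (S.η * ℓ * S.ρ ^ 4) ^ 2)
    (hr1 : 12 * S.η * Fintype.card I ≤ r)
    (hr2 : 10000 * (Fintype.card I : ℝ) ^ 2 ≤ r * (S.η * ℓ * S.ρ ^ 4) ^ 2)
    (hr3 : 16 * (Fintype.card σ + 1) ^ ℓ ≤ 2 ^ r)
    (hθ : ℓ * S.θ * (S.η * ℓ * S.ρ ^ 4) ^ 2 ≤ 1) :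
    (((univ.filter fun x : I → Ω => ¬ S.Good ℓ r x).card : ℕ) : ℝ) ≤
      1 / 8 * (Fintype.card Ω : ℝ) ^ Fintype.card I := by
  have hη0 := S.η0
  have hE0 : 0 < S.η * ℓ * S.ρ ^ 4 := by linarith
  set E : ℝ := S.η * ℓ * S.ρ ^ 4 with hEdef
  set W : ℝ := (Fintype.card Ω : ℝ) ^ Fintype.card I with hW
  have hW0 : 0 ≤ W := by positivity
  set FF : Finset (Finset σ) := univ.filter fun Φ : Finset σ => Φ.card ≤ ℓ ∧ S.PD Φ with hFF
  set JJ : Finset σ → Finset (Finset I) := fun Φ =>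
    (Finset.powersetCard r univ).filter fun J => ∀ j ∈ J, j ∉ S.U Φ with hJJ
  set PP : Finset σ → Finset (Finset (I × I)) := fun Φ =>
    (Finset.powersetCard r univ).filter fun P =>
      (∀ p ∈ P, p.1 ≠ p.2 ∧ p.1 ∉ S.U Φ ∧ p.2 ∉ S.U Φ) ∧
      (∀ p ∈ P, ∀ p' ∈ P, p ≠ p' → p.1 ≠ p'.1 ∧ p.1 ≠ p'.2 ∧ p.2 ≠ p'.1 ∧ p.2 ≠ p'.2) with hPP
  have hsub : (univ.filter fun x : I → Ω => ¬ S.Good ℓ r x) ⊆
      FF.biUnion fun Φ => ((JJ Φ).biUnion fun J =>
        univ.filter fun x : I → Ω => ∀ j ∈ J, x j ∈ S.Z ℓ Φ x) ∪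
        ((PP Φ).biUnion fun P =>
          univ.filter fun x : I → Ω => ∀ p ∈ P, (x p.1, x p.2) ∈ S.A ℓ Φ x) := by
    intro x hx
    rw [Finset.mem_filter] at hx
    have h := hx.2
    unfold Good at h
    push Not at h
    obtain ⟨Φ, h1, h2, h3⟩ := h
    rw [Finset.mem_biUnion]
    refine ⟨Φ, ?_, ?_⟩
    · rw [hFF, Finset.mem_filter]
      exact ⟨Finset.mem_univ _, h1, h2⟩
    · rw [Finset.mem_union]
      by_cases h4 : ∀ J : Finset I, J.card = r → (∀ j ∈ J, j ∉ S.U Φ) → ∃ j ∈ J, x j ∉ S.Z ℓ Φ x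
      · right
        obtain ⟨P, p1, p2, p3, p4⟩ := h3 h4
        rw [Finset.mem_biUnion]
        refine ⟨P, ?_, ?_⟩
        · rw [hPP, Finset.mem_filter, Finset.mem_powersetCard]
          exact ⟨⟨Finset.subset_univ _, p1⟩, p2, p3⟩
        · rw [Finset.mem_filter]
          exact ⟨Finset.mem_univ _, p4⟩
      · left
        push Not at h4
        obtain ⟨J, p1, p2, p3⟩ := h4
        rw [Finset.mem_biUnion]
        refine ⟨J, ?_, ?_⟩
        · rw [hJJ, Finset.mem_filter, Finset.mem_powersetCard]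
          exact ⟨⟨Finset.subset_univ _, p1⟩, p2⟩
        · rw [Finset.mem_filter]
          exact ⟨Finset.mem_univ _, p3⟩
  -- bound of one `J`
  have bJ : ∀ Φ ∈ FF, ∀ J ∈ JJ Φ,
      (((univ.filter fun x : I → Ω => ∀ j ∈ J, x j ∈ S.Z ℓ Φ x).card : ℕ) : ℝ) ≤
        (2 * S.η) ^ r * W := by
    intro Φ hΦ J hJ
    rw [hFF, Finset.mem_filter] at hΦ
    rw [hJJ, Finset.mem_filter, Finset.mem_powersetCard] at hJ
    have h := count_one J (fun x => S.Z ℓ Φ x) (2 * S.η) (by positivity) (by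
      intro x j hj a
      refine Z_congr ℓ (fun i hi => ?_)
      refine update_of_ne ?_ _ _
      rintro rfl
      exact hJ.2 _ hj hi) (fun x => card_Z_le ℓ Φ hΦ.2.2 hΦ.2.1 x hE hE')
    rw [hJ.1.2] at h
    exact h
  have bP : ∀ Φ ∈ FF, ∀ P ∈ PP Φ,
      (((univ.filter fun x : I → Ω => ∀ p ∈ P, (x p.1, x p.2) ∈ S.A ℓ Φ x).card : ℕ) : ℝ) ≤
        (1605 / E ^ 2) ^ r * W := by
    intro Φ hΦ P hP
    rw [hFF, Finset.mem_filter] at hΦ
    rw [hPP, Finset.mem_filter, Finset.mem_powersetCard] at hP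
    have h := count_two P (fun x => S.A ℓ Φ x) (1605 / E ^ 2) (by positivity)
      (fun p hp => (hP.2.1 p hp).1) hP.2.2 (by
      intro x p hp a
      constructor
      · refine A_congr ℓ (fun i hi => ?_)
        refine update_of_ne ?_ _ _
        rintro rfl
        exact (hP.2.1 p hp).2.1 hi
      · refine A_congr ℓ (fun i hi => ?_)
        refine update_of_ne ?_ _ _
        rintro rfl
        exact (hP.2.1 p hp).2.2 hi) (fun x => card_A_le ℓ Φ hΦ.2.2 hΦ.2.1 x hE hθ)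
    rw [hP.1.2] at h
    exact h
  have cJ : ∀ Φ ∈ FF, ∑ J ∈ JJ Φ,
      (((univ.filter fun x : I → Ω => ∀ j ∈ J, x j ∈ S.Z ℓ Φ x).card : ℕ) : ℝ) ≤
        (1 / 2) ^ r * W := by
    intro Φ hΦ
    calc _ ≤ ∑ J ∈ JJ Φ, (2 * S.η) ^ r * W := Finset.sum_le_sum (bJ Φ hΦ)
      _ = (JJ Φ).card * ((2 * S.η) ^ r * W) := by rw [Finset.sum_const, nsmul_eq_mul]
      _ ≤ ((Fintype.card I).choose r : ℝ) * ((2 * S.η) ^ r * W) := by
          refine mul_le_mul_of_nonneg_right ?_ (by positivity)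
          have : (JJ Φ).card ≤ (Fintype.card I).choose r := by
            refine (Finset.card_filter_le _ _).trans ?_
            rw [Finset.card_powersetCard, Finset.card_univ]
          exact_mod_cast this
      _ = ((Fintype.card I).choose r : ℝ) * (2 * S.η) ^ r * W := by ring
      _ ≤ (1 / 2) ^ r * W := by
          refine mul_le_mul_of_nonneg_right ?_ hW0
          refine choose_mul_pow_le _ _ _ (by positivity) ?_
          linarith
  have cP : ∀ Φ ∈ FF, ∑ P ∈ PP Φ,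
      (((univ.filter fun x : I → Ω => ∀ p ∈ P, (x p.1, x p.2) ∈ S.A ℓ Φ x).card : ℕ) : ℝ) ≤
        (1 / 2) ^ r * W := by
    intro Φ hΦ
    calc _ ≤ ∑ P ∈ PP Φ, (1605 / E ^ 2) ^ r * W := Finset.sum_le_sum (bP Φ hΦ)
      _ = (PP Φ).card * ((1605 / E ^ 2) ^ r * W) := by rw [Finset.sum_const, nsmul_eq_mul]
      _ ≤ ((Fintype.card (I × I)).choose r : ℝ) * ((1605 / E ^ 2) ^ r * W) := by
          refine mul_le_mul_of_nonneg_right ?_ (by positivity)
          have : (PP Φ).card ≤ (Fintype.card (I × I)).choose r := by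
            refine (Finset.card_filter_le _ _).trans ?_
            rw [Finset.card_powersetCard, Finset.card_univ]
          exact_mod_cast this
      _ = ((Fintype.card (I × I)).choose r : ℝ) * (1605 / E ^ 2) ^ r * W := by ring
      _ ≤ (1 / 2) ^ r * W := by
          refine mul_le_mul_of_nonneg_right ?_ hW0
          refine choose_mul_pow_le _ _ _ (by positivity) ?_
          rw [Fintype.card_prod]
          push_cast
          have h1 : 6 * ((Fintype.card I : ℝ) * Fintype.card I) * (1605 / E ^ 2) =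
              9630 * (Fintype.card I : ℝ) ^ 2 / E ^ 2 := by
            field_simp
            ring
          rw [h1, div_le_iff₀ (by positivity)]
          have : 0 ≤ (Fintype.card I : ℝ) ^ 2 := by positivity
          linarith
  have hF : (FF.card : ℝ) ≤ (Fintype.card σ + 1 : ℝ) ^ ℓ := by
    have : FF.card ≤ (Fintype.card σ + 1) ^ ℓ := by
      refine le_trans (Finset.card_le_card ?_) (card_small (σ := σ) ℓ)
      intro Φ hΦ
      rw [hFF, Finset.mem_filter] at hΦ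
      rw [Finset.mem_filter]
      exact ⟨Finset.mem_univ _, hΦ.2.1⟩
    exact_mod_cast this
  have hr3' : 16 * (Fintype.card σ + 1 : ℝ) ^ ℓ ≤ 2 ^ r := by exact_mod_cast hr3
  calc (((univ.filter fun x : I → Ω => ¬ S.Good ℓ r x).card : ℕ) : ℝ)
      ≤ ∑ Φ ∈ FF, (∑ J ∈ JJ Φ,
          (((univ.filter fun x : I → Ω => ∀ j ∈ J, x j ∈ S.Z ℓ Φ x).card : ℕ) : ℝ) +
          ∑ P ∈ PP Φ,
          (((univ.filter fun x : I → Ω => ∀ p ∈ P, (x p.1, x p.2) ∈ S.A ℓ Φ x).card : ℕ) : ℝ)) := by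
        have h := Finset.card_le_card hsub
        have h2 := h.trans Finset.card_biUnion_le
        have h3 : ∀ Φ ∈ FF, (((JJ Φ).biUnion fun J =>
            univ.filter fun x : I → Ω => ∀ j ∈ J, x j ∈ S.Z ℓ Φ x) ∪
            ((PP Φ).biUnion fun P =>
            univ.filter fun x : I → Ω => ∀ p ∈ P, (x p.1, x p.2) ∈ S.A ℓ Φ x)).card ≤
            ∑ J ∈ JJ Φ, (univ.filter fun x : I → Ω => ∀ j ∈ J, x j ∈ S.Z ℓ Φ x).card +
            ∑ P ∈ PP Φ, (univ.filter fun x : I → Ω =>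
              ∀ p ∈ P, (x p.1, x p.2) ∈ S.A ℓ Φ x).card := by
          intro Φ _
          exact (Finset.card_union_le _ _).trans
            (add_le_add Finset.card_biUnion_le Finset.card_biUnion_le)
        have h4 := h2.trans (Finset.sum_le_sum h3)
        exact_mod_cast h4
    _ ≤ ∑ Φ ∈ FF, ((1 / 2) ^ r * W + (1 / 2) ^ r * W) :=
        Finset.sum_le_sum (fun Φ hΦ => add_le_add (cJ Φ hΦ) (cP Φ hΦ))
    _ = FF.card * (2 * ((1 / 2) ^ r * W)) := by
        rw [Finset.sum_const, nsmul_eq_mul]; ring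
    _ ≤ (2 ^ r / 16) * (2 * ((1 / 2) ^ r * W)) := by
        refine mul_le_mul_of_nonneg_right ?_ (by positivity)
        linarith
    _ = 1 / 8 * W := by
        have : (2 : ℝ) ^ r * (1 / 2) ^ r = 1 := by
          rw [← mul_pow]; norm_num
        calc (2 : ℝ) ^ r / 16 * (2 * ((1 / 2) ^ r * W)) = (2 ^ r * (1 / 2) ^ r) * (1 / 8 * W) := by
              ring
          _ = _ := by rw [this, one_mul]

end Sys

end Crest.Agent.R042.TLev333
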