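import Crest.Agent.R042.Facts_592
import Crest.Agent.R042.RichOm_592
import Crest.Agent.R042.TLevD_333

/-! Row 42 / S0059, T-level instance, part 4: from `Gen` back to linear independence of two types
(for the proofs of `dead_le`), and existence of one sample with all required properties. -/

set_option autoImplicit false
set_option linter.unusedSectionVars false

namespace Crest.Agent.R042.Exist592

open Finset Function
open scoped Classical
open Crest.Agent.R042.TLev333 Crest.Agent.R042.Fam543 Crest.Agent.R042.Gen592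
open Crest.Agent.R042.Inst592 Crest.Agent.R042.Facts592 Crest.Agent.R042.RichOm592
open Crest.Agent.R042.Rich380

variable {k0 KK : Type} [Field k0] [Field KK] [Algebra k0 KK] [Fintype k0] [Fintype KK]

/-- **`Gen` on the index set of a piece gives linear independence** of the vectors. -/
theorem li_of_gen {K : Set k0} (h1 : (1 : k0) ∈ K) {d L : ℕ} {I : Type*} {x : I → Om KK K d L}
    {T : Finset I} (hg : Gen (perp K d L) ((Fintype.card KK : ℝ)⁻¹) x T) {i j : I}
    (hi : i ∈ T) (hj : j ∈ T) (hij : i ≠ j) : LinearIndependent KK ![vv (x i), vv (x j)] := by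
  have hne := nonempty_Om (KK := KK) h1 d L
  have hOm : (0 : ℝ) < Fintype.card (Om KK K d L) := by exact_mod_cast Fintype.card_pos
  have hK2 : (1 : ℝ) < Fintype.card KK := by exact_mod_cast Fintype.one_lt_card
  have hK0 : (0 : ℝ) < Fintype.card KK := by linarith
  have g2 := hg {i, j} (by
    intro t ht
    rw [Finset.mem_insert, Finset.mem_singleton] at ht
    rcases ht with rfl | rfl <;> assumption) (by rw [Finset.card_pair hij]; norm_num)
  have g1 := hg {i} (Finset.singleton_subset_iff.mpr hi) (by simp)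
  rw [Finset.card_pair hij] at g2
  rw [Finset.card_singleton, pow_one] at g1
  -- a common neighbour
  have hpos : 0 < (univ.filter fun Q => ∀ t ∈ ({i, j} : Finset I), perp K d L (x t) Q).card := by
    have : (0 : ℝ) < ((univ.filter fun Q =>
        ∀ t ∈ ({i, j} : Finset I), perp K d L (x t) Q).card : ℝ) := by
      rw [g2]; positivity
    exact_mod_cast this
  obtain ⟨Q, hQ⟩ := Finset.card_pos.mp hpos
  rw [Finset.mem_filter] at hQ
  have e1 := (perp_iff (x i) Q).mp (hQ.2 i (by simp))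
  have e2 := (perp_iff (x j) Q).mp (hQ.2 j (by simp))
  rw [LinearIndependent.pair_iff]
  intro s t hst
  have h2 := congrArg (fun w => om d w (vv Q)) hst
  simp only [map_add, map_smul, LinearMap.add_apply, LinearMap.smul_apply, e1, e2, map_zero,
    LinearMap.zero_apply, smul_eq_mul] at h2
  have hts : t = -s := by linear_combination -h2
  by_cases hs : s = 0
  · subst hs
    exact ⟨rfl, by rw [hts, neg_zero]⟩
  · exfalso
    have h3 : vv (x i) = vv (x j) := by
      rw [hts, neg_smul, ← sub_eq_add_neg, ← smul_sub] at hst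
      exact sub_eq_zero.mp ((smul_eq_zero.mp hst).resolve_left hs)
    have h4 : (univ.filter fun Q => ∀ t ∈ ({i, j} : Finset I), perp K d L (x t) Q) =
        univ.filter fun Q => ∀ t ∈ ({i} : Finset I), perp K d L (x t) Q := by
      ext Q'
      simp only [Finset.mem_filter, Finset.mem_univ, true_and, Finset.mem_insert,
        Finset.mem_singleton, forall_eq_or_imp, forall_eq]
      constructor
      · exact fun h => h.1
      · intro h
        refine ⟨h, ?_⟩
        have h5 := (perp_iff (x i) Q').mp h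
        rw [h3] at h5
        exact (perp_iff (x j) Q').mpr h5
    rw [h4, g1] at g2
    have h6 : (Fintype.card KK : ℝ)⁻¹ = ((Fintype.card KK : ℝ)⁻¹) ^ 2 :=
      mul_right_cancel₀ hOm.ne' g2
    have h7 : (Fintype.card KK : ℝ)⁻¹ < 1 := inv_lt_one_of_one_lt₀ hK2
    have h8 : 0 < (Fintype.card KK : ℝ)⁻¹ := by positivity
    nlinarith

/-- the vectors `b` of the two types of a piece are linearly independent. -/
theorem li_b_of_gen {K : Set k0} (h1 : (1 : k0) ∈ K) {d L : ℕ} {I : Type*}
    {x : I → Om KK K d L} {T : Finset I}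
    (hg : Gen (perp K d L) ((Fintype.card KK : ℝ)⁻¹) x T) {i j : I}
    (hi : i ∈ T) (hj : j ∈ T) (hij : i ≠ j) :
    LinearIndependent KK ![(x i).1.b, (x j).1.b] := by
  have h := li_of_gen h1 hg hi hj hij
  let f : (Ix d → KK) →ₗ[KK] WW KK d := LinearMap.funLeft KK KK some
  refine LinearIndependent.of_comp f ?_
  have : f ∘ ![(x i).1.b, (x j).1.b] = ![vv (x i), vv (x j)] := by
    funext t
    fin_cases t <;> rfl
  rw [this]
  exact h

/-- `k` of the sample vectors are linearly independent, tuple form. -/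
theorem li_tuple {K : Set k0} {d L : ℕ} {I : Type*} {x : I → Om KK K d L}
    (hx : LI KK vv 8 x) {k : ℕ} (hk : k ≤ 8) (f : Fin k → I) (hf : Injective f) :
    LinearIndependent KK (fun t => vv (x (f t))) := by
  have h := hx (univ.image f) (by
    rw [Finset.card_image_of_injective _ hf, Finset.card_univ, Fintype.card_fin]; exact hk)
  exact h.comp (fun t => ⟨f t, Finset.mem_image_of_mem f (Finset.mem_univ t)⟩)
    (fun a b hab => hf (congrArg Subtype.val hab))

/-- tuple form for the vectors `b`. -/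
theorem li_b_tuple {K : Set k0} {d L : ℕ} {I : Type*} {x : I → Om KK K d L}
    (hx : LI KK vv 8 x) {k : ℕ} (hk : k ≤ 8) (f : Fin k → I) (hf : Injective f) :
    LinearIndependent KK (fun t => (x (f t)).1.b) := by
  let g : (Ix d → KK) →ₗ[KK] WW KK d := LinearMap.funLeft KK KK some
  exact LinearIndependent.of_comp g (li_tuple hx hk f hf)

lemma exists5 {X : Type*} [Fintype X] [Nonempty X] (p1 p2 p3 p4 : X → Prop)
    (c1 c2 c3 c4 : ℝ)
    (h1 : (((univ.filter fun x => ¬ p1 x).card : ℕ) : ℝ) ≤ c1 * Fintype.card X)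
    (h2 : (((univ.filter fun x => ¬ p2 x).card : ℕ) : ℝ) ≤ c2 * Fintype.card X)
    (h3 : (((univ.filter fun x => ¬ p3 x).card : ℕ) : ℝ) ≤ c3 * Fintype.card X)
    (h4 : (((univ.filter fun x => ¬ p4 x).card : ℕ) : ℝ) ≤ c4 * Fintype.card X)
    {ι : Type*} (s : Finset ι) (bad : ι → X → Prop) (c : ι → ℝ)
    (h : ∀ i ∈ s, (((univ.filter fun x => bad i x).card : ℕ) : ℝ) ≤ c i * Fintype.card X)
    (hc : c1 + c2 + c3 + c4 + ∑ i ∈ s, c i < 1) :
    ∃ x, p1 x ∧ p2 x ∧ p3 x ∧ p4 x ∧ ∀ i ∈ s, ¬ bad i x := by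
  by_contra hcon
  push Not at hcon
  set A : Finset X := (univ.filter fun x => ¬ p1 x) ∪ (univ.filter fun x => ¬ p2 x) ∪
    (univ.filter fun x => ¬ p3 x) ∪ (univ.filter fun x => ¬ p4 x) ∪
    s.biUnion (fun i => univ.filter fun x => bad i x) with hA
  have hsub : (univ : Finset X) ⊆ A := by
    intro x _
    simp only [hA, Finset.mem_union, Finset.mem_filter, Finset.mem_univ, true_and,
      Finset.mem_biUnion]
    by_cases q1 : p1 x
    · by_cases q2 : p2 x
      · by_cases q3 : p3 x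
        · by_cases q4 : p4 x
          · obtain ⟨i, hi, hb⟩ := hcon x q1 q2 q3 q4
            exact Or.inr ⟨i, hi, hb⟩
          · exact Or.inl (Or.inr q4)
        · exact Or.inl (Or.inl (Or.inr q3))
      · exact Or.inl (Or.inl (Or.inl (Or.inr q2)))
    · exact Or.inl (Or.inl (Or.inl (Or.inl q1)))
  have hcard := Finset.card_le_card hsub
  rw [Finset.card_univ] at hcard
  have hAle : A.card ≤ (univ.filter fun x => ¬ p1 x).card + (univ.filter fun x => ¬ p2 x).card +
      (univ.filter fun x => ¬ p3 x).card + (univ.filter fun x => ¬ p4 x).card +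
      ∑ i ∈ s, (univ.filter fun x => bad i x).card := by
    rw [hA]
    refine (Finset.card_union_le _ _).trans (add_le_add ?_ Finset.card_biUnion_le)
    refine (Finset.card_union_le _ _).trans (add_le_add ?_ le_rfl)
    refine (Finset.card_union_le _ _).trans (add_le_add ?_ le_rfl)
    exact Finset.card_union_le _ _
  have h5 : (Fintype.card X : ℝ) ≤
      (((univ.filter fun x => ¬ p1 x).card : ℕ) : ℝ) +
      (((univ.filter fun x => ¬ p2 x).card : ℕ) : ℝ) +
      (((univ.filter fun x => ¬ p3 x).card : ℕ) : ℝ) +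
      (((univ.filter fun x => ¬ p4 x).card : ℕ) : ℝ) +
      ∑ i ∈ s, (((univ.filter fun x => bad i x).card : ℕ) : ℝ) := by
    exact_mod_cast hcard.trans hAle
  have h6 : ∑ i ∈ s, (((univ.filter fun x => bad i x).card : ℕ) : ℝ) ≤
      (∑ i ∈ s, c i) * Fintype.card X := by
    rw [Finset.sum_mul]
    exact Finset.sum_le_sum h
  have h7 : (0 : ℝ) < Fintype.card X := by exact_mod_cast Fintype.card_pos
  nlinarith

/-- the number hypotheses of `Sys.card_bad_le`. -/
structure Num {I Ω σ : Type*} [Fintype I] [Fintype Ω] [Fintype σ] (S : Sys I Ω σ)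
    (ℓ r : ℕ) : Prop where
  hE : 1 ≤ S.η * ℓ * S.ρ ^ 4
  hE' : 1024 ≤ S.η * (S.η * ℓ * S.ρ ^ 4) ^ 2
  hr1 : 12 * S.η * Fintype.card I ≤ r
  hr2 : 10000 * (Fintype.card I : ℝ) ^ 2 ≤ r * (S.η * ℓ * S.ρ ^ 4) ^ 2
  hr3 : 16 * (Fintype.card σ + 1) ^ ℓ ≤ 2 ^ r
  hθ : ℓ * S.θ * (S.η * ℓ * S.ρ ^ 4) ^ 2 ≤ 1

/-- **existence of the sample**: 8-generic, rich, good for two systems, outside finitely many
further bad sets of total fraction `≤ 1/2`. -/
theorem exists_sample {K : Set k0} (hK : Fam543.Alph K) {d L : ℕ} {I σ σ' : Type*}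
    [Fintype I] [DecidableEq I] [Fintype σ] [DecidableEq σ] [Fintype σ'] [DecidableEq σ']
    (hI : 2 ≤ Fintype.card I)
    (hgen : (Fintype.card I : ℝ) ^ 8 *
      ((Fintype.card KK : ℝ) ^ 7 / (Fintype.card KK : ℝ) ^ (2 * d)) ≤ 1 / 16)
    (hL : (Fintype.card K : ℝ) *
      (2 * Real.log (Fintype.card I) + Real.log (Fintype.card K) + 4) ≤ L)
    (S : Sys I (Om KK K d L) σ) (ℓ r : ℕ) (hS : Num S ℓ r)
    (S' : Sys I (Om KK K d L) σ') (ℓ' r' : ℕ) (hS' : Num S' ℓ' r')
    {ι : Type*} (s : Finset ι) (bad : ι → (I → Om KK K d L) → Prop) (c : ι → ℝ)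
    (hbad : ∀ i ∈ s, (((univ.filter fun x => bad i x).card : ℕ) : ℝ) ≤
      c i * (Fintype.card (Om KK K d L) : ℝ) ^ Fintype.card I)
    (hc : ∑ i ∈ s, c i ≤ 1 / 2) :
    ∃ x : I → Om KK K d L, LI KK vv 8 x ∧ RichF K (fun i => (x i).1.E) ∧ S.Good ℓ r x ∧
      S'.Good ℓ' r' x ∧ ∀ i ∈ s, ¬ bad i x := by
  have hne := nonempty_Om (KK := KK) hK.one d L
  have hneI : Nonempty I := Fintype.card_pos_iff.mp (by omega)
  set W : ℝ := (Fintype.card (Om KK K d L) : ℝ) ^ Fintype.card I with hW
  have hWc : (Fintype.card (I → Om KK K d L) : ℝ) = W := by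
    rw [Fintype.card_fun]; push_cast; rfl
  have hW0 : 0 < W := by
    have : (0 : ℝ) < Fintype.card (Om KK K d L) := by exact_mod_cast Fintype.card_pos
    positivity
  have b1 : (((univ.filter fun x : I → Om KK K d L => ¬ LI KK vv 8 x).card : ℕ) : ℝ) ≤
      (Fintype.card I : ℝ) ^ 8 *
        ((Fintype.card KK : ℝ) ^ 7 / (Fintype.card KK : ℝ) ^ (2 * d)) * W := by
    have h := card_not_li (KK := KK) hK.one d L hI
    convert h
  have b2 : (((univ.filter fun x : I → Om KK K d L =>
      ¬ RichF K (fun i => (x i).1.E)).card : ℕ) : ℝ) ≤ Real.exp (-4) * W := by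
    have h := rich_bad (KK := KK) hK d L hL
    convert h
  have b3 := Sys.card_bad_le (S := S) ℓ r hS.hE hS.hE' hS.hr1 hS.hr2 hS.hr3 hS.hθ
  have b4 := Sys.card_bad_le (S := S') ℓ' r' hS'.hE hS'.hE' hS'.hr1 hS'.hr2 hS'.hr3 hS'.hθ
  have he : Real.exp (-4) ≤ 1 / 16 := by
    have h1 : (1 : ℝ) + 1 ≤ Real.exp 1 := by linarith [Real.add_one_le_exp (1 : ℝ)]
    have h2 : (2 : ℝ) ^ 4 ≤ Real.exp 4 := by
      have : Real.exp 4 = Real.exp 1 ^ 4 := by rw [← Real.exp_nat_mul]; norm_num
      rw [this]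
      exact pow_le_pow_left₀ (by norm_num) (by linarith) 4
    rw [Real.exp_neg, one_div]
    exact inv_anti₀ (by norm_num) (by linarith)
  have b1' : (((univ.filter fun x : I → Om KK K d L => ¬ LI KK vv 8 x).card : ℕ) : ℝ) ≤
      1 / 16 * W := b1.trans (mul_le_mul_of_nonneg_right hgen hW0.le)
  have b2' : (((univ.filter fun x : I → Om KK K d L =>
      ¬ RichF K (fun i => (x i).1.E)).card : ℕ) : ℝ) ≤ 1 / 16 * W :=
    b2.trans (mul_le_mul_of_nonneg_right he hW0.le)
  have hbad' : ∀ i ∈ s, (((univ.filter fun x => bad i x).card : ℕ) : ℝ) ≤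
      c i * Fintype.card (I → Om KK K d L) := by
    intro i hi
    rw [hWc]
    exact hbad i hi
  rw [← hWc] at b1' b2'
  rw [← hW, ← hWc] at b3 b4
  exact exists5 _ _ _ _ (1 / 16) (1 / 16) (1 / 8) (1 / 8) b1' b2' b3 b4 s bad c hbad'
    (by linarith)

end Crest.Agent.R042.Exist592
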