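import Mathlib

/-! Row 42 / S0059: the extension field `KK / k0` of degree `m`, characteristic 2. -/

set_option autoImplicit false

namespace Crest.Agent.R042.ExtF377

theorem exists_ext (k0 : Type) [Field k0] [Fintype k0] [CharP k0 2] (m : ℕ) (hm : 0 < m) :
    ∃ (KK : Type) (_ : Field KK) (_ : Fintype KK) (_ : DecidableEq KK) (_ : Algebra k0 KK)
      (_ : FiniteDimensional k0 KK), CharP KK 2 ∧ Module.finrank k0 KK = m ∧
        Fintype.card KK = Fintype.card k0 ^ m := by
  classical
  have : NeZero m := ⟨hm.ne'⟩
  have : Fact (Nat.Prime 2) := ⟨Nat.prime_two⟩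
  letI : Fintype (FiniteField.Extension k0 2 m) := Fintype.ofFinite _
  refine ⟨FiniteField.Extension k0 2 m, inferInstance, inferInstance, inferInstance, inferInstance,
    inferInstance, ?_, FiniteField.finrank_extension k0 2 m, ?_⟩
  · exact charP_of_injective_algebraMap (algebraMap k0 (FiniteField.Extension k0 2 m)).injective 2
  · rw [Fintype.card_eq_nat_card, Fintype.card_eq_nat_card]
    exact FiniteField.natCard_extension k0 2 m

end Crest.Agent.R042.ExtF377
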