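import Crest.Agent.R042.Inst_592

/-! Row 42 / S0059: sample facts for the same-type gadget: number of cherries and of triangles of the
relation `perp` in a random sample (first moments + Markov), and a union bound for finitely many
bad sets of samples. -/

set_option autoImplicit false
set_option linter.unusedSectionVars false

namespace Crest.Agent.R042.Facts592

open Finset Function
open scoped Classical
open Crest.Agent.R042.TLev333 Crest.Agent.R042.Fam543 Crest.Agent.R042.Gen592
open Crest.Agent.R042.Inst592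

section Abstract

variable {I Ω : Type*} [Fintype I] [Fintype Ω] [Nonempty Ω]

/-- neighbourhood degrees and codegrees of adjacent points are at most `ρ |Ω|`, `ρ² |Ω|`. -/
structure Reg (perp : Ω → Ω → Prop) (ρ : ℝ) : Prop where
  ρ0 : 0 ≤ ρ
  deg : ∀ P, ((univ.filter fun Q => perp P Q).card : ℝ) ≤ ρ * Fintype.card Ω
  codeg : ∀ P P', perp P P' →
    ((univ.filter fun Q => perp P Q ∧ perp P' Q).card : ℝ) ≤ ρ ^ 2 * Fintype.card Ω

/-- cherries of the sample (`b = c` allowed) -/
noncomputable def cher (perp : Ω → Ω → Prop) (x : I → Ω) : Finset (I × I × I) :=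
  univ.filter fun t => (t.1 ≠ t.2.1 ∧ perp (x t.1) (x t.2.1)) ∧
    (t.1 ≠ t.2.2 ∧ perp (x t.1) (x t.2.2))

/-- triangles of the sample -/
noncomputable def tria (perp : Ω → Ω → Prop) (x : I → Ω) : Finset (I × I × I) :=
  univ.filter fun t => (t.1 ≠ t.2.1 ∧ perp (x t.1) (x t.2.1)) ∧
    (t.1 ≠ t.2.2 ∧ perp (x t.1) (x t.2.2)) ∧ (t.2.1 ≠ t.2.2 ∧ perp (x t.2.1) (x t.2.2))

lemma swap_count {T : Type*} [Fintype T] (p : (I → Ω) → T → Prop) :
    (∑ x : I → Ω, ((univ.filter fun t => p x t).card : ℝ)) =
      ∑ t : T, ((univ.filter fun x => p x t).card : ℝ) := by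
  have h1 : ∀ x : I → Ω, ((univ.filter fun t => p x t).card : ℝ) =
      ∑ t : T, if p x t then (1 : ℝ) else 0 := by
    intro x; rw [Finset.card_filter]; push_cast; rfl
  have h2 : ∀ t : T, ((univ.filter fun x : I → Ω => p x t).card : ℝ) =
      ∑ x : I → Ω, if p x t then (1 : ℝ) else 0 := by
    intro t; rw [Finset.card_filter]; push_cast; rfl
  simp only [h1, h2]
  exact Finset.sum_comm

lemma cher_le {perp : Ω → Ω → Prop} {ρ : ℝ} (h : Reg perp ρ)
    (hN : 1 ≤ ρ * Fintype.card I) :
    (∑ x : I → Ω, ((cher perp x).card : ℝ)) ≤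
      2 * ρ ^ 2 * (Fintype.card I : ℝ) ^ 3 * (Fintype.card Ω : ℝ) ^ Fintype.card I := by
  classical
  set W : ℝ := (Fintype.card Ω : ℝ) ^ Fintype.card I with hW
  have hW0 : 0 ≤ W := by positivity
  have h0 := h.ρ0
  have key : ∀ t : I × I × I, ((univ.filter fun x : I → Ω =>
      (t.1 ≠ t.2.1 ∧ perp (x t.1) (x t.2.1)) ∧ (t.1 ≠ t.2.2 ∧ perp (x t.1) (x t.2.2))).card : ℝ) ≤
      ρ ^ 2 * W + if t.2.1 = t.2.2 then ρ * W else 0 := by
    rintro ⟨a, b, c⟩
    by_cases hab : a ≠ b
    swap
    · have : (univ.filter fun x : I → Ω =>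
          (a ≠ b ∧ perp (x a) (x b)) ∧ (a ≠ c ∧ perp (x a) (x c))) = ∅ :=
        Finset.filter_eq_empty_iff.mpr (fun x _ hx => hab hx.1.1)
      simp only [this, Finset.card_empty]
      push_cast
      split_ifs <;> positivity
    by_cases hac : a ≠ c
    swap
    · have : (univ.filter fun x : I → Ω =>
          (a ≠ b ∧ perp (x a) (x b)) ∧ (a ≠ c ∧ perp (x a) (x c))) = ∅ :=
        Finset.filter_eq_empty_iff.mpr (fun x _ hx => hac hx.2.1)
      simp only [this, Finset.card_empty]
      push_cast
      split_ifs <;> positivity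
    have hc1 := count_one (I := I) (Ω := Ω) {b, c} (fun x => univ.filter fun Q => perp (x a) Q)
      ρ h0 (by
        intro x j hj y
        have : j ≠ a := by
          rw [Finset.mem_insert, Finset.mem_singleton] at hj
          rcases hj with rfl | rfl
          · exact fun h => hab h.symm
          · exact fun h => hac h.symm
        rw [update_of_ne this.symm]) (fun x => h.deg (x a))
    have hsub : (univ.filter fun x : I → Ω =>
        (a ≠ b ∧ perp (x a) (x b)) ∧ (a ≠ c ∧ perp (x a) (x c))) ⊆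
        univ.filter fun x : I → Ω => ∀ j ∈ ({b, c} : Finset I),
          x j ∈ univ.filter fun Q => perp (x a) Q := by
      intro x hx
      rw [Finset.mem_filter] at hx ⊢
      refine ⟨Finset.mem_univ _, ?_⟩
      intro j hj
      rw [Finset.mem_filter]
      refine ⟨Finset.mem_univ _, ?_⟩
      rw [Finset.mem_insert, Finset.mem_singleton] at hj
      rcases hj with rfl | rfl
      · exact hx.2.1.2
      · exact hx.2.2.2
    have h3 : ((univ.filter fun x : I → Ω =>
        (a ≠ b ∧ perp (x a) (x b)) ∧ (a ≠ c ∧ perp (x a) (x c))).card : ℝ) ≤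
        ρ ^ ({b, c} : Finset I).card * W :=
      (Nat.cast_le.mpr (Finset.card_le_card hsub)).trans hc1
    refine h3.trans ?_
    by_cases hbc : b = c
    · subst hbc
      simp only [if_true, Finset.pair_eq_singleton, Finset.card_singleton, pow_one]
      have : 0 ≤ ρ ^ 2 * W := by positivity
      linarith
    · simp only [hbc, if_false, Finset.card_pair hbc, add_zero]
      exact le_rfl
  have hsw : (∑ x : I → Ω, ((cher perp x).card : ℝ)) = ∑ t : I × I × I,
      ((univ.filter fun x : I → Ω => (t.1 ≠ t.2.1 ∧ perp (x t.1) (x t.2.1)) ∧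
        (t.1 ≠ t.2.2 ∧ perp (x t.1) (x t.2.2))).card : ℝ) := by
    unfold cher
    convert swap_count (I := I) (Ω := Ω) (T := I × I × I)
      (fun x t => (t.1 ≠ t.2.1 ∧ perp (x t.1) (x t.2.1)) ∧
        (t.1 ≠ t.2.2 ∧ perp (x t.1) (x t.2.2)))
  rw [hsw]
  calc _ ≤ ∑ t : I × I × I, (ρ ^ 2 * W + if t.2.1 = t.2.2 then ρ * W else 0) :=
        Finset.sum_le_sum (fun t _ => key t)
    _ = (Fintype.card I : ℝ) ^ 3 * (ρ ^ 2 * W) + (Fintype.card I : ℝ) ^ 2 * (ρ * W) := by
        rw [Finset.sum_add_distrib, Finset.sum_const, Finset.card_univ, nsmul_eq_mul,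
          Fintype.card_prod, Fintype.card_prod]
        congr 1
        · push_cast; ring
        · simp only [Fintype.sum_prod_type, Finset.sum_ite_eq, Finset.mem_univ, if_true,
            Finset.sum_const, Finset.card_univ, nsmul_eq_mul]
          ring
    _ ≤ _ := by
        have h5 : (Fintype.card I : ℝ) ^ 2 * (ρ * W) * 1 ≤
            (Fintype.card I : ℝ) ^ 2 * (ρ * W) * (ρ * Fintype.card I) :=
          mul_le_mul_of_nonneg_left hN (by positivity)
        nlinarith

lemma tria_le {perp : Ω → Ω → Prop} {ρ : ℝ} (h : Reg perp ρ) :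
    (∑ x : I → Ω, ((tria perp x).card : ℝ)) ≤
      ρ ^ 3 * (Fintype.card I : ℝ) ^ 3 * (Fintype.card Ω : ℝ) ^ Fintype.card I := by
  classical
  set W : ℝ := (Fintype.card Ω : ℝ) ^ Fintype.card I with hW
  have hW0 : 0 ≤ W := by positivity
  have h0 := h.ρ0
  have key : ∀ t : I × I × I, ((univ.filter fun x : I → Ω =>
      (t.1 ≠ t.2.1 ∧ perp (x t.1) (x t.2.1)) ∧ (t.1 ≠ t.2.2 ∧ perp (x t.1) (x t.2.2)) ∧
      (t.2.1 ≠ t.2.2 ∧ perp (x t.2.1) (x t.2.2))).card : ℝ) ≤ ρ ^ 3 * W := by
    rintro ⟨a, b, c⟩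
    by_cases hd : a ≠ b ∧ a ≠ c ∧ b ≠ c
    swap
    · have : (univ.filter fun x : I → Ω => (a ≠ b ∧ perp (x a) (x b)) ∧
          (a ≠ c ∧ perp (x a) (x c)) ∧ (b ≠ c ∧ perp (x b) (x c))) = ∅ :=
        Finset.filter_eq_empty_iff.mpr (fun x _ hx => hd ⟨hx.1.1, hx.2.1.1, hx.2.2.1⟩)
      simp only [this, Finset.card_empty]
      push_cast
      positivity
    obtain ⟨hab, hac, hbc⟩ := hd
    have h1 := count_one (I := I) (Ω := Ω) {b} (fun x => univ.filter fun Q => perp (x a) Q)
      ρ h0 (by
        intro x j hj y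
        rw [Finset.mem_singleton] at hj
        subst hj
        rw [update_of_ne hab]) (fun x => h.deg (x a))
    rw [Finset.card_singleton, pow_one] at h1
    set g : (I → Ω) → ℝ := fun x => if perp (x a) (x b) then 1 else 0 with hg
    have hg1 : ∑ x, g x ≤ ρ * W := by
      refine le_trans (le_of_eq ?_) h1
      rw [Finset.card_filter]
      push_cast
      refine Finset.sum_congr rfl (fun x _ => ?_)
      simp [hg]
    have h2 := sum_one c (fun x : I → Ω => if perp (x a) (x b) then
      (univ.filter fun Q => perp (x a) Q ∧ perp (x b) Q) else ∅) g (ρ ^ 2) (by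
        intro x y
        rw [update_of_ne hac, update_of_ne hbc]) (by
        intro x y
        simp only [hg, update_of_ne hac, update_of_ne hbc])
      (fun x => by simp only [hg]; split_ifs <;> norm_num) (by
        intro x
        by_cases hp : perp (x a) (x b)
        · simp only [hp, if_true]
          exact h.codeg _ _ hp
        · simp only [hp, if_false, Finset.card_empty]
          push_cast
          positivity)
    have h3 : ((univ.filter fun x : I → Ω => (a ≠ b ∧ perp (x a) (x b)) ∧
        (a ≠ c ∧ perp (x a) (x c)) ∧ (b ≠ c ∧ perp (x b) (x c))).card : ℝ) =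
        ∑ x : I → Ω, (if x c ∈ (if perp (x a) (x b) then
          (univ.filter fun Q => perp (x a) Q ∧ perp (x b) Q) else ∅) then g x else 0) := by
      rw [Finset.card_filter]
      push_cast
      refine Finset.sum_congr rfl (fun x _ => ?_)
      by_cases hp : perp (x a) (x b)
      · simp [hg, hp, hab, hac, hbc]
      · simp [hp]
    simp only
    rw [h3]
    calc _ ≤ ρ ^ 2 * ∑ x, g x := h2
      _ ≤ ρ ^ 2 * (ρ * W) := mul_le_mul_of_nonneg_left hg1 (by positivity)
      _ = _ := by ring
  have hsw : (∑ x : I → Ω, ((tria perp x).card : ℝ)) = ∑ t : I × I × I,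
      ((univ.filter fun x : I → Ω => (t.1 ≠ t.2.1 ∧ perp (x t.1) (x t.2.1)) ∧
        (t.1 ≠ t.2.2 ∧ perp (x t.1) (x t.2.2)) ∧
        (t.2.1 ≠ t.2.2 ∧ perp (x t.2.1) (x t.2.2))).card : ℝ) := by
    unfold tria
    convert swap_count (I := I) (Ω := Ω) (T := I × I × I)
      (fun x t => (t.1 ≠ t.2.1 ∧ perp (x t.1) (x t.2.1)) ∧
        (t.1 ≠ t.2.2 ∧ perp (x t.1) (x t.2.2)) ∧
        (t.2.1 ≠ t.2.2 ∧ perp (x t.2.1) (x t.2.2)))
  rw [hsw]
  calc _ ≤ ∑ _t : I × I × I, ρ ^ 3 * W := Finset.sum_le_sum (fun t _ => key t)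
    _ = _ := by
        rw [Finset.sum_const, Finset.card_univ, nsmul_eq_mul, Fintype.card_prod,
          Fintype.card_prod]
        push_cast
        ring

lemma markov {X : Type*} [Fintype X] (f : X → ℕ) (t C : ℝ) (ht : 0 < t)
    (h : ∑ x, (f x : ℝ) ≤ C * t * Fintype.card X) :
    ((univ.filter fun x => t < (f x : ℝ)).card : ℝ) ≤ C * Fintype.card X := by
  have h1 : ((univ.filter fun x => t < (f x : ℝ)).card : ℝ) * t ≤ ∑ x, (f x : ℝ) := by
    rw [← nsmul_eq_mul, ← Finset.sum_const]
    calc ∑ _x ∈ univ.filter (fun x => t < (f x : ℝ)), t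
        ≤ ∑ x ∈ univ.filter (fun x => t < (f x : ℝ)), (f x : ℝ) :=
          Finset.sum_le_sum (fun x hx => (Finset.mem_filter.mp hx).2.le)
      _ ≤ _ := Finset.sum_le_sum_of_subset_of_nonneg (Finset.filter_subset _ _)
          (fun _ _ _ => Nat.cast_nonneg _)
  have h2 : ((univ.filter fun x => t < (f x : ℝ)).card : ℝ) * t ≤ (C * Fintype.card X) * t := by
    linarith
  exact le_of_mul_le_mul_right h2 ht

/-- at most a quarter of the samples have more than `8 ρ² N³` cherries. -/
theorem cher_bad {perp : Ω → Ω → Prop} {ρ : ℝ} (h : Reg perp ρ) (hρ : 0 < ρ)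
    (hN : 1 ≤ ρ * Fintype.card I) :
    ((univ.filter fun x : I → Ω =>
      8 * ρ ^ 2 * (Fintype.card I : ℝ) ^ 3 < ((cher perp x).card : ℝ)).card : ℝ) ≤
      1 / 4 * (Fintype.card Ω : ℝ) ^ Fintype.card I := by
  have hI : (0 : ℝ) < Fintype.card I := by
    by_contra hc
    have : (Fintype.card I : ℝ) ≤ 0 := not_lt.mp hc
    nlinarith
  have h1 := markov (fun x : I → Ω => (cher perp x).card)
    (8 * ρ ^ 2 * (Fintype.card I : ℝ) ^ 3) (1 / 4) (by positivity) (by
      refine (cher_le h hN).trans (le_of_eq ?_)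
      rw [Fintype.card_fun]
      push_cast
      ring)
  rw [Fintype.card_fun] at h1
  push_cast at h1
  exact h1

/-- at most an eighth of the samples have more than `8 ρ³ N³` triangles. -/
theorem tria_bad {perp : Ω → Ω → Prop} {ρ : ℝ} (h : Reg perp ρ) (hρ : 0 < ρ)
    (hN : 1 ≤ ρ * Fintype.card I) :
    ((univ.filter fun x : I → Ω =>
      8 * ρ ^ 3 * (Fintype.card I : ℝ) ^ 3 < ((tria perp x).card : ℝ)).card : ℝ) ≤
      1 / 8 * (Fintype.card Ω : ℝ) ^ Fintype.card I := by
  have hI : (0 : ℝ) < Fintype.card I := by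
    by_contra hc
    have : (Fintype.card I : ℝ) ≤ 0 := not_lt.mp hc
    nlinarith
  have h1 := markov (fun x : I → Ω => (tria perp x).card)
    (8 * ρ ^ 3 * (Fintype.card I : ℝ) ^ 3) (1 / 8) (by positivity) (by
      refine (tria_le h).trans (le_of_eq ?_)
      rw [Fintype.card_fun]
      push_cast
      ring)
  rw [Fintype.card_fun] at h1
  push_cast at h1
  exact h1

/-- union bound over finitely many bad sets. -/
theorem exists_of_bad {X : Type*} [Fintype X] [Nonempty X] {ι : Type*} (s : Finset ι)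
    (bad : ι → X → Prop) (c : ι → ℝ)
    (h : ∀ i ∈ s, ((univ.filter fun x => bad i x).card : ℝ) ≤ c i * Fintype.card X)
    (hc : ∑ i ∈ s, c i < 1) : ∃ x, ∀ i ∈ s, ¬ bad i x := by
  by_contra hcon
  push Not at hcon
  have h1 : (univ : Finset X) ⊆ s.biUnion fun i => univ.filter fun x => bad i x := by
    intro x _
    obtain ⟨i, hi, hb⟩ := hcon x
    rw [Finset.mem_biUnion]
    exact ⟨i, hi, Finset.mem_filter.mpr ⟨Finset.mem_univ _, hb⟩⟩
  have h2 := (Finset.card_le_card h1).trans Finset.card_biUnion_le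
  rw [Finset.card_univ] at h2
  have h3 : (Fintype.card X : ℝ) ≤ ∑ i ∈ s, ((univ.filter fun x => bad i x).card : ℝ) := by
    exact_mod_cast h2
  have h4 : (Fintype.card X : ℝ) ≤ (∑ i ∈ s, c i) * Fintype.card X := by
    rw [Finset.sum_mul]
    exact h3.trans (Finset.sum_le_sum h)
  have h5 : (0 : ℝ) < Fintype.card X := by exact_mod_cast Fintype.card_pos
  nlinarith

end Abstract

section Fam

variable {k0 KK : Type} [Field k0] [Field KK] [Algebra k0 KK] [Fintype k0] [Fintype KK]

lemma card_eq_om {K : Set k0} {d L : ℕ} {ι : Type} [Fintype ι] (u : ι → WW KK d)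
    (hu : LinearIndependent KK u) :
    ((univ.filter fun Q : Om KK K d L => ∀ i, om d (u i) (vv Q) = -1).card : ℝ) =
      ((Fintype.card KK : ℝ)⁻¹) ^ Fintype.card ι * Fintype.card (Om KK K d L) := by
  have h1 := card_fiber_mul (fun i => om d (u i)) (hu.map' (om d) (ker_om d)) (fun _ => (-1 : KK))
  have h2 := card_pre (fib (KK := KK) K d L) (fun w => ∀ i, om d (u i) w = -1)
  have hK : (0 : ℝ) < Fintype.card KK := by exact_mod_cast Fintype.card_pos
  have h3 : (univ.filter fun Q : Om KK K d L => ∀ i, om d (u i) (vv Q) = -1).card =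
      (univ.filter fun w : WW KK d => ∀ i, om d (u i) w = -1).card * Fintype.card (Zz KK K L) := by
    convert h2
  rw [card_Om (fib (KK := KK) K d L), h3, ← h1]
  push_cast
  rw [inv_pow]
  field_simp

theorem om_comm {d : ℕ} (x y : WW KK d) : om d x y = om d y x := by
  have h := B_comm (fun o : Ix d => o.elim 0 x) (fun o : Ix d => o.elim 0 y)
  rw [B_eq, B_eq] at h
  simpa using h

theorem om_self [CharP KK 2] {d : ℕ} (x : WW KK d) : om d x x = 0 := by
  have h := B_self (fun o : Ix d => o.elim 0 x)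
  rw [B_eq] at h
  simpa using h

/-- the regularity of the relation `perp` of the frozen family, `ρ = 1 / |KK|`. -/
theorem reg [CharP KK 2] (K : Set k0) (d L : ℕ) : Reg (perp (KK := KK) K d L) ((Fintype.card KK : ℝ)⁻¹) where
  ρ0 := by positivity
  deg := by
    intro P
    by_cases hP : vv P = 0
    · have : (univ.filter fun Q => perp K d L P Q) = ∅ := by
        refine Finset.filter_eq_empty_iff.mpr (fun Q _ hQ => ?_)
        have h := (perp_iff P Q).mp hQ
        rw [hP, map_zero, LinearMap.zero_apply] at h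
        exact one_ne_zero (neg_eq_zero.mp h.symm)
      rw [this, Finset.card_empty]
      push_cast
      positivity
    · have hli : LinearIndependent KK (fun _ : Unit => vv P) :=
        LinearIndependent.of_subsingleton () hP
      have h := card_eq_om (K := K) (L := L) _ hli
      rw [Fintype.card_unit, pow_one] at h
      rw [← h]
      refine le_of_eq (congrArg _ (congrArg Finset.card ?_))
      ext Q
      simp only [Finset.mem_filter, Finset.mem_univ, true_and, forall_const]
      exact perp_iff P Q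
  codeg := by
    intro P P' hPP
    have h0 := (perp_iff P P').mp hPP
    have hli : LinearIndependent KK ![vv P, vv P'] := by
      rw [LinearIndependent.pair_iff]
      intro s t hst
      have h1 := congrArg (om d (vv P)) hst
      rw [map_add, map_smul, map_smul, om_self, h0, map_zero, smul_zero, zero_add,
        smul_eq_mul, mul_neg, mul_one, neg_eq_zero] at h1
      have h2 := congrArg (om d (vv P')) hst
      rw [map_add, map_smul, map_smul, om_self, om_comm, h0, map_zero, smul_zero, add_zero,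
        smul_eq_mul, mul_neg, mul_one, neg_eq_zero] at h2
      exact ⟨h2, h1⟩
    have h := card_eq_om (K := K) (L := L) _ hli
    rw [Fintype.card_fin] at h
    rw [← h]
    refine le_of_eq (congrArg _ (congrArg Finset.card ?_))
    ext Q
    simp only [Finset.mem_filter, Finset.mem_univ, true_and, Fin.forall_fin_two,
      Matrix.cons_val_zero, Matrix.cons_val_one]
    exact and_congr (perp_iff P Q) (perp_iff P' Q)

end Fam

end Crest.Agent.R042.Facts592
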