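import Mathlib
import Crest.Agent.R042.HJB_883

/-! Row 42 / S0059, S0057, S0060: the frozen input `HJK K` (helper66: two kinds of pairs) and its
reduction `PairConfK` to two matchings of one kind in a typed triangle-free graph. -/

set_option autoImplicit false
set_option linter.unusedSectionVars false

namespace Crest.Agent.R042.S59Spine883

open Finset

/-- a family of pairwise disjoint nonempty independent sets of size at most two, the two-element
members being of kind `c`. -/
def IsFamK {N : ℕ} (F : SimpleGraph (Fin N)) (kd : Fin N → Fin N → Bool) (c : Bool)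
    (S : Finset (Finset (Fin N))) : Prop :=
  (∀ A ∈ S, A.Nonempty ∧ A.card ≤ 2 ∧
      ∀ a ∈ A, ∀ b ∈ A, ¬ F.Adj a b ∧ (a ≠ b → kd a b = c)) ∧
    ∀ A ∈ S, ∀ B ∈ S, A ≠ B → Disjoint A B

/-- helper66's form: two families of ONE kind of density `1 / K` contain a completely joined
pair of members. -/
def HJK (K : ℕ) : Prop :=
  ∃ N : ℕ, 0 < N ∧ ∃ F : SimpleGraph (Fin N), F.CliqueFree 3 ∧
    ∃ kd : Fin N → Fin N → Bool, (∀ a b, kd a b = kd b a) ∧
      ∀ (c : Bool) (𝒜 ℬ : Finset (Finset (Fin N))), IsFamK F kd c 𝒜 → IsFamK F kd c ℬ →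
        N ≤ K * 𝒜.card → N ≤ K * ℬ.card → ∃ A ∈ 𝒜, ∃ B ∈ ℬ, ∀ a ∈ A, ∀ b ∈ B, F.Adj a b

theorem HJK.mono {K K' : ℕ} (hK : K' ≤ K) (h : HJK K) : HJK K' := by
  obtain ⟨N, hN, F, hF, kd, hkd, H⟩ := h
  refine ⟨N, hN, F, hF, kd, hkd, ?_⟩
  intro c 𝒜 ℬ hA hB h1 h2
  exact H c 𝒜 ℬ hA hB (h1.trans (Nat.mul_le_mul_right _ hK)) (h2.trans (Nat.mul_le_mul_right _ hK))

theorem hj_of_hjk {K : ℕ} (h : HJK (2 * K)) : HJ 2 K := by
  classical
  obtain ⟨N, hN, F, hF, kd, hkd, H⟩ := h
  refine ⟨N, hN, F, hF, ?_⟩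
  intro S h1 h2 h3
  by_contra hcon
  push Not at hcon
  let T : Bool → Finset (Finset (Fin N)) := fun c =>
    S.filter fun A => ∀ a ∈ A, ∀ b ∈ A, a ≠ b → kd a b = c
  have hfam : ∀ c, IsFamK F kd c (T c) := by
    intro c
    refine ⟨?_, ?_⟩
    · intro A hA
      rw [Finset.mem_filter] at hA
      obtain ⟨x1, x2, x3⟩ := h1 A hA.1
      exact ⟨x1, x2, fun a ha b hb => ⟨x3 a ha b hb, hA.2 a ha b hb⟩⟩
    · intro A hA B hB
      exact h2 A (Finset.mem_filter.1 hA).1 B (Finset.mem_filter.1 hB).1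
  have hcov : S ⊆ T true ∪ T false := by
    intro A hA
    obtain ⟨x1, x2, x3⟩ := h1 A hA
    rw [Finset.mem_union]
    have hpos := x1.card_pos
    by_cases hc : A.card = 2
    · obtain ⟨a, b, hab, rfl⟩ := Finset.card_eq_two.1 hc
      cases hk : kd a b
      · right
        refine Finset.mem_filter.2 ⟨hA, ?_⟩
        intro x hx y hy hxy
        simp only [Finset.mem_insert, Finset.mem_singleton] at hx hy
        rcases hx with rfl | rfl <;> rcases hy with rfl | rfl
        · exact absurd rfl hxy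
        · exact hk
        · rw [hkd]; exact hk
        · exact absurd rfl hxy
      · left
        refine Finset.mem_filter.2 ⟨hA, ?_⟩
        intro x hx y hy hxy
        simp only [Finset.mem_insert, Finset.mem_singleton] at hx hy
        rcases hx with rfl | rfl <;> rcases hy with rfl | rfl
        · exact absurd rfl hxy
        · exact hk
        · rw [hkd]; exact hk
        · exact absurd rfl hxy
    · obtain ⟨v, rfl⟩ := Finset.card_eq_one.1 (by omega : A.card = 1)
      left
      refine Finset.mem_filter.2 ⟨hA, ?_⟩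
      intro x hx y hy hxy
      rw [Finset.mem_singleton] at hx hy
      exact absurd (hx.trans hy.symm) hxy
  have hcard : S.card ≤ (T true).card + (T false).card :=
    (Finset.card_le_card hcov).trans (Finset.card_union_le _ _)
  obtain ⟨c, hc⟩ : ∃ c, S.card ≤ 2 * (T c).card := by
    by_contra hno
    push Not at hno
    have ht := hno true
    have hf := hno false
    omega
  have hbig : N ≤ 2 * K * (T c).card := by
    calc N ≤ K * S.card := hcon
      _ ≤ K * (2 * (T c).card) := Nat.mul_le_mul_left _ hc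
      _ = 2 * K * (T c).card := by ring
  obtain ⟨A, hA, B, hB, hAB⟩ := H c (T c) (T c) (hfam c) (hfam c) hbig hbig
  have hA' := (Finset.mem_filter.1 hA).1
  have hB' := (Finset.mem_filter.1 hB).1
  have hne : A ≠ B := by
    rintro rfl
    obtain ⟨a, ha⟩ := (h1 A hA').1
    exact F.loopless.irrefl a (hAB a ha a ha)
  obtain ⟨a, ha, b, hb, hab⟩ := h3 A hA' B hB' hne
  exact hab (hAB a ha b hb)

/-- S0059 from `HJK 400`. -/
theorem s59_of_hjk (h : HJK 400) : From59822.S59A := s59_of_HJ (hj_of_hjk (K := 200) h)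

/-- a family carried by a matching of `R`-pairs plus an `R`-free rest of singles. -/
theorem exists_matR {N : ℕ} {R : Fin N → Fin N → Prop}
    {S : Finset (Finset (Fin N))}
    (hS1 : ∀ A ∈ S, A.Nonempty ∧ A.card ≤ 2 ∧ ∀ a ∈ A, ∀ b ∈ A, a ≠ b → R a b)
    (hS2 : ∀ A ∈ S, ∀ B ∈ S, A ≠ B → Disjoint A B) :
    ∃ M : Finset (Fin N × Fin N), (∀ z ∈ M, z.1 ≠ z.2 ∧ R z.1 z.2) ∧
      (∀ z ∈ M, ∀ z' ∈ M, z ≠ z' → z.1 ≠ z'.1 ∧ z.1 ≠ z'.2 ∧ z.2 ≠ z'.1 ∧ z.2 ≠ z'.2) ∧
      (∃ L : Finset (Fin N), (∀ x ∈ L, ∀ y ∈ L, x ≠ y → ¬ R x y) ∧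
        S.card ≤ 2 * M.card + L.card) ∧
      ∀ z ∈ M, ∃ A ∈ S, ∀ a ∈ A, a = z.1 ∨ a = z.2 := by
  classical
  let car : Fin N × Fin N → Prop := fun z =>
    (({z.1, z.2} : Finset (Fin N)) ∈ S) ∨ (({z.1} : Finset (Fin N)) ∈ S ∧ ({z.2} : Finset _) ∈ S)
  let P : Finset (Fin N × Fin N) → Prop := fun M =>
    ((∀ z ∈ M, z.1 ≠ z.2 ∧ R z.1 z.2) ∧
      (∀ z ∈ M, ∀ z' ∈ M, z ≠ z' → z.1 ≠ z'.1 ∧ z.1 ≠ z'.2 ∧ z.2 ≠ z'.1 ∧ z.2 ≠ z'.2)) ∧
    ∀ z ∈ M, car z
  obtain ⟨M, hM, hmax⟩ : ∃ M, P M ∧ ∀ J, P J → M ⊆ J → J = M := by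
    have hne : ((Finset.univ : Finset (Finset (Fin N × Fin N))).filter P).Nonempty :=
      ⟨∅, by simp [P]⟩
    obtain ⟨I, hI, hI2⟩ := Finset.exists_max_image _ Finset.card hne
    rw [Finset.mem_filter] at hI
    refine ⟨I, hI.2, ?_⟩
    intro J hJ hIJ
    have := hI2 J (Finset.mem_filter.2 ⟨Finset.mem_univ _, hJ⟩)
    exact (Finset.eq_of_subset_of_card_le hIJ this).symm
  obtain ⟨⟨hM1, hM2⟩, hM3⟩ := hM
  set U : Finset (Fin N) := M.biUnion fun z => {z.1, z.2} with hU
  have hUc : U.card ≤ 2 * M.card := by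
    refine Finset.card_biUnion_le.trans ?_
    calc ∑ z ∈ M, ({z.1, z.2} : Finset (Fin N)).card ≤ ∑ _z ∈ M, 2 :=
          Finset.sum_le_sum fun i _ => Finset.card_le_two
      _ = 2 * M.card := by rw [Finset.sum_const, smul_eq_mul, mul_comm]
  have hmemU : ∀ x, x ∉ U → ∀ z ∈ M, x ≠ z.1 ∧ x ≠ z.2 := by
    intro x hx z hz
    constructor
    · rintro rfl
      exact hx (Finset.mem_biUnion.2 ⟨z, hz, by simp⟩)
    · rintro rfl
      exact hx (Finset.mem_biUnion.2 ⟨z, hz, by simp⟩)
  -- adding a pair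
  have hadd : ∀ x y : Fin N, x ≠ y → R x y → x ∉ U → y ∉ U → car (x, y) → False := by
    intro x y hxy hnadj hx hy hc
    have hPJ : P (insert (x, y) M) := by
      refine ⟨⟨?_, ?_⟩, ?_⟩
      · intro z hz
        rw [Finset.mem_insert] at hz
        rcases hz with rfl | hz
        · exact ⟨hxy, hnadj⟩
        · exact hM1 z hz
      · intro z hz z' hz' hne
        rw [Finset.mem_insert] at hz hz'
        rcases hz with rfl | hz <;> rcases hz' with rfl | hz'
        · exact absurd rfl hne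
        · exact ⟨(hmemU x hx z' hz').1, (hmemU x hx z' hz').2, (hmemU y hy z' hz').1,
            (hmemU y hy z' hz').2⟩
        · exact ⟨(hmemU x hx z hz).1.symm, (hmemU y hy z hz).1.symm,
            (hmemU x hx z hz).2.symm, (hmemU y hy z hz).2.symm⟩
        · exact hM2 z hz z' hz' hne
      · intro z hz
        rw [Finset.mem_insert] at hz
        rcases hz with rfl | hz
        · exact hc
        · exact hM3 z hz
    have := hmax _ hPJ (Finset.subset_insert _ _)
    have hmem : (x, y) ∈ M := this ▸ Finset.mem_insert_self _ M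
    exact (hmemU x hx _ hmem).1 rfl
  refine ⟨M, hM1, hM2, ?_, ?_⟩
  · -- counting
    set S1 := S.filter fun A => ¬ Disjoint A U with hS1d
    set S0 := S.filter fun A => Disjoint A U with hS0d
    have hsplit : S.card = S0.card + S1.card := by
      rw [hS0d, hS1d]
      exact (Finset.card_filter_add_card_filter_not (s := S) (fun A => Disjoint A U)).symm
    have hS1c : S1.card ≤ U.card := by
      have hex : ∀ A : Finset (Fin N), ∃ x : Option (Fin N), A ∈ S1 →
          ∃ y ∈ A, y ∈ U ∧ x = some y := by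
        intro A
        by_cases hA : A ∈ S1
        · rw [hS1d, Finset.mem_filter, Finset.not_disjoint_iff] at hA
          obtain ⟨_, y, hy1, hy2⟩ := hA
          exact ⟨some y, fun _ => ⟨y, hy1, hy2, rfl⟩⟩
        · exact ⟨none, fun h => absurd h hA⟩
      choose x hx using hex
      have h1 : (S1.image x).card = S1.card := by
        apply Finset.card_image_of_injOn
        intro A hA B hB hAB
        obtain ⟨y, hy1, _, hy3⟩ := hx A hA
        obtain ⟨y', hy1', _, hy3'⟩ := hx B hB
        by_contra hne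
        have hyy : y = y' := by
          have : some y = some y' := by rw [← hy3, ← hy3']; exact hAB
          exact Option.some.inj this
        subst hyy
        rw [Finset.mem_coe, hS1d, Finset.mem_filter] at hA hB
        exact Finset.disjoint_left.1 (hS2 A hA.1 B hB.1 hne) hy1 hy1'
      rw [← h1]
      have h2 : S1.image x ⊆ U.image some := by
        intro o ho
        obtain ⟨A, hA, rfl⟩ := Finset.mem_image.1 ho
        obtain ⟨y, _, hy2, hy3⟩ := hx A hA
        rw [hy3]
        exact Finset.mem_image_of_mem _ hy2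
      exact (Finset.card_le_card h2).trans Finset.card_image_le
    have hsingle : ∀ A ∈ S0, ∃ v, A = {v} ∧ v ∉ U := by
      intro A hA
      rw [hS0d, Finset.mem_filter] at hA
      obtain ⟨hAS, hAU⟩ := hA
      obtain ⟨hne, hc, hind⟩ := hS1 A hAS
      have hpos := hne.card_pos
      by_cases hA2 : A.card = 2
      · exfalso
        obtain ⟨a, b, hab, rfl⟩ := Finset.card_eq_two.1 hA2
        have ha : a ∉ U := fun h => Finset.disjoint_left.1 hAU (by simp) h
        have hb : b ∉ U := fun h => Finset.disjoint_left.1 hAU (by simp) h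
        exact hadd a b hab (hind a (by simp) b (by simp) hab) ha hb (Or.inl hAS)
      · obtain ⟨v, rfl⟩ := Finset.card_eq_one.1 (by omega : A.card = 1)
        exact ⟨v, rfl, fun h => Finset.disjoint_left.1 hAU (by simp) h⟩
    refine ⟨Finset.univ.filter fun v => ({v} : Finset (Fin N)) ∈ S ∧ v ∉ U, ?_, ?_⟩
    · intro x hx y hy hxy hR
      rw [Finset.mem_filter] at hx hy
      exact hadd x y hxy hR hx.2.2 hy.2.2 (Or.inr ⟨hx.2.1, hy.2.1⟩)
    · have hS0c : S0.card ≤ (Finset.univ.filter fun v => ({v} : Finset (Fin N)) ∈ S ∧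
          v ∉ U).card := by
        have hsub : S0 ⊆ (Finset.univ.filter fun v => ({v} : Finset (Fin N)) ∈ S ∧
            v ∉ U).image fun v => ({v} : Finset (Fin N)) := by
          intro A hA
          obtain ⟨v, rfl, hv⟩ := hsingle A hA
          rw [hS0d, Finset.mem_filter] at hA
          exact Finset.mem_image.2 ⟨v, Finset.mem_filter.2 ⟨Finset.mem_univ _, hA.1, hv⟩, rfl⟩
        exact (Finset.card_le_card hsub).trans Finset.card_image_le
      omega
  · intro z hz
    rcases hM3 z hz with h | ⟨h, _⟩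
    · refine ⟨_, h, ?_⟩
      intro a ha
      simpa using ha
    · exact ⟨_, h, fun a ha => Or.inl (Finset.mem_singleton.1 ha)⟩

/-- the construction side: a typed triangle-free graph (equal types are never adjacent, few
types, small type classes) in which two matchings of one kind of density `1 / (4 K)` contain a
completely joined pair. -/
def PairConfK (K : ℕ) : Prop :=
  ∃ n : ℕ, 0 < n ∧ ∃ F : SimpleGraph (Fin n), F.CliqueFree 3 ∧
    ∃ (r : ℕ) (tp : Fin n → Fin r), (∀ a b, tp a = tp b → ¬ F.Adj a b) ∧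
      16 * K * r ≤ n ∧ (∀ i, 16 * K * (Finset.univ.filter fun a => tp a = i).card ≤ n) ∧
      ∀ c : Bool, ∀ M₁ M₂ : Finset (Fin n × Fin n), IsMat F M₁ → IsMat F M₂ →
        (∀ z ∈ M₁ ∪ M₂, decide (tp z.1 = tp z.2) = c) → n ≤ 4 * K * M₁.card →
        n ≤ 4 * K * M₂.card → ∃ z ∈ M₁, ∃ z' ∈ M₂, Conf F z z'

/-- a family of kind `c` is carried by a matching of kind `c`. -/
theorem exists_matK {n r K : ℕ} {F : SimpleGraph (Fin n)} (hF : F.CliqueFree 3)
    {tp : Fin n → Fin r} (htp : ∀ a b, tp a = tp b → ¬ F.Adj a b) (hr : 16 * K * r ≤ n)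
    (hcl : ∀ i, 16 * K * (Finset.univ.filter fun a => tp a = i).card ≤ n) {c : Bool}
    {S : Finset (Finset (Fin n))} (hS : IsFamK F (fun a b => decide (tp a = tp b)) c S)
    (hSc : n ≤ K * S.card) :
    ∃ M : Finset (Fin n × Fin n), IsMat F M ∧ (∀ z ∈ M, decide (tp z.1 = tp z.2) = c) ∧
      n ≤ 4 * K * M.card ∧ ∀ z ∈ M, ∃ A ∈ S, ∀ a ∈ A, a = z.1 ∨ a = z.2 := by
  classical
  obtain ⟨M, m1, m2, ⟨L, l1, l2⟩, m3⟩ := exists_matR (N := n)
    (R := fun x y => ¬ F.Adj x y ∧ decide (tp x = tp y) = c) (S := S)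
    (fun A hA => ⟨(hS.1 A hA).1, (hS.1 A hA).2.1, fun a ha b hb hab =>
      ⟨((hS.1 A hA).2.2 a ha b hb).1, ((hS.1 A hA).2.2 a ha b hb).2 hab⟩⟩) hS.2
  -- the rest is small
  have hL : 8 * K * L.card ≤ n := by
    cases c
    · -- cross type: at most two types
      have hadj : ∀ x ∈ L, ∀ y ∈ L, tp x ≠ tp y → F.Adj x y := by
        intro x hx y hy hxy
        by_contra hn'
        exact l1 x hx y hy (fun h => hxy (by rw [h])) ⟨hn', by simpa using hxy⟩
      have htwo : (L.image tp).card ≤ 2 := by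
        by_contra hcon
        push Not at hcon
        obtain ⟨i, j, k, hi, hj, hk, hij, hik, hjk⟩ := Finset.two_lt_card_iff.1 hcon
        obtain ⟨x, hx, rfl⟩ := Finset.mem_image.1 hi
        obtain ⟨y, hy, rfl⟩ := Finset.mem_image.1 hj
        obtain ⟨w, hw, rfl⟩ := Finset.mem_image.1 hk
        refine hF {x, y, w} ?_
        rw [SimpleGraph.is3Clique_iff]
        exact ⟨x, y, w, hadj x hx y hy hij, hadj x hx w hw hik, hadj y hy w hw hjk, rfl⟩
      have hLc : L.card ≤ ∑ i ∈ L.image tp, (Finset.univ.filter fun a => tp a = i).card := by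
        have : L ⊆ (L.image tp).biUnion fun i => Finset.univ.filter fun a => tp a = i := by
          intro x hx
          exact Finset.mem_biUnion.2 ⟨tp x, Finset.mem_image_of_mem _ hx,
            Finset.mem_filter.2 ⟨Finset.mem_univ _, rfl⟩⟩
        exact (Finset.card_le_card this).trans Finset.card_biUnion_le
      have h16 : 16 * K * L.card ≤ 2 * n := by
        calc 16 * K * L.card
            ≤ 16 * K * ∑ i ∈ L.image tp, (Finset.univ.filter fun a => tp a = i).card :=
              Nat.mul_le_mul_left _ hLc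
          _ = ∑ i ∈ L.image tp, 16 * K * (Finset.univ.filter fun a => tp a = i).card := by
              rw [Finset.mul_sum]
          _ ≤ ∑ _i ∈ L.image tp, n := Finset.sum_le_sum fun i _ => hcl i
          _ = (L.image tp).card * n := by rw [Finset.sum_const, smul_eq_mul]
          _ ≤ 2 * n := Nat.mul_le_mul_right _ htwo
      have : 16 * K * L.card = 2 * (8 * K * L.card) := by ring
      omega
    · -- same type: one per type
      have hinj : Set.InjOn tp (L : Set (Fin n)) := by
        intro x hx y hy hxy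
        by_contra hne
        exact l1 x hx y hy hne ⟨htp x y hxy, by simpa using hxy⟩
      have hLr : L.card ≤ r := by
        have h1 := Finset.card_le_card (Finset.subset_univ (L.image tp))
        rw [Finset.card_image_of_injOn hinj] at h1
        simpa using h1
      have h1 : 16 * K * L.card ≤ n := (Nat.mul_le_mul_left _ hLr).trans hr
      have h2 : 16 * K * L.card = 2 * (8 * K * L.card) := by ring
      omega
  refine ⟨M, ⟨fun z hz => ⟨(m1 z hz).1, (m1 z hz).2.1⟩, m2⟩, fun z hz => (m1 z hz).2.2, ?_, m3⟩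
  have h3 : K * S.card ≤ K * (2 * M.card + L.card) := Nat.mul_le_mul_left _ l2
  have h4 : K * (2 * M.card + L.card) = 2 * (K * M.card) + K * L.card := by ring
  have h5 : 4 * K * M.card = 4 * (K * M.card) := by ring
  have h6 : 8 * K * L.card = 8 * (K * L.card) := by ring
  omega

theorem hjk_of_pairConfK {K : ℕ} (h : PairConfK K) : HJK K := by
  obtain ⟨n, hn, F, hF, r, tp, htp, hr, hcl, H⟩ := h
  refine ⟨n, hn, F, hF, fun a b => decide (tp a = tp b), ?_, ?_⟩
  · intro a b
    simp only [eq_comm]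
  intro c 𝒜 ℬ hA hB hAc hBc
  obtain ⟨M₁, a1, a2, a3, a4⟩ := exists_matK hF htp hr hcl hA hAc
  obtain ⟨M₂, b1, b2, b3, b4⟩ := exists_matK hF htp hr hcl hB hBc
  obtain ⟨z, hz, z', hz', h1, h2, h3, h4⟩ := H c M₁ M₂ a1 b1
    (fun z hz => by
      rcases Finset.mem_union.1 hz with h | h
      · exact a2 z h
      · exact b2 z h) a3 b3
  obtain ⟨A, hAA, hA'⟩ := a4 z hz
  obtain ⟨B, hBB, hB'⟩ := b4 z' hz'
  refine ⟨A, hAA, B, hBB, ?_⟩
  intro a ha b hb
  rcases hA' a ha with rfl | rfl <;> rcases hB' b hb with rfl | rfl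
  · exact h1
  · exact h2
  · exact h3
  · exact h4

/-- S0059 from `PairConfK 400`. -/
theorem s59_of_pairConfK (h : PairConfK 400) : From59822.S59A := s59_of_hjk (hjk_of_pairConfK h)

end Crest.Agent.R042.S59Spine883
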