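import Crest.Agent.R042.ContP_666
import Crest.Agent.R042.HJK_883

set_option autoImplicit false
set_option linter.unusedSectionVars false
open Finset

/-!
S0059 / S0060 (row 42): sampling with two kinds of pairs, ending in `PairConfK` (883).
-/

namespace Crest.Agent.R042.Cont666

theorem numbers8 (δ : ℝ) (hδ : 0 < δ) (hδ1 : δ ≤ 1) : ∃ n0 : ℕ, ∀ n : ℕ, n0 ≤ n → 0 < n ∧
    ∃ t : ℕ, δ * Real.log ((n : ℝ) ^ (2 - 1) / δ) /
        ((n : ℝ) ^ (-(99 : ℝ) / 100) * Real.log 2) + 1 ≤ t ∧ (t : ℝ) ≤ δ * n ∧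
      2 * (t + 1) * (n : ℝ) ^ (2 * t) * Real.exp (- (δ ^ 2 * n / 2)) < 1 / 8 ∧
      (n : ℝ) * Real.exp (- (δ ^ 2 * n / 4)) < 1 / 8 := by
  obtain ⟨A, hA⟩ : ∃ A : ℝ, A = 2 * δ * (400 + |Real.log δ|) + 2 := ⟨_, rfl⟩
  have habs := abs_nonneg (Real.log δ)
  have hA2 : 2 ≤ A := by
    rw [hA]
    have : 0 ≤ 2 * δ * (400 + |Real.log δ|) := by positivity
    linarith
  obtain ⟨y0, hy0⟩ : ∃ y0 : ℝ, y0 = 1 + 802 * (2 * A + 1) / δ ^ 2 + (A + 1) / δ := ⟨_, rfl⟩
  have hy0a : 0 ≤ 802 * (2 * A + 1) / δ ^ 2 := by positivity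
  have hy0b : 0 ≤ (A + 1) / δ := by positivity
  have hy01 : 1 ≤ y0 := by rw [hy0]; linarith
  refine ⟨⌈y0 ^ (400 : ℝ)⌉₊, fun n hn => ?_⟩
  have hn' : y0 ^ (400 : ℝ) ≤ n := (Nat.le_ceil _).trans (by exact_mod_cast hn)
  have hn1 : (1 : ℝ) ≤ n := (Real.one_le_rpow hy01 (by norm_num)).trans hn'
  have hn0 : (0 : ℝ) < n := by linarith
  have hnpos : 0 < n := by exact_mod_cast hn0
  refine ⟨hnpos, ?_⟩
  obtain ⟨y, hy⟩ : ∃ y : ℝ, y = (n : ℝ) ^ ((1 : ℝ) / 400) := ⟨_, rfl⟩
  obtain ⟨P, hP⟩ : ∃ P : ℝ, P = (n : ℝ) ^ ((99 : ℝ) / 100) := ⟨_, rfl⟩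
  have hypos : 0 < y := by rw [hy]; exact Real.rpow_pos_of_pos hn0 _
  have hPpos : 0 < P := by rw [hP]; exact Real.rpow_pos_of_pos hn0 _
  have hP1 : 1 ≤ P := by rw [hP]; exact Real.one_le_rpow hn1 (by norm_num)
  have hy4 : y ^ 4 = (n : ℝ) ^ ((1 : ℝ) / 100) := by
    rw [hy, ← Real.rpow_natCast, ← Real.rpow_mul hn0.le]
    norm_num
  have hPy : P * y ^ 4 = n := by
    rw [hy4, hP, ← Real.rpow_add hn0]
    norm_num
  have hyy0 : y0 ≤ y := by
    have h1 : (y0 ^ (400 : ℝ)) ^ ((1 : ℝ) / 400) ≤ (n : ℝ) ^ ((1 : ℝ) / 400) :=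
      Real.rpow_le_rpow (by positivity) hn' (by norm_num)
    rw [← Real.rpow_mul (by linarith), ← hy] at h1
    norm_num at h1
    exact h1
  have hy1 : 1 ≤ y := hy01.trans hyy0
  have hPinv : (n : ℝ) ^ (-(99 : ℝ) / 100) = P⁻¹ := by
    rw [hP, ← Real.rpow_neg hn0.le]
    congr 1
    norm_num
  have hlogn : Real.log n ≤ 400 * y := by
    have := Real.log_le_rpow_div hn0.le (show (0 : ℝ) < 1 / 400 by norm_num)
    rw [← hy] at this
    linarith
  have hlogn0 : 0 ≤ Real.log n := Real.log_nonneg hn1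
  have hlog2a : (1 : ℝ) / 2 ≤ Real.log 2 := by
    have := Real.log_two_gt_d9; linarith
  have hlog2 : 0 < Real.log 2 := by linarith
  obtain ⟨v, hv⟩ : ∃ v : ℝ, v = δ * Real.log ((n : ℝ) ^ (2 - 1) / δ) /
        ((n : ℝ) ^ (-(99 : ℝ) / 100) * Real.log 2) := ⟨_, rfl⟩
  rw [← hv]
  have hlogd : Real.log ((n : ℝ) ^ (2 - 1) / δ) = Real.log n - Real.log δ := by
    rw [Nat.add_one_sub_one, pow_one, Real.log_div hn0.ne' hδ.ne']
  have hlogd0 : 0 ≤ Real.log n - Real.log δ := by
    have := Real.log_nonpos hδ.le hδ1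
    linarith
  have hv' : v = δ * (Real.log n - Real.log δ) * P / Real.log 2 := by
    rw [hv, hlogd, hPinv]
    field_simp
  have hv0 : 0 ≤ v := by
    rw [hv']
    positivity
  have hvle : v ≤ (A - 2) * (P * y) := by
    rw [hv', div_le_iff₀ hlog2]
    have h1 : Real.log n - Real.log δ ≤ (400 + |Real.log δ|) * y := by
      have h2 : -Real.log δ ≤ |Real.log δ| := neg_le_abs _
      have h3 : |Real.log δ| ≤ |Real.log δ| * y := le_mul_of_one_le_right habs hy1
      linarith
    have h3 : δ * (Real.log n - Real.log δ) * P ≤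
        δ * ((400 + |Real.log δ|) * y) * P :=
      mul_le_mul_of_nonneg_right (mul_le_mul_of_nonneg_left h1 hδ.le) hPpos.le
    have h4 : δ * ((400 + |Real.log δ|) * y) * P = (A - 2) * (P * y) * (1 / 2) := by
      rw [hA]; ring
    have h5 : (A - 2) * (P * y) * (1 / 2) ≤ (A - 2) * (P * y) * Real.log 2 :=
      mul_le_mul_of_nonneg_left hlog2a (mul_nonneg (by linarith) (by positivity))
    linarith
  refine ⟨⌈v⌉₊ + 1, ?_, ?_⟩
  · push_cast
    have := Nat.le_ceil v
    linarith
  have hPy1 : 1 ≤ P * y := by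
    have := mul_le_mul hP1 hy1 zero_le_one hPpos.le
    linarith
  obtain ⟨t, htdef⟩ : ∃ t : ℕ, t = ⌈v⌉₊ + 1 := ⟨_, rfl⟩
  rw [← htdef]
  have ht : (t : ℝ) ≤ A * (P * y) := by
    have h1 := Nat.ceil_lt_add_one hv0
    rw [htdef]
    push_cast
    have h3 : (A - 2) * (P * y) + 2 ≤ A * (P * y) := by
      have : A * (P * y) = (A - 2) * (P * y) + 2 * (P * y) := by ring
      rw [this]
      linarith
    linarith
  have hy3 : (A + 1) ≤ δ * y ^ 3 := by
    have h1 : (A + 1) / δ ≤ y := by
      have : (A + 1) / δ ≤ y0 := by rw [hy0]; linarith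
      exact this.trans hyy0
    have h2 : A + 1 ≤ y * δ := by rwa [div_le_iff₀ hδ] at h1
    have h3 : y ≤ y ^ 3 := by
      calc y = y ^ 1 := (pow_one y).symm
        _ ≤ y ^ 3 := pow_le_pow_right₀ hy1 (by norm_num)
    have h4 : δ * y ≤ δ * y ^ 3 := mul_le_mul_of_nonneg_left h3 hδ.le
    linarith
  have hy2 : 802 * (2 * A + 1) < δ ^ 2 * y ^ 2 := by
    have h1 : 802 * (2 * A + 1) / δ ^ 2 < y := by
      have : 802 * (2 * A + 1) / δ ^ 2 < y0 := by rw [hy0]; linarith
      exact this.trans_le hyy0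
    have h2 : 802 * (2 * A + 1) < y * δ ^ 2 := by rwa [div_lt_iff₀ (by positivity)] at h1
    have h3 : y ≤ y ^ 2 := by
      calc y = y ^ 1 := (pow_one y).symm
        _ ≤ y ^ 2 := pow_le_pow_right₀ hy1 (by norm_num)
    have h4 : δ ^ 2 * y ≤ δ ^ 2 * y ^ 2 := mul_le_mul_of_nonneg_left h3 (by positivity)
    linarith
  have hPy2 : 1 ≤ P * y ^ 2 := by
    have := mul_le_mul hP1 (one_le_pow₀ hy1 : 1 ≤ y ^ 2) zero_le_one hPpos.le
    linarith
  have htn : (t : ℝ) + 1 ≤ δ * n := by
    rw [← hPy]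
    have h2 : (A + 1) * (P * y) ≤ δ * y ^ 3 * (P * y) :=
      mul_le_mul_of_nonneg_right hy3 (by positivity)
    have h3 : δ * y ^ 3 * (P * y) = δ * (P * y ^ 4) := by ring
    have h4 : (A + 1) * (P * y) = A * (P * y) + P * y := by ring
    linarith
  refine ⟨by linarith, ?_⟩
  have htn' : (t : ℝ) + 1 ≤ n := by
    have : δ * n ≤ 1 * n := mul_le_mul_of_nonneg_right hδ1 hn0.le
    linarith
  have ht0 : (0 : ℝ) ≤ t := Nat.cast_nonneg _
  have h1 : 2 * ((t : ℝ) + 1) * (n : ℝ) ^ (2 * t) ≤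
      Real.exp (1 + Real.log n + 2 * t * Real.log n) := by
    rw [Real.exp_add, Real.exp_add, Real.exp_log hn0]
    have h2 : Real.exp (2 * t * Real.log n) = (n : ℝ) ^ (2 * t) := by
      rw [← Real.rpow_natCast, Real.rpow_def_of_pos hn0]
      congr 1
      push_cast
      ring
    rw [h2]
    have h3 : (2 : ℝ) ≤ Real.exp 1 := by
      have := Real.add_one_le_exp (1 : ℝ); linarith
    have h4 : 2 * ((t : ℝ) + 1) ≤ Real.exp 1 * n :=
      mul_le_mul h3 htn' (by positivity) (Real.exp_pos _).le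
    exact mul_le_mul_of_nonneg_right h4 (by positivity)
  have h8 : y ≤ P * y ^ 2 := by
      have e1 : y = 1 * (y * 1) := by ring
      have e2 : P * y ^ 2 = P * (y * y) := by ring
      rw [e2]
      calc y = 1 * (y * 1) := e1
        _ ≤ P * (y * y) := mul_le_mul hP1 (mul_le_mul_of_nonneg_left hy1 hypos.le)
            (by positivity) hPpos.le
  have h10 : 401 * (2 * A + 1) * (P * y ^ 2) < δ ^ 2 * n / 2 := by
      rw [← hPy]
      have h11 : 802 * (2 * A + 1) * (P * y ^ 2) < δ ^ 2 * y ^ 2 * (P * y ^ 2) :=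
        mul_lt_mul_of_pos_right hy2 (by positivity)
      have h12 : δ ^ 2 * y ^ 2 * (P * y ^ 2) = δ ^ 2 * (P * y ^ 4) := by ring
      linarith
  have hA5 : 2005 * (P * y ^ 2) ≤ 401 * (2 * A + 1) * (P * y ^ 2) :=
    mul_le_mul_of_nonneg_right (by linarith) (by positivity)
  have h5 : 4 + Real.log n + 2 * t * Real.log n < δ ^ 2 * n / 2 := by
    have h6 : 2 * t * Real.log n ≤ 2 * (A * (P * y)) * (400 * y) :=
      mul_le_mul (by linarith) hlogn hlogn0 (by positivity)
    have h7 : 2 * (A * (P * y)) * (400 * y) = 800 * A * (P * y ^ 2) := by ring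
    have h9 : 4 + Real.log n + 2 * t * Real.log n ≤ 401 * (2 * A + 1) * (P * y ^ 2) := by
      have e3 : 401 * (2 * A + 1) * (P * y ^ 2) =
        401 * (P * y ^ 2) + 2 * A * (P * y ^ 2) + 800 * A * (P * y ^ 2) := by ring
      rw [e3]
      have e4 : 4 * (P * y ^ 2) ≤ 2 * A * (P * y ^ 2) :=
        mul_le_mul_of_nonneg_right (by linarith) (by positivity)
      linarith
    linarith
  have h8' : Real.exp (-3) ≤ 1 / 8 := by
    rw [Real.exp_neg, one_div]
    refine inv_anti₀ (by norm_num) ?_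
    have h3 : (2 : ℝ) ≤ Real.exp 1 := by
      have := Real.add_one_le_exp (1 : ℝ); linarith
    calc (8 : ℝ) = 2 ^ 3 := by norm_num
      _ ≤ (Real.exp 1) ^ 3 := pow_le_pow_left₀ (by norm_num) h3 3
      _ = Real.exp 3 := by rw [← Real.exp_nat_mul]; norm_num
  refine ⟨?_, ?_⟩
  · calc 2 * ((t : ℝ) + 1) * (n : ℝ) ^ (2 * t) * Real.exp (- (δ ^ 2 * n / 2))
        ≤ Real.exp (1 + Real.log n + 2 * t * Real.log n) * Real.exp (- (δ ^ 2 * n / 2)) :=
          mul_le_mul_of_nonneg_right h1 (Real.exp_pos _).le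
      _ = Real.exp (1 + Real.log n + 2 * t * Real.log n - δ ^ 2 * n / 2) := by
          rw [← Real.exp_add]; congr 1
      _ < Real.exp (-3) := by
          rw [Real.exp_lt_exp]; linarith
      _ ≤ 1 / 8 := h8'
  · have e5 : (n : ℝ) * Real.exp (- (δ ^ 2 * n / 4)) =
        Real.exp (Real.log n - δ ^ 2 * n / 4) := by
      rw [sub_eq_add_neg, Real.exp_add, Real.exp_log hn0]
    rw [e5]
    refine lt_of_lt_of_le (Real.exp_lt_exp.2 ?_) h8'
    linarith


/-! ### the interface with kinds -/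

section InterfaceK

variable {V T : Type*} [Fintype V] [DecidableEq V] [Fintype T] [DecidableEq T]

/-- admissible weights on pairs of kind `c` (`true` = same type, `false` = different types). -/
structure AdmK (n : ℕ) (δ : ℝ) (E : V → V → Prop) (tp : V → T) (c : Bool)
    (w : V × V → ℝ) : Prop where
  nonneg : ∀ z, 0 ≤ w z
  supp : ∀ a b, w (a, b) ≠ 0 → ¬ E a b ∧ decide (tp a = tp b) = c
  row : ∀ a, ∑ b, w (a, b) + ∑ b, w (b, a) ≤ 1
  cap : ∀ z, w z ≤ (n : ℝ) / (Fintype.card V : ℝ)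
  mass : ∑ z, w z = δ * (Fintype.card V : ℝ)

open Classical in
/-- average conflict density of two admissible weights of the same kind. -/
def SSK (n : ℕ) (δ κ : ℝ) (E : V → V → Prop) (tp : V → T) : Prop :=
  ∀ c : Bool, ∀ w₁ w₂ : V × V → ℝ, AdmK n δ E tp c w₁ → AdmK n δ E tp c w₂ →
    κ * (Fintype.card V : ℝ) * (δ * (Fintype.card V : ℝ)) ≤
      ∑ z : V × V, ∑ z' : V × V,
        if (E z.1 z'.1 ∧ E z.1 z'.2 ∧ E z.2 z'.1 ∧ E z.2 z'.2) then w₁ z * w₂ z' else 0

/-- the allowed pairs of kind `c` -/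
noncomputable def OmK (E : V → V → Prop) (tp : V → T) (c : Bool) : Finset (Fin 2 → V) :=
  open Classical in univ.filter fun z => ¬ E (z 0) (z 1) ∧ decide (tp (z 0) = tp (z 1)) = c

theorem mem_OmK {E : V → V → Prop} {tp : V → T} {c : Bool} {z : Fin 2 → V} :
    z ∈ OmK E tp c ↔ (¬ E (z 0) (z 1) ∧ decide (tp (z 0) = tp (z 1)) = c) := by
  classical
  simp [OmK]

theorem admK_of_admS {n : ℕ} {δ : ℝ} {E : V → V → Prop} {tp : V → T} {c : Bool}
    {w : (Fin 2 → V) → ℝ} (h : AdmS n δ (OmK E tp c) w) :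
    AdmK n δ E tp c (fun p => w ![p.1, p.2]) := by
  classical
  have h' : AdmS n δ (univ.filter fun z : Fin 2 → V => ¬ E (z 0) (z 1)) w := by
    refine Adm.mono h ?_
    intro z hz
    exact Finset.mem_filter.2 ⟨Finset.mem_univ _, (mem_OmK.1 hz).1⟩
  have h2 := admP_of_admS (E := E) (fun z => by simp) h'
  refine ⟨h2.nonneg, ?_, h2.row, h2.cap, h2.mass⟩
  intro a b hab
  have := mem_OmK.1 (h.supp _ hab)
  simpa using this

open Classical in
theorem count_kind {n t : ℕ} {δ κ : ℝ} {E : V → V → Prop} {tp : V → T}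
    (hn : 0 < n) (hδ : 0 < δ) (hκ : 0 < κ) (hV : 0 < Fintype.card V)
    (hSS : SSK n δ κ E tp)
    (ht : δ * Real.log ((n : ℝ) ^ (2 - 1) / δ) / (κ * Real.log 2) + 1 ≤ t) (c : Bool) :
    ((univ.filter fun X : Fin n → V =>
      Bad2 (OmK E tp c) (conf2 E) (2 * δ * n + (2 : ℕ) * t) X).card : ℝ) ≤
      2 * (t + 1) * (n : ℝ) ^ (2 * t) * Real.exp (- (δ ^ 2 * n / 2)) *
        (Fintype.card V : ℝ) ^ n := by
  have hN0 : (0 : ℝ) < (Fintype.card V : ℝ) := by exact_mod_cast hV
  refine cont2 (V := V) n 2 t δ κ (OmK E tp c) (conf2 E) hn (by norm_num) hδ hκ hV ?_ ht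
  intro w₁ w₂ h₁ h₂
  by_contra hcon
  push Not at hcon
  have h3 := hSS c _ _ (admK_of_admS h₁) (admK_of_admS h₂)
  have h4 : ∑ z : V × V, ∑ z' : V × V,
      (if (E z.1 z'.1 ∧ E z.1 z'.2 ∧ E z.2 z'.1 ∧ E z.2 z'.2) then
        w₁ ![z.1, z.2] * w₂ ![z'.1, z'.2] else 0) =
      ∑ z : Fin 2 → V, w₁ z * ∑ z' ∈ univ.filter (fun z' => conf2 E z z'), w₂ z' := by
    rw [sum_fin2 (fun z => w₁ z * ∑ z' ∈ univ.filter (fun z' => conf2 E z z'), w₂ z')]
    refine Finset.sum_congr rfl fun z _ => ?_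
    rw [Finset.sum_filter, sum_fin2, Finset.mul_sum]
    refine Finset.sum_congr rfl fun z' _ => ?_
    by_cases hc : E z.1 z'.1 ∧ E z.1 z'.2 ∧ E z.2 z'.1 ∧ E z.2 z'.2
    · have hc' : conf2 E ![z.1, z.2] ![z'.1, z'.2] := by simpa [conf2] using hc
      rw [if_pos hc, if_pos hc']
    · have hc' : ¬ conf2 E ![z.1, z.2] ![z'.1, z'.2] := by simpa [conf2] using hc
      rw [if_neg hc, if_neg hc', mul_zero]
  rw [h4] at h3
  have h5 : ∑ z : Fin 2 → V, w₁ z * ∑ z' ∈ univ.filter (fun z' => conf2 E z z'), w₂ z' <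
      ∑ z : Fin 2 → V, w₁ z * (κ * (Fintype.card V : ℝ)) := by
    have hex : ∃ z, w₁ z ≠ 0 := by
      by_contra hall
      push Not at hall
      have := h₁.mass
      rw [Finset.sum_eq_zero (fun z _ => hall z)] at this
      have hpos : 0 < δ * (Fintype.card V : ℝ) := by positivity
      linarith
    obtain ⟨z0, hz0⟩ := hex
    refine Finset.sum_lt_sum (fun z _ => ?_) ⟨z0, Finset.mem_univ _, ?_⟩
    · by_cases hz : w₁ z = 0
      · rw [hz]; simp
      · exact mul_le_mul_of_nonneg_left (hcon z hz).le (h₁.nonneg z)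
    · have hpos : 0 < w₁ z0 := lt_of_le_of_ne (h₁.nonneg z0) (Ne.symm hz0)
      exact mul_lt_mul_of_pos_left (hcon z0 hz0) hpos
  rw [← Finset.sum_mul, h₁.mass] at h5
  linarith

open Classical in
/-- class sizes in the sample -/
theorem count_class {n K : ℕ} {δ : ℝ} (hK : 0 < K) (hδ : δ = 1 / (16 * (K : ℝ))) (hn : 0 < n)
    (hV : 0 < Fintype.card V) (tp : V → T) (i : T)
    (hcl : 64 * K * (univ.filter fun v => tp v = i).card ≤ Fintype.card V) :
    ((univ.filter fun X : Fin n → V =>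
      n < 16 * K * (univ.filter fun a => tp (X a) = i).card).card : ℝ) ≤
      (Fintype.card V : ℝ) ^ n * Real.exp (- (δ ^ 2 * n / 4)) := by
  have hN0 : (0 : ℝ) < (Fintype.card V : ℝ) := by exact_mod_cast hV
  have hn0 : (0 : ℝ) < (n : ℝ) := by exact_mod_cast hn
  have hK0 : (0 : ℝ) < (K : ℝ) := by exact_mod_cast hK
  have hmean : ∑ X : Fin n → V, ((univ.filter fun a => tp (X a) = i).card : ℝ) ≤
      ((n : ℝ) / (64 * K)) * (Fintype.card V : ℝ) ^ (Fintype.card (Fin n)) := by
    have h7 : ∑ X : Fin n → V, ((univ.filter fun a => tp (X a) = i).card : ℝ) =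
        ∑ a : Fin n, ((univ.filter fun X : Fin n → V => tp (X a) = i).card : ℝ) := by
      simp_rw [Finset.card_filter]
      push_cast
      rw [Finset.sum_comm]
    have h8 : ∀ a : Fin n, ((univ.filter fun X : Fin n → V => tp (X a) = i).card : ℝ) *
        (Fintype.card V : ℝ) = ((univ.filter fun v => tp v = i).card : ℝ) *
          (Fintype.card V : ℝ) ^ n := by
      intro a
      have h9 : (univ.filter fun X : Fin n → V => tp (X a) = i) =
          (univ.filter fun v => tp v = i).biUnion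
            (fun v => univ.filter fun X : Fin n → V => X a = v) := by
        ext X
        simp
      have h10 : (univ.filter fun X : Fin n → V => tp (X a) = i).card =
          ∑ v ∈ univ.filter (fun v => tp v = i),
            (univ.filter fun X : Fin n → V => X a = v).card := by
        rw [h9, Finset.card_biUnion]
        intro v _ v' _ hne
        rw [Function.onFun, Finset.disjoint_left]
        intro X hX hX'
        rw [Finset.mem_filter] at hX hX'
        exact hne (hX.2.symm.trans hX'.2)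
      rw [h10]
      push_cast
      rw [Finset.sum_mul]
      have h11 : ∀ v ∈ univ.filter (fun v => tp v = i),
          ((univ.filter fun X : Fin n → V => X a = v).card : ℝ) * (Fintype.card V : ℝ) =
          (Fintype.card V : ℝ) ^ n := by
        intro v _
        have := card_pt_mul (V := V) (ι := Fin n) (Fintype.card_fin n) a v
        exact_mod_cast this
      rw [Finset.sum_congr rfl h11, Finset.sum_const, nsmul_eq_mul]
    have hcl' : (64 * (K : ℝ)) * ((univ.filter fun v => tp v = i).card : ℝ) ≤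
        (Fintype.card V : ℝ) := by exact_mod_cast hcl
    rw [h7, Fintype.card_fin]
    have h12 : (∑ a : Fin n, ((univ.filter fun X : Fin n → V => tp (X a) = i).card : ℝ)) *
        (Fintype.card V : ℝ) = (n : ℝ) * (((univ.filter fun v => tp v = i).card : ℝ) *
          (Fintype.card V : ℝ) ^ n) := by
      rw [Finset.sum_mul, Finset.sum_congr rfl fun a _ => h8 a, Finset.sum_const,
        Finset.card_univ, Fintype.card_fin, nsmul_eq_mul]
    have h13 : ((univ.filter fun v => tp v = i).card : ℝ) ≤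
        (Fintype.card V : ℝ) / (64 * K) := by
      rw [le_div_iff₀ (by positivity)]
      linarith
    have h14 : (∑ a : Fin n, ((univ.filter fun X : Fin n → V => tp (X a) = i).card : ℝ)) *
        (Fintype.card V : ℝ) ≤
        ((n : ℝ) / (64 * K) * (Fintype.card V : ℝ) ^ n) * (Fintype.card V : ℝ) := by
      rw [h12]
      calc (n : ℝ) * (((univ.filter fun v => tp v = i).card : ℝ) *
          (Fintype.card V : ℝ) ^ n) ≤
          (n : ℝ) * ((Fintype.card V : ℝ) / (64 * K) * (Fintype.card V : ℝ) ^ n) :=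
            mul_le_mul_of_nonneg_left (mul_le_mul_of_nonneg_right h13 (by positivity))
              hn0.le
        _ = _ := by ring
    exact le_of_mul_le_mul_right h14 hN0
  have h := tail (V := V) (ι := Fin n)
    (fun X => ((univ.filter fun a => tp (X a) = i).card : ℝ)) ((n : ℝ) / (64 * K))
    (3 * n / (64 * K)) n hn0 (by positivity) (by rw [Fintype.card_fin]) hV hmean
    (by
      intro X X' a hX
      have h1 : (univ.filter fun a => tp (X a) = i) ⊆
          insert a (univ.filter fun a => tp (X' a) = i) := by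
        intro b hb
        rw [Finset.mem_insert, Finset.mem_filter]
        by_cases hba : b = a
        · exact Or.inl hba
        · refine Or.inr ⟨Finset.mem_univ _, ?_⟩
          rw [← hX b hba]
          exact (Finset.mem_filter.1 hb).2
      have h2 : (univ.filter fun a => tp (X a) = i).card ≤
          (univ.filter fun a => tp (X' a) = i).card + 1 :=
        (Finset.card_le_card h1).trans (Finset.card_insert_le _ _)
      have h3 : ((univ.filter fun a => tp (X a) = i).card : ℝ) ≤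
          (univ.filter fun a => tp (X' a) = i).card + 1 := by exact_mod_cast h2
      linarith)
  rw [Fintype.card_fin] at h
  have hsub : (univ.filter fun X : Fin n → V =>
      n < 16 * K * (univ.filter fun a => tp (X a) = i).card) ⊆
      (univ.filter fun X : Fin n → V => (n : ℝ) / (64 * K) + 3 * n / (64 * K) ≤
        ((univ.filter fun a => tp (X a) = i).card : ℝ)) := by
    intro X hX
    rw [Finset.mem_filter] at hX ⊢
    refine ⟨Finset.mem_univ _, ?_⟩
    have h1 : (n : ℝ) < 16 * K * ((univ.filter fun a => tp (X a) = i).card : ℝ) := by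
      exact_mod_cast hX.2
    have h2 : (n : ℝ) / (64 * K) + 3 * n / (64 * K) = n / (16 * K) := by
      field_simp; norm_num
    rw [h2, div_le_iff₀ (by positivity)]
    linarith
  have hle : ((univ.filter fun X : Fin n → V =>
      n < 16 * K * (univ.filter fun a => tp (X a) = i).card).card : ℝ) ≤
      ((univ.filter fun X : Fin n → V => (n : ℝ) / (64 * K) + 3 * n / (64 * K) ≤
        ((univ.filter fun a => tp (X a) = i).card : ℝ)).card : ℝ) := by
    exact_mod_cast Finset.card_le_card hsub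
  refine hle.trans (h.trans (mul_le_mul_of_nonneg_left (Real.exp_le_exp.2 ?_)
    (by positivity)))
  rw [hδ]
  have e1 : -(3 * (n : ℝ) / (64 * K)) ^ 2 / (2 * n) = -(9 / 8192 * (n / K ^ 2)) := by
    field_simp; norm_num
  have e2 : -((1 / (16 * (K : ℝ))) ^ 2 * n / 4) = -(1 / 1024 * (n / K ^ 2)) := by
    field_simp; norm_num
  rw [e1, e2]
  have : 0 ≤ (n : ℝ) / K ^ 2 := by positivity
  linarith

end InterfaceK

open Classical in
/-- **the interface with kinds**: average conflict density `≥ n^(-99/100)` within each kind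
gives `PairConfK`. -/
theorem pairConfK_of (K : ℕ) (hK : 0 < K) : ∃ n0 : ℕ, ∀ n : ℕ, n0 ≤ n →
    ∀ (V T : Type) [Fintype V] [DecidableEq V] [Nonempty V] [Fintype T] [DecidableEq T]
      (E : V → V → Prop) (tp : V → T),
      (∀ a b, E a b → E b a) → (∀ a, ¬ E a a) →
      (∀ a b c, E a b → E b c → E a c → False) →
      (∀ a b, tp a = tp b → ¬ E a b) →
      16 * K * Fintype.card T ≤ n →
      (∀ i : T, 64 * K * (univ.filter fun v => tp v = i).card ≤ Fintype.card V) →
      SSK n (1 / (16 * (K : ℝ))) ((n : ℝ) ^ (-(99 : ℝ) / 100)) E tp →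
      S59Spine883.PairConfK K := by
  have hK0 : (0 : ℝ) < K := by exact_mod_cast hK
  have hK1 : (1 : ℝ) ≤ K := by exact_mod_cast hK
  obtain ⟨δ, hδd⟩ : ∃ δ : ℝ, δ = 1 / (16 * (K : ℝ)) := ⟨_, rfl⟩
  have hδ : 0 < δ := by rw [hδd]; positivity
  have hδ1 : δ ≤ 1 := by
    rw [hδd, div_le_one (by positivity)]; linarith
  obtain ⟨n0, hn0⟩ := numbers8 δ hδ hδ1
  refine ⟨n0, ?_⟩
  intro n hn V T _ _ _ _ _ E tp hsymm hirr htri htpE hT hcl hSS
  rw [← hδd] at hSS
  obtain ⟨hnpos, t, ht1, ht2, ht3, ht4⟩ := hn0 n hn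
  have hn0' : (0 : ℝ) < n := by exact_mod_cast hnpos
  have hV : 0 < Fintype.card V := Fintype.card_pos
  have hN0 : (0 : ℝ) < (Fintype.card V : ℝ) := by exact_mod_cast hV
  have hNn : (0 : ℝ) < (Fintype.card V : ℝ) ^ n := pow_pos hN0 n
  have hkind := fun c => count_kind (tp := tp) hnpos hδ (Real.rpow_pos_of_pos hn0' _) hV hSS
    ht1 c
  have hclass := fun i => count_class (δ := δ) hK hδd hnpos hV tp i (hcl i)
  -- a good sample
  have hgood : ∃ X : Fin n → V,
      (∀ c, ¬ Bad2 (OmK E tp c) (conf2 E) (2 * δ * n + (2 : ℕ) * t) X) ∧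
      ∀ i : T, 16 * K * (univ.filter fun a => tp (X a) = i).card ≤ n := by
    by_contra hall
    push Not at hall
    have hcov : (univ : Finset (Fin n → V)) ⊆
        ((univ.filter fun X : Fin n → V =>
            Bad2 (OmK E tp true) (conf2 E) (2 * δ * n + (2 : ℕ) * t) X) ∪
          (univ.filter fun X : Fin n → V =>
            Bad2 (OmK E tp false) (conf2 E) (2 * δ * n + (2 : ℕ) * t) X)) ∪
          (univ : Finset T).biUnion fun i => (univ.filter fun X : Fin n → V =>
            n < 16 * K * (univ.filter fun a => tp (X a) = i).card) := by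
      intro X _
      by_cases hb : ∀ c, ¬ Bad2 (OmK E tp c) (conf2 E) (2 * δ * n + (2 : ℕ) * t) X
      · obtain ⟨i, hi⟩ := hall X hb
        refine Finset.mem_union_right _ (Finset.mem_biUnion.2 ⟨i, Finset.mem_univ _, ?_⟩)
        exact Finset.mem_filter.2 ⟨Finset.mem_univ _, hi⟩
      · push Not at hb
        obtain ⟨c, hc⟩ := hb
        refine Finset.mem_union_left _ ?_
        cases c
        · exact Finset.mem_union_right _ (Finset.mem_filter.2 ⟨Finset.mem_univ _, hc⟩)
        · exact Finset.mem_union_left _ (Finset.mem_filter.2 ⟨Finset.mem_univ _, hc⟩)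
    have hle := Finset.card_le_card hcov
    rw [Finset.card_univ, Fintype.card_fun, Fintype.card_fin] at hle
    have h1 := (hle.trans (Finset.card_union_le _ _)).trans
      (add_le_add (Finset.card_union_le _ _) Finset.card_biUnion_le)
    have h2 : (Fintype.card V : ℝ) ^ n ≤
        (((univ.filter fun X : Fin n → V =>
            Bad2 (OmK E tp true) (conf2 E) (2 * δ * n + (2 : ℕ) * t) X).card : ℝ) +
          ((univ.filter fun X : Fin n → V =>
            Bad2 (OmK E tp false) (conf2 E) (2 * δ * n + (2 : ℕ) * t) X).card : ℝ)) +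
          ∑ i : T, ((univ.filter fun X : Fin n → V =>
            n < 16 * K * (univ.filter fun a => tp (X a) = i).card).card : ℝ) := by
      exact_mod_cast h1
    have h3 : ∑ i : T, ((univ.filter fun X : Fin n → V =>
            n < 16 * K * (univ.filter fun a => tp (X a) = i).card).card : ℝ) ≤
        (n : ℝ) * Real.exp (- (δ ^ 2 * n / 4)) * (Fintype.card V : ℝ) ^ n := by
      calc ∑ i : T, ((univ.filter fun X : Fin n → V =>
            n < 16 * K * (univ.filter fun a => tp (X a) = i).card).card : ℝ)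
          ≤ ∑ _i : T, (Fintype.card V : ℝ) ^ n * Real.exp (- (δ ^ 2 * n / 4)) :=
            Finset.sum_le_sum fun i _ => hclass i
        _ = (Fintype.card T : ℝ) *
            ((Fintype.card V : ℝ) ^ n * Real.exp (- (δ ^ 2 * n / 4))) := by
            rw [Finset.sum_const, Finset.card_univ, nsmul_eq_mul]
        _ ≤ (n : ℝ) * ((Fintype.card V : ℝ) ^ n * Real.exp (- (δ ^ 2 * n / 4))) := by
            refine mul_le_mul_of_nonneg_right ?_ (by positivity)
            have : Fintype.card T ≤ n := by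
              calc Fintype.card T = 1 * Fintype.card T := (one_mul _).symm
                _ ≤ 16 * K * Fintype.card T := Nat.mul_le_mul_right _ (by omega)
                _ ≤ n := hT
            exact_mod_cast this
        _ = _ := by ring
    have h4 : (n : ℝ) * Real.exp (- (δ ^ 2 * n / 4)) * (Fintype.card V : ℝ) ^ n ≤
        1 / 8 * (Fintype.card V : ℝ) ^ n := mul_le_mul_of_nonneg_right ht4.le hNn.le
    have h5 : 2 * ((t : ℝ) + 1) * (n : ℝ) ^ (2 * t) * Real.exp (- (δ ^ 2 * n / 2)) *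
        (Fintype.card V : ℝ) ^ n ≤ 1 / 8 * (Fintype.card V : ℝ) ^ n :=
      mul_le_mul_of_nonneg_right ht3.le hNn.le
    have h6 := (hkind true).trans h5
    have h7 := (hkind false).trans h5
    have h8 := h2.trans (add_le_add (add_le_add h6 h7) (h3.trans h4))
    linarith
  obtain ⟨X, hX, hXcl⟩ := hgood
  -- the graph
  let F : SimpleGraph (Fin n) :=
    { Adj := fun i j => E (X i) (X j)
      symm := ⟨fun i j h => hsymm _ _ h⟩
      loopless := ⟨fun i h => hirr _ h⟩ }
  let e : T ≃ Fin (Fintype.card T) := Fintype.equivFin T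
  refine ⟨n, hnpos, F, ?_, Fintype.card T, fun a => e (tp (X a)), ?_, hT, ?_, ?_⟩
  · intro S hS
    rw [SimpleGraph.is3Clique_iff] at hS
    obtain ⟨a, b, c, hab, hac, hbc, _⟩ := hS
    exact htri _ _ _ hab hbc hac
  · intro a b hab
    exact htpE _ _ (e.injective hab)
  · intro i
    have h1 := hXcl (e.symm i)
    have h2 : (univ.filter fun a => e (tp (X a)) = i) =
        (univ.filter fun a => tp (X a) = e.symm i) := by
      ext a
      simp only [Finset.mem_filter, Finset.mem_univ, true_and]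
      constructor
      · intro h; rw [← h]; simp
      · intro h; rw [h]; simp
    convert h1 using 3
  · intro c M₁ M₂ hM₁ hM₂ hkd hc₁ hc₂
    by_contra hcon
    push Not at hcon
    apply hX c
    have himg : ∀ M : Finset (Fin n × Fin n), S59Spine883.IsMat F M →
        (∀ z ∈ M, decide (e (tp (X z.1)) = e (tp (X z.2))) = c) → n ≤ 4 * K * M.card →
        IsMatch (M.image fun z : Fin n × Fin n => (![z.1, z.2] : Fin 2 → Fin n)) ∧
        (∀ e ∈ M.image (fun z : Fin n × Fin n => (![z.1, z.2] : Fin 2 → Fin n)),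
          (fun j => X (e j)) ∈ OmK E tp c) ∧
        2 * δ * n + (2 : ℕ) * t ≤
          ((M.image fun z : Fin n × Fin n => (![z.1, z.2] : Fin 2 → Fin n)).card : ℝ) := by
      intro M hM hkM hc
      have hinj : Function.Injective
          (fun z : Fin n × Fin n => (![z.1, z.2] : Fin 2 → Fin n)) := by
        intro z z' h
        have h0 := congrFun h 0
        have h1 := congrFun h 1
        simp at h0 h1
        exact Prod.ext h0 h1
      refine ⟨⟨?_, ?_⟩, ?_, ?_⟩
      · intro e he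
        obtain ⟨z, hz, rfl⟩ := Finset.mem_image.1 he
        have hne := (hM.1 z hz).1
        intro i j hij
        fin_cases i <;> fin_cases j <;> simp_all
      · intro e he e' he' hne
        obtain ⟨z, hz, rfl⟩ := Finset.mem_image.1 he
        obtain ⟨z', hz', rfl⟩ := Finset.mem_image.1 he'
        have hzz : z ≠ z' := fun h => hne (by rw [h])
        obtain ⟨g1, g2, g3, g4⟩ := hM.2 z hz z' hz' hzz
        intro i j
        fin_cases i <;> fin_cases j <;> simp_all
      · intro e' he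
        obtain ⟨z, hz, rfl⟩ := Finset.mem_image.1 he
        rw [mem_OmK]
        refine ⟨(hM.1 z hz).2, ?_⟩
        have h1 := hkM z hz
        have h2 : (e (tp (X z.1)) = e (tp (X z.2))) ↔ (tp (X z.1) = tp (X z.2)) :=
          ⟨fun h => e.injective h, fun h => by rw [h]⟩
        rw [← h1]
        simp [h2]
      · rw [Finset.card_image_of_injective _ hinj]
        have h1 : (n : ℝ) ≤ 4 * K * M.card := by exact_mod_cast hc
        have h2 : 4 * δ * n ≤ M.card := by
          rw [hδd]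
          have : 4 * (1 / (16 * (K : ℝ))) * n = n / (4 * K) := by field_simp; norm_num
          rw [this, div_le_iff₀ (by positivity)]
          linarith
        push_cast
        linarith
    obtain ⟨a1, a2, a3⟩ := himg M₁ hM₁
      (fun z hz => hkd z (Finset.mem_union_left _ hz)) hc₁
    obtain ⟨b1, b2, b3⟩ := himg M₂ hM₂
      (fun z hz => hkd z (Finset.mem_union_right _ hz)) hc₂
    refine ⟨_, _, a1, b1, a2, b2, ?_, a3, b3⟩
    intro e he e' he' hRR
    obtain ⟨z, hz, rfl⟩ := Finset.mem_image.1 he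
    obtain ⟨z', hz', rfl⟩ := Finset.mem_image.1 he'
    exact hcon z hz z' hz' hRR

end Crest.Agent.R042.Cont666
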