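import Crest.Agent.R042.FamV_220
import Crest.Agent.R042.SampK_666

/-! Row 42 / S0059: last glue of both plans: `PairConfK K` from the family with gadget labels and the
CROSS kind only (375's letters), the same kind being discharged by `FamV220.same_half`. -/

set_option autoImplicit false
set_option linter.unusedSectionVars false

namespace Crest.Agent.R042.FamK220

open Finset Crest.Agent.R042.SspG375 Crest.Agent.R042.FamV220 Crest.Agent.R042.Fam543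
  Crest.Agent.R042.Cont666 Crest.Agent.R042.SspFin375
open scoped Classical

/-- the two kinds together (abstract `rel`). -/
theorem ssk_of {ι 𝓕 Lb : Type} [Fintype ι] [Fintype 𝓕] [Nonempty ι] [Nonempty 𝓕]
    [DecidableEq ι] {pr : ι → 𝓕 → Lb} {rel : ι → ι → Lb → Lb → Prop}
    {Γ : ι → ι → Prop} (hcomp : ∀ i j, Γ i j → ∀ f g, rel i j (pr i f) (pr j g)) {eps dd κ : ℝ} {n : ℕ}
    (hΓ : ∀ A B : Finset ι, eps * Fintype.card ι ≤ (A.card : ℝ) → eps * Fintype.card ι ≤ (B.card : ℝ) →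
      ∃ i ∈ A, ∃ j ∈ B, Γ i j)
    (hdd : 4 * eps ≤ dd) (h1 : 1 ≤ eps * Fintype.card ι) (hκ : κ * (4 * (Fintype.card ι : ℝ) ^ 2) ≤ dd)
    (hcross : ∀ w₁ w₂ : (ι × 𝓕) × (ι × 𝓕) → ℝ, AdmX n dd (EE pr rel) w₁ → AdmX n dd (EE pr rel) w₂ →
      κ * Fintype.card (ι × 𝓕) * (dd * Fintype.card (ι × 𝓕)) ≤
        ∑ z, ∑ z', w₁ z * w₂ z' * (if Cf (EE pr rel) z z' then 1 else 0)) :
    SSK n dd κ (EE pr rel) (fun v : ι × 𝓕 => v.1) := by
  intro c w₁ w₂ a₁ a₂
  cases c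
  · have X : ∀ w : (ι × 𝓕) × (ι × 𝓕) → ℝ, AdmK n dd (EE pr rel) (fun v : ι × 𝓕 => v.1) false w →
        AdmX n dd (EE pr rel) w := by
      intro w a
      refine ⟨a.nonneg, ?_, a.row, a.cap, a.mass⟩
      intro z hz
      have := a.supp z.1 z.2 hz
      exact ⟨by simpa using this.2, this.1⟩
    refine (hcross w₁ w₂ (X w₁ a₁) (X w₂ a₂)).trans (le_of_eq ?_)
    refine sum_congr rfl fun z _ => sum_congr rfl fun z' _ => ?_
    unfold Cf
    split_ifs
    · rw [mul_one]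
    · rw [mul_zero]
  · have Y : ∀ w : (ι × 𝓕) × (ι × 𝓕) → ℝ, AdmK n dd (EE pr rel) (fun v : ι × 𝓕 => v.1) true w →
        ∀ z, w z ≠ 0 → z.1.1 = z.2.1 := by
      intro w a z hz
      have := a.supp z.1 z.2 hz
      simpa using this.2
    have key := same_half (κ := κ) hcomp hΓ hdd h1 hκ a₁.nonneg a₂.nonneg (Y w₁ a₁) (Y w₂ a₂)
      a₁.row a₂.row a₁.mass a₂.mass
    exact key

/-- **last glue** (both plans): from the family data and the cross kind to `PairConfK K`.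
`dd` is `1 / (16 K)`, `κ` is any number `≥ n ^ (-99/100)` for which the cross kind is proved. -/
theorem pairConfK_fam (K₀ : ℕ) (hK₀ : 0 < K₀) : ∃ n0 : ℕ, ∀ n : ℕ, n0 ≤ n →
    ∀ {k0 KK : Type} [Field k0] [Field KK] [Algebra k0 KK] [CharP KK 2] {K : Set k0} (_ : Alph K)
      (e d L kp : ℕ) (ι 𝓕 : Type) [Fintype ι] [Fintype 𝓕] [Nonempty ι] [Nonempty 𝓕]
      [DecidableEq ι] (T : ι → Ty k0 KK d L) (_ : ∀ i, Valid K (T i))
      (pr : ι → 𝓕 → Label k0 KK d kp L) (Γ : ι → ι → Prop)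
      (_ : ∀ i j, Γ i j → ∀ f g, Rel K (2 ^ e) kp (T i) (T j) (pr i f) (pr j g)) (eps κ : ℝ)
      (_ : ∀ A B : Finset ι, eps * Fintype.card ι ≤ (A.card : ℝ) →
        eps * Fintype.card ι ≤ (B.card : ℝ) → ∃ i ∈ A, ∃ j ∈ B, Γ i j),
      64 * K₀ * eps ≤ 1 → 1 ≤ eps * Fintype.card ι → 64 * K₀ * (Fintype.card ι : ℝ) ^ 2 * κ ≤ 1 →
      16 * K₀ * Fintype.card ι ≤ n → (n : ℝ) ^ (-(99 : ℝ) / 100) ≤ κ →
      (∀ w₁ w₂ : (ι × 𝓕) × (ι × 𝓕) → ℝ,
        AdmX n (1 / (16 * (K₀ : ℝ))) (EE pr (relF K e kp T)) w₁ →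
        AdmX n (1 / (16 * (K₀ : ℝ))) (EE pr (relF K e kp T)) w₂ →
        κ * Fintype.card (ι × 𝓕) * (1 / (16 * (K₀ : ℝ)) * Fintype.card (ι × 𝓕)) ≤
          ∑ z, ∑ z', w₁ z * w₂ z' * (if Cf (EE pr (relF K e kp T)) z z' then 1 else 0)) →
      S59Spine883.PairConfK K₀ := by
  obtain ⟨n0, H⟩ := pairConfK_of K₀ hK₀
  refine ⟨n0, fun n hn => ?_⟩
  intro k0 KK _ _ _ _ K hK e d L kp ι 𝓕 _ _ _ _ _ T hT pr Γ hcomp eps κ hΓ he h1 hκ h16 hnκ hcross
  have hK0 : (0 : ℝ) < K₀ := by exact_mod_cast hK₀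
  have hιr : (0 : ℝ) < Fintype.card ι := by exact_mod_cast Fintype.card_pos
  refine H n hn (ι × 𝓕) ι (EE pr (relF K e kp T)) (fun v => v.1) (fun a b h => FamV220.symm hK h)
    (fun a => FamV220.irrefl hT a) (fun a b c hab hbc hac => FamV220.tri hK hT hab hbc hac)
    (fun a b hab => not_same hT hab) h16 ?_ ?_
  · intro i
    have hc := card_class (𝓕 := 𝓕) i
    have h2 : (64 : ℝ) * K₀ ≤ Fintype.card ι := by
      by_contra hcon
      rw [not_le] at hcon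
      have he0 : 0 < eps := by
        by_contra h; rw [not_lt] at h; nlinarith
      nlinarith
    have h3 : 64 * K₀ ≤ Fintype.card ι := by exact_mod_cast h2
    rw [Fintype.card_prod]
    refine le_trans (le_of_eq ?_) (Nat.mul_le_mul_right (Fintype.card 𝓕) h3)
    congr 1
    convert hc
  · have hs := ssk_of (κ := (n : ℝ) ^ (-(99 : ℝ) / 100)) (n := n) (dd := 1 / (16 * (K₀ : ℝ)))
      (pr := pr) (rel := relF K e kp T) (Γ := Γ) hcomp hΓ (by
        rw [le_div_iff₀ (by positivity)]; linarith) h1 (by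
        rw [le_div_iff₀ (by positivity)]
        calc (n : ℝ) ^ (-(99 : ℝ) / 100) * (4 * (Fintype.card ι : ℝ) ^ 2) * (16 * (K₀ : ℝ))
            = 64 * K₀ * (Fintype.card ι : ℝ) ^ 2 * (n : ℝ) ^ (-(99 : ℝ) / 100) := by ring
          _ ≤ 64 * K₀ * (Fintype.card ι : ℝ) ^ 2 * κ :=
              mul_le_mul_of_nonneg_left hnκ (by positivity)
          _ ≤ 1 := hκ) (by
        intro w₁ w₂ a₁ a₂
        refine le_trans ?_ (hcross w₁ w₂ a₁ a₂)
        refine mul_le_mul_of_nonneg_right (mul_le_mul_of_nonneg_right hnκ (by positivity))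
          (by positivity))
    convert hs

end Crest.Agent.R042.FamK220
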