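import Mathlib

/-! Row 42 / S0059, kind `c = true` (same types), weight form (helper220): the conflict mass of two
same-type weights is at least `(d |V| / (2 |T|))²` when a graph `Γ` on the types, complete bipartite in
`E`, has an edge between any two sets of at least `s` types. -/

set_option autoImplicit false
set_option linter.unusedSectionVars false

namespace Crest.Agent.R042.SameW220

open Finset

variable {V T : Type*} [Fintype V] [Fintype T] [DecidableEq T]

/-- mass of the pairs whose first end has type `i` -/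
noncomputable def mss (tp : V → T) (w : V × V → ℝ) (i : T) : ℝ :=
  ∑ z : V × V, if tp z.1 = i then w z else 0

theorem sum_mss (tp : V → T) (w : V × V → ℝ) : ∑ i, mss tp w i = ∑ z, w z := by
  unfold mss
  rw [sum_comm]
  refine sum_congr rfl fun z _ => ?_
  rw [sum_ite_eq univ (tp z.1) fun _ => w z]
  simp

theorem mss_le (tp : V → T) (w : V × V → ℝ) (h0 : ∀ z, 0 ≤ w z)
    (hrow : ∀ a, ∑ b, w (a, b) + ∑ b, w (b, a) ≤ 1) (i : T) :
    mss tp w i ≤ (univ.filter fun v => tp v = i).card := by
  unfold mss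
  rw [Fintype.sum_prod_type]
  calc ∑ a, ∑ b, (if tp (a, b).1 = i then w (a, b) else 0)
      = ∑ a, if tp a = i then ∑ b, w (a, b) else 0 := by
        refine sum_congr rfl fun a _ => ?_
        split_ifs with h
        · rfl
        · simp
    _ ≤ ∑ a, if tp a = i then 1 else 0 := by
        refine sum_le_sum fun a _ => ?_
        split_ifs with h
        · have h1 := hrow a
          have h2 : 0 ≤ ∑ b, w (b, a) := sum_nonneg fun b _ => h0 _
          linarith
        · exact le_rfl
    _ = _ := by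
        rw [← sum_filter]
        simp

/-- many types carry mass -/
theorem many {tp : V → T} {w : V × V → ℝ} (h0 : ∀ z, 0 ≤ w z)
    (hrow : ∀ a, ∑ b, w (a, b) + ∑ b, w (b, a) ≤ 1) {C s : ℕ} {m : ℝ} (hT : 0 < Fintype.card T)
    (hcl : ∀ i, (univ.filter fun v => tp v = i).card ≤ C) (hC : 0 < C)
    (hm : ∑ z, w z = m) (hs : 2 * (C : ℝ) * s ≤ m) (h0m : 0 ≤ m) :
    s ≤ (univ.filter fun i => m / (2 * Fintype.card T) ≤ mss tp w i).card := by
  classical
  have hTr : (0 : ℝ) < Fintype.card T := by exact_mod_cast hT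
  have hCr : (0 : ℝ) < C := by exact_mod_cast hC
  set A := univ.filter fun i => m / (2 * Fintype.card T) ≤ mss tp w i with hA
  have h1 : m ≤ A.card * (C : ℝ) + m / 2 := by
    calc m = ∑ i, mss tp w i := by rw [sum_mss, hm]
      _ ≤ ∑ i, ((if i ∈ A then (C : ℝ) else 0) + m / (2 * Fintype.card T)) := by
          refine sum_le_sum fun i _ => ?_
          have h2 : mss tp w i ≤ C := (mss_le tp w h0 hrow i).trans (by exact_mod_cast hcl i)
          have h3 : 0 ≤ m / (2 * Fintype.card T) := by positivity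
          split_ifs with h
          · linarith
          · have h4 : ¬ m / (2 * Fintype.card T) ≤ mss tp w i := fun h' =>
              h (mem_filter.2 ⟨mem_univ _, h'⟩)
            rw [not_le] at h4
            linarith
      _ = A.card * (C : ℝ) + m / 2 := by
          rw [sum_add_distrib, ← sum_filter, sum_const, nsmul_eq_mul, sum_const, nsmul_eq_mul]
          have : (univ.filter fun i => i ∈ A) = A := by ext; simp
          rw [this, card_univ]
          congr 1
          field_simp
  have h5 : (s : ℝ) * C ≤ A.card * (C : ℝ) := by linarith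
  have h6 : (s : ℝ) ≤ A.card := le_of_mul_le_mul_right h5 hCr
  exact_mod_cast h6

/-- **the conflict mass of two same-type weights**. -/
theorem same_weights {E : V → V → Prop} [DecidableRel E] {tp : V → T} (Γ : T → T → Prop)
    (hΓE : ∀ a b, Γ (tp a) (tp b) → E a b) {C s : ℕ} (hC : 0 < C)
    (hcl : ∀ i, (univ.filter fun v => tp v = i).card ≤ C)
    (hΓ : ∀ A B : Finset T, s ≤ A.card → s ≤ B.card → ∃ i ∈ A, ∃ j ∈ B, Γ i j)
    (hT : 0 < Fintype.card T) {m : ℝ} (h0m : 0 ≤ m) (hs : 2 * (C : ℝ) * s ≤ m)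
    {w₁ w₂ : V × V → ℝ} (h₁ : ∀ z, 0 ≤ w₁ z) (h₂ : ∀ z, 0 ≤ w₂ z)
    (s₁ : ∀ z, w₁ z ≠ 0 → tp z.1 = tp z.2) (s₂ : ∀ z, w₂ z ≠ 0 → tp z.1 = tp z.2)
    (r₁ : ∀ a, ∑ b, w₁ (a, b) + ∑ b, w₁ (b, a) ≤ 1)
    (r₂ : ∀ a, ∑ b, w₂ (a, b) + ∑ b, w₂ (b, a) ≤ 1)
    (m₁ : ∑ z, w₁ z = m) (m₂ : ∑ z, w₂ z = m) :
    (m / (2 * Fintype.card T)) ^ 2 ≤ ∑ z, ∑ z',
      if (E z.1 z'.1 ∧ E z.1 z'.2 ∧ E z.2 z'.1 ∧ E z.2 z'.2) then w₁ z * w₂ z' else 0 := by
  classical
  have hTr : (0 : ℝ) < Fintype.card T := by exact_mod_cast hT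
  obtain ⟨i, hi, j, hj, hij⟩ := hΓ _ _ (many h₁ r₁ hT hcl hC m₁ hs h0m) (many h₂ r₂ hT hcl hC m₂ hs h0m)
  rw [mem_filter] at hi hj
  have hq : 0 ≤ m / (2 * Fintype.card T) := by positivity
  calc (m / (2 * Fintype.card T)) ^ 2 = (m / (2 * Fintype.card T)) * (m / (2 * Fintype.card T)) := by ring
    _ ≤ mss tp w₁ i * mss tp w₂ j := mul_le_mul hi.2 hj.2 hq (hq.trans hi.2)
    _ = ∑ z, ∑ z', (if tp z.1 = i then w₁ z else 0) * (if tp z'.1 = j then w₂ z' else 0) := by
        unfold mss
        rw [sum_mul_sum]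
    _ ≤ _ := by
        refine sum_le_sum fun z _ => sum_le_sum fun z' _ => ?_
        have hp : 0 ≤ w₁ z * w₂ z' := mul_nonneg (h₁ z) (h₂ z')
        by_cases hz : tp z.1 = i
        · by_cases hz' : tp z'.1 = j
          · rw [if_pos hz, if_pos hz']
            by_cases hw : w₁ z = 0
            · rw [hw]; simp
            · by_cases hw' : w₂ z' = 0
              · rw [hw']; simp
              · have e1 := s₁ z hw
                have e2 := s₂ z' hw'
                rw [if_pos]
                refine ⟨hΓE _ _ ?_, hΓE _ _ ?_, hΓE _ _ ?_, hΓE _ _ ?_⟩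
                · rw [hz, hz']; exact hij
                · rw [hz, ← e2, hz']; exact hij
                · rw [← e1, hz, hz']; exact hij
                · rw [← e1, hz, ← e2, hz']; exact hij
          · rw [if_neg hz', mul_zero]
            split_ifs
            · exact hp
            · exact le_rfl
        · rw [if_neg hz, zero_mul]
          split_ifs
          · exact hp
          · exact le_rfl

end Crest.Agent.R042.SameW220
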