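import Crest.Agent.R042.SspAsm_375

/-! Row 42 / S0059: push-forward of laws along maps with equal fibres (the gadget costs only
budget, 927's remark). -/

set_option autoImplicit false
set_option linter.unusedSectionVars false

namespace Crest.Agent.R042.KLPush375

open Finset SspAsm375
open scoped Classical

variable {Y Z : Type*} [Fintype Y] [Fintype Z]

/-- push-forward of a weight. -/
noncomputable def pf (p : Y → Z) (μ : Y → ℝ) (z : Z) : ℝ := ∑ y, if p y = z then μ y else 0

lemma sum_pf_mul (p : Y → Z) (μ : Y → ℝ) (g : Z → ℝ) :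
    ∑ z, pf p μ z * g z = ∑ y, μ y * g (p y) := by
  unfold pf
  simp only [Finset.sum_mul]
  rw [Finset.sum_comm]
  refine Finset.sum_congr rfl fun y _ => ?_
  simp only [ite_mul, zero_mul]
  rw [Finset.sum_ite_eq]
  simp

lemma isP_pf (p : Y → Z) {μ : Y → ℝ} (h : IsP μ) : IsP (pf p μ) := by
  refine ⟨fun z => Finset.sum_nonneg fun y _ => ?_, ?_⟩
  · split_ifs
    · exact h.nonneg y
    · exact le_rfl
  · have := sum_pf_mul p μ (fun _ => 1)
    simp only [mul_one] at this
    rw [this]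
    exact h.sum

lemma le_pf (p : Y → Z) {μ : Y → ℝ} (h : ∀ y, 0 ≤ μ y) (y : Y) : μ y ≤ pf p μ (p y) := by
  unfold pf
  have := Finset.single_le_sum (f := fun y' => if p y' = p y then μ y' else 0)
    (fun y' _ => by
      split_ifs
      · exact h y'
      · exact le_rfl) (Finset.mem_univ y)
  simpa using this

lemma pf_ne_zero (p : Y → Z) (μ : Y → ℝ) (z : Z) (h : pf p μ z ≠ 0) : ∃ y, p y = z ∧ μ y ≠ 0 := by
  by_contra hc
  push Not at hc
  apply h
  unfold pf
  refine Finset.sum_eq_zero fun y _ => ?_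
  split_ifs with h1
  · exact hc y h1
  · rfl

/-- relative entropy of a push-forward along a map with fibres of equal size `k`. -/
theorem KL_pf_le (p : Y → Z) (k : ℕ)
    (hk : ∀ y, (univ.filter fun y' => p y' = p y).card = k) {μ : Y → ℝ} (h : IsP μ) :
    KL (pf p μ) ≤ KL μ + Real.log (Fintype.card Z * k / Fintype.card Y) := by
  have hν := isP_pf p h
  have hYne : Nonempty Y := by
    by_contra hne
    rw [not_nonempty_iff] at hne
    have := h.sum
    simp at this
  have hZne : Nonempty Z := ⟨p hYne.some⟩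
  have cY : (0 : ℝ) < Fintype.card Y := by exact_mod_cast Fintype.card_pos
  have cZ : (0 : ℝ) < Fintype.card Z := by exact_mod_cast Fintype.card_pos
  have hk0 : 0 < k := by
    rw [← hk hYne.some, Finset.card_pos]
    exact ⟨hYne.some, by simp⟩
  have ck : (0 : ℝ) < k := by exact_mod_cast hk0
  have e1 : KL (pf p μ) = ∑ y, μ y * Real.log (Fintype.card Z * pf p μ (p y)) := by
    unfold KL
    exact sum_pf_mul p μ (fun z => Real.log (Fintype.card Z * pf p μ z))
  have key : ∀ y, μ y - pf p μ (p y) / k ≤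
      μ y * Real.log (Fintype.card Y * μ y) + μ y * Real.log (Fintype.card Z * k / Fintype.card Y) -
        μ y * Real.log (Fintype.card Z * pf p μ (p y)) := by
    intro y
    have hle := le_pf p h.nonneg y
    rcases (h.nonneg y).eq_or_lt with h0 | h0
    · rw [← h0]
      simp only [zero_mul, sub_zero, add_zero, zero_sub, neg_nonpos]
      rw [← h0] at hle
      positivity
    · have hν0 : 0 < pf p μ (p y) := lt_of_lt_of_le h0 hle
      have e2 : μ y * Real.log (Fintype.card Y * μ y) +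
          μ y * Real.log (Fintype.card Z * k / Fintype.card Y) -
          μ y * Real.log (Fintype.card Z * pf p μ (p y)) =
          μ y * Real.log (k * μ y / pf p μ (p y)) := by
        rw [← mul_add, ← mul_sub, ← Real.log_mul (by positivity) (by positivity),
          ← Real.log_div (by positivity) (by positivity)]
        congr 2
        field_simp
      rw [e2]
      have h1 := one_sub_inv_le_log (x := k * μ y / pf p μ (p y)) (by positivity)
      have h2 := mul_le_mul_of_nonneg_left h1 h0.le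
      have h3 : μ y * (1 - 1 / (k * μ y / pf p μ (p y))) = μ y - pf p μ (p y) / k := by
        field_simp
      rw [h3] at h2
      exact h2
  have hs := Finset.sum_le_sum (fun y (_ : y ∈ (univ : Finset Y)) => key y)
  rw [Finset.sum_sub_distrib, Finset.sum_sub_distrib, Finset.sum_add_distrib, h.sum,
    ← Finset.sum_mul, h.sum, ← Finset.sum_div] at hs
  have e4 : ∑ y, pf p μ (p y) ≤ k := by
    have e5 : ∑ y, pf p μ (p y) = ∑ z, ∑ y ∈ univ.filter (fun y => p y = z), pf p μ z := by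
      have := (Finset.sum_fiberwise (s := (univ : Finset Y)) (g := p)
        (f := fun y => pf p μ (p y))).symm
      rw [this]
      refine Finset.sum_congr rfl fun z _ => Finset.sum_congr rfl fun y hy => ?_
      rw [Finset.mem_filter] at hy
      rw [hy.2]
    rw [e5]
    have e6 : ∀ z, ∑ y ∈ univ.filter (fun y => p y = z), pf p μ z ≤ k * pf p μ z := by
      intro z
      rw [Finset.sum_const, nsmul_eq_mul]
      refine mul_le_mul_of_nonneg_right ?_ (hν.nonneg z)
      by_cases hz : ∃ y, p y = z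
      · obtain ⟨y, rfl⟩ := hz
        rw [hk y]
      · have : univ.filter (fun y => p y = z) = ∅ := by
          rw [Finset.filter_eq_empty_iff]
          intro y _ hy
          exact hz ⟨y, hy⟩
        rw [this]
        simp
    refine (Finset.sum_le_sum fun z _ => e6 z).trans ?_
    rw [← Finset.mul_sum, hν.sum, mul_one]
  rw [e1]
  unfold KL
  have e7 : (∑ y, pf p μ (p y)) / k ≤ 1 := by
    rw [div_le_one ck]
    exact e4
  linarith

/-- pair version. -/
lemma card_fiber_prod {Y₁ Y₂ Z₁ Z₂ : Type*} [Fintype Y₁] [Fintype Y₂] (p₁ : Y₁ → Z₁) (p₂ : Y₂ → Z₂)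
    (k₁ k₂ : ℕ) (h₁ : ∀ y, (univ.filter fun y' => p₁ y' = p₁ y).card = k₁)
    (h₂ : ∀ y, (univ.filter fun y' => p₂ y' = p₂ y).card = k₂) (y : Y₁ × Y₂) :
    (univ.filter fun y' : Y₁ × Y₂ => Prod.map p₁ p₂ y' = Prod.map p₁ p₂ y).card = k₁ * k₂ := by
  have e : (univ.filter fun y' : Y₁ × Y₂ => Prod.map p₁ p₂ y' = Prod.map p₁ p₂ y) =
      (univ.filter fun y' => p₁ y' = p₁ y.1) ×ˢ (univ.filter fun y' => p₂ y' = p₂ y.2) := by
    ext y'
    simp only [Finset.mem_filter, Finset.mem_univ, true_and, Finset.mem_product, Prod.map,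
      Prod.mk.injEq]
  rw [e, Finset.card_product, h₁, h₂]

/-- expectations over products of push-forwards. -/
lemma sum_pf_pf {Y₁ Y₂ Z₁ Z₂ : Type*} [Fintype Y₁] [Fintype Y₂] [Fintype Z₁] [Fintype Z₂]
    (p₁ : Y₁ → Z₁) (p₂ : Y₂ → Z₂) (μ₁ : Y₁ → ℝ) (μ₂ : Y₂ → ℝ) (g : Z₁ → Z₂ → ℝ) :
    ∑ z₁, ∑ z₂, pf p₁ μ₁ z₁ * pf p₂ μ₂ z₂ * g z₁ z₂ =
      ∑ y₁, ∑ y₂, μ₁ y₁ * μ₂ y₂ * g (p₁ y₁) (p₂ y₂) := by
  have h1 : ∀ z₁, ∑ z₂, pf p₁ μ₁ z₁ * pf p₂ μ₂ z₂ * g z₁ z₂ =
      pf p₁ μ₁ z₁ * ∑ y₂, μ₂ y₂ * g z₁ (p₂ y₂) := by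
    intro z₁
    rw [← sum_pf_mul p₂ μ₂ (fun z₂ => g z₁ z₂), Finset.mul_sum]
    exact Finset.sum_congr rfl fun _ _ => by ring
  rw [Finset.sum_congr rfl (fun z₁ _ => h1 z₁),
    sum_pf_mul p₁ μ₁ (fun z₁ => ∑ y₂, μ₂ y₂ * g z₁ (p₂ y₂))]
  refine Finset.sum_congr rfl fun y₁ _ => ?_
  rw [Finset.mul_sum]
  exact Finset.sum_congr rfl fun _ _ => by ring

end Crest.Agent.R042.KLPush375
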