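import Crest.Agent.R042.SspT_375
import Crest.Agent.R042.KLPush_375

/-! Row 42 / S0059: the cross kind with the same-type gadget: raw labels `𝓕`, real labels `Lb`,
`pr i : 𝓕 → Lb` with fibres of equal size `k i`; the local statements are asked for laws on
`Lb × Lb` only. -/

set_option autoImplicit false
set_option linter.unusedSectionVars false

namespace Crest.Agent.R042.SspG375

open Finset SspAsm375 SspFin375 SspT375 TLev333 KLPush375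
open scoped Classical

variable {ι 𝓕 Lb Ω : Type*} [Fintype ι] [DecidableEq ι] [Fintype 𝓕] [Fintype Lb] [Fintype Ω]
  {Δ Θ : Type*} [Fintype Δ] [Fintype Θ]

/-- the pair of label maps of an index pair. -/
def pp (pr : ι → 𝓕 → Lb) (j : Jx ι) : 𝓕 × 𝓕 → Lb × Lb := Prod.map (pr j.1.1) (pr j.1.2)

/-- conflict in terms of a relation on labels. -/
def CfR (rel : ι → ι → Lb → Lb → Prop) (j j' : Jx ι) (y y' : Lb × Lb) : Prop :=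
  rel j.1.1 j'.1.1 y.1 y'.1 ∧ rel j.1.1 j'.1.2 y.1 y'.2 ∧ rel j.1.2 j'.1.1 y.2 y'.1 ∧
    rel j.1.2 j'.1.2 y.2 y'.2

/-- the adjacency of raw vertices. -/
def EE (pr : ι → 𝓕 → Lb) (rel : ι → ι → Lb → Lb → Prop) (a b : ι × 𝓕) : Prop :=
  rel a.1 b.1 (pr a.1 a.2) (pr b.1 b.2)

theorem ssp_gadget [Nonempty ι] [Nonempty 𝓕] [DecidableEq Δ] [DecidableEq Θ]
    {n : ℕ} {d : ℝ} (pr : ι → 𝓕 → Lb) (rel : ι → ι → Lb → Lb → Prop) (hn : 0 < n) (hd : 0 < d)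
    (kf : ι → ℕ) (hkf : ∀ i y, (univ.filter fun y' => pr i y' = pr i y).card = kf i)
    (S : Sys ι Ω (Jx ι × Δ × Θ)) (hidx : S.idx = idx2) (ha : S.a = 2)
    (hsymm : ∀ P Q, S.perp P Q → S.perp Q P) {ℓ r : ℕ} {x : ι → Ω} (hGood : S.Good ℓ r x)
    (hgen : Gen S.perp S.ρ x univ) (hE : 1 ≤ S.η * ℓ * S.ρ ^ 4) (hη : S.η ≤ 1 / 4096)
    (hℓm : 4 * ℓ * (2 * (1 / (d * Fintype.card ι))) ≤ S.η * S.ρ ^ 4)
    (hrm : 256 * (ℓ + r) * (2 * (1 / (d * Fintype.card ι))) ≤ 1)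
    (dl : Jx ι → Lb × Lb → Δ) (w₁ w₂ : (ι × 𝓕) × (ι × 𝓕) → ℝ)
    (h1 : AdmX n d (EE pr rel) w₁) (h2 : AdmX n d (EE pr rel) w₂)
    (b b' : ℝ) (hb : 0 < b) (hbM : 8 * Real.log (n / d * Fintype.card Δ) ≤ b)
    (hbb : ∀ j : Jx ι, b + Real.log (Fintype.card (Lb × Lb) * (kf j.1.1 * kf j.1.2 : ℕ) /
      Fintype.card (𝓕 × 𝓕)) ≤ b')
    (G : Jx ι × Δ → (Lb × Lb → ℝ) → Θ → Prop)
    (hG : ∀ (c : Jx ι × Δ) (μ : Lb × Lb → ℝ), IsP μ →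
      (∀ y, μ y ≠ 0 → dl c.1 y = c.2 ∧ ¬ rel c.1.1.1 c.1.1.2 y.1 y.2) → KL μ ≤ b' →
      ∃ θ, G c μ θ)
    (c₀ : ℝ) (hc₀ : 0 ≤ c₀)
    (hLoc : ∀ (c : Jx ι × Δ) (μ : Lb × Lb → ℝ) (θ : Θ) (c' : Jx ι × Δ) (μ' : Lb × Lb → ℝ) (θ' : Θ),
      IsP μ → (∀ y, μ y ≠ 0 → dl c.1 y = c.2 ∧ ¬ rel c.1.1.1 c.1.1.2 y.1 y.2) → KL μ ≤ b' →
      G c μ θ →
      IsP μ' → (∀ y, μ' y ≠ 0 → dl c'.1 y = c'.2 ∧ ¬ rel c'.1.1.1 c'.1.1.2 y.1 y.2) →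
      KL μ' ≤ b' → G c' μ' θ' →
      Sys.Live S S x (c.1, c.2, θ) (c'.1, c'.2, θ') →
      c₀ ≤ ∑ y, ∑ y', μ y * μ' y' * (if CfR rel c.1 c'.1 y y' then 1 else 0)) :
    d * (49 / 64 * (S.ρ ^ 4 / 32) * c₀) * Fintype.card (ι × 𝓕) * (d * Fintype.card (ι × 𝓕)) ≤
      ∑ z, ∑ z', w₁ z * w₂ z' * (if Cf (EE pr rel) z z' then 1 else 0) := by
  have hKL : ∀ (j : Jx ι) (μ : 𝓕 × 𝓕 → ℝ), IsP μ → KL μ ≤ b → KL (pf (pp pr j) μ) ≤ b' := by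
    intro j μ hμ hKμ
    have hf : ∀ y, (univ.filter fun y' => pp pr j y' = pp pr j y).card =
        kf j.1.1 * kf j.1.2 := by
      intro y
      have h := card_fiber_prod (pr j.1.1) (pr j.1.2) _ _ (hkf _) (hkf _) y
      unfold pp
      convert h
    have := KL_pf_le (pp pr j) (kf j.1.1 * kf j.1.2) (fun y => by
      convert hf y) hμ
    linarith [hbb j]
  have hsupp : ∀ (c : Jx ι × Δ) (μ : 𝓕 × 𝓕 → ℝ),
      (∀ y, μ y ≠ 0 → dl c.1 (pp pr c.1 y) = c.2 ∧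
        ¬ EE pr rel (c.1.1.1, y.1) (c.1.1.2, y.2)) →
      ∀ z, pf (pp pr c.1) μ z ≠ 0 → dl c.1 z = c.2 ∧ ¬ rel c.1.1.1 c.1.1.2 z.1 z.2 := by
    intro c μ hμ z hz
    obtain ⟨y, rfl, hy⟩ := pf_ne_zero _ _ _ hz
    exact hμ y hy
  refine ssp_crossT hn hd S hidx ha hsymm hGood hgen hE hη hℓm hrm
    (fun j y => dl j (pp pr j y)) w₁ w₂ h1 h2 b hb hbM
    (fun c μ θ => G c (pf (pp pr c.1) μ) θ) ?_ c₀ hc₀ ?_
  · intro c μ hμ hs hK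
    exact hG c _ (isP_pf _ hμ) (hsupp c μ hs) (hKL c.1 μ hμ hK)
  · intro c μ θ c' μ' θ' hμ hs hK hGμ hμ' hs' hK' hGμ' hLive
    have := hLoc c (pf (pp pr c.1) μ) θ c' (pf (pp pr c'.1) μ') θ' (isP_pf _ hμ) (hsupp c μ hs)
      (hKL c.1 μ hμ hK) hGμ (isP_pf _ hμ') (hsupp c' μ' hs') (hKL c'.1 μ' hμ' hK') hGμ' hLive
    rw [sum_pf_pf (pp pr c.1) (pp pr c'.1) μ μ'
      (fun y y' => if CfR rel c.1 c'.1 y y' then (1 : ℝ) else 0)] at this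
    exact this

end Crest.Agent.R042.SspG375
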