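import Crest.Agent.R042.Fam_543
import Crest.Agent.R042.SspG_375
import Crest.Agent.R042.SameW_220

/-! Row 42 / S0059: the family graph with gadget labels as a relation on `ι × 𝓕` in 375's letters
(`EE pr rel`), its elementary facts, and the same-type half of the weight statement (helper220). -/

set_option autoImplicit false
set_option linter.unusedSectionVars false

namespace Crest.Agent.R042.FamV220

open Finset Crest.Agent.R042.SspG375
open scoped Classical

section abs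

variable {ι 𝓕 Lb : Type*} [Fintype ι] [Fintype 𝓕]

theorem card_class (i : ι) : (univ.filter fun v : ι × 𝓕 => v.1 = i).card = Fintype.card 𝓕 := by
  have h : (univ.filter fun v : ι × 𝓕 => v.1 = i) = univ.image (fun f : 𝓕 => (i, f)) := by
    ext v
    simp only [mem_filter, mem_univ, true_and, mem_image]
    constructor
    · intro h; exact ⟨v.2, by rw [← h]⟩
    · rintro ⟨f, rfl⟩; rfl
  rw [h, card_image_of_injective _ (fun f g h => (Prod.ext_iff.1 h).2), card_univ]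

/-- **same kind**: the conflict mass of two same-type weights. -/
theorem same_half [Nonempty ι] [Nonempty 𝓕] {pr : ι → 𝓕 → Lb} {rel : ι → ι → Lb → Lb → Prop}
    {Γ : ι → ι → Prop} (hcomp : ∀ i j, Γ i j → ∀ f g, rel i j (pr i f) (pr j g)) {eps dd κ : ℝ}
    (hΓ : ∀ A B : Finset ι, eps * Fintype.card ι ≤ (A.card : ℝ) → eps * Fintype.card ι ≤ (B.card : ℝ) →
      ∃ i ∈ A, ∃ j ∈ B, Γ i j)
    (hdd : 4 * eps ≤ dd) (h1 : 1 ≤ eps * Fintype.card ι) (hκ : κ * (4 * (Fintype.card ι : ℝ) ^ 2) ≤ dd)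
    {w₁ w₂ : (ι × 𝓕) × (ι × 𝓕) → ℝ} (h₁ : ∀ z, 0 ≤ w₁ z) (h₂ : ∀ z, 0 ≤ w₂ z)
    (s₁ : ∀ z, w₁ z ≠ 0 → z.1.1 = z.2.1) (s₂ : ∀ z, w₂ z ≠ 0 → z.1.1 = z.2.1)
    (r₁ : ∀ a, ∑ b, w₁ (a, b) + ∑ b, w₁ (b, a) ≤ 1)
    (r₂ : ∀ a, ∑ b, w₂ (a, b) + ∑ b, w₂ (b, a) ≤ 1)
    (m₁ : ∑ z, w₁ z = dd * Fintype.card (ι × 𝓕)) (m₂ : ∑ z, w₂ z = dd * Fintype.card (ι × 𝓕)) :
    κ * Fintype.card (ι × 𝓕) * (dd * Fintype.card (ι × 𝓕)) ≤ ∑ z, ∑ z',
      if (EE pr rel z.1 z'.1 ∧ EE pr rel z.1 z'.2 ∧ EE pr rel z.2 z'.1 ∧ EE pr rel z.2 z'.2)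
      then w₁ z * w₂ z' else 0 := by
  have hι : 0 < Fintype.card ι := Fintype.card_pos
  have hιr : (0 : ℝ) < Fintype.card ι := by exact_mod_cast hι
  have hF : 0 < Fintype.card 𝓕 := Fintype.card_pos
  have hFr : (0 : ℝ) < Fintype.card 𝓕 := by exact_mod_cast hF
  have heps : 0 < eps := by
    by_contra hcon
    rw [not_lt] at hcon
    nlinarith
  have hd0 : 0 < dd := by linarith
  have hV : (Fintype.card (ι × 𝓕) : ℝ) = Fintype.card ι * Fintype.card 𝓕 := by
    rw [Fintype.card_prod]; push_cast; ring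
  set s : ℕ := ⌈eps * Fintype.card ι⌉₊ with hs
  have hs1 : eps * Fintype.card ι ≤ s := Nat.le_ceil _
  have hs2 : (s : ℝ) ≤ 2 * (eps * Fintype.card ι) := by
    have := (Nat.ceil_lt_add_one (a := eps * Fintype.card ι) (by linarith)).le
    linarith
  have key := SameW220.same_weights (E := EE pr rel) (tp := fun v : ι × 𝓕 => v.1) Γ
    (fun a b h => hcomp _ _ h _ _) hF (fun i => (by
      have := card_class (𝓕 := 𝓕) i
      exact le_of_eq this)) (s := s)
    (fun A B hA hB => hΓ A B (hs1.trans (by exact_mod_cast hA)) (hs1.trans (by exact_mod_cast hB)))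
    hι (m := dd * Fintype.card (ι × 𝓕)) (by positivity) (by
      rw [hV]
      calc 2 * (Fintype.card 𝓕 : ℝ) * s ≤ 2 * (Fintype.card 𝓕 : ℝ) * (2 * (eps * Fintype.card ι)) :=
            mul_le_mul_of_nonneg_left hs2 (by positivity)
        _ = (4 * eps) * (Fintype.card ι * Fintype.card 𝓕) := by ring
        _ ≤ dd * (Fintype.card ι * Fintype.card 𝓕) := mul_le_mul_of_nonneg_right hdd (by positivity))
    h₁ h₂ s₁ s₂ r₁ r₂ m₁ m₂
  refine le_trans ?_ key
  have h2 : κ ≤ dd / (4 * (Fintype.card ι : ℝ) ^ 2) := by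
    rw [le_div_iff₀ (by positivity)]
    exact hκ
  calc κ * Fintype.card (ι × 𝓕) * (dd * Fintype.card (ι × 𝓕))
      ≤ dd / (4 * (Fintype.card ι : ℝ) ^ 2) * Fintype.card (ι × 𝓕) * (dd * Fintype.card (ι × 𝓕)) := by
        refine mul_le_mul_of_nonneg_right (mul_le_mul_of_nonneg_right h2 (by positivity)) (by positivity)
    _ = _ := by
        field_simp
        ring

end abs

section fam

open Crest.Agent.R042.Fam543

variable {k0 KK : Type} [Field k0] [Field KK] [Algebra k0 KK]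
variable {K : Set k0} {d L kp : ℕ} {ι 𝓕 : Type*}

/-- the relation of the family on the labels of the types `T i` -/
def relF (K : Set k0) (e kp : ℕ) (T : ι → Ty k0 KK d L) (i j : ι) (f g : Label k0 KK d kp L) : Prop :=
  Rel K (2 ^ e) kp (T i) (T j) f g

variable {e : ℕ} {T : ι → Ty k0 KK d L} {pr : ι → 𝓕 → Label k0 KK d kp L}

theorem symm (hK : Alph K) {a b : ι × 𝓕} (h : EE pr (relF K e kp T) a b) :
    EE pr (relF K e kp T) b a := Rel.symm hK h

theorem not_same [CharP KK 2] (hT : ∀ i, Valid K (T i)) {a b : ι × 𝓕} (hab : a.1 = b.1) :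
    ¬ EE pr (relF K e kp T) a b := by
  intro h
  have h1 : Perp (T a.1) (T b.1) := h.1
  rw [hab] at h1
  exact (hT b.1).aniso h1

theorem irrefl [CharP KK 2] (hT : ∀ i, Valid K (T i)) (a : ι × 𝓕) : ¬ EE pr (relF K e kp T) a a :=
  not_same hT rfl

theorem tri [CharP KK 2] (hK : Alph K) (hT : ∀ i, Valid K (T i)) {a b c : ι × 𝓕}
    (hab : EE pr (relF K e kp T) a b) (hbc : EE pr (relF K e kp T) b c)
    (hac : EE pr (relF K e kp T) a c) : False :=
  no_triangle hK e (hT a.1) (hT b.1) (hT c.1) hab hbc (symm hK hac)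

/-- the same as a simple graph -/
def gr [CharP KK 2] (hK : Alph K) (hT : ∀ i, Valid K (T i)) (pr : ι → 𝓕 → Label k0 KK d kp L) :
    SimpleGraph (ι × 𝓕) where
  Adj := EE pr (relF K e kp T)
  symm := ⟨fun _ _ h => symm hK h⟩
  loopless := ⟨fun x h => irrefl hT x h⟩

theorem gr_cliqueFree [CharP KK 2] (hK : Alph K) (hT : ∀ i, Valid K (T i))
    (pr : ι → 𝓕 → Label k0 KK d kp L) : (gr (e := e) hK hT pr).CliqueFree 3 := by
  intro s hs
  rw [SimpleGraph.is3Clique_iff] at hs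
  obtain ⟨a, b, c, hab, hac, hbc, -⟩ := hs
  exact tri hK hT hab hbc hac

end fam

end Crest.Agent.R042.FamV220
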