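import Crest.Agent.R042.RowWin_543

/-!
# The frozen family of row 42 / S0059 (#27655, form of 592 #27697)

`k0` digit field, `KK / k0` finite extension of characteristic 2, conjugates `x ↦ x ^ Q ^ i`,
`Q` a power of 2, blocks `i : Fin kp`.  Coordinates `Ix d = Option (Fin d × Bool)`,
`B x y = x_none y_none + Σ_i (x_{i,0} y_{i,1} + x_{i,1} y_{i,0})`.
A type is `(b, lam, E)`; labels are the symmetric `k0`-bilinear forms on
`U = Fin L → ((Fin kp → Ix d) → KK)`.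
-/

set_option autoImplicit false
set_option linter.unusedSectionVars false

namespace Crest.Agent.R042.Fam543

open Finset Crest.Agent.R042.RowWin543

/-- coordinates of the vectors `b` -/
abbrev Ix (d : ℕ) := Option (Fin d × Bool)

/-- the involution of the coordinates -/
def sw {d : ℕ} : Ix d → Ix d := Option.map (Prod.map id not)

theorem sw_sw {d : ℕ} (j : Ix d) : sw (sw j) = j := by
  rcases j with _ | ⟨i, b⟩ <;> simp [sw]

theorem sw_none {d : ℕ} : sw (none : Ix d) = none := rfl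

/-- as a permutation -/
def swE (d : ℕ) : Equiv.Perm (Ix d) := ⟨sw, sw, sw_sw, sw_sw⟩

/-- types -/
@[ext] structure Ty (k0 KK : Type) (d L : ℕ) where
  b : Ix d → KK
  lam : KK
  E : Fin L → k0

/-- alphabet: a sum-free multiplicative group -/
structure Alph {k0 : Type} [Field k0] (K : Set k0) : Prop where
  one : (1 : k0) ∈ K
  mul : ∀ x ∈ K, ∀ y ∈ K, x * y ∈ K
  inv : ∀ x ∈ K, x⁻¹ ∈ K
  neg : ∀ x ∈ K, -x ∈ K
  sumfree : ∀ x ∈ K, ∀ y ∈ K, x + y ∉ K
  complete : ∀ z, z ∉ K → ∃ x ∈ K, ∃ y ∈ K, x + y = z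

theorem Alph.ne_zero {k0 : Type} [Field k0] {K : Set k0} (hK : Alph K) {x : k0} (hx : x ∈ K) :
    x ≠ 0 := by
  rintro rfl
  exact hK.sumfree 0 hx 0 hx (by simpa using hx)

variable {k0 KK : Type} [Field k0] [Field KK] [Algebra k0 KK]

/-- the form -/
def B {d : ℕ} (x y : Ix d → KK) : KK := ∑ j, x (sw j) * y j

theorem B_comm {d : ℕ} (x y : Ix d → KK) : B x y = B y x := by
  unfold B
  rw [← Equiv.sum_comp (swE d)]
  refine sum_congr rfl fun j _ => ?_
  show x (sw (sw j)) * y (sw j) = _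
  rw [sw_sw, mul_comm]

theorem B_add_left {d : ℕ} (x x' y : Ix d → KK) : B (x + x') y = B x y + B x' y := by
  simp only [B, Pi.add_apply, add_mul, sum_add_distrib]

theorem B_smul_left {d : ℕ} (c : KK) (x y : Ix d → KK) : B (c • x) y = c * B x y := by
  simp only [B, Pi.smul_apply, smul_eq_mul, mul_sum]
  exact sum_congr rfl fun j _ => by ring

theorem B_self [CharP KK 2] {d : ℕ} (x : Ix d → KK) : B x x = x none ^ 2 := by
  unfold B
  rw [Fintype.sum_option, sw_none, ← pow_two]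
  have h : ∑ j : Fin d × Bool, x (sw (some j)) * x (some j) = 0 := by
    rw [Fintype.sum_prod_type]
    refine sum_eq_zero fun i _ => ?_
    rw [Fintype.sum_bool]
    have h1 : sw (some (i, true)) = some (i, false) := rfl
    have h2 : sw (some (i, false)) = some (i, true) := rfl
    rw [h1, h2, mul_comm]
    exact CharTwo.add_self_eq_zero _
  rw [h, add_zero]

/-- tensors: functions of a multi-index -/
abbrev U0 (KK : Type) (d kp : ℕ) := (Fin kp → Ix d) → KK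

/-- the big space -/
abbrev U (KK : Type) (d kp L : ℕ) := Fin L → U0 KK d kp

/-- the Segre-Frobenius point of `b` -/
def Phi (Q : ℕ) {d kp : ℕ} (b : Ix d → KK) : U0 KK d kp :=
  fun al => ∏ i, (b (al i)) ^ (Q ^ (i : ℕ))

/-- contraction with `B h ·` (conjugated) in block `i` -/
def contr (Q : ℕ) {d kp : ℕ} (h : Ix d → KK) (i : Fin kp) : U0 KK d kp →ₗ[KK] U0 KK d kp where
  toFun t := fun al => ∑ j, (h (sw j)) ^ (Q ^ (i : ℕ)) * t (Function.update al i j)
  map_add' := by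
    intro s t; funext al
    simp only [Pi.add_apply, mul_add, sum_add_distrib]
  map_smul' := by
    intro c t; funext al
    simp only [Pi.smul_apply, smul_eq_mul, RingHom.id_apply, mul_sum]
    exact sum_congr rfl fun j _ => by ring

/-- tensors annihilated by the form `B h ·` in all blocks -/
def T1 (Q : ℕ) {d kp : ℕ} (h : Ix d → KK) : Submodule KK (U0 KK d kp) :=
  ⨅ i : Fin kp, LinearMap.ker (contr Q h i)

theorem mem_T1 {Q d kp : ℕ} {h : Ix d → KK} {t : U0 KK d kp} :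
    t ∈ T1 Q h ↔ ∀ i : Fin kp, contr Q h i t = 0 := by
  simp [T1, Submodule.mem_iInf, LinearMap.mem_ker]

/-- `u_R` -/
def uvec (Q : ℕ) {d L : ℕ} (kp : ℕ) (R : Ty k0 KK d L) : U KK d kp L :=
  fun l => (algebraMap k0 KK (R.E l) * R.lam) • Phi Q R.b

/-- perpendicular types -/
def Perp {d L : ℕ} (P R : Ty k0 KK d L) : Prop := B P.b R.b = 0

theorem Perp.symm {d L : ℕ} {P R : Ty k0 KK d L} (h : Perp P R) : Perp R P := by
  unfold Perp at *
  rw [B_comm, h]

/-- `U_P` as a `k0`-space -/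
def UP (Q : ℕ) {d L : ℕ} (kp : ℕ) (P : Ty k0 KK d L) : Submodule k0 (U KK d kp L) where
  carrier := {x | ∀ l, x l ∈ T1 Q P.b}
  add_mem' := fun hx hy l => Submodule.add_mem _ (hx l) (hy l)
  zero_mem' := fun l => Submodule.zero_mem _
  smul_mem' := by
    intro c x hx l
    have h1 : (c • x) l = (algebraMap k0 KK c) • x l := by
      simp [Pi.smul_apply, algebraMap_smul]
    rw [h1]
    exact Submodule.smul_mem _ _ (hx l)

theorem mem_UP {Q d L kp : ℕ} {P : Ty k0 KK d L} {x : U KK d kp L} :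
    x ∈ UP Q kp P ↔ ∀ l, x l ∈ T1 Q P.b := Iff.rfl

/-- `U_{P,Q}` -/
def UPQ (Q : ℕ) {d L : ℕ} (kp : ℕ) (P R : Ty k0 KK d L) : Submodule k0 (U KK d kp L) :=
  UP Q kp P ⊓ UP Q kp R

theorem UPQ_comm (Q : ℕ) {d L : ℕ} (kp : ℕ) (P R : Ty k0 KK d L) :
    UPQ Q kp P R = UPQ Q kp R P := inf_comm _ _

/-- the functional `tau` (constant word) -/
noncomputable def tau (k0 : Type) {KK : Type} [Field k0] [Field KK] [Algebra k0 KK]
    {d kp : ℕ} : U0 KK d kp →ₗ[k0] k0 where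
  toFun t := Algebra.trace k0 KK (t fun _ => none)
  map_add' := by intro s t; simp
  map_smul' := by intro c t; simp

theorem tau_apply {d kp : ℕ} (t : U0 KK d kp) :
    tau k0 t = Algebra.trace k0 KK (t fun _ => none) := rfl

/-- a valid type -/
structure Valid {d L : ℕ} (K : Set k0) (R : Ty k0 KK d L) : Prop where
  b0 : R.b none = 1
  lam : Algebra.trace k0 KK R.lam = 1
  E : ∀ l, R.E l ∈ K

theorem Valid.aniso [CharP KK 2] {d L : ℕ} {K : Set k0} {R : Ty k0 KK d L} (h : Valid K R) :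
    ¬ Perp R R := by
  unfold Perp
  rw [B_self, h.b0, one_pow]
  exact one_ne_zero

theorem Phi_none {Q d kp : ℕ} (b : Ix d → KK) (hb : b none = 1) :
    (Phi Q b : U0 KK d kp) (fun _ => none) = 1 := by
  simp [Phi, hb]

theorem tau_uvec {Q d L kp : ℕ} {K : Set k0} {R : Ty k0 KK d L} (hR : Valid K R)
    (l : Fin L) : tau k0 (uvec Q kp R l) = R.E l := by
  rw [tau_apply]
  simp only [uvec, Pi.smul_apply, smul_eq_mul]
  rw [Phi_none R.b hR.b0, mul_one, ← Algebra.smul_def, map_smul, hR.lam, smul_eq_mul, mul_one]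

/-- labels: symmetric `k0`-bilinear forms on `U` -/
abbrev Label (k0 KK : Type) [Field k0] [Field KK] [Algebra k0 KK] (d kp L : ℕ) :=
  ↥(SymForm k0 (U KK d kp L))

/-- the relation of the family -/
def Rel (K : Set k0) (Q : ℕ) {d L : ℕ} (kp : ℕ) (P R : Ty k0 KK d L)
    (f g : Label k0 KK d kp L) : Prop :=
  Perp P R ∧ ∃ c ∈ K, ∃ l : Fin L, ∀ z ∈ UPQ Q kp P R,
    f.1 (uvec Q kp R) z - g.1 (uvec Q kp P) z = c * tau k0 (z l)

theorem Rel.symm {K : Set k0} (hK : Alph K) {Q d L kp : ℕ} {P R : Ty k0 KK d L}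
    {f g : Label k0 KK d kp L} (h : Rel K Q kp P R f g) : Rel K Q kp R P g f := by
  obtain ⟨h1, c, hc, l, h2⟩ := h
  refine ⟨h1.symm, -c, hK.neg c hc, l, fun z hz => ?_⟩
  rw [UPQ_comm] at hz
  have h4 := h2 z hz
  linear_combination -h4

section

variable [CharP KK 2]

theorem contr_Phi (e : ℕ) {d kp : ℕ} (h b : Ix d → KK) (i : Fin kp) (al : Fin kp → Ix d) :
    contr (2 ^ e) h i (Phi (2 ^ e) b) al =
      (B h b) ^ ((2 ^ e) ^ (i : ℕ)) *
        ∏ i' ∈ univ.erase i, (b (al i')) ^ ((2 ^ e) ^ (i' : ℕ)) := by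
  have h1 : (B h b) ^ ((2 ^ e) ^ (i : ℕ)) =
      ∑ j, (h (sw j)) ^ ((2 ^ e) ^ (i : ℕ)) * (b j) ^ ((2 ^ e) ^ (i : ℕ)) := by
    unfold B
    rw [← pow_mul, sum_pow_char_pow]
    exact sum_congr rfl fun j _ => by rw [mul_pow]
  rw [h1, sum_mul]
  show ∑ j : Ix d, (h (sw j)) ^ ((2 ^ e) ^ (i : ℕ)) *
    (Phi (2 ^ e) b : U0 KK d kp) (Function.update al i j) = _
  refine sum_congr rfl fun j _ => ?_
  have h2 : (Phi (2 ^ e) b : U0 KK d kp) (Function.update al i j) =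
      (b j) ^ ((2 ^ e) ^ (i : ℕ)) *
        ∏ i' ∈ univ.erase i, (b (al i')) ^ ((2 ^ e) ^ (i' : ℕ)) := by
    unfold Phi
    rw [← mul_prod_erase univ _ (mem_univ i), Function.update_self]
    congr 1
    refine prod_congr rfl fun i' hi' => ?_
    rw [Function.update_of_ne (ne_of_mem_erase hi')]
  rw [h2]; ring

theorem Phi_mem_T1 (e : ℕ) {d kp : ℕ} {h b : Ix d → KK} (hb : B h b = 0) :
    (Phi (2 ^ e) b : U0 KK d kp) ∈ T1 (2 ^ e) h := by
  rw [mem_T1]
  intro i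
  funext al
  have hpos : (2 ^ e) ^ (i : ℕ) ≠ 0 := pow_ne_zero _ (pow_ne_zero _ two_ne_zero)
  rw [contr_Phi, hb, zero_pow hpos, zero_mul]; rfl

theorem uvec_mem_UP (e : ℕ) {d L kp : ℕ} {P R : Ty k0 KK d L} (h : Perp P R) :
    uvec (2 ^ e) kp R ∈ UP (2 ^ e) kp P := by
  intro l
  exact Submodule.smul_mem _ _ (Phi_mem_T1 e h)

theorem uvec_mem_UPQ (e : ℕ) {d L kp : ℕ} {P P' R : Ty k0 KK d L} (h : Perp P R)
    (h' : Perp P' R) : uvec (2 ^ e) kp R ∈ UPQ (2 ^ e) kp P P' :=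
  Submodule.mem_inf.2 ⟨uvec_mem_UP e h, uvec_mem_UP e h'⟩

/-- **no triangle** -/
theorem no_triangle {K : Set k0} (hK : Alph K) (e : ℕ) {d L kp : ℕ}
    {P R S : Ty k0 KK d L} {f g h : Label k0 KK d kp L}
    (hP : Valid K P) (hR : Valid K R) (hS : Valid K S)
    (hPR : Rel K (2 ^ e) kp P R f g) (hRS : Rel K (2 ^ e) kp R S g h)
    (hSP : Rel K (2 ^ e) kp S P h f) : False := by
  obtain ⟨p1, c1, hc1, l1, h1⟩ := hPR
  obtain ⟨p2, c2, hc2, l2, h2⟩ := hRS
  obtain ⟨p3, c3, hc3, l3, h3⟩ := hSP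
  have e1 := h1 (uvec (2 ^ e) kp S) (uvec_mem_UPQ e p3.symm p2)
  have e2 := h2 (uvec (2 ^ e) kp P) (uvec_mem_UPQ e p1.symm p3)
  have e3 := h3 (uvec (2 ^ e) kp R) (uvec_mem_UPQ e p2.symm p1)
  rw [tau_uvec hS] at e1
  rw [tau_uvec hP] at e2
  rw [tau_uvec hR] at e3
  have s1 := f.2 (uvec (2 ^ e) kp R) (uvec (2 ^ e) kp S)
  have s2 := g.2 (uvec (2 ^ e) kp S) (uvec (2 ^ e) kp P)
  have s3 := h.2 (uvec (2 ^ e) kp P) (uvec (2 ^ e) kp R)
  have hsum : c1 * S.E l1 + c2 * P.E l2 = -(c3 * R.E l3) := by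
    rw [← e1, ← e2, ← e3]
    linear_combination s1 + s2 + s3
  refine hK.sumfree _ (hK.mul _ hc1 _ (hS.E l1)) _ (hK.mul _ hc2 _ (hP.E l2)) ?_
  rw [hsum]
  exact hK.neg _ (hK.mul _ hc3 _ (hR.E l3))

/-- the graph on a family of valid types with all labels -/
def graph (K : Set k0) (hK : Alph K) (Q : ℕ) {d L : ℕ} (kp : ℕ)
    {ι : Type} (T : ι → Ty k0 KK d L) (hT : ∀ i, Valid K (T i)) :
    SimpleGraph (ι × Label k0 KK d kp L) where
  Adj x y := Rel K Q kp (T x.1) (T y.1) x.2 y.2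
  symm := ⟨fun _ _ h => h.symm hK⟩
  loopless := ⟨fun x h => (hT x.1).aniso h.1⟩

theorem graph_adj (K : Set k0) (hK : Alph K) (Q : ℕ) {d L : ℕ} (kp : ℕ)
    {ι : Type} (T : ι → Ty k0 KK d L) (hT : ∀ i, Valid K (T i))
    (x y : ι × Label k0 KK d kp L) :
    (graph K hK Q kp T hT).Adj x y ↔ Rel K Q kp (T x.1) (T y.1) x.2 y.2 := Iff.rfl

theorem graph_cliqueFree (K : Set k0) (hK : Alph K) (e : ℕ)
    {d L : ℕ} (kp : ℕ) {ι : Type} (T : ι → Ty k0 KK d L) (hT : ∀ i, Valid K (T i)) :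
    (graph K hK (2 ^ e) kp T hT).CliqueFree 3 := by
  classical
  intro s hs
  rw [SimpleGraph.is3Clique_iff] at hs
  obtain ⟨a, b, c, hab, hac, hbc, -⟩ := hs
  exact no_triangle hK e (hT a.1) (hT b.1) (hT c.1) hab hbc (hac.symm)

/-- vertices of the same type are not adjacent -/
theorem not_adj_same (K : Set k0) (hK : Alph K) (Q : ℕ) {d L : ℕ} (kp : ℕ)
    {ι : Type} (T : ι → Ty k0 KK d L) (hT : ∀ i, Valid K (T i))
    (x y : ι × Label k0 KK d kp L) (h : x.1 = y.1) : ¬ (graph K hK Q kp T hT).Adj x y := by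
  rw [graph_adj, h]
  exact fun h' => (hT y.1).aniso h'.1

end

end Crest.Agent.R042.Fam543
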