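import Crest.Agent.R042.S60Fin_822
import Crest.Agent.R042.From59_822
import Crest.Agent.R042.HJK_883

/-! Row 42: the three literal statements S0057, S0059, S0060 from `HJK 100000`
(equivalently from `PairConfK 100000`). -/

set_option autoImplicit false

namespace Crest.Agent.R042.Fin3_822

open Crest.Agent.R042 Crest.CombinatoricsR

theorem s59 (h : S59Spine883.HJK 100000) : From59822.S59A :=
  S59Spine883.s59_of_hjk (h.mono (by norm_num))

theorem s57 (h : S59Spine883.HJK 100000) : From59822.S57A :=
  From59822.s57 (s59 h)

theorem hjk_of (h : S59Spine883.PairConfK 100000) : S59Spine883.HJK 100000 :=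
  S59Spine883.hjk_of_pairConfK h

end Crest.Agent.R042.Fin3_822
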