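import Mathlib
import Crest.Agent.R042.B8Final_220
import Crest.Agent.R042.Blocks_883
import Crest.Agent.R042.B7_375
import Crest.Agent.R042.Chain3_374
import Crest.Agent.R042.SmallHubU_667

/-! Row 42 / S0058: the block B7 unconditional and S0058. -/

set_option autoImplicit false
set_option linter.unusedSectionVars false

namespace Crest.Agent.R042.Fin58_220

open Finset Crest.Agent.R042.Conn353 Crest.Agent.R042.Menger353 Crest.Agent.R042.Crit374

theorem hubStmt : B7375.HubStmt := by
  refine ⟨64, 512, ?_⟩
  intro h hh V _ G T hno hT hdeg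
  obtain ⟨J, h1, _, h3, h4, h5, h6⟩ := SmallHub667.hub_deg G T (k := h + 1 + 2) (h := h)
    (by omega) hh hT hno (fun v hv => le_trans (by omega) (hdeg v hv))
  exact ⟨J, h1, by omega, h3, h6⟩

theorem chainStmt : B7375.ChainStmt := by
  intro V _ G V0 p d M UB kc hp P1 COST HUB NS hk hUB
  exact Chain374.chain ⟨P1, fun W A B P h => B7375.bf1 h, fun W A B P h x hx hxP l hl =>
    B7375.bf2 h hx hxP hl, COST, HUB, NS⟩ hk (by omega) hUB

theorem b7 : Spine883.B7 := B7375.b7_of hubStmt chainStmt

theorem s58 : Spine883.S58A := Spine883.s58 Blocks883.b0 b7 Asm220.b8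

end Crest.Agent.R042.Fin58_220
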