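import Crest.Agent.R042.TLevC_333

/-! Row 42 / S0059, T-level instance, part 1: 8-genericity of a random sample of types.
A type `P : Ω` has a vector `v P : W` over a finite field `K` (all fibres of `v` of the same size),
`perp P Q ↔ ω (v P) (v Q) = c` with `c ≠ 0`-or-not arbitrary, `ω` left-nondegenerate.
`LI v x k`: any `≤ k` of the vectors `v (x i)` are linearly independent; it implies the exact counts
`TLev333.Gen`, and it fails for at most `N^8 K^7 / |W|` of all samples. -/

set_option autoImplicit false
set_option linter.unusedSectionVars false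
set_option linter.unusedSimpArgs false

namespace Crest.Agent.R042.Gen592

open Finset Function
open scoped Classical
open Crest.Agent.R042.TLev333

section Lin

variable {K W : Type*} [Field K] [Fintype K] [AddCommGroup W] [Module K W] [Fintype W]

/-- a linearly independent finite family of functionals is jointly surjective. -/
lemma surj_of_indep {ι : Type*} [Fintype ι] (f : ι → (W →ₗ[K] K))
    (hf : LinearIndependent K f) : Function.Surjective (LinearMap.pi f) := by
  classical
  rw [← LinearMap.range_eq_top]
  by_contra hne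
  obtain ⟨g, hg0, hg⟩ := Submodule.exists_le_ker_of_lt_top _ (lt_top_iff_ne_top.mpr hne)
  apply hg0
  have h1 : ∑ i, g (fun j => if i = j then 1 else 0) • f i = 0 := by
    ext w
    have h2 : g (LinearMap.pi f w) = 0 := by
      have : LinearMap.pi f w ∈ LinearMap.range (LinearMap.pi f) := ⟨w, rfl⟩
      exact LinearMap.mem_ker.mp (hg this)
    rw [LinearMap.pi_apply_eq_sum_univ] at h2
    rw [LinearMap.sum_apply, LinearMap.zero_apply]
    refine Eq.trans (Finset.sum_congr rfl (fun i _ => ?_)) h2
    simp only [LinearMap.smul_apply, smul_eq_mul, LinearMap.pi_apply]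
    exact mul_comm _ _
  have h3 := Fintype.linearIndependent_iff.mp hf (fun i => g (fun j => if i = j then 1 else 0)) h1
  refine LinearMap.ext (fun w => ?_)
  rw [LinearMap.pi_apply_eq_sum_univ g w, LinearMap.zero_apply]
  exact Finset.sum_eq_zero (fun i _ => by rw [h3 i, smul_zero])

lemma card_fiber_mul {ι : Type*} [Fintype ι] (f : ι → (W →ₗ[K] K))
    (hf : LinearIndependent K f) (c : ι → K) :
    (univ.filter fun w : W => ∀ i, f i w = c i).card * Fintype.card K ^ Fintype.card ι =
      Fintype.card W := by
  classical
  have hs := surj_of_indep f hf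
  have h1 : ∀ c' : ι → K, (univ.filter fun w : W => LinearMap.pi f w = c').card =
      (univ.filter fun w : W => LinearMap.pi f w = c).card := by
    intro c'
    obtain ⟨a, ha⟩ := hs (c - c')
    refine Finset.card_bij (fun w _ => w + a) ?_ ?_ ?_
    · intro w hw
      rw [Finset.mem_filter] at hw ⊢
      refine ⟨Finset.mem_univ _, ?_⟩
      rw [map_add, hw.2, ha]
      abel
    · intro w _ w' _ h
      exact add_right_cancel h
    · intro w hw
      rw [Finset.mem_filter] at hw
      refine ⟨w - a, ?_, by abel⟩
      rw [Finset.mem_filter]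
      refine ⟨Finset.mem_univ _, ?_⟩
      rw [map_sub, hw.2, ha]
      abel
  have h2 : Fintype.card W = ∑ c' : ι → K, (univ.filter fun w : W => LinearMap.pi f w = c').card := by
    rw [← Finset.card_univ]
    exact Finset.card_eq_sum_card_fiberwise (fun w _ => Finset.mem_coe.mpr (Finset.mem_univ _))
  rw [h2, Finset.sum_congr rfl (fun c' _ => h1 c'), Finset.sum_const, Finset.card_univ,
    Fintype.card_fun, smul_eq_mul, mul_comm]
  congr 1
  refine congrArg Finset.card (Finset.filter_congr (fun w _ => ?_))
  rw [funext_iff]
  rfl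

end Lin

section Gen

variable {K W Ω I : Type*} [Field K] [Fintype K] [AddCommGroup W] [Module K W] [Fintype W]
  [Fintype Ω]

/-- any at most `k` of the sample vectors are linearly independent. -/
def LI (K : Type*) {W Ω I : Type*} [Field K] [AddCommGroup W] [Module K W] (v : Ω → W)
    (k : ℕ) (x : I → Ω) : Prop :=
  ∀ J : Finset I, J.card ≤ k → LinearIndependent K (fun i : J => v (x i))

/-- all fibres of `v` have `c` elements. -/
def Fib (v : Ω → W) (c : ℕ) : Prop := ∀ u, (univ.filter fun P : Ω => v P = u).card = c

lemma card_pre {v : Ω → W} {c : ℕ} (hv : Fib v c) (p : W → Prop) :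
    (univ.filter fun P : Ω => p (v P)).card = (univ.filter p).card * c := by
  classical
  rw [Finset.card_eq_sum_card_fiberwise (f := v) (t := univ.filter p)
    (fun P hP => by
      rw [Finset.mem_coe, Finset.mem_filter] at *
      exact ⟨Finset.mem_univ _, hP.2⟩)]
  have : ∀ u ∈ univ.filter p, ((univ.filter fun P : Ω => p (v P)).filter fun P => v P = u).card
      = c := by
    intro u hu
    rw [Finset.mem_filter] at hu
    rw [← hv u, Finset.filter_filter]
    refine congrArg Finset.card (Finset.filter_congr (fun P _ => ?_))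
    constructor
    · exact fun h => h.2
    · rintro rfl
      exact ⟨hu.2, rfl⟩
  rw [Finset.sum_congr rfl this, Finset.sum_const, smul_eq_mul]

lemma card_Om {v : Ω → W} {c : ℕ} (hv : Fib v c) : Fintype.card Ω = Fintype.card W * c := by
  have h := card_pre hv (fun _ => True)
  simpa using h

/-- linear independence implies the exact counts. -/
theorem gen_of_li {v : Ω → W} {c : ℕ} (hv : Fib v c) (ω : W →ₗ[K] W →ₗ[K] K)
    (hω : LinearMap.ker ω = ⊥) (c0 : K) (perp : Ω → Ω → Prop)
    (hperp : ∀ P Q, perp P Q ↔ ω (v P) (v Q) = c0) {x : I → Ω} (hx : LI K v 8 x)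
    (T : Finset I) : Gen perp ((Fintype.card K : ℝ)⁻¹) x T := by
  classical
  intro J _ hJ
  have hli : LinearIndependent K (fun i : J => ω (v (x i))) := (hx J hJ).map' ω hω
  have h1 := card_fiber_mul (fun i : J => ω (v (x i))) hli (fun _ => c0)
  have h2 : (univ.filter fun Q => ∀ i ∈ J, perp (x i) Q).card =
      (univ.filter fun w : W => ∀ i : J, ω (v (x i)) w = c0).card * c := by
    have h3 := card_pre hv (fun w => ∀ i : J, ω (v (x i)) w = c0)
    have h4 : (univ.filter fun Q => ∀ i ∈ J, perp (x i) Q) =
        univ.filter fun Q => ∀ i : J, ω (v (x i)) (v Q) = c0 := by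
      ext Q
      simp only [Finset.mem_filter, hperp, Subtype.forall]
    rw [h4]
    convert h3
  have hK : (0 : ℝ) < Fintype.card K := by exact_mod_cast Fintype.card_pos
  rw [card_Om hv, h2, ← h1, Fintype.card_coe]
  push_cast
  rw [inv_pow]
  field_simp

/-- the set of bad samples: some vector lies in the span of 7 others. -/
lemma li_of_notMem {v : Ω → W} [Fintype I] (hI : 2 ≤ Fintype.card I) {x : I → Ω}
    (h : ∀ (f : Fin 7 → I) (i : I), (∀ j, f j ≠ i) →
      v (x i) ∉ Submodule.span K (Set.range fun j => v (x (f j)))) : LI K v 8 x := by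
  classical
  intro J hJ
  rw [linearIndependent_iff_notMem_span]
  rintro ⟨i, hi⟩ hmem
  obtain ⟨d, hd⟩ := Fintype.exists_ne_of_one_lt_card (show 1 < Fintype.card I by omega) i
  have hcard : (J.erase i).card ≤ 7 := by
    rw [Finset.card_erase_of_mem hi]
    omega
  refine h (fun k => ((J.erase i).toList[(k : ℕ)]?).getD d) i ?_ ?_
  · intro k
    rcases hk : ((J.erase i).toList[(k : ℕ)]?) with _ | j
    · simpa [hk] using hd
    · have hj : j ∈ J.erase i := by
        rw [← Finset.mem_toList]
        exact List.mem_of_getElem? hk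
      simp only [hk, Option.getD_some]
      exact (Finset.mem_erase.mp hj).1
  · refine Submodule.span_mono ?_ hmem
    rintro _ ⟨⟨j, hj⟩, hji, rfl⟩
    have hji' : j ≠ i := fun hh => hji.2 (by simp [hh])
    have hj' : j ∈ (J.erase i).toList := by
      rw [Finset.mem_toList]
      exact Finset.mem_erase.mpr ⟨hji', hj⟩
    obtain ⟨k, hk, hk'⟩ := List.mem_iff_getElem.mp hj'
    rw [Finset.length_toList] at hk
    refine ⟨⟨k, by omega⟩, ?_⟩
    have hk2 : (J.erase i).toList[k]? = some j := by
      rw [List.getElem?_eq_some_iff]
      exact ⟨by rw [Finset.length_toList]; exact hk, hk'⟩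
    simp only [hk2, Option.getD_some]

lemma card_span_le {v : Ω → W} {c : ℕ} (hv : Fib v c) (u : Fin 7 → W) :
    (univ.filter fun Q : Ω => v Q ∈ Submodule.span K (Set.range u)).card ≤
      Fintype.card K ^ 7 * c := by
  classical
  rw [card_pre hv (fun w => w ∈ Submodule.span K (Set.range u))]
  refine Nat.mul_le_mul_right _ ?_
  have hsub : (univ.filter fun w : W => w ∈ Submodule.span K (Set.range u)) ⊆
      (univ : Finset (Fin 7 → K)).image (fun a => ∑ i, a i • u i) := by
    intro w hw
    rw [Finset.mem_filter] at hw
    obtain ⟨a, ha⟩ := (Submodule.mem_span_range_iff_exists_fun K).mp hw.2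
    rw [Finset.mem_image]
    exact ⟨a, Finset.mem_univ _, ha⟩
  calc _ ≤ _ := Finset.card_le_card hsub
    _ ≤ _ := Finset.card_image_le
    _ = _ := by rw [Finset.card_univ, Fintype.card_fun, Fintype.card_fin]

/-- all but `N^8 K^7 / |W|` of the samples are 8-generic. -/
theorem card_not_li_le [Fintype I] [Nonempty Ω] {v : Ω → W} {c : ℕ} (hv : Fib v c)
    (hI : 2 ≤ Fintype.card I) :
    (((univ.filter fun x : I → Ω => ¬ LI K v 8 x).card : ℕ) : ℝ) ≤
      (Fintype.card I : ℝ) ^ 8 * ((Fintype.card K : ℝ) ^ 7 / Fintype.card W) *
        (Fintype.card Ω : ℝ) ^ Fintype.card I := by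
  classical
  set κ : ℝ := (Fintype.card K : ℝ) ^ 7 / Fintype.card W with hκ
  have hW : (0 : ℝ) < Fintype.card W := by exact_mod_cast Fintype.card_pos
  have hκ0 : 0 ≤ κ := by positivity
  set D : (Fin 7 → I) × I → Finset (I → Ω) := fun p =>
    univ.filter fun x => (∀ j, p.1 j ≠ p.2) ∧
      v (x p.2) ∈ Submodule.span K (Set.range fun j => v (x (p.1 j))) with hD
  have hsub : (univ.filter fun x : I → Ω => ¬ LI K v 8 x) ⊆ univ.biUnion D := by
    intro x hx
    rw [Finset.mem_filter] at hx
    by_contra hcon
    apply hx.2
    refine li_of_notMem hI (fun f i hf hmem => hcon ?_)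
    rw [Finset.mem_biUnion]
    refine ⟨(f, i), Finset.mem_univ _, ?_⟩
    rw [hD, Finset.mem_filter]
    exact ⟨Finset.mem_univ _, hf, hmem⟩
  have hDc : ∀ p, ((D p).card : ℝ) ≤ κ * (Fintype.card Ω : ℝ) ^ Fintype.card I := by
    rintro ⟨f, i⟩
    by_cases hf : ∀ j, f j ≠ i
    · have h := count_one (I := I) (Ω := Ω) {i}
        (fun x => univ.filter fun Q : Ω => v Q ∈ Submodule.span K (Set.range fun j => v (x (f j))))
        κ hκ0 (by
          intro x j hj a
          rw [Finset.mem_singleton] at hj
          subst hj
          have : (fun k => v (update x j a (f k))) = fun k => v (x (f k)) := by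
            funext k
            rw [update_of_ne (hf k)]
          rw [this]) (by
          intro x
          have h1 := card_span_le (K := K) hv (fun j => v (x (f j)))
          have h2 : (Fintype.card Ω : ℝ) = Fintype.card W * c := by
            rw [card_Om hv]; push_cast; rfl
          have h3 : ((univ.filter fun Q : Ω => v Q ∈
              Submodule.span K (Set.range fun j => v (x (f j)))).card : ℝ) ≤
              (Fintype.card K : ℝ) ^ 7 * c := by exact_mod_cast h1
          refine h3.trans (le_of_eq ?_)
          rw [h2, hκ]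
          field_simp)
      rw [Finset.card_singleton, pow_one] at h
      refine le_trans ?_ h
      refine Nat.cast_le.mpr (Finset.card_le_card ?_)
      intro x hx
      rw [hD, Finset.mem_filter] at hx
      rw [Finset.mem_filter]
      refine ⟨Finset.mem_univ _, ?_⟩
      intro j hj
      rw [Finset.mem_singleton] at hj
      subst hj
      rw [Finset.mem_filter]
      exact ⟨Finset.mem_univ _, hx.2.2⟩
    · have : D (f, i) = ∅ := by
        rw [hD]
        refine Finset.filter_eq_empty_iff.mpr ?_
        intro x _ hx
        exact hf hx.1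
      rw [this, Finset.card_empty]
      push_cast
      positivity
  calc (((univ.filter fun x : I → Ω => ¬ LI K v 8 x).card : ℕ) : ℝ)
      ≤ ∑ p, ((D p).card : ℝ) := by
        have h := (Finset.card_le_card hsub).trans Finset.card_biUnion_le
        exact_mod_cast h
    _ ≤ ∑ _p : (Fin 7 → I) × I, κ * (Fintype.card Ω : ℝ) ^ Fintype.card I :=
        Finset.sum_le_sum (fun p _ => hDc p)
    _ = _ := by
        rw [Finset.sum_const, Finset.card_univ, Fintype.card_prod, Fintype.card_fun,
          Fintype.card_fin, nsmul_eq_mul]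
        push_cast
        ring

end Gen

end Crest.Agent.R042.Gen592
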