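import Crest.Agent.R042.Fam_543
import Crest.Agent.R042.Gen_592

/-! Row 42 / S0059, T-level instance, part 2: the sample space of the frozen family (Fam_543).
`Om K d L` = valid types, `vv` = the vector without the coordinate `none` (which is 1),
`ω` = the alternating part of `B`, `Perp P R ↔ ω (vv P) (vv R) = -1`; fibres of `vv` have equal size,
so `Gen_592` applies: 8-genericity with `ρ = 1 / |KK|` for all but `N^8 |KK|^7 / |KK|^(2d)` samples. -/

set_option autoImplicit false
set_option linter.unusedSectionVars false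

namespace Crest.Agent.R042.Inst592

open Finset Function
open scoped Classical
open Crest.Agent.R042.TLev333 Crest.Agent.R042.Fam543 Crest.Agent.R042.Gen592

variable {k0 KK : Type} [Field k0] [Field KK] [Algebra k0 KK]

/-- the space of the alternating part -/
abbrev WW (KK : Type) (d : ℕ) := Fin d × Bool → KK

/-- the sample space: valid types -/
abbrev Om (KK : Type) {k0 : Type} [Field k0] [Field KK] [Algebra k0 KK] (K : Set k0)
    (d L : ℕ) : Type := {R : Ty k0 KK d L // Valid K R}

/-- the part of the type which is not seen by `Perp` -/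
abbrev Zz (KK : Type) {k0 : Type} [Field k0] [Field KK] [Algebra k0 KK] (K : Set k0)
    (L : ℕ) : Type := {l : KK // Algebra.trace k0 KK l = 1} × (Fin L → K)

/-- the vector of a type without the coordinate `none` -/
def vv {K : Set k0} {d L : ℕ} (R : Om KK K d L) : WW KK d := fun j => R.1.b (some j)

/-- the sample space is a product -/
def omEquiv (K : Set k0) (d L : ℕ) : Om KK K d L ≃ WW KK d × Zz KK K L where
  toFun R := (vv R, ⟨R.1.lam, R.2.lam⟩, fun l => ⟨R.1.E l, R.2.E l⟩)
  invFun z := ⟨⟨fun o => o.elim 1 z.1, z.2.1.1, fun l => (z.2.2 l).1⟩,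
    ⟨rfl, z.2.1.2, fun l => (z.2.2 l).2⟩⟩
  left_inv := by
    rintro ⟨R, hR⟩
    apply Subtype.ext
    apply Ty.ext
    · funext o
      rcases o with _ | j
      · exact hR.b0.symm
      · rfl
    · rfl
    · rfl
  right_inv := by
    rintro ⟨w, l, E⟩
    rfl

/-- the alternating form -/
def om (d : ℕ) : WW KK d →ₗ[KK] WW KK d →ₗ[KK] KK :=
  LinearMap.mk₂ KK (fun x y => ∑ j : Fin d × Bool, x (j.1, !j.2) * y j)
    (by intro x x' y; simp only [Pi.add_apply, add_mul, sum_add_distrib])
    (by intro c x y; simp only [Pi.smul_apply, smul_eq_mul, mul_sum, mul_assoc])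
    (by intro x y y'; simp only [Pi.add_apply, mul_add, sum_add_distrib])
    (by intro c x y
        simp only [Pi.smul_apply, smul_eq_mul, mul_sum]
        exact sum_congr rfl fun j _ => by ring)

theorem om_apply {d : ℕ} (x y : WW KK d) : om d x y = ∑ j : Fin d × Bool, x (j.1, !j.2) * y j := rfl

theorem ker_om (d : ℕ) : LinearMap.ker (om (KK := KK) d) = ⊥ := by
  rw [LinearMap.ker_eq_bot']
  intro x hx
  funext j
  have h := LinearMap.congr_fun hx (Pi.single (j.1, !j.2) 1)
  rw [om_apply, LinearMap.zero_apply] at h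
  rw [Finset.sum_eq_single (j.1, !j.2)] at h
  · simpa using h
  · intro i _ hi
    rw [Pi.single_eq_of_ne hi, mul_zero]
  · intro hh
    exact absurd (mem_univ _) hh

theorem B_eq {d : ℕ} (x y : Ix d → KK) :
    B x y = x none * y none + om d (fun j => x (some j)) (fun j => y (some j)) := by
  unfold B
  rw [Fintype.sum_option, sw_none, om_apply]
  rfl

theorem perp_iff {K : Set k0} {d L : ℕ} (P R : Om KK K d L) :
    Perp P.1 R.1 ↔ om d (vv P) (vv R) = -1 := by
  unfold Perp
  rw [B_eq, P.2.b0, R.2.b0, mul_one, add_comm, add_eq_zero_iff_eq_neg]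
  rfl

section Fin

variable [Fintype k0] [Fintype KK]

noncomputable instance instFintypeOm (K : Set k0) (d L : ℕ) : Fintype (Om KK K d L) :=
  Fintype.ofEquiv _ (omEquiv K d L).symm

theorem fib (K : Set k0) (d L : ℕ) :
    Fib (vv : Om KK K d L → WW KK d) (Fintype.card (Zz KK K L)) := by
  intro u
  rw [← Finset.card_univ]
  refine Finset.card_bij (fun P _ => (omEquiv K d L P).2) ?_ ?_ ?_
  · intro P _
    exact mem_univ _
  · intro P hP P' hP' h
    have h1 := (@Finset.mem_filter _ _ (_) _ _).1 hP
    have h2 := (@Finset.mem_filter _ _ (_) _ _).1 hP'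
    apply (omEquiv K d L).injective
    refine Prod.ext ?_ h
    show vv P = vv P'
    rw [h1.2, h2.2]
  · intro z _
    refine ⟨(omEquiv K d L).symm (u, z), ?_, ?_⟩
    · refine (@Finset.mem_filter _ _ (_) _ _).2 ⟨mem_univ _, ?_⟩
      have : (omEquiv K d L ((omEquiv K d L).symm (u, z))).1 = u := by
        rw [Equiv.apply_symm_apply]
      exact this
    · rw [Equiv.apply_symm_apply]

theorem nonempty_Om {K : Set k0} (h1 : (1 : k0) ∈ K) (d L : ℕ) : Nonempty (Om KK K d L) := by
  obtain ⟨l, hl⟩ := Algebra.trace_surjective k0 KK 1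
  exact ⟨(omEquiv K d L).symm (0, ⟨l, hl⟩, fun _ => ⟨1, h1⟩)⟩

/-- the relation of the sample space -/
def perp (K : Set k0) (d L : ℕ) (P R : Om KK K d L) : Prop := Perp P.1 R.1

theorem perp_symm {K : Set k0} {d L : ℕ} {P R : Om KK K d L} (h : perp K d L P R) :
    perp K d L R P := Perp.symm h

/-- **8-generic samples**: `LI` implies `Gen`. -/
theorem gen {K : Set k0} {d L : ℕ} {I : Type*} {x : I → Om KK K d L} (hx : LI KK vv 8 x)
    (T : Finset I) : Gen (perp K d L) ((Fintype.card KK : ℝ)⁻¹) x T :=
  gen_of_li (fib K d L) (om d) (ker_om d) (-1) (perp K d L) perp_iff hx T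

theorem card_WW (d : ℕ) : Fintype.card (WW KK d) = Fintype.card KK ^ (2 * d) := by
  rw [Fintype.card_fun, Fintype.card_prod, Fintype.card_fin, Fintype.card_bool, mul_comm]

/-- all but `N^8 |KK|^7 / |KK|^(2d)` of the samples are 8-generic. -/
theorem card_not_li {K : Set k0} (h1 : (1 : k0) ∈ K) (d L : ℕ) {I : Type*} [Fintype I]
    (hI : 2 ≤ Fintype.card I) :
    (((univ.filter fun x : I → Om KK K d L => ¬ LI KK vv 8 x).card : ℕ) : ℝ) ≤
      (Fintype.card I : ℝ) ^ 8 * ((Fintype.card KK : ℝ) ^ 7 / (Fintype.card KK : ℝ) ^ (2 * d)) *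
        (Fintype.card (Om KK K d L) : ℝ) ^ Fintype.card I := by
  have := nonempty_Om (KK := KK) h1 d L
  have h := card_not_li_le (K := KK) (I := I) (fib (KK := KK) K d L) hI
  rw [card_WW] at h
  push_cast at h
  exact h

/-- at most `8` of the vectors `b` of an 8-generic sample are linearly independent. -/
theorem li_b {K : Set k0} {d L : ℕ} {I : Type*} {x : I → Om KK K d L} (hx : LI KK vv 8 x)
    (J : Finset I) (hJ : J.card ≤ 8) : LinearIndependent KK (fun i : J => (x i).1.b) := by
  have h := hx J hJ
  let f : (Ix d → KK) →ₗ[KK] WW KK d := LinearMap.funLeft KK KK some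
  exact LinearIndependent.of_comp f h

/-- the `b`-parts of an 8-generic sample are distinct. -/
theorem b_injective {K : Set k0} {d L : ℕ} {I : Type*} {x : I → Om KK K d L}
    (hx : LI KK vv 8 x) : Injective (fun i => (x i).1.b) := by
  intro i j hij
  by_contra hne
  have h := li_b hx {i, j} (by rw [card_pair hne]; norm_num)
  have := h.injective (a₁ := ⟨i, by simp⟩) (a₂ := ⟨j, by simp⟩) hij
  exact hne (congrArg Subtype.val this)

end Fin

end Crest.Agent.R042.Inst592
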