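import Crest.Agent.R042.RowWin_543

/-!
# The label space as a group and as a finite type (row 42, S0059)

`AddCommGroup ↥(SymForm k U)` is not found by instance search (`SymForm` is a submodule over the
`AddCommMonoid` of linear maps); this file fixes ONE instance, reducible to the monoid structure.
-/

set_option autoImplicit false

namespace Crest.Agent.R042.RowWin543

variable {k U : Type*} [Field k] [AddCommGroup U] [Module k U]

/-- the group of labels; its `toAddCommMonoid` is reducibly the submodule structure -/
instance symGroup : AddCommGroup ↥(SymForm k U) := Module.addCommMonoidToAddCommGroup k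

theorem sym_ext {f g : ↥(SymForm k U)} (h : ∀ x y, f.1 x y = g.1 x y) : f = g :=
  Subtype.ext (LinearMap.ext fun x => LinearMap.ext fun y => h x y)

@[simp] theorem sym_neg_apply (f : ↥(SymForm k U)) (x y : U) : (-f).1 x y = -f.1 x y := by
  show ((-1 : k) • f.1) x y = -f.1 x y
  rw [LinearMap.smul_apply, LinearMap.smul_apply, smul_eq_mul, neg_one_mul]

@[simp] theorem sym_sub_apply (f g : ↥(SymForm k U)) (x y : U) :
    (f - g).1 x y = f.1 x y - g.1 x y := by
  rw [sub_eq_add_neg, sub_eq_add_neg, ← sym_neg_apply]
  rfl

instance symFinite [Finite k] [Finite U] : Finite ↥(SymForm k U) :=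
  Finite.of_injective (fun f : ↥(SymForm k U) => (fun p : U × U => f.1 p.1 p.2 : U × U → k))
    fun _ _ h => sym_ext fun x y => congrFun h (x, y)

noncomputable instance symFintype [Finite k] [Finite U] : Fintype ↥(SymForm k U) :=
  Fintype.ofFinite _

end Crest.Agent.R042.RowWin543
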