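import Crest.Agent.R042.LocFam_958
import Crest.Agent.R042.SymInst_695
import Crest.Agent.R042.SpecFam_730

/-!
# Row 42 / S0059: one word quadruple per class, and the digits of `SpecFam_730`
-/

set_option autoImplicit false
set_option linter.unusedSectionVars false

namespace Crest.Agent.R042.LocFam958

open Finset Crest.Agent.R042.RowWin543 Crest.Agent.R042.Fam543

variable {k0 KK : Type} [Field k0] [Field KK] [Algebra k0 KK] {d kp L : ℕ}

section

variable [CharP KK 2]

/-- **one word quadruple per class**: if the existing digits `D b` (of the first pair) and `D' a`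
(of the second pair) are outside `K`, one word quadruple `w0` matches all existing digits of
`winX v + winY v'`, for all pairs of labels `v`, `v'` with these digits. -/
theorem live_class {ι : Type*} {K : Set k0} (hK : Alph K) {e : ℕ} (T : ι → Ty k0 KK d L)
    (hT : ∀ i, Valid K (T i)) (hrich : Rich380.RichF K (fun i => (T i).E))
    (p r : Bool → ι) (hPR : ∀ a b, Perp (T (p a)) (T (r b))) (D D' : Bool → k0)
    (hD : Perp (T (p false)) (T (p true)) → ∀ b, D b ∉ K)
    (hD' : Perp (T (r false)) (T (r true)) → ∀ a, D' a ∉ K) :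
    ∃ w ∈ W4 K (2 ^ e) kp (fun a => T (p a)) (fun b => T (r b)),
      ∀ v v' : VV k0 KK d kp L,
        (Perp (T (p false)) (T (p true)) →
          ∀ b, dlt (2 ^ e) kp (fun a => T (p a)) v (uvec (2 ^ e) kp (T (r b))) = D b) →
        (Perp (T (r false)) (T (r true)) →
          ∀ a, dlt (2 ^ e) kp (fun b => T (r b)) v' (uvec (2 ^ e) kp (T (p a))) = D' a) →
        ∀ t ∈ Dg e kp (fun a => T (p a)) (fun b => T (r b)) hPR,
          (winX (2 ^ e) kp (fun a => T (p a)) (fun b => T (r b)) v +
            winY (2 ^ e) kp (fun a => T (p a)) (fun b => T (r b)) v' - w) t = 0 := by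
  classical
  have h0 : (0 : k0) ∉ K := fun h => hK.ne_zero h rfl
  have hne : ∀ a b, p a ≠ r b := by
    intro a b h
    have := hPR a b
    rw [h] at this
    exact (hT (r b)).aniso this
  have hnotK : ∀ x : k0, x ∉ K → -x ∉ K := by
    intro x hx h
    exact hx (by simpa using hK.neg _ h)
  -- the four digits
  obtain ⟨F, hF, hF'⟩ : ∃ F : Bool → k0, (∀ b, F b ∉ K) ∧ (Perp (T (p false)) (T (p true)) →
      F = D) := by
    by_cases h : Perp (T (p false)) (T (p true))
    · exact ⟨D, hD h, fun _ => rfl⟩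
    · exact ⟨fun _ => 0, fun _ => h0, fun h' => absurd h' h⟩
  obtain ⟨G, hG, hG'⟩ : ∃ G : Bool → k0, (∀ b, G b ∉ K) ∧ (Perp (T (r false)) (T (r true)) →
      G = fun a => - D' a) := by
    by_cases h : Perp (T (r false)) (T (r true))
    · exact ⟨_, fun a => hnotK _ (hD' h a), fun _ => rfl⟩
    · exact ⟨fun _ => 0, fun _ => h0, fun h' => absurd h' h⟩
  obtain ⟨c, l, hc, e1, e2, e3, e4⟩ := Rich380.four_words (K := K) (fun i => (T i).E) hrich
    (fun i l => (hT i).E l) h0
    (fun a ha b hb => by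
      rw [div_eq_mul_inv]; exact hK.mul _ ha _ (hK.inv _ hb))
    (fun z hz => by
      obtain ⟨x, hx, y, hy, hxy⟩ := hK.complete z hz
      exact ⟨x, hx, -y, hK.neg _ hy, by rw [sub_neg_eq_add]; exact hxy⟩)
    (P := p false) (P' := p true) (Q := r false) (Q' := r true)
    (hne _ _) (hne _ _) (hne _ _) (hne _ _) (hF false) (hF true) (hG false) (hG true)
  let ix : Bool × Bool → Fin 4 := fun ab => bif ab.1 then (bif ab.2 then 3 else 2)
    else (bif ab.2 then 1 else 0)
  refine ⟨word (2 ^ e) kp (fun a => T (p a)) (fun b => T (r b)) (fun ab => c (ix ab))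
    (fun ab => l (ix ab)), ⟨_, _, fun ab => hc _, rfl⟩, ?_⟩
  intro v v' hv hv' t ht
  unfold Dg at ht
  refine Submodule.span_induction (p := fun t _ => (winX (2 ^ e) kp (fun a => T (p a))
    (fun b => T (r b)) v + winY (2 ^ e) kp (fun a => T (p a)) (fun b => T (r b)) v' -
    word (2 ^ e) kp (fun a => T (p a)) (fun b => T (r b)) (fun ab => c (ix ab))
      (fun ab => l (ix ab))) t = 0) ?_ ?_ ?_ ?_ ht
  · rintro t (⟨h, b, rfl⟩ | ⟨h, a, rfl⟩)
    · rw [LinearMap.sub_apply, LinearMap.add_apply, winX_digP, winY_digP,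
        word_digP hPR (K := K) (fun a => hT (p a)), hv h]
      have hFD := hF' h
      cases b
      · show _ + 0 - (c 0 * (T (p true)).E (l 0) - c 2 * (T (p false)).E (l 2)) = 0
        rw [e1, hFD]; ring
      · show _ + 0 - (c 1 * (T (p true)).E (l 1) - c 3 * (T (p false)).E (l 3)) = 0
        rw [e2, hFD]; ring
    · rw [LinearMap.sub_apply, LinearMap.add_apply, winX_digR, winY_digR,
        word_digR hPR (K := K) (fun a => hT (r a)), hv' h]
      have hGD := hG' h
      cases a
      · show 0 + _ - (c 0 * (T (r true)).E (l 0) - c 1 * (T (r false)).E (l 1)) = 0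
        rw [e3, hGD]; ring
      · show 0 + _ - (c 2 * (T (r true)).E (l 2) - c 3 * (T (r false)).E (l 3)) = 0
        rw [e4, hGD]; ring
  · exact map_zero _
  · intro x y _ _ hx hy
    rw [map_add, hx, hy, add_zero]
  · intro a x _ hx
    rw [map_smul, hx, smul_zero]

theorem digP_coe {e : ℕ} {P R : Bool → Ty k0 KK d L} (hPR : ∀ a b, Perp (P a) (R b))
    (h : Perp (P false) (P true)) (b : Bool) (w : Bool × Bool) :
    ((digP e kp P R hPR h b w : WW (2 ^ e) kp P R w) : U KK d kp L) =
      if w.2 = b then (if w.1 then -uvec (2 ^ e) kp (P false) else uvec (2 ^ e) kp (P true))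
      else 0 := by
  unfold digP one
  rcases w with ⟨a, b'⟩
  simp only [Pi.sub_apply]
  by_cases hb : b' = b
  · subst hb
    cases a
    · rw [Pi.single_eq_same, Pi.single_eq_of_ne (by simp)]
      simp
    · rw [Pi.single_eq_same, Pi.single_eq_of_ne (by simp)]
      simp
  · rw [Pi.single_eq_of_ne (by simp [hb]), Pi.single_eq_of_ne (by simp [hb])]
    simp [hb]

theorem digR_coe {e : ℕ} {P R : Bool → Ty k0 KK d L} (hPR : ∀ a b, Perp (P a) (R b))
    (h : Perp (R false) (R true)) (a : Bool) (w : Bool × Bool) :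
    ((digR e kp P R hPR h a w : WW (2 ^ e) kp P R w) : U KK d kp L) =
      if w.1 = a then (if w.2 then -uvec (2 ^ e) kp (R false) else uvec (2 ^ e) kp (R true))
      else 0 := by
  unfold digR one
  rcases w with ⟨a', b⟩
  simp only [Pi.sub_apply]
  by_cases hb : a' = a
  · subst hb
    cases b
    · rw [Pi.single_eq_same, Pi.single_eq_of_ne (by simp)]
      simp
    · rw [Pi.single_eq_same, Pi.single_eq_of_ne (by simp)]
      simp
  · rw [Pi.single_eq_of_ne (by simp [hb]), Pi.single_eq_of_ne (by simp [hb])]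
    simp [hb]

/-- the digits of `SpecFam_730` are the digits of `LocFam_958` -/
theorem span_le_Dg {e : ℕ} {P R : Bool → Ty k0 KK d L} (hPR : ∀ a b, Perp (P a) (R b)) :
    Submodule.span k0 (SpecFam730.DX (2 ^ e) kp P R ∪ SpecFam730.DY (2 ^ e) kp P R) ≤
      Dg e kp P R hPR := by
  rw [Submodule.span_le]
  rintro D (⟨h, i, hi⟩ | ⟨h, j, hj⟩)
  · refine Submodule.subset_span (Or.inr ⟨h, i, ?_⟩)
    funext w
    apply Subtype.ext
    rw [digR_coe, hi w]
  · refine Submodule.subset_span (Or.inl ⟨h, j, ?_⟩)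
    funext w
    apply Subtype.ext
    rw [digP_coe, hj w]

/-- **transversality**: the controlled functionals of the two sides have only the existing digits
in common -/
theorem nn_inf_le [Finite KK] {e m m' : ℕ} (hm : kp < m + m') (h1 : m ≤ kp) (h2 : m' ≤ kp)
    {P R : Bool → Ty k0 KK d L} (hPR : ∀ a b, Perp (P a) (R b)) (h : SpecFam730.Indep4 P R)
    (C C' : Submodule k0 (Module.Dual k0 (VV k0 KK d kp L)))
    (hC : NN (winX (2 ^ e) kp P R) C ≤ SpecFam730.CX (2 ^ e) m kp P R)
    (hC' : NN (winY (2 ^ e) kp P R) C' ≤ SpecFam730.CY (2 ^ e) m' kp P R) :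
    NN (winX (2 ^ e) kp P R) C ⊓ NN (winY (2 ^ e) kp P R) C' ≤ Dg e kp P R hPR := by
  refine (inf_le_inf hC hC').trans ?_
  rw [SpecFam730.CX_inf_CY e m m' kp hm h1 h2 P R h]
  exact span_le_Dg hPR

end

end Crest.Agent.R042.LocFam958
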