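import Crest.Agent.R042.ExFam_726
import Crest.Agent.R042.LocFam2_958

/-!
# Row 42, S0059: the controlled functionals of the four windows

`NN winX C ≤ CX` and `NN winY C' ≤ CY` when `C`, `C'` consist of special functionals
(letters of `LocFam_958` and `SpecFam_730`).
-/

set_option autoImplicit false
set_option linter.unusedSectionVars false

namespace Crest.Agent.R042.LocA726

open Crest.Agent.R042.Fam543 Crest.Agent.R042.Spec730 Crest.Agent.R042.RowWin543
open Crest.Agent.R042.Ctrl420 Crest.Agent.R042.ExFam726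
open Crest.Agent.R042.SpecFam730 (specU aop SX SY DX DY CX CY Indep4)
open Crest.Agent.R042.LocFam958 (VV lab lab_false lab_true lab_add lab_smul WW TT EE winX winY
  winX_apply winY_apply NN digP digR digP_coe digR_coe)

variable {k0 KK : Type} [Field k0] [Field KK] [Algebra k0 KK] {d kp L : ℕ}

/-- independence modulo the plane -/
theorem indep_aop3 (p p' q q' : Ix d → KK) (h : LinearIndependent KK ![p, p', q, q']) :
    LinearIndependent KK ![aop p p', q, q'] := by
  rw [Fintype.linearIndependent_iff] at h ⊢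
  intro g hg
  have h1 := h ![-(g 0 * B p p'), g 0, g 1, g 2] (by
    simp only [Fin.sum_univ_four, Fin.sum_univ_three, Matrix.cons_val_zero, Matrix.cons_val_one,
      Matrix.cons_val, aop] at hg ⊢
    rw [← hg]
    module)
  intro i
  fin_cases i
  · simpa using h1 1
  · simpa using h1 2
  · simpa using h1 3

theorem indepX (P R : Bool → Ty k0 KK d L) (h : Indep4 P R) (a : Bool) :
    LinearIndependent KK ![aop (P a).b (P (!a)).b, (R false).b, (R true).b] := by
  cases a
  · exact indep_aop3 _ _ _ _ h
  · refine indep_aop3 _ _ _ _ ?_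
    have := h.comp ![1, 0, 2, 3] (by decide)
    convert this using 1
    funext i
    fin_cases i <;> rfl

theorem indepY (P R : Bool → Ty k0 KK d L) (h : Indep4 P R) (b : Bool) :
    LinearIndependent KK ![aop (R b).b (R (!b)).b, (P false).b, (P true).b] := by
  cases b
  · refine indep_aop3 _ _ _ _ ?_
    have := h.comp ![2, 3, 0, 1] (by decide)
    convert this using 1
    funext i
    fin_cases i <;> rfl
  · refine indep_aop3 _ _ _ _ ?_
    have := h.comp ![3, 2, 0, 1] (by decide)
    convert this using 1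
    funext i
    fin_cases i <;> rfl

theorem pair_of_three {a b c : Ix d → KK} (h : LinearIndependent KK ![a, b, c]) :
    LinearIndependent KK ![a, c] := by
  have := h.comp ![0, 2] (by decide)
  convert this using 1
  funext i
  fin_cases i <;> rfl

/-- pairs of labels killed by all special functionals of the pair of types `P` -/
def VS (Q m : ℕ) (P : Bool → Ty k0 KK d L) : Submodule k0 (VV k0 KK d kp L) where
  carrier := {v | ∀ a x, ∀ t ∈ specU k0 Q m kp L (aop (P a).b (P (!a)).b), (lab v a).1 x t = 0}
  add_mem' := by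
    intro v w hv hw a x t ht
    rw [lab_add]
    show (lab v a).1 x t + (lab w a).1 x t = 0
    rw [hv a x t ht, hw a x t ht, add_zero]
  zero_mem' := by
    intro a x t _
    cases a <;> rfl
  smul_mem' := by
    intro c v hv a x t ht
    rw [lab_smul]
    show c • (lab v a).1 x t = 0
    rw [hv a x t ht, smul_zero]

theorem mem_VS {Q m : ℕ} {P : Bool → Ty k0 KK d L} {v : VV k0 KK d kp L} :
    v ∈ VS Q m P ↔
      ∀ a x, ∀ t ∈ specU k0 Q m kp L (aop (P a).b (P (!a)).b), (lab v a).1 x t = 0 := Iff.rfl

/-- one label -/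
def put (a : Bool) (f : Label k0 KK d kp L) : VV k0 KK d kp L := bif a then (0, f) else (f, 0)

theorem put_mem_VS {Q m : ℕ} {P : Bool → Ty k0 KK d L} (a : Bool) (f : Label k0 KK d kp L)
    (hf : ∀ x, ∀ t ∈ specU k0 Q m kp L (aop (P a).b (P (!a)).b), f.1 x t = 0) :
    put a f ∈ VS Q m P := by
  intro a' x t ht
  cases a <;> cases a'
  · exact hf x t ht
  · rfl
  · rfl
  · exact hf x t ht

theorem winX_put (Q : ℕ) (P R : Bool → Ty k0 KK d L) (a : Bool) (f : Label k0 KK d kp L)
    (t : TT Q kp P R) : winX Q kp P R (put a f) t =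
      f.1 (uvec Q kp (R false)) (t (a, false) : U KK d kp L) +
        f.1 (uvec Q kp (R true)) (t (a, true) : U KK d kp L) := by
  rw [winX_apply, Fintype.sum_prod_type, Fintype.sum_bool, Fintype.sum_bool, Fintype.sum_bool]
  cases a
  · show (0 + 0) + (f.1 _ _ + f.1 _ _) = _
    rw [add_zero, zero_add, add_comm]
  · show (f.1 _ _ + f.1 _ _) + (0 + 0) = _
    rw [add_zero, add_zero, add_comm]

theorem winY_put (Q : ℕ) (P R : Bool → Ty k0 KK d L) (b : Bool) (f : Label k0 KK d kp L)
    (t : TT Q kp P R) : winY Q kp P R (put b f) t =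
      -(f.1 (uvec Q kp (P false)) (t (false, b) : U KK d kp L) +
        f.1 (uvec Q kp (P true)) (t (true, b) : U KK d kp L)) := by
  rw [winY_apply, Fintype.sum_prod_type, Fintype.sum_bool, Fintype.sum_bool, Fintype.sum_bool]
  congr 1
  cases b
  · show (0 + f.1 _ _) + (0 + f.1 _ _) = _
    rw [zero_add, zero_add, add_comm]
  · show (f.1 _ _ + 0) + (f.1 _ _ + 0) = _
    rw [add_zero, add_zero, add_comm]

theorem lam_ne {K : Set k0} {R : Ty k0 KK d L} (h : Valid K R) : R.lam ≠ 0 := by
  intro h0
  have h1 := h.lam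
  rw [h0, map_zero] at h1
  exact zero_ne_one h1

theorem E_ne {K : Set k0} (hK : Alph K) (hL : 0 < L) {R : Ty k0 KK d L} (h : Valid K R) :
    ∃ l, R.E l ≠ 0 :=
  ⟨⟨0, hL⟩, fun h0 => hK.ne_zero (h.E _) h0⟩

variable [CharP KK 2] [Finite KK]

/-- **(a), side `X`** -/
theorem nnX_le {e m : ℕ} (hm : 2 ≤ m) (hkp : 0 < kp) {K : Set k0} (hK : Alph K) (hL : 0 < L)
    {P R : Bool → Ty k0 KK d L} (hR : ∀ b, Valid K (R b)) (hPR : ∀ a b, Perp (P a) (R b))
    (h : Indep4 P R) (C : Submodule k0 (Module.Dual k0 (VV k0 KK d kp L)))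
    (hC : C ≤ (VS (2 ^ e) m P).dualAnnihilator) :
    NN (winX (2 ^ e) kp P R) C ≤ CX (2 ^ e) m kp P R := by
  intro t ht
  have hfun : ∀ v ∈ VS (kp := kp) (2 ^ e) m P, winX (2 ^ e) kp P R v t = 0 := fun v hv =>
    (Submodule.mem_dualAnnihilator _).1 (hC ht) v hv
  have hα : ∀ a : Bool, ∃ α : k0,
      (t (a, false) : U KK d kp L) - α • uvec (2 ^ e) kp (R true) ∈
        specU k0 (2 ^ e) m kp L (aop (P a).b (P (!a)).b) ∧
      (t (a, true) : U KK d kp L) + α • uvec (2 ^ e) kp (R false) ∈
        specU k0 (2 ^ e) m kp L (aop (P a).b (P (!a)).b) := by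
    intro a
    refine ctrl _ _ _ _ _ (ind2_of e m (by omega) hkp (R false) (R true) _ (indepX P R h a)
      (E_ne hK hL (hR false)) (E_ne hK hL (hR true)) (lam_ne (hR false)) (lam_ne (hR true))) ?_
    intro f hf hker
    have := hfun (put a ⟨f, hf⟩) (put_mem_VS a _ hker)
    rwa [winX_put] at this
  choose α h1 h2 using hα
  by_cases hp : Perp (R false) (R true)
  · have hdec : t = (t - ∑ a, α a • digR e kp P R hPR hp a) +
        ∑ a, α a • digR e kp P R hPR hp a := by rw [sub_add_cancel]
    rw [hdec]
    refine Submodule.add_mem_sup ?_ ?_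
    · rw [Submodule.mem_pi]
      intro w _
      rw [SX, Submodule.mem_comap, Submodule.subtype_apply]
      have hval : (((t - ∑ a, α a • digR e kp P R hPR hp a) w : WW (2 ^ e) kp P R w) :
          U KK d kp L) = (t w : U KK d kp L) - α w.1 •
            (if w.2 then -uvec (2 ^ e) kp (R false) else uvec (2 ^ e) kp (R true)) := by
        rw [Pi.sub_apply, Submodule.coe_sub, Fintype.sum_bool, Pi.add_apply, Submodule.coe_add,
          Pi.smul_apply, Pi.smul_apply, Submodule.coe_smul, Submodule.coe_smul, digR_coe, digR_coe]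
        rcases w with ⟨a, b⟩
        cases a <;> simp
      rw [hval]
      rcases w with ⟨a, b⟩
      cases b
      · exact h1 a
      · have := h2 a
        simp only [if_true, smul_neg, sub_neg_eq_add]
        exact this
    · refine Submodule.sum_mem _ fun a _ => Submodule.smul_mem _ _ (Submodule.subset_span ?_)
      exact ⟨hp, a, fun w => digR_coe hPR hp a w⟩
  · have h0 : ∀ a, α a = 0 := by
      intro a
      by_contra hne
      exact hp (glue_perp e m hm hkp (R false) (R true) _ (pair_of_three (indepX P R h a))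
        (E_ne hK hL (hR true)) (lam_ne (hR true)) _ (Submodule.mem_inf.1 (t (a, false)).2).2
        (α a) hne (h1 a))
    refine Submodule.mem_sup_left ?_
    rw [Submodule.mem_pi]
    intro w _
    rw [SX, Submodule.mem_comap, Submodule.subtype_apply]
    rcases w with ⟨a, b⟩
    cases b
    · have := h1 a
      rwa [h0 a, zero_smul, sub_zero] at this
    · have := h2 a
      rwa [h0 a, zero_smul, add_zero] at this

/-- **(a), side `Y`** -/
theorem nnY_le {e m : ℕ} (hm : 2 ≤ m) (hkp : 0 < kp) {K : Set k0} (hK : Alph K) (hL : 0 < L)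
    {P R : Bool → Ty k0 KK d L} (hP : ∀ b, Valid K (P b)) (hPR : ∀ a b, Perp (P a) (R b))
    (h : Indep4 P R) (C : Submodule k0 (Module.Dual k0 (VV k0 KK d kp L)))
    (hC : C ≤ (VS (2 ^ e) m R).dualAnnihilator) :
    NN (winY (2 ^ e) kp P R) C ≤ CY (2 ^ e) m kp P R := by
  intro t ht
  have hfun : ∀ v ∈ VS (kp := kp) (2 ^ e) m R, winY (2 ^ e) kp P R v t = 0 := fun v hv =>
    (Submodule.mem_dualAnnihilator _).1 (hC ht) v hv
  have hα : ∀ b : Bool, ∃ α : k0,
      (t (false, b) : U KK d kp L) - α • uvec (2 ^ e) kp (P true) ∈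
        specU k0 (2 ^ e) m kp L (aop (R b).b (R (!b)).b) ∧
      (t (true, b) : U KK d kp L) + α • uvec (2 ^ e) kp (P false) ∈
        specU k0 (2 ^ e) m kp L (aop (R b).b (R (!b)).b) := by
    intro b
    refine ctrl _ _ _ _ _ (ind2_of e m (by omega) hkp (P false) (P true) _ (indepY P R h b)
      (E_ne hK hL (hP false)) (E_ne hK hL (hP true)) (lam_ne (hP false)) (lam_ne (hP true))) ?_
    intro f hf hker
    have := hfun (put b ⟨f, hf⟩) (put_mem_VS b _ hker)
    rw [winY_put] at this
    exact neg_eq_zero.1 this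
  choose α h1 h2 using hα
  by_cases hp : Perp (P false) (P true)
  · have hdec : t = (t - ∑ b, α b • digP e kp P R hPR hp b) +
        ∑ b, α b • digP e kp P R hPR hp b := by rw [sub_add_cancel]
    rw [hdec]
    refine Submodule.add_mem_sup ?_ ?_
    · rw [Submodule.mem_pi]
      intro w _
      rw [SY, Submodule.mem_comap, Submodule.subtype_apply]
      have hval : (((t - ∑ b, α b • digP e kp P R hPR hp b) w : WW (2 ^ e) kp P R w) :
          U KK d kp L) = (t w : U KK d kp L) - α w.2 •
            (if w.1 then -uvec (2 ^ e) kp (P false) else uvec (2 ^ e) kp (P true)) := by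
        rw [Pi.sub_apply, Submodule.coe_sub, Fintype.sum_bool, Pi.add_apply, Submodule.coe_add,
          Pi.smul_apply, Pi.smul_apply, Submodule.coe_smul, Submodule.coe_smul, digP_coe, digP_coe]
        rcases w with ⟨a, b⟩
        cases b <;> simp
      rw [hval]
      rcases w with ⟨a, b⟩
      cases a
      · exact h1 b
      · have := h2 b
        simp only [if_true, smul_neg, sub_neg_eq_add]
        exact this
    · refine Submodule.sum_mem _ fun b _ => Submodule.smul_mem _ _ (Submodule.subset_span ?_)
      exact ⟨hp, b, fun w => digP_coe hPR hp b w⟩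
  · have h0 : ∀ b, α b = 0 := by
      intro b
      by_contra hne
      exact hp (glue_perp e m hm hkp (P false) (P true) _ (pair_of_three (indepY P R h b))
        (E_ne hK hL (hP true)) (lam_ne (hP true)) _ (Submodule.mem_inf.1 (t (false, b)).2).1
        (α b) hne (h1 b))
    refine Submodule.mem_sup_left ?_
    rw [Submodule.mem_pi]
    intro w _
    rw [SY, Submodule.mem_comap, Submodule.subtype_apply]
    rcases w with ⟨a, b⟩
    cases a
    · have := h1 b
      rwa [h0 b, zero_smul, sub_zero] at this
    · have := h2 b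
      rwa [h0 b, zero_smul, add_zero] at this

end Crest.Agent.R042.LocA726
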