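import Crest.Agent.R042.Conf_921
import Crest.Agent.R042.KLsup_313

/-!
# The local conflict bound (row 42, S0059), abstract linear algebra form (helper767)

`X ∈ A`, `Y ∈ B` independent, `F : A → E`, `G : B → E` the window maps.  If the functionals of the
windows outside the special ones carry relative entropy `≤ ε`, the special ones `≤ D`, and the
common special functionals are constant on the support and equal to their value at the word `w0`,
then `P (F X + G Y = w0) ≥ 1 / (8 |E|)`.
-/

set_option autoImplicit false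
set_option linter.unusedSectionVars false

namespace Crest.Agent.R042.Loc767

open Finset Crest.Agent.R042.Conf921 Crest.Agent.R042.KLsup313

section Push

variable {A E : Type*} [AddCommGroup A] [Fintype A] [AddCommGroup E] [Fintype E]

open Classical in
/-- average over a coset as a filtered sum -/
lemma avg_filter (H : AddSubgroup E) (f : E → ℝ) (x : E) :
    avg H f x = (∑ y with y - x ∈ H, f y) / (Fintype.card H : ℝ) := by
  unfold avg
  congr 1
  refine Finset.sum_bij' (fun (h : H) _ => x + (h : E))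
    (fun y hy => (⟨y - x, (Finset.mem_filter.1 hy).2⟩ : H)) ?_ ?_ ?_ ?_ ?_
  · intro h _
    simp
  · intro y _; simp
  · intro h _
    ext; simp
  · intro y _; simp
  · intro h _; rfl

open Classical in
/-- law of the image -/
noncomputable def pm (F : A →+ E) (μ : A → ℝ) (e : E) : ℝ := ∑ x with F x = e, μ x

lemma pm_nonneg (F : A →+ E) {μ : A → ℝ} (hμ : ∀ x, 0 ≤ μ x) (e : E) : 0 ≤ pm F μ e :=
  Finset.sum_nonneg fun x _ => hμ x

open Classical in
lemma sum_pm_mul (F : A →+ E) (μ : A → ℝ) (g : E → ℝ) :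
    ∑ e, pm F μ e * g e = ∑ x, μ x * g (F x) := by
  unfold pm
  simp_rw [Finset.sum_filter, Finset.sum_mul]
  rw [Finset.sum_comm]
  refine Finset.sum_congr rfl fun x _ => ?_
  rw [Finset.sum_eq_single (F x)]
  · simp
  · intro e _ he
    rw [if_neg (fun h => he h.symm), zero_mul]
  · intro h; exact absurd (Finset.mem_univ _) h

lemma sum_pm (F : A →+ E) (μ : A → ℝ) : ∑ e, pm F μ e = ∑ x, μ x := by
  have := sum_pm_mul F μ (fun _ => 1)
  simpa using this

lemma card_range_pos (F : A →+ E) : (0 : ℝ) < (Nat.card F.range : ℝ) := by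
  exact_mod_cast Nat.card_pos

open Classical in
lemma card_comap (F : A →+ E) (H : AddSubgroup E) (hH : H ≤ F.range) :
    (Fintype.card (H.comap F) : ℝ) * (Nat.card F.range : ℝ) =
      (Fintype.card H : ℝ) * (Fintype.card A : ℝ) := by
  have hfib : ∀ e ∈ F.range, (#{x : A | F x = e}) = Fintype.card F.ker := by
    rintro e ⟨x0, rfl⟩
    rw [← Fintype.card_coe]
    refine Fintype.card_congr ⟨fun x => ⟨x.1 - x0, ?_⟩, fun y => ⟨y.1 + x0, ?_⟩, ?_, ?_⟩
    · have := (Finset.mem_filter.1 x.2).2
      rw [AddMonoidHom.mem_ker, map_sub, this, sub_self]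
    · rw [Finset.mem_filter]
      refine ⟨Finset.mem_univ _, ?_⟩
      rw [map_add, (AddMonoidHom.mem_ker).1 y.2, zero_add]
    · intro x; ext; simp
    · intro y; ext; simp
  have h1 : Fintype.card (H.comap F) = Fintype.card H * Fintype.card F.ker := by
    have e1 : Fintype.card (H.comap F) = #{x : A | F x ∈ H} := by
      rw [Fintype.card_subtype]
      rfl
    rw [e1]
    have e2 : (#{x : A | F x ∈ H}) = ∑ e ∈ univ.filter (fun e : E => e ∈ H), #{x : A | F x = e} := by
      rw [← Finset.card_biUnion]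
      · congr 1
        ext x
        simp
      · intro a _ b _ hab
        rw [Function.onFun, Finset.disjoint_left]
        intro x hx hx'
        rw [Finset.mem_filter] at hx hx'
        exact hab (hx.2.symm.trans hx'.2)
    rw [e2, Finset.sum_congr rfl (fun e he => hfib e (hH (Finset.mem_filter.1 he).2)),
      Finset.sum_const, smul_eq_mul]
    congr 1
    exact (Fintype.card_subtype (fun e => e ∈ H)).symm
  have h2 : Fintype.card A = Nat.card F.range * Fintype.card F.ker := by
    have e2 : Fintype.card A = ∑ e ∈ univ.filter (fun e : E => e ∈ F.range), #{x : A | F x = e} := by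
      rw [← Finset.card_biUnion, ← Finset.card_univ]
      · congr 1
        ext x
        simp
      · intro a _ b _ hab
        rw [Function.onFun, Finset.disjoint_left]
        intro x hx hx'
        rw [Finset.mem_filter] at hx hx'
        exact hab (hx.2.symm.trans hx'.2)
    rw [e2, Finset.sum_congr rfl (fun e he => hfib e (Finset.mem_filter.1 he).2),
      Finset.sum_const, smul_eq_mul]
    congr 1
    rw [Nat.card_eq_fintype_card]
    exact (Fintype.card_subtype (fun e => e ∈ F.range)).symm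
  rw [h1, h2]
  push_cast
  ring

open Classical in
/-- densities of the image law -/
lemma dens_pm (F : A →+ E) (μ : A → ℝ) (H : AddSubgroup E) (hH : H ≤ F.range) (x : A) :
    (Fintype.card E : ℝ) * avg H (pm F μ) (F x) =
      ((Fintype.card E : ℝ) / (Nat.card F.range : ℝ)) *
        ((Fintype.card A : ℝ) * avg (H.comap F) μ x) := by
  have e1 : ∑ y with y - F x ∈ H, pm F μ y = ∑ y with y - x ∈ H.comap F, μ y := by
    have h := sum_pm_mul F μ (fun y => if y - F x ∈ H then 1 else 0)
    simp only [mul_ite, mul_one, mul_zero] at h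
    rw [← Finset.sum_filter, ← Finset.sum_filter] at h
    rw [h]
    refine Finset.sum_congr ?_ fun _ _ => rfl
    ext y
    simp [AddSubgroup.mem_comap]
  rw [avg_filter, avg_filter, e1]
  have c := card_comap F H hH
  have p1 : (0 : ℝ) < (Fintype.card H : ℝ) := card_pos' H
  have p2 : (0 : ℝ) < (Fintype.card (H.comap F) : ℝ) := card_pos' (H.comap F)
  have p3 : (0 : ℝ) < (Nat.card F.range : ℝ) := card_range_pos F
  field_simp
  linear_combination (∑ y with y - x ∈ H.comap F, μ y) * c

open Classical in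
/-- relative entropy of the image law -/
theorem KLm_pm (F : A →+ E) (μ : A → ℝ) (hμ : ∀ x, 0 ≤ μ x) (sμ : ∑ x, μ x = 1)
    (H : AddSubgroup E) (hH : H ≤ F.range) :
    KLm H (pm F μ) = KLm (H.comap F) μ +
      Real.log ((Fintype.card E : ℝ) / (Nat.card F.range : ℝ)) := by
  rw [KLm_eq, KLm_eq, sum_pm_mul F μ (fun e => Real.log ((Fintype.card E : ℝ) * avg H (pm F μ) e))]
  have h : ∀ x, μ x * Real.log ((Fintype.card E : ℝ) * avg H (pm F μ) (F x)) =
      μ x * Real.log ((Fintype.card A : ℝ) * avg (H.comap F) μ x) +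
      μ x * Real.log ((Fintype.card E : ℝ) / (Nat.card F.range : ℝ)) := by
    intro x
    rcases (hμ x).eq_or_lt with h | h
    · rw [← h]; simp
    · have a1 := avg_pos_of_pos (H.comap F) μ hμ x h
      have p3 : (0 : ℝ) < (Nat.card F.range : ℝ) := card_range_pos F
      have p4 := cardE_pos (E := E)
      have p5 := cardE_pos (E := A)
      rw [dens_pm F μ H hH x, Real.log_mul (by positivity) (by positivity)]
      ring
  rw [Finset.sum_congr rfl fun x _ => h x, Finset.sum_add_distrib, ← Finset.sum_mul, sμ, one_mul]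

end Push

section Dens

variable {E : Type*} [AddCommGroup E] [Fintype E]

/-- `7 (t log t - t + 1) ≥ 1` for `t < 1/2`, homogeneous form -/
lemma ent_half {m a : ℝ} (hm : 0 ≤ m) (ha : 0 < a) (h : m < a / 2) :
    a / 7 ≤ m * (Real.log m - Real.log a) - m + a := by
  rcases hm.eq_or_lt with h0 | h0
  · rw [← h0]; simp; linarith
  · have h1 : Real.log (a / 2 / m) ≤ a / 2 / m - 1 := Real.log_le_sub_one_of_pos (by positivity)
    have h2 : m * Real.log (a / 2 / m) ≤ a / 2 - m := by
      calc m * Real.log (a / 2 / m) ≤ m * (a / 2 / m - 1) := mul_le_mul_of_nonneg_left h1 h0.le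
        _ = a / 2 - m := by field_simp
    have h3 : Real.log (a / 2 / m) = Real.log a - Real.log 2 - Real.log m := by
      rw [Real.log_div (by positivity) h0.ne', Real.log_div ha.ne' (by norm_num)]
    rw [h3] at h2
    have h4 : Real.log 2 < 0.6931471808 := Real.log_two_lt_d9
    have h5 : 0 < Real.log 2 := Real.log_pos (by norm_num)
    have h6 : m * Real.log 2 ≤ a / 2 * 0.6931471808 := by
      refine mul_le_mul h.le h4.le h5.le (by positivity)
    nlinarith

lemma ent_nonneg {m a : ℝ} (hm : 0 ≤ m) (ha : 0 < a) :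
    0 ≤ m * (Real.log m - Real.log a) - m + a := by
  rcases hm.eq_or_lt with h0 | h0
  · rw [← h0]; simp; linarith
  · have h1 : Real.log (a / m) ≤ a / m - 1 := Real.log_le_sub_one_of_pos (by positivity)
    have h2 : m * Real.log (a / m) ≤ a - m := by
      calc m * Real.log (a / m) ≤ m * (a / m - 1) := mul_le_mul_of_nonneg_left h1 h0.le
        _ = a - m := by field_simp
    rw [Real.log_div ha.ne' h0.ne'] at h2
    linarith

open Classical in
/-- the mass where the law is below half its coset average -/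
theorem half_mass (H : AddSubgroup E) (μ : E → ℝ) (hμ : ∀ x, 0 ≤ μ x) :
    ∑ x with μ x < avg H μ x / 2, avg H μ x ≤ 7 * (KLm ⊥ μ - KLm H μ) := by
  have hN := cardE_pos (E := E)
  set a : E → ℝ := avg H μ with ha
  have ha0 : ∀ x, 0 ≤ a x := avg_nonneg H hμ
  have e1 : KLm ⊥ μ - KLm H μ = ∑ x, (μ x * (Real.log (μ x) - Real.log (a x)) - μ x + a x) := by
    rw [KLm_eq, KLm_eq, ← Finset.sum_sub_distrib]
    have h2 : ∑ x, (μ x * (Real.log (μ x) - Real.log (a x)) - μ x + a x) =
        ∑ x, (μ x * (Real.log (μ x) - Real.log (a x))) := by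
      simp only [Finset.sum_add_distrib, Finset.sum_sub_distrib]
      have : ∑ x, a x = ∑ x, μ x := sum_avg H μ
      rw [this]; ring
    rw [h2]
    refine Finset.sum_congr rfl fun x _ => ?_
    rcases (hμ x).eq_or_lt with h | h
    · rw [← h]; simp
    · have a1 : 0 < a x := avg_pos_of_pos H μ hμ x h
      rw [avg_bot, Real.log_mul hN.ne' h.ne', Real.log_mul hN.ne' a1.ne']
      ring
  rw [e1]
  have h3 : ∀ x, 0 ≤ μ x * (Real.log (μ x) - Real.log (a x)) - μ x + a x := by
    intro x
    rcases (ha0 x).eq_or_lt with h | h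
    · have hm : μ x = 0 := by
        by_contra hne
        have := avg_pos_of_pos H μ hμ x (lt_of_le_of_ne (hμ x) (Ne.symm hne))
        rw [← ha] at this
        linarith
      rw [hm, ← h]; simp
    · exact ent_nonneg (hμ x) h
  have h4 : ∑ x with μ x < a x / 2, a x ≤
      ∑ x with μ x < a x / 2, 7 * (μ x * (Real.log (μ x) - Real.log (a x)) - μ x + a x) := by
    refine Finset.sum_le_sum fun x hx => ?_
    have hx2 := (Finset.mem_filter.1 hx).2
    have hapos : 0 < a x := by
      have := hμ x
      linarith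
    have := ent_half (hμ x) hapos hx2
    linarith
  refine h4.trans ?_
  rw [Finset.mul_sum]
  exact Finset.sum_le_sum_of_subset_of_nonneg (Finset.filter_subset _ _)
    (fun x _ _ => mul_nonneg (by norm_num) (h3 x))

open Classical in
/-- Markov for the log-density of the coset average -/
theorem log_markov (H : AddSubgroup E) (μ : E → ℝ) (hμ : ∀ x, 0 ≤ μ x)
    {t : ℝ} (ht : 0 < t) :
    ∑ x with Real.exp t < avg H μ x * (Fintype.card E : ℝ), μ x ≤ (KLm H μ + 1) / t := by
  have hN := cardE_pos (E := E)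
  set N : ℝ := (Fintype.card E : ℝ) with hNdef
  set a : E → ℝ := avg H μ with ha
  have ha0 : ∀ x, 0 ≤ a x := avg_nonneg H hμ
  rw [le_div_iff₀ ht, Finset.sum_mul]
  -- pointwise: `μ x * t * 1[..] ≤ μ x * log (N a) + μ x * neg part`
  set g : E → ℝ := fun x => max 0 (-Real.log (N * a x)) with hg
  have hgi : ∀ x, ∀ h ∈ H, g (x + h) = g x := by
    intro x h hh
    simp only [hg, ha, avg_add H μ x hh]
  have hneg : ∑ x, μ x * g x ≤ 1 := by
    rw [← sum_avg_mul H μ g hgi]
    have h1 : ∀ x, a x * g x ≤ 1 / N := by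
      intro x
      simp only [hg]
      rcases (ha0 x).eq_or_lt with h | h
      · rw [← h]; simp; positivity
      · rcases le_total 0 (-Real.log (N * a x)) with h2 | h2
        · rw [max_eq_right h2]
          have h3 : Real.log (1 / (N * a x)) ≤ 1 / (N * a x) - 1 :=
            Real.log_le_sub_one_of_pos (by positivity)
          rw [one_div, Real.log_inv] at h3
          have h4 : a x * -Real.log (N * a x) ≤ a x * ((N * a x)⁻¹ - 1) :=
            mul_le_mul_of_nonneg_left h3 h.le
          refine h4.trans ?_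
          have : a x * ((N * a x)⁻¹ - 1) = 1 / N - a x := by field_simp
          rw [this]; linarith
        · rw [max_eq_left h2, mul_zero]; positivity
    calc ∑ x, a x * g x ≤ ∑ _x : E, 1 / N := Finset.sum_le_sum fun x _ => h1 x
      _ = 1 := by
        rw [Finset.sum_const, Finset.card_univ, nsmul_eq_mul]
        field_simp
        rw [hNdef]
  have hpt : ∀ x, (if Real.exp t < a x * N then μ x * t else 0) ≤
      μ x * Real.log (N * a x) + μ x * g x := by
    intro x
    have h1 : 0 ≤ Real.log (N * a x) + g x := by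
      simp only [hg]
      have := le_max_right 0 (-Real.log (N * a x))
      linarith
    split_ifs with h
    · have h2 : t < Real.log (N * a x) := by
        rw [Real.lt_log_iff_exp_lt (by
          have := Real.exp_pos t
          nlinarith [this, mul_comm (a x) N])]
        rwa [mul_comm]
      have h3 : 0 ≤ g x := le_max_left _ _
      have := hμ x
      nlinarith
    · have := hμ x
      nlinarith
  have hsum := Finset.sum_le_sum (fun x (_ : x ∈ (univ : Finset E)) => hpt x)
  rw [Finset.sum_add_distrib, ← Finset.sum_filter] at hsum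
  have h5 : ∑ x, μ x * Real.log (N * a x) = KLm H μ := (KLm_eq H μ).symm
  rw [h5] at hsum
  linarith

end Dens

section Main

variable {k : Type*} [Field k]
variable {A E : Type*} [AddCommGroup A] [Module k A] [Fintype A]
  [AddCommGroup E] [Module k E] [Fintype E]

/-- the functionals of `E` whose pullback is special -/
def pull (F : A →ₗ[k] E) (CX : Submodule k (Module.Dual k A)) : Submodule k (Module.Dual k E) :=
  CX.comap F.dualMap

theorem mem_pull {F : A →ₗ[k] E} {CX : Submodule k (Module.Dual k A)} {φ : Module.Dual k E} :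
    φ ∈ pull F CX ↔ φ ∘ₗ F ∈ CX := Iff.rfl

/-- the common kernel -/
def EX (F : A →ₗ[k] E) (CX : Submodule k (Module.Dual k A)) : Submodule k E :=
  (pull F CX).dualCoannihilator

theorem EX_le (F : A →ₗ[k] E) (CX : Submodule k (Module.Dual k A)) :
    EX F CX ≤ LinearMap.range F := by
  have : FiniteDimensional k E := inferInstance
  have h1 : LinearMap.ker F.dualMap ≤ pull F CX := by
    intro φ hφ
    rw [mem_pull]
    have : F.dualMap φ = 0 := hφ
    have h2 : φ ∘ₗ F = 0 := this
    rw [h2]
    exact CX.zero_mem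
  have h3 := Submodule.dualCoannihilator_anti h1
  rw [LinearMap.ker_dualMap_eq_dualAnnihilator_range,
    Subspace.dualAnnihilator_dualCoannihilator_eq] at h3
  exact h3

theorem comap_EX (F : A →ₗ[k] E) (CX : Submodule k (Module.Dual k A)) :
    (EX F CX).comap F = (LinearMap.range F.dualMap ⊓ CX).dualCoannihilator := by
  ext x
  rw [Submodule.mem_comap, EX, Submodule.mem_dualCoannihilator, Submodule.mem_dualCoannihilator]
  constructor
  · rintro h ψ ⟨⟨φ, rfl⟩, hψ⟩
    exact h φ hψ
  · intro h φ hφ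
    exact h (F.dualMap φ) ⟨⟨φ, rfl⟩, hφ⟩

theorem comap_bot (F : A →ₗ[k] E) :
    (⊥ : Submodule k E).comap F = (LinearMap.range F.dualMap).dualCoannihilator := by
  have : FiniteDimensional k E := inferInstance
  ext x
  rw [Submodule.mem_comap, Submodule.mem_bot, Submodule.mem_dualCoannihilator]
  constructor
  · rintro h ψ ⟨φ, rfl⟩
    show φ (F x) = 0
    rw [h, map_zero]
  · intro h
    rw [← Module.forall_dual_apply_eq_zero_iff k]
    intro φ
    exact h (F.dualMap φ) ⟨φ, rfl⟩

/-- comap of additive subgroups -/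
theorem toAdd_comap (F : A →ₗ[k] E) (S : Submodule k E) :
    (S.comap F).toAddSubgroup = S.toAddSubgroup.comap F.toAddMonoidHom := rfl

open Classical in
theorem KLm_EX (F : A →ₗ[k] E) (CX : Submodule k (Module.Dual k A)) (μ : A → ℝ)
    (hμ : ∀ x, 0 ≤ μ x) (sμ : ∑ x, μ x = 1) :
    KLm (EX F CX).toAddSubgroup (pm F.toAddMonoidHom μ) =
      kl k μ (LinearMap.range F.dualMap ⊓ CX) +
        Real.log ((Fintype.card E : ℝ) / (Nat.card F.toAddMonoidHom.range : ℝ)) := by
  rw [KLm_pm F.toAddMonoidHom μ hμ sμ (EX F CX).toAddSubgroup, ← toAdd_comap, comap_EX]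
  · rfl
  · intro e he
    obtain ⟨x, hx⟩ := EX_le F CX he
    exact ⟨x, hx⟩

open Classical in
theorem KLm_bot_push (F : A →ₗ[k] E) (μ : A → ℝ)
    (hμ : ∀ x, 0 ≤ μ x) (sμ : ∑ x, μ x = 1) :
    KLm ⊥ (pm F.toAddMonoidHom μ) =
      kl k μ (LinearMap.range F.dualMap) +
        Real.log ((Fintype.card E : ℝ) / (Nat.card F.toAddMonoidHom.range : ℝ)) := by
  rw [KLm_pm F.toAddMonoidHom μ hμ sμ ⊥ bot_le]
  have : (⊥ : AddSubgroup E).comap F.toAddMonoidHom =
      (LinearMap.range F.dualMap).dualCoannihilator.toAddSubgroup := by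
    rw [← comap_bot]; rfl
  rw [this]; rfl

/-- bounds for the image law: half mass -/
theorem push_half (F : A →ₗ[k] E) (CX : Submodule k (Module.Dual k A)) (μ : A → ℝ)
    (hμ : ∀ x, 0 ≤ μ x) (sμ : ∑ x, μ x = 1) (ε : ℝ)
    (h1 : kl k μ (LinearMap.range F.dualMap ⊔ CX) ≤ kl k μ CX + ε) :
    ∑ x with pm F.toAddMonoidHom μ x < avg (EX F CX).toAddSubgroup (pm F.toAddMonoidHom μ) x / 2,
      avg (EX F CX).toAddSubgroup (pm F.toAddMonoidHom μ) x ≤ 7 * ε := by
  classical
  refine (half_mass _ _ (pm_nonneg _ hμ)).trans ?_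
  rw [KLm_EX F CX μ hμ sμ, KLm_bot_push F μ hμ sμ]
  have := kl_supermod μ hμ sμ (LinearMap.range F.dualMap) CX
  linarith

open Classical in
/-- bounds for the image law: large density -/
theorem push_dens (F : A →ₗ[k] E) (CX : Submodule k (Module.Dual k A)) (μ : A → ℝ)
    (hμ : ∀ x, 0 ≤ μ x) (sμ : ∑ x, μ x = 1) (D I : ℝ)
    (h2 : kl k μ (LinearMap.range F.dualMap ⊓ CX) ≤ D)
    (hI : (Fintype.card E : ℝ) ≤ I * (Nat.card (LinearMap.range F) : ℝ))
    (hDI : 0 < D + Real.log I + 1) :
    ∑ x with Real.exp (8 * (D + Real.log I + 1)) <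
        avg (EX F CX).toAddSubgroup (pm F.toAddMonoidHom μ) x * (Fintype.card E : ℝ),
      pm F.toAddMonoidHom μ x ≤ 1 / 8 := by
  have hN := cardE_pos (E := E)
  have hR : (0 : ℝ) < (Nat.card F.toAddMonoidHom.range : ℝ) := card_range_pos _
  have hcard : (Nat.card F.toAddMonoidHom.range : ℝ) = (Nat.card (LinearMap.range F) : ℝ) := rfl
  refine (log_markov _ _ (pm_nonneg _ hμ) (by positivity)).trans ?_
  rw [KLm_EX F CX μ hμ sμ, div_le_div_iff₀ (by positivity) (by norm_num)]
  have h3 : Real.log ((Fintype.card E : ℝ) / (Nat.card F.toAddMonoidHom.range : ℝ)) ≤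
      Real.log I := by
    refine Real.log_le_log (by positivity) ?_
    rw [div_le_iff₀ hR, hcard]
    exact hI
  linarith

variable {B : Type*} [AddCommGroup B] [Module k B] [Fintype B]

open Classical in
/-- **the local conflict bound**, core form: the bounds `hkX hkY hηX hηY` of `conf` for the window
laws are given (from KL: `push_half`, `push_dens`; from total variation: Plan B). -/
theorem loc_core (F : A →ₗ[k] E) (G : B →ₗ[k] E) (μ : A → ℝ) (ν : B → ℝ)
    (hμ : ∀ x, 0 ≤ μ x) (sμ : ∑ x, μ x = 1) (hν : ∀ y, 0 ≤ ν y) (sν : ∑ y, ν y = 1)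
    (CX : Submodule k (Module.Dual k A)) (CY : Submodule k (Module.Dual k B)) (K η kX kY : ℝ)
    (hK : 0 ≤ K)
    (hkX : ∑ x with pm F.toAddMonoidHom μ x <
        avg (EX F CX).toAddSubgroup (pm F.toAddMonoidHom μ) x / 2,
      avg (EX F CX).toAddSubgroup (pm F.toAddMonoidHom μ) x ≤ kX)
    (hkY : ∑ x with pm G.toAddMonoidHom ν x <
        avg (EX G CY).toAddSubgroup (pm G.toAddMonoidHom ν) x / 2,
      avg (EX G CY).toAddSubgroup (pm G.toAddMonoidHom ν) x ≤ kY)
    (hηX : ∑ x with K < avg (EX F CX).toAddSubgroup (pm F.toAddMonoidHom μ) x *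
        (Fintype.card E : ℝ), pm F.toAddMonoidHom μ x ≤ η)
    (hηY : ∑ x with K < avg (EX G CY).toAddSubgroup (pm G.toAddMonoidHom ν) x *
        (Fintype.card E : ℝ), pm G.toAddMonoidHom ν x ≤ η)
    (w0 : E)
    (hdig : ∀ φ : Module.Dual k E, φ ∘ₗ F ∈ CX → φ ∘ₗ G ∈ CY → ∀ x y, μ x ≠ 0 → ν y ≠ 0 →
      φ (F x + G y) = φ w0) :
    1 / (4 * (Fintype.card E : ℝ)) * ((1 - 2 * η) - K * (kX + kY)) ≤
      ∑ x, ∑ y, if F x + G y = w0 then μ x * ν y else 0 := by
  have hN := cardE_pos (E := E)
  have : FiniteDimensional k E := inferInstance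
  set p : E → ℝ := pm F.toAddMonoidHom μ with hp
  set r : E → ℝ := pm G.toAddMonoidHom ν with hr
  have hsup : (EX F CX).toAddSubgroup ⊔ (EX G CY).toAddSubgroup =
      (pull F CX ⊓ pull G CY).dualCoannihilator.toAddSubgroup := by
    rw [← toAddSubgroup_sup']
    congr 1
    have a1 : pull F CX = (EX F CX).dualAnnihilator :=
      (Subspace.dualCoannihilator_dualAnnihilator_eq (W := pull F CX)).symm
    have a2 : pull G CY = (EX G CY).dualAnnihilator :=
      (Subspace.dualCoannihilator_dualAnnihilator_eq (W := pull G CY)).symm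
    conv_rhs => rw [a1, a2]
    rw [← Submodule.dualAnnihilator_sup_eq]
    exact Subspace.dualAnnihilator_dualCoannihilator_eq.symm
  have hlive : ∀ x y, p x ≠ 0 → r y ≠ 0 →
      Live (EX F CX).toAddSubgroup (EX G CY).toAddSubgroup {w0} 1 (x + y) := by
    intro x y hx hy
    obtain ⟨a, ha1, ha2⟩ : ∃ a, F a = x ∧ μ a ≠ 0 := by
      by_contra hcon
      push Not at hcon
      refine hx (Finset.sum_eq_zero fun a ha => ?_)
      exact hcon a (Finset.mem_filter.1 ha).2
    obtain ⟨b, hb1, hb2⟩ : ∃ b, G b = y ∧ ν b ≠ 0 := by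
      by_contra hcon
      push Not at hcon
      refine hy (Finset.sum_eq_zero fun b hb => ?_)
      exact hcon b (Finset.mem_filter.1 hb).2
    have hmem : x + y - w0 ∈ (EX F CX).toAddSubgroup ⊔ (EX G CY).toAddSubgroup := by
      rw [hsup]
      show x + y - w0 ∈ (pull F CX ⊓ pull G CY).dualCoannihilator
      rw [Submodule.mem_dualCoannihilator]
      rintro φ ⟨h1, h2⟩
      have := hdig φ h1 h2 a b ha2 hb2
      rw [ha1, hb1] at this
      rw [map_sub, this, sub_self]
    unfold Live
    have h1 : (Finset.filter (fun w => x + y - w ∈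
        (EX F CX).toAddSubgroup ⊔ (EX G CY).toAddSubgroup) {w0}) = {w0} := by
      rw [Finset.filter_eq_self]
      intro w hw
      rw [Finset.mem_singleton.1 hw]
      exact hmem
    rw [h1, Finset.card_singleton]
    push_cast
    rw [one_mul, one_mul, one_mul]
    have := Fintype.card_le_of_injective
      (fun z : ((EX F CX).toAddSubgroup ⊔ (EX G CY).toAddSubgroup : AddSubgroup E) => (z : E))
      Subtype.val_injective
    exact_mod_cast this
  have hlam : (1 : ℝ) ≤ ∑ x, ∑ y with
      Live (EX F CX).toAddSubgroup (EX G CY).toAddSubgroup {w0} 1 (x + y), p x * r y := by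
    have e1 : ∑ x, ∑ y with
        Live (EX F CX).toAddSubgroup (EX G CY).toAddSubgroup {w0} 1 (x + y), p x * r y =
        ∑ x, ∑ y, p x * r y := by
      refine Finset.sum_congr rfl fun x _ => ?_
      rw [Finset.sum_filter]
      refine Finset.sum_congr rfl fun y _ => ?_
      split_ifs with h
      · rfl
      · by_contra hne
        have hne' : p x * r y ≠ 0 := fun h0 => hne h0.symm
        exact h (hlive x y (left_ne_zero_of_mul hne') (right_ne_zero_of_mul hne'))
    rw [e1, ← Finset.sum_mul_sum, hp, hr, sum_pm, sum_pm, sμ, sν, one_mul]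
  have hconf := conf (EX F CX).toAddSubgroup (EX G CY).toAddSubgroup p r
    (pm_nonneg _ hμ) (pm_nonneg _ hν) ((sum_pm _ μ).trans sμ) ((sum_pm _ ν).trans sν) {w0}
    K η kX kY 1 1 hK zero_le_one hkX hkY hηX hηY hlam
  have e2 : ∑ x, ∑ y with x + y ∈ ({w0} : Finset E), p x * r y =
      ∑ x, ∑ y, if F x + G y = w0 then μ x * ν y else 0 := by
    have s1 : ∀ x, ∑ y with x + y ∈ ({w0} : Finset E), p x * r y =
        p x * ∑ y, r y * (if x + y = w0 then 1 else 0) := by
      intro x
      rw [Finset.sum_filter, Finset.mul_sum]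
      refine Finset.sum_congr rfl fun y _ => ?_
      simp only [Finset.mem_singleton]
      split_ifs <;> simp
    rw [Finset.sum_congr rfl fun x _ => s1 x,
      hp, sum_pm_mul F.toAddMonoidHom μ (fun x => ∑ y, r y * (if x + y = w0 then 1 else 0))]
    refine Finset.sum_congr rfl fun x _ => ?_
    rw [hr, sum_pm_mul G.toAddMonoidHom ν (fun y => if F.toAddMonoidHom x + y = w0 then 1 else 0),
      Finset.mul_sum]
    refine Finset.sum_congr rfl fun y _ => ?_
    have : (F.toAddMonoidHom x + G.toAddMonoidHom y = w0) ↔ (F x + G y = w0) := Iff.rfl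
    by_cases hc : F x + G y = w0
    · rw [if_pos hc, if_pos (this.2 hc), mul_one]
    · rw [if_neg hc, if_neg (fun h => hc (this.1 h)), mul_zero, mul_zero]
  rw [e2] at hconf
  refine le_trans (le_of_eq ?_) hconf
  rw [Finset.card_singleton]
  push_cast
  ring

open Classical in
/-- **the local conflict bound**, KL form -/
theorem loc (F : A →ₗ[k] E) (G : B →ₗ[k] E) (μ : A → ℝ) (ν : B → ℝ)
    (hμ : ∀ x, 0 ≤ μ x) (sμ : ∑ x, μ x = 1) (hν : ∀ y, 0 ≤ ν y) (sν : ∑ y, ν y = 1)
    (CX : Submodule k (Module.Dual k A)) (CY : Submodule k (Module.Dual k B)) (ε D I : ℝ)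
    (hX1 : kl k μ (LinearMap.range F.dualMap ⊔ CX) ≤ kl k μ CX + ε)
    (hX2 : kl k μ (LinearMap.range F.dualMap ⊓ CX) ≤ D)
    (hXI : (Fintype.card E : ℝ) ≤ I * (Nat.card (LinearMap.range F) : ℝ))
    (hY1 : kl k ν (LinearMap.range G.dualMap ⊔ CY) ≤ kl k ν CY + ε)
    (hY2 : kl k ν (LinearMap.range G.dualMap ⊓ CY) ≤ D)
    (hYI : (Fintype.card E : ℝ) ≤ I * (Nat.card (LinearMap.range G) : ℝ))
    (w0 : E)
    (hdig : ∀ φ : Module.Dual k E, φ ∘ₗ F ∈ CX → φ ∘ₗ G ∈ CY → ∀ x y, μ x ≠ 0 → ν y ≠ 0 →
      φ (F x + G y) = φ w0)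
    (hDI : 0 < D + Real.log I + 1)
    (hnum : 56 * Real.exp (8 * (D + Real.log I + 1)) * ε ≤ 1) :
    1 / (8 * (Fintype.card E : ℝ)) ≤
      ∑ x, ∑ y, if F x + G y = w0 then μ x * ν y else 0 := by
  have hN := cardE_pos (E := E)
  have hcore := loc_core F G μ ν hμ sμ hν sν CX CY
    (Real.exp (8 * (D + Real.log I + 1))) (1 / 8) (7 * ε) (7 * ε) (Real.exp_pos _).le
    (push_half F CX μ hμ sμ ε hX1) (push_half G CY ν hν sν ε hY1)
    (push_dens F CX μ hμ sμ D I hX2 hXI hDI) (push_dens G CY ν hν sν D I hY2 hYI hDI) w0 hdig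
  refine le_trans ?_ hcore
  have h14 : Real.exp (8 * (D + Real.log I + 1)) * (7 * ε + 7 * ε) ≤ 1 / 4 := by
    nlinarith [hnum]
  have h15 : (1 : ℝ) / 2 ≤ (1 - 2 * (1 / 8)) -
      Real.exp (8 * (D + Real.log I + 1)) * (7 * ε + 7 * ε) := by linarith
  calc 1 / (8 * (Fintype.card E : ℝ)) = 1 / (4 * (Fintype.card E : ℝ)) * (1 / 2) := by
        field_simp; norm_num
    _ ≤ _ := mul_le_mul_of_nonneg_left h15 (by positivity)

end Main

end Crest.Agent.R042.Loc767
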