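import Crest.Agent.R042.LocFam2_958
import Crest.Agent.R042.Loc_767

/-!
# Row 42 / S0059: the local conflict bound for the family of `Fam_543`

`locC`: laws `μ`, `ν` on pairs of labels of the types `T (p ·)`, `T (r ·)`, all four cross pairs
perpendicular, the difference words constant at the opposite types on the supports and outside `K`,
relative entropies as in `Loc_767.loc`, the controlled functionals have only the digits in common.
Then the conflict probability is at least `1 / (8 |EE|)`.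
-/

set_option autoImplicit false
set_option linter.unusedSectionVars false

namespace Crest.Agent.R042.LocFam958

open Finset Crest.Agent.R042.RowWin543 Crest.Agent.R042.Fam543 Crest.Agent.R042.KLsup313

variable {k0 KK : Type} [Field k0] [Field KK] [Algebra k0 KK] {d kp L : ℕ}

instance finiteEE [Finite k0] [Finite KK] (Q kp : ℕ) (P R : Bool → Ty k0 KK d L) :
    Finite (EE Q kp P R) :=
  Finite.of_injective (fun f : EE Q kp P R => (fun t => f t : TT Q kp P R → k0))
    (fun _ _ h => LinearMap.ext fun t => congrFun h t)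

noncomputable instance fintypeEE [Finite k0] [Finite KK] (Q kp : ℕ) (P R : Bool → Ty k0 KK d L) :
    Fintype (EE Q kp P R) := Fintype.ofFinite _

/-- functionals on the dual are evaluations -/
theorem exists_eval {k W : Type*} [Field k] [AddCommGroup W] [Module k W] [FiniteDimensional k W]
    (φ : Module.Dual k (Module.Dual k W)) : ∃ t : W, ∀ f : Module.Dual k W, φ f = f t := by
  obtain ⟨t, ht⟩ := (Module.evalEquiv k W).surjective φ
  refine ⟨t, fun f => ?_⟩
  rw [← ht]
  rfl

open Classical in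
/-- **the local conflict bound in the family** -/
theorem locC [Fintype k0] [Fintype KK] [CharP KK 2] {ι : Type*} {K : Set k0} (hK : Alph K) {e : ℕ}
    (T : ι → Ty k0 KK d L) (hT : ∀ i, Valid K (T i))
    (hrich : Rich380.RichF K (fun i => (T i).E))
    (p r : Bool → ι) (hPR : ∀ a b, Perp (T (p a)) (T (r b)))
    (μ ν : VV k0 KK d kp L → ℝ)
    (hμ : ∀ x, 0 ≤ μ x) (sμ : ∑ x, μ x = 1) (hν : ∀ y, 0 ≤ ν y) (sν : ∑ y, ν y = 1)
    (hμc : Perp (T (p false)) (T (p true)) → ∀ v v₂, μ v ≠ 0 → μ v₂ ≠ 0 → ∀ b,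
      dlt (2 ^ e) kp (fun a => T (p a)) v (uvec (2 ^ e) kp (T (r b))) =
        dlt (2 ^ e) kp (fun a => T (p a)) v₂ (uvec (2 ^ e) kp (T (r b))))
    (hμK : Perp (T (p false)) (T (p true)) → ∀ v, μ v ≠ 0 → ∀ b,
      dlt (2 ^ e) kp (fun a => T (p a)) v (uvec (2 ^ e) kp (T (r b))) ∉ K)
    (hνc : Perp (T (r false)) (T (r true)) → ∀ v v₂, ν v ≠ 0 → ν v₂ ≠ 0 → ∀ a,
      dlt (2 ^ e) kp (fun b => T (r b)) v (uvec (2 ^ e) kp (T (p a))) =
        dlt (2 ^ e) kp (fun b => T (r b)) v₂ (uvec (2 ^ e) kp (T (p a))))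
    (hνK : Perp (T (r false)) (T (r true)) → ∀ v, ν v ≠ 0 → ∀ a,
      dlt (2 ^ e) kp (fun b => T (r b)) v (uvec (2 ^ e) kp (T (p a))) ∉ K)
    (CX CY : Submodule k0 (Module.Dual k0 (VV k0 KK d kp L)))
    (hNN : NN (winX (2 ^ e) kp (fun a => T (p a)) (fun b => T (r b))) CX ⊓
      NN (winY (2 ^ e) kp (fun a => T (p a)) (fun b => T (r b))) CY ≤
        Dg e kp (fun a => T (p a)) (fun b => T (r b)) hPR)
    (ε D I : ℝ)
    (hX1 : kl k0 μ (LinearMap.range (winX (2 ^ e) kp (fun a => T (p a))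
      (fun b => T (r b))).dualMap ⊔ CX) ≤ kl k0 μ CX + ε)
    (hX2 : kl k0 μ (LinearMap.range (winX (2 ^ e) kp (fun a => T (p a))
      (fun b => T (r b))).dualMap ⊓ CX) ≤ D)
    (hXI : (Fintype.card (EE (2 ^ e) kp (fun a => T (p a)) (fun b => T (r b))) : ℝ) ≤
      I * (Nat.card (LinearMap.range (winX (2 ^ e) kp (fun a => T (p a))
        (fun b => T (r b)))) : ℝ))
    (hY1 : kl k0 ν (LinearMap.range (winY (2 ^ e) kp (fun a => T (p a))
      (fun b => T (r b))).dualMap ⊔ CY) ≤ kl k0 ν CY + ε)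
    (hY2 : kl k0 ν (LinearMap.range (winY (2 ^ e) kp (fun a => T (p a))
      (fun b => T (r b))).dualMap ⊓ CY) ≤ D)
    (hYI : (Fintype.card (EE (2 ^ e) kp (fun a => T (p a)) (fun b => T (r b))) : ℝ) ≤
      I * (Nat.card (LinearMap.range (winY (2 ^ e) kp (fun a => T (p a))
        (fun b => T (r b)))) : ℝ))
    (hDI : 0 < D + Real.log I + 1)
    (hnum : 56 * Real.exp (8 * (D + Real.log I + 1)) * ε ≤ 1) :
    1 / (8 * (Fintype.card (EE (2 ^ e) kp (fun a => T (p a)) (fun b => T (r b))) : ℝ)) ≤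
      ∑ v, ∑ v', μ v * ν v' * (if ∀ a b, Rel K (2 ^ e) kp (T (p a)) (T (r b)) (lab v a) (lab v' b)
        then 1 else 0) := by
  have e1 : ∃ v, μ v ≠ 0 := by
    by_contra h
    push Not at h
    rw [sum_eq_zero fun x _ => h x] at sμ
    exact zero_ne_one sμ
  have e2 : ∃ v, ν v ≠ 0 := by
    by_contra h
    push Not at h
    rw [sum_eq_zero fun x _ => h x] at sν
    exact zero_ne_one sν
  obtain ⟨v0, hv0⟩ := e1
  obtain ⟨v0', hv0'⟩ := e2
  obtain ⟨w0, hw0, hw⟩ := live_class (kp := kp) hK (e := e) T hT hrich p r hPR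
    (fun b => dlt (2 ^ e) kp (fun a => T (p a)) v0 (uvec (2 ^ e) kp (T (r b))))
    (fun a => dlt (2 ^ e) kp (fun b => T (r b)) v0' (uvec (2 ^ e) kp (T (p a))))
    (fun h b => hμK h v0 hv0 b) (fun h a => hνK h v0' hv0' a)
  have main := Loc767.loc (k := k0) (winX (2 ^ e) kp (fun a => T (p a)) (fun b => T (r b)))
    (winY (2 ^ e) kp (fun a => T (p a)) (fun b => T (r b))) μ ν hμ sμ hν sν CX CY ε D I
    hX1 hX2 hXI hY1 hY2 hYI w0 (by
      intro φ h1 h2 x y hx hy
      obtain ⟨t, ht⟩ := exists_eval φ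
      have ht1 : t ∈ NN (winX (2 ^ e) kp (fun a => T (p a)) (fun b => T (r b))) CX := by
        rw [mem_NN]
        convert h1 using 1
        refine LinearMap.ext fun v => ?_
        rw [LinearMap.comp_apply, ht]
        rfl
      have ht2 : t ∈ NN (winY (2 ^ e) kp (fun a => T (p a)) (fun b => T (r b))) CY := by
        rw [mem_NN]
        convert h2 using 1
        refine LinearMap.ext fun v => ?_
        rw [LinearMap.comp_apply, ht]
        rfl
      have h3 := hw x y (fun h b => hμc h x v0 hx hv0 b) (fun h a => hνc h y v0' hy hv0' a) t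
        (hNN ⟨ht1, ht2⟩)
      rw [ht, ht]
      rw [LinearMap.sub_apply, sub_eq_zero] at h3
      exact h3) hDI hnum
  refine main.trans ?_
  refine sum_le_sum fun x _ => sum_le_sum fun y _ => ?_
  split_ifs with h1 h2 h2
  · rw [mul_one]
  · exfalso
    apply h2
    have h3 := (conf_iff K (2 ^ e) kp (fun a => T (p a)) (fun b => T (r b)) hPR x y).2
      (by rw [h1]; exact hw0)
    exact h3
  · rw [mul_one]; exact mul_nonneg (hμ x) (hν y)
  · rw [mul_zero]

end Crest.Agent.R042.LocFam958
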