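import Crest.Agent.R042.SspG_375

/-! Row 42 / S0059, PLAN B: the assembly in density form, with exceptional events; type level
discharged by 333's Theorem T; same-type gadget by push-forward. -/

set_option autoImplicit false
set_option linter.unusedSectionVars false

namespace Crest.Agent.R042.SspB375

open Finset SspAsm375 SspFin375 SspT375 TLev333 KLPush375 SspG375
open scoped Classical

section lift

variable {J Y Δ Θ κ : Type*} [Fintype J] [Fintype Y] [Fintype Δ] [Fintype Θ]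

/-- a law on classes lifted to classes with data. -/
noncomputable def lf (p : J × Δ → ℝ) (θ : J × Δ → Θ) (x : J × Δ × Θ) : ℝ :=
  if θ (x.1, x.2.1) = x.2.2 then p (x.1, x.2.1) else 0

lemma sum_lf (p : J × Δ → ℝ) (θ : J × Δ → Θ) (g : J × Δ × Θ → ℝ) :
    ∑ x, lf p θ x * g x = ∑ c : J × Δ, p c * g (c.1, c.2, θ c) := by
  rw [Fintype.sum_prod_type, Fintype.sum_prod_type]
  refine Finset.sum_congr rfl fun j _ => ?_
  rw [Fintype.sum_prod_type]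
  refine Finset.sum_congr rfl fun δ _ => ?_
  have e4 : ∀ t, lf p θ (j, δ, t) * g (j, δ, t) =
      if θ (j, δ) = t then p (j, δ) * g (j, δ, t) else 0 := by
    intro t
    unfold lf
    by_cases h : θ (j, δ) = t
    · rw [if_pos h, if_pos h]
    · rw [if_neg h, if_neg h, zero_mul]
  rw [Finset.sum_congr rfl (fun t _ => e4 t), Finset.sum_ite_eq]
  simp

lemma isP_lf (p : J × Δ → ℝ) (h : IsP p) (θ : J × Δ → Θ) : IsP (lf p θ) := by
  refine ⟨fun x => ?_, ?_⟩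
  · unfold lf
    split_ifs
    · exact h.nonneg _
    · exact le_rfl
  · have := sum_lf p θ (fun _ => 1)
    simp only [mul_one] at this
    rw [this]
    exact h.sum

lemma marg_lf (p : J × Δ → ℝ) (θ : J × Δ → Θ) (A : Finset J) :
    ∑ j ∈ A, ∑ x : Δ × Θ, lf p θ (j, x) = ∑ j ∈ A, ∑ δ, p (j, δ) := by
  refine Finset.sum_congr rfl fun j _ => ?_
  rw [Fintype.sum_prod_type]
  refine Finset.sum_congr rfl fun δ _ => ?_
  unfold lf
  simp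

/-- heavy classes. -/
noncomputable def hv (dl : J → Y → Δ) (τ : J × Y → ℝ) : Finset (J × Δ) :=
  univ.filter fun c => 1 / (16 * (Fintype.card J * Fintype.card Δ)) ≤ cm dl τ c

/-- mass of the heavy classes. -/
noncomputable def hm (dl : J → Y → Δ) (τ : J × Y → ℝ) : ℝ := ∑ c ∈ hv dl τ, cm dl τ c

/-- law of the heavy classes. -/
noncomputable def hp (dl : J → Y → Δ) (τ : J × Y → ℝ) (c : J × Δ) : ℝ :=
  if c ∈ hv dl τ then cm dl τ c / hm dl τ else 0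

variable {dl : J → Y → Δ} {τ : J × Y → ℝ}

lemma card_pos' (h : IsP τ) [Nonempty Δ] : (0 : ℝ) < Fintype.card J ∧
    (0 : ℝ) < Fintype.card Y := by
  have hJY : Nonempty (J × Y) := by
    by_contra hne
    rw [not_nonempty_iff] at hne
    have := h.sum
    simp at this
  have hJ : Nonempty J := ⟨hJY.some.1⟩
  have hY : Nonempty Y := ⟨hJY.some.2⟩
  exact ⟨by exact_mod_cast Fintype.card_pos, by exact_mod_cast Fintype.card_pos⟩

lemma nonempty_Δ (h : IsP τ) (dl : J → Y → Δ) : Nonempty Δ := by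
  have hJY : Nonempty (J × Y) := by
    by_contra hne
    rw [not_nonempty_iff] at hne
    have := h.sum
    simp at this
  exact ⟨dl hJY.some.1 hJY.some.2⟩

lemma hm_ge (h : IsP τ) : 15 / 16 ≤ hm dl τ := by
  have hΔ : Nonempty Δ := nonempty_Δ h dl
  have hJ := (card_pos' (Δ := Δ) h).1
  have cΔ : (0 : ℝ) < Fintype.card Δ := by exact_mod_cast Fintype.card_pos
  have hP := isP_cm (dl := dl) h
  have h3 : hm dl τ + ∑ c ∈ univ.filter (fun c : J × Δ =>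
      ¬ (1 / (16 * (Fintype.card J * Fintype.card Δ)) : ℝ) ≤ cm dl τ c), cm dl τ c = 1 := by
    have := Finset.sum_filter_add_sum_filter_not univ (fun c : J × Δ =>
      (1 / (16 * (Fintype.card J * Fintype.card Δ)) : ℝ) ≤ cm dl τ c) (cm dl τ)
    rw [hP.sum] at this
    unfold hm hv
    exact this
  have h4 : ∑ c ∈ univ.filter (fun c : J × Δ =>
      ¬ (1 / (16 * (Fintype.card J * Fintype.card Δ)) : ℝ) ≤ cm dl τ c), cm dl τ c ≤ 1 / 16 := by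
    refine (Finset.sum_le_sum (g := fun _ => (1 / (16 * (Fintype.card J * Fintype.card Δ)) : ℝ))
      fun c hc => ?_).trans ?_
    · rw [Finset.mem_filter] at hc
      exact (not_le.1 hc.2).le
    · rw [Finset.sum_const, nsmul_eq_mul]
      have h5 : ((univ.filter (fun c : J × Δ =>
        ¬ (1 / (16 * (Fintype.card J * Fintype.card Δ)) : ℝ) ≤ cm dl τ c)).card : ℝ) ≤
          Fintype.card J * Fintype.card Δ := by
        have := Finset.card_le_univ (univ.filter (fun c : J × Δ =>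
          ¬ (1 / (16 * (Fintype.card J * Fintype.card Δ)) : ℝ) ≤ cm dl τ c))
        rw [Fintype.card_prod] at this
        exact_mod_cast this
      calc _ ≤ (Fintype.card J * Fintype.card Δ : ℝ) * (1 / (16 * (Fintype.card J * Fintype.card Δ))) :=
            mul_le_mul_of_nonneg_right h5 (by positivity)
        _ = 1 / 16 := by field_simp
  linarith

lemma hm_pos (h : IsP τ) : 0 < hm dl τ := by
  have := hm_ge (dl := dl) h
  linarith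

lemma cm_pos_of_hv (h : IsP τ) {c : J × Δ} (hc : c ∈ hv dl τ) : 0 < cm dl τ c := by
  have hΔ : Nonempty Δ := nonempty_Δ h dl
  have hJ := (card_pos' (Δ := Δ) h).1
  have cΔ : (0 : ℝ) < Fintype.card Δ := by exact_mod_cast Fintype.card_pos
  unfold hv at hc
  rw [Finset.mem_filter] at hc
  refine lt_of_lt_of_le ?_ hc.2
  positivity

lemma isP_hp (h : IsP τ) : IsP (hp dl τ) := by
  have h0 := hm_pos (dl := dl) h
  refine ⟨fun c => ?_, ?_⟩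
  · unfold hp
    split_ifs
    · exact div_nonneg (cm_nonneg h.nonneg _) h0.le
    · exact le_rfl
  · unfold hp
    rw [← Finset.sum_filter]
    have e3 : univ.filter (fun c => c ∈ hv dl τ) = hv dl τ := by
      ext c
      simp
    rw [e3, ← Finset.sum_div]
    exact div_self h0.ne'

lemma marg_hp (h : IsP τ) (A : Finset J) (m : ℝ) (hA : ∑ j ∈ A, ∑ y, τ (j, y) ≤ m) :
    ∑ j ∈ A, ∑ δ, hp dl τ (j, δ) ≤ 2 * m := by
  have hB := hm_ge (dl := dl) h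
  have hB0 := hm_pos (dl := dl) h
  have h0 : ∀ j, 0 ≤ ∑ y, τ (j, y) := fun j => Finset.sum_nonneg fun y _ => h.nonneg _
  have hm0 : 0 ≤ m := (Finset.sum_nonneg fun j _ => h0 j).trans hA
  have e1 : ∀ j, ∑ δ, hp dl τ (j, δ) ≤ (∑ y, τ (j, y)) / hm dl τ := by
    intro j
    rw [← sum_cm_fst (dl := dl) j, Finset.sum_div]
    refine Finset.sum_le_sum fun d _ => ?_
    unfold hp
    split_ifs
    · exact le_rfl
    · exact div_nonneg (cm_nonneg h.nonneg _) hB0.le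
  refine (Finset.sum_le_sum fun j _ => e1 j).trans ?_
  rw [← Finset.sum_div, div_le_iff₀ hB0]
  nlinarith

lemma dens (h : IsP τ) (M : ℝ) (hM : 0 < M)
    (hτM : ∀ x, τ x * (Fintype.card J * Fintype.card Y) ≤ M) {c : J × Δ} (hc : c ∈ hv dl τ)
    (y : Y) : SspAsm375.cond dl τ c y * Fintype.card Y ≤ 16 * (M * Fintype.card Δ) := by
  have hΔ : Nonempty Δ := nonempty_Δ h dl
  have hJ := (card_pos' (Δ := Δ) h).1
  have hY := (card_pos' (Δ := Δ) h).2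
  have cΔ : (0 : ℝ) < Fintype.card Δ := by exact_mod_cast Fintype.card_pos
  have h0 := cm_pos_of_hv h hc
  unfold hv at hc
  rw [Finset.mem_filter] at hc
  have hc := hc.2
  unfold SspAsm375.cond
  rw [div_mul_eq_mul_div, div_le_iff₀ h0]
  have h1 : sub dl τ c y ≤ τ (c.1, y) := by
    unfold sub
    split_ifs
    · exact le_rfl
    · exact h.nonneg _
  have h2 : sub dl τ c y * (Fintype.card J * Fintype.card Y) ≤ M :=
    (mul_le_mul_of_nonneg_right h1 (by positivity)).trans (hτM _)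
  have h3 : 16 * (M * Fintype.card Δ) * (1 / (16 * (Fintype.card J * Fintype.card Δ))) =
      M / Fintype.card J := by field_simp
  have h4 : M / Fintype.card J ≤ 16 * (M * Fintype.card Δ) * cm dl τ c := by
    rw [← h3]
    exact mul_le_mul_of_nonneg_left hc (by positivity)
  refine le_trans ?_ h4
  rw [le_div_iff₀ hJ]
  linarith

/-- **assembly in density form with exceptional events.** -/
theorem asmB (dl : J → Y → Δ) (τ₁ τ₂ : J × Y → ℝ) (h1 : IsP τ₁) (h2 : IsP τ₂)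
    (M : ℝ) (hM : 0 < M)
    (hM1 : ∀ x, τ₁ x * (Fintype.card J * Fintype.card Y) ≤ M)
    (hM2 : ∀ x, τ₂ x * (Fintype.card J * Fintype.card Y) ≤ M)
    -- marginals
    (A : κ → Finset J) (m : ℝ)
    (hm1 : ∀ k, ∑ j ∈ A k, ∑ y, τ₁ (j, y) ≤ m)
    (hm2 : ∀ k, ∑ j ∈ A k, ∑ y, τ₂ (j, y) ≤ m)
    -- support
    (Adm : J → Y → Prop)
    (hA1 : ∀ j y, τ₁ (j, y) ≠ 0 → Adm j y) (hA2 : ∀ j y, τ₂ (j, y) ≠ 0 → Adm j y)
    -- local statement
    (Conf : J × Y → J × Y → Prop)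
    (G₁ G₂ : J × Δ → (Y → ℝ) → Θ → Prop)
    (Ev₁ Ev₂ : J × Δ → (Y → ℝ) → Θ → J × Δ → Prop) (e : ℝ)
    (hG₁ : ∀ c μ, IsP μ → (∀ y, μ y ≠ 0 → dl c.1 y = c.2 ∧ Adm c.1 y) →
      (∀ y, μ y * Fintype.card Y ≤ 16 * (M * Fintype.card Δ)) →
      ∀ t : J × Δ → ℝ, IsP t → (∀ k, ∑ j ∈ A k, ∑ δ, t (j, δ) ≤ 2 * m) →
      ∃ θ, G₁ c μ θ ∧ ∑ c', t c' * (if Ev₁ c μ θ c' then 1 else 0) ≤ e)
    (hG₂ : ∀ c μ, IsP μ → (∀ y, μ y ≠ 0 → dl c.1 y = c.2 ∧ Adm c.1 y) →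
      (∀ y, μ y * Fintype.card Y ≤ 16 * (M * Fintype.card Δ)) →
      ∀ t : J × Δ → ℝ, IsP t → (∀ k, ∑ j ∈ A k, ∑ δ, t (j, δ) ≤ 2 * m) →
      ∃ θ, G₂ c μ θ ∧ ∑ c', t c' * (if Ev₂ c μ θ c' then 1 else 0) ≤ e)
    (Live : J × Δ × Θ → J × Δ × Θ → Prop)
    (c₀ : ℝ) (hc₀ : 0 ≤ c₀)
    (hLoc : ∀ (c : J × Δ) (μ : Y → ℝ) (θ : Θ) (c' : J × Δ) (μ' : Y → ℝ) (θ' : Θ),
      IsP μ → (∀ y, μ y ≠ 0 → dl c.1 y = c.2 ∧ Adm c.1 y) →
      (∀ y, μ y * Fintype.card Y ≤ 16 * (M * Fintype.card Δ)) → G₁ c μ θ →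
      IsP μ' → (∀ y, μ' y ≠ 0 → dl c'.1 y = c'.2 ∧ Adm c'.1 y) →
      (∀ y, μ' y * Fintype.card Y ≤ 16 * (M * Fintype.card Δ)) → G₂ c' μ' θ' →
      Live (c.1, c.2, θ) (c'.1, c'.2, θ') → ¬ Ev₁ c μ θ c' → ¬ Ev₂ c' μ' θ' c →
      c₀ ≤ ∑ y, ∑ y', μ y * μ' y' * (if Conf (c.1, y) (c'.1, y') then 1 else 0))
    -- type level statement
    (M₀ : ℝ)
    (hT : ∀ t₁ t₂ : J × Δ × Θ → ℝ, IsP t₁ → IsP t₂ →
      (∀ k, ∑ j ∈ A k, ∑ x : Δ × Θ, t₁ (j, x) ≤ 2 * m) →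
      (∀ k, ∑ j ∈ A k, ∑ x : Δ × Θ, t₂ (j, x) ≤ 2 * m) →
      M₀ ≤ ∑ x, ∑ x', t₁ x * t₂ x' * (if Live x x' then 1 else 0)) :
    225 / 256 * (M₀ - 2 * e) * c₀ ≤
      ∑ x, ∑ x', τ₁ x * τ₂ x' * (if Conf x x' then 1 else 0) := by
  have hB1 := hm_ge (dl := dl) h1
  have hB2 := hm_ge (dl := dl) h2
  -- data
  have supp : ∀ (τ : J × Y → ℝ), (∀ j y, τ (j, y) ≠ 0 → Adm j y) → ∀ c y,
      SspAsm375.cond dl τ c y ≠ 0 → dl c.1 y = c.2 ∧ Adm c.1 y := by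
    intro τ hA c y hy
    have h3 : sub dl τ c y ≠ 0 := by
      intro h4
      apply hy
      unfold SspAsm375.cond
      rw [h4, zero_div]
    unfold sub at h3
    split_ifs at h3 with h4
    · exact ⟨h4, hA _ _ h3⟩
    · exact absurd rfl h3
  have data : ∀ (G : J × Δ → (Y → ℝ) → Θ → Prop) (Ev : J × Δ → (Y → ℝ) → Θ → J × Δ → Prop),
      (∀ c μ, IsP μ → (∀ y, μ y ≠ 0 → dl c.1 y = c.2 ∧ Adm c.1 y) →
      (∀ y, μ y * Fintype.card Y ≤ 16 * (M * Fintype.card Δ)) →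
      ∀ t : J × Δ → ℝ, IsP t → (∀ k, ∑ j ∈ A k, ∑ δ, t (j, δ) ≤ 2 * m) →
      ∃ θ, G c μ θ ∧ ∑ c', t c' * (if Ev c μ θ c' then 1 else 0) ≤ e) →
      ∀ (τ : J × Y → ℝ), IsP τ → (∀ x, τ x * (Fintype.card J * Fintype.card Y) ≤ M) →
      (∀ j y, τ (j, y) ≠ 0 → Adm j y) →
      ∀ t : J × Δ → ℝ, IsP t → (∀ k, ∑ j ∈ A k, ∑ δ, t (j, δ) ≤ 2 * m) →
      ∃ θ : J × Δ → Θ, ∀ c ∈ hv dl τ, G c (SspAsm375.cond dl τ c) (θ c) ∧
        ∑ c', t c' * (if Ev c (SspAsm375.cond dl τ c) (θ c) c' then 1 else 0) ≤ e := by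
    intro G Ev hG τ hτ hτM hA t ht htm
    have h5 : ∀ c ∈ hv dl τ, ∃ θ, G c (SspAsm375.cond dl τ c) θ ∧
        ∑ c', t c' * (if Ev c (SspAsm375.cond dl τ c) θ c' then 1 else 0) ≤ e := by
      intro c hc
      exact hG c _ (isP_cond hτ (cm_pos_of_hv hτ hc)) (supp τ hA c)
        (fun y => dens hτ M hM hτM hc y) t ht htm
    have hne : (hv dl τ).Nonempty := by
      rw [Finset.nonempty_iff_ne_empty]
      intro h0
      have := hm_pos (dl := dl) hτ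
      unfold hm at this
      rw [h0] at this
      norm_num at this
    obtain ⟨c0, hc0⟩ := hne
    obtain ⟨θ0, -⟩ := h5 c0 hc0
    refine ⟨fun c => if hc : c ∈ hv dl τ then (h5 c hc).choose else θ0, fun c hc => ?_⟩
    simp only [dif_pos hc]
    exact (h5 c hc).choose_spec
  have hp1 := isP_hp (dl := dl) h1
  have hp2 := isP_hp (dl := dl) h2
  have mp1 : ∀ k, ∑ j ∈ A k, ∑ δ, hp dl τ₁ (j, δ) ≤ 2 * m := fun k => marg_hp h1 _ _ (hm1 k)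
  have mp2 : ∀ k, ∑ j ∈ A k, ∑ δ, hp dl τ₂ (j, δ) ≤ 2 * m := fun k => marg_hp h2 _ _ (hm2 k)
  obtain ⟨θ₁, hθ1⟩ := data G₁ Ev₁ hG₁ τ₁ h1 hM1 hA1 _ hp2 mp2
  obtain ⟨θ₂, hθ2⟩ := data G₂ Ev₂ hG₂ τ₂ h2 hM2 hA2 _ hp1 mp1
  set B1 := hm dl τ₁ with hB1def
  set B2 := hm dl τ₂ with hB2def
  have hB10 : 0 < B1 := by linarith
  have hB20 : 0 < B2 := by linarith
  have hTT := hT (lf (hp dl τ₁) θ₁) (lf (hp dl τ₂) θ₂) (isP_lf _ hp1 θ₁) (isP_lf _ hp2 θ₂)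
    (fun k => by rw [marg_lf]; exact mp1 k) (fun k => by rw [marg_lf]; exact mp2 k)
  -- the live mass on classes
  have e1 : ∑ x, ∑ x', lf (hp dl τ₁) θ₁ x * lf (hp dl τ₂) θ₂ x' * (if Live x x' then (1 : ℝ) else 0) =
      ∑ c, ∑ c', hp dl τ₁ c * hp dl τ₂ c' *
        (if Live (c.1, c.2, θ₁ c) (c'.1, c'.2, θ₂ c') then 1 else 0) := by
    have e2 : ∀ x, ∑ x', lf (hp dl τ₁) θ₁ x * lf (hp dl τ₂) θ₂ x' *
        (if Live x x' then (1 : ℝ) else 0) =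
        lf (hp dl τ₁) θ₁ x * ∑ c' : J × Δ, hp dl τ₂ c' *
          (if Live x (c'.1, c'.2, θ₂ c') then 1 else 0) := by
      intro x
      rw [← sum_lf (hp dl τ₂) θ₂ (fun x' => if Live x x' then (1 : ℝ) else 0), Finset.mul_sum]
      exact Finset.sum_congr rfl fun x' _ => by ring
    rw [Finset.sum_congr rfl (fun x _ => e2 x), sum_lf (hp dl τ₁) θ₁]
    refine Finset.sum_congr rfl fun c _ => ?_
    rw [Finset.mul_sum]
    exact Finset.sum_congr rfl fun c' _ => by ring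
  rw [e1] at hTT
  -- subtract the exceptional pairs
  set W : J × Δ → J × Δ → Prop := fun c c' =>
    c ∈ hv dl τ₁ ∧ c' ∈ hv dl τ₂ ∧ Live (c.1, c.2, θ₁ c) (c'.1, c'.2, θ₂ c') ∧
      ¬ Ev₁ c (SspAsm375.cond dl τ₁ c) (θ₁ c) c' ∧ ¬ Ev₂ c' (SspAsm375.cond dl τ₂ c') (θ₂ c') c with hW
  have nn : ∀ c c', 0 ≤ hp dl τ₁ c * hp dl τ₂ c' := fun c c' =>
    mul_nonneg (hp1.nonneg c) (hp2.nonneg c')
  have z1 : ∀ c, c ∉ hv dl τ₁ → hp dl τ₁ c = 0 := by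
    intro c hc
    unfold hp
    rw [if_neg hc]
  have z2 : ∀ c, c ∉ hv dl τ₂ → hp dl τ₂ c = 0 := by
    intro c hc
    unfold hp
    rw [if_neg hc]
  have e7 : ∑ c, ∑ c', hp dl τ₁ c * hp dl τ₂ c' *
        (if Live (c.1, c.2, θ₁ c) (c'.1, c'.2, θ₂ c') then (1 : ℝ) else 0) ≤
      (∑ c, ∑ c', hp dl τ₁ c * hp dl τ₂ c' * (if W c c' then (1 : ℝ) else 0)) + 2 * e := by
    have f1 : ∀ c c', hp dl τ₁ c * hp dl τ₂ c' *
        (if Live (c.1, c.2, θ₁ c) (c'.1, c'.2, θ₂ c') then (1 : ℝ) else 0) ≤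
        hp dl τ₁ c * hp dl τ₂ c' * (if W c c' then (1 : ℝ) else 0) +
        (hp dl τ₁ c * (hp dl τ₂ c' * (if c ∈ hv dl τ₁ ∧ Ev₁ c (SspAsm375.cond dl τ₁ c) (θ₁ c) c' then 1 else 0)) +
        hp dl τ₂ c' * (hp dl τ₁ c * (if c' ∈ hv dl τ₂ ∧ Ev₂ c' (SspAsm375.cond dl τ₂ c') (θ₂ c') c then 1 else 0))) := by
      intro c c'
      have n1 := hp1.nonneg c
      have n2 := hp2.nonneg c'
      have n3 := nn c c'
      by_cases hc : c ∈ hv dl τ₁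
      · by_cases hc' : c' ∈ hv dl τ₂
        · by_cases hE1 : Ev₁ c (SspAsm375.cond dl τ₁ c) (θ₁ c) c'
          · rw [if_pos (⟨hc, hE1⟩ : c ∈ hv dl τ₁ ∧ Ev₁ c (SspAsm375.cond dl τ₁ c) (θ₁ c) c')]
            split_ifs <;> nlinarith
          · by_cases hE2 : Ev₂ c' (SspAsm375.cond dl τ₂ c') (θ₂ c') c
            · rw [if_pos (⟨hc', hE2⟩ : c' ∈ hv dl τ₂ ∧ Ev₂ c' (SspAsm375.cond dl τ₂ c') (θ₂ c') c)]
              split_ifs <;> nlinarith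
            · by_cases hL : Live (c.1, c.2, θ₁ c) (c'.1, c'.2, θ₂ c')
              · have hw : W c c' := ⟨hc, hc', hL, hE1, hE2⟩
                rw [if_pos hw, if_pos hL]
                split_ifs <;> nlinarith
              · rw [if_neg hL]
                split_ifs <;> nlinarith
        · rw [z2 c' hc']
          simp
      · rw [z1 c hc]
        simp
    have f2 : ∑ c, ∑ c', hp dl τ₁ c * hp dl τ₂ c' *
        (if Live (c.1, c.2, θ₁ c) (c'.1, c'.2, θ₂ c') then (1 : ℝ) else 0) ≤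
        ∑ c, ∑ c', (hp dl τ₁ c * hp dl τ₂ c' * (if W c c' then (1 : ℝ) else 0) +
        (hp dl τ₁ c * (hp dl τ₂ c' * (if c ∈ hv dl τ₁ ∧ Ev₁ c (SspAsm375.cond dl τ₁ c) (θ₁ c) c' then 1 else 0)) +
        hp dl τ₂ c' * (hp dl τ₁ c * (if c' ∈ hv dl τ₂ ∧ Ev₂ c' (SspAsm375.cond dl τ₂ c') (θ₂ c') c then 1 else 0)))) :=
      Finset.sum_le_sum fun c _ => Finset.sum_le_sum fun c' _ => f1 c c'
    refine f2.trans ?_
    simp only [Finset.sum_add_distrib]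
    have g1 : ∑ c, ∑ c', hp dl τ₁ c * (hp dl τ₂ c' *
        (if c ∈ hv dl τ₁ ∧ Ev₁ c (SspAsm375.cond dl τ₁ c) (θ₁ c) c' then (1 : ℝ) else 0)) ≤ e := by
      have k1 : ∀ c, ∑ c', hp dl τ₁ c * (hp dl τ₂ c' *
          (if c ∈ hv dl τ₁ ∧ Ev₁ c (SspAsm375.cond dl τ₁ c) (θ₁ c) c' then (1 : ℝ) else 0)) ≤
          hp dl τ₁ c * e := by
        intro c
        rw [← Finset.mul_sum]
        by_cases hc : c ∈ hv dl τ₁
        · refine mul_le_mul_of_nonneg_left ?_ (hp1.nonneg c)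
          simpa only [hc, true_and] using (hθ1 c hc).2
        · rw [z1 c hc]
          simp
      refine (Finset.sum_le_sum fun c _ => k1 c).trans ?_
      rw [← Finset.sum_mul, hp1.sum, one_mul]
    have g2 : ∑ c, ∑ c', hp dl τ₂ c' * (hp dl τ₁ c *
        (if c' ∈ hv dl τ₂ ∧ Ev₂ c' (SspAsm375.cond dl τ₂ c') (θ₂ c') c then (1 : ℝ) else 0)) ≤ e := by
      rw [Finset.sum_comm]
      have k1 : ∀ c', ∑ c, hp dl τ₂ c' * (hp dl τ₁ c *
          (if c' ∈ hv dl τ₂ ∧ Ev₂ c' (SspAsm375.cond dl τ₂ c') (θ₂ c') c then (1 : ℝ) else 0)) ≤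
          hp dl τ₂ c' * e := by
        intro c'
        rw [← Finset.mul_sum]
        by_cases hc : c' ∈ hv dl τ₂
        · refine mul_le_mul_of_nonneg_left ?_ (hp2.nonneg c')
          simpa only [hc, true_and] using (hθ2 c' hc).2
        · rw [z2 c' hc]
          simp
      refine (Finset.sum_le_sum fun c _ => k1 c).trans ?_
      rw [← Finset.sum_mul, hp2.sum, one_mul]
    linarith
  -- back to the class masses
  set S := ∑ c, ∑ c', cm dl τ₁ c * cm dl τ₂ c' * (if W c c' then (1 : ℝ) else 0) with hS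
  have cmp1 : ∀ c ∈ hv dl τ₁, hp dl τ₁ c * B1 = cm dl τ₁ c := by
    intro c hc
    unfold hp
    rw [if_pos hc, ← hB1def]
    field_simp
  have cmp2 : ∀ c ∈ hv dl τ₂, hp dl τ₂ c * B2 = cm dl τ₂ c := by
    intro c hc
    unfold hp
    rw [if_pos hc, ← hB2def]
    field_simp
  have hSeq : S = (∑ c, ∑ c', hp dl τ₁ c * hp dl τ₂ c' * (if W c c' then (1 : ℝ) else 0)) *
      (B1 * B2) := by
    rw [hS, Finset.sum_mul]
    refine Finset.sum_congr rfl fun c _ => ?_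
    rw [Finset.sum_mul]
    refine Finset.sum_congr rfl fun c' _ => ?_
    split_ifs with hw
    · rw [← cmp1 c hw.1, ← cmp2 c' hw.2.1]
      ring
    · simp
  have hS0 : 0 ≤ S := by
    refine Finset.sum_nonneg fun c _ => Finset.sum_nonneg fun c' _ => ?_
    refine mul_nonneg (mul_nonneg (cm_nonneg h1.nonneg _) (cm_nonneg h2.nonneg _)) ?_
    split_ifs
    · exact zero_le_one
    · exact le_rfl
  have hS1 : 225 / 256 * (M₀ - 2 * e) ≤ S := by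
    have hBB : 225 / 256 ≤ B1 * B2 := by nlinarith
    have h6 : (M₀ - 2 * e) * (B1 * B2) ≤ S := by
      rw [hSeq]
      refine mul_le_mul_of_nonneg_right ?_ (by positivity)
      linarith
    rcases le_or_gt (M₀ - 2 * e) 0 with h8 | h8
    · nlinarith
    · nlinarith
  -- lower bound of the conflict mass
  have e3 : ∑ x, ∑ x', τ₁ x * τ₂ x' * (if Conf x x' then (1 : ℝ) else 0) =
      ∑ c, ∑ c', ∑ y, ∑ y', sub dl τ₁ c y * sub dl τ₂ c' y' *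
        (if Conf (c.1, y) (c'.1, y') then 1 else 0) := by
    have f1 : ∀ (τ : J × Y → ℝ) (g : J × Y → ℝ), ∑ x, τ x * g x =
        ∑ c : J × Δ, ∑ y, sub dl τ c y * g (c.1, y) := by
      intro τ g
      rw [Fintype.sum_prod_type, Fintype.sum_prod_type]
      refine Finset.sum_congr rfl fun j _ => ?_
      rw [Finset.sum_comm]
      refine Finset.sum_congr rfl fun y _ => ?_
      change τ (j, y) * g (j, y) = ∑ x, sub dl τ (j, x) y * g (j, y)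
      rw [← Finset.sum_mul, sum_sub]
    have f2 : ∀ x, ∑ x', τ₁ x * τ₂ x' * (if Conf x x' then (1 : ℝ) else 0) =
        τ₁ x * ∑ c' : J × Δ, ∑ y', sub dl τ₂ c' y' * (if Conf x (c'.1, y') then 1 else 0) := by
      intro x
      rw [← f1 τ₂ (fun x' => if Conf x x' then (1 : ℝ) else 0), Finset.mul_sum]
      exact Finset.sum_congr rfl fun x' _ => by ring
    rw [Finset.sum_congr rfl (fun x _ => f2 x), f1 τ₁]
    refine Finset.sum_congr rfl fun c _ => ?_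
    rw [Finset.sum_comm' (s := univ) (t := fun _ => univ) (t' := univ) (s' := fun _ => univ)
      (by simp)]
    refine Finset.sum_congr rfl fun y _ => ?_
    rw [Finset.mul_sum]
    refine Finset.sum_congr rfl fun c' _ => ?_
    rw [Finset.mul_sum]
    exact Finset.sum_congr rfl fun y' _ => by ring
  rw [e3]
  have pos : ∀ c c', 0 ≤ ∑ y, ∑ y', sub dl τ₁ c y * sub dl τ₂ c' y' *
      (if Conf (c.1, y) (c'.1, y') then (1 : ℝ) else 0) := by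
    intro c c'
    refine Finset.sum_nonneg fun y _ => Finset.sum_nonneg fun y' _ => ?_
    refine mul_nonneg (mul_nonneg (sub_nonneg h1.nonneg _ _) (sub_nonneg h2.nonneg _ _)) ?_
    split_ifs
    · exact zero_le_one
    · exact le_rfl
  have e4 : c₀ * S ≤ ∑ c, ∑ c', ∑ y, ∑ y',
      sub dl τ₁ c y * sub dl τ₂ c' y' * (if Conf (c.1, y) (c'.1, y') then 1 else 0) := by
    rw [hS, Finset.mul_sum]
    refine Finset.sum_le_sum fun c _ => ?_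
    rw [Finset.mul_sum]
    refine Finset.sum_le_sum fun c' _ => ?_
    split_ifs with hL
    · have g1 : ∑ y, ∑ y', sub dl τ₁ c y * sub dl τ₂ c' y' *
          (if Conf (c.1, y) (c'.1, y') then (1 : ℝ) else 0) =
          cm dl τ₁ c * cm dl τ₂ c' * ∑ y, ∑ y', SspAsm375.cond dl τ₁ c y * SspAsm375.cond dl τ₂ c' y' *
            (if Conf (c.1, y) (c'.1, y') then 1 else 0) := by
        rw [Finset.mul_sum]
        refine Finset.sum_congr rfl fun y _ => ?_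
        rw [Finset.mul_sum]
        refine Finset.sum_congr rfl fun y' _ => ?_
        rw [← cm_mul_cond h1 c y, ← cm_mul_cond h2 c' y']
        ring
      rw [g1]
      have g2 : 0 ≤ cm dl τ₁ c * cm dl τ₂ c' :=
        mul_nonneg (cm_nonneg h1.nonneg _) (cm_nonneg h2.nonneg _)
      obtain ⟨hc, hc', hL, hE1, hE2⟩ := hL
      have := hLoc c (SspAsm375.cond dl τ₁ c) (θ₁ c) c' (SspAsm375.cond dl τ₂ c') (θ₂ c')
        (isP_cond h1 (cm_pos_of_hv h1 hc))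
        (supp τ₁ hA1 c) (fun y => dens h1 M hM hM1 hc y) (hθ1 c hc).1
        (isP_cond h2 (cm_pos_of_hv h2 hc')) (supp τ₂ hA2 c') (fun y => dens h2 M hM hM2 hc' y)
        (hθ2 c' hc').1 hL hE1 hE2
      have := mul_le_mul_of_nonneg_left this g2
      linarith
    · have := pos c c'
      linarith
  have e6 : 225 / 256 * (M₀ - 2 * e) * c₀ ≤ c₀ * S := by nlinarith
  linarith

end lift

/-! ### the cross kind -/

variable {ι 𝓕 Lb Ω : Type*} [Fintype ι] [DecidableEq ι] [Fintype 𝓕] [Fintype Lb] [Fintype Ω]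
  {Δ Θ : Type*} [Fintype Δ] [Fintype Θ]

/-- `s` does not see the index pair `j'` as dead, and is perpendicular to it. -/
def One (S : Sys ι Ω (Jx ι × Δ × Θ)) (x : ι → Ω) (s : Jx ι × Δ × Θ) (j' : Jx ι) : Prop :=
  (∀ i ∈ idx2 s, ∀ j ∈ ({j'.1.1, j'.1.2} : Finset ι), S.perp (x i) (x j)) ∧
    ¬ S.Dead x s {j'.1.1, j'.1.2}

lemma one_left {S : Sys ι Ω (Jx ι × Δ × Θ)} (hidx : S.idx = idx2) {x : ι → Ω}
    {s s' : Jx ι × Δ × Θ} (h : Sys.Live S S x s s') : One S x s s'.1 := by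
  unfold Sys.Live at h
  rw [hidx] at h
  exact ⟨h.1, h.2.1⟩

lemma one_right {S : Sys ι Ω (Jx ι × Δ × Θ)} (hidx : S.idx = idx2)
    (hsymm : ∀ P Q, S.perp P Q → S.perp Q P) {x : ι → Ω}
    {s s' : Jx ι × Δ × Θ} (h : Sys.Live S S x s s') : One S x s' s.1 := by
  unfold Sys.Live at h
  rw [hidx] at h
  exact ⟨fun i hi j hj => hsymm _ _ (h.1 j hj i hi), h.2.2⟩

/-- the cross kind, density form. -/
theorem ssp_crossB [Nonempty ι] [Nonempty 𝓕] [DecidableEq Δ] [DecidableEq Θ]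
    {n : ℕ} {d : ℝ} {E : ι × 𝓕 → ι × 𝓕 → Prop} (hn : 0 < n) (hd : 0 < d)
    (S : Sys ι Ω (Jx ι × Δ × Θ)) (hidx : S.idx = idx2) (ha : S.a = 2)
    (hsymm : ∀ P Q, S.perp P Q → S.perp Q P) {ℓ r : ℕ} {x : ι → Ω} (hGood : S.Good ℓ r x)
    (hgen : Gen S.perp S.ρ x univ) (hE : 1 ≤ S.η * ℓ * S.ρ ^ 4) (hη : S.η ≤ 1 / 4096)
    (hℓm : 4 * ℓ * (2 * (1 / (d * Fintype.card ι))) ≤ S.η * S.ρ ^ 4)
    (hrm : 256 * (ℓ + r) * (2 * (1 / (d * Fintype.card ι))) ≤ 1)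
    (dl : Jx ι → 𝓕 × 𝓕 → Δ) (w₁ w₂ : (ι × 𝓕) × (ι × 𝓕) → ℝ)
    (h1 : AdmX n d E w₁) (h2 : AdmX n d E w₂)
    (G₁ G₂ : Jx ι × Δ → (𝓕 × 𝓕 → ℝ) → Θ → Prop)
    (Ev₁ Ev₂ : Jx ι × Δ → (𝓕 × 𝓕 → ℝ) → Θ → Jx ι × Δ → Prop) (e : ℝ)
    (hG₁ : ∀ (c : Jx ι × Δ) (μ : 𝓕 × 𝓕 → ℝ), IsP μ →
      (∀ y, μ y ≠ 0 → dl c.1 y = c.2 ∧ ¬ E (c.1.1.1, y.1) (c.1.1.2, y.2)) →
      (∀ y, μ y * Fintype.card (𝓕 × 𝓕) ≤ 16 * (n / d * Fintype.card Δ)) →
      ∀ t : Jx ι × Δ → ℝ, IsP t →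
      (∀ i, ∑ j ∈ Ai i, ∑ δ, t (j, δ) ≤ 2 * (1 / (d * Fintype.card ι))) →
      ∃ θ, G₁ c μ θ ∧
        ∑ c', t c' * (if One S x (c.1, c.2, θ) c'.1 ∧ Ev₁ c μ θ c' then 1 else 0) ≤ e)
    (hG₂ : ∀ (c : Jx ι × Δ) (μ : 𝓕 × 𝓕 → ℝ), IsP μ →
      (∀ y, μ y ≠ 0 → dl c.1 y = c.2 ∧ ¬ E (c.1.1.1, y.1) (c.1.1.2, y.2)) →
      (∀ y, μ y * Fintype.card (𝓕 × 𝓕) ≤ 16 * (n / d * Fintype.card Δ)) →
      ∀ t : Jx ι × Δ → ℝ, IsP t →
      (∀ i, ∑ j ∈ Ai i, ∑ δ, t (j, δ) ≤ 2 * (1 / (d * Fintype.card ι))) →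
      ∃ θ, G₂ c μ θ ∧
        ∑ c', t c' * (if One S x (c.1, c.2, θ) c'.1 ∧ Ev₂ c μ θ c' then 1 else 0) ≤ e)
    (c₀ : ℝ) (hc₀ : 0 ≤ c₀)
    (hLoc : ∀ (c : Jx ι × Δ) (μ : 𝓕 × 𝓕 → ℝ) (θ : Θ) (c' : Jx ι × Δ) (μ' : 𝓕 × 𝓕 → ℝ) (θ' : Θ),
      IsP μ → (∀ y, μ y ≠ 0 → dl c.1 y = c.2 ∧ ¬ E (c.1.1.1, y.1) (c.1.1.2, y.2)) →
      (∀ y, μ y * Fintype.card (𝓕 × 𝓕) ≤ 16 * (n / d * Fintype.card Δ)) → G₁ c μ θ →
      IsP μ' → (∀ y, μ' y ≠ 0 → dl c'.1 y = c'.2 ∧ ¬ E (c'.1.1.1, y.1) (c'.1.1.2, y.2)) →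
      (∀ y, μ' y * Fintype.card (𝓕 × 𝓕) ≤ 16 * (n / d * Fintype.card Δ)) → G₂ c' μ' θ' →
      Sys.Live S S x (c.1, c.2, θ) (c'.1, c'.2, θ') → ¬ Ev₁ c μ θ c' → ¬ Ev₂ c' μ' θ' c →
      c₀ ≤ ∑ y, ∑ y', μ y * μ' y' * (if Cf E (ph (c.1, y)) (ph (c'.1, y')) then 1 else 0)) :
    d * (225 / 256 * (S.ρ ^ 4 / 32 - 2 * e) * c₀) * Fintype.card (ι × 𝓕) *
        (d * Fintype.card (ι × 𝓕)) ≤
      ∑ z, ∑ z', w₁ z * w₂ z' * (if Cf E z z' then 1 else 0) := by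
  have hι : (0 : ℝ) < Fintype.card ι := by exact_mod_cast Fintype.card_pos
  have hV : (0 : ℝ) < Fintype.card (ι × 𝓕) := by exact_mod_cast Fintype.card_pos
  have key := asmB dl (law d w₁) (law d w₂) (isP_law hd h1) (isP_law hd h2) (n / d)
    (by positivity) (cap_law hd h1) (cap_law hd h2) Ai (1 / (d * Fintype.card ι))
    (marg_law hd h1) (marg_law hd h2) (fun j y => ¬ E (j.1.1, y.1) (j.1.2, y.2))
    (fun j y h => by
      have h3 : w₁ (ph (j, y)) ≠ 0 := by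
        intro h4
        apply h
        unfold law
        rw [h4, zero_div]
      exact (h1.supp _ h3).2)
    (fun j y h => by
      have h3 : w₂ (ph (j, y)) ≠ 0 := by
        intro h4
        apply h
        unfold law
        rw [h4, zero_div]
      exact (h2.supp _ h3).2)
    (fun x x' => Cf E (ph x) (ph x')) G₁ G₂
    (fun c μ θ c' => One S x (c.1, c.2, θ) c'.1 ∧ Ev₁ c μ θ c')
    (fun c μ θ c' => One S x (c.1, c.2, θ) c'.1 ∧ Ev₂ c μ θ c') e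
    (by
      intro c μ p1 p2 p3 t p4 p5
      obtain ⟨θ, hθ, h⟩ := hG₁ c μ p1 p2 p3 t p4 p5
      refine ⟨θ, hθ, ?_⟩
      convert h)
    (by
      intro c μ p1 p2 p3 t p4 p5
      obtain ⟨θ, hθ, h⟩ := hG₂ c μ p1 p2 p3 t p4 p5
      refine ⟨θ, hθ, ?_⟩
      convert h)
    (Sys.Live S S x) c₀ hc₀
    (fun c μ θ c' μ' θ' p1 p2 p3 p4 q1 q2 q3 q4 hL n1 n2 =>
      hLoc c μ θ c' μ' θ' p1 p2 p3 p4 q1 q2 q3 q4 hL (fun h => n1 ⟨one_left hidx hL, h⟩)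
        (fun h => n2 ⟨one_right hidx hsymm hL, h⟩))
    (S.ρ ^ 4 / 32)
    (fun t₁ t₂ p1 p2 q1 q2 => liveMass S hidx ha hsymm hGood hgen hE hη _ (by positivity) hℓm
      hrm t₁ t₂ p1 p2 q1 q2)
  have e1 : ∑ z, ∑ z', w₁ z * w₂ z' * (if Cf E z z' then (1 : ℝ) else 0) =
      ∑ x, ∑ x', w₁ (ph x) * w₂ (ph x') * (if Cf E (ph x) (ph x') then 1 else 0) := by
    rw [sum_ph (fun z => ∑ z', w₁ z * w₂ z' * (if Cf E z z' then (1 : ℝ) else 0))]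
    · refine Finset.sum_congr rfl fun x _ => ?_
      rw [sum_ph (fun z' => w₁ (ph x) * w₂ z' * (if Cf E (ph x) z' then (1 : ℝ) else 0))]
      intro z' hz'
      refine (h2.supp z' ?_).1
      intro h0
      apply hz'
      rw [h0]
      simp
    · intro z hz
      refine (h1.supp z ?_).1
      intro h0
      apply hz
      refine Finset.sum_eq_zero fun z' _ => ?_
      rw [h0]
      simp
  have e2 : ∑ x, ∑ x', law d w₁ x * law d w₂ x' * (if Cf E (ph x) (ph x') then (1 : ℝ) else 0) =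
      (∑ x, ∑ x', w₁ (ph x) * w₂ (ph x') * (if Cf E (ph x) (ph x') then (1 : ℝ) else 0)) /
        (d * Fintype.card (ι × 𝓕)) ^ 2 := by
    rw [Finset.sum_div]
    refine Finset.sum_congr rfl fun x _ => ?_
    rw [Finset.sum_div]
    refine Finset.sum_congr rfl fun x' _ => ?_
    unfold law
    field_simp
  rw [e1]
  rw [e2, le_div_iff₀ (by positivity)] at key
  refine le_trans (le_of_eq ?_) key
  ring

/-- density of a push-forward along a map with fibres of equal size. -/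
lemma pf_dens {Y Z : Type*} [Fintype Y] [Fintype Z] (p : Y → Z) (k : ℕ)
    (hk : ∀ y, (univ.filter fun y' => p y' = p y).card = k) {μ : Y → ℝ} (h : IsP μ) (M : ℝ)
    (hM : ∀ y, μ y * Fintype.card Y ≤ M) (z : Z) :
    pf p μ z * Fintype.card Z ≤ M * (Fintype.card Z * k / Fintype.card Y) := by
  have hYne : Nonempty Y := by
    by_contra hne
    rw [not_nonempty_iff] at hne
    have := h.sum
    simp at this
  have cY : (0 : ℝ) < Fintype.card Y := by exact_mod_cast Fintype.card_pos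
  have hM0 : 0 ≤ M := (mul_nonneg (h.nonneg hYne.some) cY.le).trans (hM _)
  have h1 : pf p μ z ≤ k * (M / Fintype.card Y) := by
    by_cases hz : ∃ y, p y = z
    · obtain ⟨y, rfl⟩ := hz
      unfold pf
      rw [← Finset.sum_filter]
      refine (Finset.sum_le_sum (g := fun _ => M / Fintype.card Y) fun y' _ => ?_).trans ?_
      · rw [le_div_iff₀ cY]
        exact hM y'
      · rw [Finset.sum_const, nsmul_eq_mul, ← hk y]
    · have h2 : pf p μ z = 0 := by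
        by_contra h3
        obtain ⟨y, hy, -⟩ := pf_ne_zero _ _ _ h3
        exact hz ⟨y, hy⟩
      rw [h2]
      positivity
  calc pf p μ z * Fintype.card Z ≤ k * (M / Fintype.card Y) * Fintype.card Z :=
        mul_le_mul_of_nonneg_right h1 (by positivity)
    _ = M * (Fintype.card Z * k / Fintype.card Y) := by ring

/-- **PLAN B last mile**: raw labels `𝓕`, real labels `Lb`. -/
theorem ssp_gadgetB [Nonempty ι] [Nonempty 𝓕] [DecidableEq Δ] [DecidableEq Θ]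
    {n : ℕ} {d : ℝ} (pr : ι → 𝓕 → Lb) (rel : ι → ι → Lb → Lb → Prop) (hn : 0 < n) (hd : 0 < d)
    (kf : ι → ℕ) (hkf : ∀ i y, (univ.filter fun y' => pr i y' = pr i y).card = kf i)
    (S : Sys ι Ω (Jx ι × Δ × Θ)) (hidx : S.idx = idx2) (ha : S.a = 2)
    (hsymm : ∀ P Q, S.perp P Q → S.perp Q P) {ℓ r : ℕ} {x : ι → Ω} (hGood : S.Good ℓ r x)
    (hgen : Gen S.perp S.ρ x univ) (hE : 1 ≤ S.η * ℓ * S.ρ ^ 4) (hη : S.η ≤ 1 / 4096)
    (hℓm : 4 * ℓ * (2 * (1 / (d * Fintype.card ι))) ≤ S.η * S.ρ ^ 4)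
    (hrm : 256 * (ℓ + r) * (2 * (1 / (d * Fintype.card ι))) ≤ 1)
    (dl : Jx ι → Lb × Lb → Δ) (w₁ w₂ : (ι × 𝓕) × (ι × 𝓕) → ℝ)
    (h1 : AdmX n d (EE pr rel) w₁) (h2 : AdmX n d (EE pr rel) w₂)
    (D : ℝ) (hD : ∀ j : Jx ι, 16 * (n / d * Fintype.card Δ) *
      (Fintype.card (Lb × Lb) * (kf j.1.1 * kf j.1.2 : ℕ) / Fintype.card (𝓕 × 𝓕)) ≤ D)
    (G₁ G₂ : Jx ι × Δ → (Lb × Lb → ℝ) → Θ → Prop)
    (Ev₁ Ev₂ : Jx ι × Δ → (Lb × Lb → ℝ) → Θ → Jx ι × Δ → Prop) (e : ℝ)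
    (hG₁ : ∀ (c : Jx ι × Δ) (μ : Lb × Lb → ℝ), IsP μ →
      (∀ y, μ y ≠ 0 → dl c.1 y = c.2 ∧ ¬ rel c.1.1.1 c.1.1.2 y.1 y.2) →
      (∀ y, μ y * Fintype.card (Lb × Lb) ≤ D) →
      ∀ t : Jx ι × Δ → ℝ, IsP t →
      (∀ i, ∑ j ∈ Ai i, ∑ δ, t (j, δ) ≤ 2 * (1 / (d * Fintype.card ι))) →
      ∃ θ, G₁ c μ θ ∧
        ∑ c', t c' * (if One S x (c.1, c.2, θ) c'.1 ∧ Ev₁ c μ θ c' then 1 else 0) ≤ e)
    (hG₂ : ∀ (c : Jx ι × Δ) (μ : Lb × Lb → ℝ), IsP μ →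
      (∀ y, μ y ≠ 0 → dl c.1 y = c.2 ∧ ¬ rel c.1.1.1 c.1.1.2 y.1 y.2) →
      (∀ y, μ y * Fintype.card (Lb × Lb) ≤ D) →
      ∀ t : Jx ι × Δ → ℝ, IsP t →
      (∀ i, ∑ j ∈ Ai i, ∑ δ, t (j, δ) ≤ 2 * (1 / (d * Fintype.card ι))) →
      ∃ θ, G₂ c μ θ ∧
        ∑ c', t c' * (if One S x (c.1, c.2, θ) c'.1 ∧ Ev₂ c μ θ c' then 1 else 0) ≤ e)
    (c₀ : ℝ) (hc₀ : 0 ≤ c₀)
    (hLoc : ∀ (c : Jx ι × Δ) (μ : Lb × Lb → ℝ) (θ : Θ) (c' : Jx ι × Δ) (μ' : Lb × Lb → ℝ) (θ' : Θ),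
      IsP μ → (∀ y, μ y ≠ 0 → dl c.1 y = c.2 ∧ ¬ rel c.1.1.1 c.1.1.2 y.1 y.2) →
      (∀ y, μ y * Fintype.card (Lb × Lb) ≤ D) → G₁ c μ θ →
      IsP μ' → (∀ y, μ' y ≠ 0 → dl c'.1 y = c'.2 ∧ ¬ rel c'.1.1.1 c'.1.1.2 y.1 y.2) →
      (∀ y, μ' y * Fintype.card (Lb × Lb) ≤ D) → G₂ c' μ' θ' →
      Sys.Live S S x (c.1, c.2, θ) (c'.1, c'.2, θ') → ¬ Ev₁ c μ θ c' → ¬ Ev₂ c' μ' θ' c →
      c₀ ≤ ∑ y, ∑ y', μ y * μ' y' * (if CfR rel c.1 c'.1 y y' then 1 else 0)) :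
    d * (225 / 256 * (S.ρ ^ 4 / 32 - 2 * e) * c₀) * Fintype.card (ι × 𝓕) *
        (d * Fintype.card (ι × 𝓕)) ≤
      ∑ z, ∑ z', w₁ z * w₂ z' * (if Cf (EE pr rel) z z' then 1 else 0) := by
  have hfib : ∀ (j : Jx ι) (y : 𝓕 × 𝓕), (univ.filter fun y' => pp pr j y' = pp pr j y).card =
      kf j.1.1 * kf j.1.2 := by
    intro j y
    have h := card_fiber_prod (pr j.1.1) (pr j.1.2) _ _ (hkf _) (hkf _) y
    unfold pp
    convert h
  have hDn : ∀ (j : Jx ι) (μ : 𝓕 × 𝓕 → ℝ), IsP μ →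
      (∀ y, μ y * Fintype.card (𝓕 × 𝓕) ≤ 16 * (n / d * Fintype.card Δ)) →
      ∀ z, pf (pp pr j) μ z * Fintype.card (Lb × Lb) ≤ D := by
    intro j μ hμ hd' z
    exact (pf_dens (pp pr j) (kf j.1.1 * kf j.1.2) (fun y => by
      convert hfib j y) hμ _ hd' z).trans (hD j)
  have hsupp : ∀ (c : Jx ι × Δ) (μ : 𝓕 × 𝓕 → ℝ),
      (∀ y, μ y ≠ 0 → dl c.1 (pp pr c.1 y) = c.2 ∧
        ¬ EE pr rel (c.1.1.1, y.1) (c.1.1.2, y.2)) →
      ∀ z, pf (pp pr c.1) μ z ≠ 0 → dl c.1 z = c.2 ∧ ¬ rel c.1.1.1 c.1.1.2 z.1 z.2 := by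
    intro c μ hμ z hz
    obtain ⟨y, rfl, hy⟩ := pf_ne_zero _ _ _ hz
    exact hμ y hy
  refine ssp_crossB hn hd S hidx ha hsymm hGood hgen hE hη hℓm hrm
    (fun j y => dl j (pp pr j y)) w₁ w₂ h1 h2
    (fun c μ θ => G₁ c (pf (pp pr c.1) μ) θ) (fun c μ θ => G₂ c (pf (pp pr c.1) μ) θ)
    (fun c μ θ c' => Ev₁ c (pf (pp pr c.1) μ) θ c')
    (fun c μ θ c' => Ev₂ c (pf (pp pr c.1) μ) θ c') e ?_ ?_ c₀ hc₀ ?_
  · intro c μ hμ hs hK t ht htm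
    exact hG₁ c _ (isP_pf _ hμ) (hsupp c μ hs) (hDn c.1 μ hμ hK) t ht htm
  · intro c μ hμ hs hK t ht htm
    exact hG₂ c _ (isP_pf _ hμ) (hsupp c μ hs) (hDn c.1 μ hμ hK) t ht htm
  · intro c μ θ c' μ' θ' hμ hs hK hGμ hμ' hs' hK' hGμ' hLive hE1 hE2
    have := hLoc c (pf (pp pr c.1) μ) θ c' (pf (pp pr c'.1) μ') θ' (isP_pf _ hμ) (hsupp c μ hs)
      (hDn c.1 μ hμ hK) hGμ (isP_pf _ hμ') (hsupp c' μ' hs') (hDn c'.1 μ' hμ' hK') hGμ' hLive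
      hE1 hE2
    rw [sum_pf_pf (pp pr c.1) (pp pr c'.1) μ μ'
      (fun y y' => if CfR rel c.1 c'.1 y y' then (1 : ℝ) else 0)] at this
    exact this

end Crest.Agent.R042.SspB375
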