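import Crest.Agent.R042.PBFam_341
import Crest.Agent.R042.SspB_375
import Crest.Agent.R042.ConfB_461
import Crest.Agent.R042.LocA_726
import Crest.Agent.R042.LocC_958
import Crest.Agent.R042.SymInst_695
import Crest.Agent.R042.Inst_592

/-!
# Plan B of row 42 / S0059: `hG₁`, `hG₂` of `ssp_gadgetB` from the label theorem (59B.20c, helper365)
-/

set_option autoImplicit false
set_option linter.unusedSectionVars false

namespace Crest.Agent.R042.HG365

open Finset Crest.Agent.R042.PB Crest.Agent.R042.RowWin543 Crest.Agent.R042.Fam543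
  Crest.Agent.R042.LocFam958 Crest.Agent.R042.ConfB461 SspAsm375 SspFin375 SspT375 TLev333 SspB375
  Crest.Agent.R042.LocA726 Crest.Agent.R042.Inst592
open scoped Classical

variable {k0 KK : Type} [Field k0] [Field KK] [Algebra k0 KK] [Fintype k0] [Fintype KK]
variable {d L : ℕ}

/-- one-end dead set of a datum -/
def DX (Q : ℕ) (X : Bool → Ty k0 KK d L) (y : Bool × U KK d 2 L) (R : Ty k0 KK d L) : Prop :=
  y.2 ∉ Sp2 Q (X y.1) (X (!y.1)) ∧ deadX Q (X y.1) y.2 R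

/-- two-end dead set of a datum -/
def DX2 (Q : ℕ) (X : Bool → Ty k0 KK d L) (y : Bool × U KK d 2 L) (R R' : Ty k0 KK d L) : Prop :=
  y.2 ∉ Sp2 Q (X y.1) (X (!y.1)) ∧ deadX2 Q (X y.1) y.2 R R'

/-- 341's `killT` -/
def killT (Q : ℕ) (X : Bool → Ty k0 KK d L) (y : Bool × U KK d 2 L) (R : Bool → Ty k0 KK d L) :
    Prop :=
  y.2 ∉ Sp2 Q (X y.1) (X (!y.1)) ∧ kill Q (X y.1) y.2 (R false) (R true)

theorem killT_iff (Q : ℕ) (X : Bool → Ty k0 KK d L) (y : Bool × U KK d 2 L)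
    (R : Bool → Ty k0 KK d L) :
    killT Q X y R ↔ DX Q X y (R false) ∨ DX Q X y (R true) ∨ DX2 Q X y (R false) (R true) ∨
      DX2 Q X y (R true) (R false) := by
  unfold killT kill DX DX2
  tauto

/-- special functionals of `s` -/
def Cs (Q : ℕ) (X : Bool → Ty k0 KK d L) : Submodule k0 (Module.Dual k0 (VV k0 KK d 2 L)) :=
  (VS Q 2 X).dualAnnihilator

/-- the event `Bad` -/
def BadE (Q : ℕ) (kX K₀ η : ℝ) (X R : Bool → Ty k0 KK d L) (μ : VV k0 KK d 2 L → ℝ) : Prop :=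
  BadK (winX Q 2 X R) μ (Cs Q X) kX ∨ BadS (winX Q 2 X R) μ (Cs Q X) K₀ η

/-- the two types of an index pair -/
def XJ {ι : Type*} (T : ι → Ty k0 KK d L) (j : Jx ι) : Bool → Ty k0 KK d L :=
  fun a => T (bif a then j.1.2 else j.1.1)

/-- conclusion of the label theorem (341 #29028) for the index pair `p` and the law `μ` -/
def LabelConcl {ι : Type*} (Q : ℕ) (T : ι → Ty k0 KK d L) (J : ℕ) (kX K₀ η θ m1 : ℝ)
    (p : Bool → ι) (μ : VV k0 KK d 2 L → ℝ) : Prop :=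
  ∀ (κ : Type) [Fintype κ] (r : κ → Bool → ι) (t : κ → ℝ), (∀ x, 0 ≤ t x) → ∑ x, t x ≤ 1 →
    (∀ i, ∑ x with (r x false = i ∨ r x true = i), t x ≤ m1) →
    ∃ Ys : Fin J → Bool × U KK d 2 L,
      ∑ x, t x * (if ((∀ a b, Perp (T (p a)) (T (r x b))) ∧ r x false ≠ r x true) ∧
        (∀ i, ¬ killT Q (fun a => T (p a)) (Ys i) (fun b => T (r x b))) ∧
        (BadK (winX Q 2 (fun a => T (p a)) (fun b => T (r x b))) μ (Cs Q fun a => T (p a)) kX ∨
          BadS (winX Q 2 (fun a => T (p a)) (fun b => T (r x b))) μ (Cs Q fun a => T (p a)) K₀ η)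
        then 1 else 0) ≤ θ

/-- **`hG₁` / `hG₂`** -/
theorem hG {ι : Type} [Fintype ι] [DecidableEq ι] {K : Set k0} (Q : ℕ)
    (x : ι → Om KK K d L) {Δ : Type*} [Fintype Δ] (J : ℕ)
    (S : Sys ι (Om KK K d L) (Jx ι × Δ × (Fin J → Bool × U KK d 2 L)))
    (hperp : ∀ P R, S.perp P R → Perp P.1 R.1)
    (hd1 : ∀ (s : Jx ι × Δ × (Fin J → Bool × U KK d 2 L)) (i : Fin J) (R : Om KK K d L),
      DX Q (XJ (fun i => (x i).1) s.1) (s.2.2 i) R.1 → S.dead s x R)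
    (hd2 : ∀ (s : Jx ι × Δ × (Fin J → Bool × U KK d 2 L)) (i : Fin J) (R R' : Om KK K d L),
      DX2 Q (XJ (fun i => (x i).1) s.1) (s.2.2 i) R.1 R'.1 → S.dead2 s x R R')
    (kX K₀ η θ m1 : ℝ) (c : Jx ι × Δ) (μ : VV k0 KK d 2 L → ℝ)
    (hlab : LabelConcl Q (fun i => (x i).1) J kX K₀ η θ m1
      (fun a => bif a then c.1.1.2 else c.1.1.1) μ)
    (t : Jx ι × Δ → ℝ) (ht : IsP t)
    (hm : ∀ i, ∑ j ∈ Ai i, ∑ δ, t (j, δ) ≤ m1) :
    ∃ ϑ : Fin J → Bool × U KK d 2 L,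
      ∑ c', t c' * (if One S x (c.1, c.2, ϑ) c'.1 ∧
        BadE Q kX K₀ η (XJ (fun i => (x i).1) c.1) (XJ (fun i => (x i).1) c'.1) μ
        then 1 else 0) ≤ θ := by
  -- the marginal law on index pairs
  set t' : Jx ι → ℝ := fun j => ∑ δ, t (j, δ) with ht'
  have ht0 : ∀ j, 0 ≤ t' j := fun j => Finset.sum_nonneg fun δ _ => ht.nonneg _
  have ht1 : ∑ j, t' j ≤ 1 := by
    rw [ht', ← Fintype.sum_prod_type, ht.sum]
  obtain ⟨Ys, hY⟩ := hlab (Jx ι) (fun j b => bif b then j.1.2 else j.1.1) t' ht0 ht1 (by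
    intro i
    refine le_trans (le_of_eq (Finset.sum_congr ?_ fun _ _ => rfl)) (hm i)
    ext j
    simp [Ai])
  refine ⟨Ys, le_trans ?_ hY⟩
  rw [Fintype.sum_prod_type]
  refine Finset.sum_le_sum fun j _ => ?_
  simp only [ht']
  rw [Finset.sum_mul]
  refine Finset.sum_le_sum fun δ _ => ?_
  refine mul_le_mul_of_nonneg_left ?_ (ht.nonneg _)
  by_cases h : One S x (c.1, c.2, Ys) j ∧
      BadE Q kX K₀ η (XJ (fun i => (x i).1) c.1) (XJ (fun i => (x i).1) j) μ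
  · rw [if_pos h, if_pos]
    obtain ⟨⟨hp, hD⟩, hB⟩ := h
    refine ⟨⟨?_, ?_⟩, ?_, hB⟩
    · intro a b
      refine hperp _ _ (hp _ ?_ _ ?_)
      · unfold idx2
        cases a <;> simp
      · cases b <;> simp
    · exact j.2
    · intro i hk
      rw [killT_iff] at hk
      apply hD
      rcases hk with hk | hk | hk | hk
      · exact Or.inl ⟨j.1.1, by simp, hd1 (c.1, c.2, Ys) i (x j.1.1) hk⟩
      · exact Or.inl ⟨j.1.2, by simp, hd1 (c.1, c.2, Ys) i (x j.1.2) hk⟩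
      · exact Or.inr ⟨j.1.1, by simp, j.1.2, by simp, j.2,
          hd2 (c.1, c.2, Ys) i (x j.1.1) (x j.1.2) hk⟩
      · exact Or.inr ⟨j.1.2, by simp, j.1.1, by simp, Ne.symm j.2,
          hd2 (c.1, c.2, Ys) i (x j.1.2) (x j.1.1) hk⟩
  · rw [if_neg h]
    split_ifs <;> norm_num

end Crest.Agent.R042.HG365
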