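import Crest.Agent.R042.PBLabel_341
import Crest.Agent.R042.HG_365

/-!
# Plan B of row 42 / S0059: the label theorem in the form consumed by `HG_365`
-/

set_option autoImplicit false
set_option linter.unusedSectionVars false

namespace Crest.Agent.R042.PBLabel341

open Finset Crest.Agent.R042.RowWin543 Crest.Agent.R042.Fam543 Crest.Agent.R042.PB
open Crest.Agent.R042.LocFam958 (VV lab lab_false lab_true TT EE winX winX_apply NN)
open Crest.Agent.R042.PBMom253 Crest.Agent.R042.ConfB461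

variable {k0 KK : Type} [Field k0] [Field KK] [Algebra k0 KK] {d L : ℕ}

open scoped Classical in
/-- **`LabelConcl` of 365 from the label theorem** -/
theorem labelConcl [Fintype k0] [Fintype KK] [CharP KK 2] {q h m b C : ℕ} (hno : NoK q h m b C)
    (hq : Fintype.card k0 = q) {K : Set k0} (hK : Alph K) {ι : Type} {T : ι → Ty k0 KK d L}
    (hT : ∀ i, Valid K (T i))
    (hLI : ∀ J : Finset ι, J.card ≤ 6 → LinearIndependent KK (fun i : J => (T i).b))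
    (e : ℕ) (hL : 0 < L) (p : Bool → ι) (hp : p false ≠ p true) (m1 : ℝ)
    (μ : VV k0 KK d 2 L → ℝ) (hμ : ∀ f, 0 ≤ μ f) (sμ : ∑ f, μ f = 1) (M : ℝ)
    (hM : ∀ f, μ f * (Fintype.card (VV k0 KK d 2 L) : ℝ) ≤ M) (kX : ℝ) (hkX : 0 ≤ kX)
    (θ δ : ℝ) (J : ℕ) (hθ : 0 < θ) (hJ : Real.log (2 / θ) ≤ δ * J) (hm1δ : 2 * m1 / θ ≤ δ)
    (hδ1 : δ ≤ 1)
    (hnum : M * (2 * ((C : ℝ) *
      (δ ^ h + (Fintype.card (U KK d 2 L) : ℝ) ^ (2 * h + 2) * δ ^ m))) < (kX / 4) ^ (b + 1))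
    (N : ℕ) (hN : 0 < N) (K₀ K₁ : ℝ) (hK₁ : 1 ≤ K₁) (hK₀ : K₁ * (Fintype.card k0 : ℝ) ^ 2 ≤ K₀)
    (η : ℝ) (hη : 0 ≤ η) (hsd : M * 2 ^ N * K₁ ^ (-(η * N / 2)) < η / 2)
    (hNm : 4 * (Fintype.card k0 : ℝ) ^ (2 * N) * m1 ≤ θ) :
    HG365.LabelConcl (2 ^ e) T J kX K₀ η θ m1 p μ := by
  intro κ _ r t ht st hm1
  obtain ⟨Ys, h1⟩ := label hno hq hK hT hLI e hL p hp r t ht st m1 hm1 μ hμ sμ M hM kX hkX θ δ J
    hθ hJ hm1δ hδ1 hnum N hN K₀ K₁ hK₁ hK₀ η hη hsd hNm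
  refine ⟨Ys, le_trans (le_of_eq ?_) h1⟩
  refine Finset.sum_congr rfl fun x _ => ?_
  congr 1
  exact if_congr Iff.rfl rfl rfl

end Crest.Agent.R042.PBLabel341
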