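import Crest.Agent.R042.RowWin_543

/-!
# Plan B of row 42 / S0059 (label level): literal interfaces

`Blk` = the blocks `e = (Q, Q')` of common third types of a pair `s = (P, P')`, seen from one end:
rows `u e`, `u' e`, windows `D e`, `D' e`, special space `Sp`.
-/

set_option autoImplicit false

namespace Crest.Agent.R042.PB

open Finset Crest.Agent.R042.RowWin543

/-- blocks seen from one end -/
structure Blk (k U κ : Type) [Field k] [AddCommGroup U] [Module k U] where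
  u : κ → U
  u' : κ → U
  D : κ → Submodule k U
  D' : κ → Submodule k U
  Sp : Submodule k U

variable {k U κ : Type} [Field k] [AddCommGroup U] [Module k U]

/-- the part of the relation at the block `e` is special (or identically zero) -/
def Triv (B : Blk k U κ) (e : κ) (z z' : U) : Prop :=
  ∃ α : k, z - α • B.u' e ∈ B.Sp ∧ z' + α • B.u e ∈ B.Sp

/-- a relation between the windows of the blocks `e i` -/
def IsRel (B : Blk k U κ) {b : ℕ} (e : Fin b → κ) (z z' : Fin b → U) : Prop :=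
  (∀ i, z i ∈ B.D (e i)) ∧ (∀ i, z' i ∈ B.D' (e i)) ∧
    ∀ f ∈ SymForm k U, ∑ i, (f (B.u (e i)) (z i) + f (B.u' (e i)) (z' i)) = 0

open scoped Classical in
/-- the hypotheses on the law of the blocks -/
structure Hyp [Fintype κ] (B : Blk k U κ) (τ : κ → ℝ) (δ : ℝ) : Prop where
  nonneg : ∀ e, 0 ≤ τ e
  sum : ∑ e, τ e = 1
  sp : ∀ e, B.Sp ≤ B.D e
  sp' : ∀ e, B.Sp ≤ B.D' e
  ind : ∀ e, ∀ a c : k, a • B.u e + c • B.u' e ∈ B.Sp → a = 0 ∧ c = 0
  aniso : ∀ e, ∀ s ∈ B.Sp, ∀ a c : k, s + a • B.u e + c • B.u' e ∈ B.D e → a = 0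
  aniso' : ∀ e, ∀ s ∈ B.Sp, ∀ a c : k, s + a • B.u e + c • B.u' e ∈ B.D' e → c = 0
  h1 : ∀ y : U, ∑ e with (∃ a c : k, (a ≠ 0 ∨ c ≠ 0) ∧ a • B.u e + c • B.u' e - y ∈ B.Sp), τ e ≤ δ
  h2 : ∀ Y : U, Y ∉ B.Sp → ∀ a c : k,
    ∑ e with (Y + a • B.u e + c • B.u' e ∈ B.D e), τ e ≤ δ
  h2' : ∀ Y : U, Y ∉ B.Sp → ∀ a c : k,
    ∑ e with (Y + a • B.u e + c • B.u' e ∈ B.D' e), τ e ≤ δ

open scoped Classical in
/-- the conclusion of PROB -/
def ProbStmt (q : ℕ) (h m : ℕ) : Prop :=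
  ∃ b C : ℕ, Even b ∧ 0 < b ∧
    ∀ (k U κ : Type) [Field k] [Fintype k] [AddCommGroup U] [Module k U] [Fintype U] [Fintype κ]
      (B : Blk k U κ) (τ : κ → ℝ) (δ : ℝ), Fintype.card k = q → 0 ≤ δ → δ ≤ 1 → Hyp B τ δ →
      ∑ e : Fin b → κ with (∃ z z' : Fin b → U, IsRel B e z z' ∧
        b ≤ 4 * (univ.filter fun i => ¬ Triv B (e i) (z i) (z' i)).card), ∏ i, τ (e i) ≤
      (C : ℝ) * (δ ^ h + (Fintype.card U : ℝ) ^ (2 * h + 2) * δ ^ m)

end Crest.Agent.R042.PB
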