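import Crest.Agent.R042.Prob_477
import Crest.Agent.R042.PBDefs_341
import Crest.Agent.R042.Ctrl_420
import Crest.Agent.R042.Cor_420

/-!
# Row 42, plan B: theorem PROB (helper477): `∀ q h m, ProbStmt q h m`
-/

namespace Crest.Agent.R042.PBProb477

open Finset Function Rel477 Seq477 Step477 Prob477 RowWin543
open scoped Classical

noncomputable section

variable {k U κ : Type} [Field k] [AddCommGroup U] [Module k U]

/-- rows modulo the special space -/
def ub (B : PB.Blk k U κ) (e : κ) : Bool → U ⧸ B.Sp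
  | false => B.Sp.mkQ (B.u e)
  | true => B.Sp.mkQ (B.u' e)

/-- windows modulo the special space -/
def Db (B : PB.Blk k U κ) (e : κ) : Bool → Submodule k (U ⧸ B.Sp)
  | false => (B.D e).map B.Sp.mkQ
  | true => (B.D' e).map B.Sp.mkQ

lemma mem_map_iff {S D : Submodule k U} (h : S ≤ D) (x : U) : S.mkQ x ∈ D.map S.mkQ ↔ x ∈ D := by
  rw [← Submodule.mem_comap, Submodule.comap_map_mkQ, sup_eq_right.mpr h]

/-- symmetric forms which kill `Sp` descend -/
lemma descend (S : Submodule k U) (f : U →ₗ[k] U →ₗ[k] k) (hf : ∀ x y, f x y = f y x)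
    (h : ∀ x, ∀ t ∈ S, f x t = 0) :
    ∃ g : (U ⧸ S) →ₗ[k] (U ⧸ S) →ₗ[k] k, (∀ x y, g x y = g y x) ∧
      ∀ x y, g (S.mkQ x) (S.mkQ y) = f x y := by
  have h1 : S ≤ LinearMap.ker f := by
    intro t ht
    rw [LinearMap.mem_ker]
    ext x
    rw [hf t x, h x t ht]; rfl
  let f1 : (U ⧸ S) →ₗ[k] U →ₗ[k] k := S.liftQ f h1
  have hf1 : ∀ x y, f1 (S.mkQ x) y = f x y := fun x y => by
    simp [f1]
  have h2 : S ≤ LinearMap.ker f1.flip := by
    intro t ht
    rw [LinearMap.mem_ker]
    ext x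
    simp only [LinearMap.flip_apply, LinearMap.comp_apply, LinearMap.zero_apply]
    rw [hf1, h x t ht]
  let f2 : (U ⧸ S) →ₗ[k] (U ⧸ S) →ₗ[k] k := S.liftQ f1.flip h2
  have hf2 : ∀ x y, f2 (S.mkQ x) (S.mkQ y) = f y x := fun x y => by
    simp only [f2, Submodule.mkQ_apply, Submodule.liftQ_apply, LinearMap.flip_apply]
    exact hf1 y x
  refine ⟨f2, ?_, fun x y => by rw [hf2, hf]⟩
  intro x y
  obtain ⟨x, rfl⟩ := S.mkQ_surjective x
  obtain ⟨y, rfl⟩ := S.mkQ_surjective y
  rw [hf2, hf2, hf]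

variable [Fintype κ]

lemma law_of_hyp {B : PB.Blk k U κ} {τ : κ → ℝ} {δ : ℝ} (H : PB.Hyp B τ δ) :
    Law τ (ub B) (Db B) δ := by
  have conv : ∀ p : κ → Prop, pr τ p = ∑ e with p e, τ e := by
    intro p
    unfold pr ind
    rw [Finset.sum_filter]
    refine Finset.sum_congr rfl fun x _ => ?_
    split_ifs <;> simp
  refine ⟨H.nonneg, H.sum, ?_, ?_, ?_⟩
  · intro x α hα
    obtain ⟨y, rfl⟩ := B.Sp.mkQ_surjective x
    rw [conv]
    refine le_trans (Finset.sum_le_sum_of_subset_of_nonneg ?_ fun e _ _ => H.nonneg e) (H.h1 y)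
    intro e he
    simp only [Finset.mem_filter, Finset.mem_univ, true_and, Fintype.sum_bool, ub] at he ⊢
    refine ⟨α false, α true, ?_, ?_⟩
    · by_contra hcon
      push Not at hcon
      apply hα
      funext j
      cases j
      · exact hcon.1
      · exact hcon.2
    · rw [← Submodule.Quotient.mk_eq_zero]
      have h3 : B.Sp.mkQ (α false • B.u e + α true • B.u' e - y) = 0 := by
        rw [map_sub, map_add, map_smul, map_smul, ← he]
        abel
      exact h3
  · intro Y α j hY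
    obtain ⟨y, rfl⟩ := B.Sp.mkQ_surjective Y
    have hy : y ∉ B.Sp := by
      intro h
      apply hY
      rw [Submodule.mkQ_apply, Submodule.Quotient.mk_eq_zero]; exact h
    rw [conv]
    cases j
    · refine le_trans (Finset.sum_le_sum_of_subset_of_nonneg ?_ fun e _ _ => H.nonneg e)
        (H.h2 y hy (α false) (α true))
      intro e he
      simp only [Finset.mem_filter, Finset.mem_univ, true_and, Fintype.sum_bool, ub, Db] at he ⊢
      rw [← mem_map_iff (H.sp e)]
      simp only [map_add, map_smul]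
      convert he using 1
      abel
    · refine le_trans (Finset.sum_le_sum_of_subset_of_nonneg ?_ fun e _ _ => H.nonneg e)
        (H.h2' y hy (α false) (α true))
      intro e he
      simp only [Finset.mem_filter, Finset.mem_univ, true_and, Fintype.sum_bool, ub, Db] at he ⊢
      rw [← mem_map_iff (H.sp' e)]
      simp only [map_add, map_smul]
      convert he using 1
      abel
  · intro e α j he
    cases j
    · simp only [Fintype.sum_bool, ub, Db] at he
      have h1 : B.Sp.mkQ (0 + α false • B.u e + α true • B.u' e) ∈ (B.D e).map B.Sp.mkQ := by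
        simp only [map_add, map_smul, map_zero]
        convert he using 1
        abel
      rw [mem_map_iff (H.sp e)] at h1
      exact H.aniso e 0 (Submodule.zero_mem _) _ _ h1
    · simp only [Fintype.sum_bool, ub, Db] at he
      have h1 : B.Sp.mkQ (0 + α false • B.u e + α true • B.u' e) ∈ (B.D' e).map B.Sp.mkQ := by
        simp only [map_add, map_smul, map_zero]
        convert he using 1
        abel
      rw [mem_map_iff (H.sp' e)] at h1
      exact H.aniso' e 0 (Submodule.zero_mem _) _ _ h1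

/-- characters modulo `Sp` -/
def eb (B : PB.Blk k U κ) {b : ℕ} (z z' : Fin b → U) (i : Fin b) : Bool → U ⧸ B.Sp
  | false => B.Sp.mkQ (z i)
  | true => B.Sp.mkQ (z' i)

lemma rel_transfer {B : PB.Blk k U κ} {b : ℕ} {e : Fin b → κ} {z z' : Fin b → U}
    (h : PB.IsRel B e z z') :
    (∀ i j, eb B z z' i j ∈ Db B (e i) j) ∧
      IsRel k (fun p : Fin b × Bool => ub B (e p.1) p.2) (fun p => eb B z z' p.1 p.2) := by
  obtain ⟨h1, h2, h3⟩ := h
  refine ⟨?_, ?_⟩
  · intro i j
    cases j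
    · exact Submodule.mem_map_of_mem (h1 i)
    · exact Submodule.mem_map_of_mem (h2 i)
  · intro f hf
    have := h3 (LinearMap.compl₁₂ f B.Sp.mkQ B.Sp.mkQ) (by
      rw [mem_symForm]
      intro x y
      simp only [LinearMap.compl₁₂_apply]
      exact hf _ _)
    simp only [LinearMap.compl₁₂_apply] at this
    rw [Fintype.sum_prod_type]
    rw [← this]
    refine Finset.sum_congr rfl fun i _ => ?_
    rw [Fintype.sum_bool, add_comm]
    rfl

lemma triv_transfer {B : PB.Blk k U κ} {τ : κ → ℝ} {δ : ℝ} (H : PB.Hyp B τ δ) {b : ℕ}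
    {e : Fin b → κ} {z z' : Fin b → U} {i : Fin b}
    (h : ¬ PB.Triv B (e i) (z i) (z' i)) : ¬ Triv k (ub B (e i)) (eb B z z' i) := by
  intro ht
  apply h
  refine Ctrl420.ctrl B.Sp (B.u (e i)) (B.u' (e i)) (z i) (z' i) (H.ind (e i)) ?_
  intro f hf hk
  obtain ⟨g, hg, hgf⟩ := descend B.Sp f ((mem_symForm f).1 hf) hk
  have := ht g hg
  rw [Fintype.sum_bool] at this
  simp only [ub, eb, hgf] at this
  rw [add_comm]; exact this

/-- COR and LI in the letters of 420 -/
structure CorLI : Prop where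
  li : ∀ (k W κ : Type) [Field k] [AddCommGroup W] [Module k W] [Fintype κ] (u : κ → Bool → W)
    (b : ℕ) (ω : Fin b → κ), LinearIndependent k
      (fun p : {p : Fin b × Bool // p.1 ∉ Dep k u ω} => u (ω p.1.1) p.1.2)
  cor : ∀ (k W κ : Type) [Field k] [Fintype k] [AddCommGroup W] [Module k W] [Fintype κ]
    (τ : κ → ℝ) (u : κ → Bool → W) (D : κ → Bool → Submodule k W) (δ : ℝ) (_ : Law τ u D δ)
    (b h : ℕ), Ex τ (fun ω : Fin b → κ => ind (h ≤ (Dep k u ω).card)) ≤
      (Fintype.card ((Fin h → Fin b) × (Fin h → Bool → k) × (Fin h → Fin b → Bool → k)) : ℝ) * δ ^ h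

/-- the constants -/
def b1 (q h m : ℕ) : ℕ := EHN (q ^ 4) (q ^ (8 + 8 * h) * (2 * m)) + h + 1

theorem prob_of (HC : CorLI) (q h m : ℕ) : PB.ProbStmt q h m := by
  refine ⟨4 * b1 q h m,
    Fintype.card ((Fin h → Fin (4 * b1 q h m)) × (Fin h → Bool → Fin q) ×
      (Fin h → Fin (4 * b1 q h m) → Bool → Fin q)) +
    2 ^ (4 * b1 q h m) * Fintype.card (Pat (Fin q) m (4 * b1 q h m)) * 2 ^ m,
    ⟨2 * b1 q h m, by ring⟩, by unfold b1; omega, ?_⟩
  intro k U κ _ _ _ _ _ _ B τ δ hq hδ0 hδ1 H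
  have L := law_of_hyp H
  set b := 4 * b1 q h m with hb
  have hcardP : Fintype.card (Pat k m b) = Fintype.card (Pat (Fin q) m b) := by
    simp only [Pat, Fintype.card_prod, Fintype.card_fun, Fintype.card_fin, hq]
  have hcardC : Fintype.card ((Fin h → Fin b) × (Fin h → Bool → k) × (Fin h → Fin b → Bool → k))
      = Fintype.card ((Fin h → Fin b) × (Fin h → Bool → Fin q) ×
        (Fin h → Fin b → Bool → Fin q)) := by
    simp only [Fintype.card_prod, Fintype.card_fun, Fintype.card_fin, hq]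
  have hE : ∑ e : Fin b → κ with (∃ z z' : Fin b → U, PB.IsRel B e z z' ∧
        b ≤ 4 * (univ.filter fun i => ¬ PB.Triv B (e i) (z i) (z' i)).card), ∏ i, τ (e i) =
      Ex τ (fun e : Fin b → κ => ind (∃ z z' : Fin b → U, PB.IsRel B e z z' ∧
        b ≤ 4 * (univ.filter fun i => ¬ PB.Triv B (e i) (z i) (z' i)).card)) := by
    unfold Ex ind
    rw [Finset.sum_filter]
    refine Finset.sum_congr (by ext; simp) fun x _ => ?_
    by_cases hx : (∃ z z' : Fin b → U, PB.IsRel B x z z' ∧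
        b ≤ 4 * (univ.filter fun i => ¬ PB.Triv B (x i) (z i) (z' i)).card)
    · rw [if_pos hx]; beta_reduce; rw [if_pos hx, mul_one]
    · rw [if_neg hx]; beta_reduce; rw [if_neg hx, mul_zero]
  rw [hE]
  have hsplit : ∀ e : Fin b → κ, ind (∃ z z' : Fin b → U, PB.IsRel B e z z' ∧
        b ≤ 4 * (univ.filter fun i => ¬ PB.Triv B (e i) (z i) (z' i)).card) ≤
      ind (h ≤ (Dep k (ub B) e).card) +
      ind ((Dep k (ub B) e).card < h ∧ ∃ c : Fin b → Bool → U ⧸ B.Sp,
        (∀ i j, c i j ∈ Db B (e i) j) ∧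
        IsRel k (fun p : Fin b × Bool => ub B (e p.1) p.2) (fun p => c p.1 p.2) ∧
        b1 q h m ≤ (univ.filter (fun i => ¬ Triv k (ub B (e i)) (c i))).card) := by
    intro e
    by_cases hd : h ≤ (Dep k (ub B) e).card
    · rw [ind_true hd]
      have h1 := ind_le_one (∃ z z' : Fin b → U, PB.IsRel B e z z' ∧
        b ≤ 4 * (univ.filter fun i => ¬ PB.Triv B (e i) (z i) (z' i)).card)
      have h2 := ind_nonneg ((Dep k (ub B) e).card < h ∧ ∃ c : Fin b → Bool → U ⧸ B.Sp,
        (∀ i j, c i j ∈ Db B (e i) j) ∧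
        IsRel k (fun p : Fin b × Bool => ub B (e p.1) p.2) (fun p => c p.1 p.2) ∧
        b1 q h m ≤ (univ.filter (fun i => ¬ Triv k (ub B (e i)) (c i))).card)
      linarith
    · rw [ind_false hd, zero_add]
      refine ind_mono ?_
      rintro ⟨z, z', hr, hn⟩
      obtain ⟨hv, hrel⟩ := rel_transfer hr
      refine ⟨by omega, eb B z z', hv, hrel, ?_⟩
      have h1 : (univ.filter fun i => ¬ PB.Triv B (e i) (z i) (z' i)).card ≤
          (univ.filter (fun i => ¬ Triv k (ub B (e i)) (eb B z z' i))).card := by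
        refine Finset.card_le_card ?_
        intro i hi
        simp only [Finset.mem_filter, Finset.mem_univ, true_and] at hi ⊢
        exact triv_transfer H hi
      omega
  refine le_trans (Ex_mono L.nonneg hsplit) ?_
  rw [Ex_add]
  have hA := HC.cor k (U ⧸ B.Sp) κ τ (ub B) (Db B) δ L b h
  rw [hcardC] at hA
  haveI : Fintype (U ⧸ B.Sp) := Fintype.ofSurjective B.Sp.mkQ B.Sp.mkQ_surjective
  have hK4 : Fintype.card (Bool → Bool → k) = q ^ 4 := by
    simp only [Fintype.card_fun, Fintype.card_bool, hq]; ring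
  have hM := main_bound (n := m) (h := h) (b := b) (b₁ := b1 q h m) L (by
    rw [hK4, hq]; unfold b1; omega) (fun ω => HC.li k (U ⧸ B.Sp) κ (ub B) b ω)
  rw [hcardP] at hM
  have hW : (Fintype.card (U ⧸ B.Sp) : ℝ) ≤ (Fintype.card U : ℝ) := by
    have := Fintype.card_le_of_surjective B.Sp.mkQ B.Sp.mkQ_surjective
    exact_mod_cast this
  have hM' : Ex τ (fun ω : Fin b → κ => ind ((Dep k (ub B) ω).card < h ∧
      ∃ e : Fin b → Bool → U ⧸ B.Sp,
      (∀ k j, e k j ∈ Db B (ω k) j) ∧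
      IsRel k (fun p : Fin b × Bool => ub B (ω p.1) p.2) (fun p => e p.1 p.2) ∧
      b1 q h m ≤ (univ.filter (fun i => ¬ Triv k (ub B (ω i)) (e i))).card)) ≤
      (2 ^ b * Fintype.card (Pat (Fin q) m b) * 2 ^ m : ℕ) *
        ((Fintype.card U : ℝ) ^ (2 * h + 2) * δ ^ m) := by
    refine hM.trans ?_
    have h1 : (Fintype.card (U ⧸ B.Sp) : ℝ) ^ (2 * h + 2) ≤ (Fintype.card U : ℝ) ^ (2 * h + 2) :=
      pow_le_pow_left₀ (by positivity) hW _
    have h2 : (2 * δ) ^ m = 2 ^ m * δ ^ m := mul_pow _ _ _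
    rw [h2]
    push_cast
    have h3 : (0:ℝ) ≤ 2 ^ b * (Fintype.card (Pat (Fin q) m b) : ℝ) * 2 ^ m * δ ^ m := by positivity
    nlinarith [mul_le_mul_of_nonneg_left h1 h3]
  have hδh : (0:ℝ) ≤ δ ^ h := pow_nonneg hδ0 _
  have hUm : (0:ℝ) ≤ (Fintype.card U : ℝ) ^ (2 * h + 2) * δ ^ m := by positivity
  push_cast at hA hM' ⊢
  have e1 : (0:ℝ) ≤ (Fintype.card ((Fin h → Fin b) × (Fin h → Bool → Fin q) ×
        (Fin h → Fin b → Bool → Fin q)) : ℝ) := by positivity
  have e2 : (0:ℝ) ≤ 2 ^ b * (Fintype.card (Pat (Fin q) m b) : ℝ) * 2 ^ m := by positivity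
  nlinarith [mul_nonneg e1 hUm, mul_nonneg e2 hδh]

theorem corLI : CorLI where
  li := fun k W κ _ _ _ _ u b ω => Cor420.li_compl (F := k) u ω
  cor := fun k W κ _ _ _ _ _ τ u D δ H b h => Cor420.cor H b h

/-- **PROB** -/
theorem prob (q h m : ℕ) : PB.ProbStmt q h m := prob_of corLI q h m

end

end Crest.Agent.R042.PBProb477
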