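import Mathlib

/-! Row 42 / S0059, PLAN B, numbers of the moment step. -/

set_option autoImplicit false

namespace Crest.Agent.R042.ParamSD375

open Filter

theorem mom_numbers (m1 u1 s : ℝ) (hs : 0 < s) (hm1 : 0 ≤ m1) (hu1 : 0 ≤ u1) (h₀ m₀ : ℕ) :
    ∃ h m : ℕ, h₀ ≤ h ∧ m₀ ≤ m ∧ ∀ (b C : ℕ) (ε : ℝ), 0 < ε → ∀ᶠ X : ℝ in atTop,
      ∀ M' U δ : ℝ, 0 ≤ M' → M' ≤ X ^ m1 → 0 ≤ U → U ≤ X ^ u1 → 0 ≤ δ → δ ≤ X ^ (-s) →
      M' * (2 * (C * (δ ^ h + U ^ (2 * h + 2) * δ ^ m))) < (ε / 4) ^ (b + 1) := by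
  obtain ⟨h, hh⟩ := exists_nat_ge (max ((m1 + 1) / s) h₀)
  obtain ⟨m, hm⟩ := exists_nat_ge (max ((m1 + 1 + u1 * (2 * h + 2)) / s) m₀)
  have hh1 : (m1 + 1) / s ≤ h := (le_max_left _ _).trans hh
  have hh2 : h₀ ≤ h := by exact_mod_cast (le_max_right _ _).trans hh
  have hm1' : (m1 + 1 + u1 * (2 * h + 2)) / s ≤ m := (le_max_left _ _).trans hm
  have hm2 : m₀ ≤ m := by exact_mod_cast (le_max_right _ _).trans hm
  refine ⟨h, m, hh2, hm2, ?_⟩
  intro b C ε hε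
  have hpos : 0 < (ε / 4) ^ (b + 1) := by positivity
  have ev1 : ∀ᶠ X : ℝ in atTop, 4 * C / (ε / 4) ^ (b + 1) < X := eventually_gt_atTop _
  have ev2 : ∀ᶠ X : ℝ in atTop, 1 < X := eventually_gt_atTop _
  filter_upwards [ev1, ev2] with X h1 h2
  intro M' U δ hM0 hM hU0 hU hδ0 hδ
  have hX : 0 < X := by linarith
  rw [div_le_iff₀ hs] at hh1 hm1'
  have p1 : δ ^ h ≤ X ^ (-(s * h)) := by
    have := pow_le_pow_left₀ hδ0 hδ h
    rw [← Real.rpow_natCast (X ^ (-s)) h, ← Real.rpow_mul hX.le] at this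
    rw [show -(s * h) = -s * h by ring]
    exact this
  have p2 : δ ^ m ≤ X ^ (-(s * m)) := by
    have := pow_le_pow_left₀ hδ0 hδ m
    rw [← Real.rpow_natCast (X ^ (-s)) m, ← Real.rpow_mul hX.le] at this
    rw [show -(s * m) = -s * m by ring]
    exact this
  have p3 : U ^ (2 * h + 2) ≤ X ^ (u1 * (2 * h + 2)) := by
    have := pow_le_pow_left₀ hU0 hU (2 * h + 2)
    rw [← Real.rpow_natCast (X ^ u1) (2 * h + 2), ← Real.rpow_mul hX.le] at this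
    push_cast at this
    exact this
  have q1 : M' * δ ^ h ≤ X⁻¹ := by
    calc M' * δ ^ h ≤ X ^ m1 * X ^ (-(s * h)) := by
          refine mul_le_mul hM p1 (by positivity) (by positivity)
      _ = X ^ (m1 + -(s * h)) := (Real.rpow_add hX _ _).symm
      _ ≤ X ^ (-1 : ℝ) := Real.rpow_le_rpow_of_exponent_le h2.le (by nlinarith)
      _ = X⁻¹ := Real.rpow_neg_one X
  have q2 : M' * (U ^ (2 * h + 2) * δ ^ m) ≤ X⁻¹ := by
    calc M' * (U ^ (2 * h + 2) * δ ^ m) ≤ X ^ m1 * (X ^ (u1 * (2 * h + 2)) * X ^ (-(s * m))) := by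
          refine mul_le_mul hM (mul_le_mul p3 p2 (by positivity) (by positivity))
            (by positivity) (by positivity)
      _ = X ^ (m1 + (u1 * (2 * h + 2) + -(s * m))) := by
          rw [← Real.rpow_add hX, ← Real.rpow_add hX]
      _ ≤ X ^ (-1 : ℝ) := Real.rpow_le_rpow_of_exponent_le h2.le (by nlinarith)
      _ = X⁻¹ := Real.rpow_neg_one X
  have q3 : M' * (2 * (C * (δ ^ h + U ^ (2 * h + 2) * δ ^ m))) ≤ 4 * C * X⁻¹ := by
    have e1 : M' * (2 * (C * (δ ^ h + U ^ (2 * h + 2) * δ ^ m))) =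
        2 * C * (M' * δ ^ h + M' * (U ^ (2 * h + 2) * δ ^ m)) := by ring
    rw [e1]
    have : (0 : ℝ) ≤ 2 * C := by positivity
    nlinarith
  refine lt_of_le_of_lt q3 ?_
  rw [div_lt_iff₀ hpos] at h1
  rw [← div_eq_mul_inv, div_lt_iff₀ hX]
  linarith

end Crest.Agent.R042.ParamSD375
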