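import Mathlib

/-! Row 42 / S0059, PLAN B, numbers of the special density step: the constant `K₀` is fixed before
the size `X` of the field; the number `N` of independent blocks is of order `log X`. -/

set_option autoImplicit false

namespace Crest.Agent.R042.ParamSD375

open Filter

theorem sd_numbers (q : ℕ) (hq : 2 ≤ q) (η m1 c : ℝ) (hη : 0 < η) (hm1 : 0 ≤ m1) (hc : 0 < c) :
    ∃ K₀ : ℝ, 1 ≤ K₀ ∧ ∀ᶠ X : ℝ in atTop, ∃ N : ℕ, 0 < N ∧
      X ^ m1 * 2 ^ N * K₀ ^ (-(η * N / 2)) < η / 2 ∧ (q : ℝ) ^ (2 * N) ≤ X ^ c := by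
  have hq1 : (1 : ℝ) < q := by exact_mod_cast hq
  have hlq : 0 < Real.log q := Real.log_pos hq1
  have hl2 : 0 < Real.log 2 := Real.log_pos (by norm_num)
  set a : ℝ := (m1 + 1) * (2 * Real.log q / c) with ha
  have ha0 : 0 < a := by positivity
  set κ : ℝ := 2 / η * (a + Real.log 2) with hκ
  have hκ0 : 0 < κ := by positivity
  refine ⟨Real.exp κ, Real.one_le_exp hκ0.le, ?_⟩
  have ev1 : ∀ᶠ X : ℝ in atTop, Real.exp a * (2 / η) < X := eventually_gt_atTop _
  have ev2 : ∀ᶠ X : ℝ in atTop, 1 < X := eventually_gt_atTop _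
  have ev3 : ∀ᶠ X : ℝ in atTop, 2 * Real.log q / c ≤ Real.log X :=
    Real.tendsto_log_atTop.eventually_ge_atTop _
  filter_upwards [ev1, ev2, ev3] with X h1 h2 h3
  have hX : 0 < X := by linarith
  have hlX : 0 < Real.log X := Real.log_pos h2
  set y : ℝ := c * Real.log X / (2 * Real.log q) with hy
  have hy1 : 1 ≤ y := by
    rw [hy, le_div_iff₀ (by positivity)]
    rw [div_le_iff₀ hc] at h3
    linarith
  refine ⟨⌊y⌋₊, Nat.floor_pos.2 hy1, ?_, ?_⟩
  · have hN : y - 1 < (⌊y⌋₊ : ℝ) := by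
      have := Nat.lt_floor_add_one y
      linarith
    set N : ℝ := (⌊y⌋₊ : ℝ) with hNdef
    have e1 : X ^ m1 = Real.exp (Real.log X * m1) := Real.rpow_def_of_pos hX m1
    have e2 : (2 : ℝ) ^ ⌊y⌋₊ = Real.exp (N * Real.log 2) := by
      rw [hNdef, Real.exp_nat_mul, Real.exp_log (by norm_num)]
    have e3 : Real.exp κ ^ (-(η * N / 2)) = Real.exp (-(κ * (η * N / 2))) := by
      rw [Real.rpow_def_of_pos (Real.exp_pos κ), Real.log_exp]
      congr 1
      ring
    rw [e1, e2, e3, ← Real.exp_add, ← Real.exp_add]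
    have e4 : Real.log X * m1 + N * Real.log 2 + -(κ * (η * N / 2)) = Real.log X * m1 - N * a := by
      rw [hκ]
      field_simp
      ring
    rw [e4]
    have e5 : (y - 1) * a ≤ N * a := mul_le_mul_of_nonneg_right hN.le ha0.le
    have e6 : y * a = (m1 + 1) * Real.log X := by
      rw [hy, ha]
      field_simp
    have e7 : Real.log X * m1 - N * a ≤ a - Real.log X := by nlinarith
    refine lt_of_le_of_lt (Real.exp_le_exp.2 e7) ?_
    rw [Real.exp_sub, Real.exp_log hX, div_lt_iff₀ hX]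
    have := mul_lt_mul_of_pos_right h1 (show (0:ℝ) < η / 2 by positivity)
    have e8 : Real.exp a * (2 / η) * (η / 2) = Real.exp a := by field_simp
    rw [e8] at this
    linarith
  · have hN : (⌊y⌋₊ : ℝ) ≤ y := Nat.floor_le (by linarith)
    have e1 : (q : ℝ) ^ (2 * ⌊y⌋₊) = Real.exp ((2 * ⌊y⌋₊ : ℝ) * Real.log q) := by
      have : (2 * ⌊y⌋₊ : ℝ) = ((2 * ⌊y⌋₊ : ℕ) : ℝ) := by push_cast; ring
      rw [this, Real.exp_nat_mul, Real.exp_log (by linarith)]
    rw [e1, Real.rpow_def_of_pos hX]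
    refine Real.exp_le_exp.2 ?_
    have e2 : y * (2 * Real.log q) = c * Real.log X := by
      rw [hy]
      field_simp
    nlinarith [mul_le_mul_of_nonneg_right hN (show (0:ℝ) ≤ 2 * Real.log q by positivity)]

end Crest.Agent.R042.ParamSD375
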