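import Crest.Agent.R042.ParamBL_763
import Crest.Agent.R042.ParamSD_375
import Crest.Agent.R042.ParamMom_375

/-!
# Row 42 (S0059, plan B): all label-level numbers in one package

Letters of 766: `Kc = q ^ (2 j)`, `N = Kc ^ 17` types, `J = q ^ j` greedy steps, `ρ = Kc⁻¹`,
`θ = cθ ρ ^ 4`, atoms `cm / Kc ^ 17`.  The output is literally the list `numbers` of the label
theorem (341, #29028) with `m1 := cm / Kc ^ 17`.  Own mathematics of the team.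
-/

namespace Crest.Agent.R042.ParamBL763

open Real Filter Topology

/-- `Kc = q ^ (2 j)` tends to infinity -/
theorem tendsto_Kc (q : ℕ) (hq : 2 ≤ q) :
    Tendsto (fun j : ℕ => (q : ℝ) ^ (2 * j)) atTop atTop := by
  have h1 : Tendsto (fun j : ℕ => (q : ℝ) ^ j) atTop atTop :=
    tendsto_pow_atTop_atTop_of_one_lt (by exact_mod_cast (by omega : 1 < q))
  exact h1.comp (tendsto_id.const_mul_atTop' (by norm_num))

theorem sqrt_Kc (q : ℕ) (j : ℕ) :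
    ((q : ℝ) ^ (2 * j)) ^ ((1 : ℝ) / 2) = (q : ℝ) ^ j := by
  have hq : (0 : ℝ) ≤ (q : ℝ) ^ j := by positivity
  rw [pow_mul', ← rpow_natCast ((q : ℝ) ^ j) 2, ← rpow_mul hq]
  norm_num

/-- **the greedy number** with `J = X ^ (1/2)`, `δ = X ^ (-1/4)`, `θ = c (X⁻¹) ^ 4` -/
theorem ev_greedy' {c : ℝ} (hc : 0 < c) :
    ∀ᶠ X : ℝ in atTop, log (2 / (c * X⁻¹ ^ 4)) ≤ X ^ (-(1 / 4) : ℝ) * X ^ ((1 : ℝ) / 2) := by
  have h1 := ev_log (c := 4 + |log (2 / c)|) 1 (b := (1 : ℝ) / 4) (by norm_num)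
  filter_upwards [h1, eventually_gt_atTop (exp 1)] with X h1 h3
  have h0 : 0 < X := (exp_pos 1).trans h3
  have hl1 : 1 ≤ log X := by
    rw [le_log_iff_exp_le h0]; exact h3.le
  have e0 : X ^ (-(1 / 4) : ℝ) * X ^ ((1 : ℝ) / 2) = X ^ ((1 : ℝ) / 4) := by
    rw [← rpow_add h0]; norm_num
  rw [e0]
  rw [pow_one] at h1
  refine le_trans ?_ h1
  have e1 : log (2 / (c * X⁻¹ ^ 4)) = log (2 / c) + 4 * log X := by
    have : 2 / (c * X⁻¹ ^ 4) = (2 / c) * X ^ 4 := by field_simp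
    rw [this, log_mul (by positivity) (by positivity), log_pow]
    norm_num
  rw [e1]
  have := le_abs_self (log (2 / c))
  have h5 : log (2 / c) ≤ |log (2 / c)| * log X := by
    refine this.trans ?_
    nlinarith [abs_nonneg (log (2 / c))]
  linarith

/-- atoms against `δ θ` -/
theorem ev_atom {c cm : ℝ} (hc : 0 < c) :
    ∀ᶠ X : ℝ in atTop, 2 * (cm / X ^ 17) / (c * X⁻¹ ^ 4) ≤ X ^ (-(1 / 4) : ℝ) := by
  have h1 := ev_rpow (2 * |cm| / c) (a := (-13 : ℝ)) (b := -(1 / 4 : ℝ)) (by norm_num)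
  filter_upwards [h1, eventually_gt_atTop 0] with X h1 h0
  refine le_trans ?_ h1
  have e1 : X ^ (-13 : ℝ) = X⁻¹ ^ 13 := by
    rw [rpow_neg h0.le, inv_pow]
    norm_cast
  rw [e1]
  have e2 : 2 * (cm / X ^ 17) / (c * X⁻¹ ^ 4) = 2 * cm / c * X⁻¹ ^ 13 := by
    field_simp
  rw [e2]
  refine mul_le_mul_of_nonneg_right ?_ (by positivity)
  gcongr
  exact le_abs_self cm

/-- special mass against `θ` -/
theorem ev_smass {c cm : ℝ} (hc : 0 < c) :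
    ∀ᶠ X : ℝ in atTop, ∀ s : ℝ, 0 ≤ s → s ≤ X →
      2 * (2 * s * (|cm| / X ^ 17)) ≤ c * X⁻¹ ^ 4 := by
  have h1 := ev_rpow (4 * |cm| / c) (a := (-16 : ℝ)) (b := -4) (by norm_num)
  filter_upwards [h1, eventually_gt_atTop 0] with X h1 h0
  intro s hs hsX
  have e1 : X ^ (-16 : ℝ) = X⁻¹ ^ 16 := by
    rw [rpow_neg h0.le, inv_pow]
    norm_cast
  have e2 : X ^ (-4 : ℝ) = X⁻¹ ^ 4 := by
    rw [rpow_neg h0.le, inv_pow]
    norm_cast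
  rw [e1, e2] at h1
  have e3 : 2 * (2 * s * (|cm| / X ^ 17)) ≤ 2 * (2 * X * (|cm| / X ^ 17)) := by
    gcongr
  refine e3.trans ?_
  have e4 : 2 * (2 * X * (|cm| / X ^ 17)) = c * (4 * |cm| / c * X⁻¹ ^ 16) := by
    field_simp
    ring
  rw [e4]
  exact mul_le_mul_of_nonneg_left h1 hc.le

/-- `X ^ c` beats: `s ≤ X ^ (1/8)` gives `2 s X ^ (-1/4) < 1` -/
theorem ev_small : ∀ᶠ X : ℝ in atTop, ∀ s : ℝ, s ≤ X ^ ((1 : ℝ) / 8) →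
    2 * s * X ^ (-(1 / 4) : ℝ) < 1 := by
  have h1 := ev_rpow 3 (a := (0 : ℝ)) (b := 1 / 8) (by norm_num)
  filter_upwards [h1, eventually_gt_atTop 0] with X h1 h0
  intro s hs
  rw [rpow_zero, mul_one] at h1
  have hp : 0 < X ^ (-(1 / 4) : ℝ) := rpow_pos_of_pos h0 _
  have e1 : X ^ ((1 : ℝ) / 8) * (X ^ ((1 : ℝ) / 8) * X ^ (-(1 / 4) : ℝ)) = 1 := by
    rw [← rpow_add h0, ← rpow_add h0]; norm_num
  have hq : 0 < X ^ ((1 : ℝ) / 8) := rpow_pos_of_pos h0 _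
  have e2 : 2 * s * X ^ (-(1 / 4) : ℝ) ≤ 2 * (X ^ ((1 : ℝ) / 8) * X ^ (-(1 / 4) : ℝ)) := by
    have := mul_le_mul_of_nonneg_right hs hp.le
    linarith
  have hr : 0 < X ^ ((1 : ℝ) / 8) * X ^ (-(1 / 4) : ℝ) := mul_pos hq hp
  nlinarith

theorem ev_small2 : ∀ᶠ X : ℝ in atTop, X ^ (-(1 / 4) : ℝ) ≤ 1 := by
  filter_upwards [eventually_ge_atTop 1] with X h1
  exact rpow_le_one_of_one_le_of_nonpos h1 (by norm_num)

/-- **LABEL NUMBERS** (the list `numbers` of 341's label theorem).  Order of the constants: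
`q, m1, u1, η, cm, cθ, h₀, m₀ ⟶ h, m, K₀ ⟶ b, C, ε ⟶ j`. -/
theorem label_numbers (q : ℕ) (hq : 2 ≤ q) (m1 u1 : ℕ) {η : ℝ} (hη : 0 < η) {cm cθ : ℝ}
    (hcm : 0 ≤ cm) (hcθ : 0 < cθ) (h₀ m₀ : ℕ) :
    ∃ (h m : ℕ) (K₀ : ℝ), h₀ ≤ h ∧ m₀ ≤ m ∧ 1 ≤ K₀ ∧
      ∀ (b C : ℕ) (ε : ℝ), 0 < ε → ∀ᶠ j : ℕ in atTop, ∃ (N : ℕ) (δ : ℝ), 0 < N ∧ 0 < δ ∧ δ ≤ 1 ∧
        0 < cθ * ((q : ℝ) ^ (2 * j))⁻¹ ^ 4 ∧
        log (2 / (cθ * ((q : ℝ) ^ (2 * j))⁻¹ ^ 4)) ≤ δ * ((q ^ j : ℕ) : ℝ) ∧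
        2 * (cm / ((q : ℝ) ^ (2 * j)) ^ 17) / (cθ * ((q : ℝ) ^ (2 * j))⁻¹ ^ 4) ≤ δ ∧
        2 * (2 * (q : ℝ) ^ (2 * N) * (cm / ((q : ℝ) ^ (2 * j)) ^ 17)) ≤
          cθ * ((q : ℝ) ^ (2 * j))⁻¹ ^ 4 ∧
        2 * (q : ℝ) ^ (2 * N) * δ < 1 ∧
        ∀ M U : ℝ, 0 ≤ M → M ≤ ((q : ℝ) ^ (2 * j)) ^ m1 → 0 ≤ U → U ≤ ((q : ℝ) ^ (2 * j)) ^ u1 →
          M * (2 * ((C : ℝ) * (δ ^ h + U ^ (2 * h + 2) * δ ^ m))) < (ε / 4) ^ (b + 1) ∧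
          M * 2 ^ N * K₀ ^ (-(η * N / 2)) < η / 2 := by
  obtain ⟨h, m, hh, hm, hmom⟩ := ParamSD375.mom_numbers m1 u1 (1 / 4) (by norm_num)
    (Nat.cast_nonneg _) (Nat.cast_nonneg _) h₀ m₀
  obtain ⟨K₀, hK₀, hsd⟩ := ParamSD375.sd_numbers q hq η m1 (1 / 8) hη (Nat.cast_nonneg _)
    (by norm_num)
  refine ⟨h, m, K₀, hh, hm, hK₀, ?_⟩
  intro b C ε hε
  have t := tendsto_Kc q hq
  filter_upwards [t.eventually (hmom b C ε hε), t.eventually hsd, t.eventually (ev_greedy' hcθ),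
    t.eventually (ev_atom (cm := cm) hcθ), t.eventually (ev_smass (cm := cm) hcθ),
    t.eventually ev_small, t.eventually ev_small2, t.eventually (eventually_gt_atTop 1)]
    with j e1 e2 e3 e4 e5 e6 e7 e8
  obtain ⟨N, hN, hsdN, hqN⟩ := e2
  have h0 : (0 : ℝ) < (q : ℝ) ^ (2 * j) := by linarith
  refine ⟨N, ((q : ℝ) ^ (2 * j)) ^ (-(1 / 4) : ℝ), hN, rpow_pos_of_pos h0 _, e7, by positivity,
    ?_, e4, ?_, e6 _ hqN, ?_⟩
  · rw [sqrt_Kc] at e3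
    rw [Nat.cast_pow]
    exact e3
  · have hle : ((q : ℝ) ^ (2 * j)) ^ ((1 : ℝ) / 8) ≤ (q : ℝ) ^ (2 * j) := by
      calc ((q : ℝ) ^ (2 * j)) ^ ((1 : ℝ) / 8) ≤ ((q : ℝ) ^ (2 * j)) ^ (1 : ℝ) :=
            rpow_le_rpow_of_exponent_le e8.le (by norm_num)
        _ = _ := rpow_one _
    have := e5 _ (by positivity) (hqN.trans hle)
    rwa [abs_of_nonneg hcm] at this
  · intro M U hM hM' hU hU'
    refine ⟨e1 M U _ hM (by rwa [rpow_natCast]) hU (by rwa [rpow_natCast])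
      (rpow_pos_of_pos h0 _).le le_rfl, ?_⟩
    refine lt_of_le_of_lt ?_ hsdN
    have hK0 : (0 : ℝ) ≤ K₀ ^ (-(η * N / 2)) := rpow_nonneg (by linarith) _
    rw [rpow_natCast]
    gcongr

end Crest.Agent.R042.ParamBL763
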