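import Crest.Agent.R042.PBAsy_713
import Crest.Agent.R042.PBLabel2_341
import Crest.Agent.R042.ParamBL2_763
import Crest.Agent.R042.PBProb_477

/-! Row 42 / S0059, PLAN B: the asymptotic form of the label theorem. -/

set_option autoImplicit false
set_option linter.unusedSectionVars false

namespace Crest.Agent.R042.LabAsy375

open Finset Filter Crest.Agent.R042.RowWin543 Crest.Agent.R042.Fam543
  Crest.Agent.R042.LocFam958 Crest.Agent.R042.SspAsm375 Crest.Agent.R042.Inst592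
open scoped Classical

lemma card_U {KK : Type} [Fintype KK] (d L : ℕ) :
    Fintype.card (U KK d 2 L) = Fintype.card KK ^ (L * (2 * d + 1) ^ 2) := by
  unfold U U0
  rw [Fintype.card_fun, Fintype.card_fun, Fintype.card_fun, Fintype.card_fin, Fintype.card_fin]
  have h : Fintype.card (Ix d) = 2 * d + 1 := by
    simp [Ix, Fintype.card_option, Fintype.card_prod, mul_comm]
  rw [h, ← pow_mul, mul_comm L]

/-- **LABEL THEOREM, asymptotic form.** -/
theorem labelAsy (q : ℕ) (hq : 2 ≤ q) (d L m1 : ℕ) (cm : ℝ) (hcm : 0 ≤ cm) :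
    FinB713.LabelAsy q d L m1 cm := by
  obtain ⟨h, m, K₀, -, -, hK₀, hnumb⟩ := ParamBL763.label_numbers q hq m1
    (L * (2 * d + 1) ^ 2) (η := 1 / 8) (by norm_num) (cm := cm) (cθ := 1 / 128) hcm (by norm_num)
    0 0
  obtain ⟨b, C, -, -, hno⟩ := PBLabel341.noK (PBProb477.prob q h m)
  have hq1 : (1 : ℝ) ≤ (q : ℝ) ^ 2 := by
    have : (1 : ℝ) ≤ q := by exact_mod_cast (by omega : 1 ≤ q)
    nlinarith
  have hK1 : 1 ≤ K₀ * (q : ℝ) ^ 2 := by nlinarith
  refine ⟨K₀ * (q : ℝ) ^ 2, hK1, ?_⟩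
  filter_upwards [hnumb b C (1 / (8 * (K₀ * (q : ℝ) ^ 2))) (by positivity)] with j hj
  obtain ⟨N, δ, hN, hδ0, hδ1, hθ, hJ, hat, hNm, -, hMU⟩ := hj
  intro k0 KK _ _ _ _ _ _ e hk0 he hKK K hK hL ι _ _ x hx p hp μ hμ hM
  have hcK : (Fintype.card KK : ℝ) = (q : ℝ) ^ (2 * j) := by
    rw [hKK]
    push_cast
    rfl
  have hcU : (Fintype.card (U KK d 2 L) : ℝ) = ((q : ℝ) ^ (2 * j)) ^ (L * (2 * d + 1) ^ 2) := by
    rw [card_U, ← hcK]
    push_cast
    rfl
  have hLI : ∀ J : Finset ι, J.card ≤ 6 → LinearIndependent KK (fun i : J => (x i).1.b) :=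
    fun J hJc => Inst592.li_b hx J (by omega)
  obtain ⟨n1, n2⟩ := hMU (((q : ℝ) ^ (2 * j)) ^ m1) (((q : ℝ) ^ (2 * j)) ^ (L * (2 * d + 1) ^ 2))
    (by positivity) le_rfl (by positivity) le_rfl
  rw [hcK]
  refine PBLabel341.labelConcl hno hk0 hK (fun i => (x i).2) hLI e hL p hp _ μ hμ.nonneg hμ.sum
    (((q : ℝ) ^ (2 * j)) ^ m1) ?_ _ (by positivity) _ δ (q ^ j) hθ hJ hat hδ1 ?_ N hN _ K₀ hK₀ ?_
    _ (by norm_num) n2 ?_
  · intro v
    have := hM v
    rw [hcK] at this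
    exact this
  · rw [hcU]
    exact n1
  · rw [hk0]
  · rw [hk0]
    linarith
end Crest.Agent.R042.LabAsy375
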