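import Crest.Agent.R042.TypeAsy_333
import Crest.Agent.R042.LabAsy_375

/-!
# Row 42 / S0059, PLAN B: `PairConfK 100000`
-/

set_option autoImplicit false

namespace Crest.Agent.R042.Fin59

theorem pairConfK (K₀ : ℕ) (hK₀ : 0 < K₀) : S59Spine883.PairConfK K₀ :=
  FinB713.pairConfK_of_asy K₀ hK₀
    (fun q d L m1 cm hq hcm => LabAsy375.labelAsy q hq d L m1 cm hcm)
    SysB333.typeAsy

theorem pairConf : S59Spine883.PairConfK 100000 := pairConfK 100000 (by norm_num)

end Crest.Agent.R042.Fin59
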