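import Crest.Agent.R042.Gadget_220

/-! Row 42 / S0059, PLAN B (few blocks, `2 ≤ kp`): the same-type gadget when the degree of `Γ` is not
bounded by `kp`; instead the `b`'s of the `Γ`-neighbours of every type are linearly independent. -/

set_option autoImplicit false
set_option linter.unusedSectionVars false

namespace Crest.Agent.R042.GadB44

open Finset Crest.Agent.R042.RowWin543 Crest.Agent.R042.Fam543 Crest.Agent.R042.PreRow927
  Crest.Agent.R042.Gadget220

variable {k0 KK : Type} [Field k0] [Field KK] [Algebra k0 KK] [CharP KK 2]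

/-- rows of pairwise non-perpendicular types with linearly independent `b` are independent, even
modulo a window -/
theorem indep_modB {K : Set k0} (hK : Alph K) (e : ℕ) {d L kp : ℕ} (hkp : 2 ≤ kp) {J : Type*}
    [Fintype J] (R : J → Ty k0 KK d L) (hR : ∀ j, Valid K (R j))
    (hli : LinearIndependent KK fun j => (R j).b)
    (hnp : ∀ j j', ¬ Perp (R j) (R j')) (l : Fin L) (c : J → k0)
    (P : Ty k0 KK d L) (j0 : J)
    (hx : ∑ j, c j • uvec (2 ^ e) kp (R j) ∈ UPQ (2 ^ e) kp P (R j0)) : ∀ j, c j = 0 := by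
  classical
  let i0 : Fin kp := ⟨0, by omega⟩
  let i1 : Fin kp := ⟨1, by omega⟩
  have h01 : i0 ≠ i1 := by simp [i0, i1, Fin.ext_iff]
  have h1 : (∑ j, c j • uvec (2 ^ e) kp (R j)) l ∈ T1 (2 ^ e) (R j0).b :=
    (Submodule.mem_inf.1 hx).2 l
  rw [mem_T1] at h1
  have h2 := h1 i1
  have h3 : (∑ j, c j • uvec (2 ^ e) kp (R j)) l
      = ∑ j, (algebraMap k0 KK (c j * (R j).E l) * (R j).lam) •
          (Fam543.Phi (2 ^ e) (R j).b : U0 KK d kp) := by
    rw [Finset.sum_apply]
    refine sum_congr rfl fun j _ => ?_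
    show c j • ((algebraMap k0 KK ((R j).E l) * (R j).lam) •
      (Fam543.Phi (2 ^ e) (R j).b : U0 KK d kp)) = _
    rw [← algebraMap_smul KK (c j), smul_smul, map_mul, mul_assoc]
  rw [h3, map_sum] at h2
  have h4 := Fintype.linearIndependent_iff.1 hli
    (fun j => algebraMap k0 KK (c j * (R j).E l) * (R j).lam *
      (B (R j0).b (R j).b) ^ ((2 ^ e) ^ (i1 : ℕ)))
    (by
      funext x
      let al : Fin kp → Ix d := fun i => if i = i0 then x else none
      have h5 := congrFun h2 al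
      rw [Finset.sum_apply, Pi.zero_apply] at h5
      rw [Finset.sum_apply, Pi.zero_apply, ← h5]
      refine sum_congr rfl fun j _ => ?_
      rw [map_smul, Pi.smul_apply, Pi.smul_apply, smul_eq_mul, smul_eq_mul, contr_Phi, mul_assoc]
      congr 2
      rw [Finset.prod_eq_single i0]
      · simp [al, i0]
      · intro i _ hi
        simp [al, hi, (hR j).b0]
      · intro h
        exact absurd (Finset.mem_erase.2 ⟨h01, mem_univ _⟩) h)
  intro j
  have h6 := h4 j
  have h7 : (B (R j0).b (R j).b) ^ ((2 ^ e) ^ (i1 : ℕ)) ≠ 0 := pow_ne_zero _ (hnp j0 j)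
  have h8 := (mul_eq_zero.1 h6).resolve_right h7
  have h9 := (mul_eq_zero.1 h8).resolve_right (Valid.lam_ne (hR j))
  have h10 : c j * (R j).E l = 0 := by
    rw [← map_zero (algebraMap k0 KK)] at h9
    exact (algebraMap k0 KK).injective h9
  exact (mul_eq_zero.1 h10).resolve_right (hK.ne_zero ((hR j).E l))

variable {r d L kp : ℕ}

noncomputable local instance instACG {W : Type} [AddCommGroup W] [Module k0 W] :
    AddCommGroup (SymForm k0 W) :=
  Submodule.addCommGroup (M := W →ₗ[k0] W →ₗ[k0] k0) (R := k0) (SymForm k0 W)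

/-- two gadget labels along `Γ` are adjacent -/
theorem completeB {K : Set k0} (hK : Alph K) {e : ℕ} {T : Fin r → Ty k0 KK d L}
    {Γ : SimpleGraph (Fin r)}
    (hperp : ∀ i j, Γ.Adj i j → Perp (T i) (T j)) {l0 : Fin L} {i j : Fin r}
    (hij : Γ.Adj i j) {f g : Label k0 KK d kp L} (hf : f ∈ fibre e T Γ.Adj l0 i)
    (hg : g ∈ fibre e T Γ.Adj l0 j) :
    Rel K (2 ^ e) kp (T i) (T j) f g := by
  have hne : i ≠ j := hij.ne
  rcases lt_or_gt_of_ne hne with h | h
  · refine ⟨hperp _ _ hij, 1, hK.one, l0, fun z hz => ?_⟩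
    rw [hf j hij z hz, hg i hij.symm z (by rwa [UPQ_comm]), pre, pre, if_pos h,
      if_neg (not_lt.2 h.le)]
    ring
  · refine ⟨hperp _ _ hij, -1, hK.neg 1 hK.one, l0, fun z hz => ?_⟩
    rw [hf j hij z hz, hg i hij.symm z (by rwa [UPQ_comm]), pre, pre, if_pos h,
      if_neg (not_lt.2 h.le)]
    ring

theorem fibre_nonemptyB {K : Set k0} (hK : Alph K) {e : ℕ} (hkp : 2 ≤ kp)
    {T : Fin r → Ty k0 KK d L} (hT : ∀ i, Valid K (T i)) {Γ : SimpleGraph (Fin r)}
    (hch : ∀ i j k, Γ.Adj i j → Γ.Adj i k → j ≠ k → ¬ Perp (T j) (T k))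
    (hli : ∀ i, LinearIndependent KK (fun j : {j // Γ.Adj i j} => (T j).b))
    (l0 : Fin L) (i : Fin r) :
    (fibre (kp := kp) e T Γ.Adj l0 i).Nonempty := by
  classical
  let J := {j // Γ.Adj i j}
  have hnp : ∀ j j' : J, ¬ Perp (T j.1) (T j'.1) := by
    intro j j'
    by_cases h : j = j'
    · rw [h]; exact (hT j'.1).aniso
    · exact hch i j.1 j'.1 j.2 j'.2 (fun h' => h (Subtype.ext h'))
  have hmod := fun (c : J → k0) (j0 : J) =>
    indep_modB hK e (kp := kp) hkp (fun j : J => T j.1) (fun j => hT j.1) (hli i) hnp l0 c (T i) j0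
  have hli : LinearIndependent k0 (fun j : J => uvec (2 ^ e) kp (T j.1)) := by
    rw [Fintype.linearIndependent_iff]
    intro c hc j0
    exact hmod c j0 (by rw [hc]; exact Submodule.zero_mem _) j0
  obtain ⟨f, hf1, hf2⟩ := exists_symm_rows (fun j : J => uvec (2 ^ e) kp (T j.1))
    (fun j : J => UPQ (2 ^ e) kp (T i) (T j.1)) hli
    (by
      intro j0
      rw [Submodule.disjoint_def]
      intro x hx hx2
      obtain ⟨c, rfl⟩ := (Submodule.mem_span_range_iff_exists_fun k0).1 hx2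
      have := hmod c j0 hx
      simp [this])
    (fun j : J => if i < j.1 then ((tau k0).comp ((LinearMap.proj l0 : U KK d kp L →ₗ[k0] U0 KK d kp))).comp
      (UPQ (2 ^ e) kp (T i) (T j.1)).subtype else 0)
  refine ⟨⟨f, hf1⟩, ?_⟩
  intro j hj z hz
  have h := hf2 ⟨j, hj⟩ z hz
  show f (uvec (2 ^ e) kp (T j)) z = _
  rw [h, pre]
  by_cases hij : i < j
  · simp [hij]
  · simp [hij]

/-- **gadget with linearly independent neighbourhoods** (`2 ≤ kp`), the conclusion of
`Gadget220.exists_gad` and `GadF927.exists_gadget`. -/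
theorem exists_gadB {K : Set k0} (hK : Alph K) [Module.Finite k0 KK] (e : ℕ) (hkp : 2 ≤ kp)
    (hL : 0 < L) (T : Fin r → Ty k0 KK d L) (hT : ∀ i, Valid K (T i))
    (Γ : SimpleGraph (Fin r)) [DecidableRel Γ.Adj] (hperp : ∀ i j, Γ.Adj i j → Perp (T i) (T j))
    (hch : ∀ i j k, Γ.Adj i j → Γ.Adj i k → j ≠ k → ¬ Perp (T j) (T k))
    (hli : ∀ i, LinearIndependent KK (fun j : {j // Γ.Adj i j} => (T j).b)) :
    ∃ (hh : Fin r → Label k0 KK d kp L) (ρ : Fin r → (Label k0 KK d kp L →ₗ[k0] Label k0 KK d kp L)),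
      (∀ i f, ρ i (ρ i f) = ρ i f) ∧
      (∀ i j, Γ.Adj i j → ∀ f g, Rel K (2 ^ e) kp (T i) (T j) (hh i + ρ i f) (hh j + ρ j g)) ∧
      ∀ i, Module.finrank k0 (LinearMap.ker (ρ i)) ≤
        ∑ j ∈ univ.filter (fun j => Γ.Adj i j), Module.finrank k0 (UPQ (2 ^ e) kp (T i) (T j)) := by
  classical
  choose h hh using fun i => fibre_nonemptyB (kp := kp) hK (e := e) hkp hT hch hli ⟨0, hL⟩ i
  choose p hp hp' using fun i => exists_proj (fib0 (kp := kp) e T Γ.Adj i)
  let D : PiData (kp := kp) e T Γ.Adj ⟨0, hL⟩ := ⟨h, p, hh, hp, hp'⟩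
  refine ⟨D.h, D.p, fun i f => D.hp' i _ (D.hp i f), fun i j hij f g => ?_, fun i => ?_⟩
  · exact completeB hK hperp hij (add_mem_fibre (D.hh i) (D.hp i f))
      (add_mem_fibre (D.hh j) (D.hp j g))
  · refine (D.finrank_ker_le i).trans (le_of_eq ?_)
    rw [finsum_eq_sum_of_fintype]
    rw [← Finset.sum_subtype (univ.filter fun j => Γ.Adj i j) (by simp)
      (fun j => Module.finrank k0 (UPQ (2 ^ e) kp (T i) (T j)))]

end Crest.Agent.R042.GadB44
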