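import Crest.Agent.R042.SspT_375

/-! Row 42 / S0059: constructor of a two-index system (`Sys`) from dead sets given on the level of
TYPES (not of samples), and elimination of `Live`. -/

set_option autoImplicit false
set_option linter.unusedSectionVars false

namespace Crest.Agent.R042.SysOf333

open Finset SspAsm375 SspFin375 SspT375 TLev333
open scoped Classical

variable {ι Ω : Type*} [Fintype ι] [DecidableEq ι] [Fintype Ω] {Δ Θ : Type*}

/-- exact numbers of (common) neighbours of two types. -/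
structure Cnt (perp : Ω → Ω → Prop) (ρ : ℝ) (P P' : Ω) : Prop where
  c1 : (((univ.filter fun Q => perp P Q).card : ℕ) : ℝ) = ρ * Fintype.card Ω
  c2 : (((univ.filter fun Q => perp P' Q).card : ℕ) : ℝ) = ρ * Fintype.card Ω
  c12 : (((univ.filter fun Q => perp P Q ∧ perp P' Q).card : ℕ) : ℝ) = ρ ^ 2 * Fintype.card Ω

lemma cnt_of_gen {perp : Ω → Ω → Prop} {ρ : ℝ} {x : ι → Ω} {i i' : ι} (hii : i ≠ i')
    (h : Gen perp ρ x ({i, i'} : Finset ι)) : Cnt perp ρ (x i) (x i') := by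
  have h1 := h {i, i'} (Finset.Subset.refl _) (by rw [Finset.card_pair hii]; norm_num)
  have h2 := h {i} (by simp) (by simp)
  have h3 := h {i'} (by simp) (by simp)
  rw [Finset.card_pair hii] at h1
  rw [Finset.card_singleton, pow_one] at h2 h3
  refine ⟨?_, ?_, ?_⟩
  · rw [← h2]
    refine congrArg _ (congrArg _ ?_)
    ext Q
    refine Iff.trans (@Finset.mem_filter _ _ (_) _ _)
      (Iff.trans (and_congr_right (fun _ => ?_)) (@Finset.mem_filter _ _ (_) _ _).symm)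
    simp
  · rw [← h3]
    refine congrArg _ (congrArg _ ?_)
    ext Q
    refine Iff.trans (@Finset.mem_filter _ _ (_) _ _)
      (Iff.trans (and_congr_right (fun _ => ?_)) (@Finset.mem_filter _ _ (_) _ _).symm)
    simp
  · rw [← h1]
    refine congrArg _ (congrArg _ ?_)
    ext Q
    refine Iff.trans (@Finset.mem_filter _ _ (_) _ _)
      (Iff.trans (and_congr_right (fun _ => ?_)) (@Finset.mem_filter _ _ (_) _ _).symm)
    constructor
    · rintro ⟨h2, h3⟩ j hj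
      rw [Finset.mem_insert, Finset.mem_singleton] at hj
      rcases hj with rfl | rfl
      · exact h2
      · exact h3
    · intro h2
      exact ⟨h2 i (by simp), h2 i' (by simp)⟩

/-- conversely, `Cnt` is genericity of the pair. -/
lemma gen_of_cnt {perp : Ω → Ω → Prop} {ρ : ℝ} {P P' : Ω} (h : Cnt perp ρ P P') :
    Gen perp ρ (![P, P'] : Fin 2 → Ω) univ := by
  intro J _ _
  have key : J = ∅ ∨ J = {0} ∨ J = {1} ∨ J = {0, 1} := by
    revert J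
    decide
  rcases key with rfl | rfl | rfl | rfl
  · simp
  · rw [Finset.card_singleton, pow_one, ← h.c1]
    refine congrArg _ (congrArg _ ?_)
    ext Q
    refine Iff.trans (@Finset.mem_filter _ _ (_) _ _)
      (Iff.trans (and_congr_right (fun _ => ?_)) (@Finset.mem_filter _ _ (_) _ _).symm)
    simp
  · rw [Finset.card_singleton, pow_one, ← h.c2]
    refine congrArg _ (congrArg _ ?_)
    ext Q
    refine Iff.trans (@Finset.mem_filter _ _ (_) _ _)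
      (Iff.trans (and_congr_right (fun _ => ?_)) (@Finset.mem_filter _ _ (_) _ _).symm)
    simp
  · rw [Finset.card_pair (by decide), ← h.c12]
    refine congrArg _ (congrArg _ ?_)
    ext Q
    refine Iff.trans (@Finset.mem_filter _ _ (_) _ _)
      (Iff.trans (and_congr_right (fun _ => ?_)) (@Finset.mem_filter _ _ (_) _ _).symm)
    simp

/-- data of a system on the level of types. -/
structure TData (Ω Δ Θ : Type*) [Fintype Ω] where
  perp : Ω → Ω → Prop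
  ρ : ℝ
  η : ℝ
  θ : ℝ
  ρ0 : 0 < ρ
  ρ1 : ρ ≤ 1
  η0 : 0 < η
  η1 : η ≤ 1
  θ0 : 0 ≤ θ
  /-- one-end dead sets -/
  D1 : Ω → Ω → Δ → Θ → Ω → Prop
  /-- two-end dead sets -/
  D2 : Ω → Ω → Δ → Θ → Ω → Ω → Prop
  D1_le : ∀ P P' δ ϑ, Cnt perp ρ P P' →
    (((univ.filter fun Q => (perp P Q ∧ perp P' Q) ∧ D1 P P' δ ϑ Q).card : ℕ) : ℝ) ≤
      η ^ 2 * ρ ^ 2 * Fintype.card Ω
  D2_le : ∀ P P' δ ϑ, Cnt perp ρ P P' → ∀ Q,
    (((univ.filter fun Q' => D2 P P' δ ϑ Q Q').card : ℕ) : ℝ) ≤ θ * Fintype.card Ω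

namespace TData

variable (T : TData Ω Δ Θ) [Fintype Δ] [Fintype Θ]

/-- the two-index system. -/
def sys : Sys ι Ω (Jx ι × Δ × Θ) where
  perp := T.perp
  idx := idx2
  dead := fun s x Q => T.D1 (x s.1.1.1) (x s.1.1.2) s.2.1 s.2.2 Q
  dead2 := fun s x Q Q' => T.D2 (x s.1.1.1) (x s.1.1.2) s.2.1 s.2.2 Q Q'
  a := 2
  ρ := T.ρ
  η := T.η
  θ := T.θ
  θ0 := T.θ0
  a1 := by norm_num
  a2 := le_rfl
  ρ0 := T.ρ0
  ρ1 := T.ρ1
  η0 := T.η0
  η1 := T.η1
  card_idx := card_idx2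
  loc := by
    intro s x y h
    have h1 := h s.1.1.1 (by unfold idx2; simp)
    have h2 := h s.1.1.2 (by unfold idx2; simp)
    rw [h1, h2]
  loc2 := by
    intro s x y h
    have h1 := h s.1.1.1 (by unfold idx2; simp)
    have h2 := h s.1.1.2 (by unfold idx2; simp)
    rw [h1, h2]
  dead_le := by
    intro s x hG
    have h1 := T.D1_le (x s.1.1.1) (x s.1.1.2) s.2.1 s.2.2 (cnt_of_gen s.1.2 hG)
    refine le_trans (Nat.cast_le.2 (Finset.card_le_card ?_)) h1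
    intro Q hQ
    have hQ' := (@Finset.mem_filter _ _ (_) _ _).1 hQ
    exact (@Finset.mem_filter _ _ (_) _ _).2 ⟨Finset.mem_univ _,
      ⟨hQ'.2.1 _ (by unfold idx2; simp), hQ'.2.1 _ (by unfold idx2; simp)⟩, hQ'.2.2⟩
  dead2_le := by
    intro s x hG Q
    exact T.D2_le (x s.1.1.1) (x s.1.1.2) s.2.1 s.2.2 (cnt_of_gen s.1.2 hG) Q

@[simp] lemma sys_perp : (T.sys (ι := ι)).perp = T.perp := rfl
@[simp] lemma sys_idx : (T.sys (ι := ι)).idx = idx2 := rfl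
@[simp] lemma sys_a : (T.sys (ι := ι)).a = 2 := rfl
@[simp] lemma sys_ρ : (T.sys (ι := ι)).ρ = T.ρ := rfl
@[simp] lemma sys_η : (T.sys (ι := ι)).η = T.η := rfl
@[simp] lemma sys_θ : (T.sys (ι := ι)).θ = T.θ := rfl

/-- alive: all consequences of `Live`. -/
structure Alive (x : ι → Ω) (s s' : Jx ι × Δ × Θ) : Prop where
  p11 : T.perp (x s.1.1.1) (x s'.1.1.1)
  p12 : T.perp (x s.1.1.1) (x s'.1.1.2)
  p21 : T.perp (x s.1.1.2) (x s'.1.1.1)
  p22 : T.perp (x s.1.1.2) (x s'.1.1.2)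
  a1 : ¬ T.D1 (x s.1.1.1) (x s.1.1.2) s.2.1 s.2.2 (x s'.1.1.1)
  a2 : ¬ T.D1 (x s.1.1.1) (x s.1.1.2) s.2.1 s.2.2 (x s'.1.1.2)
  b1 : ¬ T.D1 (x s'.1.1.1) (x s'.1.1.2) s'.2.1 s'.2.2 (x s.1.1.1)
  b2 : ¬ T.D1 (x s'.1.1.1) (x s'.1.1.2) s'.2.1 s'.2.2 (x s.1.1.2)
  a12 : ¬ T.D2 (x s.1.1.1) (x s.1.1.2) s.2.1 s.2.2 (x s'.1.1.1) (x s'.1.1.2)
  a21 : ¬ T.D2 (x s.1.1.1) (x s.1.1.2) s.2.1 s.2.2 (x s'.1.1.2) (x s'.1.1.1)
  b12 : ¬ T.D2 (x s'.1.1.1) (x s'.1.1.2) s'.2.1 s'.2.2 (x s.1.1.1) (x s.1.1.2)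
  b21 : ¬ T.D2 (x s'.1.1.1) (x s'.1.1.2) s'.2.1 s'.2.2 (x s.1.1.2) (x s.1.1.1)

theorem alive {x : ι → Ω} {s s' : Jx ι × Δ × Θ} (h : Sys.Live T.sys T.sys x s s') :
    T.Alive x s s' := by
  obtain ⟨hp, h1, h2⟩ := h
  have m1 : ∀ s : Jx ι × Δ × Θ, s.1.1.1 ∈ idx2 s := fun s => by unfold idx2; simp
  have m2 : ∀ s : Jx ι × Δ × Θ, s.1.1.2 ∈ idx2 s := fun s => by unfold idx2; simp
  unfold Sys.Dead at h1 h2
  push Not at h1 h2
  exact ⟨hp _ (m1 s) _ (m1 s'), hp _ (m1 s) _ (m2 s'), hp _ (m2 s) _ (m1 s'),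
    hp _ (m2 s) _ (m2 s'), h1.1 _ (m1 s'), h1.1 _ (m2 s'), h2.1 _ (m1 s), h2.1 _ (m2 s),
    h1.2 _ (m1 s') _ (m2 s') s'.1.2, h1.2 _ (m2 s') _ (m1 s') (Ne.symm s'.1.2),
    h2.2 _ (m1 s) _ (m2 s) s.1.2, h2.2 _ (m2 s) _ (m1 s) (Ne.symm s.1.2)⟩

end TData

/-- density of a union of two dead sets. -/
lemma card_or_le (perp : Ω → Ω → Prop) (P P' : Ω) (A B : Ω → Prop) (a b : ℝ)
    (hA : (((univ.filter fun Q => (perp P Q ∧ perp P' Q) ∧ A Q).card : ℕ) : ℝ) ≤ a)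
    (hB : (((univ.filter fun Q => (perp P Q ∧ perp P' Q) ∧ B Q).card : ℕ) : ℝ) ≤ b) :
    (((univ.filter fun Q => (perp P Q ∧ perp P' Q) ∧ (A Q ∨ B Q)).card : ℕ) : ℝ) ≤ a + b := by
  have h : (univ.filter fun Q => (perp P Q ∧ perp P' Q) ∧ (A Q ∨ B Q)) ⊆
      (univ.filter fun Q => (perp P Q ∧ perp P' Q) ∧ A Q) ∪
      (univ.filter fun Q => (perp P Q ∧ perp P' Q) ∧ B Q) := by
    intro Q hQ
    rw [Finset.mem_filter] at hQ
    rw [Finset.mem_union, Finset.mem_filter, Finset.mem_filter]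
    rcases hQ.2.2 with h | h
    · exact Or.inl ⟨Finset.mem_univ _, hQ.2.1, h⟩
    · exact Or.inr ⟨Finset.mem_univ _, hQ.2.1, h⟩
  have h2 := (Finset.card_le_card h).trans (Finset.card_union_le _ _)
  have h3 : (((univ.filter fun Q => (perp P Q ∧ perp P' Q) ∧ (A Q ∨ B Q)).card : ℕ) : ℝ) ≤
      (((univ.filter fun Q => (perp P Q ∧ perp P' Q) ∧ A Q).card : ℕ) : ℝ) +
      (((univ.filter fun Q => (perp P Q ∧ perp P' Q) ∧ B Q).card : ℕ) : ℝ) := by
    exact_mod_cast h2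
  linarith

/-- density of a union of two two-end dead sets. -/
lemma card_or_le2 (A B : Ω → Prop) (a b : ℝ)
    (hA : (((univ.filter fun Q => A Q).card : ℕ) : ℝ) ≤ a)
    (hB : (((univ.filter fun Q => B Q).card : ℕ) : ℝ) ≤ b) :
    (((univ.filter fun Q => A Q ∨ B Q).card : ℕ) : ℝ) ≤ a + b := by
  have h2 := card_filter_or_le A B
  have h3 : (((univ.filter fun Q => A Q ∨ B Q).card : ℕ) : ℝ) ≤
      (((univ.filter fun Q => A Q).card : ℕ) : ℝ) + (((univ.filter fun Q => B Q).card : ℕ) : ℝ) := by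
    exact_mod_cast h2
  linarith

end Crest.Agent.R042.SysOf333
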