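import Crest.Agent.R042.Iso_543
import Crest.Agent.R042.SysOf_333

/-!
# Isolation in the shape of `TData` (row 42 / S0059)
-/

set_option autoImplicit false
set_option linter.unusedSectionVars false

namespace Crest.Agent.R042.IsoD543

open Finset Crest.Agent.R042.Fam543 Crest.Agent.R042.RowWin543
open Crest.Agent.R042.Inst592 Crest.Agent.R042.Iso543 Crest.Agent.R042.SysOf333
open scoped Classical

variable {k0 KK : Type} [Field k0] [Field KK] [Algebra k0 KK] {d L kp : ℕ}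

/-- the word `w` is not in `S` on the window of `P, P'` -/
def NotS (K : Set k0) (Q kp : ℕ) (P P' : Ty k0 KK d L) (w : U KK d kp L →ₗ[k0] k0) : Prop :=
  ¬ ∃ c ∈ K, ∃ l, ∀ z ∈ UPQ Q kp P P', w z = c * tau k0 (z l)

/-- `R` is dead for the word `w` -/
def Diso (K : Set k0) (Q kp : ℕ) (P P' : Ty k0 KK d L) (w : U KK d kp L →ₗ[k0] k0)
    (R : Ty k0 KK d L) : Prop :=
  Perp P P' ∧ NotS K Q kp P P' w ∧ w (uvec Q kp R) ∈ K

/-- the difference word of two labels -/
def dword (Q kp : ℕ) (P P' : Ty k0 KK d L) (f f' : Label k0 KK d kp L) :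
    U KK d kp L →ₗ[k0] k0 := f.1 (uvec Q kp P') - f'.1 (uvec Q kp P)

theorem dword_apply (Q kp : ℕ) (P P' : Ty k0 KK d L) (f f' : Label k0 KK d kp L)
    (z : U KK d kp L) : dword Q kp P P' f f' z = f.1 (uvec Q kp P') z - f'.1 (uvec Q kp P) z :=
  LinearMap.sub_apply _ _ _

/-- not adjacent and perpendicular: the difference word is not in `S` -/
theorem notS_of_not_rel (K : Set k0) (Q kp : ℕ) (P P' : Ty k0 KK d L)
    (f f' : Label k0 KK d kp L) (hPP : Perp P P') (h : ¬ Rel K Q kp P P' f f') :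
    NotS K Q kp P P' (dword Q kp P P' f f') := by
  rintro ⟨c, hc, l, hz⟩
  exact h ⟨hPP, c, hc, l, fun z hz' => by rw [← dword_apply]; exact hz z hz'⟩

theorem rel_iff (K : Set k0) (Q kp : ℕ) (P P' : Ty k0 KK d L) (f f' : Label k0 KK d kp L) :
    Rel K Q kp P P' f f' ↔ Perp P P' ∧ ¬ NotS K Q kp P P' (dword Q kp P P' f f') := by
  unfold NotS
  rw [not_not]
  constructor
  · rintro ⟨h, c, hc, l, hz⟩
    exact ⟨h, c, hc, l, fun z hz' => by rw [dword_apply]; exact hz z hz'⟩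
  · rintro ⟨h, c, hc, l, hz⟩
    exact ⟨h, c, hc, l, fun z hz' => by rw [← dword_apply]; exact hz z hz'⟩

/-- the class of a non-adjacent pair: the digit at `R` is not in `K` unless `R` is dead -/
theorem digit_notMem (K : Set k0) (Q kp : ℕ) (P P' R : Ty k0 KK d L) (f f' : Label k0 KK d kp L)
    (hPP : Perp P P') (h : ¬ Rel K Q kp P P' f f')
    (hR : ¬ Diso K Q kp P P' (dword Q kp P P' f f') R) :
    f.1 (uvec Q kp P') (uvec Q kp R) - f'.1 (uvec Q kp P) (uvec Q kp R) ∉ K := by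
  intro hK
  refine hR ⟨hPP, notS_of_not_rel K Q kp P P' f f' hPP h, ?_⟩
  rw [dword_apply]
  exact hK

variable [Fintype k0] [Fintype KK] [DecidableEq k0] [CharP KK 2]

/-- **isolation**, `TData.D1_le` shape -/
theorem diso_le {K : Finset k0} {β : ℝ} (hK : Alph767.Alph k0 K β) (e : ℕ) (he : 0 < e)
    (hcard : Fintype.card KK = (2 ^ e) ^ kp)
    (hQ : (Fintype.card k0 : ℝ) ≤ β * ((2 : ℝ) ^ e - 1))
    (P P' : Om KK (K : Set k0) d L) (w : U KK d kp L →ₗ[k0] k0)
    (hc : Cnt (perp (K : Set k0) d L) ((Fintype.card KK : ℝ)⁻¹) P P') :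
    (((univ.filter fun R : Om KK (K : Set k0) d L =>
      (perp (K : Set k0) d L P R ∧ perp (K : Set k0) d L P' R) ∧
        Diso (K : Set k0) (2 ^ e) kp P.1 P'.1 w R.1).card : ℕ) : ℝ) ≤
      3 * β * ((Fintype.card KK : ℝ)⁻¹) ^ 2 * Fintype.card (Om KK (K : Set k0) d L) := by
  have hKc : 0 < K.card := card_pos.2 ⟨1, hK.one⟩
  have hKr : (0 : ℝ) < K.card := by exact_mod_cast hKc
  have hβ : 0 ≤ β := by
    have := hK.big
    by_contra h
    push Not at h
    nlinarith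
  by_cases h : Perp P.1 P'.1 ∧ NotS (K : Set k0) (2 ^ e) kp P.1 P'.1 w
  · have h1 := iso hK e he hcard hQ P P' h.1 w h.2
    have h2 : (((univ.filter fun R : Om KK (K : Set k0) d L =>
        Perp P.1 R.1 ∧ Perp P'.1 R.1).card : ℕ) : ℝ) =
        ((Fintype.card KK : ℝ)⁻¹) ^ 2 * Fintype.card (Om KK (K : Set k0) d L) := hc.c12
    rw [h2, ← mul_assoc] at h1
    refine le_trans ?_ h1
    have h3 : (univ.filter fun R : Om KK (K : Set k0) d L =>
        (perp (K : Set k0) d L P R ∧ perp (K : Set k0) d L P' R) ∧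
          Diso (K : Set k0) (2 ^ e) kp P.1 P'.1 w R.1) ⊆
        (univ.filter fun R : Om KK (K : Set k0) d L => (Perp P.1 R.1 ∧ Perp P'.1 R.1) ∧
          w (uvec (2 ^ e) kp R.1) ∈ K) := by
      intro R hR
      obtain ⟨_, h4, h5⟩ := mem_filter.1 hR
      exact mem_filter.2 ⟨mem_univ _, h4, mem_coe.1 h5.2.2⟩
    exact_mod_cast card_le_card h3
  · have h3 : (univ.filter fun R : Om KK (K : Set k0) d L =>
        (perp (K : Set k0) d L P R ∧ perp (K : Set k0) d L P' R) ∧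
          Diso (K : Set k0) (2 ^ e) kp P.1 P'.1 w R.1) = ∅ :=
      filter_eq_empty_iff.2 fun R _ h5 => h ⟨h5.2.1, h5.2.2.1⟩
    rw [h3, card_empty, Nat.cast_zero]
    positivity

end Crest.Agent.R042.IsoD543
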