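import Crest.Agent.R042.SysOf_333
import Crest.Agent.R042.Exist_592

/-! Row 42 / S0059: `Cnt` in the frozen family gives linear independence. -/

set_option autoImplicit false
set_option linter.unusedSectionVars false

namespace Crest.Agent.R042.SysOf333

open Finset
open scoped Classical
open Crest.Agent.R042.TLev333 Crest.Agent.R042.Fam543 Crest.Agent.R042.Gen592
open Crest.Agent.R042.Inst592

variable {k0 KK : Type} [Field k0] [Field KK] [Algebra k0 KK] [Fintype k0] [Fintype KK]

theorem li_of_cnt {K : Set k0} (h1 : (1 : k0) ∈ K) {d L : ℕ} {P P' : Om KK K d L}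
    (h : Cnt (perp K d L) ((Fintype.card KK : ℝ)⁻¹) P P') :
    LinearIndependent KK ![vv P, vv P'] := by
  have := Exist592.li_of_gen h1 (gen_of_cnt h) (Finset.mem_univ (0 : Fin 2))
    (Finset.mem_univ (1 : Fin 2)) (by decide)
  exact this

theorem li_b_of_cnt {K : Set k0} (h1 : (1 : k0) ∈ K) {d L : ℕ} {P P' : Om KK K d L}
    (h : Cnt (perp K d L) ((Fintype.card KK : ℝ)⁻¹) P P') :
    LinearIndependent KK ![P.1.b, P'.1.b] := by
  have := Exist592.li_b_of_gen h1 (gen_of_cnt h) (Finset.mem_univ (0 : Fin 2))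
    (Finset.mem_univ (1 : Fin 2)) (by decide)
  exact this

end Crest.Agent.R042.SysOf333
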