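import Crest.Agent.R042.SspB_375
import Crest.Agent.R042.FamK_220
import Crest.Agent.R042.GadB_44
import Crest.Agent.R042.SysFam_333
import Crest.Agent.R042.LocC_958
import Crest.Agent.R042.IsoD_543
import Crest.Agent.R042.Dim_755

/-!
# Row 42 / S0059, plan B: the last mile at one level

`pair_of_level`: from a sample with its gadget graph, the type level data, the label theorem (`hLab`)
and the local conflict bound (`hLoc`) of one level (`KK`, `e`) to `PairConfK K₀`.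
-/

set_option autoImplicit false
set_option linter.unusedSectionVars false

namespace Crest.Agent.R042.FinB713

open Finset Crest.Agent.R042.RowWin543 Crest.Agent.R042.Fam543 Crest.Agent.R042.LocFam958
  Crest.Agent.R042.SspAsm375 Crest.Agent.R042.SspFin375 Crest.Agent.R042.SspT375
  Crest.Agent.R042.SspG375 Crest.Agent.R042.SspB375
  Crest.Agent.R042.TLev333 Crest.Agent.R042.Inst592 Crest.Agent.R042.SysOf333
  Crest.Agent.R042.FamV220 Crest.Agent.R042.IsoD543 Crest.Agent.R042.Dim755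
open scoped Classical

variable {k0 KK : Type} [Field k0] [Field KK] [Algebra k0 KK] {d L : ℕ}

/-- class data: a functional on `U` -/
abbrev Dl (k0 KK : Type) [Field k0] [Field KK] [Algebra k0 KK] (d L : ℕ) : Type :=
  U KK d 2 L →ₗ[k0] k0

/-- label data: `J` tensors, each at one of the two ends -/
abbrev TH (KK : Type) (d L J : ℕ) : Type := Fin J → Bool × U KK d 2 L

instance finiteDl [Finite k0] [Finite KK] : Finite (Dl k0 KK d L) :=
  Finite.of_injective (fun f : Dl k0 KK d L => (fun z => f z : U KK d 2 L → k0))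
    fun _ _ h => LinearMap.ext fun z => congrFun h z

noncomputable instance fintypeDl [Finite k0] [Finite KK] : Fintype (Dl k0 KK d L) :=
  Fintype.ofFinite _

noncomputable instance fintypeTH [Finite KK] (J : ℕ) : Fintype (TH KK d L J) :=
  Fintype.ofFinite _

/-- the pair of types with indices `j` -/
def pj {ι : Type*} (T : ι → Ty k0 KK d L) (j : Jx ι) : Bool → Ty k0 KK d L :=
  fun a => T (bif a then j.1.2 else j.1.1)

theorem card_Dl [Fintype k0] [Fintype KK] :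
    Fintype.card (Dl k0 KK d L) = Fintype.card k0 ^ Module.finrank k0 (U KK d 2 L) := by
  have h := Module.card_eq_pow_finrank (K := k0) (V := Dl k0 KK d L)
  rw [h]
  congr 1
  exact Subspace.dual_finrank_eq

theorem fib_card [Fintype k0] [Fintype KK] (h : Label k0 KK d 2 L)
    (ρ : Label k0 KK d 2 L →ₗ[k0] Label k0 KK d 2 L) (y : Label k0 KK d 2 L) :
    (univ.filter fun y' => h + ρ y' = h + ρ y).card =
      Fintype.card k0 ^ Module.finrank k0 (LinearMap.ker ρ) := by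
  haveI : Fintype (LinearMap.ker ρ) := Fintype.ofFinite _
  have h1 := Module.card_eq_pow_finrank (K := k0) (V := LinearMap.ker ρ)
  rw [← h1, ← Fintype.card_coe]
  refine Fintype.card_congr
    { toFun := fun z => ⟨z.1 - y, ?_⟩
      invFun := fun z => ⟨z.1 + y, ?_⟩
      left_inv := ?_
      right_inv := ?_ }
  · have hz := (mem_filter.1 z.2).2
    rw [LinearMap.mem_ker, map_sub, sub_eq_zero]
    exact add_left_cancel hz
  · rw [mem_filter]
    refine ⟨mem_univ _, ?_⟩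
    have hz : ρ z.1 = 0 := z.2
    rw [map_add, hz, zero_add]
  · intro z
    apply Subtype.ext
    simp
  · intro z
    apply Subtype.ext
    simp

/-- **the last mile at one level** -/
theorem pair_of_level (K₀ : ℕ) (hK₀ : 0 < K₀) : ∃ n0 : ℕ, ∀ n : ℕ, n0 ≤ n →
    ∀ {k0 KK : Type} [Field k0] [Fintype k0] [Field KK] [Fintype KK] [Algebra k0 KK] [CharP KK 2]
      {K : Set k0} (_ : Fam543.Alph K) (e d L N J ℓ r : ℕ) (_ : 0 < L)
      (x : Fin N → Om KK K d L) (_ : Function.Injective fun i => (x i).1.b)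
      (TD : TData (Om KK K d L) (Dl k0 KK d L) (TH KK d L J))
      (_ : TD.perp = perp K d L) (_ : TD.ρ = (Fintype.card KK : ℝ)⁻¹)
      (_ : TD.sys.Good ℓ r x) (_ : Gen (perp K d L) ((Fintype.card KK : ℝ)⁻¹) x univ)
      (_ : 1 ≤ TD.η * ℓ * ((Fintype.card KK : ℝ)⁻¹) ^ 4) (_ : TD.η ≤ 1 / 4096)
      (_ : 4 * ℓ * (32 * K₀ / (N : ℝ)) ≤ TD.η * ((Fintype.card KK : ℝ)⁻¹) ^ 4)
      (_ : 256 * (ℓ + r) * (32 * K₀ / (N : ℝ)) ≤ 1)
      (Γ : SimpleGraph (Fin N)) (DΓ : ℕ)
      (_ : ∀ i j, Γ.Adj i j → Perp (x i).1 (x j).1)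
      (_ : ∀ i, (univ.filter fun j => Γ.Adj i j).card ≤ DΓ)
      (_ : ∀ i j k, Γ.Adj i j → Γ.Adj i k → j ≠ k → ¬ Perp (x j).1 (x k).1)
      (_ : ∀ i, LinearIndependent KK (fun j : {j // Γ.Adj i j} => (x j).1.b))
      (_ : ∀ A B : Finset (Fin N), 1 / (64 * (K₀ : ℝ)) * N ≤ (A.card : ℝ) →
        1 / (64 * (K₀ : ℝ)) * N ≤ (B.card : ℝ) → ∃ i ∈ A, ∃ j ∈ B, Γ.Adj i j)
      (_ : 64 * K₀ ≤ N)
      (BE : (Bool → Ty k0 KK d L) → (Bool → Ty k0 KK d L) → (VV k0 KK d 2 L → ℝ) → Prop)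
      (D e₀ c₀ : ℝ) (_ : 0 ≤ c₀)
      (_ : 16 * (16 * K₀ * n * (Fintype.card KK : ℝ) ^ (L * (2 * d + 1) ^ 2)) *
        ((Fintype.card KK : ℝ) ^ (DΓ * (L * (2 * d - 1) ^ 2))) ^ 2 ≤ D)
      (_ : ∀ (c : Jx (Fin N) × Dl k0 KK d L) (μ : VV k0 KK d 2 L → ℝ), IsP μ →
        (∀ v, μ v * Fintype.card (VV k0 KK d 2 L) ≤ D) →
        ∀ t : Jx (Fin N) × Dl k0 KK d L → ℝ, IsP t →
        (∀ i, ∑ j ∈ Ai i, ∑ δ, t (j, δ) ≤ 32 * K₀ / (N : ℝ)) →
        ∃ θ : TH KK d L J, ∑ c', t c' * (if One TD.sys x (c.1, c.2, θ) c'.1 ∧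
          BE (pj (fun i => (x i).1) c.1) (pj (fun i => (x i).1) c'.1) μ then 1 else 0) ≤ e₀)
      (_ : ∀ (s s' : Jx (Fin N) × Dl k0 KK d L × TH KK d L J) (μ μ' : VV k0 KK d 2 L → ℝ),
        IsP μ → (∀ v, μ v ≠ 0 → dword (2 ^ e) 2 (x s.1.1.1).1 (x s.1.1.2).1 v.1 v.2 = s.2.1 ∧
          ¬ Rel K (2 ^ e) 2 (x s.1.1.1).1 (x s.1.1.2).1 v.1 v.2) →
        IsP μ' → (∀ v, μ' v ≠ 0 → dword (2 ^ e) 2 (x s'.1.1.1).1 (x s'.1.1.2).1 v.1 v.2 = s'.2.1 ∧
          ¬ Rel K (2 ^ e) 2 (x s'.1.1.1).1 (x s'.1.1.2).1 v.1 v.2) →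
        TD.Alive x s s' →
        ¬ BE (pj (fun i => (x i).1) s.1) (pj (fun i => (x i).1) s'.1) μ →
        ¬ BE (pj (fun i => (x i).1) s'.1) (pj (fun i => (x i).1) s.1) μ' →
        c₀ ≤ ∑ v, ∑ v', μ v * μ' v' *
          (if CfR (relF K e 2 fun i => (x i).1) s.1 s'.1 v v' then 1 else 0)),
      64 * K₀ * (N : ℝ) ^ 2 * (n : ℝ) ^ (-(99 : ℝ) / 100) ≤ 1 → 16 * K₀ * N ≤ n →
      (n : ℝ) ^ (-(99 : ℝ) / 100) ≤ 1 / (16 * (K₀ : ℝ)) *
        (225 / 256 * (((Fintype.card KK : ℝ)⁻¹) ^ 4 / 32 - 2 * e₀) * c₀) →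
      S59Spine883.PairConfK K₀ := by
  obtain ⟨n0, H⟩ := FamK220.pairConfK_fam K₀ hK₀
  refine ⟨max n0 1, fun n hn => ?_⟩
  intro k0 KK _ _ _ _ _ _ K hK e d L N J ℓ r hL x hinj TD hTp hTρ hGood hgen hE hη hℓm hrm Γ DΓ
    hΓp hΓd hΓc hΓli hΓx hN BE D e₀ c₀ hc₀ hD hLab hLoc hκN h16 hκ
  have hn0 : n0 ≤ n := (le_max_left _ _).trans hn
  have hn1 : 0 < n := lt_of_lt_of_le one_pos ((le_max_right _ _).trans hn)
  have hKr : (0 : ℝ) < K₀ := by exact_mod_cast hK₀
  have hNpos : 0 < N := by omega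
  haveI : Nonempty (Fin N) := ⟨⟨0, hNpos⟩⟩
  have hNr : (0 : ℝ) < N := by exact_mod_cast hNpos
  obtain ⟨hh, ρ, hρρ, hadj, hker⟩ := GadB44.exists_gadB (kp := 2) hK e le_rfl hL
    (fun i => (x i).1) (fun i => (x i).2) Γ hΓp hΓc hΓli
  -- size of the fibres
  have hfr : ∀ i, Module.finrank k0 (LinearMap.ker (ρ i)) ≤
      DΓ * (L * (Module.finrank k0 KK * (2 * d - 1) ^ 2)) := by
    intro i
    refine (hker i).trans ?_
    refine (Finset.sum_le_sum (g := fun _ => L * (Module.finrank k0 KK * (2 * d - 1) ^ 2))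
      fun j hj => ?_).trans ?_
    · refine le_of_eq (finrank_UPQ_om (kp := 2) e (x i) (x j) ?_)
      intro hb
      have hij : i = j := hinj hb
      have := (mem_filter.1 hj).2
      rw [hij] at this
      exact Γ.loopless.irrefl _ this
    · rw [Finset.sum_const, smul_eq_mul]
      exact Nat.mul_le_mul_right _ (hΓd i)
  set pr : Fin N → Label k0 KK d 2 L → Label k0 KK d 2 L := fun i f => hh i + ρ i f with hpr
  have hdd : (0 : ℝ) < 1 / (16 * (K₀ : ℝ)) := by positivity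
  have hmN : 2 * (1 / (1 / (16 * (K₀ : ℝ)) * Fintype.card (Fin N))) = 32 * K₀ / (N : ℝ) := by
    rw [Fintype.card_fin]
    field_simp
    norm_num
  refine H n hn0 hK e d L 2 (Fin N) (Label k0 KK d 2 L) (fun i => (x i).1) (fun i => (x i).2) pr
    Γ.Adj (fun i j hij f g => hadj i j hij f g) (1 / (64 * (K₀ : ℝ)))
    ((n : ℝ) ^ (-(99 : ℝ) / 100)) ?_ ?_ ?_ ?_ ?_ le_rfl ?_
  · intro A B hA hB
    rw [Fintype.card_fin] at hA hB
    exact hΓx A B hA hB
  · apply le_of_eq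
    field_simp
  · rw [Fintype.card_fin, div_mul_eq_mul_div, one_mul, le_div_iff₀ (by positivity), one_mul]
    exact_mod_cast hN
  · rw [Fintype.card_fin]
    exact hκN
  · rw [Fintype.card_fin]
    exact h16
  · intro w₁ w₂ h1 h2
    have main := ssp_gadgetB (Δ := Dl k0 KK d L) (Θ := TH KK d L J) (n := n)
      (d := 1 / (16 * (K₀ : ℝ))) pr (relF K e 2 fun i => (x i).1) hn1 hdd
      (fun i => Fintype.card k0 ^ Module.finrank k0 (LinearMap.ker (ρ i)))
      (fun i y => fib_card (hh i) (ρ i) y) TD.sys rfl rfl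
      (by
        intro P Q h
        rw [TData.sys_perp, hTp] at h ⊢
        exact perp_symm h)
      hGood (by rw [TData.sys_perp, TData.sys_ρ, hTp, hTρ]; exact hgen)
      (by rw [TData.sys_ρ, TData.sys_η, hTρ]; exact hE) (by rw [TData.sys_η]; exact hη)
      (by rw [hmN, TData.sys_ρ, TData.sys_η, hTρ]; exact hℓm)
      (by rw [hmN]; exact hrm)
      (fun j v => dword (2 ^ e) 2 (x j.1.1).1 (x j.1.2).1 v.1 v.2) w₁ w₂ h1 h2 D ?_
      (fun _ _ _ => True) (fun _ _ _ => True)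
      (fun c μ _ c' => BE (pj (fun i => (x i).1) c.1) (pj (fun i => (x i).1) c'.1) μ)
      (fun c μ _ c' => BE (pj (fun i => (x i).1) c.1) (pj (fun i => (x i).1) c'.1) μ)
      e₀ ?_ ?_ c₀ hc₀ ?_
    · refine le_trans ?_ main
      refine mul_le_mul_of_nonneg_right (mul_le_mul_of_nonneg_right ?_ (by positivity))
        (by positivity)
      rw [TData.sys_ρ, hTρ]
      exact hκ
    · intro j
      have hKK : (Fintype.card KK : ℝ) = (Fintype.card k0 : ℝ) ^ Module.finrank k0 KK := by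
        exact_mod_cast Module.card_eq_pow_finrank (K := k0) (V := KK)
      have hq1 : (1 : ℝ) ≤ Fintype.card k0 := by exact_mod_cast Fintype.card_pos
      have hb : ∀ i, (Fintype.card k0 : ℝ) ^ Module.finrank k0 (LinearMap.ker (ρ i)) ≤
          (Fintype.card KK : ℝ) ^ (DΓ * (L * (2 * d - 1) ^ 2)) := by
        intro i
        rw [hKK, ← pow_mul]
        refine pow_le_pow_right₀ hq1 ((hfr i).trans (le_of_eq ?_))
        ring
      have hV : (0 : ℝ) < Fintype.card (Label k0 KK d 2 L × Label k0 KK d 2 L) := by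
        exact_mod_cast Fintype.card_pos
      have hΔ : (Fintype.card (Dl k0 KK d L) : ℝ) =
          (Fintype.card KK : ℝ) ^ (L * (2 * d + 1) ^ 2) := by
        rw [card_Dl, hKK]
        push_cast
        rw [← pow_mul]
        congr 1
        have e1 : Module.finrank k0 (U KK d 2 L) =
            Module.finrank k0 KK * Module.finrank KK (U KK d 2 L) :=
          (Module.finrank_mul_finrank k0 KK _).symm
        rw [e1]
        congr 1
        rw [Module.finrank_pi_fintype]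
        simp only [Module.finrank_fintype_fun_eq_card, Finset.sum_const, Finset.card_univ,
          Fintype.card_fin, Fintype.card_fun, smul_eq_mul, Fintype.card_option, Fintype.card_prod,
          Fintype.card_bool]
        ring
      refine le_trans (le_of_eq ?_) (le_trans (mul_le_mul_of_nonneg_left
        (mul_le_mul (hb j.1.1) (hb j.1.2) (by positivity) (by positivity)) (?_ : (0 : ℝ) ≤
          16 * (16 * K₀ * n * (Fintype.card KK : ℝ) ^ (L * (2 * d + 1) ^ 2)))) (le_trans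
            (le_of_eq ?_) hD))
      · rw [hΔ]
        push_cast
        field_simp
      · positivity
      · ring
    · intro c μ hμ _ hdens t ht hm
      obtain ⟨θ, hθ⟩ := hLab c μ hμ hdens t ht (fun i => by rw [← hmN]; exact hm i)
      exact ⟨θ, trivial, hθ⟩
    · intro c μ hμ _ hdens t ht hm
      obtain ⟨θ, hθ⟩ := hLab c μ hμ hdens t ht (fun i => by rw [← hmN]; exact hm i)
      exact ⟨θ, trivial, hθ⟩
    · intro c μ θ c' μ' θ' hμ hs _ _ hμ' hs' _ _ hLive hE1 hE2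
      exact hLoc (c.1, c.2, θ) (c'.1, c'.2, θ') μ μ' hμ hs hμ' hs' (TD.alive hLive) hE1 hE2

end Crest.Agent.R042.FinB713
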