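import Crest.Agent.R042.FinS_592

/-!
# Row 42 / S0059, plan B: the number of pieces
-/

set_option autoImplicit false
set_option linter.unusedSectionVars false

namespace Crest.Agent.R042.FinS592

open Finset Crest.Agent.R042.RowWin543 Crest.Agent.R042.Fam543 Crest.Agent.R042.LocFam958
  Crest.Agent.R042.SspFin375 Crest.Agent.R042.FinB713 Crest.Agent.R042.SampNum592
open Filter
open scoped Classical

variable {k0 KK : Type} [Field k0] [Fintype k0] [Field KK] [Fintype KK] [Algebra k0 KK]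

theorem finrank_U (d L : ℕ) : Module.finrank KK (U KK d 2 L) = L * (2 * d + 1) ^ 2 := by
  rw [Module.finrank_pi_fintype]
  simp only [Module.finrank_fintype_fun_eq_card, Finset.sum_const, Finset.card_univ,
    Fintype.card_fin, Fintype.card_fun, smul_eq_mul, Fintype.card_option, Fintype.card_prod,
    Fintype.card_bool]
  ring

theorem card_U (d L : ℕ) [Fintype (U KK d 2 L)] :
    Fintype.card (U KK d 2 L) = Fintype.card KK ^ (L * (2 * d + 1) ^ 2) := by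
  rw [← finrank_U (KK := KK) d L]
  exact Module.card_eq_pow_finrank (K := KK) (V := U KK d 2 L)

theorem card_Dl' (d L : ℕ) :
    Fintype.card (Dl k0 KK d L) = Fintype.card KK ^ (L * (2 * d + 1) ^ 2) := by
  rw [card_Dl, ← Module.finrank_mul_finrank k0 KK (U KK d 2 L), finrank_U, pow_mul,
    ← Module.card_eq_pow_finrank (K := k0) (V := KK)]

theorem card_TH (d L J : ℕ) :
    Fintype.card (TH KK d L J) = (2 * Fintype.card KK ^ (L * (2 * d + 1) ^ 2)) ^ J := by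
  have : Fintype (U KK d 2 L) := Fintype.ofFinite _
  rw [← Nat.card_eq_fintype_card, Nat.card_fun, Nat.card_prod, Nat.card_eq_fintype_card (α := Bool),
    Fintype.card_bool, Nat.card_eq_fintype_card (α := U KK d 2 L), Nat.card_eq_fintype_card,
    Fintype.card_fin, card_U]

theorem card_Jx (N : ℕ) : Fintype.card (Jx (Fin N)) ≤ N ^ 2 := by
  have h := Fintype.card_subtype_le (fun p : Fin N × Fin N => p.1 ≠ p.2)
  rw [Fintype.card_prod, Fintype.card_fin, ← pow_two] at h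
  refine le_trans (le_of_eq ?_) h
  exact Fintype.card_congr (Equiv.refl _)

/-- number of pieces -/
theorem card_sigma (N d L J : ℕ) :
    Fintype.card (Jx (Fin N) × Dl k0 KK d L × TH KK d L J) ≤
      N ^ 2 * (Fintype.card KK ^ (L * (2 * d + 1) ^ 2)) *
        (2 * Fintype.card KK ^ (L * (2 * d + 1) ^ 2)) ^ J := by
  rw [Fintype.card_prod, Fintype.card_prod, card_Dl', card_TH, ← mul_assoc]
  exact Nat.mul_le_mul_right _ (Nat.mul_le_mul_right _ (card_Jx N))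

/-- number of pieces, letters of `SampNum592.nums` with `c = 2`. -/
theorem card_sigma_q (q j d L J : ℕ) (hq : 2 ≤ q) (hKK : Fintype.card KK = q ^ (2 * j))
    (hJ : J ≤ 2 * q ^ j) :
    Fintype.card (Jx (Fin ((q ^ (2 * j)) ^ 17)) × Dl k0 KK d L × TH KK d L J) ≤
      ((q ^ (2 * j)) ^ 17) ^ 2 * (2 * (q ^ (2 * j)) ^ (L * (2 * d + 1) ^ 2)) *
        (2 * (q ^ (2 * j)) ^ (L * (2 * d + 1) ^ 2)) ^ (2 * q ^ j) := by
  refine (card_sigma _ d L J).trans ?_
  rw [hKK]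
  have h1 : 1 ≤ (q ^ (2 * j)) ^ (L * (2 * d + 1) ^ 2) := Nat.one_le_pow _ _ (by positivity)
  refine Nat.mul_le_mul (Nat.mul_le_mul_left _ (by omega)) ?_
  exact Nat.pow_le_pow_right (by omega) hJ

/-- **all numbers of `pair_of_sample` on the type level** hold for large `j`
(`|KK| = q^(2j)`, `N = |KK|^17`, `J ≤ 2 q^j`, `θ ≤ 2 q^j / |KK|^(2d)`). -/
theorem nums_fin (q : ℕ) (hq : 2 ≤ q) (K₀ : ℕ) (hK₀ : 0 < K₀) (η ρ0 : ℝ) (hη : 0 < η)
    (hρ0 : 0 < ρ0) (m d L : ℕ) (hd : 18 * (m + 1) ≤ 2 * d) (hd' : 52 ≤ 2 * d) (c : ℕ)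
    (hc : 2 ≤ c) :
    ∀ᶠ j : ℕ in atTop, ∃ B : ℕ, ∀ (k0 KK : Type) [Field k0] [Fintype k0] [Field KK] [Fintype KK]
      [Algebra k0 KK], Fintype.card KK = q ^ (2 * j) → ∀ (J : ℕ) (θ : ℝ), J ≤ 2 * q ^ j →
      θ ≤ c * (q : ℝ) ^ j / ((q : ℝ) ^ (2 * j)) ^ (2 * d) →
      Nums (1 / (64 * (K₀ : ℝ))) (32 * K₀) η ρ0 m d (Fintype.card KK) ((q ^ (2 * j)) ^ 17) B
        (Fintype.card (Jx (Fin ((q ^ (2 * j)) ^ 17)) × Dl k0 KK d L × TH KK d L J)) θ := by
  have hKr : (1 : ℝ) ≤ K₀ := by exact_mod_cast hK₀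
  have hε : (0 : ℝ) < 1 / (64 * (K₀ : ℝ)) := by positivity
  filter_upwards [nums q hq (1 / (64 * (K₀ : ℝ))) (32 * K₀) η ρ0 hε (by linarith) hη hρ0
    (L * (2 * d + 1) ^ 2) (L * (2 * d + 1) ^ 2) c m d hd hd'] with j hj
  obtain ⟨B, hB⟩ := hj
  refine ⟨B, ?_⟩
  intro k0 KK _ _ _ _ _ hKK J θ hJ hθ
  rw [hKK]
  refine hB _ θ ((card_sigma_q (k0 := k0) (KK := KK) q j d L J hq hKK hJ).trans ?_) hθ
  have h1 : 1 ≤ (q ^ (2 * j)) ^ (L * (2 * d + 1) ^ 2) := Nat.one_le_pow _ _ (by positivity)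
  refine Nat.mul_le_mul (Nat.mul_le_mul_left _ (Nat.mul_le_mul_right _ hc)) ?_
  refine (Nat.pow_le_pow_left (Nat.mul_le_mul_right _ hc) _).trans ?_
  exact Nat.pow_le_pow_right (by nlinarith) (Nat.mul_le_mul_right _ hc)

end Crest.Agent.R042.FinS592
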