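import Mathlib

/-! Row 42 / S0059: all numeric hypotheses of `SampAll592.sample_all` hold for large `|KK|`
(plan B: `|KK| = t ^ 2`, `t = q ^ j`, `N = |KK| ^ 17` types). -/

set_option autoImplicit false

namespace Crest.Agent.R042.SampNum592

open Filter

/-- the numeric hypotheses of `sample_all` for `|KK| = Kc`, `N` types, `s` pieces. -/
structure Nums (ε M η ρ0 : ℝ) (m d Kc N B s : ℕ) (θ : ℝ) : Prop where
  hρ : (Kc : ℝ)⁻¹ ≤ ρ0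
  hI : 2 ≤ N
  hgen : (N : ℝ) ^ (m + 1) * ((Kc : ℝ) ^ m / (Kc : ℝ) ^ (2 * d)) ≤ 1 / 16
  hB1 : 1 ≤ B
  hB : 52 * M ≤ B * ((Kc : ℝ)⁻¹) ^ 4
  hN : 100 * (B : ℝ) ^ 2 ≤ N * (η ^ 5 * ((Kc : ℝ)⁻¹) ^ 8)
  hσ : s + 1 ≤ 2 ^ B
  hθ : θ * (N : ℝ) ^ 3 ≤ 1
  hIB : N + 1 ≤ 2 ^ B
  hB' : 52 * (1 / ε) ≤ B * ((Kc : ℝ)⁻¹) ^ 4
  hN' : 100 * (B : ℝ) ^ 2 ≤ N * ((ε / 6656) ^ 5 * ((Kc : ℝ)⁻¹) ^ 8)

theorem log_part (t s u c B : ℕ) (ht : 2 * s + c + c ^ 2 + 2 * u * c + 2 ≤ t) (hB : t ^ 8 ≤ B) :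
    (t ^ 2) ^ s * c * (c * (t ^ 2) ^ u) ^ (c * t) + 1 ≤ 2 ^ B := by
  have ht0 : 2 ≤ t := by omega
  have h1 : t ≤ 2 ^ t := Nat.lt_two_pow_self.le
  have h2 : c ≤ 2 ^ c := Nat.lt_two_pow_self.le
  have h3 : t ^ 2 ≤ 2 ^ (2 * t) := by
    calc t ^ 2 ≤ (2 ^ t) ^ 2 := Nat.pow_le_pow_left h1 2
      _ = 2 ^ (2 * t) := by rw [← pow_mul, mul_comm]
  have h4 : (t ^ 2) ^ s ≤ 2 ^ (2 * t * s) := by
    calc (t ^ 2) ^ s ≤ (2 ^ (2 * t)) ^ s := Nat.pow_le_pow_left h3 s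
      _ = _ := by rw [← pow_mul]
  have h5 : (t ^ 2) ^ u ≤ 2 ^ (2 * t * u) := by
    calc (t ^ 2) ^ u ≤ (2 ^ (2 * t)) ^ u := Nat.pow_le_pow_left h3 u
      _ = _ := by rw [← pow_mul]
  have h6 : (c * (t ^ 2) ^ u) ^ (c * t) ≤ 2 ^ ((c + 2 * t * u) * (c * t)) := by
    calc _ ≤ (2 ^ c * 2 ^ (2 * t * u)) ^ (c * t) := Nat.pow_le_pow_left (Nat.mul_le_mul h2 h5) _
      _ = _ := by rw [← pow_add, ← pow_mul]
  have h7 : (t ^ 2) ^ s * c * (c * (t ^ 2) ^ u) ^ (c * t) ≤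
      2 ^ (2 * t * s + c + (c + 2 * t * u) * (c * t)) := by
    calc _ ≤ 2 ^ (2 * t * s) * 2 ^ c * 2 ^ ((c + 2 * t * u) * (c * t)) :=
          Nat.mul_le_mul (Nat.mul_le_mul h4 h2) h6
      _ = _ := by rw [← pow_add, ← pow_add]
  have h8 : 2 * t * s + c + (c + 2 * t * u) * (c * t) + 1 ≤ t ^ 8 := by
    have e1 : 2 * t * s + c + (c + 2 * t * u) * (c * t) + 1 ≤
        (2 * s + c + c ^ 2 + 2 * u * c + 2) * t ^ 2 := by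
      have a1 : t ≤ t ^ 2 := by nlinarith
      have a2 : 1 ≤ t ^ 2 := by nlinarith
      have b1 : 2 * t * s ≤ 2 * s * t ^ 2 := by nlinarith [Nat.mul_le_mul_left (2 * s) a1]
      have b2 : c ≤ c * t ^ 2 := by nlinarith [Nat.mul_le_mul_left c a2]
      have b3 : c * (c * t) ≤ c ^ 2 * t ^ 2 := by nlinarith [Nat.mul_le_mul_left (c ^ 2) a1]
      have b4 : 2 * t * u * (c * t) = 2 * u * c * t ^ 2 := by ring
      nlinarith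
    have e2 : (2 * s + c + c ^ 2 + 2 * u * c + 2) * t ^ 2 ≤ t * t ^ 2 :=
      Nat.mul_le_mul_right _ ht
    have e3 : t * t ^ 2 ≤ t ^ 8 := by
      calc t * t ^ 2 = t ^ 3 := by ring
        _ ≤ t ^ 8 := Nat.pow_le_pow_right (by omega) (by norm_num)
    omega
  have h9 : 2 ^ (2 * t * s + c + (c + 2 * t * u) * (c * t) + 1) ≤ 2 ^ B :=
    Nat.pow_le_pow_right (by norm_num) (h8.trans hB)
  have h10 : 1 ≤ 2 ^ (2 * t * s + c + (c + 2 * t * u) * (c * t)) := Nat.one_le_two_pow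
  calc _ ≤ 2 ^ (2 * t * s + c + (c + 2 * t * u) * (c * t)) +
        2 ^ (2 * t * s + c + (c + 2 * t * u) * (c * t)) := Nat.add_le_add h7 h10
    _ = 2 ^ (2 * t * s + c + (c + 2 * t * u) * (c * t) + 1) := by rw [pow_succ]; ring
    _ ≤ _ := h9

/-- core form in `t = √|KK|`. `s` counts the pieces, `θ` is the two-point density. -/
theorem nums_t (ε M η ρ0 : ℝ) (hε : 0 < ε) (hM : 1 ≤ M) (hη : 0 < η) (hρ0 : 0 < ρ0)
    (a u c m d : ℕ) (hd : 18 * (m + 1) ≤ 2 * d) (hd' : 52 ≤ 2 * d) :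
    ∃ T : ℕ, ∀ t : ℕ, T ≤ t → ∃ B : ℕ, ∀ (s : ℕ) (θ : ℝ),
      s ≤ ((t ^ 2) ^ 17) ^ 2 * (c * (t ^ 2) ^ a) * (c * (t ^ 2) ^ u) ^ (c * t) →
      θ ≤ c * t / ((t : ℝ) ^ 2) ^ (2 * d) →
      Nums ε M η ρ0 m d (t ^ 2) ((t ^ 2) ^ 17) B s θ := by
  set M' : ℝ := max M (1 / ε) with hM'
  have hM'1 : 1 ≤ M' := hM.trans (le_max_left _ _)
  have hε6 : 0 < ε / 6656 := by positivity
  set T1 : ℕ := ⌈1 / ρ0⌉₊ + ⌈291600 * M' ^ 2 / η ^ 5⌉₊ + ⌈291600 * M' ^ 2 / (ε / 6656) ^ 5⌉₊ with hT1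
  refine ⟨T1 + 16 + (2 * (34 + a) + c + c ^ 2 + 2 * u * c + 2) + (2 * 17 + 1 + 1 + 2 + c), ?_⟩
  intro t ht
  have ht16 : 16 ≤ t := by omega
  have ht0 : (16 : ℝ) ≤ t := by exact_mod_cast ht16
  have htT : (T1 : ℝ) ≤ t := by exact_mod_cast (by omega : T1 ≤ t)
  have hX : (t : ℝ) ≤ (t : ℝ) ^ 2 := by nlinarith
  have hX16 : (16 : ℝ) ≤ (t : ℝ) ^ 2 := by linarith
  have hX0 : (0 : ℝ) < (t : ℝ) ^ 2 := by linarith
  have hX1 : (1 : ℝ) ≤ (t : ℝ) ^ 2 := by linarith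
  have r1 : 1 / ρ0 ≤ t := by
    have e1 := Nat.le_ceil (1 / ρ0)
    have e2 : ((⌈1 / ρ0⌉₊ : ℕ) : ℝ) ≤ t := by
      exact_mod_cast (by omega : ⌈1 / ρ0⌉₊ ≤ t)
    linarith
  have r2 : 291600 * M' ^ 2 / η ^ 5 ≤ t := by
    have e1 := Nat.le_ceil (291600 * M' ^ 2 / η ^ 5)
    have e2 : ((⌈291600 * M' ^ 2 / η ^ 5⌉₊ : ℕ) : ℝ) ≤ t := by
      exact_mod_cast (by omega : ⌈291600 * M' ^ 2 / η ^ 5⌉₊ ≤ t)
    linarith
  have r3 : 291600 * M' ^ 2 / (ε / 6656) ^ 5 ≤ t := by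
    have e1 := Nat.le_ceil (291600 * M' ^ 2 / (ε / 6656) ^ 5)
    have e2 : ((⌈291600 * M' ^ 2 / (ε / 6656) ^ 5⌉₊ : ℕ) : ℝ) ≤ t := by
      exact_mod_cast (by omega : ⌈291600 * M' ^ 2 / (ε / 6656) ^ 5⌉₊ ≤ t)
    linarith
  set X : ℝ := (t : ℝ) ^ 2 with hXdef
  set B : ℕ := ⌈52 * M' * X ^ 4⌉₊ + 1 with hBdef
  have hB0 : 52 * M' * X ^ 4 ≤ (B : ℝ) := by
    have e1 := Nat.le_ceil (52 * M' * X ^ 4)
    rw [hBdef]; push_cast; linarith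
  have hX4 : 1 ≤ X ^ 4 := one_le_pow₀ hX1
  have hBle : (B : ℝ) ≤ 54 * M' * X ^ 4 := by
    have e1 := (Nat.ceil_lt_add_one (show 0 ≤ 52 * M' * X ^ 4 by positivity)).le
    have e2 : 1 ≤ M' * X ^ 4 := by nlinarith
    rw [hBdef]; push_cast
    nlinarith
  have hBt : t ^ 8 ≤ B := by
    have e1 : ((t ^ 8 : ℕ) : ℝ) ≤ (B : ℝ) := by
      push_cast
      have e2 : (t : ℝ) ^ 8 = X ^ 4 := by rw [hXdef]; ring
      rw [e2]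
      have e3 : X ^ 4 ≤ 52 * M' * X ^ 4 := by nlinarith [mul_nonneg (by linarith : (0:ℝ) ≤ 52 * M' - 1) (by positivity : (0:ℝ) ≤ X ^ 4)]
      linarith
    exact_mod_cast e1
  have hBx : ∀ κ : ℝ, κ ≤ M' → 52 * κ ≤ B * (X⁻¹) ^ 4 := by
    intro κ hκ
    rw [inv_pow, ← div_eq_mul_inv, le_div_iff₀ (by positivity)]
    refine le_trans ?_ hB0
    exact mul_le_mul_of_nonneg_right (by linarith) (by positivity)
  have hNx : ∀ κ : ℝ, 0 < κ → 291600 * M' ^ 2 / κ ^ 5 ≤ t →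
      100 * (B : ℝ) ^ 2 ≤ X ^ 17 * (κ ^ 5 * (X⁻¹) ^ 8) := by
    intro κ hκ0 hκ
    rw [div_le_iff₀ (by positivity)] at hκ
    have e1 : (B : ℝ) ^ 2 ≤ (54 * M' * X ^ 4) ^ 2 := pow_le_pow_left₀ (by positivity) hBle 2
    have e2 : 291600 * M' ^ 2 ≤ X * κ ^ 5 :=
      hκ.trans (mul_le_mul_of_nonneg_right hX (by positivity))
    have e3 : X ^ 17 * (κ ^ 5 * (X⁻¹) ^ 8) = X * κ ^ 5 * X ^ 8 := by
      rw [inv_pow]
      field_simp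
    rw [e3]
    calc 100 * (B : ℝ) ^ 2 ≤ 100 * (54 * M' * X ^ 4) ^ 2 := by linarith
      _ = 291600 * M' ^ 2 * X ^ 8 := by ring
      _ ≤ X * κ ^ 5 * X ^ 8 := mul_le_mul_of_nonneg_right e2 (by positivity)
  have hcast : (((t ^ 2 : ℕ) : ℕ) : ℝ) = X := by rw [hXdef]; push_cast; rfl
  have hcastN : ((((t ^ 2) ^ 17 : ℕ) : ℕ) : ℝ) = X ^ 17 := by rw [hXdef]; push_cast; rfl
  refine ⟨B, ?_⟩
  intro s θ hs hθ
  refine ⟨?_, ?_, ?_, ?_, ?_, ?_, ?_, ?_, ?_, ?_, ?_⟩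
  · rw [hcast, inv_le_comm₀ hX0 hρ0, ← one_div]
    exact r1.trans hX
  · have : 2 ≤ t ^ 2 := by nlinarith
    exact this.trans (Nat.le_self_pow (by norm_num) _)
  · rw [hcast, hcastN, ← pow_mul, ← mul_div_assoc, ← pow_add,
      div_le_div_iff₀ (by positivity) (by norm_num), one_mul]
    have e1 : X ^ (17 * (m + 1) + m) * X ≤ X ^ (2 * d) := by
      rw [← pow_succ]
      exact pow_le_pow_right₀ hX1 (by omega)
    have e2 : X ^ (17 * (m + 1) + m) * 16 ≤ X ^ (17 * (m + 1) + m) * X :=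
      mul_le_mul_of_nonneg_left hX16 (by positivity)
    exact e2.trans e1
  · omega
  · rw [hcast]
    exact hBx M (le_max_left _ _)
  · rw [hcast, hcastN]
    exact hNx η hη r2
  · have e1 := log_part t (34 + a) u c B (by omega) hBt
    have e2 : ((t ^ 2) ^ 17) ^ 2 * (c * (t ^ 2) ^ a) * (c * (t ^ 2) ^ u) ^ (c * t) =
        (t ^ 2) ^ (34 + a) * c * (c * (t ^ 2) ^ u) ^ (c * t) := by
      rw [pow_add, ← pow_mul (t ^ 2) 17 2]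
      ring
    rw [e2] at hs
    omega
  · rw [hcastN]
    have e0 : (c : ℝ) ≤ t := by exact_mod_cast (by omega : c ≤ t)
    have e1 : (c : ℝ) * t ≤ X := by
      rw [hXdef, pow_two]
      exact mul_le_mul_of_nonneg_right e0 (by positivity)
    have e2 : θ ≤ X / X ^ (2 * d) :=
      hθ.trans (div_le_div_of_nonneg_right e1 (by positivity))
    calc θ * (X ^ 17) ^ 3 ≤ X / X ^ (2 * d) * (X ^ 17) ^ 3 :=
          mul_le_mul_of_nonneg_right e2 (by positivity)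
      _ = X ^ 52 / X ^ (2 * d) := by ring
      _ ≤ 1 := by
          rw [div_le_one (by positivity)]
          exact pow_le_pow_right₀ hX1 hd'
  · have e1 := log_part t 17 0 1 B (by omega) hBt
    have e2 : (t ^ 2) ^ 17 ≤ (t ^ 2) ^ 17 * 1 * (1 * (t ^ 2) ^ 0) ^ (1 * t) := by simp
    omega
  · rw [hcast]
    exact hBx (1 / ε) (le_max_right _ _)
  · rw [hcast, hcastN]
    exact hNx (ε / 6656) hε6 r3

/-- **all numeric hypotheses of `sample_all`**, plan B letters: `|KK| = (q^j)^2`,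
`N = |KK|^17`. -/
theorem nums (q : ℕ) (hq : 2 ≤ q) (ε M η ρ0 : ℝ) (hε : 0 < ε) (hM : 1 ≤ M) (hη : 0 < η)
    (hρ0 : 0 < ρ0) (a u c m d : ℕ) (hd : 18 * (m + 1) ≤ 2 * d) (hd' : 52 ≤ 2 * d) :
    ∀ᶠ j : ℕ in atTop, ∃ B : ℕ, ∀ (s : ℕ) (θ : ℝ),
      s ≤ ((q ^ (2 * j)) ^ 17) ^ 2 * (c * (q ^ (2 * j)) ^ a) *
        (c * (q ^ (2 * j)) ^ u) ^ (c * q ^ j) →
      θ ≤ c * (q : ℝ) ^ j / ((q : ℝ) ^ (2 * j)) ^ (2 * d) →
      Nums ε M η ρ0 m d (q ^ (2 * j)) ((q ^ (2 * j)) ^ 17) B s θ := by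
  obtain ⟨T, hT⟩ := nums_t ε M η ρ0 hε hM hη hρ0 a u c m d hd hd'
  filter_upwards [eventually_ge_atTop T] with j hj
  have h1 : j < q ^ j := Nat.lt_pow_self (by omega)
  obtain ⟨B, hB⟩ := hT (q ^ j) (by omega)
  refine ⟨B, ?_⟩
  intro s θ hs hθ
  have e1 : q ^ (2 * j) = (q ^ j) ^ 2 := by rw [← pow_mul, mul_comm]
  rw [e1] at hs ⊢
  refine hB s θ hs ?_
  have e2 : (q : ℝ) ^ (2 * j) = ((q : ℝ) ^ j) ^ 2 := by rw [← pow_mul, mul_comm]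
  rw [e2] at hθ
  push_cast
  exact hθ

end Crest.Agent.R042.SampNum592
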