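import Crest.Agent.R042.SampAll_592
import Crest.Agent.R042.SampNum_592

/-! Row 42 / S0059: `sample_all` with the numeric hypotheses packed in `SampNum592.Nums`. -/

set_option autoImplicit false
set_option linter.unusedSectionVars false

namespace Crest.Agent.R042.SampB592

open Finset Function
open scoped Classical
open Crest.Agent.R042.TLev333 Crest.Agent.R042.Fam543 Crest.Agent.R042.Gen592
open Crest.Agent.R042.Inst592 Crest.Agent.R042.SampNum592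

/-- **THE SAMPLE THEOREM**, numeric hypotheses packed. -/
theorem sampleB (ε : ℝ) (hε : 0 < ε) (hε1 : ε ≤ 1) :
    ∃ (D : ℕ) (ρ0 : ℝ), 0 < ρ0 ∧
      ∀ (k0 KK : Type) [Field k0] [Field KK] [Algebra k0 KK] [Fintype k0] [Fintype KK]
        [CharP KK 2] (K : Set k0) (_h1 : (1 : k0) ∈ K) (d L : ℕ) (I σ : Type)
        [Fintype I] [DecidableEq I] [Fintype σ] [DecidableEq σ]
        (m : ℕ) (_hm : 7 ≤ m)
        (S : Sys I (Om KK K d L) σ) (_hSρ : S.ρ = (Fintype.card KK : ℝ)⁻¹)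
        (M : ℝ) (B : ℕ) (_hM : 1 ≤ M) (_hη : 6656 * M * S.η ≤ 1)
        (_hn : Nums ε M S.η ρ0 m d (Fintype.card KK) (Fintype.card I) B (Fintype.card σ) S.θ)
        (ι : Type) (s : Finset ι) (bad : ι → (I → Om KK K d L) → Prop) (c : ι → ℝ)
        (_hbad : ∀ i ∈ s, (((univ.filter fun x => bad i x).card : ℕ) : ℝ) ≤
          c i * (Fintype.card (Om KK K d L) : ℝ) ^ Fintype.card I)
        (_hc : ∑ i ∈ s, c i ≤ 1 / 2),
        ∃ (ℓ r : ℕ) (x : I → Om KK K d L),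
          LI KK vv (m + 1) x ∧ LI KK vv 8 x ∧
          Gen (perp K d L) ((Fintype.card KK : ℝ)⁻¹) x univ ∧
          Injective (fun i => (x i).1.b) ∧
          S.Good ℓ r x ∧ 1 ≤ S.η * ℓ * S.ρ ^ 4 ∧ S.η ≤ 1 / 4096 ∧
          4 * ℓ * (M / Fintype.card I) ≤ S.η * S.ρ ^ 4 ∧
          256 * (ℓ + r) * (M / Fintype.card I) ≤ 1 ∧
          (∀ i ∈ s, ¬ bad i x) ∧
          ∃ Γ : SimpleGraph I, (∀ i j, Γ.Adj i j → Perp (x i).1 (x j).1) ∧
            (∀ i, (univ.filter fun j => Γ.Adj i j).card ≤ D) ∧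
            (∀ i j k, Γ.Adj i j → Γ.Adj i k → j ≠ k → ¬ Perp (x j).1 (x k).1) ∧
            (∀ A A' : Finset I, ε * Fintype.card I ≤ A.card → ε * Fintype.card I ≤ A'.card →
              ∃ a ∈ A, ∃ b ∈ A', Γ.Adj a b) ∧
            (D ≤ m + 1 → ∀ i, LinearIndependent KK
              (fun j : {j // Γ.Adj i j} => (x j.1).1.b)) := by
  obtain ⟨D, ρ0, h0, h⟩ := SampAll592.sample_all ε hε hε1
  refine ⟨D, ρ0, h0, ?_⟩
  intro k0 KK _ _ _ _ _ _ K h1 d L I σ _ _ _ _ m hm S hSρ M B hM hη hn ι s bad c hbad hc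
  exact h k0 KK K h1 d L I σ hn.hρ hn.hI m hm hn.hgen S hSρ M B hM hη hn.hB1 hn.hB hn.hN hn.hσ
    hn.hθ hn.hIB hn.hB' hn.hN' ι s bad c hbad hc

end Crest.Agent.R042.SampB592
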