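import Crest.Agent.R042.FinB_713
import Crest.Agent.R042.SampB_592

/-!
# Row 42 / S0059, plan B: the last mile at one level with the sample discharged
-/

set_option autoImplicit false
set_option linter.unusedSectionVars false

namespace Crest.Agent.R042.FinS592

open Finset Crest.Agent.R042.RowWin543 Crest.Agent.R042.Fam543 Crest.Agent.R042.LocFam958
  Crest.Agent.R042.SspAsm375 Crest.Agent.R042.SspFin375 Crest.Agent.R042.SspT375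
  Crest.Agent.R042.SspG375 Crest.Agent.R042.SspB375
  Crest.Agent.R042.TLev333 Crest.Agent.R042.Inst592 Crest.Agent.R042.SysOf333
  Crest.Agent.R042.FamV220 Crest.Agent.R042.IsoD543 Crest.Agent.R042.Dim755
  Crest.Agent.R042.Gen592 Crest.Agent.R042.SampNum592 Crest.Agent.R042.FinB713
open scoped Classical

/-- the last mile at one level, sample discharged: what remains is the type level data `TD`, the
label theorem `hLab`, the local bound `hLoc` (both for samples with any `m + 1` independent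
vectors) and numbers. -/
theorem pair_of_sample (K₀ : ℕ) (hK₀ : 0 < K₀) :
    ∃ (DΓ : ℕ) (ρ0 : ℝ) (n0 : ℕ), 0 < ρ0 ∧ ∀ n : ℕ, n0 ≤ n →
    ∀ {k0 KK : Type} [Field k0] [Fintype k0] [Field KK] [Fintype KK] [Algebra k0 KK] [CharP KK 2]
      {K : Set k0} (_ : Fam543.Alph K) (e d L N J m B : ℕ) (_ : 0 < L) (_ : 7 ≤ m)
      (_ : DΓ ≤ m + 1)
      (TD : TData (Om KK K d L) (Dl k0 KK d L) (TH KK d L J))
      (_ : TD.perp = perp K d L) (_ : TD.ρ = (Fintype.card KK : ℝ)⁻¹)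
      (_ : 6656 * (32 * (K₀ : ℝ)) * TD.η ≤ 1)
      (_ : Nums (1 / (64 * (K₀ : ℝ))) (32 * K₀) TD.η ρ0 m d (Fintype.card KK) N B
        (Fintype.card (Jx (Fin N) × Dl k0 KK d L × TH KK d L J)) TD.θ)
      (_ : 64 * K₀ ≤ N)
      (BE : (Bool → Ty k0 KK d L) → (Bool → Ty k0 KK d L) → (VV k0 KK d 2 L → ℝ) → Prop)
      (D e₀ c₀ : ℝ) (_ : 0 ≤ c₀)
      (_ : 16 * (16 * K₀ * n * (Fintype.card KK : ℝ) ^ (L * (2 * d + 1) ^ 2)) *
        ((Fintype.card KK : ℝ) ^ (DΓ * (L * (2 * d - 1) ^ 2))) ^ 2 ≤ D)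
      (_ : ∀ x : Fin N → Om KK K d L, LI KK vv (m + 1) x →
        ∀ (c : Jx (Fin N) × Dl k0 KK d L) (μ : VV k0 KK d 2 L → ℝ), IsP μ →
        (∀ v, μ v * Fintype.card (VV k0 KK d 2 L) ≤ D) →
        ∀ t : Jx (Fin N) × Dl k0 KK d L → ℝ, IsP t →
        (∀ i, ∑ j ∈ Ai i, ∑ δ, t (j, δ) ≤ 32 * K₀ / (N : ℝ)) →
        ∃ θ : TH KK d L J, ∑ c', t c' * (if One TD.sys x (c.1, c.2, θ) c'.1 ∧
          BE (pj (fun i => (x i).1) c.1) (pj (fun i => (x i).1) c'.1) μ then 1 else 0) ≤ e₀)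
      (_ : ∀ x : Fin N → Om KK K d L, LI KK vv (m + 1) x →
        ∀ (s s' : Jx (Fin N) × Dl k0 KK d L × TH KK d L J) (μ μ' : VV k0 KK d 2 L → ℝ),
        IsP μ → (∀ v, μ v ≠ 0 → dword (2 ^ e) 2 (x s.1.1.1).1 (x s.1.1.2).1 v.1 v.2 = s.2.1 ∧
          ¬ Rel K (2 ^ e) 2 (x s.1.1.1).1 (x s.1.1.2).1 v.1 v.2) →
        IsP μ' → (∀ v, μ' v ≠ 0 → dword (2 ^ e) 2 (x s'.1.1.1).1 (x s'.1.1.2).1 v.1 v.2 = s'.2.1 ∧
          ¬ Rel K (2 ^ e) 2 (x s'.1.1.1).1 (x s'.1.1.2).1 v.1 v.2) →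
        TD.Alive x s s' →
        ¬ BE (pj (fun i => (x i).1) s.1) (pj (fun i => (x i).1) s'.1) μ →
        ¬ BE (pj (fun i => (x i).1) s'.1) (pj (fun i => (x i).1) s.1) μ' →
        c₀ ≤ ∑ v, ∑ v', μ v * μ' v' *
          (if CfR (relF K e 2 fun i => (x i).1) s.1 s'.1 v v' then 1 else 0)),
      64 * K₀ * (N : ℝ) ^ 2 * (n : ℝ) ^ (-(99 : ℝ) / 100) ≤ 1 → 16 * K₀ * N ≤ n →
      (n : ℝ) ^ (-(99 : ℝ) / 100) ≤ 1 / (16 * (K₀ : ℝ)) *
        (225 / 256 * (((Fintype.card KK : ℝ)⁻¹) ^ 4 / 32 - 2 * e₀) * c₀) →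
      S59Spine883.PairConfK K₀ := by
  obtain ⟨n0, H⟩ := pair_of_level K₀ hK₀
  have hKr : (1 : ℝ) ≤ K₀ := by exact_mod_cast hK₀
  have hε : (0 : ℝ) < 1 / (64 * (K₀ : ℝ)) := by positivity
  have hε1 : 1 / (64 * (K₀ : ℝ)) ≤ 1 := by
    rw [div_le_one (by positivity)]
    linarith
  obtain ⟨DΓ, ρ0, hρ0, hS⟩ := SampB592.sampleB (1 / (64 * (K₀ : ℝ))) hε hε1
  refine ⟨DΓ, ρ0, n0, hρ0, fun n hn => ?_⟩
  intro k0 KK _ _ _ _ _ _ K hK e d L N J m B hL hm hDm TD hTp hTρ hη hnums hN BE D e₀ c₀ hc₀ hD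
    hLab hLoc hκN h16 hκ
  have hn' : Nums (1 / (64 * (K₀ : ℝ))) (32 * K₀)
      (TD.sys : Sys (Fin N) (Om KK K d L) (Jx (Fin N) × Dl k0 KK d L × TH KK d L J)).η ρ0 m d
      (Fintype.card KK) (Fintype.card (Fin N)) B
      (Fintype.card (Jx (Fin N) × Dl k0 KK d L × TH KK d L J))
      (TD.sys : Sys (Fin N) (Om KK K d L) (Jx (Fin N) × Dl k0 KK d L × TH KK d L J)).θ := by
    rw [Fintype.card_fin]
    exact hnums
  obtain ⟨ℓ, r, x, x1, x2, x3, x4, x5, x6, x7, x8, x9, -, Γ, g1, g2, g3, g4, g5⟩ :=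
    hS k0 KK K hK.one d L (Fin N) (Jx (Fin N) × Dl k0 KK d L × TH KK d L J) m hm
      (TD.sys : Sys (Fin N) (Om KK K d L) (Jx (Fin N) × Dl k0 KK d L × TH KK d L J)) hTρ
      (32 * K₀) B (by linarith) hη hn' Empty ∅ (fun i => i.elim) (fun _ => 0)
      (fun i _ => i.elim) (by simp)
  rw [Fintype.card_fin] at x8 x9
  simp only [Fintype.card_fin] at g4
  have hsρ : (TD.sys : Sys (Fin N) (Om KK K d L)
      (Jx (Fin N) × Dl k0 KK d L × TH KK d L J)).ρ = (Fintype.card KK : ℝ)⁻¹ := hTρ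
  have hsη : (TD.sys : Sys (Fin N) (Om KK K d L)
      (Jx (Fin N) × Dl k0 KK d L × TH KK d L J)).η = TD.η := rfl
  rw [hsρ, hsη] at x6 x8
  rw [hsη] at x7
  exact H n hn hK e d L N J ℓ r hL x x4 TD hTp hTρ x5 x3 x6 x7 x8 x9 Γ DΓ g1
    (fun i => by
      have h := g2 i
      convert h) g3 (g5 hDm) g4 hN BE D e₀ c₀ hc₀ hD (hLab x x1) (hLoc x x1) hκN h16 hκ

end Crest.Agent.R042.FinS592
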