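import Crest.Agent.R042.S60Fin_822
import Crest.Agent.R042.HJK_883
import Crest.Agent.R042.From59_822

/-! # Row 42: the three remaining statements from `PairConfK 100000` (dry run, helper730) -/

set_option autoImplicit false

open Crest.CombinatoricsR.GraphMinor Crest.CombinatoricsR.SpectralGraph
open Crest Crest.CombinatoricsR

namespace Crest.Agent.R042.Final42

open Crest.Agent.R042.S59Spine883

/-- S0057, S0059, S0060 literally -/
theorem all_of_pairConfK (h : PairConfK 100000) :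
    (∀ m₀ : ℕ, ∃ m : ℕ, m₀ ≤ m ∧ ∃ G : SimpleGraph (Fin m),
      Gᶜ.CliqueFree 3 ∧ (m : ℝ) / 2 ≤ fractionalChromaticNumber G ∧
      ∀ (t : ℕ) (B : Fin t → Finset (Fin m)), IsCliqueMinorModel G B →
        (t : ℝ) < 26 * (m : ℝ) / 75 + 2 / 3 ∧ (t : ℝ) < fractionalChromaticNumber G) ∧
    (∀ m₀ : ℕ, ∃ m : ℕ, m₀ ≤ m ∧ ∃ G : SimpleGraph (Fin m),
      Gᶜ.CliqueFree 3 ∧
      ∀ (k : ℕ) (e : Fin k → Fin m × Fin m),
        (∀ i, G.Adj (e i).1 (e i).2) →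
        (∀ i j, i ≠ j → (e i).1 ≠ (e j).1 ∧ (e i).1 ≠ (e j).2 ∧ (e i).2 ≠ (e j).1 ∧ (e i).2 ≠ (e j).2) →
        (∀ i j, i ≠ j →
          G.Adj (e i).1 (e j).1 ∨ G.Adj (e i).1 (e j).2 ∨ G.Adj (e i).2 (e j).1 ∨ G.Adj (e i).2 (e j).2) →
        100 * k < m) ∧
    (∀ m₀ : ℕ, ∃ m : ℕ, m₀ ≤ m ∧ ∃ G : SimpleGraph (Fin m),
      Gᶜ.CliqueFree 3 ∧
      (∀ M : Matrix (Fin m) (Fin m) ℝ, IsWellSigned G M → negEigenvalueCount M = 1 →
        HasStrongArnoldProperty G M → (corank M : ℝ) + 1 < (m : ℝ) / 2) ∧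
      (∀ k : ℕ, G.Colorable k → m ≤ 2 * k)) := by
  have h59 := s59_of_hjk ((hjk_of_pairConfK h).mono (by norm_num : 400 ≤ 100000))
  exact ⟨From59822.s57 h59, h59, S60Fin822.s60_of_hjk (hjk_of_pairConfK h)⟩

end Crest.Agent.R042.Final42
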