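import Crest.Agent.R042.B0_333
import Crest.Agent.R042.B7_375
import Crest.Agent.R042.B8Final_220
import Crest.Agent.R042.Chain3_374
import Crest.Agent.R042.SmallHubU_667

/-! Row 42 / S0058: the three blocks B0, B7, B8 of the spine, closed. -/

set_option autoImplicit false
set_option linter.unusedSectionVars false

namespace Crest.Agent.R042.Final883

open Finset Crest.Agent.R042.Conn353 Crest.Agent.R042.Menger353 Crest.Agent.R042.Crit374
open Crest.Agent.R042.Mader375 (Model)

theorem hubStmt7 : B7375.HubStmt := by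
  refine ⟨64, 512, ?_⟩
  intro h hh V _ G T hno hT hdeg
  obtain ⟨J, h1, _, h3, _, h5, h6⟩ := SmallHub667.hub_deg G T (k := h + 3) (by omega) hh hT hno
    (by
      intro v hv
      refine le_trans ?_ (hdeg v hv)
      omega)
  exact ⟨J, h1, by omega, h3, fun X hX hXc => h6 X hX (by omega)⟩

theorem chainStmt7 : B7375.ChainStmt := by
  intro V _ G V0 p d M UB kc hp hP1 hCOST hHUB hNS hk hUB
  exact Chain374.chain ⟨hP1, fun W A B P h => B7375.bf1 h, 
    fun W A B P h x hx hxP l hl => B7375.bf2 h hx hxP hl,
    hCOST, hHUB, hNS⟩ hk (by omega) hUB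

/-- **block B7 (10.6 + 10.7).** -/
theorem b7 : Spine883.B7 := B7375.b7_of hubStmt7 chainStmt7

end Crest.Agent.R042.Final883
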