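import Crest.Agent.R042.DegInterp_910

/-!
Row 42 (S0059), label level: ONE frame `e : Fin (n+1) → V` of `U = p^⊥ ∩ a^⊥` per block, two
spaces (left `V,B,p,a,e`, right `V',B',p',a',e'`), rows for a fixed set `J` of blocks.
-/

set_option autoImplicit false

namespace Crest.Agent.R042.DegInterp910

open Module

variable {K : Type*} [Field K] {V : Type*} [AddCommGroup V] [Module K V]
  {V' : Type*} [AddCommGroup V'] [Module K V']

/-- a frame of `U`: `e 1, .., e n` a basis of `U`, `e 0` their sum, `e 0 = a` if `a ∈ U`. -/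
structure Frame (B : V →ₗ[K] V →ₗ[K] K) (p a : V) (n : ℕ) (e : Fin (n + 1) → V) : Prop where
  mem : ∀ g, e g ∈ UU B p a
  li : LinearIndependent K (fun i : Fin n => e i.succ)
  sum : e 0 = ∑ i : Fin n, e i.succ
  adapt : a ∈ UU B p a → e 0 = a

variable {B : V →ₗ[K] V →ₗ[K] K} {p a : V} {B' : V' →ₗ[K] V' →ₗ[K] K} {p' a' : V'}
  {n : ℕ} {e : Fin (n + 1) → V} {e' : Fin (n + 1) → V'}

theorem exists_frame [FiniteDimensional K V] (h : Blk B p a) (hn : finrank K V = n + 2) :
    ∃ e : Fin (n + 1) → V, Frame B p a n e := by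
  have hU := finrank_UU h hn
  obtain ⟨b, hb⟩ : ∃ b : Basis (Fin n) K (UU B p a),
      a ∈ UU B p a → ((∑ i, b i : UU B p a) : V) = a := by
    by_cases ha : a ∈ UU B p a
    · obtain ⟨b, hb⟩ := exists_basis_sum hU (⟨a, ha⟩ : UU B p a)
        (fun h0 => h.ne (congrArg Subtype.val h0))
      exact ⟨b, fun _ => by rw [hb]⟩
    · exact ⟨finBasisOfFinrankEq K _ hU, fun h' => absurd h' ha⟩
  refine ⟨Fin.cons ((∑ i, b i : UU B p a) : V) (fun i => (b i : V)), fun g => ?_, ?_, ?_, ?_⟩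
  · refine Fin.cases ?_ (fun i => ?_) g
    · exact (∑ i, b i : UU B p a).2
    · exact (b i).2
  · have := b.linearIndependent.map' (UU B p a).subtype (Submodule.ker_subtype _)
    exact this
  · simp
  · intro ha; exact hb ha

theorem Frame.basis [FiniteDimensional K V] (h : Blk B p a) (hn : finrank K V = n + 2)
    (he : Frame B p a n e) :
    ∃ b : Basis (Fin n) K (UU B p a), ∀ i, ((b i : UU B p a) : V) = e i.succ := by
  have hU := finrank_UU h hn
  have hli : LinearIndependent K (fun i : Fin n => (⟨e i.succ, he.mem _⟩ : UU B p a)) :=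
    LinearIndependent.of_comp (UU B p a).subtype he.li
  rcases Nat.eq_zero_or_pos n with h0 | h0
  · subst h0
    exact ⟨finBasisOfFinrankEq K _ hU, fun i => i.elim0⟩
  · have : Nonempty (Fin n) := ⟨⟨0, h0⟩⟩
    refine ⟨basisOfLinearIndependentOfCardEqFinrank hli (by rw [Fintype.card_fin, hU]), fun i => ?_⟩
    simp

/-- **J-block** of a frame -/
theorem Frame.blockJ [FiniteDimensional K V] [FiniteDimensional K V']
    (h : Blk B p a) (h' : Blk B' p' a')
    (hn : finrank K V = n + 2) (hn' : finrank K V' = n + 2)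
    (he : Frame B p a n e) (he' : Frame B' p' a' n e')
    (haa : a ∈ UU B p a → a' ∈ UU B' p' a')
    (g : Fin (n + 1)) (η : V' →ₗ[K] K) (hη : η a' = 0) :
    ∃ F : V →ₗ[K] V' →ₗ[K] K, (∃ α : K, F (e g) = η + α • B' p') ∧
      (∀ g', g' ≠ g → ∃ α : K, F (e g') = α • B' (e' g')) ∧
      (∀ x, F x a' = 0) ∧ (g ≠ 0 → ∃ α : K, F a = α • B' a') := by
  obtain ⟨π, hπ, hπa⟩ := exists_proj (UU B p a) a
  obtain ⟨b, hb⟩ := he.basis h hn
  obtain ⟨b', hb'⟩ := he'.basis h' hn'
  let s : UU B p a := ∑ i, b i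
  let s' : UU B' p' a' := ∑ i, b' i
  have e0 : e 0 = s := by rw [he.sum]; simp [s, hb]
  have e0' : e' 0 = s' := by rw [he'.sum]; simp [s', hb']
  obtain ⟨u, hu, α, hα⟩ := exists_rep h' η hη
  let β : Fin n → K := fun i => b'.repr ⟨u, hu⟩ i
  have hβ : (∑ i, β i • b' i) = (⟨u, hu⟩ : UU B' p' a') := b'.sum_repr ⟨u, hu⟩
  -- common part
  have main : ∀ A : UU B p a →ₗ[K] UU B' p' a',
      ∀ x, (B' ∘ₗ (UU B' p' a').subtype ∘ₗ A ∘ₗ π) x a' = 0 := by
    intro A x
    simp only [LinearMap.comp_apply, Submodule.subtype_apply]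
    rw [h'.symm]
    exact (mem_UU.1 (A (π x)).2).2
  refine Fin.cases ?_ (fun g₀ => ?_) g
  · let A : UU B p a →ₗ[K] UU B' p' a' := b.constr K (fun i => β i • b' i)
    have hA : ∀ i, A (b i) = β i • b' i := fun i => b.constr_basis K _ i
    have h1 : A s = ⟨u, hu⟩ := by
      rw [← hβ]; simp only [s, map_sum, hA]
    refine ⟨B' ∘ₗ (UU B' p' a').subtype ∘ₗ A ∘ₗ π, ⟨α, ?_⟩, ?_, main A, fun h0 => absurd rfl h0⟩
    · simp only [LinearMap.comp_apply, e0, hπ, h1, Submodule.subtype_apply, hα]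
    · intro g' hg'
      obtain ⟨i, rfl⟩ := Fin.exists_succ_eq_of_ne_zero hg'
      refine ⟨β i, ?_⟩
      rw [← hb i, ← hb' i]
      simp only [LinearMap.comp_apply, hπ, hA, Submodule.subtype_apply, Submodule.coe_smul, map_smul]
  · let A : UU B p a →ₗ[K] UU B' p' a' := b.constr K (fun i =>
      if i = g₀ then ⟨u, hu⟩ else (β g₀ - β i) • b' i)
    have hA : ∀ i, A (b i) = if i = g₀ then ⟨u, hu⟩ else (β g₀ - β i) • b' i :=
      fun i => b.constr_basis K _ i
    have hAs : A s = β g₀ • s' := by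
      simp only [s, s', map_sum, hA]
      rw [← Finset.add_sum_erase _ _ (Finset.mem_univ g₀), if_pos rfl]
      have h3 : ∑ x ∈ Finset.univ.erase g₀, (if x = g₀ then (⟨u, hu⟩ : UU B' p' a')
          else (β g₀ - β x) • b' x)
          = ∑ x ∈ Finset.univ.erase g₀, (β g₀ - β x) • b' x :=
        Finset.sum_congr rfl fun x hx => if_neg (Finset.ne_of_mem_erase hx)
      rw [h3, ← hβ, ← Finset.add_sum_erase _ (fun i => β i • b' i) (Finset.mem_univ g₀),
        Finset.smul_sum,
        ← Finset.add_sum_erase _ (fun i => β g₀ • b' i) (Finset.mem_univ g₀), add_assoc,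
        ← Finset.sum_add_distrib]
      congr 1
      refine Finset.sum_congr rfl fun x _ => ?_
      rw [sub_smul]; abel
    refine ⟨B' ∘ₗ (UU B' p' a').subtype ∘ₗ A ∘ₗ π, ⟨α, ?_⟩, ?_, main A, ?_⟩
    · rw [← hb g₀]
      simp only [LinearMap.comp_apply, hπ, hA, if_pos, Submodule.subtype_apply, hα]
    · intro g' hg'
      rcases Fin.eq_zero_or_eq_succ g' with rfl | ⟨i, rfl⟩
      · refine ⟨β g₀, ?_⟩
        simp only [LinearMap.comp_apply, e0, e0', hπ, hAs, Submodule.subtype_apply,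
          Submodule.coe_smul, map_smul]
      · have hne : i ≠ g₀ := fun hh => hg' (by rw [hh])
        refine ⟨β g₀ - β i, ?_⟩
        rw [← hb i, ← hb' i]
        simp only [LinearMap.comp_apply, hπ, hA, if_neg hne, Submodule.subtype_apply,
          Submodule.coe_smul, map_smul]
    · intro _
      by_cases ha : a ∈ UU B p a
      · refine ⟨β g₀, ?_⟩
        have h4 : π a = s := by
          have h5 : (s : V) = a := by rw [← e0]; exact he.adapt ha
          exact (hπ ⟨a, ha⟩).trans (Subtype.ext h5.symm)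
        simp only [LinearMap.comp_apply, h4, hAs, Submodule.subtype_apply,
          Submodule.coe_smul, map_smul]
        rw [← e0', he'.adapt (haa ha)]
      · refine ⟨0, ?_⟩
        simp only [LinearMap.comp_apply, hπa ha, map_zero, zero_smul]

/-- **N-block** of a frame: the points `g ≠ last` -/
theorem Frame.blockN [FiniteDimensional K V] (h : Blk B p a)
    (hn : finrank K V = n + 2) (he : Frame B p a n e)
    (g : Fin (n + 1)) (hg : g ≠ Fin.last n) (η : V' →ₗ[K] K) :
    ∃ F : V →ₗ[K] V' →ₗ[K] K, F (e g) = η ∧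
      (∀ g', g' ≠ g → g' ≠ Fin.last n → F (e g') = 0) ∧ (g ≠ 0 → F a = 0) := by
  obtain ⟨π, hπ, hπa⟩ := exists_proj (UU B p a) a
  obtain ⟨b, hb⟩ := he.basis h hn
  -- the dual functional
  have key : ∃ φ : UU B p a →ₗ[K] K, φ ⟨e g, he.mem g⟩ = 1 ∧
      ∀ g', g' ≠ g → g' ≠ Fin.last n → φ ⟨e g', he.mem g'⟩ = 0 := by
    cases n with
    | zero => exact absurd (Fin.ext (by have := g.2; simp only [Fin.val_last]; omega)) hg
    | succ m =>
      have e0 : (⟨e 0, he.mem 0⟩ : UU B p a) = ∑ i, b i := by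
        apply Subtype.ext
        rw [AddSubmonoidClass.coe_finsetSum]
        simp only [hb]
        exact he.sum
      have es : ∀ i : Fin (m + 1), (⟨e i.succ, he.mem _⟩ : UU B p a) = b i :=
        fun i => Subtype.ext (hb i).symm
      have hs : ∀ j, b.coord j (∑ i, b i) = 1 := by
        intro j
        rw [map_sum, Finset.sum_eq_single j]
        · simp
        · intro i _ hi
          simp [Finsupp.single_eq_of_ne (Ne.symm hi)]
        · intro hj; exact absurd (Finset.mem_univ j) hj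
      have hlast : ∀ i : Fin (m + 1), i.succ ≠ Fin.last (m + 1) → i ≠ Fin.last m := by
        intro i hi h0; exact hi (by rw [h0]; rfl)
      rcases Fin.eq_zero_or_eq_succ g with rfl | ⟨i, rfl⟩
      · refine ⟨b.coord (Fin.last m), ?_, ?_⟩
        · rw [e0, hs]
        · intro g' hg' hg'l
          obtain ⟨i, rfl⟩ := Fin.exists_succ_eq_of_ne_zero hg'
          rw [es]
          have := hlast i hg'l
          simp [this]
      · refine ⟨b.coord i - b.coord (Fin.last m), ?_, ?_⟩
        · rw [es]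
          have := hlast i hg
          simp [this]
        · intro g' hg' hg'l
          rcases Fin.eq_zero_or_eq_succ g' with rfl | ⟨j, rfl⟩
          · rw [e0, LinearMap.sub_apply, hs, hs, sub_self]
          · rw [es]
            have h1 := hlast j hg'l
            have h2 : j ≠ i := fun hh => hg' (by rw [hh])
            simp [h1, h2]
  obtain ⟨φ, hφ1, hφ2⟩ := key
  refine ⟨(φ ∘ₗ π).smulRight η, ?_, ?_, ?_⟩
  · ext y
    have : π (e g) = ⟨e g, he.mem g⟩ := hπ ⟨e g, he.mem g⟩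
    simp [this, hφ1]
  · intro g' hg' hl
    ext y
    have : π (e g') = ⟨e g', he.mem g'⟩ := hπ ⟨e g', he.mem g'⟩
    simp [this, hφ2 g' hg' hl]
  · intro hg0
    by_cases ha : a ∈ UU B p a
    · have h4 : π a = ⟨e 0, he.mem 0⟩ := by
        have h5 : e 0 = a := he.adapt ha
        exact (hπ ⟨a, ha⟩).trans (Subtype.ext h5.symm)
      have h6 : (0 : Fin (n + 1)) ≠ Fin.last n := by
        intro h0
        apply hg
        have : (Fin.last n : ℕ) = 0 := by rw [← h0]; rfl
        have hn0 : n = 0 := by simpa using this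
        subst hn0
        exact Fin.ext (by have := g.2; simp only [Fin.val_last]; omega)
      ext y
      simp [h4, hφ2 0 (Ne.symm hg0) h6]
    · ext y
      simp [hπa ha]

/-- **rows**: product assembly for a fixed set `J` of blocks (no killer block). -/
theorem rows [FiniteDimensional K V] [FiniteDimensional K V'] {ι : Type*}
    (p a : ι → V) (p' a' : ι → V') (e : ι → Fin (n + 1) → V) (e' : ι → Fin (n + 1) → V')
    (hn : finrank K V = n + 2) (hn' : finrank K V' = n + 2)
    (h : ∀ i, Blk B (p i) (a i)) (h' : ∀ i, Blk B' (p' i) (a' i))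
    (he : ∀ i, Frame B (p i) (a i) n (e i)) (he' : ∀ i, Frame B' (p' i) (a' i) n (e' i))
    (haa : ∀ i, a i ∈ UU B (p i) (a i) → a' i ∈ UU B' (p' i) (a' i))
    (J : Finset ι) (g : ι → Fin (n + 1)) (hg : ∀ i, i ∉ J → g i ≠ Fin.last n)
    (η : ι → V' →ₗ[K] K) (hη : ∀ i ∈ J, η i (a' i) = 0) :
    ∃ F : ι → V →ₗ[K] V' →ₗ[K] K,
      (∀ i, ∃ α : K, F i (e i (g i)) = η i + α • B' (p' i)) ∧
      (∀ g' : ι → Fin (n + 1), (∀ i, i ∉ J → g' i ≠ Fin.last n) → g' ≠ g →
        ∃ i, ∃ α : K, F i (e i (g' i)) = α • B' (e' i (g' i))) ∧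
      (∀ i ∈ J, ∀ x, F i x (a' i) = 0) ∧
      (∀ i, g i ≠ 0 → ∃ α : K, F i (a i) = α • B' (a' i)) := by
  classical
  have key : ∀ i, ∃ F : V →ₗ[K] V' →ₗ[K] K,
      (∃ α : K, F (e i (g i)) = η i + α • B' (p' i)) ∧
      (∀ x, x ≠ g i → (i ∉ J → x ≠ Fin.last n) → ∃ α : K, F (e i x) = α • B' (e' i x)) ∧
      (i ∈ J → ∀ x, F x (a' i) = 0) ∧
      (g i ≠ 0 → ∃ α : K, F (a i) = α • B' (a' i)) := by
    intro i
    by_cases hi : i ∈ J
    · obtain ⟨F, h1, h2, h3, h4⟩ := (he i).blockJ (h i) (h' i) hn hn' (he' i) (haa i) (g i) (η i)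
        (hη i hi)
      exact ⟨F, h1, fun x hx _ => h2 x hx, fun _ => h3, h4⟩
    · obtain ⟨F, h1, h2, h3⟩ := (he i).blockN (h i) hn (g i) (hg i hi) (η i)
      refine ⟨F, ⟨0, by rw [h1]; simp⟩, fun x hx hl => ⟨0, ?_⟩, fun h0 => absurd h0 hi,
        fun h0 => ⟨0, ?_⟩⟩
      · rw [h2 x hx (hl hi)]; simp
      · rw [h3 h0]; simp
  choose F h1 h2 h3 h4 using key
  refine ⟨F, h1, ?_, h3, h4⟩
  intro g' hg' hne
  obtain ⟨i, hi⟩ := Function.ne_iff.1 hne
  obtain ⟨α, hα⟩ := h2 i (g' i) hi (hg' i)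
  exact ⟨i, α, hα⟩

/-! ### twist -/

theorem mem_UU_twist {σ : K ≃+* K} {τ : V ≃+ V'}
    (hB : ∀ x y, B' (τ x) (τ y) = σ (B x y)) {x : V} :
    τ x ∈ UU B' (τ p) (τ a) ↔ x ∈ UU B p a := by
  simp [mem_UU, hB]

theorem Blk.twist {σ : K ≃+* K} {τ : V ≃+ V'}
    (hB : ∀ x y, B' (τ x) (τ y) = σ (B x y)) (h : Blk B p a) : Blk B' (τ p) (τ a) where
  symm x y := by
    obtain ⟨x, rfl⟩ := τ.surjective x
    obtain ⟨y, rfl⟩ := τ.surjective y
    rw [hB, hB, h.symm]
  nd x hx := by
    obtain ⟨x, rfl⟩ := τ.surjective x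
    have : x = 0 := h.nd x fun y => by
      have := hx (τ y)
      rw [hB] at this
      simpa using this
    rw [this, map_zero]
  pp := by rw [hB]; simpa using h.pp
  pa := by rw [hB, h.pa, map_zero]
  ne := by simpa using h.ne

theorem Frame.twist {σ : K ≃+* K} {τ : V ≃+ V'} (hs : ∀ c x, τ (c • x) = σ c • τ x)
    (hB : ∀ x y, B' (τ x) (τ y) = σ (B x y)) (he : Frame B p a n e) :
    Frame B' (τ p) (τ a) n (fun g => τ (e g)) where
  mem g := (mem_UU_twist hB).2 (he.mem g)
  li := by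
    have := he.li.map_of_injective_injective (i := fun c : K => σ.symm c) (j := τ.toAddMonoidHom)
      (by intro r hr; simpa using hr) (by intro m hm; simpa using hm)
      (by intro r m; simp [hs])
    exact this
  sum := by rw [he.sum, map_sum]
  adapt ha := by rw [he.adapt ((mem_UU_twist hB).1 ha)]

/-! ### the grid and its size -/

/-- the grid of `J` with at least `I0` good blocks -/
def Grid {ι : Type*} [Fintype ι] [DecidableEq ι] (n : ℕ) (J : Finset ι) (I0 : ℕ) :
    Finset (ι → Fin (n + 1)) :=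
  Finset.univ.filter fun g => (∀ i, i ∉ J → g i ≠ Fin.last n) ∧
    I0 ≤ (Finset.univ.filter fun i => g i ≠ 0).card

end Crest.Agent.R042.DegInterp910
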