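import Crest.Agent.R042.PreRow2_927

/-!
# Row 42, same-type gadget for the frozen family: affine projections of the labels (helper927)

For a bounded degree graph `Γ` on the types whose edges are perpendicular pairs and whose
neighbourhoods are pairwise non-perpendicular, every label `f` is moved to `hh i + ρ i f`
(`ρ i` a linear idempotent with small kernel) such that all the labels of `i` are related to all
the labels of `j` for every edge `i j` of `Γ`.
-/

set_option autoImplicit false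
set_option linter.unusedSectionVars false

namespace Crest.Agent.R042.GadF927

open Finset Crest.Agent.R042.RowWin543 Crest.Agent.R042.Fam543 Crest.Agent.R042.PreRow927

variable {k0 KK : Type} [Field k0] [Field KK] [Algebra k0 KK]

/-- instance search does not find this one -/
noncomputable instance instAddCommGroupSymForm (F U : Type*) [Field F] [AddCommGroup U]
    [Module F U] : AddCommGroup (SymForm F U) :=
  @Submodule.addCommGroup F (U →ₗ[F] U →ₗ[F] F) _ _ _ (SymForm F U)

/-- the window map of the type `P` at the type `R` -/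
noncomputable def win (Q kp : ℕ) {d L : ℕ} (P R : Ty k0 KK d L) :
    Label k0 KK d kp L →ₗ[k0] (UPQ Q kp P R →ₗ[k0] k0) where
  toFun f := (f.1 (uvec Q kp R)).comp (Submodule.subtype _)
  map_add' f g := by
    ext z; rfl
  map_smul' c f := by
    ext z; rfl

theorem win_apply (Q kp : ℕ) {d L : ℕ} (P R : Ty k0 KK d L) (f : Label k0 KK d kp L)
    (z : UPQ Q kp P R) : win Q kp P R f z = f.1 (uvec Q kp R) z := rfl

/-- linear idempotent onto the kernel of a linear map. -/
theorem exists_proj_ker {k V W : Type*} [Field k] [AddCommGroup V] [Module k V]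
    [AddCommGroup W] [Module k W] [FiniteDimensional k V] [FiniteDimensional k W]
    (Λ : V →ₗ[k] W) :
    ∃ ρ : V →ₗ[k] V, (∀ f, ρ (ρ f) = ρ f) ∧ (∀ f, Λ (ρ f) = 0) ∧ (∀ f, Λ f = 0 → ρ f = f) ∧
      Module.finrank k (LinearMap.ker ρ) ≤ Module.finrank k W := by
  classical
  obtain ⟨g, hg⟩ := LinearMap.exists_leftInverse_of_injective (LinearMap.ker Λ).subtype
    (by rw [Submodule.ker_subtype])
  have hg' : ∀ x : LinearMap.ker Λ, g x = x := fun x => LinearMap.congr_fun hg x
  refine ⟨(LinearMap.ker Λ).subtype.comp g, ?_, ?_, ?_, ?_⟩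
  · intro f
    show ((g (g f : V) : LinearMap.ker Λ) : V) = g f
    rw [hg']
  · intro f
    exact (g f).2
  · intro f hf
    show ((g f : LinearMap.ker Λ) : V) = f
    have := hg' ⟨f, hf⟩
    exact congrArg Subtype.val this
  · have h1 := LinearMap.finrank_range_add_finrank_ker ((LinearMap.ker Λ).subtype.comp g)
    have h2 := LinearMap.finrank_range_add_finrank_ker Λ
    have h3 : Module.finrank k (LinearMap.range ((LinearMap.ker Λ).subtype.comp g))
        = Module.finrank k (LinearMap.ker Λ) := by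
      congr 2
      all_goals
        apply le_antisymm
        · rintro _ ⟨f, rfl⟩
          exact (g f).2
        · intro f hf
          exact ⟨f, congrArg Subtype.val (hg' ⟨f, hf⟩)⟩
    have h4 : Module.finrank k (LinearMap.range Λ) ≤ Module.finrank k W :=
      Submodule.finrank_le _
    omega

variable [CharP KK 2]

/-- **the gadget for the frozen family** -/
theorem exists_gadget [FiniteDimensional k0 KK] (e : ℕ) {d kp L : ℕ} {K : Set k0} (hK : Alph K)
    (hL : 0 < L) {ι : Type} [Fintype ι] [LinearOrder ι] (T : ι → Ty k0 KK d L)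
    (hT : ∀ i, Valid K (T i)) (hb : Function.Injective fun i => (T i).b)
    (Γ : SimpleGraph ι) [DecidableRel Γ.Adj]
    (h1 : ∀ i j, Γ.Adj i j → Perp (T i) (T j))
    (h2 : ∀ i j k, Γ.Adj i j → Γ.Adj i k → j ≠ k → ¬ Perp (T j) (T k))
    (h3 : ∀ i, #{j | Γ.Adj i j} ≤ kp) :
    ∃ (hh : ι → Label k0 KK d kp L) (ρ : ι → Label k0 KK d kp L →ₗ[k0] Label k0 KK d kp L),
      (∀ i f, ρ i (ρ i f) = ρ i f) ∧
      (∀ i j, Γ.Adj i j → ∀ f, ∀ z ∈ UPQ (2 ^ e) kp (T i) (T j),
        (ρ i f).1 (uvec (2 ^ e) kp (T j)) z = 0) ∧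
      (∀ i j, Γ.Adj i j → ∀ f g, Rel K (2 ^ e) kp (T i) (T j) (hh i + ρ i f) (hh j + ρ j g)) ∧
      ∀ i, Module.finrank k0 (LinearMap.ker (ρ i)) ≤
        ∑ j ∈ {j | Γ.Adj i j}, Module.finrank k0 (UPQ (2 ^ e) kp (T i) (T j)) := by
  classical
  let l0 : Fin L := ⟨0, hL⟩
  let tl : U KK d kp L →ₗ[k0] k0 := (tau k0).comp (LinearMap.proj l0)
  -- the base labels
  have hbase : ∀ i, ∃ h : Label k0 KK d kp L, ∀ j, Γ.Adj i j →
      ∀ z ∈ UPQ (2 ^ e) kp (T i) (T j),
        h.1 (uvec (2 ^ e) kp (T j)) z = if i < j then tl z else 0 := by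
    intro i
    let N : Finset ι := {j | Γ.Adj i j}
    let en : Fin #N ≃ N := N.equivFin.symm
    have hmem : ∀ k, Γ.Adj i (en k) := fun k => (Finset.mem_filter.1 (en k).2).2
    obtain ⟨f, hf⟩ := exists_label e hK hL (T i) (fun k => T (en k))
      (fun k => hT _)
      (by
        intro a b hab
        exact en.injective (Subtype.ext (hb hab)))
      (by
        intro a b hab
        exact h2 i _ _ (hmem a) (hmem b) (fun h => hab (en.injective (Subtype.ext h))))
      (h3 i)
      (fun k => if i < en k then tl else 0)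
    refine ⟨f, fun j hj z hz => ?_⟩
    have hjN : j ∈ N := by simpa [N] using hj
    obtain ⟨k, hk⟩ := en.surjective ⟨j, hjN⟩
    have hk' : (en k : ι) = j := by rw [hk]
    have := hf k z (by rw [hk']; exact hz)
    rw [hk'] at this
    rw [this]
    split_ifs <;> rfl
  choose hh hhh using hbase
  -- the projections
  have hproj : ∀ i, ∃ ρ : Label k0 KK d kp L →ₗ[k0] Label k0 KK d kp L,
      (∀ f, ρ (ρ f) = ρ f) ∧
      (∀ j, Γ.Adj i j → ∀ f, ∀ z ∈ UPQ (2 ^ e) kp (T i) (T j),
        (ρ f).1 (uvec (2 ^ e) kp (T j)) z = 0) ∧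
      Module.finrank k0 (LinearMap.ker ρ) ≤
        ∑ j ∈ {j | Γ.Adj i j}, Module.finrank k0 (UPQ (2 ^ e) kp (T i) (T j)) := by
    intro i
    let N : Finset ι := {j | Γ.Adj i j}
    let Λ : Label k0 KK d kp L →ₗ[k0]
        ((j : N) → (UPQ (2 ^ e) kp (T i) (T j) →ₗ[k0] k0)) :=
      LinearMap.pi fun j => win (2 ^ e) kp (T i) (T j)
    obtain ⟨ρ, hρ1, hρ2, -, hρ4⟩ := exists_proj_ker (k := k0) (V := Label k0 KK d kp L)
      (W := (j : N) → (UPQ (2 ^ e) kp (T i) (T j) →ₗ[k0] k0)) Λ
    refine ⟨ρ, hρ1, ?_, ?_⟩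
    · intro j hj f z hz
      have hjN : j ∈ N := by simpa [N] using hj
      have := congrFun (hρ2 f) ⟨j, hjN⟩
      have := LinearMap.congr_fun this ⟨z, hz⟩
      exact this
    · refine hρ4.trans ?_
      rw [Module.finrank_pi_fintype]
      rw [← Finset.sum_coe_sort N]
      refine le_of_eq (Finset.sum_congr rfl fun j _ => ?_)
      rw [Module.finrank_linearMap, Module.finrank_self, mul_one]
  choose ρ hρ1 hρ2 hρ3 using hproj
  refine ⟨hh, ρ, hρ1, fun i j hij f z hz => hρ2 i j hij f z hz, ?_, hρ3⟩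
  intro i j hij f g
  refine ⟨h1 i j hij, ?_⟩
  have key : ∀ z ∈ UPQ (2 ^ e) kp (T i) (T j),
      (hh i + ρ i f).1 (uvec (2 ^ e) kp (T j)) z - (hh j + ρ j g).1 (uvec (2 ^ e) kp (T i)) z
        = (if i < j then tl z else 0) - (if j < i then tl z else 0) := by
    intro z hz
    have e1 : (hh i + ρ i f).1 (uvec (2 ^ e) kp (T j)) z =
        (hh i).1 (uvec (2 ^ e) kp (T j)) z + (ρ i f).1 (uvec (2 ^ e) kp (T j)) z := rfl
    have e2 : (hh j + ρ j g).1 (uvec (2 ^ e) kp (T i)) z =
        (hh j).1 (uvec (2 ^ e) kp (T i)) z + (ρ j g).1 (uvec (2 ^ e) kp (T i)) z := rfl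
    have hz' : z ∈ UPQ (2 ^ e) kp (T j) (T i) := by rwa [UPQ_comm]
    rw [e1, e2, hρ2 i j hij f z hz, hρ2 j i hij.symm g z hz', hhh i j hij z hz,
      hhh j i hij.symm z hz']
    ring
  rcases lt_or_gt_of_ne hij.ne with hlt | hgt
  · refine ⟨1, hK.one, l0, fun z hz => ?_⟩
    rw [key z hz, if_pos hlt, if_neg (not_lt.2 hlt.le), sub_zero, one_mul]
    rfl
  · refine ⟨-1, hK.neg 1 hK.one, l0, fun z hz => ?_⟩
    rw [key z hz, if_neg (not_lt.2 hgt.le), if_pos hgt, zero_sub, neg_one_mul]
    rfl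

end Crest.Agent.R042.GadF927
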