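import Mathlib

/-!
# Row 42, same-type gadget: labels with prescribed windows exist (helper927)

`exists_symm_rows`: if `u j` are linearly independent and the span of all `u j` meets every
`W i` in `0`, then there is a symmetric bilinear form with prescribed rows on the `W i`.

`phi_indep`: rank-one tensors of points in distinct positions are linearly independent.
-/

namespace Crest.Agent.R042.PreRow927

section rows

variable {k U ι : Type*} [Field k] [AddCommGroup U] [Module k U] [Fintype ι] [DecidableEq ι]

/-- a functional with prescribed values on `W` that kills `Y`, for disjoint `W`, `Y`. -/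
theorem exists_extend_kill (W Y : Submodule k U) (hd : Disjoint W Y) (β : W →ₗ[k] k) :
    ∃ ρ : U →ₗ[k] k, (∀ x (hx : x ∈ W), ρ x = β ⟨x, hx⟩) ∧ ∀ y ∈ Y, ρ y = 0 := by
  classical
  -- functional on the quotient by `Y`
  have hinj : Function.Injective ((Y.mkQ).comp W.subtype) := by
    rw [← LinearMap.ker_eq_bot, LinearMap.ker_eq_bot']
    intro w hw
    have h1 : (w : U) ∈ Y := by
      have : Y.mkQ (w : U) = 0 := hw
      simpa using this
    have h2 : (w : U) ∈ W ⊓ Y := ⟨w.2, h1⟩
    rw [hd.eq_bot] at h2
    have h3 : (w : U) = 0 := by simpa using h2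
    exact Subtype.ext h3
  obtain ⟨g, hg⟩ := LinearMap.exists_leftInverse_of_injective _ (LinearMap.ker_eq_bot.2 hinj)
  refine ⟨(β.comp g).comp Y.mkQ, ?_, ?_⟩
  · intro x hx
    have := congrArg (fun φ => φ ⟨x, hx⟩) hg
    simp only [LinearMap.comp_apply, Submodule.subtype_apply, LinearMap.id_apply] at this
    simp only [LinearMap.comp_apply]
    rw [this]
  · intro y hy
    have : Y.mkQ y = 0 := by simpa using hy
    simp [LinearMap.comp_apply, this]

/-- **prescribed rows**: symmetric bilinear form with `f (u i) = β i` on `W i`. -/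
theorem exists_symm_rows (u : ι → U) (W : ι → Submodule k U)
    (hu : LinearIndependent k u)
    (hd : ∀ i, Disjoint (W i) (Submodule.span k (Set.range u)))
    (β : ∀ i, W i →ₗ[k] k) :
    ∃ f : U →ₗ[k] U →ₗ[k] k, (∀ x y, f x y = f y x) ∧
      ∀ i x (hx : x ∈ W i), f (u i) x = β i ⟨x, hx⟩ := by
  classical
  choose ρ hρ hρ0 using fun i => exists_extend_kill (W i) _ (hd i) (β i)
  -- dual functionals
  have hσ : ∀ i, ∃ σ : U →ₗ[k] k, ∀ j, σ (u j) = if j = i then 1 else 0 := by
    intro i
    obtain ⟨g, hg⟩ := LinearMap.exists_leftInverse_of_injective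
      (Finsupp.linearCombination k u) (LinearMap.ker_eq_bot.2 hu)
    refine ⟨(Finsupp.lapply i).comp g, fun j => ?_⟩
    have h1 : g (u j) = Finsupp.single j 1 := by
      have := congrArg (fun φ => φ (Finsupp.single j (1 : k))) hg
      simpa [Finsupp.linearCombination_single] using this
    simp [LinearMap.comp_apply, h1, Finsupp.single_apply]
  choose σ hσ using hσ
  refine ⟨∑ i, ((σ i).smulRight (ρ i) + (ρ i).smulRight (σ i)), ?_, ?_⟩
  · intro x y
    simp only [LinearMap.sum_apply, LinearMap.add_apply, LinearMap.smulRight_apply,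
      LinearMap.smul_apply, smul_eq_mul]
    refine Finset.sum_congr rfl fun i _ => ?_
    ring
  · intro i x hx
    simp only [LinearMap.sum_apply, LinearMap.add_apply, LinearMap.smulRight_apply,
      LinearMap.smul_apply, smul_eq_mul]
    have h0 : ∀ j, ρ j (u i) = 0 := fun j => hρ0 j _ (Submodule.subset_span ⟨i, rfl⟩)
    rw [Finset.sum_eq_single i]
    · rw [hσ, h0, hρ i x hx]; simp
    · intro j _ hj
      rw [hσ, h0, if_neg (fun h => hj h.symm)]; simp
    · intro h; exact absurd (Finset.mem_univ i) h

end rows

section phi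

variable {KK : Type*} [Field KK] {w kp : ℕ}

/-- the rank-one tensor of a point (543's `Phi`), for arbitrary block maps `fr i`. -/
def Phi (fr : Fin kp → KK →+* KK) (b : Fin w → KK) : (Fin kp → Fin w) → KK :=
  fun al => ∏ i, fr i (b (al i))

/-- contraction with a product functional. -/
def con (coef : Fin kp → Fin w → KK) : ((Fin kp → Fin w) → KK) →ₗ[KK] KK where
  toFun t := ∑ al, (∏ i, coef i (al i)) * t al
  map_add' s t := by simp [mul_add, Finset.sum_add_distrib]
  map_smul' c t := by
    simp only [Pi.smul_apply, smul_eq_mul, RingHom.id_apply, Finset.mul_sum]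
    exact Finset.sum_congr rfl fun al _ => by ring

theorem con_apply (coef : Fin kp → Fin w → KK) (t : (Fin kp → Fin w) → KK) :
    con coef t = ∑ al, (∏ i, coef i (al i)) * t al := rfl

theorem con_Phi (coef : Fin kp → Fin w → KK) (fr : Fin kp → KK →+* KK) (b : Fin w → KK) :
    con coef (Phi fr b) = ∏ i, ∑ a, coef i a * fr i (b a) := by
  classical
  rw [con_apply, Finset.prod_univ_sum]
  rw [Fintype.piFinset_univ]
  refine Finset.sum_congr rfl fun al _ => ?_
  rw [Phi, Finset.prod_mul_distrib]

/-- rank-one tensors of pairwise distinct points on the chart `b o = 1` are independent as soon as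
there are at least (number of points − 1) blocks. -/
theorem phi_indep {d : ℕ} (hd : d ≤ kp + 1) (fr : Fin kp → KK →+* KK) (o : Fin w)
    (b : Fin d → Fin w → KK) (h1 : ∀ j, b j o = 1) (hne : Function.Injective b) :
    LinearIndependent KK (fun j => Phi fr (b j)) := by
  classical
  rw [Fintype.linearIndependent_iff]
  intro c hc j0
  -- coordinates separating `b j` from `b j0`
  have hsep : ∀ j, j ≠ j0 → ∃ a, b j a ≠ b j0 a := by
    intro j hj
    by_contra h
    push Not at h
    exact hj (hne (funext h))
  -- assign blocks to the points `j ≠ j0`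
  have hcard : Fintype.card {j : Fin d // j ≠ j0} ≤ Fintype.card (Fin kp) := by
    rw [Fintype.card_subtype_compl, Fintype.card_fin, Fintype.card_fin]
    simp
    omega
  obtain ⟨e⟩ : Nonempty ({j : Fin d // j ≠ j0} ↪ Fin kp) :=
    Function.Embedding.nonempty_of_card_le hcard
  choose a ha using hsep
  -- block functionals
  let coef : Fin kp → Fin w → KK := fun i x =>
    if h : ∃ j : {j : Fin d // j ≠ j0}, e j = i then
      (if x = a h.choose.1 h.choose.2 then 1 else 0)
        - fr i (b h.choose.1 (a h.choose.1 h.choose.2)) * (if x = o then 1 else 0)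
    else (if x = o then 1 else 0)
  have hval : ∀ i j', ∑ x, coef i x * fr i (b j' x) =
      if h : ∃ j : {j : Fin d // j ≠ j0}, e j = i then
        fr i (b j' (a h.choose.1 h.choose.2)) - fr i (b h.choose.1 (a h.choose.1 h.choose.2))
      else 1 := by
    intro i j'
    by_cases h : ∃ j : {j : Fin d // j ≠ j0}, e j = i
    · simp only [coef, dif_pos h]
      simp only [sub_mul, Finset.sum_sub_distrib]
      congr 1
      · simp
      · have : ∀ x, fr i (b h.choose.1 (a h.choose.1 h.choose.2)) * (if x = o then (1 : KK) else 0)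
            * fr i (b j' x) = if x = o then
              fr i (b h.choose.1 (a h.choose.1 h.choose.2)) * fr i (b j' x) else 0 := by
          intro x; split_ifs <;> ring
        simp only [this]
        rw [Finset.sum_ite_eq' Finset.univ o]
        simp [h1]
    · simp only [coef, dif_neg h]
      simp [h1]
  have hkill : ∀ j, j ≠ j0 → con coef (Phi fr (b j)) = 0 := by
    intro j hj
    rw [con_Phi]
    apply Finset.prod_eq_zero (Finset.mem_univ (e ⟨j, hj⟩))
    rw [hval]
    have h : ∃ j' : {j : Fin d // j ≠ j0}, e j' = e ⟨j, hj⟩ := ⟨⟨j, hj⟩, rfl⟩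
    rw [dif_pos h]
    have hch : h.choose = ⟨j, hj⟩ := e.injective h.choose_spec
    have : (h.choose).1 = j := by rw [hch]
    simp
  have hnz : con coef (Phi fr (b j0)) ≠ 0 := by
    rw [con_Phi, Finset.prod_ne_zero_iff]
    intro i _
    rw [hval]
    by_cases h : ∃ j : {j : Fin d // j ≠ j0}, e j = i
    · rw [dif_pos h, ← map_sub]
      intro h0
      have := (map_eq_zero (fr i)).1 h0
      exact ha h.choose.1 h.choose.2 (sub_eq_zero.1 this).symm
    · rw [dif_neg h]; exact one_ne_zero
  have h2 := congrArg (con coef) hc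
  rw [map_sum, map_zero] at h2
  rw [Finset.sum_eq_single j0] at h2
  · rw [map_smul, smul_eq_mul] at h2
    exact (mul_eq_zero.1 h2).resolve_right hnz
  · intro j _ hj
    rw [map_smul, hkill j hj, smul_zero]
  · intro h; exact absurd (Finset.mem_univ j0) h

end phi

end Crest.Agent.R042.PreRow927
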