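import Crest.Agent.R042.Fam_543
import Crest.Agent.R042.PreRow_927

/-! Row 42 / S0059: the same-type gadget on the family side (helper220).
`fibre i` = labels with prescribed windows at the `Γ`-neighbours; complete bipartite along `Γ`;
nonempty; affine idempotent `pi i` of all labels onto `fibre i` with equal point fibres. -/

set_option autoImplicit false
set_option linter.unusedSectionVars false

namespace Crest.Agent.R042.Gadget220

open Finset Crest.Agent.R042.RowWin543 Crest.Agent.R042.Fam543 Crest.Agent.R042.PreRow927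

/-! ### independence of rank-one tensors, arbitrary index types -/

theorem phi_indep' {KK β α J : Type*} [Field KK] [Fintype β] [Fintype α] [Fintype J]
    (hcard : Fintype.card J ≤ Fintype.card β + 1) (fr : β → KK →+* KK) (o : α) (b : J → α → KK)
    (h1 : ∀ j, b j o = 1) (hne : Function.Injective b) (c : J → KK)
    (hc : ∀ al : β → α, ∑ j, c j * ∏ i, fr i (b j (al i)) = 0) : ∀ j, c j = 0 := by
  classical
  let eβ := Fintype.equivFin β
  let eα := Fintype.equivFin α
  let eJ := Fintype.equivFin J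
  have hli := phi_indep (KK := KK) (w := Fintype.card α) (kp := Fintype.card β)
    (d := Fintype.card J) hcard (fun i => fr (eβ.symm i)) (eα o)
    (fun j a => b (eJ.symm j) (eα.symm a)) (fun j => by simpa using h1 (eJ.symm j))
    (by
      intro j j' h
      apply eJ.symm.injective
      apply hne
      funext a
      have := congrFun h (eα a)
      simpa using this)
  rw [Fintype.linearIndependent_iff] at hli
  have key := hli (fun j => c (eJ.symm j)) (by
    funext al
    have h2 := hc (fun i => eα.symm (al (eβ i)))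
    simp only [Finset.sum_apply, Pi.smul_apply, smul_eq_mul, Pi.zero_apply, PreRow927.Phi]
    rw [← h2, ← Equiv.sum_comp eJ.symm]
    refine sum_congr rfl fun j _ => ?_
    congr 1
    rw [← Equiv.prod_comp eβ.symm]
    refine prod_congr rfl fun i _ => ?_
    simp)
  intro j
  have := key (eJ j)
  simpa using this

section fam

variable {k0 KK : Type} [Field k0] [Field KK] [Algebra k0 KK] [CharP KK 2]

theorem Valid.lam_ne {d L : ℕ} {K : Set k0} {R : Ty k0 KK d L} (h : Valid K R) : R.lam ≠ 0 := by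
  intro h0
  have := h.lam
  rw [h0, map_zero] at this
  exact zero_ne_one this

/-- rows of pairwise non-perpendicular types with distinct `b` are independent, even modulo a window -/
theorem indep_mod {K : Set k0} (hK : Alph K) (e : ℕ) {d L kp : ℕ} {J : Type*} [Fintype J]
    (R : J → Ty k0 KK d L) (hR : ∀ j, Valid K (R j)) (hb : Function.Injective fun j => (R j).b)
    (hnp : ∀ j j', ¬ Perp (R j) (R j')) (hcard : Fintype.card J ≤ kp) (l : Fin L) (c : J → k0)
    (P : Ty k0 KK d L) (j0 : J)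
    (hx : ∑ j, c j • uvec (2 ^ e) kp (R j) ∈ UPQ (2 ^ e) kp P (R j0)) : ∀ j, c j = 0 := by
  classical
  have hkp : 0 < kp := lt_of_lt_of_le (Fintype.card_pos_iff.2 ⟨j0⟩) hcard
  let i0 : Fin kp := ⟨0, hkp⟩
  have h1 : (∑ j, c j • uvec (2 ^ e) kp (R j)) l ∈ T1 (2 ^ e) (R j0).b := (Submodule.mem_inf.1 hx).2 l
  rw [mem_T1] at h1
  have h2 := h1 i0
  have h3 : (∑ j, c j • uvec (2 ^ e) kp (R j)) l
      = ∑ j, (algebraMap k0 KK (c j * (R j).E l) * (R j).lam) • (Fam543.Phi (2 ^ e) (R j).b : U0 KK d kp) := by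
    rw [Finset.sum_apply]
    refine sum_congr rfl fun j _ => ?_
    show c j • ((algebraMap k0 KK ((R j).E l) * (R j).lam) • (Fam543.Phi (2 ^ e) (R j).b : U0 KK d kp)) = _
    rw [← algebraMap_smul KK (c j), smul_smul, map_mul, mul_assoc]
  rw [h3, map_sum] at h2
  have hfr : ∀ (i : Fin kp) (x : KK), iterateFrobenius KK 2 (e * i) x = x ^ ((2 ^ e) ^ (i : ℕ)) := by
    intro i x
    rw [iterateFrobenius_def, pow_mul]
  have h4 := phi_indep' (KK := KK) (β := {i : Fin kp // i ≠ i0}) (α := Ix d) (J := J)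
    (by
      rw [Fintype.card_subtype_compl, Fintype.card_fin]
      simp
      omega)
    (fun i => iterateFrobenius KK 2 (e * (i.1 : ℕ))) none (fun j => (R j).b) (fun j => (hR j).b0) hb
    (fun j => algebraMap k0 KK (c j * (R j).E l) * (R j).lam * (B (R j0).b (R j).b) ^ ((2 ^ e) ^ (i0 : ℕ)))
    (by
      intro al
      -- evaluate the contraction at an extension of `al`
      let al' : Fin kp → Ix d := fun i => if h : i ≠ i0 then al ⟨i, h⟩ else none
      have h5 := congrFun h2 al'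
      rw [Finset.sum_apply] at h5
      rw [Pi.zero_apply] at h5
      rw [← h5]
      refine sum_congr rfl fun j _ => ?_
      rw [map_smul, Pi.smul_apply, smul_eq_mul, contr_Phi, mul_assoc, mul_assoc, mul_assoc]
      congr 3
      rw [Finset.prod_subtype (univ.erase i0) (p := fun i => i ≠ i0) (by simp)]
      refine prod_congr rfl fun i _ => ?_
      have : al' i.1 = al i := by simp [al', i.2]
      rw [hfr, this])
  intro j
  have h6 := h4 j
  have h7 : (B (R j0).b (R j).b) ^ ((2 ^ e) ^ (i0 : ℕ)) ≠ 0 := pow_ne_zero _ (hnp j0 j)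
  have h8 := (mul_eq_zero.1 h6).resolve_right h7
  have h9 := (mul_eq_zero.1 h8).resolve_right (Valid.lam_ne (hR j))
  have h10 : c j * (R j).E l = 0 := by
    rw [← map_zero (algebraMap k0 KK)] at h9
    exact (algebraMap k0 KK).injective h9
  exact (mul_eq_zero.1 h10).resolve_right (hK.ne_zero ((hR j).E l))

/-! ### the gadget -/

/-- gadget data: a bounded degree graph `Γ` on the types inside the perp graph -/
structure Gad {r : ℕ} {d L : ℕ} (kp : ℕ) (T : Fin r → Ty k0 KK d L) (Γ : Fin r → Fin r → Prop) : Prop where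
  symm : ∀ i j, Γ i j → Γ j i
  perp : ∀ i j, Γ i j → Perp (T i) (T j)
  cherry : ∀ i j k, Γ i j → Γ i k → j ≠ k → ¬ Perp (T j) (T k)
  deg : ∀ i, Nat.card {j // Γ i j} ≤ kp

variable {r d L kp : ℕ}

/-- prescribed value -/
noncomputable def pre (l0 : Fin L) (i j : Fin r) (z : U KK d kp L) : k0 :=
  if i < j then tau k0 (z l0) else 0

/-- labels of type `i` with prescribed windows at the `Γ`-neighbours -/
def fibre (e : ℕ) (T : Fin r → Ty k0 KK d L) (Γ : Fin r → Fin r → Prop) (l0 : Fin L) (i : Fin r) :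
    Set (Label k0 KK d kp L) :=
  {f | ∀ j, Γ i j → ∀ z ∈ UPQ (2 ^ e) kp (T i) (T j), f.1 (uvec (2 ^ e) kp (T j)) z = pre l0 i j z}

/-- (G1) -/
theorem complete {K : Set k0} (hK : Alph K) {e : ℕ} {T : Fin r → Ty k0 KK d L}
    (hT : ∀ i, Valid K (T i)) {Γ : Fin r → Fin r → Prop} (hΓ : Gad kp T Γ) {l0 : Fin L} {i j : Fin r}
    (hij : Γ i j) {f g : Label k0 KK d kp L} (hf : f ∈ fibre e T Γ l0 i) (hg : g ∈ fibre e T Γ l0 j) :
    Rel K (2 ^ e) kp (T i) (T j) f g := by
  have hne : i ≠ j := by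
    rintro rfl
    exact (hT i).aniso (hΓ.perp _ _ hij)
  rcases lt_or_gt_of_ne hne with h | h
  · refine ⟨hΓ.perp _ _ hij, 1, hK.one, l0, fun z hz => ?_⟩
    rw [hf j hij z hz, hg i (hΓ.symm _ _ hij) z (by rwa [UPQ_comm]), pre, pre, if_pos h,
      if_neg (not_lt.2 h.le)]
    ring
  · refine ⟨hΓ.perp _ _ hij, -1, hK.neg 1 hK.one, l0, fun z hz => ?_⟩
    rw [hf j hij z hz, hg i (hΓ.symm _ _ hij) z (by rwa [UPQ_comm]), pre, pre, if_pos h,
      if_neg (not_lt.2 h.le)]
    ring

/-- (G2) -/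
theorem fibre_nonempty {K : Set k0} (hK : Alph K) {e : ℕ} {T : Fin r → Ty k0 KK d L}
    (hT : ∀ i, Valid K (T i)) (hb : Function.Injective fun i => (T i).b)
    {Γ : Fin r → Fin r → Prop} (hΓ : Gad kp T Γ) (l0 : Fin L) (i : Fin r) :
    (fibre (kp := kp) e T Γ l0 i).Nonempty := by
  classical
  let J := {j // Γ i j}
  have hcard : Fintype.card J ≤ kp := by
    have := hΓ.deg i
    rwa [Nat.card_eq_fintype_card] at this
  have hnp : ∀ j j' : J, ¬ Perp (T j.1) (T j'.1) := by
    intro j j'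
    by_cases h : j = j'
    · rw [h]; exact (hT j'.1).aniso
    · exact hΓ.cherry i j.1 j'.1 j.2 j'.2 (fun h' => h (Subtype.ext h'))
  have hbJ : Function.Injective fun j : J => (T j.1).b := fun j j' h => Subtype.ext (hb h)
  have hmod := fun (c : J → k0) (j0 : J) =>
    indep_mod hK e (kp := kp) (fun j : J => T j.1) (fun j => hT j.1) hbJ hnp hcard l0 c (T i) j0
  have hli : LinearIndependent k0 (fun j : J => uvec (2 ^ e) kp (T j.1)) := by
    rw [Fintype.linearIndependent_iff]
    intro c hc j0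
    exact hmod c j0 (by rw [hc]; exact Submodule.zero_mem _) j0
  obtain ⟨f, hf1, hf2⟩ := exists_symm_rows (fun j : J => uvec (2 ^ e) kp (T j.1))
    (fun j : J => UPQ (2 ^ e) kp (T i) (T j.1)) hli
    (by
      intro j0
      rw [Submodule.disjoint_def]
      intro x hx hx2
      obtain ⟨c, rfl⟩ := (Submodule.mem_span_range_iff_exists_fun k0).1 hx2
      have := hmod c j0 hx
      simp [this])
    (fun j : J => if i < j.1 then ((tau k0).comp ((LinearMap.proj l0 : U KK d kp L →ₗ[k0] U0 KK d kp))).comp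
      (UPQ (2 ^ e) kp (T i) (T j.1)).subtype else 0)
  refine ⟨⟨f, hf1⟩, ?_⟩
  intro j hj z hz
  have h := hf2 ⟨j, hj⟩ z hz
  show f (uvec (2 ^ e) kp (T j)) z = _
  rw [h, pre]
  by_cases hij : i < j
  · simp [hij]
  · simp [hij]

/-- homogeneous version of the fibre -/
def fib0 (e : ℕ) (T : Fin r → Ty k0 KK d L) (Γ : Fin r → Fin r → Prop) (i : Fin r) :
    Submodule k0 (Label k0 KK d kp L) where
  carrier := {f | ∀ j, Γ i j → ∀ z ∈ UPQ (2 ^ e) kp (T i) (T j), f.1 (uvec (2 ^ e) kp (T j)) z = 0}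
  add_mem' := by
    intro f g hf hg j hj z hz
    have h1 := hf j hj z hz
    have h2 := hg j hj z hz
    simp [h1, h2]
  zero_mem' := by intro j hj z hz; simp
  smul_mem' := by
    intro c f hf j hj z hz
    have h1 := hf j hj z hz
    simp [h1]

noncomputable local instance instACG {W : Type} [AddCommGroup W] [Module k0 W] :
    AddCommGroup (SymForm k0 W) :=
  Submodule.addCommGroup (M := W →ₗ[k0] W →ₗ[k0] k0) (R := k0) (SymForm k0 W)

theorem sub_mem_fib0 {e : ℕ} {T : Fin r → Ty k0 KK d L} {Γ : Fin r → Fin r → Prop} {l0 : Fin L} {i : Fin r}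
    {f g : Label k0 KK d kp L} (hf : f ∈ fibre e T Γ l0 i) (hg : g ∈ fibre e T Γ l0 i) :
    f + (-1 : k0) • g ∈ fib0 e T Γ i := by
  intro j hj z hz
  have h1 := hf j hj z hz
  have h2 := hg j hj z hz
  show (f.1 + (-1 : k0) • g.1) (uvec (2 ^ e) kp (T j)) z = 0
  rw [LinearMap.add_apply, LinearMap.add_apply, LinearMap.smul_apply, LinearMap.smul_apply, h1, h2]
  simp

theorem add_mem_fibre {e : ℕ} {T : Fin r → Ty k0 KK d L} {Γ : Fin r → Fin r → Prop} {l0 : Fin L} {i : Fin r}
    {f g : Label k0 KK d kp L} (hf : f ∈ fibre e T Γ l0 i) (hg : g ∈ fib0 e T Γ i) :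
    f + g ∈ fibre e T Γ l0 i := by
  intro j hj z hz
  have h1 := hf j hj z hz
  have h2 := hg j hj z hz
  show (f.1 + g.1) (uvec (2 ^ e) kp (T j)) z = _
  rw [LinearMap.add_apply, LinearMap.add_apply, h1, h2, add_zero]

/-- a linear projection onto `fib0` -/
theorem exists_proj {V : Type*} [AddCommGroup V] [Module k0 V] (F0 : Submodule k0 V) :
    ∃ p : V →ₗ[k0] V, (∀ v, p v ∈ F0) ∧ ∀ v ∈ F0, p v = v := by
  obtain ⟨q, hq⟩ := LinearMap.exists_leftInverse_of_injective F0.subtype
    (LinearMap.ker_eq_bot.2 F0.injective_subtype)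
  refine ⟨F0.subtype.comp q, fun v => (q v).2, fun v hv => ?_⟩
  have := LinearMap.congr_fun hq ⟨v, hv⟩
  show ((q v : F0) : V) = v
  have h2 : q v = ⟨v, hv⟩ := this
  rw [h2]

/-- the data of the gadget labels: affine idempotents onto the fibres -/
structure PiData {kp : ℕ} (e : ℕ) (T : Fin r → Ty k0 KK d L) (Γ : Fin r → Fin r → Prop) (l0 : Fin L) where
  h : Fin r → Label k0 KK d kp L
  p : Fin r → (Label k0 KK d kp L →ₗ[k0] Label k0 KK d kp L)
  hh : ∀ i, h i ∈ fibre e T Γ l0 i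
  hp : ∀ i f, p i f ∈ fib0 e T Γ i
  hp' : ∀ i, ∀ f ∈ fib0 e T Γ i, p i f = f

theorem exists_piData {K : Set k0} (hK : Alph K) {e : ℕ} {T : Fin r → Ty k0 KK d L}
    (hT : ∀ i, Valid K (T i)) (hb : Function.Injective fun i => (T i).b)
    {Γ : Fin r → Fin r → Prop} (hΓ : Gad kp T Γ) (l0 : Fin L) : Nonempty (PiData (kp := kp) e T Γ l0) := by
  choose h hh using fun i => fibre_nonempty (kp := kp) hK (e := e) hT hb hΓ l0 i
  choose p hp hp' using fun i => exists_proj (fib0 (kp := kp) e T Γ i)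
  exact ⟨⟨h, p, hh, hp, hp'⟩⟩

namespace PiData

variable {e : ℕ} {T : Fin r → Ty k0 KK d L} {Γ : Fin r → Fin r → Prop} {l0 : Fin L}
  (D : PiData (kp := kp) e T Γ l0)

/-- the affine idempotent -/
def pi (i : Fin r) (f : Label k0 KK d kp L) : Label k0 KK d kp L := D.h i + D.p i (f + (-1 : k0) • D.h i)

theorem pi_mem (i : Fin r) (f : Label k0 KK d kp L) : D.pi i f ∈ fibre e T Γ l0 i :=
  add_mem_fibre (D.hh i) (D.hp i _)

theorem pi_of_mem {i : Fin r} {f : Label k0 KK d kp L} (hf : f ∈ fibre e T Γ l0 i) : D.pi i f = f := by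
  rw [pi, D.hp' i _ (sub_mem_fib0 hf (D.hh i))]
  apply Subtype.ext
  refine LinearMap.ext fun x => LinearMap.ext fun y => ?_
  show (D.h i).1 x y + (f.1 x y + (-1 : k0) * (D.h i).1 x y) = f.1 x y
  ring

theorem pi_pi (i : Fin r) (f : Label k0 KK d kp L) : D.pi i (D.pi i f) = D.pi i f :=
  D.pi_of_mem (D.pi_mem i f)

theorem pi_eq_iff (i : Fin r) (f g : Label k0 KK d kp L) :
    D.pi i f = D.pi i g ↔ f - g ∈ LinearMap.ker (D.p i) := by
  rw [LinearMap.mem_ker, pi, pi, add_right_inj, ← sub_eq_zero, ← map_sub]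
  simp

/-- all point fibres of `pi i` have the size of `ker (p i)` -/
theorem card_fib (i : Fin r) (f : Label k0 KK d kp L) :
    Nat.card {g // D.pi i g = D.pi i f} = Nat.card (LinearMap.ker (D.p i)) := by
  refine Nat.card_congr ⟨fun g => ⟨g.1 - f, (D.pi_eq_iff i g.1 f).1 g.2⟩,
    fun v => ⟨v.1 + f, (D.pi_eq_iff i _ f).2 (by rw [add_sub_cancel_right]; exact v.2)⟩, ?_, ?_⟩
  · intro g; simp
  · intro v; simp

/-- the codimension of the fibre is at most the sum of the window dimensions -/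
theorem finrank_ker_le [Module.Finite k0 KK] (i : Fin r) :
    Module.finrank k0 (LinearMap.ker (D.p i)) ≤
      ∑ᶠ j : {j // Γ i j}, Module.finrank k0 (UPQ (2 ^ e) kp (T i) (T j.1)) := by
  classical
  -- `ker (p i)` embeds into the product of the duals of the windows
  let W : {j // Γ i j} → Submodule k0 (U KK d kp L) := fun j => UPQ (2 ^ e) kp (T i) (T j.1)
  let F : LinearMap.ker (D.p i) →ₗ[k0] (∀ j : {j // Γ i j}, W j →ₗ[k0] k0) :=
    { toFun := fun f j => (f.1.1 (uvec (2 ^ e) kp (T j.1))).comp (W j).subtype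
      map_add' := by intro f g; rfl
      map_smul' := by intro c f; rfl }
  have hF : Function.Injective F := by
    intro f g hfg
    have h1 : f.1 + (-1 : k0) • g.1 ∈ fib0 e T Γ i := by
      intro j hj z hz
      have h0 : f.1.1 (uvec (2 ^ e) kp (T j)) z = g.1.1 (uvec (2 ^ e) kp (T j)) z :=
        LinearMap.congr_fun (congrFun hfg ⟨j, hj⟩) ⟨z, hz⟩
      show (f.1.1 + (-1 : k0) • g.1.1) (uvec (2 ^ e) kp (T j)) z = 0
      rw [LinearMap.add_apply, LinearMap.add_apply, LinearMap.smul_apply, LinearMap.smul_apply, h0]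
      simp
    have h2 := D.hp' i _ h1
    have h3 : D.p i f.1 = 0 := f.2
    have h4 : D.p i g.1 = 0 := g.2
    rw [map_add, map_smul, h3, h4, smul_zero, add_zero] at h2
    have h5 : (0 : U KK d kp L →ₗ[k0] U KK d kp L →ₗ[k0] k0) = f.1.1 + (-1 : k0) • g.1.1 :=
      congrArg Subtype.val h2
    apply Subtype.ext
    apply Subtype.ext
    refine LinearMap.ext fun x => LinearMap.ext fun y => ?_
    have h6 : (0 : k0) = f.1.1 x y + (-1 : k0) * g.1.1 x y :=
      LinearMap.congr_fun (LinearMap.congr_fun h5 x) y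
    linear_combination -h6
  have h4 := LinearMap.finrank_le_finrank_of_injective hF
  refine h4.trans (le_of_eq ?_)
  rw [Module.finrank_pi_fintype, finsum_eq_sum_of_fintype]
  refine sum_congr rfl fun j _ => ?_
  exact Subspace.dual_finrank_eq

/-- the graph of the family with gadget labels: types `Fin r`, all labels -/
def graphG {K : Set k0} (hK : Alph K) (hT : ∀ i, Valid K (T i)) :
    SimpleGraph (Fin r × Label k0 KK d kp L) :=
  (graph K hK (2 ^ e) kp T hT).comap fun x => (x.1, D.pi x.1 x.2)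

theorem graphG_adj {K : Set k0} (hK : Alph K) (hT : ∀ i, Valid K (T i))
    (x y : Fin r × Label k0 KK d kp L) : (D.graphG hK hT).Adj x y ↔
      Rel K (2 ^ e) kp (T x.1) (T y.1) (D.pi x.1 x.2) (D.pi y.1 y.2) := Iff.rfl

theorem graphG_cliqueFree {K : Set k0} (hK : Alph K) (hT : ∀ i, Valid K (T i)) :
    (D.graphG hK hT).CliqueFree 3 := by
  classical
  intro s hs
  rw [SimpleGraph.is3Clique_iff] at hs
  obtain ⟨a, b, c, hab, hac, hbc, -⟩ := hs
  exact no_triangle hK e (hT a.1) (hT b.1) (hT c.1) hab hbc hac.symm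

theorem graphG_not_adj_same {K : Set k0} (hK : Alph K) (hT : ∀ i, Valid K (T i))
    (x y : Fin r × Label k0 KK d kp L) (h : x.1 = y.1) : ¬ (D.graphG hK hT).Adj x y := by
  rw [graphG_adj, h]
  exact fun h' => (hT y.1).aniso h'.1

/-- `V_i` is complete to `V_j` along `Γ` -/
theorem graphG_complete {K : Set k0} (hK : Alph K) (hT : ∀ i, Valid K (T i)) (hΓ : Gad kp T Γ)
    (x y : Fin r × Label k0 KK d kp L) (h : Γ x.1 y.1) : (D.graphG hK hT).Adj x y :=
  complete hK hT hΓ h (D.pi_mem _ _) (D.pi_mem _ _)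

end PiData

/-- **927's literal form** (#28273): labels `hh i + ρ i f`. -/
theorem exists_gad {K : Set k0} (hK : Alph K) [Module.Finite k0 KK] (e : ℕ) (hL : 0 < L)
    (T : Fin r → Ty k0 KK d L) (hT : ∀ i, Valid K (T i)) (hb : Function.Injective fun i => (T i).b)
    (Γ : SimpleGraph (Fin r)) [DecidableRel Γ.Adj] (hperp : ∀ i j, Γ.Adj i j → Perp (T i) (T j))
    (hch : ∀ i j k, Γ.Adj i j → Γ.Adj i k → j ≠ k → ¬ Perp (T j) (T k))
    (hdeg : ∀ i, (univ.filter fun j => Γ.Adj i j).card ≤ kp) :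
    ∃ (hh : Fin r → Label k0 KK d kp L) (ρ : Fin r → (Label k0 KK d kp L →ₗ[k0] Label k0 KK d kp L)),
      (∀ i f, ρ i (ρ i f) = ρ i f) ∧
      (∀ i j, Γ.Adj i j → ∀ f g, Rel K (2 ^ e) kp (T i) (T j) (hh i + ρ i f) (hh j + ρ j g)) ∧
      ∀ i, Module.finrank k0 (LinearMap.ker (ρ i)) ≤
        ∑ j ∈ univ.filter (fun j => Γ.Adj i j), Module.finrank k0 (UPQ (2 ^ e) kp (T i) (T j)) := by
  classical
  have hΓ : Gad kp T Γ.Adj := by
    refine ⟨fun i j h => h.symm, hperp, hch, fun i => ?_⟩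
    rw [Nat.card_eq_fintype_card, Fintype.card_subtype]
    exact hdeg i
  obtain ⟨D⟩ := exists_piData (kp := kp) hK (e := e) hT hb hΓ ⟨0, hL⟩
  refine ⟨D.h, D.p, fun i f => D.hp' i _ (D.hp i f), fun i j hij f g => ?_, fun i => ?_⟩
  · exact complete hK hT hΓ hij (add_mem_fibre (D.hh i) (D.hp i f)) (add_mem_fibre (D.hh j) (D.hp j g))
  · refine (D.finrank_ker_le i).trans (le_of_eq ?_)
    rw [finsum_eq_sum_of_fintype]
    rw [← Finset.sum_subtype (univ.filter fun j => Γ.Adj i j) (by simp)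
      (fun j => Module.finrank k0 (UPQ (2 ^ e) kp (T i) (T j)))]

/-- size of the point fibres of `f ↦ hh i + ρ i f` -/
theorem card_fibre_eq {V : Type*} [AddCommGroup V] [Module k0 V] (h : V) (ρ : V →ₗ[k0] V) (f : V) :
    Nat.card {g // h + ρ g = h + ρ f} = Nat.card (LinearMap.ker ρ) := by
  refine Nat.card_congr ⟨fun g => ⟨g.1 - f, ?_⟩, fun v => ⟨v.1 + f, ?_⟩, ?_, ?_⟩
  · rw [LinearMap.mem_ker, map_sub, sub_eq_zero]
    exact add_left_cancel g.2
  · rw [map_add, LinearMap.mem_ker.1 v.2, zero_add]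
  · intro g; simp
  · intro v; simp

/-- the graph with gadget labels `hh i + ρ i f` is triangle-free -/
theorem graphH_cliqueFree {K : Set k0} (hK : Alph K) (e : ℕ) {T : Fin r → Ty k0 KK d L}
    (hT : ∀ i, Valid K (T i)) {𝓕 : Type*} (lab : Fin r → 𝓕 → Label k0 KK d kp L) :
    ((graph K hK (2 ^ e) kp T hT).comap fun x : Fin r × 𝓕 => (x.1, lab x.1 x.2)).CliqueFree 3 := by
  classical
  intro s hs
  rw [SimpleGraph.is3Clique_iff] at hs
  obtain ⟨a, b, c, hab, hac, hbc, -⟩ := hs
  exact no_triangle hK e (hT a.1) (hT b.1) (hT c.1) hab hbc hac.symm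

end fam

/-! ### push-forward and relative entropy (927's budget remark) -/

section kl

variable {Y Z : Type*} [Fintype Y] [Fintype Z] [DecidableEq Z]

/-- push-forward -/
def push (φ : Y → Z) (μ : Y → ℝ) (z : Z) : ℝ := ∑ y ∈ univ.filter (fun y => φ y = z), μ y

theorem push_nonneg {φ : Y → Z} {μ : Y → ℝ} (hμ : ∀ y, 0 ≤ μ y) (z : Z) : 0 ≤ push φ μ z :=
  sum_nonneg fun y _ => hμ y

theorem sum_push_mul (φ : Y → Z) (μ : Y → ℝ) (h : Z → ℝ) :
    ∑ z, push φ μ z * h z = ∑ y, μ y * h (φ y) := by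
  unfold push
  simp only [sum_mul]
  rw [← Finset.sum_fiberwise (s := univ) (g := φ) (f := fun y => μ y * h (φ y))]
  refine sum_congr rfl fun z _ => sum_congr rfl fun y hy => ?_
  rw [(mem_filter.1 hy).2]

theorem sum_push (φ : Y → Z) (μ : Y → ℝ) : ∑ z, push φ μ z = ∑ y, μ y := by
  have := sum_push_mul φ μ fun _ => 1
  simpa using this

/-- log-sum inequality with the uniform law on the fibre -/
theorem log_sum {s : Finset Y} {μ : Y → ℝ} (hμ : ∀ y ∈ s, 0 ≤ μ y) {M : ℝ} (hM : (s.card : ℝ) ≤ M) (hM0 : 0 < M) :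
    (∑ y ∈ s, μ y) * Real.log (∑ y ∈ s, μ y) ≤
      (∑ y ∈ s, μ y * Real.log (μ y)) + (∑ y ∈ s, μ y) * Real.log M := by
  set S := ∑ y ∈ s, μ y with hS
  have hS0 : 0 ≤ S := sum_nonneg hμ
  rcases hS0.eq_or_lt with h0 | h0
  · have hz : ∀ y ∈ s, μ y = 0 := (sum_eq_zero_iff_of_nonneg hμ).1 (by rw [← hS, ← h0])
    have : ∑ y ∈ s, μ y * Real.log (μ y) = 0 := sum_eq_zero fun y hy => by rw [hz y hy]; simp
    rw [← h0, this]; simp
  · -- termwise: μ log (S/(M μ)) ≤ S/M - μ
    have key : ∀ y ∈ s, μ y * (Real.log S - Real.log M - Real.log (μ y)) ≤ S / M - μ y := by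
      intro y hy
      rcases (hμ y hy).eq_or_lt with h1 | h1
      · rw [← h1]; simp only [zero_mul, sub_zero]; positivity
      · have h2 : Real.log (S / (M * μ y)) ≤ S / (M * μ y) - 1 := Real.log_le_sub_one_of_pos (by positivity)
        rw [Real.log_div h0.ne' (by positivity), Real.log_mul hM0.ne' h1.ne'] at h2
        calc μ y * (Real.log S - Real.log M - Real.log (μ y))
            = μ y * (Real.log S - (Real.log M + Real.log (μ y))) := by ring
          _ ≤ μ y * (S / (M * μ y) - 1) := mul_le_mul_of_nonneg_left h2 h1.le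
          _ = S / M - μ y := by field_simp
    have h3 := sum_le_sum key
    have h4 : ∑ y ∈ s, (S / M - μ y) ≤ 0 := by
      rw [sum_sub_distrib, sum_const, nsmul_eq_mul, ← hS]
      have : (s.card : ℝ) * (S / M) ≤ M * (S / M) := mul_le_mul_of_nonneg_right hM (by positivity)
      have h5 : M * (S / M) = S := by field_simp
      linarith
    have h6 : ∑ y ∈ s, μ y * (Real.log S - Real.log M - Real.log (μ y))
        = S * Real.log S - S * Real.log M - ∑ y ∈ s, μ y * Real.log (μ y) := by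
      simp only [mul_sub, sum_sub_distrib, ← sum_mul, ← hS]
    linarith

/-- **relative entropy under push-forward**: fibres of size `≤ M` -/
theorem kl_push {φ : Y → Z} {μ : Y → ℝ} (hμ : ∀ y, 0 ≤ μ y) (sμ : ∑ y, μ y = 1) {M c : ℝ} (hM0 : 0 < M)
    (hc : 0 < c) (hM : ∀ z, ((univ.filter fun y => φ y = z).card : ℝ) ≤ M) :
    ∑ z, push φ μ z * Real.log (c * push φ μ z) ≤ (∑ y, μ y * Real.log (c * μ y)) + Real.log M := by
  have e : ∀ x : ℝ, 0 ≤ x → x * Real.log (c * x) = x * Real.log c + x * Real.log x := by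
    intro x hx
    rcases hx.eq_or_lt with h | h
    · rw [← h]; simp
    · rw [Real.log_mul hc.ne' h.ne']; ring
  rw [sum_congr rfl fun z _ => e _ (push_nonneg hμ z), sum_congr rfl fun y _ => e _ (hμ y),
    sum_add_distrib, sum_add_distrib, ← sum_mul, ← sum_mul, sum_push, sμ]
  have h1 : ∑ z, push φ μ z * Real.log (push φ μ z) ≤
      ∑ z, ((∑ y ∈ univ.filter (fun y => φ y = z), μ y * Real.log (μ y)) + push φ μ z * Real.log M) :=
    sum_le_sum fun z _ => log_sum (fun y _ => hμ y) (hM z) hM0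
  rw [sum_add_distrib, ← sum_mul, sum_push, sμ, Finset.sum_fiberwise] at h1
  linarith

end kl

end Crest.Agent.R042.Gadget220
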