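import Mathlib

/-!
# R042: greedy existence of the same-type gadget graph

`greedy`: abstract greedy covering.
`gamma`: in a quasirandom graph `H` of small density `ρ` there is a subgraph `G` of bounded degree,
whose neighbourhoods are `H`-independent, with an edge between any two linear-sized sets.
-/

namespace Crest.Agent.R042.GamG831

open Finset

/-- Abstract greedy covering lemma. -/
theorem greedy {α π : Type*} [DecidableEq α] (hit : π → α → Prop)
    (valid : Finset α → Prop) (h0 : valid ∅) (P : Finset π) (E : Finset α) (hE : 0 < E.card)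
    (s : ℕ) (δ : ℝ) (hδ0 : 0 < δ) (hδ1 : δ ≤ 1)
    (step : ∀ Γ, valid Γ → Γ.card < s → ∀ p ∈ P, ∃ A ⊆ E,
      (∀ e ∈ A, hit p e ∧ valid (insert e Γ)) ∧ δ * E.card ≤ (A.card : ℝ))
    (hs : (P.card : ℝ) * (1 - δ) ^ s < 1) :
    ∃ Γ, valid Γ ∧ Γ.card ≤ s ∧ ∀ p ∈ P, ∃ e ∈ Γ, hit p e := by
  classical
  have key : ∀ n, n ≤ s → ∃ Γ, valid Γ ∧ Γ.card ≤ n ∧
      ((P.filter fun p => ¬ ∃ e ∈ Γ, hit p e).card : ℝ) ≤ (P.card : ℝ) * (1 - δ) ^ n := by
    intro n
    induction n with
    | zero =>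
      intro _
      refine ⟨∅, h0, by simp, ?_⟩
      simp
    | succ n ih =>
      intro hn
      obtain ⟨Γ, hv, hc, hu⟩ := ih (by omega)
      set U := P.filter fun p => ¬ ∃ e ∈ Γ, hit p e with hU
      have hstep := step Γ hv (by omega)
      have hnn : (0 : ℝ) ≤ (P.card : ℝ) * (1 - δ) ^ (n + 1) :=
        mul_nonneg (Nat.cast_nonneg _) (pow_nonneg (by linarith) _)
      by_cases hU0 : U.card = 0
      · refine ⟨Γ, hv, by omega, ?_⟩
        rw [← hU, hU0]
        simpa using hnn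
      · have hUpos : (0 : ℝ) < U.card := by
          have : 0 < U.card := Nat.pos_of_ne_zero hU0
          exact_mod_cast this
        have hEpos : (0 : ℝ) < E.card := by exact_mod_cast hE
        set F := E.filter (fun e => valid (insert e Γ)) with hF
        have h2 : δ * E.card * U.card ≤ ∑ p ∈ U, ((F.filter fun e => hit p e).card : ℝ) := by
          have : ∀ p ∈ U, δ * E.card ≤ ((F.filter fun e => hit p e).card : ℝ) := by
            intro p hp
            obtain ⟨A, hAE, hA, hAc⟩ := hstep p (mem_filter.mp hp).1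
            refine hAc.trans ?_
            exact_mod_cast Finset.card_le_card (by
              intro e he
              rw [mem_filter, mem_filter]
              exact ⟨⟨hAE he, (hA e he).2⟩, (hA e he).1⟩)
          calc δ * E.card * U.card = ∑ p ∈ U, δ * (E.card : ℝ) := by
                rw [sum_const, nsmul_eq_mul]; ring
            _ ≤ _ := sum_le_sum this
        have h3 : ∑ p ∈ U, ((F.filter fun e => hit p e).card : ℝ)
            = ∑ e ∈ F, ((U.filter fun p => hit p e).card : ℝ) := by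
          have := Finset.sum_card_bipartiteAbove_eq_sum_card_bipartiteBelow (s := U)
            (t := F) (r := fun p e => hit p e)
          simp only [Finset.bipartiteAbove, Finset.bipartiteBelow] at this
          exact_mod_cast this
        have h4 : ∃ e ∈ F, δ * (U.card : ℝ) ≤ ((U.filter fun p => hit p e).card : ℝ) := by
          by_contra hcon
          push Not at hcon
          have hFE : (F.card : ℝ) ≤ E.card := by
            exact_mod_cast Finset.card_le_card (filter_subset _ _)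
          rcases F.eq_empty_or_nonempty with hem | hne
          · rw [h3, hem, sum_empty] at h2
            have : 0 < δ * E.card * U.card := by positivity
            linarith
          · have h5 : ∑ e ∈ F, ((U.filter fun p => hit p e).card : ℝ)
                < ∑ e ∈ F, δ * (U.card : ℝ) := sum_lt_sum_of_nonempty hne hcon
            rw [sum_const, nsmul_eq_mul] at h5
            have h6 : (F.card : ℝ) * (δ * U.card) ≤ E.card * (δ * U.card) :=
              mul_le_mul_of_nonneg_right hFE (by positivity)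
            rw [h3] at h2
            nlinarith
        obtain ⟨e, heF, he⟩ := h4
        refine ⟨insert e Γ, (mem_filter.mp heF).2, ?_, ?_⟩
        · exact (card_insert_le _ _).trans (by omega)
        · have hsub : (P.filter fun p => ¬ ∃ e' ∈ insert e Γ, hit p e') ⊆
              U \ (U.filter fun p => hit p e) := by
            intro p hp
            rw [mem_filter] at hp
            rw [mem_sdiff, hU, mem_filter, mem_filter]
            refine ⟨⟨hp.1, fun ⟨e', he', h'⟩ => hp.2 ⟨e', mem_insert_of_mem he', h'⟩⟩, ?_⟩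
            rintro ⟨_, h'⟩
            exact hp.2 ⟨e, mem_insert_self _ _, h'⟩
          have h7 : ((P.filter fun p => ¬ ∃ e' ∈ insert e Γ, hit p e').card : ℝ) ≤
              (U.card : ℝ) - ((U.filter fun p => hit p e).card : ℝ) := by
            have h8 := Finset.card_le_card hsub
            rw [card_sdiff_of_subset (filter_subset _ _)] at h8
            have h9 : (U.filter fun p => hit p e).card ≤ U.card := card_filter_le _ _
            have h10 : (P.filter fun p => ¬ ∃ e' ∈ insert e Γ, hit p e').card +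
              (U.filter fun p => hit p e).card ≤ U.card := by omega
            have h11 : ((P.filter fun p => ¬ ∃ e' ∈ insert e Γ, hit p e').card : ℝ) +
              ((U.filter fun p => hit p e).card : ℝ) ≤ U.card := by exact_mod_cast h10
            linarith
          calc ((P.filter fun p => ¬ ∃ e' ∈ insert e Γ, hit p e').card : ℝ)
              ≤ (U.card : ℝ) - ((U.filter fun p => hit p e).card : ℝ) := h7
            _ ≤ (1 - δ) * U.card := by linarith
            _ ≤ (1 - δ) * ((P.card : ℝ) * (1 - δ) ^ n) :=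
                mul_le_mul_of_nonneg_left hu (by linarith)
            _ = (P.card : ℝ) * (1 - δ) ^ (n + 1) := by ring
  obtain ⟨Γ, hv, hc, hu⟩ := key s le_rfl
  refine ⟨Γ, hv, hc, ?_⟩
  have h1 : ((P.filter fun p => ¬ ∃ e ∈ Γ, hit p e).card : ℝ) < 1 := lt_of_le_of_lt hu hs
  have h2 : (P.filter fun p => ¬ ∃ e ∈ Γ, hit p e).card = 0 := by
    have : (P.filter fun p => ¬ ∃ e ∈ Γ, hit p e).card < 1 := by exact_mod_cast h1
    omega
  intro p hp
  by_contra hcon
  have : p ∈ P.filter fun p => ¬ ∃ e ∈ Γ, hit p e := mem_filter.mpr ⟨hp, hcon⟩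
  rw [card_eq_zero.mp h2] at this
  simp at this

section graph

set_option linter.unusedSectionVars false

variable {ι : Type*} [Fintype ι] [DecidableEq ι]

/-- adjacency of an ordered edge set -/
def adj (Γ : Finset (ι × ι)) (a b : ι) : Prop := (a, b) ∈ Γ ∨ (b, a) ∈ Γ

instance (Γ : Finset (ι × ι)) (a : ι) : DecidablePred (adj Γ a) := fun b =>
  inferInstanceAs (Decidable ((a, b) ∈ Γ ∨ (b, a) ∈ Γ))

/-- neighbourhood -/
def nb (Γ : Finset (ι × ι)) (a : ι) : Finset ι := univ.filter (adj Γ a)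

theorem mem_nb {Γ : Finset (ι × ι)} {a b : ι} : b ∈ nb Γ a ↔ adj Γ a b := by
  simp [nb]

theorem adj_symm {Γ : Finset (ι × ι)} {a b : ι} (h : adj Γ a b) : adj Γ b a := Or.symm h

theorem sum_nb (Γ : Finset (ι × ι)) : ∑ a, (nb Γ a).card ≤ 2 * Γ.card := by
  have h1 : ∀ a, (nb Γ a).card ≤ (Γ.filter fun e => e.1 = a).card + (Γ.filter fun e => e.2 = a).card := by
    intro a
    have hsub : nb Γ a ⊆ (Γ.filter fun e => e.1 = a).image Prod.snd ∪
        (Γ.filter fun e => e.2 = a).image Prod.fst := by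
      intro b hb
      rw [mem_nb] at hb
      rw [mem_union, mem_image, mem_image]
      rcases hb with hb | hb
      · exact Or.inl ⟨(a, b), by simp [hb], rfl⟩
      · exact Or.inr ⟨(b, a), by simp [hb], rfl⟩
    calc (nb Γ a).card ≤ _ := card_le_card hsub
      _ ≤ _ := card_union_le _ _
      _ ≤ _ := Nat.add_le_add card_image_le card_image_le
  have h2 : ∑ a, (Γ.filter fun e => e.1 = a).card = Γ.card :=
    (card_eq_sum_card_fiberwise (f := Prod.fst) (t := univ) (fun _ _ => mem_coe.mpr (mem_univ _))).symm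
  have h3 : ∑ a, (Γ.filter fun e => e.2 = a).card = Γ.card :=
    (card_eq_sum_card_fiberwise (f := Prod.snd) (t := univ) (fun _ _ => mem_coe.mpr (mem_univ _))).symm
  calc ∑ a, (nb Γ a).card ≤ ∑ a, ((Γ.filter fun e => e.1 = a).card + (Γ.filter fun e => e.2 = a).card) :=
        sum_le_sum fun a _ => h1 a
    _ = 2 * Γ.card := by rw [sum_add_distrib, h2, h3]; ring

variable (H : SimpleGraph ι) [DecidableRel H.Adj] (D : ℕ)

/-- valid ordered edge sets -/
def valid (Γ : Finset (ι × ι)) : Prop :=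
  (∀ e ∈ Γ, H.Adj e.1 e.2) ∧ (∀ a, (nb Γ a).card ≤ D) ∧
    ∀ a b c, adj Γ a b → adj Γ a c → b ≠ c → ¬ H.Adj b c

variable {H D}

theorem valid_adj {Γ : Finset (ι × ι)} (h : valid H D Γ) {a b : ι} (hab : adj Γ a b) : H.Adj a b := by
  rcases hab with h' | h'
  · exact h.1 _ h'
  · exact (h.1 _ h').symm

theorem adj_insert {Γ : Finset (ι × ι)} {a b x y : ι} :
    adj (insert (a, b) Γ) x y ↔ adj Γ x y ∨ (x = a ∧ y = b) ∨ (x = b ∧ y = a) := by
  simp only [adj, mem_insert, Prod.mk.injEq]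
  tauto

theorem valid_insert {Γ : Finset (ι × ι)} (h : valid H D Γ) {a b : ι} (hab : H.Adj a b)
    (ha : (nb Γ a).card < D) (hb : (nb Γ b).card < D)
    (hac : ∀ c ∈ nb Γ a, ¬ H.Adj b c) (hbc : ∀ c ∈ nb Γ b, ¬ H.Adj a c) :
    valid H D (insert (a, b) Γ) := by
  have hne : a ≠ b := hab.ne
  refine ⟨?_, ?_, ?_⟩
  · intro e he
    rw [mem_insert] at he
    rcases he with rfl | he
    · exact hab
    · exact h.1 e he
  · intro x
    by_cases hxa : x = a
    · subst hxa
      have : nb (insert (x, b) Γ) x ⊆ insert b (nb Γ x) := by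
        intro y hy
        rw [mem_nb, adj_insert] at hy
        rw [mem_insert, mem_nb]
        rcases hy with hy | ⟨_, hy⟩ | ⟨hx, _⟩
        · exact Or.inr hy
        · exact Or.inl hy
        · exact absurd hx hne
      exact (card_le_card this).trans ((card_insert_le _ _).trans ha)
    · by_cases hxb : x = b
      · subst hxb
        have : nb (insert (a, x) Γ) x ⊆ insert a (nb Γ x) := by
          intro y hy
          rw [mem_nb, adj_insert] at hy
          rw [mem_insert, mem_nb]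
          rcases hy with hy | ⟨hx, _⟩ | ⟨_, hy⟩
          · exact Or.inr hy
          · exact absurd hx hxa
          · exact Or.inl hy
        exact (card_le_card this).trans ((card_insert_le _ _).trans hb)
      · have : nb (insert (a, b) Γ) x ⊆ nb Γ x := by
          intro y hy
          rw [mem_nb, adj_insert] at hy
          rw [mem_nb]
          rcases hy with hy | ⟨hx, _⟩ | ⟨hx, _⟩
          · exact hy
          · exact absurd hx hxa
          · exact absurd hx hxb
        exact (card_le_card this).trans (h.2.1 x)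
  · intro x y z hy hz hyz
    rw [adj_insert] at hy hz
    rcases hy with hy | ⟨hx, hy⟩ | ⟨hx, hy⟩ <;> rcases hz with hz | ⟨hx', hz⟩ | ⟨hx', hz⟩
    · exact h.2.2 x y z hy hz hyz
    · subst hx' hz
      exact fun hh => hac y (mem_nb.mpr hy) hh.symm
    · subst hx' hz
      exact fun hh => hbc y (mem_nb.mpr hy) hh.symm
    · subst hx hy
      exact hac z (mem_nb.mpr hz)
    · exact absurd (hy.trans hz.symm) hyz
    · exact absurd (hx.symm.trans hx') hne
    · subst hx hy
      exact hbc z (mem_nb.mpr hz)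
    · exact absurd (hx'.symm.trans hx) hne
    · exact absurd (hy.trans hz.symm) hyz

theorem bad1 {Γ : Finset (ι × ι)} {Δ : ℝ}
    (hΔ : ∀ a, ((univ.filter fun b => H.Adj a b).card : ℝ) ≤ Δ) :
    ((univ.filter fun e : ι × ι => H.Adj e.1 e.2 ∧ D ≤ (nb Γ e.1).card).card : ℝ) * D ≤
      2 * Γ.card * Δ := by
  have hΔ0 : 0 ≤ Δ ∨ IsEmpty ι := by
    by_cases hne : Nonempty ι
    · obtain ⟨a⟩ := hne
      exact Or.inl ((Nat.cast_nonneg _).trans (hΔ a))
    · exact Or.inr (not_nonempty_iff.mp hne)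
  rcases hΔ0 with hΔ0 | hem
  swap
  · have h1 : (univ.filter fun e : ι × ι => H.Adj e.1 e.2 ∧ D ≤ (nb Γ e.1).card) = ∅ := by
      ext e; exact hem.elim e.1
    have h2 : Γ = ∅ := by ext e; exact hem.elim e.1
    rw [h1, h2]; simp
  set V := univ.filter fun a : ι => D ≤ (nb Γ a).card with hV
  have h1 : D * V.card ≤ 2 * Γ.card := by
    calc D * V.card = ∑ a ∈ V, D := by rw [sum_const, smul_eq_mul]; ring
      _ ≤ ∑ a ∈ V, (nb Γ a).card := sum_le_sum fun a ha => (mem_filter.mp ha).2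
      _ ≤ ∑ a, (nb Γ a).card := sum_le_sum_of_subset (subset_univ _)
      _ ≤ 2 * Γ.card := sum_nb Γ
  have h2 : ((univ.filter fun e : ι × ι => H.Adj e.1 e.2 ∧ D ≤ (nb Γ e.1).card).card : ℝ) ≤
      V.card * Δ := by
    have hsub : (univ.filter fun e : ι × ι => H.Adj e.1 e.2 ∧ D ≤ (nb Γ e.1).card) ⊆
        V.biUnion fun a => (univ.filter fun b => H.Adj a b).image fun b => (a, b) := by
      rintro ⟨a, b⟩ he
      rw [mem_filter] at he
      rw [mem_biUnion]
      exact ⟨a, mem_filter.mpr ⟨mem_univ _, he.2.2⟩, mem_image.mpr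
        ⟨b, mem_filter.mpr ⟨mem_univ _, he.2.1⟩, rfl⟩⟩
    calc ((univ.filter fun e : ι × ι => H.Adj e.1 e.2 ∧ D ≤ (nb Γ e.1).card).card : ℝ)
        ≤ ((V.biUnion fun a => (univ.filter fun b => H.Adj a b).image fun b => (a, b)).card : ℝ) := by
          exact_mod_cast card_le_card hsub
      _ ≤ ∑ a ∈ V, (((univ.filter fun b => H.Adj a b).image fun b => (a, b)).card : ℝ) := by
          exact_mod_cast card_biUnion_le
      _ ≤ ∑ a ∈ V, Δ := sum_le_sum fun a _ =>
          (by exact_mod_cast card_image_le : (((univ.filter fun b => H.Adj a b).image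
            fun b => (a, b)).card : ℝ) ≤ ((univ.filter fun b => H.Adj a b).card : ℝ)).trans (hΔ a)
      _ = V.card * Δ := by rw [sum_const, nsmul_eq_mul]
  have h1' : (D : ℝ) * V.card ≤ 2 * Γ.card := by exact_mod_cast h1
  calc ((univ.filter fun e : ι × ι => H.Adj e.1 e.2 ∧ D ≤ (nb Γ e.1).card).card : ℝ) * D
      ≤ V.card * Δ * D := mul_le_mul_of_nonneg_right h2 (Nat.cast_nonneg _)
    _ = (D * V.card) * Δ := by ring
    _ ≤ 2 * Γ.card * Δ := mul_le_mul_of_nonneg_right h1' hΔ0

theorem bad3 {Γ : Finset (ι × ι)} (hv : valid H D Γ) {κ : ℝ}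
    (hκ : ∀ a c, H.Adj a c → ((univ.filter fun b => H.Adj a b ∧ H.Adj b c).card : ℝ) ≤ κ)
    (hκ0 : 0 ≤ κ) :
    ((univ.filter fun e : ι × ι => H.Adj e.1 e.2 ∧ ∃ c ∈ nb Γ e.1, H.Adj e.2 c).card : ℝ) ≤
      2 * Γ.card * κ := by
  have hsub : (univ.filter fun e : ι × ι => H.Adj e.1 e.2 ∧ ∃ c ∈ nb Γ e.1, H.Adj e.2 c) ⊆
      univ.biUnion fun a => (nb Γ a).biUnion fun c =>
        (univ.filter fun b => H.Adj a b ∧ H.Adj b c).image fun b => (a, b) := by
    rintro ⟨a, b⟩ he
    rw [mem_filter] at he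
    obtain ⟨_, hab, c, hc, hbc⟩ := he
    rw [mem_biUnion]
    refine ⟨a, mem_univ _, ?_⟩
    rw [mem_biUnion]
    exact ⟨c, hc, mem_image.mpr ⟨b, mem_filter.mpr ⟨mem_univ _, hab, hbc⟩, rfl⟩⟩
  have hs : ((∑ a, (nb Γ a).card : ℕ) : ℝ) ≤ 2 * Γ.card := by exact_mod_cast sum_nb Γ
  have h0 : (univ.filter fun e : ι × ι => H.Adj e.1 e.2 ∧ ∃ c ∈ nb Γ e.1, H.Adj e.2 c).card ≤
      ∑ a, ((nb Γ a).biUnion fun c =>
        (univ.filter fun b => H.Adj a b ∧ H.Adj b c).image fun b => (a, b)).card :=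
    (card_le_card hsub).trans card_biUnion_le
  have h0' : ((univ.filter fun e : ι × ι => H.Adj e.1 e.2 ∧ ∃ c ∈ nb Γ e.1, H.Adj e.2 c).card : ℝ) ≤
      ∑ a, (((nb Γ a).biUnion fun c =>
        (univ.filter fun b => H.Adj a b ∧ H.Adj b c).image fun b => (a, b)).card : ℝ) := by
    exact_mod_cast h0
  calc ((univ.filter fun e : ι × ι => H.Adj e.1 e.2 ∧ ∃ c ∈ nb Γ e.1, H.Adj e.2 c).card : ℝ)
      ≤ ∑ a, (((nb Γ a).biUnion fun c =>
        (univ.filter fun b => H.Adj a b ∧ H.Adj b c).image fun b => (a, b)).card : ℝ) := h0'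
    _ ≤ ∑ a, ∑ c ∈ nb Γ a, ((((univ.filter fun b => H.Adj a b ∧ H.Adj b c).image
          fun b => (a, b)).card : ℕ) : ℝ) := sum_le_sum fun a _ => by exact_mod_cast card_biUnion_le
    _ ≤ ∑ a, ∑ c ∈ nb Γ a, κ := by
        refine sum_le_sum fun a _ => sum_le_sum fun c hc => ?_
        have h1 := hκ a c (valid_adj hv (mem_nb.mp hc))
        refine le_trans ?_ h1
        exact_mod_cast card_image_le
    _ = ((∑ a, (nb Γ a).card : ℕ) : ℝ) * κ := by
        rw [Nat.cast_sum, sum_mul]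
        exact sum_congr rfl fun a _ => by rw [sum_const, nsmul_eq_mul]
    _ ≤ 2 * Γ.card * κ := mul_le_mul_of_nonneg_right hs hκ0

theorem card_swap (Q : ι → ι → Prop) [DecidableRel Q] :
    (univ.filter fun e : ι × ι => H.Adj e.1 e.2 ∧ Q e.2 e.1).card =
      (univ.filter fun e : ι × ι => H.Adj e.1 e.2 ∧ Q e.1 e.2).card := by
  refine card_equiv (Equiv.prodComm ι ι) ?_
  rintro ⟨a, b⟩
  simp [H.adj_comm a b]

/-- **The gadget graph** (ordered edge set form). -/
theorem gamma_edges (ε k0 C : ℝ) (hε : 0 < ε) (hε1 : ε ≤ 1) (hk : 0 < k0) (hC : 0 < C) :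
    ∃ (D : ℕ) (ρ0 : ℝ), 0 < ρ0 ∧ ∀ (ι : Type) [Fintype ι] [DecidableEq ι] [Nonempty ι]
      (H : SimpleGraph ι) [DecidableRel H.Adj] (ρ : ℝ), 0 < ρ → ρ ≤ ρ0 →
      (∀ a, ((univ.filter fun b => H.Adj a b).card : ℝ) ≤ C * ρ * Fintype.card ι) →
      (∀ a c, H.Adj a c → ((univ.filter fun b => H.Adj a b ∧ H.Adj b c).card : ℝ) ≤
        C * ρ ^ 2 * Fintype.card ι) →
      (∀ A B : Finset ι, ε * Fintype.card ι ≤ A.card → ε * Fintype.card ι ≤ B.card →
        k0 * ρ * A.card * B.card ≤ (((A ×ˢ B).filter fun e => H.Adj e.1 e.2).card : ℝ)) →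
      ∃ Γ : Finset (ι × ι), valid H D Γ ∧
        ∀ A B : Finset ι, ε * Fintype.card ι ≤ A.card → ε * Fintype.card ι ≤ B.card →
          ∃ a ∈ A, ∃ b ∈ B, adj Γ a b := by
  set δ : ℝ := k0 * ε ^ 2 / (2 * C) with hδ
  have hδ0 : 0 < δ := by positivity
  refine ⟨⌈48 * C / (δ * k0 * ε ^ 2)⌉₊, δ * k0 * ε ^ 2 / (48 * C), by positivity, ?_⟩
  set D := ⌈48 * C / (δ * k0 * ε ^ 2)⌉₊ with hD
  intro ι _ _ _ H _ ρ hρ hρ0 hdeg hcod hq
  have hDr : 48 * C / (δ * k0 * ε ^ 2) ≤ D := Nat.le_ceil _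
  have hDpos : (0 : ℝ) < D := lt_of_lt_of_le (by positivity) hDr
  set N : ℝ := (Fintype.card ι : ℝ) with hN
  have hN1 : (1 : ℝ) ≤ N := by
    have : 1 ≤ Fintype.card ι := Fintype.card_pos
    rw [hN]; exact_mod_cast this
  have hN0 : 0 < N := by linarith
  set E := univ.filter fun e : ι × ι => H.Adj e.1 e.2 with hE
  -- upper bound for E
  have hEle : (E.card : ℝ) ≤ C * ρ * N ^ 2 := by
    have hsub : E ⊆ univ.biUnion fun a => (univ.filter fun b => H.Adj a b).image fun b => (a, b) := by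
      rintro ⟨a, b⟩ he
      rw [hE, mem_filter] at he
      rw [mem_biUnion]
      exact ⟨a, mem_univ _, mem_image.mpr ⟨b, mem_filter.mpr ⟨mem_univ _, he.2⟩, rfl⟩⟩
    have h1 : E.card ≤ ∑ a : ι, ((univ.filter fun b => H.Adj a b).image fun b => (a, b)).card :=
      (card_le_card hsub).trans card_biUnion_le
    have h1' : (E.card : ℝ) ≤ ∑ a : ι, (((univ.filter fun b => H.Adj a b).image fun b => (a, b)).card : ℝ) := by
      exact_mod_cast h1
    calc (E.card : ℝ) ≤ ∑ a : ι, (((univ.filter fun b => H.Adj a b).image fun b => (a, b)).card : ℝ) := h1'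
      _ ≤ ∑ a : ι, C * ρ * N := by
          refine sum_le_sum fun a _ => le_trans ?_ (hdeg a)
          exact_mod_cast card_image_le
      _ = C * ρ * N ^ 2 := by
          rw [sum_const, nsmul_eq_mul, card_univ, ← hN]; ring
  have hEge : k0 * ρ * N ^ 2 ≤ (E.card : ℝ) := by
    have h1 := hq univ univ (by rw [card_univ, ← hN]; nlinarith) (by rw [card_univ, ← hN]; nlinarith)
    rw [univ_product_univ, card_univ, ← hN, ← hE] at h1
    linarith
  have hEpos : 0 < E.card := by
    have : (0 : ℝ) < E.card := lt_of_lt_of_le (by positivity) hEge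
    exact_mod_cast this
  have hk0C : k0 ≤ C := by
    have h1 : k0 * (ρ * N ^ 2) ≤ C * (ρ * N ^ 2) := by linarith
    exact le_of_mul_le_mul_right h1 (by positivity)
  have hε2 : ε ^ 2 ≤ 1 := pow_le_one₀ hε.le hε1
  have hδ1 : δ ≤ 1 := by
    rw [hδ, div_le_one (by positivity)]
    nlinarith
  set s := ⌈2 * N / δ⌉₊ with hs
  have hs1 : 2 * N / δ ≤ s := Nat.le_ceil _
  have hs2 : (s : ℝ) ≤ 3 * N / δ := by
    have h1 : (s : ℝ) < 2 * N / δ + 1 := Nat.ceil_lt_add_one (by positivity)
    have h2 : 1 ≤ N / δ := by rw [le_div_iff₀ hδ0]; linarith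
    have h3 : 3 * N / δ = 2 * N / δ + N / δ := by ring
    linarith
  set P := univ.filter fun p : Finset ι × Finset ι => ε * N ≤ p.1.card ∧ ε * N ≤ p.2.card with hP
  have hPc : (P.card : ℝ) ≤ 4 ^ (Fintype.card ι) := by
    have h1 : P.card ≤ (univ : Finset (Finset ι × Finset ι)).card := card_le_card (filter_subset _ _)
    rw [card_univ, Fintype.card_prod, Fintype.card_finset] at h1
    have h2 : (2 : ℕ) ^ Fintype.card ι * 2 ^ Fintype.card ι = 4 ^ Fintype.card ι := by
      rw [← mul_pow]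
      norm_num
    rw [h2] at h1
    exact_mod_cast h1
  have hfin : (P.card : ℝ) * (1 - δ) ^ s < 1 := by
    have h1 : (1 - δ) ^ s ≤ Real.exp (-(δ * s)) := by
      have h2 : 1 - δ ≤ Real.exp (-δ) := by
        have := Real.add_one_le_exp (-δ); linarith
      calc (1 - δ) ^ s ≤ Real.exp (-δ) ^ s := pow_le_pow_left₀ (by linarith) h2 s
        _ = Real.exp (-(δ * s)) := by rw [← Real.exp_nat_mul]; ring_nf
    have h3 : Real.exp (-(δ * s)) ≤ Real.exp (-2) ^ (Fintype.card ι) := by
      rw [← Real.exp_nat_mul]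
      apply Real.exp_le_exp.mpr
      have h4 : 2 * N ≤ δ * s := by
        rw [div_le_iff₀ hδ0] at hs1; linarith
      rw [← hN]; linarith
    have h5 : (4 : ℝ) * Real.exp (-2) < 1 := by
      have h6 : (4 : ℝ) < Real.exp 2 := by
        have h7 := Real.exp_one_gt_d9
        have h8 : Real.exp 2 = Real.exp 1 * Real.exp 1 := by rw [← Real.exp_add]; norm_num
        rw [h8]; nlinarith
      rw [Real.exp_neg, ← div_eq_mul_inv, div_lt_one (Real.exp_pos _)]
      exact h6
    calc (P.card : ℝ) * (1 - δ) ^ s ≤ 4 ^ (Fintype.card ι) * Real.exp (-2) ^ (Fintype.card ι) :=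
          mul_le_mul hPc (h1.trans h3) (pow_nonneg (by linarith) _) (by positivity)
      _ = (4 * Real.exp (-2)) ^ (Fintype.card ι) := by rw [mul_pow]
      _ < 1 := pow_lt_one₀ (by positivity) h5 Fintype.card_ne_zero
  -- greedy step
  obtain ⟨Γ, hv, _, hΓ⟩ := greedy (fun (p : Finset ι × Finset ι) (e : ι × ι) => e.1 ∈ p.1 ∧ e.2 ∈ p.2)
    (valid H D) ⟨by simp, fun a => by
      have : nb (∅ : Finset (ι × ι)) a = ∅ := by
        ext b; simp [mem_nb, adj]
      rw [this]; simp, by simp [adj]⟩ P E hEpos s δ hδ0 hδ1 (by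
      intro Γ hv hΓs p hp
      classical
      have hp2 := (mem_filter.mp hp).2
      set Eh := (p.1 ×ˢ p.2).filter fun e : ι × ι => H.Adj e.1 e.2 with hEh
      set b1 := univ.filter fun e : ι × ι => H.Adj e.1 e.2 ∧ D ≤ (nb Γ e.1).card with hb1
      set b2 := univ.filter fun e : ι × ι => H.Adj e.1 e.2 ∧ D ≤ (nb Γ e.2).card with hb2
      set b3 := univ.filter fun e : ι × ι => H.Adj e.1 e.2 ∧ ∃ c ∈ nb Γ e.1, H.Adj e.2 c with hb3
      set b4 := univ.filter fun e : ι × ι => H.Adj e.1 e.2 ∧ ∃ c ∈ nb Γ e.2, H.Adj e.1 c with hb4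
      refine ⟨(((Eh \ b1) \ b2) \ b3) \ b4, ?_, ?_, ?_⟩
      · intro e he
        simp only [mem_sdiff, hEh, mem_filter, mem_product] at he
        rw [hE, mem_filter]
        exact ⟨mem_univ _, he.1.1.1.1.2⟩
      · rintro ⟨a, b⟩ he
        simp only [mem_sdiff, hEh, hb1, hb2, hb3, hb4, mem_filter, mem_product, mem_univ, true_and,
          not_and, not_exists] at he
        obtain ⟨⟨⟨⟨⟨hin, hadj⟩, h1⟩, h2⟩, h3⟩, h4⟩ := he
        refine ⟨hin, valid_insert hv hadj ?_ ?_ ?_ ?_⟩
        · exact not_le.mp (h1 hadj)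
        · exact not_le.mp (h2 hadj)
        · intro c hc; exact h3 hadj c hc
        · intro c hc; exact h4 hadj c hc
      · have hΓr : (Γ.card : ℝ) ≤ 3 * N / δ :=
          le_trans (by exact_mod_cast hΓs.le) hs2
        have hb1c : (b1.card : ℝ) ≤ k0 * ρ * ε ^ 2 * N ^ 2 / 8 := by
          have h1 := bad1 (D := D) (Γ := Γ) hdeg
          have h2 : (b1.card : ℝ) * D ≤ 2 * (3 * N / δ) * (C * ρ * N) :=
            h1.trans (mul_le_mul_of_nonneg_right (by linarith) (by positivity))
          have h3 : 2 * (3 * N / δ) * (C * ρ * N) ≤ k0 * ρ * ε ^ 2 * N ^ 2 / 8 * D := by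
            have h4 : 48 * C ≤ D * (δ * k0 * ε ^ 2) := (div_le_iff₀ (by positivity)).mp hDr
            have h5 : 2 * (3 * N / δ) * (C * ρ * N) = (ρ * N ^ 2 / (8 * δ)) * (48 * C) := by
              field_simp; ring
            have h6 : k0 * ρ * ε ^ 2 * N ^ 2 / 8 * D = (ρ * N ^ 2 / (8 * δ)) * (D * (δ * k0 * ε ^ 2)) := by
              field_simp
            rw [h5, h6]
            exact mul_le_mul_of_nonneg_left h4 (by positivity)
          exact le_of_mul_le_mul_right (h2.trans h3) hDpos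
        have hb2c : (b2.card : ℝ) ≤ k0 * ρ * ε ^ 2 * N ^ 2 / 8 := by
          have : b2.card = b1.card := card_swap (H := H) (fun a _ => D ≤ (nb Γ a).card)
          rw [this]; exact hb1c
        have hb3c : (b3.card : ℝ) ≤ k0 * ρ * ε ^ 2 * N ^ 2 / 8 := by
          have h1 := bad3 hv hcod (by positivity)
          have h2 : (b3.card : ℝ) ≤ 2 * (3 * N / δ) * (C * ρ ^ 2 * N) :=
            h1.trans (mul_le_mul_of_nonneg_right (by linarith) (by positivity))
          refine h2.trans ?_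
          have h4 : ρ * (48 * C) ≤ δ * k0 * ε ^ 2 := (le_div_iff₀ (by positivity)).mp hρ0
          have h5 : 2 * (3 * N / δ) * (C * ρ ^ 2 * N) = (ρ * N ^ 2 / (8 * δ)) * (ρ * (48 * C)) := by
            field_simp; ring
          have h6 : k0 * ρ * ε ^ 2 * N ^ 2 / 8 = (ρ * N ^ 2 / (8 * δ)) * (δ * k0 * ε ^ 2) := by
            field_simp
          rw [h5, h6]
          exact mul_le_mul_of_nonneg_left h4 (by positivity)
        have hb4c : (b4.card : ℝ) ≤ k0 * ρ * ε ^ 2 * N ^ 2 / 8 := by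
          have : b4.card = b3.card := card_swap (H := H) (fun a b => ∃ c ∈ nb Γ a, H.Adj b c)
          rw [this]; exact hb3c
        have hEhc : k0 * ρ * ε ^ 2 * N ^ 2 ≤ (Eh.card : ℝ) := by
          refine le_trans ?_ (hq p.1 p.2 hp2.1 hp2.2)
          have h1 : (ε * N) * (ε * N) ≤ (p.1.card : ℝ) * p.2.card :=
            mul_le_mul hp2.1 hp2.2 (by positivity) (Nat.cast_nonneg _)
          calc k0 * ρ * ε ^ 2 * N ^ 2 = k0 * ρ * ((ε * N) * (ε * N)) := by ring
            _ ≤ k0 * ρ * ((p.1.card : ℝ) * p.2.card) := mul_le_mul_of_nonneg_left h1 (by positivity)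
            _ = k0 * ρ * p.1.card * p.2.card := by ring
        have hsd : ∀ X Y : Finset (ι × ι), (X.card : ℝ) - Y.card ≤ ((X \ Y).card : ℝ) := by
          intro X Y
          have h1 : X.card ≤ (X \ Y).card + Y.card := by
            have := le_card_sdiff Y X
            omega
          have h2 : (X.card : ℝ) ≤ ((X \ Y).card : ℝ) + Y.card := by exact_mod_cast h1
          linarith
        have e1 := hsd Eh b1
        have e2 := hsd (Eh \ b1) b2
        have e3 := hsd ((Eh \ b1) \ b2) b3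
        have e4 := hsd (((Eh \ b1) \ b2) \ b3) b4
        have hδE : δ * E.card ≤ k0 * ρ * ε ^ 2 * N ^ 2 / 2 := by
          calc δ * E.card ≤ δ * (C * ρ * N ^ 2) := mul_le_mul_of_nonneg_left hEle hδ0.le
            _ = k0 * ρ * ε ^ 2 * N ^ 2 / 2 := by rw [hδ]; field_simp
        linarith) hfin
  refine ⟨Γ, hv, fun A B hA hB => ?_⟩
  obtain ⟨e, he, hea, heb⟩ := hΓ (A, B) (mem_filter.mpr ⟨mem_univ _, hA, hB⟩)
  exact ⟨e.1, hea, e.2, heb, Or.inl he⟩

open Classical in
/-- **The gadget graph**, simple graph form: bounded degree, `H`-independent neighbourhoods (hence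
triangle-free), an edge between any two sets of size `≥ ε N`. -/
theorem gamma (ε k0 C : ℝ) (hε : 0 < ε) (hε1 : ε ≤ 1) (hk : 0 < k0) (hC : 0 < C) :
    ∃ (D : ℕ) (ρ0 : ℝ), 0 < ρ0 ∧ ∀ (ι : Type) [Fintype ι] [Nonempty ι]
      (H : SimpleGraph ι) (ρ : ℝ), 0 < ρ → ρ ≤ ρ0 →
      (∀ a, ((univ.filter fun b => H.Adj a b).card : ℝ) ≤ C * ρ * Fintype.card ι) →
      (∀ a c, H.Adj a c → ((univ.filter fun b => H.Adj a b ∧ H.Adj b c).card : ℝ) ≤
        C * ρ ^ 2 * Fintype.card ι) →
      (∀ A B : Finset ι, ε * Fintype.card ι ≤ A.card → ε * Fintype.card ι ≤ B.card →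
        k0 * ρ * A.card * B.card ≤ (((A ×ˢ B).filter fun e => H.Adj e.1 e.2).card : ℝ)) →
      ∃ G : SimpleGraph ι, G ≤ H ∧ (∀ a, (univ.filter fun b => G.Adj a b).card ≤ D) ∧
        (∀ a b c, G.Adj a b → G.Adj a c → b ≠ c → ¬ H.Adj b c) ∧
        ∀ A B : Finset ι, ε * Fintype.card ι ≤ A.card → ε * Fintype.card ι ≤ B.card →
          ∃ a ∈ A, ∃ b ∈ B, G.Adj a b := by
  obtain ⟨D, ρ0, h0, h⟩ := gamma_edges ε k0 C hε hε1 hk hC
  refine ⟨D, ρ0, h0, ?_⟩
  intro ι _ _ H ρ hρ hρ0 hdeg hcod hq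
  obtain ⟨Γ, hv, hΓ⟩ := h ι H ρ hρ hρ0 (by convert hdeg) (by convert hcod) (by convert hq)
  refine ⟨{ Adj := adj Γ, symm := ⟨fun _ _ hab => adj_symm hab⟩,
            loopless := ⟨fun a ha => (H.loopless.irrefl a (valid_adj hv ha)).elim⟩ }, ?_, ?_, ?_, ?_⟩
  · intro a b hab
    exact valid_adj hv hab
  · intro a
    refine le_of_eq_of_le ?_ (hv.2.1 a)
    congr 1
    ext b
    simp [mem_nb]
  · intro a b c hab hac hbc
    exact hv.2.2 a b c hab hac hbc
  · exact hΓ

end graph

end Crest.Agent.R042.GamG831
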