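import Mathlib

/-!
# R042: sample facts (degrees and codegrees of a random sample), exponential moments

For `x : ι → Om` (counting measure), `perp : Om → Om → Prop`, `J ⊆ ι`:
`cntJ perp J x` = number of `b ∉ J` with `perp (x j) (x b)` for all `j ∈ J`.
-/

set_option linter.unusedSectionVars false

namespace Crest.Agent.R042.GamS831

open Finset
open scoped Classical

section expo

variable {ι Om : Type*} [Fintype ι] [Fintype Om]

/-- exponential moment. -/
theorem expo_sum (J : Finset ι) (S : (↥J → Om) → Finset Om) (p : ℝ) (hp : 0 ≤ p)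
    (hS : ∀ u, ((S u).card : ℝ) ≤ p * Fintype.card Om) :
    ∑ x : ι → Om, (2 : ℝ) ^ (univ.filter fun b => b ∉ J ∧ x b ∈ S (fun j => x j)).card ≤
      (Fintype.card Om : ℝ) ^ Fintype.card ι * (1 + p) ^ Fintype.card ι := by
  set e := Equiv.piEquivPiSubtypeProd (fun i : ι => i ∈ J) (fun _ => Om) with he
  set m := Fintype.card {b : ι // b ∉ J} with hm
  have hcard : (Fintype.card (↥J → Om) : ℝ) * (Fintype.card Om : ℝ) ^ m =
      (Fintype.card Om : ℝ) ^ Fintype.card ι := by
    have h1 : Fintype.card (ι → Om) = Fintype.card (↥J → Om) * Fintype.card ({b : ι // b ∉ J} → Om) := by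
      rw [Fintype.card_congr e, Fintype.card_prod]
    rw [Fintype.card_fun, Fintype.card_fun (α := {b : ι // b ∉ J}), ← hm] at h1
    have h2 : ((Fintype.card Om ^ Fintype.card ι : ℕ) : ℝ) =
        ((Fintype.card (↥J → Om) * Fintype.card Om ^ m : ℕ) : ℝ) := by rw [h1]
    push_cast at h2
    exact h2.symm
  have hmle : m ≤ Fintype.card ι := Fintype.card_subtype_le _
  have h1 : ∀ x : ι → Om, (2 : ℝ) ^ (univ.filter fun b => b ∉ J ∧ x b ∈ S (fun j => x j)).card =
      ∏ b : {b : ι // b ∉ J}, if (e x).2 b ∈ S (e x).1 then (2 : ℝ) else 1 := by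
    intro x
    rw [Finset.prod_ite, prod_const_one, mul_one, prod_const]
    congr 1
    refine Finset.card_bij' (fun b hb => ⟨b, (mem_filter.mp hb).2.1⟩) (fun b _ => b.1) ?_ ?_ ?_ ?_
    · intro b hb
      rw [mem_filter]
      exact ⟨mem_univ _, (mem_filter.mp hb).2.2⟩
    · intro b hb
      rw [mem_filter]
      exact ⟨mem_univ _, b.2, (mem_filter.mp hb).2⟩
    · intro b hb; rfl
    · intro b hb; rfl
  calc ∑ x : ι → Om, (2 : ℝ) ^ (univ.filter fun b => b ∉ J ∧ x b ∈ S (fun j => x j)).card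
      = ∑ x : ι → Om, ∏ b : {b : ι // b ∉ J}, (if (e x).2 b ∈ S (e x).1 then (2 : ℝ) else 1) :=
        sum_congr rfl fun x _ => h1 x
    _ = ∑ uv : (↥J → Om) × ({b : ι // b ∉ J} → Om),
          ∏ b : {b : ι // b ∉ J}, (if uv.2 b ∈ S uv.1 then (2 : ℝ) else 1) :=
        Equiv.sum_comp e (fun uv : (↥J → Om) × ({b : ι // b ∉ J} → Om) =>
          ∏ b : {b : ι // b ∉ J}, (if uv.2 b ∈ S uv.1 then (2 : ℝ) else 1))
    _ = ∑ u : (↥J → Om), ∑ v : ({b : ι // b ∉ J} → Om),
          ∏ b : {b : ι // b ∉ J}, (if v b ∈ S u then (2 : ℝ) else 1) := by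
        rw [Fintype.sum_prod_type]
    _ = ∑ u : (↥J → Om), ∏ _b : {b : ι // b ∉ J}, ∑ q : Om, (if q ∈ S u then (2 : ℝ) else 1) := by
        refine sum_congr rfl fun u _ => ?_
        rw [Finset.prod_univ_sum, Fintype.piFinset_univ]
    _ ≤ ∑ u : (↥J → Om), ((Fintype.card Om : ℝ) * (1 + p)) ^ m := by
        refine sum_le_sum fun u _ => ?_
        rw [prod_const, card_univ, ← hm]
        refine pow_le_pow_left₀ (sum_nonneg fun q _ => by split_ifs <;> norm_num) ?_ m
        have h2 : ∑ q : Om, (if q ∈ S u then (2 : ℝ) else 1) = Fintype.card Om + (S u).card := by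
          have h3 : ∀ q : Om, (if q ∈ S u then (2 : ℝ) else 1) = 1 + if q ∈ S u then (1 : ℝ) else 0 := by
            intro q; split_ifs <;> norm_num
          rw [sum_congr rfl fun q _ => h3 q, sum_add_distrib, sum_const, card_univ, nsmul_eq_mul,
            mul_one, sum_ite_mem, univ_inter, sum_const, nsmul_eq_mul, mul_one]
        rw [h2]
        have := hS u
        linarith
    _ = (Fintype.card Om : ℝ) ^ Fintype.card ι * (1 + p) ^ m := by
        rw [sum_const, card_univ, nsmul_eq_mul, mul_pow, ← mul_assoc, hcard]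
    _ ≤ (Fintype.card Om : ℝ) ^ Fintype.card ι * (1 + p) ^ Fintype.card ι :=
        mul_le_mul_of_nonneg_left (pow_le_pow_right₀ (by linarith) hmle) (by positivity)

/-- tail bound. -/
theorem tail (J : Finset ι) (S : (↥J → Om) → Finset Om) (p : ℝ) (hp : 0 ≤ p)
    (hS : ∀ u, ((S u).card : ℝ) ≤ p * Fintype.card Om) :
    (((univ.filter fun x : ι → Om => 2 * p * Fintype.card ι <
      ((univ.filter fun b => b ∉ J ∧ x b ∈ S (fun j => x j)).card : ℝ)).card : ℕ) : ℝ) ≤
      (Fintype.card Om : ℝ) ^ Fintype.card ι * Real.exp (-(p * Fintype.card ι / 3)) := by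
  set N : ℝ := (Fintype.card ι : ℝ) with hN
  set cnt : (ι → Om) → ℕ := fun x => (univ.filter fun b => b ∉ J ∧ x b ∈ S (fun j => x j)).card
    with hcnt
  set B := univ.filter fun x : ι → Om => 2 * p * N < (cnt x : ℝ) with hB
  have hN0 : 0 ≤ N := Nat.cast_nonneg _
  have h1 : (B.card : ℝ) * Real.exp (Real.log 2 * (2 * p * N)) ≤ ∑ x : ι → Om, (2 : ℝ) ^ cnt x := by
    calc (B.card : ℝ) * Real.exp (Real.log 2 * (2 * p * N))
        = ∑ x ∈ B, Real.exp (Real.log 2 * (2 * p * N)) := by rw [sum_const, nsmul_eq_mul]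
      _ ≤ ∑ x ∈ B, (2 : ℝ) ^ cnt x := by
          refine sum_le_sum fun x hx => ?_
          have h2 : 2 * p * N < (cnt x : ℝ) := (mem_filter.mp hx).2
          have h3 : (2 : ℝ) ^ cnt x = Real.exp (Real.log 2 * cnt x) := by
            rw [← Real.rpow_natCast, Real.rpow_def_of_pos (by norm_num)]
          rw [h3]
          exact Real.exp_le_exp.mpr (mul_le_mul_of_nonneg_left h2.le (Real.log_nonneg (by norm_num)))
      _ ≤ ∑ x : ι → Om, (2 : ℝ) ^ cnt x :=
          sum_le_sum_of_subset_of_nonneg (subset_univ _) fun _ _ _ => by positivity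
  have h2 := h1.trans (expo_sum J S p hp hS)
  have h3 : (1 + p) ^ Fintype.card ι ≤ Real.exp (p * N) := by
    calc (1 + p) ^ Fintype.card ι ≤ Real.exp p ^ Fintype.card ι :=
          pow_le_pow_left₀ (by linarith) (by have := Real.add_one_le_exp p; linarith) _
      _ = Real.exp (p * N) := by rw [← Real.exp_nat_mul, hN]; ring_nf
  have h4 : (B.card : ℝ) * Real.exp (Real.log 2 * (2 * p * N)) ≤
      (Fintype.card Om : ℝ) ^ Fintype.card ι * Real.exp (p * N) :=
    h2.trans (mul_le_mul_of_nonneg_left h3 (by positivity))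
  have h5 : Real.exp (p * N) ≤ Real.exp (-(p * N / 3)) * Real.exp (Real.log 2 * (2 * p * N)) := by
    rw [← Real.exp_add]
    apply Real.exp_le_exp.mpr
    have h6 := Real.log_two_gt_d9
    have h7 : 0 ≤ p * N := mul_nonneg hp hN0
    nlinarith
  have h8 : (B.card : ℝ) * Real.exp (Real.log 2 * (2 * p * N)) ≤
      ((Fintype.card Om : ℝ) ^ Fintype.card ι * Real.exp (-(p * N / 3))) *
        Real.exp (Real.log 2 * (2 * p * N)) := by
    calc _ ≤ _ := h4
      _ ≤ (Fintype.card Om : ℝ) ^ Fintype.card ι *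
          (Real.exp (-(p * N / 3)) * Real.exp (Real.log 2 * (2 * p * N))) :=
          mul_le_mul_of_nonneg_left h5 (by positivity)
      _ = _ := by ring
  exact le_of_mul_le_mul_right h8 (Real.exp_pos _)

end expo

section perp

variable {ι Om : Type*} [Fintype ι] [Fintype Om] (perp : Om → Om → Prop)

/-- number of `b ∉ J` perpendicular to all points of `J` -/
noncomputable def cntJ (J : Finset ι) (x : ι → Om) : ℕ :=
  (univ.filter fun b => b ∉ J ∧ ∀ j ∈ J, perp (x j) (x b)).card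

theorem tailJ (J : Finset ι) (p : ℝ) (hp : 0 ≤ p) :
    (((univ.filter fun x : ι → Om =>
      ((univ.filter fun Q => ∀ j ∈ J, perp (x j) Q).card : ℝ) ≤ p * Fintype.card Om ∧
      2 * p * Fintype.card ι < (cntJ perp J x : ℝ)).card : ℕ) : ℝ) ≤
      (Fintype.card Om : ℝ) ^ Fintype.card ι * Real.exp (-(p * Fintype.card ι / 3)) := by
  set S : (↥J → Om) → Finset Om := fun u =>
    if ((univ.filter fun Q => ∀ j : ↥J, perp (u j) Q).card : ℝ) ≤ p * Fintype.card Om then
      univ.filter fun Q => ∀ j : ↥J, perp (u j) Q else ∅ with hSdef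
  have hS : ∀ u, ((S u).card : ℝ) ≤ p * Fintype.card Om := by
    intro u
    simp only [hSdef]
    split_ifs with h
    · exact h
    · simp only [card_empty, Nat.cast_zero]; positivity
  refine le_trans ?_ (tail J S p hp hS)
  have hsub : (univ.filter fun x : ι → Om =>
      ((univ.filter fun Q => ∀ j ∈ J, perp (x j) Q).card : ℝ) ≤ p * Fintype.card Om ∧
      2 * p * Fintype.card ι < (cntJ perp J x : ℝ)) ⊆
      (univ.filter fun x : ι → Om => 2 * p * Fintype.card ι <
      ((univ.filter fun b => b ∉ J ∧ x b ∈ S (fun j => x j)).card : ℝ)) := by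
    intro x hx
    rw [mem_filter] at hx ⊢
    refine ⟨mem_univ _, lt_of_lt_of_eq hx.2.2 ?_⟩
    have h1 : (univ.filter fun Q => ∀ j : ↥J, perp (x j) Q) = univ.filter fun Q => ∀ j ∈ J, perp (x j) Q := by
      ext Q
      simp only [mem_filter, mem_univ, true_and, Subtype.forall]
    have h2 : S (fun j => x j) = univ.filter fun Q => ∀ j ∈ J, perp (x j) Q := by
      simp only [hSdef]
      rw [h1, if_pos hx.2.1]
    rw [h2, cntJ]
    congr 2
    ext b
    simp only [mem_filter, mem_univ, true_and]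
  exact_mod_cast card_le_card hsub

/-- union over all `J` with `k` elements. -/
theorem tail_k (k : ℕ) (p : ℝ) (hp : 0 ≤ p) :
    (((univ.filter fun x : ι → Om => ∃ J : Finset ι, J.card = k ∧
      ((univ.filter fun Q => ∀ j ∈ J, perp (x j) Q).card : ℝ) ≤ p * Fintype.card Om ∧
      2 * p * Fintype.card ι < (cntJ perp J x : ℝ)).card : ℕ) : ℝ) ≤
      (Fintype.card ι : ℝ) ^ k * ((Fintype.card Om : ℝ) ^ Fintype.card ι *
        Real.exp (-(p * Fintype.card ι / 3))) := by
  have hsub : (univ.filter fun x : ι → Om => ∃ J : Finset ι, J.card = k ∧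
      ((univ.filter fun Q => ∀ j ∈ J, perp (x j) Q).card : ℝ) ≤ p * Fintype.card Om ∧
      2 * p * Fintype.card ι < (cntJ perp J x : ℝ)) ⊆
      (powersetCard k (univ : Finset ι)).biUnion fun J => univ.filter fun x : ι → Om =>
        ((univ.filter fun Q => ∀ j ∈ J, perp (x j) Q).card : ℝ) ≤ p * Fintype.card Om ∧
      2 * p * Fintype.card ι < (cntJ perp J x : ℝ) := by
    intro x hx
    rw [mem_filter] at hx
    obtain ⟨_, J, hJ, h1, h2⟩ := hx
    rw [mem_biUnion]
    exact ⟨J, mem_powersetCard.mpr ⟨subset_univ _, hJ⟩, mem_filter.mpr ⟨mem_univ _, h1, h2⟩⟩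
  have h1 := (card_le_card hsub).trans card_biUnion_le
  have h2 : (((univ.filter fun x : ι → Om => ∃ J : Finset ι, J.card = k ∧
      ((univ.filter fun Q => ∀ j ∈ J, perp (x j) Q).card : ℝ) ≤ p * Fintype.card Om ∧
      2 * p * Fintype.card ι < (cntJ perp J x : ℝ)).card : ℕ) : ℝ) ≤
      ∑ J ∈ powersetCard k (univ : Finset ι), (((univ.filter fun x : ι → Om =>
        ((univ.filter fun Q => ∀ j ∈ J, perp (x j) Q).card : ℝ) ≤ p * Fintype.card Om ∧
      2 * p * Fintype.card ι < (cntJ perp J x : ℝ)).card : ℕ) : ℝ) := by exact_mod_cast h1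
  refine h2.trans ((sum_le_sum fun J _ => tailJ perp J p hp).trans ?_)
  rw [sum_const, card_powersetCard, nsmul_eq_mul, card_univ]
  refine mul_le_mul_of_nonneg_right ?_ (by positivity)
  exact_mod_cast Nat.choose_le_pow _ _

/-- **sample facts**: for all but `1/16` of the samples, all generic degrees are `≤ 2 ρ N` and all
generic codegrees are `≤ 2 ρ² N`. -/
theorem sample (ρ : ℝ) (hρ : 0 < ρ) (hρ1 : ρ ≤ 1) (hN : 250 ≤ ρ ^ 4 * Fintype.card ι) :
    (((univ.filter fun x : ι → Om => ¬ ∀ J : Finset ι, 1 ≤ J.card → J.card ≤ 2 →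
      ((univ.filter fun Q => ∀ j ∈ J, perp (x j) Q).card : ℝ) ≤ ρ ^ J.card * Fintype.card Om →
      (cntJ perp J x : ℝ) ≤ 2 * ρ ^ J.card * Fintype.card ι).card : ℕ) : ℝ) ≤
      1 / 16 * (Fintype.card Om : ℝ) ^ Fintype.card ι := by
  set N : ℝ := (Fintype.card ι : ℝ) with hNdef
  set W : ℝ := (Fintype.card Om : ℝ) ^ Fintype.card ι with hW
  have hW0 : 0 ≤ W := by positivity
  have hN0 : 0 < N := by
    by_contra h
    have h1 : N = 0 := le_antisymm (not_lt.mp h) (Nat.cast_nonneg _)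
    rw [h1] at hN; norm_num at hN
  have hN1 : 1 ≤ N := by
    have : 0 < Fintype.card ι := by rw [hNdef] at hN0; exact_mod_cast hN0
    rw [hNdef]; exact_mod_cast this
  set y : ℝ := ρ ^ 2 * N / 3 with hy
  have hy0 : 0 < y := by positivity
  have hexp : Real.exp (-y) ≤ 24 / y ^ 4 := by
    have h1 := Real.pow_div_factorial_le_exp y hy0.le 4
    rw [Real.exp_neg, inv_eq_one_div, div_le_div_iff₀ (Real.exp_pos _) (by positivity)]
    have h2 : (Nat.factorial 4 : ℝ) = 24 := by norm_num [Nat.factorial]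
    rw [h2, div_le_iff₀ (by norm_num)] at h1
    linarith
  have hA : N ^ 2 * Real.exp (-y) ≤ 1 / 32 := by
    have h1 : N ^ 2 * (24 / y ^ 4) ≤ 1 / 32 := by
      have h2 : N ^ 2 * (24 / y ^ 4) = 1944 / (ρ ^ 4 * N) ^ 2 := by
        rw [hy]; field_simp; norm_num
      rw [h2, div_le_div_iff₀ (by positivity) (by norm_num)]
      nlinarith
    exact (mul_le_mul_of_nonneg_left hexp (by positivity)).trans h1
  have hB : N ^ 1 * Real.exp (-(ρ ^ 1 * N / 3)) ≤ 1 / 32 := by
    refine le_trans ?_ hA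
    refine mul_le_mul ?_ (Real.exp_le_exp.mpr ?_) (Real.exp_pos _).le (by positivity)
    · nlinarith
    · rw [hy]
      have : ρ ^ 2 ≤ ρ ^ 1 := pow_le_pow_of_le_one hρ.le hρ1 (by norm_num)
      have h3 : ρ ^ 2 * N ≤ ρ ^ 1 * N := mul_le_mul_of_nonneg_right this hN0.le
      linarith
  have hsub : (univ.filter fun x : ι → Om => ¬ ∀ J : Finset ι, 1 ≤ J.card → J.card ≤ 2 →
      ((univ.filter fun Q => ∀ j ∈ J, perp (x j) Q).card : ℝ) ≤ ρ ^ J.card * Fintype.card Om →
      (cntJ perp J x : ℝ) ≤ 2 * ρ ^ J.card * N) ⊆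
      (univ.filter fun x : ι → Om => ∃ J : Finset ι, J.card = 1 ∧
        ((univ.filter fun Q => ∀ j ∈ J, perp (x j) Q).card : ℝ) ≤ ρ ^ 1 * Fintype.card Om ∧
        2 * ρ ^ 1 * N < (cntJ perp J x : ℝ)) ∪
      (univ.filter fun x : ι → Om => ∃ J : Finset ι, J.card = 2 ∧
        ((univ.filter fun Q => ∀ j ∈ J, perp (x j) Q).card : ℝ) ≤ ρ ^ 2 * Fintype.card Om ∧
        2 * ρ ^ 2 * N < (cntJ perp J x : ℝ)) := by
    intro x hx
    rw [mem_filter] at hx
    have hx2 := hx.2
    push Not at hx2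
    obtain ⟨J, h1, h2, h3, h4⟩ := hx2
    rw [mem_union]
    rcases Nat.lt_or_ge J.card 2 with h | h
    · have h5 : J.card = 1 := by omega
      rw [h5] at h3 h4
      exact Or.inl (mem_filter.mpr ⟨mem_univ _, J, h5, h3, h4⟩)
    · have h5 : J.card = 2 := by omega
      rw [h5] at h3 h4
      exact Or.inr (mem_filter.mpr ⟨mem_univ _, J, h5, h3, h4⟩)
  have h1 := (card_le_card hsub).trans (card_union_le _ _)
  have h2 := tail_k (ι := ι) perp 1 (ρ ^ 1) (by positivity)
  have h3 := tail_k (ι := ι) perp 2 (ρ ^ 2) (by positivity)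
  rw [← hNdef, ← hW] at h2 h3
  have h4 : (((univ.filter fun x : ι → Om => ¬ ∀ J : Finset ι, 1 ≤ J.card → J.card ≤ 2 →
      ((univ.filter fun Q => ∀ j ∈ J, perp (x j) Q).card : ℝ) ≤ ρ ^ J.card * Fintype.card Om →
      (cntJ perp J x : ℝ) ≤ 2 * ρ ^ J.card * N).card : ℕ) : ℝ) ≤
      (((univ.filter fun x : ι → Om => ∃ J : Finset ι, J.card = 1 ∧
        ((univ.filter fun Q => ∀ j ∈ J, perp (x j) Q).card : ℝ) ≤ ρ ^ 1 * Fintype.card Om ∧
        2 * ρ ^ 1 * N < (cntJ perp J x : ℝ)).card : ℕ) : ℝ) +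
      (((univ.filter fun x : ι → Om => ∃ J : Finset ι, J.card = 2 ∧
        ((univ.filter fun Q => ∀ j ∈ J, perp (x j) Q).card : ℝ) ≤ ρ ^ 2 * Fintype.card Om ∧
        2 * ρ ^ 2 * N < (cntJ perp J x : ℝ)).card : ℕ) : ℝ) := by exact_mod_cast h1
  have h5 : N ^ 1 * (W * Real.exp (-(ρ ^ 1 * N / 3))) ≤ 1 / 32 * W := by
    calc N ^ 1 * (W * Real.exp (-(ρ ^ 1 * N / 3))) = (N ^ 1 * Real.exp (-(ρ ^ 1 * N / 3))) * W := by ring
      _ ≤ 1 / 32 * W := mul_le_mul_of_nonneg_right hB hW0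
  have h6 : N ^ 2 * (W * Real.exp (-(ρ ^ 2 * N / 3))) ≤ 1 / 32 * W := by
    calc N ^ 2 * (W * Real.exp (-(ρ ^ 2 * N / 3))) = (N ^ 2 * Real.exp (-y)) * W := by rw [hy]; ring
      _ ≤ 1 / 32 * W := mul_le_mul_of_nonneg_right hA hW0
  linarith

/-- the compatibility graph of a sample. -/
def PG (hsym : ∀ P Q, perp P Q → perp Q P) (x : ι → Om) : SimpleGraph ι where
  Adj a b := a ≠ b ∧ perp (x a) (x b)
  symm := ⟨fun _ _ h => ⟨h.1.symm, hsym _ _ h.2⟩⟩
  loopless := ⟨fun _ h => h.1 rfl⟩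

/-- degrees of the compatibility graph of a good generic sample. -/
theorem deg_le (hsym : ∀ P Q, perp P Q → perp Q P) (ρ : ℝ) (x : ι → Om)
    (hgen : ∀ J : Finset ι, J.card ≤ 2 →
      ((univ.filter fun Q => ∀ j ∈ J, perp (x j) Q).card : ℝ) ≤ ρ ^ J.card * Fintype.card Om)
    (hx : ∀ J : Finset ι, 1 ≤ J.card → J.card ≤ 2 →
      ((univ.filter fun Q => ∀ j ∈ J, perp (x j) Q).card : ℝ) ≤ ρ ^ J.card * Fintype.card Om →
      (cntJ perp J x : ℝ) ≤ 2 * ρ ^ J.card * Fintype.card ι) (a : ι) :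
    ((univ.filter fun b => (PG perp hsym x).Adj a b).card : ℝ) ≤ 2 * ρ * Fintype.card ι := by
  have h1 := hx {a} (by simp) (by simp) (hgen {a} (by simp))
  rw [card_singleton, pow_one] at h1
  refine le_trans ?_ h1
  rw [cntJ]
  have : (univ.filter fun b => (PG perp hsym x).Adj a b) ⊆
      (univ.filter fun b => b ∉ ({a} : Finset ι) ∧ ∀ j ∈ ({a} : Finset ι), perp (x j) (x b)) := by
    intro b hb
    rw [mem_filter] at hb ⊢
    refine ⟨mem_univ _, ?_, ?_⟩
    · rw [mem_singleton]; exact fun h => hb.2.1 h.symm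
    · intro j hj
      rw [mem_singleton] at hj
      subst hj
      exact hb.2.2
  exact_mod_cast card_le_card this

/-- codegrees of the compatibility graph of a good generic sample. -/
theorem codeg_le (hsym : ∀ P Q, perp P Q → perp Q P) (ρ : ℝ) (x : ι → Om)
    (hgen : ∀ J : Finset ι, J.card ≤ 2 →
      ((univ.filter fun Q => ∀ j ∈ J, perp (x j) Q).card : ℝ) ≤ ρ ^ J.card * Fintype.card Om)
    (hx : ∀ J : Finset ι, 1 ≤ J.card → J.card ≤ 2 →
      ((univ.filter fun Q => ∀ j ∈ J, perp (x j) Q).card : ℝ) ≤ ρ ^ J.card * Fintype.card Om →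
      (cntJ perp J x : ℝ) ≤ 2 * ρ ^ J.card * Fintype.card ι) (a c : ι) (hac : a ≠ c) :
    ((univ.filter fun b => (PG perp hsym x).Adj a b ∧ (PG perp hsym x).Adj b c).card : ℝ) ≤
      2 * ρ ^ 2 * Fintype.card ι := by
  have hc : ({a, c} : Finset ι).card = 2 := card_pair hac
  have h1 := hx {a, c} (by omega) (by omega) (hgen {a, c} (by omega))
  rw [hc] at h1
  refine le_trans ?_ h1
  rw [cntJ]
  have : (univ.filter fun b => (PG perp hsym x).Adj a b ∧ (PG perp hsym x).Adj b c) ⊆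
      (univ.filter fun b => b ∉ ({a, c} : Finset ι) ∧ ∀ j ∈ ({a, c} : Finset ι), perp (x j) (x b)) := by
    intro b hb
    rw [mem_filter] at hb ⊢
    refine ⟨mem_univ _, ?_, ?_⟩
    · rw [mem_insert, mem_singleton]
      rintro (h | h)
      · exact hb.2.1.1 h.symm
      · exact hb.2.2.1 h
    · intro j hj
      rw [mem_insert, mem_singleton] at hj
      rcases hj with rfl | rfl
      · exact hb.2.1.2
      · exact hsym _ _ hb.2.2.2
  exact_mod_cast card_le_card this

end perp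

end Crest.Agent.R042.GamS831
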