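import Crest.Agent.R042.Quasi_664
import Crest.Agent.R042.GamG_831
import Crest.Agent.R042.GamS_831

/-! # The same-type gadget Γ for a good sample (helper664): 831's greedy lemma + 831's sample facts +
quasi-randomness from Theorem T. -/

set_option autoImplicit false
set_option linter.unusedVariables false

namespace Crest.Agent.R042.GamInst664

open Finset Crest.Agent.R042.TLev333 Crest.Agent.R042.GamS831
open scoped Classical

/-- For every `ε` there are `D, ρ0` such that every good sample carries a gadget graph. -/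
theorem gamma_sample (ε : ℝ) (hε : 0 < ε) (hε1 : ε ≤ 1) :
    ∃ (D : ℕ) (ρ0 : ℝ), 0 < ρ0 ∧ ∀ (ι Om : Type) [Fintype ι] [Nonempty ι]
      [Fintype Om] (perp : Om → Om → Prop) (hsym : ∀ P Q, perp P Q → perp Q P)
      (_hirr : ∀ P, ¬ perp P P) (ρ : ℝ), 0 < ρ → ρ ≤ ρ0 → ∀ x : ι → Om,
      Gen perp ρ x univ →
      (∀ J : Finset ι, 1 ≤ J.card → J.card ≤ 2 →
        ((univ.filter fun Q => ∀ j ∈ J, perp (x j) Q).card : ℝ) ≤ ρ ^ J.card * Fintype.card Om →
        (cntJ perp J x : ℝ) ≤ 2 * ρ ^ J.card * Fintype.card ι) →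
      (∀ τ τ' : ι → ℝ, (∀ s, 0 ≤ τ s) → ∑ s, τ s = 1 → (∀ i, τ i ≤ 1 / (ε * Fintype.card ι)) →
        (∀ s, 0 ≤ τ' s) → ∑ s, τ' s = 1 → (∀ i, τ' i ≤ 1 / (ε * Fintype.card ι)) →
        ρ / 32 ≤ ∑ s, ∑ s', (if perp (x s) (x s') then τ s * τ' s' else 0)) →
      ∃ G : SimpleGraph ι, (∀ a b, G.Adj a b → a ≠ b ∧ perp (x a) (x b)) ∧
        (∀ a, (univ.filter fun b => G.Adj a b).card ≤ D) ∧
        (∀ a b c, G.Adj a b → G.Adj a c → b ≠ c → ¬ perp (x b) (x c)) ∧
        ∀ A B : Finset ι, ε * Fintype.card ι ≤ A.card → ε * Fintype.card ι ≤ B.card →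
          ∃ a ∈ A, ∃ b ∈ B, G.Adj a b := by
  obtain ⟨D, ρ0, h0, h⟩ := GamG831.gamma ε (1 / 32) 2 hε hε1 (by norm_num) (by norm_num)
  refine ⟨D, ρ0, h0, ?_⟩
  intro ι Om _ _ _ perp hsym hirr ρ hρ hρ1 x hgen hx hT
  have hN : (0 : ℝ) < Fintype.card ι := by exact_mod_cast Fintype.card_pos
  have hgen2 : ∀ J : Finset ι, J.card ≤ 2 →
      ((univ.filter fun Q => ∀ j ∈ J, perp (x j) Q).card : ℝ) ≤ ρ ^ J.card * Fintype.card Om := by
    intro J hJ
    refine le_trans (le_of_eq ?_) (hgen J (subset_univ _) (by omega)).le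
    congr!
  obtain ⟨G, g1, g2, g3, g4⟩ := h ι (PG perp hsym x) ρ hρ hρ1
    (fun a => deg_le perp hsym ρ x hgen2 hx a)
    (fun a c hac => codeg_le perp hsym ρ x hgen2 hx a c hac.ne)
    (fun A B hA hB => by
      have hq := Quasi664.quasi_of perp ρ x (1 / (ε * Fintype.card ι)) hT A B
        (by rw [one_div, inv_mul_eq_div, le_div_iff₀ (by positivity), one_mul]; exact hA)
        (by rw [one_div, inv_mul_eq_div, le_div_iff₀ (by positivity), one_mul]; exact hB)
      refine hq.trans ?_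
      rw [Nat.cast_le]
      refine card_le_card fun p hp => ?_
      rw [mem_filter] at hp ⊢
      refine ⟨hp.1, ?_, hp.2⟩
      rintro he
      rw [he] at hp
      exact hirr _ hp.2)
  refine ⟨G, fun a b hab => g1 hab, g2, ?_, g4⟩
  intro a b c hab hac hbc hp
  exact g3 a b c hab hac hbc ⟨hbc, hp⟩

end Crest.Agent.R042.GamInst664
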