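import Crest.Agent.R042.Gam_664
import Crest.Agent.R042.GamS_831

/-! R042: cherries and triangles from degrees and codegrees (literal `chs`, `trs` of Gam_664). -/

namespace Crest.Agent.R042.GamS2831

open Finset

theorem chs_le {N : ℕ} (H : SimpleGraph (Fin N)) [DecidableRel H.Adj] (ρ : ℝ) (hρ : 0 ≤ ρ)
    (hdeg : ∀ a, ((univ.filter fun b => H.Adj a b).card : ℝ) ≤ 2 * ρ * N) :
    ((Gam664.chs H).card : ℝ) ≤ 8 * ρ ^ 2 * N ^ 3 := by
  have hsub : Gam664.chs H ⊆ (univ : Finset (Fin N)).biUnion fun a =>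
      ((univ.filter fun b => H.Adj a b) ×ˢ (univ.filter fun b => H.Adj a b)).image fun p => (a, p) := by
    rintro ⟨a, b, c⟩ h
    simp only [Gam664.chs, mem_filter, mem_univ, true_and] at h
    rw [mem_biUnion]
    exact ⟨a, mem_univ _, mem_image.mpr ⟨(b, c), by simp [h.1, h.2], rfl⟩⟩
  have h1 := (card_le_card hsub).trans card_biUnion_le
  have h2 : ((Gam664.chs H).card : ℝ) ≤ ∑ a : Fin N,
      ((((univ.filter fun b => H.Adj a b) ×ˢ (univ.filter fun b => H.Adj a b)).image
        fun p => (a, p)).card : ℝ) := by exact_mod_cast h1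
  have h3 : ∀ a : Fin N, ((((univ.filter fun b => H.Adj a b) ×ˢ
      (univ.filter fun b => H.Adj a b)).image fun p => (a, p)).card : ℝ) ≤ (2 * ρ * N) * (2 * ρ * N) := by
    intro a
    have h4 : (((univ.filter fun b => H.Adj a b) ×ˢ (univ.filter fun b => H.Adj a b)).image
        fun p => (a, p)).card ≤ (univ.filter fun b => H.Adj a b).card *
          (univ.filter fun b => H.Adj a b).card := card_image_le.trans (card_product _ _).le
    have h5 : ((((univ.filter fun b => H.Adj a b) ×ˢ (univ.filter fun b => H.Adj a b)).image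
        fun p => (a, p)).card : ℝ) ≤ ((univ.filter fun b => H.Adj a b).card : ℝ) *
          ((univ.filter fun b => H.Adj a b).card : ℝ) := by exact_mod_cast h4
    exact h5.trans (mul_le_mul (hdeg a) (hdeg a) (Nat.cast_nonneg _) (by positivity))
  calc ((Gam664.chs H).card : ℝ) ≤ _ := h2
    _ ≤ ∑ _a : Fin N, (2 * ρ * N) * (2 * ρ * N) := sum_le_sum fun a _ => h3 a
    _ = 4 * ρ ^ 2 * N ^ 3 := by
        rw [sum_const, card_univ, Fintype.card_fin, nsmul_eq_mul]; ring
    _ ≤ 8 * ρ ^ 2 * N ^ 3 := by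
        have : 0 ≤ ρ ^ 2 * (N : ℝ) ^ 3 := by positivity
        linarith

theorem trs_le {N : ℕ} (H : SimpleGraph (Fin N)) [DecidableRel H.Adj] (ρ : ℝ) (hρ : 0 ≤ ρ)
    (hdeg : ∀ a, ((univ.filter fun b => H.Adj a b).card : ℝ) ≤ 2 * ρ * N)
    (hcod : ∀ a c, H.Adj a c → ((univ.filter fun b => H.Adj a b ∧ H.Adj b c).card : ℝ) ≤
      2 * ρ ^ 2 * N) :
    ((Gam664.trs H).card : ℝ) ≤ 8 * ρ ^ 3 * N ^ 3 := by
  have hsub : Gam664.trs H ⊆ (univ : Finset (Fin N)).biUnion fun a =>
      (univ.filter fun c => H.Adj a c).biUnion fun c =>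
        (univ.filter fun b => H.Adj a b ∧ H.Adj b c).image fun b => (a, b, c) := by
    rintro ⟨a, b, c⟩ h
    simp only [Gam664.trs, mem_filter, mem_univ, true_and] at h
    rw [mem_biUnion]
    refine ⟨a, mem_univ _, mem_biUnion.mpr ⟨c, mem_filter.mpr ⟨mem_univ _, ?_⟩,
      mem_image.mpr ⟨b, mem_filter.mpr ⟨mem_univ _, ?_⟩, rfl⟩⟩⟩
    · tauto
    · tauto
  have h1 := (card_le_card hsub).trans card_biUnion_le
  have h2 : ((Gam664.trs H).card : ℝ) ≤ ∑ a : Fin N,
      (((univ.filter fun c => H.Adj a c).biUnion fun c =>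
        (univ.filter fun b => H.Adj a b ∧ H.Adj b c).image fun b => (a, b, c)).card : ℝ) := by
    exact_mod_cast h1
  have h3 : ∀ a : Fin N, (((univ.filter fun c => H.Adj a c).biUnion fun c =>
        (univ.filter fun b => H.Adj a b ∧ H.Adj b c).image fun b => (a, b, c)).card : ℝ) ≤
        (2 * ρ * N) * (2 * ρ ^ 2 * N) := by
    intro a
    have h4 : ((univ.filter fun c => H.Adj a c).biUnion fun c =>
        (univ.filter fun b => H.Adj a b ∧ H.Adj b c).image fun b => (a, b, c)).card ≤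
        ∑ c ∈ univ.filter fun c => H.Adj a c,
          ((univ.filter fun b => H.Adj a b ∧ H.Adj b c).image fun b => (a, b, c)).card := card_biUnion_le
    have h4' : (((univ.filter fun c => H.Adj a c).biUnion fun c =>
        (univ.filter fun b => H.Adj a b ∧ H.Adj b c).image fun b => (a, b, c)).card : ℝ) ≤
        ∑ c ∈ univ.filter fun c => H.Adj a c,
          (((univ.filter fun b => H.Adj a b ∧ H.Adj b c).image fun b => (a, b, c)).card : ℝ) := by
      exact_mod_cast h4
    calc _ ≤ _ := h4'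
      _ ≤ ∑ c ∈ univ.filter fun c => H.Adj a c, 2 * ρ ^ 2 * (N : ℝ) := by
          refine sum_le_sum fun c hc => le_trans ?_ (hcod a c (mem_filter.mp hc).2)
          exact_mod_cast card_image_le
      _ = ((univ.filter fun c => H.Adj a c).card : ℝ) * (2 * ρ ^ 2 * N) := by
          rw [sum_const, nsmul_eq_mul]
      _ ≤ (2 * ρ * N) * (2 * ρ ^ 2 * N) :=
          mul_le_mul_of_nonneg_right (hdeg a) (by positivity)
  calc ((Gam664.trs H).card : ℝ) ≤ _ := h2
    _ ≤ ∑ _a : Fin N, (2 * ρ * N) * (2 * ρ ^ 2 * N) := sum_le_sum fun a _ => h3 a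
    _ = 4 * ρ ^ 3 * N ^ 3 := by
        rw [sum_const, card_univ, Fintype.card_fin, nsmul_eq_mul]; ring
    _ ≤ 8 * ρ ^ 3 * N ^ 3 := by
        have : 0 ≤ ρ ^ 3 * (N : ℝ) ^ 3 := by positivity
        linarith

end Crest.Agent.R042.GamS2831
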