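import Crest.Agent.R042.TLevF_333

/-! Row 42 / S0059, T-level, part G: THEOREM T. -/

set_option autoImplicit false
set_option linter.unusedSectionVars false

namespace Crest.Agent.R042.TLev333

open Finset Function
open scoped Classical

namespace Sys

variable {I Ω σ σ' : Type*} [Fintype Ω] [Fintype I] [DecidableEq I] [Fintype σ] [DecidableEq σ]
  [Fintype σ'] [DecidableEq σ']

/-- mass of the pieces `s'` for which much mass of `τ` is dead. -/
theorem mass_up (S : Sys I Ω σ) (S' : Sys I Ω σ') {ℓ r : ℕ} {x : I → Ω}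
    (hG : S.Good ℓ r x) (hgen : Gen S.perp S.ρ x univ)
    (hE : 1 ≤ S.η * ℓ * S.ρ ^ 4)
    (τ : σ → ℝ) (h0 : ∀ s, 0 ≤ τ s) (h1 : ∑ s, τ s = 1)
    (m : ℝ) (hm0 : 0 ≤ m) (hm : ∀ i, ∑ s ∈ univ.filter (fun s => i ∈ S.idx s), τ s ≤ m)
    (hℓm : 2 * ℓ * m ≤ S.η * S.ρ ^ 4)
    (τ' : σ' → ℝ) (h0' : ∀ s, 0 ≤ τ' s) (m' : ℝ) (hm0' : 0 ≤ m')
    (hm' : ∀ i, ∑ s ∈ univ.filter (fun s => i ∈ S'.idx s), τ' s ≤ m') :
    ∑ s' ∈ univ.filter (fun s' : σ' => 32 * S.η * S.ρ ^ (S.a * S'.a) ≤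
      ∑ s ∈ S.FA x (S'.idx s'), τ s), τ' s' ≤ 16 * (ℓ + r) * m' := by
  have h := mass_le S'.idx (fun s => by rw [S'.card_idx]; exact S'.a1)
    (fun s => by rw [S'.card_idx]; exact S'.a2) τ' h0' m' hm0' hm'
    (univ.filter (fun s' : σ' => 32 * S.η * S.ρ ^ (S.a * S'.a) ≤
      ∑ s ∈ S.FA x (S'.idx s'), τ s)) (8 * (ℓ + r)) (by
      intro B hB hBd
      refine ts_up hG hgen hE S'.a1 S'.a2 τ h0 h1 m hm0 hm hℓm B ?_ hBd ?_
      · intro T hT
        obtain ⟨s, _, rfl⟩ := hB T hT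
        exact S'.card_idx s
      · intro T hT
        obtain ⟨s, hs, rfl⟩ := hB T hT
        exact (Finset.mem_filter.1 hs).2)
  calc _ ≤ _ := h
    _ = _ := by ring

/-- mass of the pieces `s'` with little perpendicular mass. -/
theorem mass_low (S : Sys I Ω σ) (S' : Sys I Ω σ') {ℓ r : ℕ} {x : I → Ω}
    (hG : S.Good ℓ r x) (hgen : Gen S.perp S.ρ x univ)
    (hE : 1 ≤ S.η * ℓ * S.ρ ^ 4) (hη : S.η ≤ 1 / 64)
    (τ : σ → ℝ) (h0 : ∀ s, 0 ≤ τ s) (h1 : ∑ s, τ s = 1)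
    (m : ℝ) (hm0 : 0 ≤ m) (hm : ∀ i, ∑ s ∈ univ.filter (fun s => i ∈ S.idx s), τ s ≤ m)
    (hℓm : 2 * ℓ * m ≤ S.η * S.ρ ^ 4)
    (τ' : σ' → ℝ) (h0' : ∀ s, 0 ≤ τ' s) (m' : ℝ) (hm0' : 0 ≤ m')
    (hm' : ∀ i, ∑ s ∈ univ.filter (fun s => i ∈ S'.idx s), τ' s ≤ m') :
    ∑ s' ∈ univ.filter (fun s' : σ' => ∑ s ∈ S.GA x (S'.idx s'), τ s ≤
      1 / 16 * S.ρ ^ (S.a * S'.a)), τ' s' ≤ 16 * (ℓ + r) * m' := by
  have h := mass_le S'.idx (fun s => by rw [S'.card_idx]; exact S'.a1)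
    (fun s => by rw [S'.card_idx]; exact S'.a2) τ' h0' m' hm0' hm'
    (univ.filter (fun s' : σ' => ∑ s ∈ S.GA x (S'.idx s'), τ s ≤
      1 / 16 * S.ρ ^ (S.a * S'.a))) (8 * (ℓ + r)) (by
      intro B hB hBd
      refine ts_low hG hgen hE hη S'.a1 S'.a2 τ h0 h1 m hm0 hm hℓm B ?_ hBd ?_
      · intro T hT
        obtain ⟨s, _, rfl⟩ := hB T hT
        exact S'.card_idx s
      · intro T hT
        obtain ⟨s, hs, rfl⟩ := hB T hT
        exact (Finset.mem_filter.1 hs).2)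
  calc _ ≤ _ := h
    _ = _ := by ring

/-- `s` and `s'` are perpendicular and both alive. -/
def Live (S : Sys I Ω σ) (S' : Sys I Ω σ') (x : I → Ω) (s : σ) (s' : σ') : Prop :=
  (∀ i ∈ S.idx s, ∀ j ∈ S'.idx s', S.perp (x i) (x j)) ∧
    ¬ S.Dead x s (S'.idx s') ∧ ¬ S'.Dead x s' (S.idx s)

/-- THEOREM T. -/
theorem theoremT (S : Sys I Ω σ) (S' : Sys I Ω σ') (hperp : S'.perp = S.perp)
    (hρρ : S'.ρ = S.ρ) (hηη : S'.η = S.η) (hsymm : ∀ P Q, S.perp P Q → S.perp Q P)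
    {ℓ r : ℕ} {x : I → Ω}
    (hG : S.Good ℓ r x) (hG' : S'.Good ℓ r x) (hgen : Gen S.perp S.ρ x univ)
    (hE : 1 ≤ S.η * ℓ * S.ρ ^ 4) (hη : S.η ≤ 1 / 4096)
    (m : ℝ) (hm0 : 0 ≤ m) (hℓm : 4 * ℓ * m ≤ S.η * S.ρ ^ 4) (hrm : 256 * (ℓ + r) * m ≤ 1)
    (τ : σ → ℝ) (h0 : ∀ s, 0 ≤ τ s) (h1 : ∑ s, τ s = 1)
    (hm : ∀ i, ∑ s ∈ univ.filter (fun s => i ∈ S.idx s), τ s ≤ m)
    (τ' : σ' → ℝ) (h0' : ∀ s, 0 ≤ τ' s) (h1' : ∑ s, τ' s = 1)
    (hm' : ∀ i, ∑ s ∈ univ.filter (fun s => i ∈ S'.idx s), τ' s ≤ m) :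
    ∃ (G : Finset σ) (G' : Finset σ'), 15 / 16 ≤ ∑ s ∈ G, τ s ∧ 15 / 16 ≤ ∑ s ∈ G', τ' s ∧
      (∀ s' ∈ G', ∑ s ∈ S.FA x (S'.idx s'), τ s ≤ 32 * S.η * S.ρ ^ (S.a * S'.a)) ∧
      (∀ s ∈ G, ∑ s' ∈ S'.FA x (S.idx s), τ' s' ≤ 32 * S.η * S.ρ ^ (S.a * S'.a)) ∧
      S.ρ ^ (S.a * S'.a) / 32 ≤
        ∑ s ∈ G, ∑ s' ∈ G', (if Live S S' x s s' then τ s * τ' s' else 0) := by
  have hη0 := S.η0
  have hρ0 := S.ρ0
  set R : ℝ := S.ρ ^ (S.a * S'.a) with hR
  have hR0 : 0 < R := pow_pos hρ0 _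
  have hℓ0 : (0 : ℝ) ≤ ℓ := by positivity
  have hℓm0 : 0 ≤ ℓ * m := by positivity
  have hsmall : 16 * (ℓ + r) * m ≤ 1 / 16 := by linarith
  -- the two good sets
  set Bad' : Finset σ' := univ.filter (fun s' : σ' => 32 * S.η * R ≤
      ∑ s ∈ S.FA x (S'.idx s'), τ s) with hBad'
  set Bad : Finset σ := univ.filter (fun s : σ => 32 * S.η * R ≤
      ∑ s' ∈ S'.FA x (S.idx s), τ' s') with hBad
  have hb' : ∑ s' ∈ Bad', τ' s' ≤ 1 / 16 :=
    (mass_up S S' hG hgen hE τ h0 h1 m hm0 hm (by linarith) τ' h0' m hm0 hm').trans hsmall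
  have hb : ∑ s ∈ Bad, τ s ≤ 1 / 16 := by
    have h := mass_up S' S hG' (by rw [hperp, hρρ]; exact hgen) (by rw [hηη, hρρ]; exact hE)
      τ' h0' h1' m hm0 hm' (by rw [hηη, hρρ]; linarith) τ h0 m hm0 hm
    rw [hηη, hρρ, mul_comm S'.a S.a, ← hR] at h
    exact h.trans hsmall
  set G : Finset σ := univ \ Bad with hGdef
  set G' : Finset σ' := univ \ Bad' with hG'def
  have hGm : 15 / 16 ≤ ∑ s ∈ G, τ s := by
    have := Finset.sum_sdiff (f := τ) (Finset.subset_univ Bad)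
    rw [h1] at this
    rw [hGdef]
    linarith
  have hG'm : 15 / 16 ≤ ∑ s ∈ G', τ' s := by
    have := Finset.sum_sdiff (f := τ') (Finset.subset_univ Bad')
    rw [h1'] at this
    rw [hG'def]
    linarith
  have hGF : ∀ s ∈ G, ∑ s' ∈ S'.FA x (S.idx s), τ' s' ≤ 32 * S.η * R := by
    intro s hs
    rw [hGdef, Finset.mem_sdiff, hBad, Finset.mem_filter] at hs
    have := hs.2
    push Not at this
    exact (this (Finset.mem_univ _)).le
  have hG'F : ∀ s' ∈ G', ∑ s ∈ S.FA x (S'.idx s'), τ s ≤ 32 * S.η * R := by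
    intro s hs
    rw [hG'def, Finset.mem_sdiff, hBad', Finset.mem_filter] at hs
    have := hs.2
    push Not at this
    exact (this (Finset.mem_univ _)).le
  refine ⟨G, G', hGm, hG'm, hG'F, hGF, ?_⟩
  -- the restricted law
  set M : ℝ := ∑ s ∈ G, τ s with hM
  have hM0 : 0 < M := by linarith
  have hM1 : M ≤ 1 := by
    rw [← h1, hM]
    exact Finset.sum_le_sum_of_subset_of_nonneg (Finset.subset_univ _) (fun s _ _ => h0 s)
  set τr : σ → ℝ := fun s => if s ∈ G then τ s / M else 0 with hτr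
  have r0 : ∀ s, 0 ≤ τr s := by
    intro s
    rw [hτr]
    dsimp only
    split_ifs
    · exact div_nonneg (h0 s) hM0.le
    · exact le_rfl
  have r1 : ∑ s, τr s = 1 := by
    rw [hτr, ← Finset.sum_filter, Finset.filter_mem_eq_inter, Finset.univ_inter,
      ← Finset.sum_div, ← hM, div_self hM0.ne']
  have r2 : ∀ s, τr s ≤ 2 * τ s := by
    intro s
    rw [hτr]
    dsimp only
    have := h0 s
    split_ifs
    · rw [div_le_iff₀ hM0]
      nlinarith
    · linarith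
  have r3 : ∀ i, ∑ s ∈ univ.filter (fun s => i ∈ S.idx s), τr s ≤ 2 * m := by
    intro i
    calc _ ≤ ∑ s ∈ univ.filter (fun s => i ∈ S.idx s), 2 * τ s :=
          Finset.sum_le_sum (fun s _ => r2 s)
      _ = 2 * ∑ s ∈ univ.filter (fun s => i ∈ S.idx s), τ s := by rw [Finset.mul_sum]
      _ ≤ _ := by linarith [hm i]
  set Bad3 : Finset σ' := univ.filter (fun s' : σ' => ∑ s ∈ S.GA x (S'.idx s'), τr s ≤
      1 / 16 * R) with hBad3
  have hb3 : ∑ s' ∈ Bad3, τ' s' ≤ 1 / 16 :=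
    (mass_low S S' hG hgen hE (by linarith) τr r0 r1 (2 * m) (by positivity) r3 (by linarith)
      τ' h0' m hm0 hm').trans hsmall
  -- perpendicular mass
  have k1 : ∀ s' ∈ G' \ Bad3, M * (1 / 16 * R) ≤
      ∑ s ∈ G, (if ∀ i ∈ S.idx s, ∀ j ∈ S'.idx s', S.perp (x i) (x j) then τ s else 0) := by
    intro s' hs'
    rw [Finset.mem_sdiff, hBad3, Finset.mem_filter] at hs'
    have h3 := hs'.2
    push Not at h3
    have h4 := (h3 (Finset.mem_univ _)).le
    have h5 : M * ∑ s ∈ S.GA x (S'.idx s'), τr s =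
        ∑ s ∈ G, (if ∀ i ∈ S.idx s, ∀ j ∈ S'.idx s', S.perp (x i) (x j) then τ s else 0) := by
      rw [Finset.mul_sum, GA, Finset.sum_filter, ← Finset.sum_subset (Finset.subset_univ G)]
      · refine Finset.sum_congr rfl (fun s hs => ?_)
        have h6 : (∀ j ∈ S'.idx s', S.Sp x s (x j)) ↔
            ∀ i ∈ S.idx s, ∀ j ∈ S'.idx s', S.perp (x i) (x j) :=
          ⟨fun h i hi j hj => h j hj i hi, fun h j hj i hi => h i hi j hj⟩
        by_cases h7 : ∀ i ∈ S.idx s, ∀ j ∈ S'.idx s', S.perp (x i) (x j)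
        · rw [if_pos (h6.2 h7), if_pos h7, hτr]
          dsimp only
          rw [if_pos hs, mul_div_cancel₀ _ hM0.ne']
        · rw [if_neg (fun h => h7 (h6.1 h)), if_neg h7]
      · intro s _ hs
        have : τr s = 0 := by
          rw [hτr]
          dsimp only
          rw [if_neg hs]
        rw [this, mul_zero]
        simp
    rw [← h5]
    exact mul_le_mul_of_nonneg_left h4 hM0.le
  have k2 : M * (1 / 16 * R) * (14 / 16) ≤ ∑ s ∈ G, ∑ s' ∈ G',
      (if ∀ i ∈ S.idx s, ∀ j ∈ S'.idx s', S.perp (x i) (x j) then τ s * τ' s' else 0) := by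
    have h3 : 14 / 16 ≤ ∑ s' ∈ G' \ Bad3, τ' s' := by
      have e1 : ∑ s' ∈ G', τ' s' ≤ ∑ s' ∈ G' \ Bad3, τ' s' + ∑ s' ∈ Bad3, τ' s' := by
        have hsub : G' ⊆ (G' \ Bad3) ∪ Bad3 := by
          intro z hz
          rw [Finset.mem_union, Finset.mem_sdiff]
          by_cases h : z ∈ Bad3
          · exact Or.inr h
          · exact Or.inl ⟨hz, h⟩
        refine (Finset.sum_le_sum_of_subset_of_nonneg hsub (fun s _ _ => h0' s)).trans ?_
        exact le_of_eq (Finset.sum_union Finset.sdiff_disjoint)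
      linarith
    calc M * (1 / 16 * R) * (14 / 16) ≤ M * (1 / 16 * R) * ∑ s' ∈ G' \ Bad3, τ' s' :=
          mul_le_mul_of_nonneg_left h3 (by positivity)
      _ = ∑ s' ∈ G' \ Bad3, τ' s' * (M * (1 / 16 * R)) := by
          rw [← Finset.sum_mul, mul_comm]
      _ ≤ ∑ s' ∈ G' \ Bad3, τ' s' * ∑ s ∈ G,
          (if ∀ i ∈ S.idx s, ∀ j ∈ S'.idx s', S.perp (x i) (x j) then τ s else 0) :=
          Finset.sum_le_sum (fun s' hs' => mul_le_mul_of_nonneg_left (k1 s' hs') (h0' s'))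
      _ ≤ ∑ s' ∈ G', τ' s' * ∑ s ∈ G,
          (if ∀ i ∈ S.idx s, ∀ j ∈ S'.idx s', S.perp (x i) (x j) then τ s else 0) := by
          refine Finset.sum_le_sum_of_subset_of_nonneg Finset.sdiff_subset (fun s' _ _ => ?_)
          refine mul_nonneg (h0' s') (Finset.sum_nonneg (fun s _ => ?_))
          split_ifs
          · exact h0 s
          · exact le_rfl
      _ = _ := by
          rw [Finset.sum_comm]
          refine Finset.sum_congr rfl (fun s' _ => ?_)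
          rw [Finset.mul_sum]
          refine Finset.sum_congr rfl (fun s _ => ?_)
          split_ifs
          · ring
          · ring
  -- dead masses
  have k3 : ∑ s ∈ G, ∑ s' ∈ G', (if (∀ i ∈ S.idx s, ∀ j ∈ S'.idx s', S.perp (x i) (x j)) ∧
      S.Dead x s (S'.idx s') then τ s * τ' s' else 0) ≤ 32 * S.η * R := by
    rw [Finset.sum_comm]
    calc _ ≤ ∑ s' ∈ G', τ' s' * ∑ s ∈ S.FA x (S'.idx s'), τ s := by
          refine Finset.sum_le_sum (fun s' _ => ?_)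
          rw [FA, Finset.sum_filter, Finset.mul_sum]
          refine le_trans (Finset.sum_le_sum_of_subset_of_nonneg (Finset.subset_univ G)
            (fun s _ _ => ?_)) (Finset.sum_le_sum (fun s _ => ?_))
          · split_ifs
            · exact mul_nonneg (h0 s) (h0' s')
            · exact le_rfl
          · by_cases h7 : (∀ i ∈ S.idx s, ∀ j ∈ S'.idx s', S.perp (x i) (x j)) ∧
              S.Dead x s (S'.idx s')
            · rw [if_pos h7, if_pos ⟨fun j hj i hi => h7.1 i hi j hj, h7.2⟩, mul_comm]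
            · rw [if_neg h7]
              refine mul_nonneg (h0' s') ?_
              split_ifs
              · exact h0 s
              · exact le_rfl
      _ ≤ ∑ s' ∈ G', τ' s' * (32 * S.η * R) :=
          Finset.sum_le_sum (fun s' hs' => mul_le_mul_of_nonneg_left (hG'F s' hs') (h0' s'))
      _ = (∑ s' ∈ G', τ' s') * (32 * S.η * R) := by rw [Finset.sum_mul]
      _ ≤ 1 * (32 * S.η * R) := by
          refine mul_le_mul_of_nonneg_right ?_ (by positivity)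
          rw [← h1']
          exact Finset.sum_le_sum_of_subset_of_nonneg (Finset.subset_univ _) (fun s _ _ => h0' s)
      _ = _ := one_mul _
  have k4 : ∑ s ∈ G, ∑ s' ∈ G', (if (∀ i ∈ S.idx s, ∀ j ∈ S'.idx s', S.perp (x i) (x j)) ∧
      S'.Dead x s' (S.idx s) then τ s * τ' s' else 0) ≤ 32 * S.η * R := by
    calc _ ≤ ∑ s ∈ G, τ s * ∑ s' ∈ S'.FA x (S.idx s), τ' s' := by
          refine Finset.sum_le_sum (fun s _ => ?_)
          rw [FA, Finset.sum_filter, Finset.mul_sum]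
          refine le_trans (Finset.sum_le_sum_of_subset_of_nonneg (Finset.subset_univ G')
            (fun s' _ _ => ?_)) (Finset.sum_le_sum (fun s' _ => ?_))
          · split_ifs
            · exact mul_nonneg (h0 s) (h0' s')
            · exact le_rfl
          · by_cases h7 : (∀ i ∈ S.idx s, ∀ j ∈ S'.idx s', S.perp (x i) (x j)) ∧
              S'.Dead x s' (S.idx s)
            · rw [if_pos h7, if_pos]
              refine ⟨fun i hi j hj => ?_, h7.2⟩
              rw [hperp]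
              exact hsymm _ _ (h7.1 i hi j hj)
            · rw [if_neg h7]
              refine mul_nonneg (h0 s) ?_
              split_ifs
              · exact h0' s'
              · exact le_rfl
      _ ≤ ∑ s ∈ G, τ s * (32 * S.η * R) :=
          Finset.sum_le_sum (fun s hs => mul_le_mul_of_nonneg_left (hGF s hs) (h0 s))
      _ = M * (32 * S.η * R) := by rw [← Finset.sum_mul]
      _ ≤ 1 * (32 * S.η * R) := mul_le_mul_of_nonneg_right hM1 (by positivity)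
      _ = _ := one_mul _
  have k5 : ∑ s ∈ G, ∑ s' ∈ G',
      (if ∀ i ∈ S.idx s, ∀ j ∈ S'.idx s', S.perp (x i) (x j) then τ s * τ' s' else 0) ≤
      ∑ s ∈ G, ∑ s' ∈ G', (if Live S S' x s s' then τ s * τ' s' else 0) +
      (∑ s ∈ G, ∑ s' ∈ G', (if (∀ i ∈ S.idx s, ∀ j ∈ S'.idx s', S.perp (x i) (x j)) ∧
        S.Dead x s (S'.idx s') then τ s * τ' s' else 0)) +
      ∑ s ∈ G, ∑ s' ∈ G', (if (∀ i ∈ S.idx s, ∀ j ∈ S'.idx s', S.perp (x i) (x j)) ∧
        S'.Dead x s' (S.idx s) then τ s * τ' s' else 0) := by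
    rw [← Finset.sum_add_distrib, ← Finset.sum_add_distrib]
    refine Finset.sum_le_sum (fun s _ => ?_)
    rw [← Finset.sum_add_distrib, ← Finset.sum_add_distrib]
    refine Finset.sum_le_sum (fun s' _ => ?_)
    have hnn : 0 ≤ τ s * τ' s' := mul_nonneg (h0 s) (h0' s')
    unfold Live
    by_cases hp : ∀ i ∈ S.idx s, ∀ j ∈ S'.idx s', S.perp (x i) (x j)
    · by_cases hd : S.Dead x s (S'.idx s')
      · by_cases hd' : S'.Dead x s' (S.idx s)
        · rw [if_pos hp, if_neg (fun h => h.2.1 hd), if_pos ⟨hp, hd⟩, if_pos ⟨hp, hd'⟩]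
          linarith
        · rw [if_pos hp, if_neg (fun h => h.2.1 hd), if_pos ⟨hp, hd⟩, if_neg (fun h => hd' h.2)]
          linarith
      · by_cases hd' : S'.Dead x s' (S.idx s)
        · rw [if_pos hp, if_neg (fun h => h.2.2 hd'), if_neg (fun h => hd h.2),
            if_pos ⟨hp, hd'⟩]
          linarith
        · rw [if_pos hp, if_pos ⟨hp, hd, hd'⟩, if_neg (fun h => hd h.2),
            if_neg (fun h => hd' h.2)]
          linarith
    · rw [if_neg hp, if_neg (fun h => hp h.1), if_neg (fun h => hp h.1),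
        if_neg (fun h => hp h.1)]
      linarith
  have k6 : 15 / 16 * (1 / 16 * R) * (14 / 16) ≤ M * (1 / 16 * R) * (14 / 16) := by
    have : 0 < 1 / 16 * R := by positivity
    nlinarith
  have k7 : 64 * S.η * R ≤ 1 / 64 * R := by
    refine mul_le_mul_of_nonneg_right ?_ hR0.le
    linarith
  linarith

end Sys

end Crest.Agent.R042.TLev333
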