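import Crest.Agent.R042.GamInst_664
import Crest.Agent.R042.TLevG_333

/-! # The same-type gadget Γ for a good sample, mass inequality from Theorem T (helper664) -/

set_option autoImplicit false
set_option linter.unusedVariables false
set_option linter.unusedSectionVars false

namespace Crest.Agent.R042.GamT664

open Finset Crest.Agent.R042.TLev333 Crest.Agent.R042.GamS831 Crest.Agent.R042.Quasi664
open scoped Classical

theorem mass_of_good {I Ω : Type*} [Fintype I] [Fintype Ω] (perp : Ω → Ω → Prop)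
    (hsym : ∀ P Q, perp P Q → perp Q P) {ρ η : ℝ} (hρ0 : 0 < ρ) (hρ1 : ρ ≤ 1) (hη0 : 0 < η)
    (hη1 : η ≤ 1) {ℓ r : ℕ} {x : I → Ω} (hG : (triv perp ρ η hρ0 hρ1 hη0 hη1).Good ℓ r x)
    (hgen : Gen perp ρ x univ) (hE : 1 ≤ η * ℓ * ρ ^ 4) (hη : η ≤ 1 / 4096)
    (m : ℝ) (hm0 : 0 ≤ m) (hℓm : 4 * ℓ * m ≤ η * ρ ^ 4) (hrm : 256 * (ℓ + r) * m ≤ 1)
    (τ τ' : I → ℝ) (h0 : ∀ s, 0 ≤ τ s) (h1 : ∑ s, τ s = 1) (hm : ∀ i, τ i ≤ m)
    (h0' : ∀ s, 0 ≤ τ' s) (h1' : ∑ s, τ' s = 1) (hm' : ∀ i, τ' i ≤ m) :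
    ρ / 32 ≤ ∑ s, ∑ s', (if perp (x s) (x s') then τ s * τ' s' else 0) := by
  have e : ∀ i : I, univ.filter (fun s : I => i ∈ (triv perp ρ η hρ0 hρ1 hη0 hη1 : Sys I Ω I).idx s)
      = {i} := by
    intro i
    ext s
    simp only [mem_filter, mem_univ, true_and, triv, mem_singleton]
    exact eq_comm
  obtain ⟨G, G', -, -, -, -, h⟩ := Sys.theoremT (triv perp ρ η hρ0 hρ1 hη0 hη1)
    (triv perp ρ η hρ0 hρ1 hη0 hη1) rfl rfl rfl hsym hG hG hgen hE hη m hm0 hℓm hrm τ h0 h1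
    (fun i => by rw [e i, sum_singleton]; exact hm i) τ' h0' h1'
    (fun i => by rw [e i, sum_singleton]; exact hm' i)
  have h2 : ρ / 32 ≤ ∑ s ∈ G, ∑ s' ∈ G', (if Sys.Live (triv perp ρ η hρ0 hρ1 hη0 hη1)
      (triv perp ρ η hρ0 hρ1 hη0 hη1) x s s' then τ s * τ' s' else 0) := by
    have e1 : (triv perp ρ η hρ0 hρ1 hη0 hη1 : Sys I Ω I).ρ ^
        ((triv perp ρ η hρ0 hρ1 hη0 hη1 : Sys I Ω I).a *
          (triv perp ρ η hρ0 hρ1 hη0 hη1 : Sys I Ω I).a) = ρ := by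
      simp [triv]
    rw [e1] at h
    exact h
  refine h2.trans ?_
  calc _ ≤ ∑ s ∈ G, ∑ s' ∈ G', (if perp (x s) (x s') then τ s * τ' s' else 0) := by
        refine sum_le_sum fun s _ => sum_le_sum fun s' _ => ?_
        by_cases hl : Sys.Live (triv perp ρ η hρ0 hρ1 hη0 hη1)
            (triv perp ρ η hρ0 hρ1 hη0 hη1) x s s'
        · have hp : perp (x s) (x s') := hl.1 s (mem_singleton_self s) s' (mem_singleton_self s')
          rw [if_pos hl, if_pos hp]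
        · rw [if_neg hl]
          split_ifs
          · exact mul_nonneg (h0 s) (h0' s')
          · exact le_rfl
    _ ≤ ∑ s ∈ G, ∑ s', (if perp (x s) (x s') then τ s * τ' s' else 0) := by
        refine sum_le_sum fun s _ => sum_le_sum_of_subset_of_nonneg (subset_univ _) ?_
        intro s' _ _
        split_ifs
        · exact mul_nonneg (h0 s) (h0' s')
        · exact le_rfl
    _ ≤ _ := by
        refine sum_le_sum_of_subset_of_nonneg (subset_univ _) ?_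
        intro s _ _
        refine sum_nonneg fun s' _ => ?_
        split_ifs
        · exact mul_nonneg (h0 s) (h0' s')
        · exact le_rfl

/-- **The gadget graph of a good sample.** -/
theorem gamma_good (ε : ℝ) (hε : 0 < ε) (hε1 : ε ≤ 1) :
    ∃ (D : ℕ) (ρ0' : ℝ), 0 < ρ0' ∧ ∀ (ι Om : Type) [Fintype ι] [Nonempty ι]
      [Fintype Om] (perp : Om → Om → Prop) (hsym : ∀ P Q, perp P Q → perp Q P)
      (_hirr : ∀ P, ¬ perp P P) (ρ η : ℝ) (hρ0 : 0 < ρ) (hρ1 : ρ ≤ 1) (hη0 : 0 < η) (hη1 : η ≤ 1),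
      ρ ≤ ρ0' → ∀ (ℓ r : ℕ) (x : ι → Om), Gen perp ρ x univ →
      (∀ J : Finset ι, 1 ≤ J.card → J.card ≤ 2 →
        ((univ.filter fun Q => ∀ j ∈ J, perp (x j) Q).card : ℝ) ≤ ρ ^ J.card * Fintype.card Om →
        (cntJ perp J x : ℝ) ≤ 2 * ρ ^ J.card * Fintype.card ι) →
      (triv perp ρ η hρ0 hρ1 hη0 hη1).Good ℓ r x → 1 ≤ η * ℓ * ρ ^ 4 → η ≤ 1 / 4096 →
      4 * ℓ * (1 / (ε * Fintype.card ι)) ≤ η * ρ ^ 4 →
      256 * (ℓ + r) * (1 / (ε * Fintype.card ι)) ≤ 1 →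
      ∃ G : SimpleGraph ι, (∀ a b, G.Adj a b → a ≠ b ∧ perp (x a) (x b)) ∧
        (∀ a, (univ.filter fun b => G.Adj a b).card ≤ D) ∧
        (∀ a b c, G.Adj a b → G.Adj a c → b ≠ c → ¬ perp (x b) (x c)) ∧
        ∀ A B : Finset ι, ε * Fintype.card ι ≤ A.card → ε * Fintype.card ι ≤ B.card →
          ∃ a ∈ A, ∃ b ∈ B, G.Adj a b := by
  obtain ⟨D, ρ0', h0, h⟩ := GamInst664.gamma_sample ε hε hε1
  refine ⟨D, ρ0', h0, ?_⟩
  intro ι Om _ _ _ perp hsym hirr ρ η hρ0 hρ1 hη0 hη1 hρ' ℓ r x hgen hx hG hE hη h4 h256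
  have hN : (0 : ℝ) < Fintype.card ι := by exact_mod_cast Fintype.card_pos
  exact h ι Om perp hsym hirr ρ hρ0 hρ' x hgen hx (fun τ τ' a1 a2 a3 b1 b2 b3 =>
    mass_of_good perp hsym hρ0 hρ1 hη0 hη1 hG hgen hE hη _ (by positivity) h4 h256 τ τ'
      a1 a2 a3 b1 b2 b3)

end Crest.Agent.R042.GamT664
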