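import Mathlib

/-! # The same-type gadget Γ (733 #25850), abstract existence (helper664)

`H` is the compatibility (perp) graph of the sample of types.  `Γ ≤ H` has bounded degree, the
`Γ`-neighbours of a vertex are pairwise `H`-non-adjacent, and any two large sets of types span
at least `N` ordered `Γ`-edges. -/

namespace Crest.Agent.R042.Gam664

open Finset

section count

variable {E : Type*} [Fintype E] [DecidableEq E] {M : ℕ}

theorem card_fix_two (k l : Fin M) (h : k ≠ l) (e f : E) :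
    #{ω : Fin M → E | ω k = e ∧ ω l = f} * (Fintype.card E) ^ 2 = (Fintype.card E) ^ M := by
  classical
  have h1 : (univ.filter fun ω : Fin M → E => ω k = e ∧ ω l = f) =
      Fintype.piFinset (fun j => if j = k then ({e} : Finset E) else if j = l then {f} else univ) := by
    ext ω
    simp only [mem_filter, mem_univ, true_and, Fintype.mem_piFinset]
    constructor
    · rintro ⟨h1, h2⟩ j
      by_cases hj : j = k
      · subst hj; simp [h1]
      · by_cases hj2 : j = l
        · subst hj2; simp [hj, h2]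
        · simp [hj, hj2]
    · intro hω
      refine ⟨?_, ?_⟩
      · have := hω k; simpa using this
      · have := hω l; simpa [h.symm] using this
  rw [h1, Fintype.card_piFinset]
  have h2 : ∏ j : Fin M, (if j = k then ({e} : Finset E) else if j = l then {f} else univ).card =
      ∏ j : Fin M, (if j = k then 1 else if j = l then 1 else Fintype.card E) := by
    refine prod_congr rfl fun j _ => ?_
    split_ifs <;> simp
  rw [h2]
  have hk : k ∈ (univ : Finset (Fin M)) := mem_univ _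
  have hl : l ∈ (univ.erase k : Finset (Fin M)) := by simp [h.symm]
  rw [← mul_prod_erase _ _ hk, ← mul_prod_erase _ _ hl]
  have h3 : ∏ x ∈ (univ.erase k).erase l, (if x = k then 1 else if x = l then 1 else Fintype.card E)
      = (Fintype.card E) ^ (M - 2) := by
    rw [prod_congr rfl (g := fun _ => Fintype.card E)]
    · rw [prod_const, card_erase_of_mem hl, card_erase_of_mem hk]
      simp
      rfl
    · intro x hx
      simp only [mem_erase, mem_univ, and_true] at hx
      simp [hx.1, hx.2]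
  rw [h3]
  have hM : 2 ≤ M := by
    by_contra hlt
    rw [not_le] at hlt
    have hk' := k.isLt
    have hl' := l.isLt
    apply h
    apply Fin.ext
    omega
  simp only [if_true, h.symm, if_false, one_mul]
  rw [← pow_add, Nat.sub_add_cancel hM]

theorem count_two (k l : Fin M) (h : k ≠ l) (R : E → E → Prop) [DecidableRel R] :
    #{ω : Fin M → E | R (ω k) (ω l)} * (Fintype.card E) ^ 2 =
      #{p : E × E | R p.1 p.2} * (Fintype.card E) ^ M := by
  classical
  have h1 : #{ω : Fin M → E | R (ω k) (ω l)} =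
      ∑ p ∈ univ.filter (fun p : E × E => R p.1 p.2), #{ω : Fin M → E | ω k = p.1 ∧ ω l = p.2} := by
    rw [card_eq_sum_card_fiberwise (f := fun ω : Fin M → E => (ω k, ω l))
      (t := univ.filter (fun p : E × E => R p.1 p.2))]
    · refine sum_congr rfl fun p hp => ?_
      congr 1
      ext ω
      simp only [mem_filter, mem_univ, true_and] at hp ⊢
      constructor
      · rintro ⟨_, h2⟩
        exact ⟨congrArg Prod.fst h2, congrArg Prod.snd h2⟩
      · rintro ⟨h2, h3⟩
        refine ⟨by rw [h2, h3]; exact hp, ?_⟩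
        ext <;> simp [h2, h3]
    · intro ω hω
      simpa using hω
  rw [h1, sum_mul, sum_congr rfl (fun p _ => card_fix_two k l h p.1 p.2), sum_const, smul_eq_mul]

/-- number of ordered pairs of distinct indices in relation `R` -/
def npairs (R : E → E → Prop) [DecidableRel R] (ω : Fin M → E) : ℕ :=
  #{p : Fin M × Fin M | p.1 ≠ p.2 ∧ R (ω p.1) (ω p.2)}

theorem sum_npairs (R : E → E → Prop) [DecidableRel R] :
    (∑ ω : Fin M → E, npairs R ω) * (Fintype.card E) ^ 2 ≤
      M ^ 2 * #{p : E × E | R p.1 p.2} * (Fintype.card E) ^ M := by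
  classical
  have h1 : ∑ ω : Fin M → E, npairs R ω =
      ∑ p : Fin M × Fin M, if p.1 ≠ p.2 then #{ω : Fin M → E | R (ω p.1) (ω p.2)} else 0 := by
    unfold npairs
    simp_rw [card_filter]
    rw [sum_comm]
    refine sum_congr rfl fun p _ => ?_
    by_cases hp : p.1 = p.2
    · simp [hp]
    · simp [hp]
  rw [h1, sum_mul]
  calc ∑ p : Fin M × Fin M, (if p.1 ≠ p.2 then #{ω : Fin M → E | R (ω p.1) (ω p.2)} else 0)
        * (Fintype.card E) ^ 2
      ≤ ∑ p : Fin M × Fin M, #{p : E × E | R p.1 p.2} * (Fintype.card E) ^ M := by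
        refine sum_le_sum fun p _ => ?_
        by_cases hp : p.1 = p.2
        · simp [hp]
        · rw [if_pos hp, count_two p.1 p.2 hp R]
    _ = M ^ 2 * #{p : E × E | R p.1 p.2} * (Fintype.card E) ^ M := by
        rw [sum_const, smul_eq_mul, card_univ, Fintype.card_prod, Fintype.card_fin]
        ring

/-- Chernoff, lower tail -/
theorem chern (S : Finset E) (q t : ℝ) (hq : q * (Fintype.card E : ℝ) ≤ #S) :
    (#{ω : Fin M → E | (#{k : Fin M | ω k ∈ S} : ℝ) < t} : ℝ) ≤
      Real.exp (t - q * M / 2) * (Fintype.card E : ℝ) ^ M := by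
  classical
  have hsum : ∑ ω : Fin M → E, Real.exp (-(#{k : Fin M | ω k ∈ S} : ℝ)) =
      (∑ e : E, if e ∈ S then Real.exp (-1) else 1) ^ M := by
    have : ∀ ω : Fin M → E, Real.exp (-(#{k : Fin M | ω k ∈ S} : ℝ)) =
        ∏ k : Fin M, (if ω k ∈ S then Real.exp (-1) else 1) := by
      intro ω
      rw [prod_ite, prod_const, prod_const_one, mul_one, ← Real.exp_nat_mul]
      congr 1
      ring
    simp_rw [this]
    have := Finset.prod_univ_sum (fun _ : Fin M => (univ : Finset E))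
      (fun _ e => if e ∈ S then Real.exp (-1) else (1 : ℝ))
    rw [Fintype.piFinset_univ] at this
    rw [← this, prod_const, card_univ, Fintype.card_fin]
  have hbase : (∑ e : E, if e ∈ S then Real.exp (-1) else (1 : ℝ)) ≤
      (Fintype.card E : ℝ) * Real.exp (-(q / 2)) := by
    have h1 : (∑ e : E, if e ∈ S then Real.exp (-1) else (1 : ℝ)) =
        (Fintype.card E : ℝ) - (1 - Real.exp (-1)) * #S := by
      have : ∀ e : E, (if e ∈ S then Real.exp (-1) else (1 : ℝ)) =
          1 - (1 - Real.exp (-1)) * (if e ∈ S then 1 else 0) := by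
        intro e; split_ifs <;> ring
      simp_rw [this, sum_sub_distrib, ← mul_sum]
      simp
    rw [h1]
    have he : Real.exp (-1) ≤ 1 / 2 := by
      rw [Real.exp_neg, one_div]
      apply inv_anti₀ (by norm_num)
      have := Real.add_one_le_exp (1 : ℝ)
      linarith
    have h2 : (1 - Real.exp (-1)) * #S ≥ (1 / 2) * (q * Fintype.card E) := by
      have hS : (0 : ℝ) ≤ #S := by positivity
      nlinarith
    have h3 : 1 - q / 2 ≤ Real.exp (-(q / 2)) := by
      have := Real.add_one_le_exp (-(q / 2)); linarith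
    have hE : (0 : ℝ) ≤ Fintype.card E := by positivity
    nlinarith [mul_le_mul_of_nonneg_left h3 hE]
  have hbase0 : 0 ≤ (∑ e : E, if e ∈ S then Real.exp (-1) else (1 : ℝ)) := by
    apply sum_nonneg; intro e _; split_ifs <;> positivity
  have h4 : (∑ ω : Fin M → E, Real.exp (-(#{k : Fin M | ω k ∈ S} : ℝ))) ≤
      (Fintype.card E : ℝ) ^ M * Real.exp (-(q * M / 2)) := by
    rw [hsum]
    calc _ ≤ ((Fintype.card E : ℝ) * Real.exp (-(q / 2))) ^ M := pow_le_pow_left₀ hbase0 hbase M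
      _ = _ := by
        rw [mul_pow, ← Real.exp_nat_mul]
        congr 2
        ring
  have h5 : (#{ω : Fin M → E | (#{k : Fin M | ω k ∈ S} : ℝ) < t} : ℝ) * Real.exp (-t) ≤
      ∑ ω : Fin M → E, Real.exp (-(#{k : Fin M | ω k ∈ S} : ℝ)) := by
    rw [← nsmul_eq_mul, ← sum_const]
    calc _ ≤ ∑ ω ∈ univ.filter (fun ω : Fin M → E => (#{k : Fin M | ω k ∈ S} : ℝ) < t),
            Real.exp (-(#{k : Fin M | ω k ∈ S} : ℝ)) := by
          refine sum_le_sum fun ω hω => ?_
          simp only [mem_filter, mem_univ, true_and] at hω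
          exact Real.exp_le_exp.mpr (by linarith)
      _ ≤ _ := sum_le_sum_of_subset_of_nonneg (filter_subset _ _) (fun _ _ _ => (Real.exp_pos _).le)
  have h6 := le_trans h5 h4
  have h7 : Real.exp (t - q * M / 2) = Real.exp t * Real.exp (-(q * M / 2)) := by
    rw [← Real.exp_add]; congr 1
  rw [h7]
  have h8 : Real.exp (-t) * Real.exp t = 1 := by rw [← Real.exp_add]; simp
  calc (#{ω : Fin M → E | (#{k : Fin M | ω k ∈ S} : ℝ) < t} : ℝ)
      = ((#{ω : Fin M → E | (#{k : Fin M | ω k ∈ S} : ℝ) < t} : ℝ) * Real.exp (-t)) * Real.exp t := by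
        rw [mul_assoc, h8, mul_one]
    _ ≤ ((Fintype.card E : ℝ) ^ M * Real.exp (-(q * M / 2))) * Real.exp t :=
        mul_le_mul_of_nonneg_right h6 (Real.exp_pos _).le
    _ = _ := by ring

omit [DecidableEq E] in
/-- Markov for the number of sequences -/
theorem markov (f : (Fin M → E) → ℕ) (B : ℝ) (hB : 0 < B)
    (h : ((∑ ω : Fin M → E, f ω : ℕ) : ℝ) ≤ B / 4 * (Fintype.card E : ℝ) ^ M) :
    (#{ω : Fin M → E | B < (f ω : ℝ)} : ℝ) ≤ (Fintype.card E : ℝ) ^ M / 4 := by
  classical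
  have h1 : (#{ω : Fin M → E | B < (f ω : ℝ)} : ℝ) * B ≤ ((∑ ω : Fin M → E, f ω : ℕ) : ℝ) := by
    rw [← nsmul_eq_mul, ← sum_const]
    push_cast
    calc _ ≤ ∑ ω ∈ univ.filter (fun ω : Fin M → E => B < (f ω : ℝ)), (f ω : ℝ) := by
          refine sum_le_sum fun ω hω => ?_
          simp only [mem_filter, mem_univ, true_and] at hω
          exact hω.le
      _ ≤ _ := sum_le_sum_of_subset_of_nonneg (filter_subset _ _) (fun _ _ _ => by positivity)
  have h2 := le_trans h1 h
  have h3 : (#{ω : Fin M → E | B < (f ω : ℝ)} : ℝ) * B ≤ ((Fintype.card E : ℝ) ^ M / 4) * B := by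
    linarith
  exact le_of_mul_le_mul_right h3 hB

end count

section graph

variable {N : ℕ}

/-- ordered edges -/
abbrev OE (H : SimpleGraph (Fin N)) := {p : Fin N × Fin N // H.Adj p.1 p.2}

/-- two ordered pairs share a vertex -/
def Sh (e f : Fin N × Fin N) : Prop := e.1 = f.1 ∨ e.1 = f.2 ∨ e.2 = f.1 ∨ e.2 = f.2

/-- share a vertex and the other ends are adjacent in `H`, or same edge -/
def Wv (H : SimpleGraph (Fin N)) (e f : Fin N × Fin N) : Prop :=
  (e.1 = f.1 ∧ H.Adj e.2 f.2) ∨ (e.1 = f.2 ∧ H.Adj e.2 f.1) ∨ (e.2 = f.1 ∧ H.Adj e.1 f.2) ∨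
    (e.2 = f.2 ∧ H.Adj e.1 f.1) ∨ e = f ∨ e = f.swap

instance : DecidableRel (Sh (N := N)) := fun e f => by unfold Sh; infer_instance

instance (H : SimpleGraph (Fin N)) [DecidableRel H.Adj] : DecidableRel (Wv H) := fun e f => by
  unfold Wv; infer_instance

variable (H : SimpleGraph (Fin N)) [DecidableRel H.Adj]

/-- cherries -/
def chs : Finset (Fin N × Fin N × Fin N) :=
  univ.filter fun t => H.Adj t.1 t.2.1 ∧ H.Adj t.1 t.2.2

/-- triangles -/
def trs : Finset (Fin N × Fin N × Fin N) :=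
  univ.filter fun t => H.Adj t.1 t.2.1 ∧ H.Adj t.1 t.2.2 ∧ H.Adj t.2.1 t.2.2

omit [DecidableRel H.Adj] in
theorem key (T : Finset (Fin N × Fin N × Fin N)) (S : Finset (OE H × OE H))
    (f : OE H × OE H → Fin N × Fin N × Fin N)
    (h1 : ∀ p ∈ S, f p ∈ T) (h2 : ∀ p ∈ S, ∀ p' ∈ S, f p = f p' → p = p') : #S ≤ #T :=
  card_le_card_of_injOn f h1 (fun p hp p' hp' he => h2 p hp p' hp' he)

theorem card_sh : #{p : OE H × OE H | Sh p.1.1 p.2.1} ≤ 4 * #(chs H) := by
  have h : (univ.filter fun p : OE H × OE H => Sh p.1.1 p.2.1) ⊆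
      ((univ.filter fun p : OE H × OE H => p.1.1.1 = p.2.1.1) ∪
       (univ.filter fun p : OE H × OE H => p.1.1.1 = p.2.1.2)) ∪
      ((univ.filter fun p : OE H × OE H => p.1.1.2 = p.2.1.1) ∪
       (univ.filter fun p : OE H × OE H => p.1.1.2 = p.2.1.2)) := by
    intro p hp
    have hp2 := (mem_filter.mp hp).2
    rcases hp2 with h | h | h | h
    · exact mem_union_left _ (mem_union_left _ (mem_filter.mpr ⟨mem_univ _, h⟩))
    · exact mem_union_left _ (mem_union_right _ (mem_filter.mpr ⟨mem_univ _, h⟩))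
    · exact mem_union_right _ (mem_union_left _ (mem_filter.mpr ⟨mem_univ _, h⟩))
    · exact mem_union_right _ (mem_union_right _ (mem_filter.mpr ⟨mem_univ _, h⟩))
  have a1 : #(univ.filter fun p : OE H × OE H => p.1.1.1 = p.2.1.1) ≤ #(chs H) := by
    refine key H _ _ (fun p => (p.1.1.1, p.1.1.2, p.2.1.2)) ?_ ?_
    · intro p hp
      have hp := (mem_filter.mp hp).2
      exact mem_filter.mpr ⟨mem_univ _, p.1.2, by show H.Adj p.1.1.1 p.2.1.2; rw [hp]; exact p.2.2⟩
    · intro p hp p' hp' he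
      have hp := (mem_filter.mp hp).2
      have hp' := (mem_filter.mp hp').2
      simp only [Prod.mk.injEq] at he
      exact Prod.ext (Subtype.ext (Prod.ext he.1 he.2.1))
        (Subtype.ext (Prod.ext (by rw [← hp, ← hp']; exact he.1) he.2.2))
  have a2 : #(univ.filter fun p : OE H × OE H => p.1.1.1 = p.2.1.2) ≤ #(chs H) := by
    refine key H _ _ (fun p => (p.1.1.1, p.1.1.2, p.2.1.1)) ?_ ?_
    · intro p hp
      have hp := (mem_filter.mp hp).2
      exact mem_filter.mpr ⟨mem_univ _, p.1.2,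
        by show H.Adj p.1.1.1 p.2.1.1; rw [hp]; exact p.2.2.symm⟩
    · intro p hp p' hp' he
      have hp := (mem_filter.mp hp).2
      have hp' := (mem_filter.mp hp').2
      simp only [Prod.mk.injEq] at he
      exact Prod.ext (Subtype.ext (Prod.ext he.1 he.2.1))
        (Subtype.ext (Prod.ext he.2.2 (by rw [← hp, ← hp']; exact he.1)))
  have a3 : #(univ.filter fun p : OE H × OE H => p.1.1.2 = p.2.1.1) ≤ #(chs H) := by
    refine key H _ _ (fun p => (p.1.1.2, p.1.1.1, p.2.1.2)) ?_ ?_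
    · intro p hp
      have hp := (mem_filter.mp hp).2
      exact mem_filter.mpr ⟨mem_univ _, p.1.2.symm,
        by show H.Adj p.1.1.2 p.2.1.2; rw [hp]; exact p.2.2⟩
    · intro p hp p' hp' he
      have hp := (mem_filter.mp hp).2
      have hp' := (mem_filter.mp hp').2
      simp only [Prod.mk.injEq] at he
      exact Prod.ext (Subtype.ext (Prod.ext he.2.1 he.1))
        (Subtype.ext (Prod.ext (by rw [← hp, ← hp']; exact he.1) he.2.2))
  have a4 : #(univ.filter fun p : OE H × OE H => p.1.1.2 = p.2.1.2) ≤ #(chs H) := by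
    refine key H _ _ (fun p => (p.1.1.2, p.1.1.1, p.2.1.1)) ?_ ?_
    · intro p hp
      have hp := (mem_filter.mp hp).2
      exact mem_filter.mpr ⟨mem_univ _, p.1.2.symm,
        by show H.Adj p.1.1.2 p.2.1.1; rw [hp]; exact p.2.2.symm⟩
    · intro p hp p' hp' he
      have hp := (mem_filter.mp hp).2
      have hp' := (mem_filter.mp hp').2
      simp only [Prod.mk.injEq] at he
      exact Prod.ext (Subtype.ext (Prod.ext he.2.1 he.1))
        (Subtype.ext (Prod.ext he.2.2 (by rw [← hp, ← hp']; exact he.1)))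
  have h0 := card_le_card h
  have h3 := card_union_le ((univ.filter fun p : OE H × OE H => p.1.1.1 = p.2.1.1) ∪
       (univ.filter fun p : OE H × OE H => p.1.1.1 = p.2.1.2))
      ((univ.filter fun p : OE H × OE H => p.1.1.2 = p.2.1.1) ∪
       (univ.filter fun p : OE H × OE H => p.1.1.2 = p.2.1.2))
  have h4 := card_union_le (univ.filter fun p : OE H × OE H => p.1.1.1 = p.2.1.1)
       (univ.filter fun p : OE H × OE H => p.1.1.1 = p.2.1.2)
  have h5 := card_union_le (univ.filter fun p : OE H × OE H => p.1.1.2 = p.2.1.1)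
       (univ.filter fun p : OE H × OE H => p.1.1.2 = p.2.1.2)
  omega

theorem card_wv : #{p : OE H × OE H | Wv H p.1.1 p.2.1} ≤ 4 * #(trs H) + 2 * Fintype.card (OE H) := by
  set F1 := univ.filter fun p : OE H × OE H => p.1.1.1 = p.2.1.1 ∧ H.Adj p.1.1.2 p.2.1.2 with hF1
  set F2 := univ.filter fun p : OE H × OE H => p.1.1.1 = p.2.1.2 ∧ H.Adj p.1.1.2 p.2.1.1 with hF2
  set F3 := univ.filter fun p : OE H × OE H => p.1.1.2 = p.2.1.1 ∧ H.Adj p.1.1.1 p.2.1.2 with hF3
  set F4 := univ.filter fun p : OE H × OE H => p.1.1.2 = p.2.1.2 ∧ H.Adj p.1.1.1 p.2.1.1 with hF4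
  set F5 := univ.filter fun p : OE H × OE H => p.1.1 = p.2.1 with hF5
  set F6 := univ.filter fun p : OE H × OE H => p.1.1 = p.2.1.swap with hF6
  have h : (univ.filter fun p : OE H × OE H => Wv H p.1.1 p.2.1) ⊆
      ((F1 ∪ F2) ∪ (F3 ∪ F4)) ∪ (F5 ∪ F6) := by
    intro p hp
    have hp2 := (mem_filter.mp hp).2
    rcases hp2 with h | h | h | h | h | h
    · exact mem_union_left _ (mem_union_left _ (mem_union_left _ (mem_filter.mpr ⟨mem_univ _, h⟩)))
    · exact mem_union_left _ (mem_union_left _ (mem_union_right _ (mem_filter.mpr ⟨mem_univ _, h⟩)))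
    · exact mem_union_left _ (mem_union_right _ (mem_union_left _ (mem_filter.mpr ⟨mem_univ _, h⟩)))
    · exact mem_union_left _ (mem_union_right _ (mem_union_right _ (mem_filter.mpr ⟨mem_univ _, h⟩)))
    · exact mem_union_right _ (mem_union_left _ (mem_filter.mpr ⟨mem_univ _, h⟩))
    · exact mem_union_right _ (mem_union_right _ (mem_filter.mpr ⟨mem_univ _, h⟩))
  have a1 : #F1 ≤ #(trs H) := by
    refine key H _ _ (fun p => (p.1.1.1, p.1.1.2, p.2.1.2)) ?_ ?_
    · intro p hp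
      have hp := (mem_filter.mp hp).2
      exact mem_filter.mpr ⟨mem_univ _, p.1.2,
        by show H.Adj p.1.1.1 p.2.1.2; rw [hp.1]; exact p.2.2, hp.2⟩
    · intro p hp p' hp' he
      have hp := (mem_filter.mp hp).2
      have hp' := (mem_filter.mp hp').2
      simp only [Prod.mk.injEq] at he
      exact Prod.ext (Subtype.ext (Prod.ext he.1 he.2.1))
        (Subtype.ext (Prod.ext (by rw [← hp.1, ← hp'.1]; exact he.1) he.2.2))
  have a2 : #F2 ≤ #(trs H) := by
    refine key H _ _ (fun p => (p.1.1.1, p.1.1.2, p.2.1.1)) ?_ ?_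
    · intro p hp
      have hp := (mem_filter.mp hp).2
      exact mem_filter.mpr ⟨mem_univ _, p.1.2,
        by show H.Adj p.1.1.1 p.2.1.1; rw [hp.1]; exact p.2.2.symm, hp.2⟩
    · intro p hp p' hp' he
      have hp := (mem_filter.mp hp).2
      have hp' := (mem_filter.mp hp').2
      simp only [Prod.mk.injEq] at he
      exact Prod.ext (Subtype.ext (Prod.ext he.1 he.2.1))
        (Subtype.ext (Prod.ext he.2.2 (by rw [← hp.1, ← hp'.1]; exact he.1)))
  have a3 : #F3 ≤ #(trs H) := by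
    refine key H _ _ (fun p => (p.1.1.2, p.1.1.1, p.2.1.2)) ?_ ?_
    · intro p hp
      have hp := (mem_filter.mp hp).2
      exact mem_filter.mpr ⟨mem_univ _, p.1.2.symm,
        by show H.Adj p.1.1.2 p.2.1.2; rw [hp.1]; exact p.2.2, hp.2⟩
    · intro p hp p' hp' he
      have hp := (mem_filter.mp hp).2
      have hp' := (mem_filter.mp hp').2
      simp only [Prod.mk.injEq] at he
      exact Prod.ext (Subtype.ext (Prod.ext he.2.1 he.1))
        (Subtype.ext (Prod.ext (by rw [← hp.1, ← hp'.1]; exact he.1) he.2.2))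
  have a4 : #F4 ≤ #(trs H) := by
    refine key H _ _ (fun p => (p.1.1.2, p.1.1.1, p.2.1.1)) ?_ ?_
    · intro p hp
      have hp := (mem_filter.mp hp).2
      exact mem_filter.mpr ⟨mem_univ _, p.1.2.symm,
        by show H.Adj p.1.1.2 p.2.1.1; rw [hp.1]; exact p.2.2.symm, hp.2⟩
    · intro p hp p' hp' he
      have hp := (mem_filter.mp hp).2
      have hp' := (mem_filter.mp hp').2
      simp only [Prod.mk.injEq] at he
      exact Prod.ext (Subtype.ext (Prod.ext he.2.1 he.1))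
        (Subtype.ext (Prod.ext he.2.2 (by rw [← hp.1, ← hp'.1]; exact he.1)))
  have a5 : #F5 ≤ Fintype.card (OE H) := by
    rw [← card_univ]
    refine card_le_card_of_injOn (fun p => p.1) (fun p _ => mem_univ _) ?_
    intro p hp p' hp' he
    have hp := (mem_filter.mp (mem_coe.mp hp)).2
    have hp' := (mem_filter.mp (mem_coe.mp hp')).2
    refine Prod.ext he (Subtype.ext ?_)
    rw [← hp, ← hp']
    exact congrArg Subtype.val he
  have a6 : #F6 ≤ Fintype.card (OE H) := by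
    rw [← card_univ]
    refine card_le_card_of_injOn (fun p => p.1) (fun p _ => mem_univ _) ?_
    intro p hp p' hp' he
    have hp := (mem_filter.mp (mem_coe.mp hp)).2
    have hp' := (mem_filter.mp (mem_coe.mp hp')).2
    refine Prod.ext he (Subtype.ext ?_)
    apply Prod.swap_injective
    rw [← hp, ← hp']
    exact congrArg Subtype.val he
  have h0 := card_le_card h
  have h3 := card_union_le (F1 ∪ F2) (F3 ∪ F4)
  have h4 := card_union_le F1 F2
  have h5 := card_union_le F3 F4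
  have h6 := card_union_le ((F1 ∪ F2) ∪ (F3 ∪ F4)) (F5 ∪ F6)
  have h7 := card_union_le F5 F6
  omega

/-- Cauchy-Schwarz: `m² ≤ N · cherries` -/
theorem card_sq_le : (Fintype.card (OE H)) ^ 2 ≤ N * #(chs H) := by
  classical
  have h1 : Fintype.card (OE H) = ∑ a : Fin N, #{b | H.Adj a b} := by
    rw [Fintype.card_subtype]
    have := card_eq_sum_card_fiberwise (f := fun p : Fin N × Fin N => p.1)
      (s := univ.filter fun p : Fin N × Fin N => H.Adj p.1 p.2) (t := univ) (fun _ _ => mem_univ _)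
    rw [this]
    refine sum_congr rfl fun a _ => ?_
    refine card_bij' (fun p _ => p.2) (fun b _ => (a, b)) ?_ ?_ ?_ ?_
    · rintro ⟨x, y⟩ hp
      simp only [mem_filter, mem_univ, true_and] at hp ⊢
      rw [← hp.2]; exact hp.1
    · intro b hb
      simpa using hb
    · rintro ⟨x, y⟩ hp
      simp only [mem_filter, mem_univ, true_and] at hp
      rw [← hp.2]
    · intro b _
      rfl
  have h2 : #(chs H) = ∑ a : Fin N, (#{b | H.Adj a b}) ^ 2 := by
    have := card_eq_sum_card_fiberwise (f := fun p : Fin N × Fin N × Fin N => p.1)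
      (s := chs H) (t := univ) (fun _ _ => mem_univ _)
    rw [this]
    refine sum_congr rfl fun a _ => ?_
    rw [sq, ← card_product]
    refine card_bij' (fun p _ => p.2) (fun b _ => (a, b)) ?_ ?_ ?_ ?_
    · rintro ⟨x, y⟩ hp
      simp only [chs, mem_filter, mem_univ, true_and, mem_product] at hp ⊢
      rw [← hp.2]; exact hp.1
    · intro b hb
      simpa [chs] using hb
    · rintro ⟨x, y⟩ hp
      simp only [mem_filter] at hp
      rw [← hp.2]
    · intro b _
      rfl
  rw [h1, h2]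
  have := sq_sum_le_card_mul_sum_sq (s := (univ : Finset (Fin N))) (f := fun a => #{b | H.Adj a b})
  simpa using this

theorem npairs_eq {E : Type*} [Fintype E] [DecidableEq E] {M : ℕ} (R : E → E → Prop)
    [DecidableRel R] (ω : Fin M → E) :
    npairs R ω = ∑ k : Fin M, #{l : Fin M | k ≠ l ∧ R (ω k) (ω l)} := by
  unfold npairs
  rw [card_eq_sum_card_fiberwise (f := fun p : Fin M × Fin M => p.1) (t := univ)
    (fun _ _ => mem_univ _)]
  refine sum_congr rfl fun k _ => ?_
  refine card_bij' (fun p _ => p.2) (fun l _ => (k, l)) ?_ ?_ ?_ ?_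
  · rintro ⟨x, y⟩ hp
    simp only [mem_filter, mem_univ, true_and] at hp ⊢
    rw [← hp.2]; exact hp.1
  · intro b hb
    simpa using hb
  · rintro ⟨x, y⟩ hp
    simp only [mem_filter] at hp
    rw [← hp.2]
  · intro b _
    rfl

/-- the graph of a good sequence -/
theorem of_seq {M : ℕ} (D : ℕ) (hD : 0 < D) (ω : Fin M → OE H)
    (hX : npairs (fun e f : OE H => Wv H e.1 f.1) ω ≤ 2 * N)
    (hY : npairs (fun e f : OE H => Sh e.1 f.1) ω ≤ D * N) :
    ∃ G : SimpleGraph (Fin N), ∃ _ : DecidableRel G.Adj, G ≤ H ∧ (∀ a, #{b | G.Adj a b} ≤ D) ∧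
      (∀ a b c, G.Adj a b → G.Adj a c → b ≠ c → ¬ H.Adj b c) ∧
      ∀ A B : Finset (Fin N), #{k : Fin M | (ω k).1.1 ∈ A ∧ (ω k).1.2 ∈ B} ≤
          #{p ∈ A ×ˢ B | G.Adj p.1 p.2} + 3 * N := by
  classical
  set bad1 : Finset (Fin M) := univ.filter fun k => ∃ l, k ≠ l ∧ Wv H (ω k).1 (ω l).1 with hb1
  set bad2 : Finset (Fin M) := univ.filter fun k => D ≤ #{l : Fin M | k ≠ l ∧ Sh (ω k).1 (ω l).1}
    with hb2
  have hc1 : #bad1 ≤ 2 * N := by
    refine le_trans ?_ hX
    rw [npairs_eq, card_eq_sum_ones]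
    calc ∑ k ∈ bad1, 1 ≤ ∑ k ∈ bad1, #{l : Fin M | k ≠ l ∧ Wv H (ω k).1 (ω l).1} := by
          refine sum_le_sum fun k hk => ?_
          obtain ⟨l, hl⟩ := (mem_filter.mp hk).2
          exact card_pos.mpr ⟨l, mem_filter.mpr ⟨mem_univ _, hl⟩⟩
      _ ≤ _ := sum_le_sum_of_subset (subset_univ _)
  have hc2 : #bad2 ≤ N := by
    have : #bad2 * D ≤ D * N := by
      refine le_trans ?_ hY
      rw [npairs_eq, ← smul_eq_mul, ← sum_const]
      calc ∑ k ∈ bad2, D ≤ ∑ k ∈ bad2, #{l : Fin M | k ≠ l ∧ Sh (ω k).1 (ω l).1} := by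
            refine sum_le_sum fun k hk => ?_
            exact (mem_filter.mp hk).2
        _ ≤ _ := sum_le_sum_of_subset (subset_univ _)
    rw [mul_comm] at this
    exact Nat.le_of_mul_le_mul_left this hD
  set good : Fin M → Prop := fun k => k ∉ bad1 ∧ k ∉ bad2 with hgood
  set G : SimpleGraph (Fin N) := SimpleGraph.fromRel (fun a b => ∃ k, good k ∧ (ω k).1 = (a, b))
    with hG
  have hGadj : ∀ a b, G.Adj a b ↔ ∃ k, good k ∧ ((ω k).1 = (a, b) ∨ (ω k).1 = (b, a)) := by
    intro a b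
    rw [hG, SimpleGraph.fromRel_adj]
    constructor
    · rintro ⟨_, ⟨k, hk, h⟩ | ⟨k, hk, h⟩⟩
      · exact ⟨k, hk, Or.inl h⟩
      · exact ⟨k, hk, Or.inr h⟩
    · rintro ⟨k, hk, h | h⟩
      · refine ⟨?_, Or.inl ⟨k, hk, h⟩⟩
        have := (ω k).2
        rw [h] at this
        exact this.ne
      · refine ⟨?_, Or.inr ⟨k, hk, h⟩⟩
        have := (ω k).2
        rw [h] at this
        exact this.ne.symm
  have hw : ∀ k l, good k → k ≠ l → ¬ Wv H (ω k).1 (ω l).1 := by
    intro k l hk hkl hw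
    exact hk.1 (mem_filter.mpr ⟨mem_univ _, l, hkl, hw⟩)
  have inst : DecidableRel G.Adj := fun a b => Classical.propDecidable _
  refine ⟨G, inst, ?_, ?_, ?_, ?_⟩
  · intro a b hab
    obtain ⟨k, _, h | h⟩ := (hGadj a b).mp hab
    · have := (ω k).2
      rw [h] at this
      exact this
    · have := (ω k).2
      rw [h] at this
      exact this.symm
  · intro a
    set I : Finset (Fin M) := univ.filter fun k => good k ∧ ((ω k).1.1 = a ∨ (ω k).1.2 = a) with hI
    have h1 : #(univ.filter fun b => G.Adj a b) ≤ #I := by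
      refine card_le_card_of_surjOn
        (fun k => if (ω k).1.1 = a then (ω k).1.2 else (ω k).1.1) ?_
      intro b hb
      have hb := (mem_filter.mp (mem_coe.mp hb)).2
      obtain ⟨k, hk, h | h⟩ := (hGadj a b).mp hb
      · exact ⟨k, mem_coe.mpr (mem_filter.mpr ⟨mem_univ _, hk, Or.inl (by rw [h])⟩), by simp [h]⟩
      · exact ⟨k, mem_coe.mpr (mem_filter.mpr ⟨mem_univ _, hk, Or.inr (by rw [h])⟩),
          by simp [h, hb.ne.symm]⟩
    refine le_trans h1 ?_
    rcases I.eq_empty_or_nonempty with hI0 | ⟨k0, hk0⟩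
    · rw [hI0]; simp
    · have hk0' := (mem_filter.mp hk0).2
      have h2 : I ⊆ insert k0 (univ.filter fun l : Fin M => k0 ≠ l ∧ Sh (ω k0).1 (ω l).1) := by
        intro l hl
        have hl' := (mem_filter.mp hl).2
        by_cases hkl : k0 = l
        · rw [hkl]; exact mem_insert_self _ _
        · refine mem_insert_of_mem (mem_filter.mpr ⟨mem_univ _, hkl, ?_⟩)
          unfold Sh
          rcases hk0'.2 with h | h <;> rcases hl'.2 with h' | h'
          · left; rw [h, h']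
          · right; left; rw [h, h']
          · right; right; left; rw [h, h']
          · right; right; right; rw [h, h']
      have h3 := card_le_card h2
      have h4 := card_insert_le k0 (univ.filter fun l : Fin M => k0 ≠ l ∧ Sh (ω k0).1 (ω l).1)
      have h5 : #(univ.filter fun l : Fin M => k0 ≠ l ∧ Sh (ω k0).1 (ω l).1) < D := by
        by_contra hcon
        exact hk0'.1.2 (mem_filter.mpr ⟨mem_univ _, not_lt.mp hcon⟩)
      omega
  · intro a b c hab hac hbc hH
    obtain ⟨k, hk, h⟩ := (hGadj a b).mp hab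
    obtain ⟨l, hl, h'⟩ := (hGadj a c).mp hac
    have hkl : k ≠ l := by
      rintro rfl
      rcases h with h | h <;> rcases h' with h' | h'
      · rw [h] at h'; exact hbc (congrArg Prod.snd h')
      · rw [h] at h'
        have e1 : a = c := congrArg Prod.fst h'
        exact hac.ne e1
      · rw [h] at h'
        have e1 : b = a := congrArg Prod.fst h'
        exact hab.ne e1.symm
      · rw [h] at h'; exact hbc (congrArg Prod.fst h')
    refine hw k l hk hkl ?_
    unfold Wv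
    rcases h with h | h <;> rcases h' with h' | h'
    · left; rw [h, h']; exact ⟨rfl, hH⟩
    · right; left; rw [h, h']; exact ⟨rfl, hH⟩
    · right; right; left; rw [h, h']; exact ⟨rfl, hH⟩
    · right; right; right; left; rw [h, h']; exact ⟨rfl, hH⟩
  · intro A B
    have h1 : (univ.filter fun k : Fin M => (ω k).1.1 ∈ A ∧ (ω k).1.2 ∈ B) ⊆
        (univ.filter fun k : Fin M => good k ∧ (ω k).1.1 ∈ A ∧ (ω k).1.2 ∈ B) ∪ (bad1 ∪ bad2) := by
      intro k hk
      have hk := (mem_filter.mp hk).2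
      by_cases h1 : k ∈ bad1
      · exact mem_union_right _ (mem_union_left _ h1)
      · by_cases h2 : k ∈ bad2
        · exact mem_union_right _ (mem_union_right _ h2)
        · exact mem_union_left _ (mem_filter.mpr ⟨mem_univ _, ⟨h1, h2⟩, hk⟩)
    have h2 := card_le_card h1
    have h3 := card_union_le
      (univ.filter fun k : Fin M => good k ∧ (ω k).1.1 ∈ A ∧ (ω k).1.2 ∈ B) (bad1 ∪ bad2)
    have h4 := card_union_le bad1 bad2
    have h5 : #(univ.filter fun k : Fin M => good k ∧ (ω k).1.1 ∈ A ∧ (ω k).1.2 ∈ B) ≤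
        #((A ×ˢ B).filter fun p => G.Adj p.1 p.2) := by
      refine card_le_card_of_injOn (fun k => (ω k).1) ?_ ?_
      · intro k hk
        have hk := (mem_filter.mp (mem_coe.mp hk)).2
        refine mem_coe.mpr (mem_filter.mpr ⟨mem_product.mpr ⟨hk.2.1, hk.2.2⟩, ?_⟩)
        exact (hGadj _ _).mpr ⟨k, hk.1, Or.inl rfl⟩
      · intro k hk l _ he
        have hk := (mem_filter.mp (mem_coe.mp hk)).2
        by_contra hkl
        refine hw k l hk.1 hkl ?_
        unfold Wv
        right; right; right; right; left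
        exact he
    omega

end graph

theorem card_AB {N : ℕ} (H : SimpleGraph (Fin N)) [DecidableRel H.Adj] (A B : Finset (Fin N)) :
    #(univ.filter fun e : OE H => e.1.1 ∈ A ∧ e.1.2 ∈ B) = #((A ×ˢ B).filter fun p => H.Adj p.1 p.2) := by
  refine card_bij' (fun e _ => e.1) (fun p hp => ⟨p, (mem_filter.mp hp).2⟩) ?_ ?_ ?_ ?_
  · intro e he
    have he := (mem_filter.mp he).2
    exact mem_filter.mpr ⟨mem_product.mpr he, e.2⟩
  · intro p hp
    have hp := (mem_filter.mp hp).1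
    exact mem_filter.mpr ⟨mem_univ _, mem_product.mp hp⟩
  · intro e _
    rfl
  · intro p _
    rfl

set_option maxHeartbeats 2000000 in
/-- **The same-type gadget.** -/
theorem gadget (eps k0 : ℝ) (he : 0 < eps) (hk : 0 < k0) :
    ∃ (D : ℕ) (rho0 : ℝ), 0 < rho0 ∧ ∀ rho : ℝ, 0 < rho → rho ≤ rho0 → ∃ N0 : ℕ, ∀ N : ℕ, N0 ≤ N →
      ∀ (H : SimpleGraph (Fin N)) [DecidableRel H.Adj],
      (∀ A B : Finset (Fin N), eps * N ≤ #A → eps * N ≤ #B →
        k0 * rho * #A * #B ≤ (#{p ∈ A ×ˢ B | H.Adj p.1 p.2} : ℝ)) →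
      ((#(chs H) : ℝ) ≤ 8 * rho ^ 2 * N ^ 3) → ((#(trs H) : ℝ) ≤ 8 * rho ^ 3 * N ^ 3) →
      ∃ G : SimpleGraph (Fin N), ∃ _ : DecidableRel G.Adj, G ≤ H ∧ (∀ a, #{b | G.Adj a b} ≤ D) ∧
        (∀ a b c, G.Adj a b → G.Adj a c → b ≠ c → ¬ H.Adj b c) ∧
        ∀ A B : Finset (Fin N), eps * N ≤ #A → eps * N ≤ #B →
          (N : ℝ) ≤ #{p ∈ A ×ˢ B | G.Adj p.1 p.2} := by
  classical
  rcases lt_or_ge 1 eps with he1 | he1
  · refine ⟨0, 1, one_pos, fun rho _ _ => ⟨1, fun N hN H _ _ _ _ => ?_⟩⟩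
    refine ⟨⊥, inferInstance, bot_le, by simp, by simp, fun A B hA _ => ?_⟩
    exfalso
    have h1 : (#A : ℝ) ≤ N := by
      have := card_le_univ A
      rw [Fintype.card_fin] at this
      exact_mod_cast this
    have h2 : (1 : ℝ) ≤ N := by exact_mod_cast hN
    nlinarith
  set q0 : ℝ := k0 * eps ^ 2 / 3 with hq0
  have hq0p : 0 < q0 := by positivity
  set Lam : ℕ := ⌈16 / q0⌉₊ with hLam
  have hLam1 : 16 ≤ q0 * Lam := by
    have := Nat.le_ceil (16 / q0)
    rw [div_le_iff₀ hq0p] at this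
    linarith
  have hLamp : (0 : ℝ) < Lam := by
    by_contra hcon
    have : (Lam : ℝ) ≤ 0 := not_lt.mp hcon
    nlinarith
  set D : ℕ := ⌈128 * (Lam : ℝ) ^ 2 / k0 ^ 2⌉₊ with hD
  have hDp0 : (0 : ℝ) < 128 * (Lam : ℝ) ^ 2 / k0 ^ 2 := by positivity
  have hDp : 0 < D := Nat.ceil_pos.mpr hDp0
  have hD1 : 128 * (Lam : ℝ) ^ 2 / k0 ^ 2 ≤ D := Nat.le_ceil _
  refine ⟨D, k0 ^ 2 / (128 * (Lam : ℝ) ^ 2), by positivity, fun rho hr hr0 => ?_⟩
  refine ⟨⌈8 * (Lam : ℝ) ^ 2 / (k0 * rho)⌉₊ + 1, fun N hN H _ hquasi hch htr => ?_⟩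
  have hN1 : 1 ≤ N := by omega
  have hN1' : (1 : ℝ) ≤ N := by exact_mod_cast hN1
  have hNpos : (0 : ℝ) < N := by linarith
  have hN2 : 8 * (Lam : ℝ) ^ 2 / (k0 * rho) ≤ N := by
    refine le_trans (Nat.le_ceil _) ?_
    exact_mod_cast (by omega : ⌈8 * (Lam : ℝ) ^ 2 / (k0 * rho)⌉₊ ≤ N)
  set m : ℕ := Fintype.card (OE H) with hm
  have hm1 : k0 * rho * N ^ 2 ≤ m := by
    have h1 := hquasi univ univ (by simpa using mul_le_of_le_one_left hNpos.le he1)
      (by simpa using mul_le_of_le_one_left hNpos.le he1)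
    have h2 := card_AB H univ univ
    simp only [mem_univ, and_self, filter_true] at h2
    rw [← h2, card_univ, card_univ, Fintype.card_fin] at h1
    calc k0 * rho * (N : ℝ) ^ 2 = k0 * rho * N * N := by ring
      _ ≤ _ := h1
  have hmpos : (0 : ℝ) < m := lt_of_lt_of_le (by positivity) hm1
  have hm2 : (m : ℝ) ≤ 3 * rho * N ^ 2 := by
    have h1 : (m : ℝ) ^ 2 ≤ N * #(chs H) := by exact_mod_cast card_sq_le H
    have h2 : (m : ℝ) ^ 2 ≤ (3 * rho * N ^ 2) ^ 2 := by
      calc (m : ℝ) ^ 2 ≤ N * #(chs H) := h1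
        _ ≤ N * (8 * rho ^ 2 * N ^ 3) := mul_le_mul_of_nonneg_left hch hNpos.le
        _ ≤ (3 * rho * N ^ 2) ^ 2 := by
          have : 0 ≤ rho ^ 2 * (N : ℝ) ^ 4 := by positivity
          nlinarith
    exact le_of_sq_le_sq h2 (by positivity)
  set M : ℕ := Lam * N with hM
  have hMr : (M : ℝ) = Lam * N := by rw [hM]; push_cast; ring
  have hfin : ∀ (R : OE H → OE H → Prop) [DecidableRel R] (B : ℝ),
      (M : ℝ) ^ 2 * (#{p : OE H × OE H | R p.1 p.2} : ℝ) ≤ B / 4 * (m : ℝ) ^ 2 →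
      ((∑ ω : Fin M → OE H, npairs R ω : ℕ) : ℝ) ≤ B / 4 * (Fintype.card (OE H) : ℝ) ^ M := by
    intro R _ B h
    have h1 : ((∑ ω : Fin M → OE H, npairs R ω : ℕ) : ℝ) * (m : ℝ) ^ 2 ≤
        (M : ℝ) ^ 2 * (#{p : OE H × OE H | R p.1 p.2} : ℝ) * (m : ℝ) ^ M := by
      exact_mod_cast sum_npairs R
    have h2 : ((∑ ω : Fin M → OE H, npairs R ω : ℕ) : ℝ) * (m : ℝ) ^ 2 ≤
        (B / 4 * (m : ℝ) ^ M) * (m : ℝ) ^ 2 := by
      refine le_trans h1 ?_
      calc (M : ℝ) ^ 2 * (#{p : OE H × OE H | R p.1 p.2} : ℝ) * (m : ℝ) ^ M ≤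
          (B / 4 * (m : ℝ) ^ 2) * (m : ℝ) ^ M := mul_le_mul_of_nonneg_right h (by positivity)
        _ = _ := by ring
    exact le_of_mul_le_mul_right h2 (by positivity)
  have hB1 : (#{ω : Fin M → OE H | ∃ A B : Finset (Fin N), eps * N ≤ #A ∧ eps * N ≤ #B ∧
      (#{k : Fin M | (ω k).1.1 ∈ A ∧ (ω k).1.2 ∈ B} : ℝ) < 4 * N} : ℝ) ≤ (m : ℝ) ^ M / 4 := by
    set F : Finset (Finset (Fin N) × Finset (Fin N)) :=
      univ.filter fun p => eps * N ≤ #p.1 ∧ eps * N ≤ #p.2 with hF
    set bad : Finset (Fin N) × Finset (Fin N) → Finset (Fin M → OE H) := fun p =>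
      univ.filter fun ω => (#{k : Fin M | (ω k).1.1 ∈ p.1 ∧ (ω k).1.2 ∈ p.2} : ℝ) < 4 * N with hbad
    have hsub : (univ.filter fun ω : Fin M → OE H => ∃ A B : Finset (Fin N),
        eps * N ≤ #A ∧ eps * N ≤ #B ∧
        (#{k : Fin M | (ω k).1.1 ∈ A ∧ (ω k).1.2 ∈ B} : ℝ) < 4 * N) ⊆ F.biUnion bad := by
      intro ω hω
      obtain ⟨A, B, hA, hB, h⟩ := (mem_filter.mp hω).2
      exact mem_biUnion.mpr ⟨(A, B), mem_filter.mpr ⟨mem_univ _, hA, hB⟩,
        mem_filter.mpr ⟨mem_univ _, h⟩⟩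
    have hone : ∀ p ∈ F, (#(bad p) : ℝ) ≤ Real.exp (-(4 * N)) * (m : ℝ) ^ M := by
      intro p hp
      obtain ⟨hA, hB⟩ := (mem_filter.mp hp).2
      have hS : q0 * (Fintype.card (OE H) : ℝ) ≤
          #(univ.filter fun e : OE H => e.1.1 ∈ p.1 ∧ e.1.2 ∈ p.2) := by
        rw [card_AB H p.1 p.2]
        refine le_trans ?_ (hquasi p.1 p.2 hA hB)
        have h1 : (eps * N) * (eps * N) ≤ (#p.1 : ℝ) * #p.2 :=
          mul_le_mul hA hB (by positivity) (by positivity)
        have h2 : q0 * (m : ℝ) ≤ q0 * (3 * rho * N ^ 2) := mul_le_mul_of_nonneg_left hm2 hq0p.le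
        have h3 : k0 * rho * ((eps * N) * (eps * N)) ≤ k0 * rho * ((#p.1 : ℝ) * #p.2) :=
          mul_le_mul_of_nonneg_left h1 (by positivity)
        calc q0 * (Fintype.card (OE H) : ℝ) ≤ q0 * (3 * rho * N ^ 2) := h2
          _ = k0 * rho * ((eps * N) * (eps * N)) := by rw [hq0]; ring
          _ ≤ k0 * rho * ((#p.1 : ℝ) * #p.2) := h3
          _ = _ := by ring
      have hch := chern (M := M) (univ.filter fun e : OE H => e.1.1 ∈ p.1 ∧ e.1.2 ∈ p.2) q0
        (4 * N) hS
      simp only [mem_filter, mem_univ, true_and] at hch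
      refine le_trans hch ?_
      refine mul_le_mul_of_nonneg_right ?_ (by positivity)
      refine Real.exp_le_exp.mpr ?_
      have hMr : (M : ℝ) = Lam * N := by rw [hM]; push_cast; ring
      rw [hMr]
      nlinarith [mul_le_mul_of_nonneg_right hLam1 hNpos.le]
    have hF4 : (#F : ℝ) ≤ Real.exp (2 * N) := by
      have h1 : #F ≤ 2 ^ N * 2 ^ N := by
        refine le_trans (card_le_univ _) ?_
        rw [Fintype.card_prod, Fintype.card_finset, Fintype.card_fin]
      have h2 : (#F : ℝ) ≤ (2 : ℝ) ^ N * 2 ^ N := by exact_mod_cast h1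
      have h3 : (2 : ℝ) ≤ Real.exp 1 := by
        have := Real.add_one_le_exp (1 : ℝ); linarith
      have h4 : (2 : ℝ) ^ N ≤ Real.exp N := by
        have := pow_le_pow_left₀ (by norm_num) h3 N
        rwa [← Real.exp_nat_mul, mul_one] at this
      calc (#F : ℝ) ≤ (2 : ℝ) ^ N * 2 ^ N := h2
        _ ≤ Real.exp N * Real.exp N := mul_le_mul h4 h4 (by positivity) (Real.exp_pos _).le
        _ = Real.exp (2 * N) := by rw [← Real.exp_add]; congr 1; ring
    have h1 : (#(univ.filter fun ω : Fin M → OE H => ∃ A B : Finset (Fin N),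
        eps * N ≤ #A ∧ eps * N ≤ #B ∧
        (#{k : Fin M | (ω k).1.1 ∈ A ∧ (ω k).1.2 ∈ B} : ℝ) < 4 * N) : ℝ) ≤
        ∑ p ∈ F, (#(bad p) : ℝ) := by
      exact_mod_cast (card_le_card hsub).trans card_biUnion_le
    refine le_trans h1 ?_
    calc ∑ p ∈ F, (#(bad p) : ℝ) ≤ ∑ p ∈ F, Real.exp (-(4 * N)) * (m : ℝ) ^ M := sum_le_sum hone
      _ = #F * (Real.exp (-(4 * N)) * (m : ℝ) ^ M) := by rw [sum_const, nsmul_eq_mul]
      _ ≤ Real.exp (2 * N) * (Real.exp (-(4 * N)) * (m : ℝ) ^ M) :=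
        mul_le_mul_of_nonneg_right hF4 (by positivity)
      _ = Real.exp (-(2 * N)) * (m : ℝ) ^ M := by
        rw [← mul_assoc, ← Real.exp_add]; congr 2; ring
      _ ≤ (1 / 4) * (m : ℝ) ^ M := by
        refine mul_le_mul_of_nonneg_right ?_ (by positivity)
        rw [Real.exp_neg, one_div]
        apply inv_anti₀ (by norm_num)
        have h3 : (2 : ℝ) ≤ Real.exp 1 := by
          have := Real.add_one_le_exp (1 : ℝ); linarith
        have h4 : (4 : ℝ) ≤ Real.exp 2 := by
          have : Real.exp 2 = Real.exp 1 * Real.exp 1 := by rw [← Real.exp_add]; norm_num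
          rw [this]; nlinarith
        refine le_trans h4 (Real.exp_le_exp.mpr ?_)
        linarith
      _ = _ := by ring
  have hB2 : (#{ω : Fin M → OE H | (2 * N : ℝ) <
      (npairs (fun e f : OE H => Wv H e.1 f.1) ω : ℝ)} : ℝ) ≤ (m : ℝ) ^ M / 4 := by
    refine markov _ (2 * N) (by positivity) ?_
    refine hfin _ _ ?_
    have h1 : (#{p : OE H × OE H | Wv H p.1.1 p.2.1} : ℝ) ≤ 4 * #(trs H) + 2 * m := by
      exact_mod_cast card_wv H
    have h2 : (4 * #(trs H) + 2 * m : ℝ) ≤ 32 * rho ^ 3 * N ^ 3 + 2 * m := by linarith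
    have h3 : (M : ℝ) ^ 2 * (#{p : OE H × OE H | Wv H p.1.1 p.2.1} : ℝ) ≤
        (Lam * N) ^ 2 * (32 * rho ^ 3 * N ^ 3 + 2 * m) := by
      rw [hMr]
      exact mul_le_mul_of_nonneg_left (h1.trans h2) (by positivity)
    refine le_trans h3 ?_
    have h4 : (Lam * N : ℝ) ^ 2 * (32 * rho ^ 3 * N ^ 3) ≤ N / 4 * (m : ℝ) ^ 2 := by
      have e1 : 128 * (Lam : ℝ) ^ 2 * rho ≤ k0 ^ 2 := by
        rw [le_div_iff₀ (by positivity)] at hr0
        linarith
      have e2 : 0 ≤ rho ^ 2 * (N : ℝ) ^ 5 := by positivity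
      calc (Lam * N : ℝ) ^ 2 * (32 * rho ^ 3 * N ^ 3) =
          (128 * (Lam : ℝ) ^ 2 * rho) * (rho ^ 2 * (N : ℝ) ^ 5) / 4 := by ring
        _ ≤ k0 ^ 2 * (rho ^ 2 * (N : ℝ) ^ 5) / 4 := by
          have := mul_le_mul_of_nonneg_right e1 e2
          linarith
        _ = N / 4 * (k0 * rho * N ^ 2) ^ 2 := by ring
        _ ≤ N / 4 * (m : ℝ) ^ 2 :=
          mul_le_mul_of_nonneg_left (pow_le_pow_left₀ (by positivity) hm1 2) (by positivity)
    have h5 : (Lam * N : ℝ) ^ 2 * (2 * m) ≤ N / 4 * (m : ℝ) ^ 2 := by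
      have e1 : 8 * (Lam : ℝ) ^ 2 * N ≤ m := by
        rw [div_le_iff₀ (by positivity)] at hN2
        calc 8 * (Lam : ℝ) ^ 2 * N ≤ (N * (k0 * rho)) * N :=
              mul_le_mul_of_nonneg_right hN2 hNpos.le
          _ = k0 * rho * N ^ 2 := by ring
          _ ≤ m := hm1
      have e2 : 0 ≤ (N : ℝ) * m := by positivity
      have e3 := mul_le_mul_of_nonneg_right e1 e2
      have e4 : (Lam * N : ℝ) ^ 2 * (2 * m) = (8 * (Lam : ℝ) ^ 2 * N) * (N * m) / 4 := by ring
      have e5 : (N : ℝ) / 4 * (m : ℝ) ^ 2 = (m : ℝ) * (N * m) / 4 := by ring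
      rw [e4, e5]
      linarith
    calc (Lam * N : ℝ) ^ 2 * (32 * rho ^ 3 * N ^ 3 + 2 * m) =
        (Lam * N : ℝ) ^ 2 * (32 * rho ^ 3 * N ^ 3) + (Lam * N : ℝ) ^ 2 * (2 * m) := by ring
      _ ≤ N / 4 * (m : ℝ) ^ 2 + N / 4 * (m : ℝ) ^ 2 := add_le_add h4 h5
      _ = _ := by ring
  have hB3 : (#{ω : Fin M → OE H | (D * N : ℝ) <
      (npairs (fun e f : OE H => Sh e.1 f.1) ω : ℝ)} : ℝ) ≤ (m : ℝ) ^ M / 4 := by
    have hDr : (0 : ℝ) < D := by exact_mod_cast hDp
    refine markov _ (D * N) (by positivity) ?_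
    refine hfin _ _ ?_
    have h1 : (#{p : OE H × OE H | Sh p.1.1 p.2.1} : ℝ) ≤ 4 * #(chs H) := by
      exact_mod_cast card_sh H
    have h2 : (4 * #(chs H) : ℝ) ≤ 32 * rho ^ 2 * N ^ 3 := by linarith
    have h3 : (M : ℝ) ^ 2 * (#{p : OE H × OE H | Sh p.1.1 p.2.1} : ℝ) ≤
        (Lam * N) ^ 2 * (32 * rho ^ 2 * N ^ 3) := by
      rw [hMr]
      exact mul_le_mul_of_nonneg_left (h1.trans h2) (by positivity)
    refine le_trans h3 ?_
    have e1 : 128 * (Lam : ℝ) ^ 2 ≤ D * k0 ^ 2 := by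
      rwa [div_le_iff₀ (by positivity)] at hD1
    have e2 : 0 ≤ rho ^ 2 * (N : ℝ) ^ 5 := by positivity
    calc (Lam * N : ℝ) ^ 2 * (32 * rho ^ 2 * N ^ 3) =
        (128 * (Lam : ℝ) ^ 2) * (rho ^ 2 * (N : ℝ) ^ 5) / 4 := by ring
      _ ≤ (D * k0 ^ 2) * (rho ^ 2 * (N : ℝ) ^ 5) / 4 := by
        have := mul_le_mul_of_nonneg_right e1 e2
        linarith
      _ = D * N / 4 * (k0 * rho * N ^ 2) ^ 2 := by ring
      _ ≤ D * N / 4 * (m : ℝ) ^ 2 :=
        mul_le_mul_of_nonneg_left (pow_le_pow_left₀ (by positivity) hm1 2) (by positivity)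
  obtain ⟨ω, h1, h2, h3⟩ : ∃ ω : Fin M → OE H,
      (∀ A B : Finset (Fin N), eps * N ≤ #A → eps * N ≤ #B →
        (4 * N : ℝ) ≤ (#{k : Fin M | (ω k).1.1 ∈ A ∧ (ω k).1.2 ∈ B} : ℝ)) ∧
      npairs (fun e f : OE H => Wv H e.1 f.1) ω ≤ 2 * N ∧
      npairs (fun e f : OE H => Sh e.1 f.1) ω ≤ D * N := by
    by_contra hcon
    push Not at hcon
    have hsub : (univ : Finset (Fin M → OE H)) ⊆
        (univ.filter fun ω : Fin M → OE H => ∃ A B : Finset (Fin N), eps * N ≤ #A ∧ eps * N ≤ #B ∧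
          (#{k : Fin M | (ω k).1.1 ∈ A ∧ (ω k).1.2 ∈ B} : ℝ) < 4 * N) ∪
        ((univ.filter fun ω : Fin M → OE H => (2 * N : ℝ) <
          (npairs (fun e f : OE H => Wv H e.1 f.1) ω : ℝ)) ∪
        (univ.filter fun ω : Fin M → OE H => (D * N : ℝ) <
          (npairs (fun e f : OE H => Sh e.1 f.1) ω : ℝ))) := by
      intro ω _
      by_cases h1 : ∃ A B : Finset (Fin N), eps * N ≤ #A ∧ eps * N ≤ #B ∧
          (#{k : Fin M | (ω k).1.1 ∈ A ∧ (ω k).1.2 ∈ B} : ℝ) < 4 * N
      · exact mem_union_left _ (mem_filter.mpr ⟨mem_univ _, h1⟩)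
      · refine mem_union_right _ ?_
        by_cases h2 : (2 * N : ℝ) < (npairs (fun e f : OE H => Wv H e.1 f.1) ω : ℝ)
        · exact mem_union_left _ (mem_filter.mpr ⟨mem_univ _, h2⟩)
        · refine mem_union_right _ (mem_filter.mpr ⟨mem_univ _, ?_⟩)
          push Not at h1
          have h2' : npairs (fun e f : OE H => Wv H e.1 f.1) ω ≤ 2 * N := by
            have := not_lt.mp h2
            exact_mod_cast this
          have := hcon ω h1 h2'
          exact_mod_cast this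
    have hcard := card_le_card hsub
    have hu1 := card_union_le
      (univ.filter fun ω : Fin M → OE H => ∃ A B : Finset (Fin N), eps * N ≤ #A ∧ eps * N ≤ #B ∧
          (#{k : Fin M | (ω k).1.1 ∈ A ∧ (ω k).1.2 ∈ B} : ℝ) < 4 * N)
      ((univ.filter fun ω : Fin M → OE H => (2 * N : ℝ) <
          (npairs (fun e f : OE H => Wv H e.1 f.1) ω : ℝ)) ∪
        (univ.filter fun ω : Fin M → OE H => (D * N : ℝ) <
          (npairs (fun e f : OE H => Sh e.1 f.1) ω : ℝ)))
    have hu2 := card_union_le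
      (univ.filter fun ω : Fin M → OE H => (2 * N : ℝ) <
          (npairs (fun e f : OE H => Wv H e.1 f.1) ω : ℝ))
      (univ.filter fun ω : Fin M → OE H => (D * N : ℝ) <
          (npairs (fun e f : OE H => Sh e.1 f.1) ω : ℝ))
    have hcu : #(univ : Finset (Fin M → OE H)) = m ^ M := by
      rw [card_univ, Fintype.card_fun, Fintype.card_fin]
    rw [hcu] at hcard
    have h50 := hcard.trans (hu1.trans (Nat.add_le_add_left hu2 _))
    have h51 := (Nat.cast_le (α := ℝ)).mpr h50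
    rw [Nat.cast_add, Nat.cast_add] at h51
    have h5 : ((m ^ M : ℕ) : ℝ) ≤ (m : ℝ) ^ M / 4 + ((m : ℝ) ^ M / 4 + (m : ℝ) ^ M / 4) :=
      le_trans h51 (add_le_add hB1 (add_le_add hB2 hB3))
    push_cast at h5
    have : (0 : ℝ) < (m : ℝ) ^ M := by positivity
    linarith
  obtain ⟨G, inst, hG1, hG2, hG3, hG4⟩ := of_seq H D hDp ω h2 h3
  refine ⟨G, inst, hG1, hG2, hG3, fun A B hA hB => ?_⟩
  have h5 := h1 A B hA hB
  have h6 : (#{k : Fin M | (ω k).1.1 ∈ A ∧ (ω k).1.2 ∈ B} : ℝ) ≤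
      #{p ∈ A ×ˢ B | G.Adj p.1 p.2} + 3 * N := by exact_mod_cast hG4 A B
  linarith

end Crest.Agent.R042.Gam664
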