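import Mathlib
import Crest.Agent.R042.DigitSZ_853

/-!
# Greedy choice of points from a dense set (row 42 / S0059)

`p r j` (`r ∈ R` vectors, `j ∈ J` coordinates) polynomials in the variables `((h,v),i)`
(`v`-th coordinate of the `i`-th block of the `h`-th point).  If the vectors are linearly
independent at one point `y` of the big space (blocks unrelated: a product grid), then every
dense set `X ⊆ (V → K)` contains points `b 0, …, b (N-1)` such that the vectors are linearly
independent after the substitution `((h,v),i) ↦ (b h v)^(Q^i)`.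
-/

set_option autoImplicit false

namespace Crest.Agent.R042.GreedySZ576
open MvPolynomial Finset

/-! ### weighted degree bound -/

section Bd
variable {K : Type*} [Field K] {σ : Type*}

/-- every monomial of `p` has `w`-weight at most `D`. -/
def Bd [Fintype σ] (w : σ → ℕ) (D : ℕ) (p : MvPolynomial σ K) : Prop :=
  ∀ m ∈ p.support, ∑ s, w s * m s ≤ D

variable [Fintype σ]

lemma Bd.mono {w : σ → ℕ} {D D' : ℕ} {p : MvPolynomial σ K} (h : Bd w D p) (hD : D ≤ D') :
    Bd w D' p := fun m hm => (h m hm).trans hD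

lemma Bd_C (w : σ → ℕ) (D : ℕ) (a : K) : Bd w D (C a : MvPolynomial σ K) := by
  classical
  intro m hm
  have : m = 0 := by
    by_contra h
    rw [mem_support_iff, coeff_C, if_neg (Ne.symm h)] at hm
    exact hm rfl
  subst this
  simp

lemma Bd_zero (w : σ → ℕ) (D : ℕ) : Bd w D (0 : MvPolynomial σ K) := by
  intro m hm; simp at hm

lemma Bd_one (w : σ → ℕ) (D : ℕ) : Bd w D (1 : MvPolynomial σ K) := by
  rw [← C_1]; exact Bd_C w D 1

lemma Bd_X [DecidableEq σ] (w : σ → ℕ) (s : σ) : Bd w (w s) (X s : MvPolynomial σ K) := by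
  classical
  intro m hm
  have : m = Finsupp.single s 1 := by
    by_contra h
    rw [mem_support_iff, MvPolynomial.coeff_X, if_neg (Ne.symm h)] at hm
    exact hm rfl
  subst this
  rw [Finset.sum_eq_single s]
  · simp
  · intro t _ hts
    rw [Finsupp.single_eq_of_ne hts]; simp
  · intro h; exact absurd (Finset.mem_univ s) h

lemma Bd_add {w : σ → ℕ} {D : ℕ} {p q : MvPolynomial σ K} (hp : Bd w D p) (hq : Bd w D q) :
    Bd w D (p + q) := by
  classical
  intro m hm
  rcases Finset.mem_union.1 (support_add hm) with h | h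
  · exact hp m h
  · exact hq m h

lemma Bd_sum {ι : Type*} {w : σ → ℕ} {D : ℕ} (s : Finset ι) (f : ι → MvPolynomial σ K)
    (h : ∀ i ∈ s, Bd w D (f i)) : Bd w D (∑ i ∈ s, f i) := by
  classical
  induction s using Finset.induction_on with
  | empty => simpa using Bd_zero w D
  | insert a s ha ih =>
    rw [Finset.sum_insert ha]
    exact Bd_add (h a (Finset.mem_insert_self _ _))
      (ih fun i hi => h i (Finset.mem_insert_of_mem hi))

lemma Bd_mul {w : σ → ℕ} {D E : ℕ} {p q : MvPolynomial σ K} (hp : Bd w D p) (hq : Bd w E q) :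
    Bd w (D + E) (p * q) := by
  classical
  intro m hm
  have h := support_mul p q hm
  rw [Finset.mem_add] at h
  obtain ⟨a, ha, b, hb, rfl⟩ := h
  have : ∑ s, w s * (a + b) s = ∑ s, w s * a s + ∑ s, w s * b s := by
    rw [← Finset.sum_add_distrib]
    refine Finset.sum_congr rfl fun s _ => ?_
    rw [Finsupp.add_apply]; ring
  rw [this]
  exact add_le_add (hp a ha) (hq b hb)

lemma Bd_prod {ι : Type*} {w : σ → ℕ} (s : Finset ι) (D : ι → ℕ) (f : ι → MvPolynomial σ K)
    (h : ∀ i ∈ s, Bd w (D i) (f i)) : Bd w (∑ i ∈ s, D i) (∏ i ∈ s, f i) := by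
  classical
  induction s using Finset.induction_on with
  | empty => simpa using Bd_one w 0
  | insert a s ha ih =>
    rw [Finset.prod_insert ha, Finset.sum_insert ha]
    exact Bd_mul (h a (Finset.mem_insert_self _ _))
      (ih fun i hi => h i (Finset.mem_insert_of_mem hi))

lemma Bd_pow {w : σ → ℕ} {D : ℕ} {p : MvPolynomial σ K} (hp : Bd w D p) (n : ℕ) :
    Bd w (n * D) (p ^ n) := by
  induction n with
  | zero => simpa using Bd_one w 0
  | succ n ih =>
    rw [pow_succ]
    refine (Bd_mul ih hp).mono ?_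
    rw [Nat.succ_mul]

lemma Bd_det {R : Type*} [Fintype R] [DecidableEq R] {w : σ → ℕ} (d : R → ℕ)
    (M : Matrix R R (MvPolynomial σ K)) (h : ∀ r s, Bd w (d r) (M r s)) :
    Bd w (∑ r, d r) M.det := by
  classical
  rw [Matrix.det_apply]
  refine Bd_sum _ _ fun τ _ => ?_
  have h1 : Bd w (∑ r, d (τ r)) (∏ r, M (τ r) r) :=
    Bd_prod _ (fun r => d (τ r)) _ fun r _ => h _ _
  rw [Equiv.sum_comp τ d] at h1
  rcases Int.units_eq_one_or (Equiv.Perm.sign τ) with h2 | h2
  · rw [h2, one_smul]; exact h1
  · rw [h2]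
    have : (-1 : ℤˣ) • (∏ r, M (τ r) r) = C (-1 : K) * ∏ r, M (τ r) r := by
      rw [C_neg, C_1, Units.smul_def]; simp
    rw [this]
    have := Bd_mul (Bd_C w 0 (-1 : K)) h1
    rwa [Nat.zero_add] at this

end Bd

/-! ### one point at a time -/

section Step
variable {K : Type*} [Field K] {P V : Type*} [Fintype P] [DecidableEq P] [Fintype V]
  [DecidableEq V] {k : ℕ}

/-- freeze all points but `t`. -/
noncomputable def freeze (t : P) (y : (P × V) × Fin k → K) (g : MvPolynomial ((P × V) × Fin k) K) :
    MvPolynomial (V × Fin k) K :=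
  aeval (R := K) (fun x : (P × V) × Fin k =>
    if x.1.1 = t then (X (x.1.2, x.2) : MvPolynomial (V × Fin k) K) else C (y x)) g

omit [Fintype P] [Fintype V] [DecidableEq V] in
lemma eval_freeze (t : P) (y : (P × V) × Fin k → K) (g : MvPolynomial ((P × V) × Fin k) K)
    (z : V × Fin k → K) :
    eval z (freeze t y g) =
      eval (fun x : (P × V) × Fin k => if x.1.1 = t then z (x.1.2, x.2) else y x) g := by
  unfold freeze
  have : (MvPolynomial.eval z).comp (aeval (R := K) (fun x : (P × V) × Fin k =>
      if x.1.1 = t then (X (x.1.2, x.2) : MvPolynomial (V × Fin k) K) else C (y x))).toRingHom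
      = MvPolynomial.eval (fun x : (P × V) × Fin k =>
        if x.1.1 = t then z (x.1.2, x.2) else y x) := by
    apply MvPolynomial.ringHom_ext
    · intro a; simp
    · intro x
      simp only [AlgHom.toRingHom_eq_coe, RingHom.coe_comp, RingHom.coe_coe, Function.comp_apply,
        aeval_X, eval_X]
      split_ifs <;> simp
  exact RingHom.congr_fun this g

/-- the block degree of point `t`, block `i`. -/
def wt (t : P) (i : Fin k) : (P × V) × Fin k → ℕ := fun x => if x.1.1 = t ∧ x.2 = i then 1 else 0

omit [DecidableEq V] in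
lemma sum_wt (t : P) (i : Fin k) (m : (P × V) × Fin k → ℕ) :
    ∑ x, wt (V := V) t i x * m x = ∑ v, m ((t, v), i) := by
  classical
  rw [Fintype.sum_prod_type, Fintype.sum_prod_type]
  rw [Finset.sum_eq_single t]
  · refine Finset.sum_congr rfl fun v _ => ?_
    rw [Finset.sum_eq_single i]
    · simp [wt]
    · intro b _ hb; simp [wt, hb]
    · intro h; exact absurd (Finset.mem_univ _) h
  · intro b _ hb
    refine Finset.sum_eq_zero fun v _ => Finset.sum_eq_zero fun c _ => ?_
    simp [wt, hb]
  · intro h; exact absurd (Finset.mem_univ _) h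

/-- block degree on `V × Fin k`. -/
def wt1 (i : Fin k) : V × Fin k → ℕ := fun x => if x.2 = i then 1 else 0

omit [DecidableEq V] in
lemma sum_wt1 (i : Fin k) (m : V × Fin k → ℕ) :
    ∑ x, wt1 (V := V) i x * m x = ∑ v, m (v, i) := by
  classical
  rw [Fintype.sum_prod_type]
  refine Finset.sum_congr rfl fun v _ => ?_
  rw [Finset.sum_eq_single i]
  · simp [wt1]
  · intro b _ hb; simp [wt1, hb]
  · intro h; exact absurd (Finset.mem_univ _) h

lemma Bd_freeze (t : P) (i : Fin k) (y : (P × V) × Fin k → K)
    (g : MvPolynomial ((P × V) × Fin k) K) {D : ℕ} (hg : Bd (wt t i) D g) :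
    Bd (wt1 i) D (freeze t y g) := by
  classical
  have h1 : freeze t y g = ∑ m ∈ g.support, freeze t y (monomial m (coeff m g)) := by
    conv_lhs => rw [g.as_sum]
    unfold freeze
    rw [map_sum]
  rw [h1]
  refine Bd_sum _ _ fun m hm => ?_
  have h2 : freeze t y (monomial m (coeff m g)) = C (coeff m g) *
      ∏ x, (if x.1.1 = t then (X (x.1.2, x.2) : MvPolynomial (V × Fin k) K) else C (y x)) ^ m x := by
    unfold freeze
    rw [aeval_monomial, Finsupp.prod_fintype _ _ (by simp)]
    rfl
  rw [h2]
  have h3 : Bd (wt1 i) (∑ x, m x * wt t i x)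
      (∏ x, (if x.1.1 = t then (X (x.1.2, x.2) : MvPolynomial (V × Fin k) K) else C (y x)) ^ m x) := by
    refine Bd_prod _ _ _ fun x _ => Bd_pow ?_ _
    split_ifs with hx
    · refine (Bd_X (K := K) (wt1 i) (x.1.2, x.2)).mono ?_
      simp only [wt1, wt, hx, true_and]
      exact le_rfl
    · exact Bd_C _ _ _
  have h4 : ∑ x, m x * wt (V := V) t i x ≤ D := by
    refine le_trans (le_of_eq ?_) (hg m hm)
    exact Finset.sum_congr rfl fun x _ => mul_comm _ _
  have h5 := Bd_mul (Bd_C (wt1 (V := V) i) 0 (coeff m g)) h3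
  rw [Nat.zero_add] at h5
  exact h5.mono h4

/-- **one polynomial**: nonzero at one point of the big space ⇒ nonzero at twisted points of
every dense set. -/
theorem greedy_poly [Fintype K] [DecidableEq K] {Q D : ℕ} (hDQ : D < Q)
    (hK : Fintype.card K = Q ^ k) (g : MvPolynomial ((P × V) × Fin k) K)
    (hg : ∀ t i, Bd (wt t i) D g) (y : (P × V) × Fin k → K) (hy : eval y g ≠ 0)
    (X : P → Finset (V → K))
    (hX : ∀ t, D * Fintype.card K ^ Fintype.card V < (X t).card * (Q - 1)) :
    ∃ b : P → V → K, (∀ t, b t ∈ X t) ∧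
      eval (fun x : (P × V) × Fin k => b x.1.1 x.1.2 ^ (Q ^ (x.2 : ℕ))) g ≠ 0 := by
  classical
  -- hybrid argument over a growing set of points
  have key : ∀ S : Finset P, ∃ b : P → V → K, (∀ t ∈ S, b t ∈ X t) ∧
      eval (fun x : (P × V) × Fin k =>
        if x.1.1 ∈ S then b x.1.1 x.1.2 ^ (Q ^ (x.2 : ℕ)) else y x) g ≠ 0 := by
    intro S
    induction S using Finset.induction_on with
    | empty => exact ⟨fun _ _ => 0, by simp, by simpa using hy⟩
    | insert t S ht ih =>
      obtain ⟨b, hb, hne⟩ := ih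
      set y' : (P × V) × Fin k → K := fun x =>
        if x.1.1 ∈ S then b x.1.1 x.1.2 ^ (Q ^ (x.2 : ℕ)) else y x with hy'
      have hG : freeze t y' g ≠ 0 := by
        intro h0
        apply hne
        have h1 := eval_freeze t y' g (fun p => y' ((t, p.1), p.2))
        rw [h0, map_zero] at h1
        rw [h1]
        congr 1
        refine congrArg _ ?_
        funext x
        by_cases hx : x.1.1 = t
        · rw [if_pos hx, ← hx]
        · rw [if_neg hx]
      have hdeg : ∀ m ∈ (freeze t y' g).support, ∀ i, ∑ v, m (v, i) ≤ D := by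
        intro m hm i
        have := Bd_freeze t i y' g (hg t i) m hm
        rwa [sum_wt1] at this
      have hsz := DigitSZ_853.digit_sz (V := V) hDQ hK (freeze t y' g) hG hdeg
      -- a point of `X t` outside the zero set
      obtain ⟨c, hc, hcne⟩ : ∃ c ∈ X t,
          eval (fun p : V × Fin k => c p.1 ^ (Q ^ (p.2 : ℕ))) (freeze t y' g) ≠ 0 := by
        by_contra hcon
        push Not at hcon
        have hsub : X t ⊆ Finset.univ.filter fun x : V → K =>
            eval (fun p : V × Fin k => x p.1 ^ (Q ^ (p.2 : ℕ))) (freeze t y' g) = 0 := by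
          intro c hc
          exact Finset.mem_filter.2 ⟨Finset.mem_univ _, hcon c hc⟩
        have := (Nat.mul_le_mul_right (Q - 1) (Finset.card_le_card hsub)).trans hsz
        exact absurd this (not_le.2 (hX t))
      refine ⟨Function.update b t c, ?_, ?_⟩
      · intro s hs
        rcases Finset.mem_insert.1 hs with rfl | hs'
        · rw [Function.update_self]; exact hc
        · have hst : s ≠ t := fun h => ht (h ▸ hs')
          rw [Function.update_of_ne hst]; exact hb s hs'
      · rw [eval_freeze] at hcne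
        convert hcne using 3
        funext x
        by_cases hx : x.1.1 = t
        · simp [hx]
        · rw [if_neg hx, Function.update_of_ne hx, hy']
          simp [Finset.mem_insert, hx]
  obtain ⟨b, hb, hne⟩ := key Finset.univ
  exact ⟨b, fun t => hb t (Finset.mem_univ _), by simpa using hne⟩

/-- **one nonzero polynomial** (no point needed): nonzero at twisted points of every dense set. -/
theorem greedy_ne_zero [Fintype K] [DecidableEq K] {Q D : ℕ} (hDQ : D < Q)
    (hK : Fintype.card K = Q ^ k) (g : MvPolynomial ((P × V) × Fin k) K)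
    (hg : ∀ t i, Bd (wt t i) D g) (hne : g ≠ 0)
    (X : P → Finset (V → K))
    (hX : ∀ t, D * Fintype.card K ^ Fintype.card V < (X t).card * (Q - 1)) :
    ∃ b : P → V → K, (∀ t, b t ∈ X t) ∧
      eval (fun x : (P × V) × Fin k => b x.1.1 x.1.2 ^ (Q ^ (x.2 : ℕ))) g ≠ 0 := by
  classical
  obtain ⟨y, hy⟩ : ∃ y, eval y g ≠ 0 := by
    by_contra hcon
    push Not at hcon
    refine hne (MvPolynomial.eq_zero_of_eval_zero_at_prod_finset g (fun _ => Finset.univ)
      (fun x => ?_) (fun x _ => hcon x))
    have hk : k ≠ 0 := by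
      rintro rfl
      exact x.2.elim0
    have h3 : Q ≤ Fintype.card K := by
      rw [hK]
      exact Nat.le_self_pow hk Q
    have h4 : g.degreeOf x ≤ D := by
      rw [degreeOf_le_iff]
      intro m hm
      have h2 := hg x.1.1 x.2 m hm
      rw [sum_wt] at h2
      refine le_trans ?_ h2
      exact Finset.single_le_sum (f := fun v => m ((x.1.1, v), x.2)) (fun _ _ => Nat.zero_le _)
        (Finset.mem_univ x.1.2)
    rw [Finset.card_univ]
    omega
  exact greedy_poly hDQ hK g hg y hy X hX

end Step

/-! ### linear independence -/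

section LI
variable {K : Type*} [Field K] {R J : Type*} [Fintype R] [DecidableEq R] [Fintype J]
  [DecidableEq J]

omit [DecidableEq J] in
lemma exists_right_inv (A : Matrix R J K) (h : LinearIndependent K A.row) :
    ∃ B : Matrix J R K, A * B = 1 := by
  classical
  have hinj : Function.Injective A.vecMul := by
    rw [Matrix.vecMul_injective_iff]; exact h
  have hker : LinearMap.ker (Matrix.vecMulLinear A) = ⊥ := by
    rw [LinearMap.ker_eq_bot]
    exact hinj
  obtain ⟨g, hg⟩ := LinearMap.exists_leftInverse_of_injective (Matrix.vecMulLinear A) hker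
  refine ⟨Matrix.of fun j r => g (Pi.single j 1) r, ?_⟩
  ext r r'
  have h1 : g (A r) = Pi.single r 1 := by
    have h2 := LinearMap.congr_fun hg (Pi.single r (1 : K))
    simp only [LinearMap.comp_apply, LinearMap.id_apply, Matrix.vecMulLinear_apply,
      Matrix.single_one_vecMul] at h2
    exact h2
  have h3 : A r = ∑ j, A r j • (Pi.single j (1 : K) : J → K) := by
    funext j
    simp [Finset.sum_apply, Pi.single_apply]
  rw [Matrix.mul_apply]
  simp only [Matrix.of_apply]
  have h4 : ∑ j, A r j * g (Pi.single j 1) r' = g (A r) r' := by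
    conv_rhs => rw [h3, map_sum, Finset.sum_apply]
    refine Finset.sum_congr rfl fun j _ => ?_
    rw [map_smul]; rfl
  rw [h4, h1, Matrix.one_apply, Pi.single_apply]
  simp only [eq_comm]

omit [DecidableEq J] in
lemma li_of_mul (A : Matrix R J K) (B : Matrix J R K) (h : (A * B).det ≠ 0) :
    LinearIndependent K A.row := by
  classical
  rw [← Matrix.vecMul_injective_iff]
  have hu : IsUnit (A * B) := (Matrix.isUnit_iff_isUnit_det _).2 (isUnit_iff_ne_zero.2 h)
  intro u v huv
  have h1 : Matrix.vecMul u (A * B) = Matrix.vecMul v (A * B) := by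
    rw [← Matrix.vecMul_vecMul, ← Matrix.vecMul_vecMul]
    exact congrArg (fun w => Matrix.vecMul w B) huv
  exact Matrix.vecMul_injective_of_isUnit hu h1

end LI

/-! ### the greedy lemma -/

section Main
variable {K : Type*} [Field K] {P V : Type*} [Fintype P] [DecidableEq P] [Fintype V]
  [DecidableEq V] {k : ℕ} {R J : Type*} [Fintype R] [DecidableEq R] [Fintype J]

/-- **GREEDY**: vectors with polynomial coordinates, independent at one point `y` of the big
space, are independent at twisted points of every dense set. -/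
theorem greedy_sz [Fintype K] [DecidableEq K] {Q D : ℕ} (hDQ : D < Q)
    (hK : Fintype.card K = Q ^ k) (p : R → J → MvPolynomial ((P × V) × Fin k) K)
    (d : P → Fin k → R → ℕ) (hp : ∀ t i r j, Bd (wt t i) (d t i r) (p r j))
    (hd : ∀ t i, ∑ r, d t i r ≤ D) (y : (P × V) × Fin k → K)
    (hy : LinearIndependent K fun r => fun j => eval y (p r j))
    (X : P → Finset (V → K))
    (hX : ∀ t, D * Fintype.card K ^ Fintype.card V < (X t).card * (Q - 1)) :
    ∃ b : P → V → K, (∀ t, b t ∈ X t) ∧ LinearIndependent K fun r => fun j =>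
      eval (fun x : (P × V) × Fin k => b x.1.1 x.1.2 ^ (Q ^ (x.2 : ℕ))) (p r j) := by
  classical
  obtain ⟨B, hB⟩ := exists_right_inv (Matrix.of fun r j => eval y (p r j)) hy
  set M : Matrix R R (MvPolynomial ((P × V) × Fin k) K) :=
    Matrix.of fun r r' => ∑ j, C (B j r') * p r j with hM
  have hdet : ∀ z : (P × V) × Fin k → K,
      eval z M.det = ((Matrix.of fun r j => eval z (p r j)) * B).det := by
    intro z
    rw [RingHom.map_det]
    congr 1
    ext r r'
    rw [Matrix.mul_apply]
    simp only [RingHom.mapMatrix_apply, Matrix.map_apply, hM, Matrix.of_apply, map_sum, map_mul,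
      eval_C]
    exact Finset.sum_congr rfl fun j _ => mul_comm _ _
  have hy' : eval y M.det ≠ 0 := by
    rw [hdet, hB, Matrix.det_one]; exact one_ne_zero
  have hbd : ∀ t i, Bd (wt t i) D M.det := by
    intro t i
    refine (Bd_det (d t i) M ?_).mono (hd t i)
    intro r r'
    rw [hM, Matrix.of_apply]
    refine Bd_sum _ _ fun j _ => ?_
    have := Bd_mul (Bd_C (wt (V := V) t i) 0 (B j r')) (hp t i r j)
    rwa [Nat.zero_add] at this
  obtain ⟨b, hb, hne⟩ := greedy_poly hDQ hK M.det hbd y hy' X hX
  refine ⟨b, hb, ?_⟩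
  rw [hdet] at hne
  exact li_of_mul _ B hne

/-- **GREEDY in an affine chart**: `v0`-coordinate `= 1` on `X t`; the independence is assumed to be
invariant under rescaling the points (each vector is homogeneous in each point). -/
theorem greedy_chart [Fintype K] [DecidableEq K] {Q D : ℕ} (hDQ : D < Q)
    (hK : Fintype.card K = Q ^ k) (g : MvPolynomial ((P × V) × Fin k) K)
    (hg : ∀ t i, Bd (wt t i) D g) (hne : g ≠ 0) (v0 : V)
    (G : (P → V → K) → Prop)
    (hG : ∀ b, eval (fun x : (P × V) × Fin k => b x.1.1 x.1.2 ^ (Q ^ (x.2 : ℕ))) g ≠ 0 → G b)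
    (hinv : ∀ (b : P → V → K) (ν : P → K), (∀ t, ν t ≠ 0) → G (fun t => ν t • b t) → G b)
    (X : P → Finset (V → K)) (hX1 : ∀ t, ∀ c ∈ X t, c v0 = 1)
    (hX : ∀ t, D * Fintype.card K ^ Fintype.card V <
      (Fintype.card K - 1) * (X t).card * (Q - 1)) :
    ∃ b : P → V → K, (∀ t, b t ∈ X t) ∧ G b := by
  classical
  set Y : P → Finset (V → K) := fun t =>
    ((Finset.univ.filter fun ν : K => ν ≠ 0) ×ˢ X t).image fun z => z.1 • z.2 with hY
  have hcard : ∀ t, (Y t).card = (Fintype.card K - 1) * (X t).card := by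
    intro t
    rw [hY]
    simp only
    rw [Finset.card_image_of_injOn, Finset.card_product]
    · congr 1
      rw [Finset.filter_ne', Finset.card_erase_of_mem (Finset.mem_univ _), Finset.card_univ]
    · rintro ⟨ν, c⟩ hz ⟨ν', c'⟩ hz' h
      simp only [Finset.coe_product, Set.mem_prod, Finset.mem_coe, Finset.mem_filter,
        Finset.mem_univ, true_and] at hz hz'
      have h0 := congrFun h v0
      simp only [Pi.smul_apply, smul_eq_mul, hX1 t c hz.2, hX1 t c' hz'.2, mul_one] at h0
      subst h0
      have h1 : c = c' := by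
        have : ν⁻¹ • (ν • c) = ν⁻¹ • (ν • c') := congrArg _ h
        rwa [inv_smul_smul₀ hz.1, inv_smul_smul₀ hz.1] at this
      rw [h1]
  obtain ⟨b, hb, hbne⟩ := greedy_ne_zero hDQ hK g hg hne Y (fun t => by rw [hcard]; exact hX t)
  have hb' : ∀ t, ∃ ν : K, ∃ c : V → K, ν ≠ 0 ∧ c ∈ X t ∧ ν • c = b t := by
    intro t
    have := hb t
    rw [hY, Finset.mem_image] at this
    obtain ⟨⟨ν, c⟩, hz, hzb⟩ := this
    rw [Finset.mem_product, Finset.mem_filter] at hz
    exact ⟨ν, c, hz.1.2, hz.2, hzb⟩
  choose ν c hν hc hνc using hb'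
  refine ⟨c, hc, hinv c ν hν ?_⟩
  have : (fun t => ν t • c t) = b := funext hνc
  rw [this]
  exact hG b hbne

omit [DecidableEq V] in
/-- the same degree bound in the literal form of `DigitSZ_853`. -/
lemma Bd_wt_iff (t : P) (i : Fin k) (D : ℕ) (g : MvPolynomial ((P × V) × Fin k) K) :
    Bd (wt t i) D g ↔ ∀ m ∈ g.support, ∑ v, m ((t, v), i) ≤ D := by
  unfold Bd
  constructor
  · intro h m hm
    have := h m hm
    rwa [sum_wt] at this
  · intro h m hm
    rw [sum_wt]
    exact h m hm

end Main

end Crest.Agent.R042.GreedySZ576
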