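import Crest.Agent.R042.SymInst_695
import Crest.Agent.R042.KLsup_313

/-!
# Greedy maximal sequence (row 42, S0059, label level)

The relative entropy of the special rows at a pair `(Q, Q')` is at most `B` for **every** pair of
third types whose rows are independent modulo one subspace `Z` of small dimension.
-/

set_option autoImplicit false
set_option linter.unusedSectionVars false

namespace Crest.Agent.R042.Greedy695

open Module Crest.Agent.R042.RowWin543 Crest.Agent.R042.KLsup313

section Abstract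

variable {k U Y Ω : Type*} [Field k] [AddCommGroup U] [Module k U] [AddCommGroup Y] [Module k Y]

/-- superadditivity of a supermodular function along an independent family -/
theorem sum_le_of_indep (h : Submodule k Y → ℝ) (h0 : h ⊥ = 0)
    (hsup : ∀ S T, h S + h T ≤ h (S ⊔ T) + h (S ⊓ T)) (hmono : Monotone h)
    {ι : Type*} [Fintype ι] (W : ι → Submodule k Y) (hi : iSupIndep W) :
    ∑ j, h (W j) ≤ h ⊤ := by
  classical
  have key : ∀ s : Finset ι, ∑ j ∈ s, h (W j) ≤ h (⨆ i ∈ (s : Set ι), W i) := by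
    intro s
    induction s using Finset.induction_on with
    | empty => simp [h0]
    | insert a s ha ih =>
      rw [Finset.sum_insert ha]
      have hd : Disjoint (W a) (⨆ i ∈ (s : Set ι), W i) :=
        hi.disjoint_biSup (by simpa using ha)
      have h1 := hsup (W a) (⨆ i ∈ (s : Set ι), W i)
      rw [hd.eq_bot, h0, add_zero] at h1
      have h2 : (⨆ i ∈ ((insert a s : Finset ι) : Set ι), W i) =
          W a ⊔ (⨆ i ∈ (s : Set ι), W i) := by
        rw [Finset.coe_insert, iSup_insert]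
      rw [h2]
      linarith
  exact (key Finset.univ).trans (hmono le_top)

/-- the rows of a list of pairs modulo `Z0` -/
def rows (u : Ω → U) (Z0 : Submodule k U) {ι : Type} (a b : ι → Ω) : ι ⊕ ι → U ⧸ Z0 :=
  Sum.elim (fun i => Z0.mkQ (u (a i))) (fun i => Z0.mkQ (u (b i)))

theorem not_mem_span_of_not_mem (u : Ω → U) (Z0 : Submodule k U) {ι : Type} (a b : ι → Ω)
    (x : U) (hx : x ∉ Z0 ⊔ Submodule.span k (Set.range (u ∘ a) ∪ Set.range (u ∘ b))) :
    Z0.mkQ x ∉ Submodule.span k (Set.range (rows u Z0 a b)) := by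
  intro hmem
  apply hx
  have h1 : Set.range (rows u Z0 a b) = Z0.mkQ '' (Set.range (u ∘ a) ∪ Set.range (u ∘ b)) := by
    rw [rows, Set.Sum.elim_range, Set.image_union, ← Set.range_comp, ← Set.range_comp]
    rfl
  rw [h1, Submodule.span_image] at hmem
  obtain ⟨y, hy, hxy⟩ := Submodule.mem_map.1 hmem
  have h2 : x - y ∈ Z0 := by
    rw [← Submodule.Quotient.mk_eq_zero, ← Submodule.mkQ_apply, map_sub, hxy, sub_self]
  have h3 : x = (x - y) + y := by abel
  rw [h3]
  exact Submodule.add_mem_sup h2 hy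

/-- **greedy maximal sequence** -/
theorem greedy [FiniteDimensional k U] (u : Ω → U) (Z0 : Submodule k U)
    (W : Ω → Ω → Submodule k Y) (h : Submodule k Y → ℝ) (h0 : h ⊥ = 0)
    (hsup : ∀ S T, h S + h T ≤ h (S ⊔ T) + h (S ⊓ T)) (hmono : Monotone h)
    (hind : ∀ (ι : Type) [Fintype ι] (a b : ι → Ω),
      LinearIndependent k (rows u Z0 a b) → iSupIndep fun j => W (a j) (b j))
    (B : ℝ) (hB : 0 < B) :
    ∃ Z : Submodule k U, Z0 ≤ Z ∧ Z ≤ Z0 ⊔ Submodule.span k (Set.range u) ∧
      ((finrank k Z : ℝ) - finrank k Z0) * B ≤ 2 * h ⊤ ∧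
      ∀ Q Q', u Q ∉ Z → u Q' ∉ Z ⊔ Submodule.span k {u Q} → h (W Q Q') ≤ B := by
  classical
  let P : ℕ → Prop := fun m => ∃ (ι : Type) (_ : Fintype ι) (a b : ι → Ω),
    Fintype.card ι = m ∧ LinearIndependent k (rows u Z0 a b) ∧ ∀ j, B < h (W (a j) (b j))
  have hP0 : P 0 := by
    refine ⟨Empty, inferInstance, Empty.elim, Empty.elim, rfl, ?_, fun j => j.elim⟩
    exact linearIndependent_empty_type
  have hPb : ∀ m, P m → (m : ℝ) * B ≤ h ⊤ := by
    rintro m ⟨ι, hι, a, b, hc, hli, hbig⟩
    have h1 := sum_le_of_indep h h0 hsup hmono (fun j => W (a j) (b j)) (hind ι a b hli)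
    have h2 : ∑ _j : ι, B ≤ ∑ j : ι, h (W (a j) (b j)) :=
      Finset.sum_le_sum fun j _ => (hbig j).le
    rw [Finset.sum_const, Finset.card_univ, hc, nsmul_eq_mul] at h2
    exact h2.trans h1
  -- a maximal one
  obtain ⟨m, hm, hm1⟩ : ∃ m, P m ∧ ¬ P (m + 1) := by
    by_contra hcon
    push Not at hcon
    have hall : ∀ m, P m := fun m => Nat.rec hP0 (fun n ih => hcon n ih) m
    obtain ⟨n, hn⟩ := exists_nat_gt (h ⊤ / B)
    have h1 := hPb n (hall n)
    rw [div_lt_iff₀ hB] at hn
    linarith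
  have hmB := hPb m hm
  obtain ⟨ι, hι, a, b, hc, hli, hbig⟩ := hm
  refine ⟨Z0 ⊔ Submodule.span k (Set.range (u ∘ a) ∪ Set.range (u ∘ b)), le_sup_left, ?_, ?_, ?_⟩
  · refine sup_le_sup le_rfl (Submodule.span_mono ?_)
    rintro x (⟨i, rfl⟩ | ⟨i, rfl⟩)
    · exact ⟨a i, rfl⟩
    · exact ⟨b i, rfl⟩
  · have h1 : finrank k ↥(Z0 ⊔ Submodule.span k (Set.range (u ∘ a) ∪ Set.range (u ∘ b))) ≤
        finrank k Z0 + 2 * m := by
      refine (Submodule.finrank_add_le_finrank_add_finrank _ _).trans ?_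
      refine Nat.add_le_add_left ?_ _
      have h2 : Set.range (u ∘ a) ∪ Set.range (u ∘ b) =
          Set.range (Sum.elim (u ∘ a) (u ∘ b)) := (Set.Sum.elim_range _ _).symm
      rw [h2]
      refine (finrank_range_le_card (R := k) (b := Sum.elim (u ∘ a) (u ∘ b))).trans ?_
      rw [Fintype.card_sum, hc]; omega
    have h2 : (finrank k ↥(Z0 ⊔ Submodule.span k (Set.range (u ∘ a) ∪ Set.range (u ∘ b))) : ℝ) ≤
        finrank k Z0 + 2 * m := by exact_mod_cast h1
    have h3 : ((finrank k ↥(Z0 ⊔ Submodule.span k (Set.range (u ∘ a) ∪ Set.range (u ∘ b))) : ℝ) -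
        finrank k Z0) * B ≤ (2 * m) * B := by
      refine mul_le_mul_of_nonneg_right ?_ hB.le
      linarith
    linarith
  · intro Q Q' hQ hQ'
    by_contra hlt
    push Not at hlt
    apply hm1
    refine ⟨Option ι, inferInstance, fun o => o.elim Q a, fun o => o.elim Q' b, ?_, ?_, ?_⟩
    · rw [Fintype.card_option, hc]
    · -- linear independence
      have e1 := LinearIndependent.option hli
        (not_mem_span_of_not_mem u Z0 a b (u Q) hQ)
      have hx2 : Z0.mkQ (u Q') ∉ Submodule.span k (Set.range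
          (fun o => Option.casesOn' o (Z0.mkQ (u Q)) (rows u Z0 a b))) := by
        intro hmem
        apply hQ'
        have hr : Set.range (fun o => Option.casesOn' o (Z0.mkQ (u Q)) (rows u Z0 a b)) =
            insert (Z0.mkQ (u Q)) (Set.range (rows u Z0 a b)) := by
          ext y
          constructor
          · rintro ⟨o, rfl⟩
            cases o with
            | none => exact Or.inl rfl
            | some o => exact Or.inr ⟨o, rfl⟩
          · rintro (rfl | ⟨o, rfl⟩)
            · exact ⟨none, rfl⟩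
            · exact ⟨some o, rfl⟩
        rw [hr, Submodule.span_insert, Submodule.mem_sup] at hmem
        obtain ⟨y, hy, z, hz, hyz⟩ := hmem
        obtain ⟨c, rfl⟩ := Submodule.mem_span_singleton.1 hy
        have hz' : Z0.mkQ (u Q' - c • u Q) ∈ Submodule.span k (Set.range (rows u Z0 a b)) := by
          rw [map_sub, map_smul, ← hyz]
          simpa using hz
        have h5 : u Q' - c • u Q ∈
            Z0 ⊔ Submodule.span k (Set.range (u ∘ a) ∪ Set.range (u ∘ b)) := by
          by_contra hcon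
          exact not_mem_span_of_not_mem u Z0 a b _ hcon hz'
        have h6 : u Q' = (u Q' - c • u Q) + c • u Q := by abel
        rw [h6]
        exact Submodule.add_mem_sup h5 (Submodule.smul_mem _ _ (Submodule.mem_span_singleton_self _))
      have e2 := LinearIndependent.option e1 hx2
      let f : Option ι ⊕ Option ι → Option (Option (ι ⊕ ι)) := fun s =>
        match s with
        | Sum.inl none => some none
        | Sum.inl (some i) => some (some (Sum.inl i))
        | Sum.inr none => none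
        | Sum.inr (some i) => some (some (Sum.inr i))
      have hf : Function.Injective f := by
        intro s t hst
        rcases s with (_ | i) | (_ | i) <;> rcases t with (_ | j) | (_ | j) <;>
          simp only [f, Option.some.injEq, Sum.inl.injEq, Sum.inr.injEq, reduceCtorEq] at hst <;>
          first | rfl | (rw [hst])
      have e3 := e2.comp f hf
      have e4 : rows u Z0 (fun o : Option ι => o.elim Q a) (fun o => o.elim Q' b) =
          (fun o => Option.casesOn' o (Z0.mkQ (u Q'))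
            (fun o => Option.casesOn' o (Z0.mkQ (u Q)) (rows u Z0 a b))) ∘ f := by
        funext s
        rcases s with (_ | i) | (_ | i) <;> rfl
      rw [e4]
      exact e3
    · intro j
      cases j with
      | none => exact hlt
      | some j => exact hbig j

end Abstract

section Forms

variable {k U : Type*} [Field k] [AddCommGroup U] [Module k U]

/-- the pair space of labels -/
abbrev Lab (k U : Type*) [Field k] [AddCommGroup U] [Module k U] :=
  ↥(SymForm k U) × ↥(SymForm k U)

/-- the functional `(f, f') ↦ f x t` -/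
def ev1 (x t : U) : Dual k (Lab k U) where
  toFun p := p.1.1 x t
  map_add' := by intro p q; simp
  map_smul' := by intro c p; simp

/-- the functional `(f, f') ↦ f' x t` -/
def ev2 (x t : U) : Dual k (Lab k U) where
  toFun p := p.2.1 x t
  map_add' := by intro p q; simp
  map_smul' := by intro c p; simp

@[simp] theorem ev1_apply (x t : U) (p : Lab k U) : ev1 x t p = p.1.1 x t := rfl
@[simp] theorem ev2_apply (x t : U) (p : Lab k U) : ev2 x t p = p.2.1 x t := rfl

/-- the special functionals of the row `x`: `f (x, t)`, `t ∈ Sp`, and `f' (x, t)`, `t ∈ Sp'` -/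
def spw (Sp Sp' : Submodule k U) (x : U) : Submodule k (Dual k (Lab k U)) :=
  Submodule.span k (ev1 x '' (Sp : Set U) ∪ ev2 x '' (Sp' : Set U))

theorem spw_eq_of_agree (Sp Sp' : Submodule k U) (x : U) (p q : Lab k U)
    (h1 : ∀ t ∈ Sp, p.1.1 x t = q.1.1 x t) (h2 : ∀ t ∈ Sp', p.2.1 x t = q.2.1 x t)
    (ψ : Dual k (Lab k U)) (hψ : ψ ∈ spw Sp Sp' x) : ψ p = ψ q := by
  have h : spw Sp Sp' x ≤ LinearMap.ker (Dual.eval k (Lab k U) (p - q)) := by
    refine Submodule.span_le.2 ?_
    rintro _ (⟨t, ht, rfl⟩ | ⟨t, ht, rfl⟩)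
    · rw [SetLike.mem_coe, LinearMap.mem_ker, Dual.eval_apply, map_sub, ev1_apply, ev1_apply,
        h1 t ht, sub_self]
    · rw [SetLike.mem_coe, LinearMap.mem_ker, Dual.eval_apply, map_sub, ev2_apply, ev2_apply,
        h2 t ht, sub_self]
  have h3 := h hψ
  rwa [LinearMap.mem_ker, Dual.eval_apply, map_sub, sub_eq_zero] at h3

/-- a symmetric form with prescribed special rows -/
theorem exists_rows {ι : Type*} [Fintype ι] (Sp Z0 : Submodule k U) (hS : Sp ≤ Z0) (v : ι → U)
    (hv : LinearIndependent k fun i => Z0.mkQ (v i)) (φ : ι → (Sp →ₗ[k] k)) :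
    ∃ f : ↥(SymForm k U), ∀ i, ∀ t : Sp, f.1 (v i) t = φ i t := by
  have hv' : LinearIndependent k v := LinearIndependent.of_comp Z0.mkQ hv
  have hd : Disjoint (Submodule.span k (Set.range v)) Sp := by
    rw [Submodule.disjoint_def]
    intro x hx hxS
    rw [Finsupp.mem_span_range_iff_exists_finsupp] at hx
    obtain ⟨c, rfl⟩ := hx
    have h0 : Z0.mkQ (c.sum fun i a => a • v i) = 0 := by
      rw [Submodule.mkQ_apply, Submodule.Quotient.mk_eq_zero]
      exact hS hxS
    have h1 : Finsupp.linearCombination k (fun i => Z0.mkQ (v i)) c = 0 := by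
      rw [Finsupp.linearCombination_apply, ← h0, map_finsuppSum]
      simp
    have h2 := (linearIndependent_iff.1 hv) c h1
    rw [h2]; simp
  obtain ⟨f, hf, h1, -, -⟩ := rows_surj (Submodule.span k (Set.range v)) Sp hd v
    (fun i => Submodule.subset_span ⟨i, rfl⟩) hv' φ
  exact ⟨⟨f, hf⟩, h1⟩

/-- **independence of the special windows** -/
theorem hind_special {Ω : Type*} (u : Ω → U) (Sp Sp' Z0 : Submodule k U) (hS : Sp ≤ Z0)
    (hS' : Sp' ≤ Z0) (ι : Type) [Fintype ι] (a b : ι → Ω)
    (hli : LinearIndependent k (rows u Z0 a b)) :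
    iSupIndep fun j => spw Sp Sp' (u (a j)) ⊔ spw Sp Sp' (u (b j)) := by
  classical
  intro j
  rw [Submodule.disjoint_def]
  intro ψ h1 h2
  let v : ι ⊕ ι → U := Sum.elim (u ∘ a) (u ∘ b)
  have hv : LinearIndependent k fun i => Z0.mkQ (v i) := by
    have e : (fun i => Z0.mkQ (v i)) = rows u Z0 a b := by
      funext s; rcases s with i | i <;> rfl
    rw [e]; exact hli
  refine LinearMap.ext fun p => ?_
  rw [LinearMap.zero_apply]
  -- the label with the same rows at `j` and zero rows elsewhere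
  have hrow : ∀ (Sq : Submodule k U) (_ : Sq ≤ Z0) (f : ↥(SymForm k U)),
      ∃ g : ↥(SymForm k U), (∀ t ∈ Sq, g.1 (u (a j)) t = f.1 (u (a j)) t) ∧
        (∀ t ∈ Sq, g.1 (u (b j)) t = f.1 (u (b j)) t) ∧
        (∀ i, i ≠ j → ∀ t ∈ Sq, g.1 (u (a i)) t = 0) ∧
        (∀ i, i ≠ j → ∀ t ∈ Sq, g.1 (u (b i)) t = 0) := by
    intro Sq hSq f
    obtain ⟨g, hg⟩ := exists_rows Sq Z0 hSq v hv
      (Sum.elim (fun i => if i = j then (f.1 (u (a j))).comp Sq.subtype else 0)
        (fun i => if i = j then (f.1 (u (b j))).comp Sq.subtype else 0))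
    refine ⟨g, fun t ht => ?_, fun t ht => ?_, fun i hi t ht => ?_, fun i hi t ht => ?_⟩
    · have := hg (Sum.inl j) ⟨t, ht⟩; simpa [v] using this
    · have := hg (Sum.inr j) ⟨t, ht⟩; simpa [v] using this
    · have := hg (Sum.inl i) ⟨t, ht⟩; simpa [v, hi] using this
    · have := hg (Sum.inr i) ⟨t, ht⟩; simpa [v, hi] using this
  obtain ⟨g, g1, g2, g3, g4⟩ := hrow Sp hS p.1
  obtain ⟨g', g1', g2', g3', g4'⟩ := hrow Sp' hS' p.2
  -- `ψ` sees only the rows at `j`
  have e1 : ψ p = ψ (g, g') := by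
    obtain ⟨ψ1, hψ1, ψ2, hψ2, rfl⟩ := Submodule.mem_sup.1 h1
    rw [LinearMap.add_apply, LinearMap.add_apply]
    rw [spw_eq_of_agree Sp Sp' (u (a j)) p (g, g') (fun t ht => (g1 t ht).symm)
        (fun t ht => (g1' t ht).symm) ψ1 hψ1,
      spw_eq_of_agree Sp Sp' (u (b j)) p (g, g') (fun t ht => (g2 t ht).symm)
        (fun t ht => (g2' t ht).symm) ψ2 hψ2]
  -- `ψ` vanishes there
  have e2 : ψ (g, g') = 0 := by
    have hle : (⨆ i, ⨆ (_ : i ≠ j), (spw Sp Sp' (u (a i)) ⊔ spw Sp Sp' (u (b i)))) ≤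
        LinearMap.ker (Dual.eval k (Lab k U) (g, g')) := by
      refine iSup₂_le fun i hi => sup_le ?_ ?_
      · intro χ hχ
        rw [LinearMap.mem_ker, Dual.eval_apply,
          spw_eq_of_agree Sp Sp' (u (a i)) (g, g') 0 (fun t ht => by simpa using g3 i hi t ht)
            (fun t ht => by simpa using g3' i hi t ht) χ hχ, map_zero]
      · intro χ hχ
        rw [LinearMap.mem_ker, Dual.eval_apply,
          spw_eq_of_agree Sp Sp' (u (b i)) (g, g') 0 (fun t ht => by simpa using g4 i hi t ht)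
            (fun t ht => by simpa using g4' i hi t ht) χ hχ, map_zero]
    have h3 := hle h2
    rwa [LinearMap.mem_ker, Dual.eval_apply] at h3
  rw [e1, e2]

/-- **pointwise bound for the special rows** -/
theorem special_bound [Fintype (Lab k U)] [FiniteDimensional k U] {Ω : Type*} (u : Ω → U)
    (Sp Sp' : Submodule k U) (μ : Lab k U → ℝ) (hμ : ∀ x, 0 ≤ μ x) (sμ : ∑ x, μ x = 1)
    (B : ℝ) (hB : 0 < B) :
    ∃ Z : Submodule k U, Sp ⊔ Sp' ≤ Z ∧ Z ≤ (Sp ⊔ Sp') ⊔ Submodule.span k (Set.range u) ∧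
      ((finrank k Z : ℝ) - finrank k ↥(Sp ⊔ Sp')) * B ≤ 2 * kl k μ ⊤ ∧
      ∀ Q Q', u Q ∉ Z → u Q' ∉ Z ⊔ Submodule.span k {u Q} →
        kl k μ (spw Sp Sp' (u Q) ⊔ spw Sp Sp' (u Q')) ≤ B :=
  greedy u (Sp ⊔ Sp') (fun Q Q' => spw Sp Sp' (u Q) ⊔ spw Sp Sp' (u Q')) (kl k μ)
    (kl_bot μ sμ) (kl_supermod μ hμ sμ) (fun _ _ h => kl_mono μ hμ sμ h)
    (fun ι _ a b h => hind_special u Sp Sp' (Sp ⊔ Sp') le_sup_left le_sup_right ι a b h) B hB

/-- the whole window is controlled by its special part and the rest -/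
theorem kl_le_of_parts {V : Type*} [AddCommGroup V] [Module k V] [Fintype V] (μ : V → ℝ)
    (hμ : ∀ x, 0 ≤ μ x) (sμ : ∑ x, μ x = 1) (W C : Submodule k (Dual k V)) :
    kl k μ W ≤ kl k μ (W ⊓ C) + (kl k μ (W ⊔ C) - kl k μ C) := by
  have := kl_supermod μ hμ sμ W C
  linarith

end Forms

end Crest.Agent.R042.Greedy695
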