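import Mathlib

/-! Row 42 / S0059: growth lemmas for the final choice of parameters (`kp → ∞`). -/

set_option autoImplicit false

namespace Crest.Agent.R042.Growth377

open Filter Topology

/-- a polynomial times `a^k` is eventually below `ε b^k` when `a < b`. -/
theorem poly_pow_le (c : ℝ) (j : ℕ) {a b ε : ℝ} (ha : 0 < a) (hab : a < b) (hε : 0 < ε) :
    ∀ᶠ k : ℕ in atTop, c * (k : ℝ) ^ j * a ^ k ≤ ε * b ^ k := by
  have hr : 1 < b / a := (one_lt_div ha).2 hab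
  have h1 := tendsto_pow_const_div_const_pow_of_one_lt j hr
  have h2 : Tendsto (fun k : ℕ => c * ((k : ℝ) ^ j / (b / a) ^ k)) atTop (𝓝 0) := by
    simpa using h1.const_mul c
  filter_upwards [h2.eventually (gt_mem_nhds hε)] with k hk
  have hb : 0 < b ^ k := pow_pos (ha.trans hab) k
  have ha' : 0 < a ^ k := pow_pos ha k
  have h3 : c * ((k : ℝ) ^ j / (b / a) ^ k) = c * (k : ℝ) ^ j * a ^ k / b ^ k := by
    rw [div_pow]
    field_simp
  rw [h3, div_lt_iff₀ hb] at hk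
  exact hk.le

/-- a polynomial is eventually below `ε b^k`, `b > 1`. -/
theorem poly_le (c : ℝ) (j : ℕ) {b ε : ℝ} (hb : 1 < b) (hε : 0 < ε) :
    ∀ᶠ k : ℕ in atTop, c * (k : ℝ) ^ j ≤ ε * b ^ k := by
  have := poly_pow_le c j (a := 1) one_pos hb hε
  simpa using this

/-- `I0 = kp / 3` tends to infinity. -/
theorem tendsto_div (m : ℕ) (hm : 0 < m) : Tendsto (fun k : ℕ => k / m) atTop atTop :=
  Nat.tendsto_div_const_atTop hm.ne'

/-- **the exponential gain**: a polynomial in `kp` is below `ε b^(kp / m)`, `b > 1`. -/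
theorem poly_le_div (c : ℝ) (j m : ℕ) (hm : 0 < m) {b ε : ℝ} (hb : 1 < b) (hε : 0 < ε) :
    ∀ᶠ k : ℕ in atTop, c * (k : ℝ) ^ j ≤ ε * b ^ (k / m) := by
  have h1 := (tendsto_div m hm).eventually (poly_le (|c| * (2 * m) ^ j) j hb hε)
  filter_upwards [h1, eventually_ge_atTop m] with k hk hkm
  refine le_trans ?_ hk
  have h2 : 1 ≤ k / m := (Nat.one_le_div_iff hm).2 hkm
  have h3 : k ≤ 2 * m * (k / m) := by
    have h4 := Nat.div_add_mod k m
    have h5 := Nat.mod_lt k hm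
    have h6 : m * 1 ≤ m * (k / m) := Nat.mul_le_mul_left _ h2
    have h7 : 2 * m * (k / m) = 2 * (m * (k / m)) := by ring
    omega
  have h8 : (k : ℝ) ≤ 2 * m * ((k / m : ℕ) : ℝ) := by exact_mod_cast h3
  calc c * (k : ℝ) ^ j ≤ |c| * (k : ℝ) ^ j :=
        mul_le_mul_of_nonneg_right (le_abs_self c) (by positivity)
    _ ≤ |c| * (2 * m * ((k / m : ℕ) : ℝ)) ^ j :=
        mul_le_mul_of_nonneg_left (pow_le_pow_left₀ (by positivity) h8 j) (abs_nonneg c)
    _ = |c| * (2 * m) ^ j * ((k / m : ℕ) : ℝ) ^ j := by rw [mul_pow]; ring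

/-- the same with a polynomial times `a^k` against `(a')^k`-type products:
`c k^j n^k ≤ ε n^(k - k/m) (n+1)^(k/m - i)`. -/
theorem gain (c : ℝ) (j m i n : ℕ) (hm : 0 < m) (hn : 0 < n) {ε : ℝ} (hε : 0 < ε) :
    ∀ᶠ k : ℕ in atTop, c * (k : ℝ) ^ j * (n : ℝ) ^ k ≤
      ε * ((n : ℝ) ^ (k - k / m) * ((n : ℝ) + 1) ^ (k / m - i)) := by
  have hn' : (0 : ℝ) < n := by exact_mod_cast hn
  have hb : (1 : ℝ) < ((n : ℝ) + 1) / n := by rw [one_lt_div hn']; linarith
  have hε' : 0 < ε / ((n : ℝ) + 1) ^ i := by positivity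
  filter_upwards [poly_le_div c j m hm hb hε', (tendsto_div m hm).eventually
    (eventually_ge_atTop i)] with k hk hki
  have h1 : k / m ≤ k := Nat.div_le_self k m
  have h2 : (n : ℝ) ^ k = (n : ℝ) ^ (k - k / m) * (n : ℝ) ^ (k / m) := by
    rw [← pow_add]; congr 1; omega
  have h3 : ((n : ℝ) + 1) ^ (k / m) = ((n : ℝ) + 1) ^ (k / m - i) * ((n : ℝ) + 1) ^ i := by
    rw [← pow_add]; congr 1; omega
  calc c * (k : ℝ) ^ j * (n : ℝ) ^ k
      ≤ (ε / ((n : ℝ) + 1) ^ i * (((n : ℝ) + 1) / n) ^ (k / m)) * (n : ℝ) ^ k :=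
        mul_le_mul_of_nonneg_right hk (by positivity)
    _ = ε * ((n : ℝ) ^ (k - k / m) * ((n : ℝ) + 1) ^ (k / m - i)) := by
        rw [h2, div_pow, h3]
        field_simp

/-- `q ^ (C k)` beats `c k^j a^k` as soon as `a < q^C`. -/
theorem poly_pow_le_pow (c : ℝ) (j C : ℕ) {a q ε : ℝ} (ha : 0 < a) (haq : a < q ^ C)
    (hε : 0 < ε) : ∀ᶠ k : ℕ in atTop, c * (k : ℝ) ^ j * a ^ k ≤ ε * q ^ (C * k) := by
  have := poly_pow_le c j ha haq hε
  simpa [pow_mul] using this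

/-- `q ^ (C k^2)` beats `c k^j a^k` for every `a`. -/
theorem poly_pow_le_sq (c : ℝ) (j C : ℕ) (hC : 0 < C) (a : ℝ) {q ε : ℝ} (hq : 1 < q)
    (hε : 0 < ε) : ∀ᶠ k : ℕ in atTop, c * (k : ℝ) ^ j * a ^ k ≤ ε * q ^ (C * k * k) := by
  obtain ⟨D, hD⟩ := pow_unbounded_of_one_lt (|a| + 1) hq
  have h1 := poly_pow_le |c| j (a := |a| + 1) (b := q ^ D) (by positivity) hD hε
  filter_upwards [h1, eventually_ge_atTop D] with k hk hkD
  have hq0 : 0 < q := one_pos.trans hq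
  calc c * (k : ℝ) ^ j * a ^ k ≤ |c| * (k : ℝ) ^ j * (|a| + 1) ^ k := by
        calc c * (k : ℝ) ^ j * a ^ k ≤ |c * (k : ℝ) ^ j * a ^ k| := le_abs_self _
          _ = |c| * (k : ℝ) ^ j * |a| ^ k := by
              rw [abs_mul, abs_mul, abs_pow a k, abs_of_nonneg (by positivity : (0:ℝ) ≤ (k:ℝ) ^ j)]
          _ ≤ |c| * (k : ℝ) ^ j * (|a| + 1) ^ k := by
              refine mul_le_mul_of_nonneg_left ?_ (by positivity)
              exact pow_le_pow_left₀ (abs_nonneg a) (by linarith) k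
    _ ≤ ε * (q ^ D) ^ k := hk
    _ ≤ ε * q ^ (C * k * k) := by
        rw [← pow_mul]
        refine mul_le_mul_of_nonneg_left (pow_le_pow_right₀ hq.le ?_) hε.le
        refine Nat.mul_le_mul_right k ?_
        calc D ≤ k := hkD
          _ = 1 * k := (one_mul k).symm
          _ ≤ C * k := Nat.mul_le_mul_right k hC

end Crest.Agent.R042.Growth377
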