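import Crest.Agent.R042.PhiSZ_543
import Crest.Agent.R042.Inst_592
import Crest.Agent.R042.Alph_767

/-!
# Isolation for the frozen family (row 42 / S0059)

`P ⟂ P'`, `w` a `k0`-functional of the window `U_{P,P'}` which is not in `S`
(i.e. not of the form `c * tau_l`, `c ∈ K`): for all but a fraction `3 β` of the types `R ⟂ P, P'`
the value `w (u_R)` is not in `K`.
-/

set_option autoImplicit false
set_option linter.unusedSectionVars false

namespace Crest.Agent.R042.Iso543

open Finset Crest.Agent.R042.Fam543 Crest.Agent.R042.RowWin543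

/-! ## Double counting on a box -/

section box

variable {ι A : Type*} [Fintype ι] [DecidableEq ι] [DecidableEq A]

/-- resampling one coordinate -/
theorem resample (K : Finset A) (l : ι) (p : (ι → A) → Prop) [DecidablePred p] :
    ∑ E ∈ Fintype.piFinset (fun _ : ι => K), (K.filter fun u => p (Function.update E l u)).card =
      K.card * ((Fintype.piFinset (fun _ : ι => K)).filter p).card := by
  set EE := Fintype.piFinset (fun _ : ι => K) with hEE
  have h1 : ∑ E ∈ EE, (K.filter fun u => p (Function.update E l u)).card =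
      ((EE ×ˢ K).filter fun x : (ι → A) × A => p (Function.update x.1 l x.2)).card := by
    rw [card_filter, sum_product]
    exact sum_congr rfl fun E _ => by rw [card_filter]
  have h2 : K.card * (EE.filter p).card = ((EE ×ˢ K).filter fun x : (ι → A) × A => p x.1).card := by
    have h3 : ((EE ×ˢ K).filter fun x : (ι → A) × A => p x.1) = (EE.filter p) ×ˢ K := by
      ext x
      simp only [mem_filter, mem_product]
      tauto
    rw [h3, card_product, mul_comm]
  rw [h1, h2]
  refine card_bij' (fun x _ => (Function.update x.1 l x.2, x.1 l))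
    (fun x _ => (Function.update x.1 l x.2, x.1 l)) ?_ ?_ ?_ ?_
  · rintro ⟨E, u⟩ hx
    simp only [mem_filter, mem_product, hEE, Fintype.mem_piFinset] at hx ⊢
    refine ⟨⟨fun i => ?_, hx.1.1 l⟩, hx.2⟩
    by_cases hi : i = l
    · subst hi; simpa using hx.1.2
    · rw [Function.update_of_ne hi]; exact hx.1.1 i
  · rintro ⟨E, u⟩ hx
    simp only [mem_filter, mem_product, hEE, Fintype.mem_piFinset] at hx ⊢
    refine ⟨⟨fun i => ?_, hx.1.1 l⟩, ?_⟩
    · by_cases hi : i = l
      · subst hi; simpa using hx.1.2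
      · rw [Function.update_of_ne hi]; exact hx.1.1 i
    · simpa using hx.2
  · rintro ⟨E, u⟩ _
    simp
  · rintro ⟨E, u⟩ _
    simp

theorem resample_le (K : Finset A) (l : ι) (p : (ι → A) → Prop) [DecidablePred p] (c : ℝ)
    (h : ∀ E ∈ Fintype.piFinset (fun _ : ι => K),
      ((K.filter fun u => p (Function.update E l u)).card : ℝ) ≤ c * K.card) (hK : 0 < K.card) :
    (((Fintype.piFinset (fun _ : ι => K)).filter p).card : ℝ) ≤
      c * (Fintype.piFinset (fun _ : ι => K)).card := by
  have h1 := resample K l p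
  have h2 : (K.card : ℝ) * ((Fintype.piFinset (fun _ : ι => K)).filter p).card ≤
      (Fintype.piFinset (fun _ : ι => K)).card * (c * K.card) := by
    have : ((K.card * ((Fintype.piFinset (fun _ : ι => K)).filter p).card : ℕ) : ℝ) ≤
        (Fintype.piFinset (fun _ : ι => K)).card * (c * K.card) := by
      rw [← h1]
      push_cast
      calc ∑ E ∈ Fintype.piFinset (fun _ : ι => K),
            ((K.filter fun u => p (Function.update E l u)).card : ℝ)
          ≤ ∑ _E ∈ Fintype.piFinset (fun _ : ι => K), c * K.card := sum_le_sum h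
        _ = _ := by rw [sum_const, nsmul_eq_mul]
    exact_mod_cast this
  have hK' : (0 : ℝ) < K.card := by exact_mod_cast hK
  nlinarith

end box

/-! ## Linear words over `K ^ L` -/

section lin

variable {k0 : Type} [Field k0] [DecidableEq k0] {L : ℕ}

theorem lin_two (K : Finset k0) (β : ℝ)
    (h2 : (1 : ℝ) ≤ β * K.card)
    (h4 : ∀ c r : k0, c ≠ 0 → r ≠ 0 → ((K.filter fun u => c * u + r ∈ K).card : ℝ) ≤ β * K.card)
    (c : Fin L → k0) {l₁ l₂ : Fin L} (hl : l₁ ≠ l₂) (hc₁ : c l₁ ≠ 0) (hc₂ : c l₂ ≠ 0)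
    (hK : 0 < K.card) :
    (((Fintype.piFinset (fun _ : Fin L => K)).filter fun E => ∑ l, c l * E l ∈ K).card : ℝ) ≤
      2 * β * (Fintype.piFinset (fun _ : Fin L => K)).card := by
  set EE := Fintype.piFinset (fun _ : Fin L => K) with hEE
  -- the rest
  let r : (Fin L → k0) → k0 := fun E => ∑ l ∈ univ.erase l₁, c l * E l
  have hr1 : ∀ E u, r (Function.update E l₁ u) = r E := by
    intro E u
    refine sum_congr rfl fun l hl => ?_
    rw [Function.update_of_ne (ne_of_mem_erase hl)]
  have hsum : ∀ E : Fin L → k0, ∑ l, c l * E l = c l₁ * E l₁ + r E := by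
    intro E
    rw [← add_sum_erase univ _ (mem_univ l₁)]
  have hr2 : ∀ E u, r (Function.update E l₂ u) =
      c l₂ * u + ∑ l ∈ (univ.erase l₁).erase l₂, c l * E l := by
    intro E u
    show ∑ l ∈ univ.erase l₁, c l * Function.update E l₂ u l = _
    rw [← add_sum_erase (univ.erase l₁) _ (mem_erase.2 ⟨hl.symm, mem_univ l₂⟩),
      Function.update_self]
    congr 1
    refine sum_congr rfl fun l hl => ?_
    rw [Function.update_of_ne (ne_of_mem_erase hl)]
  have b1 : ((EE.filter fun E => r E = 0).card : ℝ) ≤ β * EE.card := by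
    refine resample_le K l₂ _ β ?_ hK
    intro E _
    refine le_trans ?_ h2
    have : (K.filter fun u => r (Function.update E l₂ u) = 0).card ≤ 1 := by
      rw [card_le_one]
      intro u hu v hv
      have e1 := (mem_filter.1 hu).2
      have e2 := (mem_filter.1 hv).2
      rw [hr2] at e1 e2
      have : c l₂ * u = c l₂ * v := by linear_combination e1 - e2
      exact mul_left_cancel₀ hc₂ this
    exact_mod_cast this
  have b2 : ((EE.filter fun E => r E ≠ 0 ∧ ∑ l, c l * E l ∈ K).card : ℝ) ≤ β * EE.card := by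
    refine resample_le K l₁ _ β ?_ hK
    intro E _
    by_cases h0 : r E = 0
    · have : (K.filter fun u => r (Function.update E l₁ u) ≠ 0 ∧
          ∑ l, c l * Function.update E l₁ u l ∈ K) = ∅ := by
        refine filter_eq_empty_iff.2 fun u _ h => h.1 ?_
        rw [hr1]; exact h0
      rw [this, card_empty, Nat.cast_zero]
      linarith
    · refine le_trans ?_ (h4 (c l₁) (r E) hc₁ h0)
      have : (K.filter fun u => r (Function.update E l₁ u) ≠ 0 ∧
          ∑ l, c l * Function.update E l₁ u l ∈ K) ⊆ K.filter fun u => c l₁ * u + r E ∈ K := by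
        intro u hu
        obtain ⟨hu1, _, hu3⟩ := mem_filter.1 hu
        rw [hsum, Function.update_self, hr1] at hu3
        exact mem_filter.2 ⟨hu1, hu3⟩
      exact_mod_cast card_le_card this
  have hsub : (EE.filter fun E => ∑ l, c l * E l ∈ K) ⊆
      (EE.filter fun E => r E = 0) ∪ (EE.filter fun E => r E ≠ 0 ∧ ∑ l, c l * E l ∈ K) := by
    intro E hE
    obtain ⟨h1, h2⟩ := mem_filter.1 hE
    by_cases h0 : r E = 0
    · exact mem_union_left _ (mem_filter.2 ⟨h1, h0⟩)
    · exact mem_union_right _ (mem_filter.2 ⟨h1, h0, h2⟩)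
  have h5 := (card_le_card hsub).trans (card_union_le _ _)
  have h6 : ((EE.filter fun E => ∑ l, c l * E l ∈ K).card : ℝ) ≤
      (EE.filter fun E => r E = 0).card +
        (EE.filter fun E => r E ≠ 0 ∧ ∑ l, c l * E l ∈ K).card := by exact_mod_cast h5
  linarith

/-- a linear word of `K ^ L` which is not a word of `S` takes few values in `K` -/
theorem lin_all (K : Finset k0) (hK : Alph (K : Set k0)) (β : ℝ)
    (h2 : (1 : ℝ) ≤ β * K.card)
    (h4 : ∀ c r : k0, c ≠ 0 → r ≠ 0 → ((K.filter fun u => c * u + r ∈ K).card : ℝ) ≤ β * K.card)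
    (c : Fin L → k0) (hc : ¬ ∃ l, c l ∈ K ∧ ∀ l', l' ≠ l → c l' = 0) :
    (((Fintype.piFinset (fun _ : Fin L => K)).filter fun E => ∑ l, c l * E l ∈ K).card : ℝ) ≤
      2 * β * (Fintype.piFinset (fun _ : Fin L => K)).card := by
  have hKc : 0 < K.card := card_pos.2 ⟨1, hK.one⟩
  have hβ : 0 ≤ β := by
    have : (0 : ℝ) < K.card := by exact_mod_cast hKc
    by_contra h
    push Not at h
    nlinarith
  by_cases h : ∃ l₁ l₂, l₁ ≠ l₂ ∧ c l₁ ≠ 0 ∧ c l₂ ≠ 0
  · obtain ⟨l₁, l₂, hl, h1, h3⟩ := h
    exact lin_two K β h2 h4 c hl h1 h3 hKc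
  · push Not at h
    have hempty : ((Fintype.piFinset (fun _ : Fin L => K)).filter
        fun E => ∑ l, c l * E l ∈ K) = ∅ := by
      refine filter_eq_empty_iff.2 fun E hE hs => ?_
      rw [Fintype.mem_piFinset] at hE
      by_cases h0 : ∃ l, c l ≠ 0
      · obtain ⟨l, hl⟩ := h0
        have hz : ∀ l', l' ≠ l → c l' = 0 := fun l' h' => h l l' (Ne.symm h') hl
        have hsum : ∑ l', c l' * E l' = c l * E l := by
          refine sum_eq_single l (fun l' _ h' => by rw [hz l' h', zero_mul]) ?_
          intro h'; exact absurd (mem_univ _) h'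
        rw [hsum] at hs
        refine hc ⟨l, ?_, hz⟩
        have hE0 : E l ≠ 0 := hK.ne_zero (hE l)
        have := hK.mul _ hs _ (hK.inv _ (hE l))
        rwa [mul_assoc, mul_inv_cancel₀ hE0, mul_one] at this
      · push Not at h0
        rw [sum_eq_zero fun l _ => by rw [h0 l, zero_mul]] at hs
        exact hK.ne_zero hs rfl
    rw [hempty, card_empty, Nat.cast_zero]
    positivity

end lin

/-! ## The trace -/

section trace

variable {k0 KK : Type} [Field k0] [Field KK] [Algebra k0 KK] [Fintype k0] [Fintype KK]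

theorem exists_tr {V : Type*} [AddCommGroup V] [Module KK V] [Module k0 V]
    [IsScalarTower k0 KK V] (φ : V →ₗ[k0] k0) :
    ∃ W : V →ₗ[KK] KK, ∀ v, Algebra.trace k0 KK (W v) = φ v := by
  have hnd := traceForm_nondegenerate k0 KK
  let D := (Algebra.traceForm k0 KK).toDual hnd
  let ψ : V → Module.Dual k0 KK := fun v =>
    { toFun := fun c => φ (c • v)
      map_add' := fun a b => by rw [add_smul, map_add]
      map_smul' := fun a b => by rw [smul_assoc, map_smul]; rfl }
  have hψ : ∀ v c, ψ v c = φ (c • v) := fun _ _ => rfl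
  have key : ∀ v c, Algebra.trace k0 KK (D.symm (ψ v) * c) = φ (c • v) := by
    intro v c
    have h := LinearMap.BilinForm.apply_toDual_symm_apply (hB := hnd) (ψ v) c
    rw [Algebra.traceForm_apply] at h
    rw [← hψ]
    exact h
  have uniq : ∀ x y : KK, (∀ c, Algebra.trace k0 KK (x * c) = Algebra.trace k0 KK (y * c)) →
      x = y := by
    intro x y h
    apply D.injective
    refine LinearMap.ext fun c => ?_
    have h1 : D x c = Algebra.traceForm k0 KK x c := LinearMap.BilinForm.toDual_def hnd
    have h2 : D y c = Algebra.traceForm k0 KK y c := LinearMap.BilinForm.toDual_def hnd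
    rw [h1, h2, Algebra.traceForm_apply, Algebra.traceForm_apply]
    exact h c
  refine ⟨{ toFun := fun v => D.symm (ψ v), map_add' := ?_, map_smul' := ?_ }, ?_⟩
  · intro v v'
    apply uniq
    intro c
    rw [add_mul, map_add, key, key, key, smul_add, map_add]
  · intro a v
    apply uniq
    intro c
    rw [key, RingHom.id_apply, smul_eq_mul]
    have : a * D.symm (ψ v) * c = D.symm (ψ v) * (c * a) := by ring
    rw [this, key, mul_smul]
  · intro v
    have := key v 1
    rw [mul_one, one_smul] at this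
    exact this

variable [DecidableEq k0] [DecidableEq KK]

theorem lam_count (G : KK) (hG : ∀ c : k0, algebraMap k0 KK c ≠ G) (K : Finset k0) :
    (univ.filter fun lam : KK => Algebra.trace k0 KK lam = 1 ∧
      Algebra.trace k0 KK (lam * G) ∈ K).card * Fintype.card k0 =
      K.card * (univ.filter fun lam : KK => Algebra.trace k0 KK lam = 1).card := by
  let T : KK →ₗ[k0] k0 × k0 := (Algebra.trace k0 KK).prod
    ((Algebra.trace k0 KK).comp (LinearMap.mulRight k0 G))
  have hT : ∀ x, T x = (Algebra.trace k0 KK x, Algebra.trace k0 KK (x * G)) := fun _ => rfl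
  have hsurj : Function.Surjective T := by
    rw [← LinearMap.range_eq_top]
    by_contra hne
    obtain ⟨g, hg0, hg⟩ := Submodule.exists_le_ker_of_lt_top _ (lt_top_iff_ne_top.mpr hne)
    -- `g (a, b) = g1 a + g2 b`
    set g1 := g (1, 0) with hg1
    set g2 := g (0, 1) with hg2
    have hgab : ∀ a b : k0, g (a, b) = g1 * a + g2 * b := by
      intro a b
      have : (a, b) = a • ((1, 0) : k0 × k0) + b • ((0, 1) : k0 × k0) := by
        ext <;> simp
      rw [this, map_add, map_smul, map_smul, smul_eq_mul, smul_eq_mul]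
      ring
    have hz : ∀ x : KK, Algebra.trace k0 KK ((g1 • (1 : KK) + g2 • G) * x) = 0 := by
      intro x
      have h1 : g (T x) = 0 := by
        have : T x ∈ LinearMap.range T := ⟨x, rfl⟩
        exact LinearMap.mem_ker.mp (hg this)
      rw [hT, hgab] at h1
      have h2 : (g1 • (1 : KK) + g2 • G) * x = g1 • x + g2 • (x * G) := by
        rw [add_mul, smul_mul_assoc, one_mul, smul_mul_assoc, mul_comm G x]
      rw [h2, map_add, map_smul, map_smul, smul_eq_mul, smul_eq_mul]
      exact h1
    have h3 : g1 • (1 : KK) + g2 • G = 0 := by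
      have hnd := traceForm_nondegenerate k0 KK
      exact hnd.1 _ fun x => by rw [Algebra.traceForm_apply]; exact hz x
    by_cases h4 : g2 = 0
    · rw [h4, zero_smul, add_zero, smul_eq_zero] at h3
      rcases h3 with h3 | h3
      · apply hg0
        refine LinearMap.ext fun x => ?_
        obtain ⟨a, b⟩ := x
        rw [hgab, h3, h4]; simp
      · exact one_ne_zero h3
    · apply hG (-(g2⁻¹ * g1))
      have h5 : G = -((g2⁻¹ * g1) • (1 : KK)) := by
        have : g2⁻¹ • (g1 • (1 : KK) + g2 • G) = 0 := by rw [h3, smul_zero]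
        rw [smul_add, smul_smul, smul_smul, inv_mul_cancel₀ h4, one_smul] at this
        exact eq_neg_of_add_eq_zero_right this
      rw [h5, map_neg, Algebra.algebraMap_eq_smul_one]
  have hfib : ∀ a b : k0, (univ.filter fun x : KK => T x = (a, b)).card *
      Fintype.card (k0 × k0) = Fintype.card KK := fun a b =>
    card_fibre T.toAddMonoidHom hsurj (a, b)
  have hpos : 0 < Fintype.card (k0 × k0) := Fintype.card_pos
  obtain ⟨f, hf⟩ : ∃ f, ∀ a b : k0, (univ.filter fun x : KK => T x = (a, b)).card = f := by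
    refine ⟨(univ.filter fun x : KK => T x = (0, 0)).card, fun a b => ?_⟩
    exact Nat.eq_of_mul_eq_mul_right hpos ((hfib a b).trans (hfib 0 0).symm)
  have hcount : ∀ S : Finset k0, (univ.filter fun lam : KK => Algebra.trace k0 KK lam = 1 ∧
      Algebra.trace k0 KK (lam * G) ∈ S).card = S.card * f := by
    intro S
    rw [card_eq_sum_card_fiberwise (f := fun lam => Algebra.trace k0 KK (lam * G)) (t := S)
      (fun x hx => (mem_filter.1 hx).2.2)]
    rw [sum_congr rfl (g := fun _ => f), sum_const, smul_eq_mul]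
    intro b hb
    rw [← hf 1 b]
    congr 1
    ext x
    simp only [mem_filter, mem_univ, true_and, hT, Prod.mk.injEq]
    constructor
    · rintro ⟨⟨h1, _⟩, h2⟩; exact ⟨h1, h2⟩
    · rintro ⟨h1, h2⟩; exact ⟨⟨h1, by rw [h2]; exact hb⟩, h2⟩
  have h1 := hcount K
  have h2 := hcount univ
  have h3 : (univ.filter fun lam : KK => Algebra.trace k0 KK lam = 1 ∧
      Algebra.trace k0 KK (lam * G) ∈ (univ : Finset k0)).card =
      (univ.filter fun lam : KK => Algebra.trace k0 KK lam = 1).card := by
    congr 1; ext x; simp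
  rw [h3] at h2
  rw [h1, h2, card_univ]
  ring

end trace

/-! ## The common perp of two perpendicular types -/

section perp

variable {KK : Type} [Field KK] {d kp : ℕ}

theorem B_add_right (x y z : Ix d → KK) : B x (y + z) = B x y + B x z := by
  rw [B_comm, B_add_left, B_comm y, B_comm z]

theorem B_smul_right (c : KK) (x y : Ix d → KK) : B x (c • y) = c * B x y := by
  rw [B_comm, B_smul_left, B_comm]

/-- the common perp -/
def NN (p p' : Ix d → KK) : Submodule KK (Ix d → KK) where
  carrier := {h | B p h = 0 ∧ B p' h = 0}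
  add_mem' := by
    rintro a b ⟨h1, h2⟩ ⟨h3, h4⟩
    exact ⟨by rw [B_add_right, h1, h3, add_zero], by rw [B_add_right, h2, h4, add_zero]⟩
  zero_mem' := ⟨by simp [B], by simp [B]⟩
  smul_mem' := by
    rintro c a ⟨h1, h2⟩
    exact ⟨by rw [B_smul_right, h1, mul_zero], by rw [B_smul_right, h2, mul_zero]⟩

theorem mem_NN {p p' h : Ix d → KK} : h ∈ NN p p' ↔ B p h = 0 ∧ B p' h = 0 := Iff.rfl

/-- the pair as a family -/
def pf (p p' : Ix d → KK) : Bool → Ix d → KK := fun c => cond c p p'

variable [CharP KK 2]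

theorem pf_ortho {p p' : Ix d → KK} (hp : p none = 1) (hp' : p' none = 1) (h : B p p' = 0)
    (k k' : Bool) : B (pf p p' k) (pf p p' k') = if k = k' then 1 else 0 := by
  rcases k with _ | _ <;> rcases k' with _ | _
  · simp [pf, B_self, hp']
  · simp [pf, B_comm p' p, h]
  · simp [pf, h]
  · simp [pf, B_self, hp]

theorem pm_mem_NN {p p' : Ix d → KK} (hp : p none = 1) (hp' : p' none = 1) (h : B p p' = 0)
    (b : Ix d) : PhiSZ543.pm (pf p p') (pf p p') b ∈ NN p p' :=
  ⟨PhiSZ543.B_pm (pf p p') (pf p p') (pf_ortho hp hp' h) b true,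
    PhiSZ543.B_pm (pf p p') (pf p p') (pf_ortho hp hp' h) b false⟩

theorem pm_none {p p' : Ix d → KK} (hp : p none = 1) (hp' : p' none = 1) :
    PhiSZ543.pm (pf p p') (pf p p') none none = 1 := by
  unfold PhiSZ543.pm
  rw [Fintype.sum_bool, sw_none]
  simp only [pf, cond_true, cond_false, hp, hp', if_true, mul_one]
  rw [CharTwo.add_self_eq_zero, add_zero]

variable [Fintype KK]

open Classical in
theorem sz_T (e : ℕ) (he : 0 < e) (hcard : Fintype.card KK = (2 ^ e) ^ kp)
    {p p' : Ix d → KK} (hp : p none = 1) (hp' : p' none = 1) (h : B p p' = 0)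
    (W : U0 KK d kp →ₗ[KK] KK) {t : U0 KK d kp} (ht : t ∈ T1 (2 ^ e) p) (ht' : t ∈ T1 (2 ^ e) p')
    (hW : W t ≠ 0) :
    (univ.filter fun b : Ix d → KK => (b ∈ NN p p' ∧ b none = 1) ∧ W (Phi (2 ^ e) b) = 0).card *
      (2 ^ e - 1) ≤ (univ.filter fun b : Ix d → KK => b ∈ NN p p' ∧ b none = 1).card := by
  obtain ⟨be, hbe⟩ := PhiSZ543.exists_PhiV e (pf p p') (pf p p') (t := t)
    (fun k => by rcases k with _ | _ <;> assumption) W hW
  exact PhiSZ543.sz_N e he hcard (NN p p') (pm_mem_NN hp hp' h none) (pm_none hp hp') W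
    ⟨_, fun i => pm_mem_NN hp hp' h (be i), hbe⟩

end perp

/-! ## The main theorem -/

section main

open scoped Classical
open Crest.Agent.R042.Inst592

variable {k0 KK : Type} [Field k0] [Field KK] [Algebra k0 KK] [Fintype k0] [Fintype KK]
  [DecidableEq k0] {d L kp : ℕ}

theorem famAlph {K : Finset k0} {β : ℝ} (hK : Alph767.Alph k0 K β) : Fam543.Alph (K : Set k0) where
  one := hK.one
  mul := hK.mul
  inv := hK.inv
  neg := hK.neg
  sumfree := hK.sumfree
  complete := hK.complete

/-- counting in the product -/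
theorem card_Om (K : Finset k0) (φ : (Ix d → KK) → KK → (Fin L → k0) → Prop)
    [∀ b lam E, Decidable (φ b lam E)] (X : Finset (Ix d → KK)) (hX : ∀ b lam E, φ b lam E → b none = 1 → b ∈ X)
    (hX' : ∀ b ∈ X, b none = 1) :
    (univ.filter fun R : Om KK (K : Set k0) d L => φ R.1.b R.1.lam R.1.E).card =
      (((X ×ˢ (univ.filter fun lam : KK => Algebra.trace k0 KK lam = 1)) ×ˢ
        (Fintype.piFinset fun _ : Fin L => K)).filter fun z => φ z.1.1 z.1.2 z.2).card := by
  refine card_bij (fun R _ => ((R.1.b, R.1.lam), R.1.E)) ?_ ?_ ?_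
  · intro R hR
    have hR' := (mem_filter.1 hR).2
    refine mem_filter.2 ⟨mem_product.2 ⟨mem_product.2 ⟨hX _ _ _ hR' R.2.b0,
      mem_filter.2 ⟨mem_univ _, R.2.lam⟩⟩, ?_⟩, hR'⟩
    rw [Fintype.mem_piFinset]
    exact fun l => mem_coe.1 (R.2.E l)
  · intro R _ R' _ h
    obtain ⟨h1, h2⟩ := Prod.mk.inj h
    obtain ⟨h3, h4⟩ := Prod.mk.inj h1
    exact Subtype.ext (Ty.ext h3 h4 h2)
  · rintro ⟨⟨b, lam⟩, E⟩ hz
    obtain ⟨h1, h2⟩ := mem_filter.1 hz
    obtain ⟨h3, h4⟩ := mem_product.1 h1
    obtain ⟨h5, h6⟩ := mem_product.1 h3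
    rw [Fintype.mem_piFinset] at h4
    refine ⟨⟨⟨b, lam, E⟩, ⟨hX' b h5, (mem_filter.1 h6).2, fun l => mem_coe.2 (h4 l)⟩⟩, ?_, rfl⟩
    exact mem_filter.2 ⟨mem_univ _, h2⟩

variable [CharP KK 2]

theorem iso {K : Finset k0} {β : ℝ} (hK : Alph767.Alph k0 K β) (e : ℕ) (he : 0 < e)
    (hcard : Fintype.card KK = (2 ^ e) ^ kp)
    (hQ : (Fintype.card k0 : ℝ) ≤ β * ((2 : ℝ) ^ e - 1))
    (P P' : Om KK (K : Set k0) d L) (hPP : Perp P.1 P'.1)
    (w : U KK d kp L →ₗ[k0] k0)
    (hw : ¬ ∃ c ∈ K, ∃ l, ∀ z ∈ UPQ (2 ^ e) kp P.1 P'.1, w z = c * tau k0 (z l)) :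
    ((univ.filter fun R : Om KK (K : Set k0) d L => (Perp P.1 R.1 ∧ Perp P'.1 R.1) ∧
      w (uvec (2 ^ e) kp R.1) ∈ K).card : ℝ) ≤ 3 * β *
      (univ.filter fun R : Om KK (K : Set k0) d L => Perp P.1 R.1 ∧ Perp P'.1 R.1).card := by
  have hFK := famAlph hK
  have hKc : 0 < K.card := card_pos.2 ⟨1, hK.one⟩
  have hKr : (0 : ℝ) < K.card := by exact_mod_cast hKc
  have hβ : 0 ≤ β := by
    have := hK.big
    by_contra h
    push Not at h
    nlinarith
  have hq0 : (0 : ℝ) < Fintype.card k0 := by exact_mod_cast Fintype.card_pos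
  set p := P.1.b with hp
  set p' := P'.1.b with hp'
  have hpn : p none = 1 := P.2.b0
  have hpn' : p' none = 1 := P'.2.b0
  have hB : B p p' = 0 := hPP
  -- the words as `KK`-functionals
  have hWex : ∀ l : Fin L, ∃ W : U0 KK d kp →ₗ[KK] KK,
      ∀ t, Algebra.trace k0 KK (W t) = w (Pi.single l t) := by
    intro l
    exact exists_tr (k0 := k0) (KK := KK) (w.comp (LinearMap.single k0 (fun _ : Fin L => U0 KK d kp) l))
  choose W hW using hWex
  have hwsum : ∀ z : U KK d kp L, w z = ∑ l, Algebra.trace k0 KK (W l (z l)) := by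
    intro z
    have hz : z = ∑ l, Pi.single l (z l) := (Finset.univ_sum_single z).symm
    conv_lhs => rw [hz]
    rw [map_sum]
    exact sum_congr rfl fun l _ => (hW l _).symm
  let WE : (Fin L → k0) → (U0 KK d kp →ₗ[KK] KK) := fun E => ∑ l, algebraMap k0 KK (E l) • W l
  have hWE : ∀ E t, WE E t = ∑ l, algebraMap k0 KK (E l) * W l t := by
    intro E t
    simp only [WE, LinearMap.sum_apply, LinearMap.smul_apply, smul_eq_mul]
  have hval : ∀ R : Ty k0 KK d L, w (uvec (2 ^ e) kp R) =
      Algebra.trace k0 KK (R.lam * WE R.E (Phi (2 ^ e) R.b)) := by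
    intro R
    rw [hwsum, hWE, mul_sum, map_sum]
    refine sum_congr rfl fun l _ => ?_
    congr 1
    simp only [uvec, map_smul, smul_eq_mul]
    ring
  -- the sets
  set X := univ.filter fun b : Ix d → KK => b ∈ NN p p' ∧ b none = 1 with hX
  set Lam := univ.filter fun lam : KK => Algebra.trace k0 KK lam = 1 with hLam
  set EE := Fintype.piFinset fun _ : Fin L => K with hEE
  have hXn : (0 : ℝ) ≤ X.card := Nat.cast_nonneg _
  have hLn : (0 : ℝ) ≤ Lam.card := Nat.cast_nonneg _
  have hEn : (0 : ℝ) ≤ EE.card := Nat.cast_nonneg _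
  have c1 : (univ.filter fun R : Om KK (K : Set k0) d L => (Perp P.1 R.1 ∧ Perp P'.1 R.1) ∧
      w (uvec (2 ^ e) kp R.1) ∈ K).card = (((X ×ˢ Lam) ×ˢ EE).filter fun z =>
        Algebra.trace k0 KK (z.1.2 * WE z.2 (Phi (2 ^ e) z.1.1)) ∈ K).card := by
    have h1 := card_Om K (fun (b : Ix d → KK) lam E => (B p b = 0 ∧ B p' b = 0) ∧
      Algebra.trace k0 KK (lam * WE E (Phi (2 ^ e) b)) ∈ K) X
      (fun b lam E h h' => mem_filter.2 ⟨mem_univ _, h.1, h'⟩) (fun b hb => (mem_filter.1 hb).2.2)
    have h2 : (univ.filter fun R : Om KK (K : Set k0) d L => (Perp P.1 R.1 ∧ Perp P'.1 R.1) ∧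
        w (uvec (2 ^ e) kp R.1) ∈ K) = (univ.filter fun R : Om KK (K : Set k0) d L =>
        (B p R.1.b = 0 ∧ B p' R.1.b = 0) ∧
        Algebra.trace k0 KK (R.1.lam * WE R.1.E (Phi (2 ^ e) R.1.b)) ∈ K) := by
      ext R
      simp only [mem_filter, mem_univ, true_and, hval]
      rfl
    rw [h2, h1]
    congr 1
    refine filter_congr fun z hz => ?_
    have hz' := (mem_filter.1 (mem_product.1 (mem_product.1 hz).1).1).2.1
    exact ⟨fun h => h.2, fun h => ⟨hz', h⟩⟩
  have c2 : (univ.filter fun R : Om KK (K : Set k0) d L => Perp P.1 R.1 ∧ Perp P'.1 R.1).card =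
      X.card * Lam.card * EE.card := by
    have h1 := card_Om (L := L) K (fun (b : Ix d → KK) (lam : KK) (E : Fin L → k0) =>
      B p b = 0 ∧ B p' b = 0) X
      (fun b lam E h h' => mem_filter.2 ⟨mem_univ _, h, h'⟩) (fun b hb => (mem_filter.1 hb).2.2)
    have h2 : (univ.filter fun R : Om KK (K : Set k0) d L => Perp P.1 R.1 ∧ Perp P'.1 R.1) =
        (univ.filter fun R : Om KK (K : Set k0) d L => B p R.1.b = 0 ∧ B p' R.1.b = 0) := rfl
    rw [h2, h1, filter_true_of_mem, card_product, card_product]
    intro z hz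
    exact (mem_filter.1 (mem_product.1 (mem_product.1 hz).1).1).2.1
  rw [c1, c2]
  push_cast
  by_cases hA : ∀ l, ∃ c : k0, ∀ t ∈ T1 (2 ^ e) p ⊓ T1 (2 ^ e) p',
      W l t = algebraMap k0 KK c * t fun _ => none
  · -- Case B: a word of the coordinates `E`
    choose c hc using hA
    have hwz : ∀ z ∈ UPQ (2 ^ e) kp P.1 P'.1, w z = ∑ l, c l * tau k0 (z l) := by
      intro z hz
      rw [hwsum]
      refine sum_congr rfl fun l _ => ?_
      have hz' := Submodule.mem_inf.1 hz
      rw [hc l (z l) (Submodule.mem_inf.2 ⟨mem_UP.1 hz'.1 l, mem_UP.1 hz'.2 l⟩)]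
      rw [← Algebra.smul_def, map_smul, smul_eq_mul, tau_apply]
    have hc' : ¬ ∃ l, c l ∈ K ∧ ∀ l', l' ≠ l → c l' = 0 := by
      rintro ⟨l, hl, hl'⟩
      refine hw ⟨c l, hl, l, fun z hz => ?_⟩
      rw [hwz z hz]
      refine sum_eq_single l (fun l' _ h' => by rw [hl' l' h', zero_mul]) ?_
      intro h'; exact absurd (mem_univ _) h'
    have hcount := lin_all K hFK β hK.big hK.trans c hc'
    have hvalE : ∀ z ∈ (X ×ˢ Lam) ×ˢ EE,
        Algebra.trace k0 KK (z.1.2 * WE z.2 (Phi (2 ^ e) z.1.1)) = ∑ l, c l * z.2 l := by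
      rintro ⟨⟨b, lam⟩, E⟩ hz
      obtain ⟨h3, _⟩ := mem_product.1 hz
      obtain ⟨h5, h6⟩ := mem_product.1 h3
      have h7 := (mem_filter.1 h5).2
      have h8 := (mem_filter.1 h6).2
      dsimp only
      have h9 : ∀ l, W l (Phi (2 ^ e) b) = algebraMap k0 KK (c l) := by
        intro l
        rw [hc l _ (Submodule.mem_inf.2 ⟨Phi_mem_T1 e h7.1.1, Phi_mem_T1 e h7.1.2⟩),
          Phi_none b h7.2, mul_one]
      rw [hWE, mul_sum, map_sum]
      refine sum_congr rfl fun l _ => ?_
      rw [h9]
      have : lam * (algebraMap k0 KK (E l) * algebraMap k0 KK (c l)) = (c l * E l) • lam := by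
        rw [Algebra.smul_def, map_mul]; ring
      rw [this, map_smul, h8, smul_eq_mul, mul_one]
    rw [filter_congr fun z hz => by rw [hvalE z hz]]
    have h10 : (((X ×ˢ Lam) ×ˢ EE).filter fun z => ∑ l, c l * z.2 l ∈ K) =
        (X ×ˢ Lam) ×ˢ (EE.filter fun E => ∑ l, c l * E l ∈ K) := by
      ext z
      simp only [mem_filter, mem_product]
      tauto
    rw [h10, card_product, card_product]
    push_cast
    have h11 : (0 : ℝ) ≤ (X.card : ℝ) * Lam.card := mul_nonneg hXn hLn
    have h13 := mul_le_mul_of_nonneg_left hcount h11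
    have h14 : (0 : ℝ) ≤ β * (X.card * Lam.card * EE.card) :=
      mul_nonneg hβ (mul_nonneg h11 hEn)
    nlinarith
  · -- Case A
    push Not at hA
    obtain ⟨l0, hl0⟩ := hA
    -- bad `E`
    let bad : (Fin L → k0) → Prop := fun E => ∃ c : k0, ∀ t ∈ T1 (2 ^ e) p ⊓ T1 (2 ^ e) p',
      WE E t = algebraMap k0 KK c * t fun _ => none
    have hbad : ((EE.filter bad).card : ℝ) ≤ β * EE.card := by
      refine resample_le K l0 bad β ?_ hKc
      intro E _
      refine le_trans ?_ hK.big
      have : (K.filter fun u => bad (Function.update E l0 u)).card ≤ 1 := by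
        rw [card_le_one]
        intro u hu v hv
        obtain ⟨a, ha⟩ := (mem_filter.1 hu).2
        obtain ⟨a', ha'⟩ := (mem_filter.1 hv).2
        by_contra huv
        have huv' : u - v ≠ 0 := sub_ne_zero.2 huv
        obtain ⟨t, ht, htne⟩ := hl0 ((a - a') / (u - v))
        apply htne
        have e1 := ha t ht
        have e2 := ha' t ht
        rw [hWE, ← add_sum_erase univ _ (mem_univ l0), Function.update_self] at e1 e2
        have e3 : ∀ x : k0, ∑ l ∈ univ.erase l0,
            algebraMap k0 KK (Function.update E l0 x l) * W l t =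
            ∑ l ∈ univ.erase l0, algebraMap k0 KK (E l) * W l t := by
          intro x
          refine sum_congr rfl fun l hl => ?_
          rw [Function.update_of_ne (ne_of_mem_erase hl)]
        rw [e3] at e1 e2
        have hne : algebraMap k0 KK (u - v) ≠ 0 := by
          rw [Ne, map_eq_zero]; exact huv'
        have e4 : algebraMap k0 KK (u - v) * W l0 t =
            algebraMap k0 KK (a - a') * t fun _ => none := by
          rw [map_sub, map_sub]
          linear_combination e1 - e2
        rw [map_div₀]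
        field_simp
        linear_combination e4
      exact_mod_cast this
    -- the count for one good `E`
    let cnt : (Fin L → k0) → ℕ := fun E => ((X ×ˢ Lam).filter fun z =>
      Algebra.trace k0 KK (z.2 * WE E (Phi (2 ^ e) z.1)) ∈ K).card
    have hcnt1 : ∀ E, (cnt E : ℝ) ≤ X.card * Lam.card := by
      intro E
      have := card_filter_le (X ×ˢ Lam) fun z =>
        Algebra.trace k0 KK (z.2 * WE E (Phi (2 ^ e) z.1)) ∈ K
      rw [card_product] at this
      exact_mod_cast this
    have hcnt2 : ∀ E, ¬ bad E → (cnt E : ℝ) ≤ 2 * β * (X.card * Lam.card) := by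
      intro E hE
      have hE' : ∀ c : k0, ∃ t ∈ T1 (2 ^ e) p ⊓ T1 (2 ^ e) p',
          WE E t ≠ algebraMap k0 KK c * t fun _ => none := by
        intro c
        by_contra hcon
        push Not at hcon
        exact hE ⟨c, hcon⟩
      -- the `b` with value in `k0`
      have hb1 : ∀ c : k0, ((X.filter fun b => WE E (Phi (2 ^ e) b) = algebraMap k0 KK c).card : ℝ) *
          ((2 : ℝ) ^ e - 1) ≤ X.card := by
        intro c
        obtain ⟨t, ht, htne⟩ := hE' c
        obtain ⟨ht1, ht2⟩ := Submodule.mem_inf.1 ht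
        have h1 := sz_T e he hcard hpn hpn' hB
          (WE E - (algebraMap k0 KK c) • (LinearMap.proj (fun _ => none) : U0 KK d kp →ₗ[KK] KK))
          ht1 ht2 (by
            rw [LinearMap.sub_apply, LinearMap.smul_apply, LinearMap.proj_apply, smul_eq_mul]
            exact sub_ne_zero.2 htne)
        have h2 : (X.filter fun b => WE E (Phi (2 ^ e) b) = algebraMap k0 KK c) =
            (univ.filter fun b : Ix d → KK => (b ∈ NN p p' ∧ b none = 1) ∧
              (WE E - (algebraMap k0 KK c) •
                (LinearMap.proj (fun _ => none) : U0 KK d kp →ₗ[KK] KK)) (Phi (2 ^ e) b) = 0) := by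
          ext b
          simp only [hX, mem_filter, mem_univ, true_and]
          refine and_congr_right fun hb => ?_
          rw [LinearMap.sub_apply, LinearMap.smul_apply, LinearMap.proj_apply, smul_eq_mul,
            Phi_none b hb.2, mul_one, sub_eq_zero]
        rw [h2]
        have h3 : 1 ≤ 2 ^ e := Nat.one_le_two_pow
        have h4 : (((univ.filter fun b : Ix d → KK => (b ∈ NN p p' ∧ b none = 1) ∧
              (WE E - (algebraMap k0 KK c) •
                (LinearMap.proj (fun _ => none) : U0 KK d kp →ₗ[KK] KK)) (Phi (2 ^ e) b) = 0).card *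
              (2 ^ e - 1) : ℕ) : ℝ) ≤ X.card := by exact_mod_cast h1
        rw [Nat.cast_mul, Nat.cast_sub h3] at h4
        push_cast at h4
        exact h4
      have hb2 : ((X.filter fun b => ∃ c : k0, algebraMap k0 KK c = WE E (Phi (2 ^ e) b)).card : ℝ) ≤
          β * X.card := by
        have h1 : (X.filter fun b => ∃ c : k0, algebraMap k0 KK c = WE E (Phi (2 ^ e) b)) ⊆
            (univ : Finset k0).biUnion fun c =>
              X.filter fun b => WE E (Phi (2 ^ e) b) = algebraMap k0 KK c := by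
          intro b hb
          obtain ⟨hb', c, hc⟩ := mem_filter.1 hb
          exact mem_biUnion.2 ⟨c, mem_univ _, mem_filter.2 ⟨hb', hc.symm⟩⟩
        have h2 : ((X.filter fun b => ∃ c : k0, algebraMap k0 KK c = WE E (Phi (2 ^ e) b)).card : ℝ) ≤
            ∑ c : k0, ((X.filter fun b => WE E (Phi (2 ^ e) b) = algebraMap k0 KK c).card : ℝ) := by
          exact_mod_cast (card_le_card h1).trans card_biUnion_le
        have h3 : (∑ c : k0, ((X.filter fun b =>
            WE E (Phi (2 ^ e) b) = algebraMap k0 KK c).card : ℝ)) * ((2 : ℝ) ^ e - 1) ≤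
            Fintype.card k0 * X.card := by
          rw [sum_mul]
          refine (sum_le_sum fun c _ => hb1 c).trans ?_
          rw [sum_const, card_univ, nsmul_eq_mul]
        have h4 : (1 : ℝ) < (2 : ℝ) ^ e := one_lt_pow₀ (by norm_num) (by omega)
        have h5 : (0 : ℝ) < (2 : ℝ) ^ e - 1 := by linarith
        have h6 : (Fintype.card k0 : ℝ) * X.card ≤ β * ((2 : ℝ) ^ e - 1) * X.card :=
          mul_le_mul_of_nonneg_right hQ hXn
        have h7 : ((X.filter fun b => ∃ c : k0, algebraMap k0 KK c =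
            WE E (Phi (2 ^ e) b)).card : ℝ) * ((2 : ℝ) ^ e - 1) ≤
            (β * X.card) * ((2 : ℝ) ^ e - 1) := by
          calc _ ≤ (∑ c : k0, ((X.filter fun b =>
            WE E (Phi (2 ^ e) b) = algebraMap k0 KK c).card : ℝ)) * ((2 : ℝ) ^ e - 1) :=
                mul_le_mul_of_nonneg_right h2 h5.le
            _ ≤ _ := h3.trans h6
            _ = _ := by ring
        exact le_of_mul_le_mul_right h7 h5
      have hsum : (cnt E : ℝ) = ∑ b ∈ X, ((Lam.filter fun lam =>
          Algebra.trace k0 KK (lam * WE E (Phi (2 ^ e) b)) ∈ K).card : ℝ) := by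
        simp only [cnt]
        rw [card_filter, sum_product]
        push_cast
        refine sum_congr rfl fun b _ => ?_
        rw [card_filter]
        push_cast
        rfl
      have hterm : ∀ b ∈ X, ((Lam.filter fun lam =>
          Algebra.trace k0 KK (lam * WE E (Phi (2 ^ e) b)) ∈ K).card : ℝ) ≤
          (if ∃ c : k0, algebraMap k0 KK c = WE E (Phi (2 ^ e) b) then (Lam.card : ℝ) else 0) +
            β * Lam.card := by
        intro b _
        by_cases h : ∃ c : k0, algebraMap k0 KK c = WE E (Phi (2 ^ e) b)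
        · rw [if_pos h]
          have h1 : ((Lam.filter fun lam =>
              Algebra.trace k0 KK (lam * WE E (Phi (2 ^ e) b)) ∈ K).card : ℝ) ≤ Lam.card := by
            exact_mod_cast card_filter_le _ _
          have h2 : 0 ≤ β * Lam.card := mul_nonneg hβ hLn
          linarith
        · rw [if_neg h, zero_add]
          push Not at h
          have h1 := lam_count (WE E (Phi (2 ^ e) b)) h K
          have h2 : (Lam.filter fun lam =>
              Algebra.trace k0 KK (lam * WE E (Phi (2 ^ e) b)) ∈ K) =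
              (univ.filter fun lam : KK => Algebra.trace k0 KK lam = 1 ∧
                Algebra.trace k0 KK (lam * WE E (Phi (2 ^ e) b)) ∈ K) := by
            ext lam
            simp only [hLam, mem_filter, mem_univ, true_and]
          rw [h2]
          have h3 : (((univ.filter fun lam : KK => Algebra.trace k0 KK lam = 1 ∧
                Algebra.trace k0 KK (lam * WE E (Phi (2 ^ e) b)) ∈ K).card : ℝ)) *
                Fintype.card k0 = K.card * Lam.card := by exact_mod_cast h1
          have h4 : (K.card : ℝ) * Lam.card ≤ (β * Lam.card) * Fintype.card k0 := by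
            have := mul_le_mul_of_nonneg_right hK.small hLn
            linarith
          rw [← h3] at h4
          exact le_of_mul_le_mul_right h4 hq0
      have h1 := sum_le_sum hterm
      rw [← hsum, sum_add_distrib, sum_const, nsmul_eq_mul] at h1
      have h2 : ∑ b ∈ X, (if ∃ c : k0, algebraMap k0 KK c = WE E (Phi (2 ^ e) b)
          then (Lam.card : ℝ) else 0) =
          (X.filter fun b => ∃ c : k0, algebraMap k0 KK c = WE E (Phi (2 ^ e) b)).card * Lam.card := by
        rw [← sum_filter, sum_const, nsmul_eq_mul]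
      rw [h2] at h1
      have h3 := mul_le_mul_of_nonneg_right hb2 hLn
      nlinarith
    -- the total
    have htot : ((((X ×ˢ Lam) ×ˢ EE).filter fun z =>
        Algebra.trace k0 KK (z.1.2 * WE z.2 (Phi (2 ^ e) z.1.1)) ∈ K).card : ℝ) =
        ∑ E ∈ EE, (cnt E : ℝ) := by
      rw [card_filter, sum_product_right]
      push_cast
      refine sum_congr rfl fun E _ => ?_
      simp only [cnt]
      rw [card_filter]
      push_cast
      rfl
    rw [htot]
    have hXL : (0 : ℝ) ≤ (X.card : ℝ) * Lam.card := mul_nonneg hXn hLn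
    have h1 : ∀ E ∈ EE, (cnt E : ℝ) ≤ (if bad E then (X.card : ℝ) * Lam.card else 0) +
        2 * β * (X.card * Lam.card) := by
      intro E _
      by_cases h : bad E
      · rw [if_pos h]
        have := hcnt1 E
        have h2 : 0 ≤ 2 * β * (X.card * Lam.card) := mul_nonneg (by linarith) hXL
        linarith
      · rw [if_neg h, zero_add]
        exact hcnt2 E h
    have h2 := sum_le_sum h1
    rw [sum_add_distrib, sum_const, nsmul_eq_mul, ← sum_filter, sum_const, nsmul_eq_mul] at h2
    have h3 := mul_le_mul_of_nonneg_right hbad hXL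
    nlinarith

end main

end Crest.Agent.R042.Iso543
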