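import Crest.Agent.R042.SspAsm_375

/-!
# Row 42: relative entropy of the image law under an affine map (helper927)

`KL (pushf g μ) ≤ KL μ + log (M * card Z / card Y)` if all the fibres of `g` have at most `M`
elements.  For the gadget: `g (f, f') = (h + ρ f, h' + ρ' f')` costs
`(finrank ker ρ + finrank ker ρ') * log q`.
-/

set_option autoImplicit false
set_option linter.unusedSectionVars false

namespace Crest.Agent.R042.KLAff927

open Finset Crest.Agent.R042.SspAsm375
open scoped Classical

variable {Y Z : Type*} [Fintype Y] [Fintype Z]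

/-- image law -/
noncomputable def pushf (g : Y → Z) (μ : Y → ℝ) (z : Z) : ℝ := ∑ y with g y = z, μ y

theorem sum_pushf_mul (g : Y → Z) (μ : Y → ℝ) (F : Z → ℝ) :
    ∑ z, pushf g μ z * F z = ∑ y, μ y * F (g y) := by
  unfold pushf
  simp_rw [Finset.sum_mul]
  rw [← Finset.sum_fiberwise (univ : Finset Y) g (fun y => μ y * F (g y))]
  refine Finset.sum_congr rfl fun z _ => Finset.sum_congr rfl fun y hy => ?_
  rw [(Finset.mem_filter.1 hy).2]

theorem isP_pushf (g : Y → Z) {μ : Y → ℝ} (h : IsP μ) : IsP (pushf g μ) where
  nonneg z := Finset.sum_nonneg fun y _ => h.nonneg y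
  sum := by
    have := sum_pushf_mul g μ (fun _ => 1)
    simpa [h.sum] using this

theorem pushf_supp (g : Y → Z) {μ : Y → ℝ} (z : Z) (hz : pushf g μ z ≠ 0) :
    ∃ y, g y = z ∧ μ y ≠ 0 := by
  by_contra hne
  push Not at hne
  exact hz (Finset.sum_eq_zero fun y hy => hne y (Finset.mem_filter.1 hy).2)

theorem KL_pushf_le (g : Y → Z) {μ : Y → ℝ} (h : IsP μ) (M : ℝ) (hM : 0 < M)
    (hfib : ∀ z, (#{y | g y = z} : ℝ) ≤ M) :
    KL (pushf g μ) ≤ KL μ + Real.log (M * Fintype.card Z / Fintype.card Y) := by
  have hY : (0 : ℝ) < Fintype.card Y := by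
    have : Nonempty Y := by
      by_contra hne
      rw [not_nonempty_iff] at hne
      have := h.sum
      simp at this
    exact_mod_cast Fintype.card_pos
  obtain ⟨y0⟩ : Nonempty Y := Fintype.card_pos_iff.1 (by exact_mod_cast hY)
  have hZ : (0 : ℝ) < Fintype.card Z := by
    have : Nonempty Z := ⟨g y0⟩
    exact_mod_cast Fintype.card_pos
  set c : ℝ := Real.log (M * Fintype.card Z / Fintype.card Y) with hc
  have key : ∀ z, pushf g μ z * Real.log (Fintype.card Z * pushf g μ z) ≤
      ∑ y with g y = z, (μ y * Real.log (Fintype.card Y * μ y) + μ y * c) := by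
    intro z
    have hν0 : 0 ≤ pushf g μ z := (isP_pushf g h).nonneg z
    rcases hν0.eq_or_lt with h0 | h0
    · rw [← h0, zero_mul]
      have hz : ∀ y ∈ ({y | g y = z} : Finset Y), μ y = 0 := by
        have := (Finset.sum_eq_zero_iff_of_nonneg (s := ({y | g y = z} : Finset Y))
          (f := μ) (fun y _ => h.nonneg y)).1 h0.symm
        exact this
      refine le_of_eq (Finset.sum_eq_zero fun y hy => ?_).symm
      rw [hz y hy]; ring
    · set ν := pushf g μ z with hν
      have h1 : ∀ y ∈ ({y | g y = z} : Finset Y), μ y - ν / M ≤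
          μ y * Real.log (Fintype.card Y * μ y) + μ y * c -
            μ y * Real.log (Fintype.card Z * ν) := by
        intro y _
        rcases (h.nonneg y).eq_or_lt with hy | hy
        · rw [← hy]
          have : 0 ≤ ν / M := by positivity
          linarith
        · have h2 := one_sub_inv_le_log (x := M * μ y / ν) (by positivity)
          have h3 : Real.log (M * μ y / ν) = Real.log (Fintype.card Y * μ y) + c -
              Real.log (Fintype.card Z * ν) := by
            rw [hc, ← Real.log_mul (by positivity) (by positivity),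
              ← Real.log_div (by positivity) (by positivity)]
            congr 1
            field_simp
          rw [h3] at h2
          have h4 := mul_le_mul_of_nonneg_left h2 hy.le
          have h5 : μ y * (1 - 1 / (M * μ y / ν)) = μ y - ν / M := by
            field_simp
          rw [h5] at h4
          linarith
      have h6 := Finset.sum_le_sum h1
      rw [Finset.sum_sub_distrib, Finset.sum_sub_distrib, Finset.sum_const, nsmul_eq_mul,
        ← Finset.sum_mul] at h6
      have h7 : ∑ y with g y = z, μ y = ν := rfl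
      rw [h7] at h6
      have h8 : (#{y | g y = z} : ℝ) * (ν / M) ≤ ν := by
        calc (#{y | g y = z} : ℝ) * (ν / M) ≤ M * (ν / M) :=
              mul_le_mul_of_nonneg_right (hfib z) (by positivity)
          _ = ν := by field_simp
      linarith
  have hs := Finset.sum_le_sum fun z (_ : z ∈ (univ : Finset Z)) => key z
  rw [Finset.sum_fiberwise (univ : Finset Y) g
    (fun y => μ y * Real.log (Fintype.card Y * μ y) + μ y * c)] at hs
  rw [Finset.sum_add_distrib, ← Finset.sum_mul, h.sum, one_mul] at hs
  exact hs

section affine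

variable {k V V' : Type*} [Field k] [Fintype k] [AddCommGroup V] [Module k V] [Fintype V]
  [AddCommGroup V'] [Module k V'] [Fintype V']

theorem card_ker (ρ : V →ₗ[k] V) :
    (Fintype.card (LinearMap.ker ρ) : ℝ) =
      (Fintype.card k : ℝ) ^ Module.finrank k (LinearMap.ker ρ) := by
  have := Module.card_eq_pow_finrank (K := k) (V := LinearMap.ker ρ)
  exact_mod_cast this

theorem fibre_le (ρ : V →ₗ[k] V) (a z : V) :
    #{f | a + ρ f = z} ≤ Fintype.card (LinearMap.ker ρ) := by
  by_cases hne : ∃ f0, a + ρ f0 = z
  · obtain ⟨f0, hf0⟩ := hne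
    rw [← Fintype.card_coe]
    refine Fintype.card_le_of_injective
      (fun f : {f // f ∈ ({f | a + ρ f = z} : Finset V)} =>
        (⟨f.1 - f0, by
          have h1 := (Finset.mem_filter.1 f.2).2
          rw [LinearMap.mem_ker, map_sub, sub_eq_zero]
          exact add_left_cancel (h1.trans hf0.symm)⟩ : LinearMap.ker ρ)) ?_
    intro f g hfg
    have := congrArg Subtype.val hfg
    exact Subtype.ext (sub_left_injective this)
  · push Not at hne
    have : ({f | a + ρ f = z} : Finset V) = ∅ := by
      rw [Finset.filter_eq_empty_iff]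
      intro f _
      exact hne f
    rw [this, Finset.card_empty]
    exact Nat.zero_le _

/-- **image law under a pair of affine maps** -/
theorem KL_affine_pair (a : V) (ρ : V →ₗ[k] V) (a' : V') (ρ' : V' →ₗ[k] V')
    {μ : V × V' → ℝ} (h : IsP μ) :
    KL (pushf (fun y : V × V' => (a + ρ y.1, a' + ρ' y.2)) μ) ≤ KL μ +
      ((Module.finrank k (LinearMap.ker ρ) : ℝ) + Module.finrank k (LinearMap.ker ρ')) *
        Real.log (Fintype.card k) := by
  have hk : (0 : ℝ) < Fintype.card k := by exact_mod_cast Fintype.card_pos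
  have h1 := KL_pushf_le (fun y : V × V' => (a + ρ y.1, a' + ρ' y.2)) h
    ((Fintype.card k : ℝ) ^ Module.finrank k (LinearMap.ker ρ) *
      (Fintype.card k : ℝ) ^ Module.finrank k (LinearMap.ker ρ')) (by positivity) ?_
  · refine h1.trans (le_of_eq ?_)
    have hV : (Fintype.card (V × V') : ℝ) ≠ 0 := by
      have : 0 < Fintype.card (V × V') := Fintype.card_pos
      exact_mod_cast this.ne'
    rw [mul_div_assoc, div_self hV, mul_one, ← pow_add, Real.log_pow]
    push_cast
    ring
  · intro z
    have h2 : ({y | (fun y : V × V' => (a + ρ y.1, a' + ρ' y.2)) y = z} : Finset (V × V')) ⊆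
        ({f | a + ρ f = z.1} : Finset V) ×ˢ ({f | a' + ρ' f = z.2} : Finset V') := by
      intro y hy
      have h3 := (Finset.mem_filter.1 hy).2
      rw [Finset.mem_product, Finset.mem_filter, Finset.mem_filter]
      exact ⟨⟨mem_univ _, congrArg Prod.fst h3⟩, ⟨mem_univ _, congrArg Prod.snd h3⟩⟩
    have h4 := (Finset.card_le_card h2).trans (le_of_eq (Finset.card_product _ _))
    have h5 := Nat.mul_le_mul (fibre_le ρ a z.1) (fibre_le ρ' a' z.2)
    rw [← card_ker, ← card_ker]
    have h6 := h4.trans h5
    have h7 : ((#({y | (fun y : V × V' => (a + ρ y.1, a' + ρ' y.2)) y = z} : Finset (V × V')) : ℕ)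
        : ℝ) ≤ ((Fintype.card (LinearMap.ker ρ) * Fintype.card (LinearMap.ker ρ') : ℕ) : ℝ) :=
      Nat.cast_le.2 h6
    rw [Nat.cast_mul] at h7
    convert h7

end affine

end Crest.Agent.R042.KLAff927
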