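import Mathlib

/-! Row 42, sec 02: the Kalton-Roberts argument in abstract form (expander by counting, Hall,
pigeonhole). -/

set_option autoImplicit false
set_option linter.unusedSectionVars false

namespace Crest.Agent.R042.KR509

open Finset

lemma geom_lt (σ : ℕ) : ∑ s ∈ Finset.Icc 1 σ, ((1 : ℝ) / 4) ^ s < 1 := by
  have h : ∀ σ : ℕ, ∑ s ∈ Finset.Icc 1 σ, ((1 : ℝ) / 4) ^ s = (1 - (1 / 4) ^ σ) / 3 := by
    intro σ
    induction σ with
    | zero => simp
    | succ n ih =>
      rw [Finset.sum_Icc_succ_top (by omega), ih]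
      ring
  rw [h]
  have : (0 : ℝ) < (1 / 4) ^ σ := by positivity
  linarith

lemma term_le (N n m s : ℕ) (hm : 0 < m) (hn : n ≤ N * m) (hs : 32 * N * s ≤ m) :
    (n.choose s : ℝ) * (m.choose s : ℝ) * (((s : ℝ) ^ 3) ^ s / ((m : ℝ) ^ 3) ^ s) ≤
      (1 / 4) ^ s := by
  have hm' : (0 : ℝ) < m := by exact_mod_cast hm
  have h1 : (n.choose s : ℝ) ≤ ((N : ℝ) * m) ^ s / (s.factorial : ℝ) := by
    refine (Nat.choose_le_pow_div s n).trans ?_
    gcongr
    exact_mod_cast hn
  have h2 : (m.choose s : ℝ) ≤ (m : ℝ) ^ s / (s.factorial : ℝ) := Nat.choose_le_pow_div s m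
  have h3 : (s : ℝ) ^ s / (s.factorial : ℝ) ≤ Real.exp s :=
    Real.pow_div_factorial_le_exp _ (by positivity) _
  have hfac : (0 : ℝ) < (s.factorial : ℝ) := by exact_mod_cast Nat.factorial_pos s
  have he : Real.exp 1 ^ 2 ≤ 8 := by
    have := Real.exp_one_lt_d9
    have h0 : 0 ≤ Real.exp 1 := (Real.exp_pos 1).le
    nlinarith
  calc (n.choose s : ℝ) * (m.choose s : ℝ) * (((s : ℝ) ^ 3) ^ s / ((m : ℝ) ^ 3) ^ s)
      ≤ (((N : ℝ) * m) ^ s / (s.factorial : ℝ)) * ((m : ℝ) ^ s / (s.factorial : ℝ)) *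
          (((s : ℝ) ^ 3) ^ s / ((m : ℝ) ^ 3) ^ s) := by
        gcongr
    _ = ((N : ℝ) * s / m) ^ s * ((s : ℝ) ^ s / (s.factorial : ℝ)) ^ 2 := by
        have e1 : ((s : ℝ) ^ 3) ^ s = ((s : ℝ) ^ s) ^ 3 := by
          rw [← pow_mul, ← pow_mul, Nat.mul_comm]
        have e2 : ((m : ℝ) ^ 3) ^ s = ((m : ℝ) ^ s) ^ 3 := by
          rw [← pow_mul, ← pow_mul, Nat.mul_comm]
        have hms : (0 : ℝ) < (m : ℝ) ^ s := by positivity
        rw [e1, e2, div_pow, mul_pow, mul_pow]
        generalize (m : ℝ) ^ s = x at hms ⊢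
        generalize (s : ℝ) ^ s = y
        generalize (N : ℝ) ^ s = z
        field_simp
    _ ≤ ((N : ℝ) * s / m) ^ s * (Real.exp s) ^ 2 := by
        gcongr
    _ = ((N : ℝ) * s / m * Real.exp 1 ^ 2) ^ s := by
        have : Real.exp s = Real.exp 1 ^ s := by rw [← Real.exp_nat_mul, mul_one]
        rw [this, mul_pow, ← pow_mul, ← pow_mul, Nat.mul_comm s 2]
    _ ≤ (1 / 4) ^ s := by
        gcongr
        have h4 : (N : ℝ) * s / m ≤ 1 / 32 := by
          rw [div_le_iff₀ hm']
          have : (32 * N * s : ℝ) ≤ m := by exact_mod_cast hs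
          linarith
        have h5 : 0 ≤ (N : ℝ) * s / m := by positivity
        nlinarith [Real.exp_pos 1]

variable {A B : Type*} [Fintype A] [DecidableEq A] [Fintype B] [DecidableEq B]

/-- all maps sending `S` into `T`. -/
def bad (S : Finset A) (T : Finset B) : Finset (A → Fin 3 → B) :=
  Fintype.piFinset fun a => if a ∈ S then Fintype.piFinset (fun _ : Fin 3 => T) else Finset.univ

lemma card_bad (S : Finset A) (T : Finset B) :
    (bad S T).card * (Fintype.card B ^ 3) ^ S.card =
      (T.card ^ 3) ^ S.card * (Fintype.card B ^ 3) ^ Fintype.card A := by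
  unfold bad
  rw [Fintype.card_piFinset]
  have h1 : ∀ a : A, (if a ∈ S then Fintype.piFinset (fun _ : Fin 3 => T)
      else (Finset.univ : Finset (Fin 3 → B))).card =
      if a ∈ S then T.card ^ 3 else Fintype.card B ^ 3 := by
    intro a
    split_ifs
    · rw [Fintype.card_piFinset]; simp
    · simp
  rw [Finset.prod_congr rfl (fun a _ => h1 a), Finset.prod_ite]
  simp only [Finset.prod_const, Finset.filter_mem_eq_inter, Finset.univ_inter]
  have h2 : S.card + (Finset.univ.filter fun a => a ∉ S).card = Fintype.card A := by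
    rw [← Finset.card_univ, ← Finset.card_filter_add_card_filter_not (s := Finset.univ)
      (p := fun a => a ∈ S)]
    simp
  rw [← h2, pow_add]
  ring

/-- a random map is an expander for all sets of size `≤ σ`. -/
theorem expander (N σ : ℕ) (hB : 0 < Fintype.card B) (hA : Fintype.card A ≤ N * Fintype.card B)
    (hσ : 32 * N * σ ≤ Fintype.card B) (hN : 1 ≤ N) :
    ∃ nbr : A → Fin 3 → B, ∀ S : Finset A, S.card ≤ σ →
      S.card ≤ (S.biUnion fun a => Finset.univ.image (nbr a)).card := by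
  by_contra hcon
  push Not at hcon
  set n := Fintype.card A with hn
  set m := Fintype.card B with hm
  have hcover : (Finset.univ : Finset (A → Fin 3 → B)) ⊆
      (Finset.Icc 1 σ).biUnion fun s => (Finset.powersetCard s (Finset.univ : Finset A)).biUnion
        fun S => (Finset.powersetCard s (Finset.univ : Finset B)).biUnion fun T => bad S T := by
    intro f _
    obtain ⟨S, hS, hlt⟩ := hcon f
    have hσm : σ ≤ m := by nlinarith
    obtain ⟨T, hT1, hT2⟩ := Finset.exists_superset_card_eq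
      (s := S.biUnion fun a => Finset.univ.image (f a)) (n := S.card) hlt.le (by omega)
    simp only [Finset.mem_biUnion, Finset.mem_Icc, Finset.mem_powersetCard]
    refine ⟨S.card, ⟨by omega, hS⟩, S, ⟨Finset.subset_univ _, rfl⟩, T,
      ⟨Finset.subset_univ _, hT2⟩, ?_⟩
    unfold bad
    rw [Fintype.mem_piFinset]
    intro a
    split_ifs with ha
    · rw [Fintype.mem_piFinset]
      intro k
      apply hT1
      simp only [Finset.mem_biUnion, Finset.mem_image, Finset.mem_univ, true_and]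
      exact ⟨a, ha, k, rfl⟩
    · simp
  have hm' : (0 : ℝ) < m := by exact_mod_cast hB
  have hcard : ((m : ℝ) ^ 3) ^ n ≤ ∑ s ∈ Finset.Icc 1 σ, (n.choose s : ℝ) * (m.choose s : ℝ) *
      ((((s : ℝ) ^ 3) ^ s / ((m : ℝ) ^ 3) ^ s) * ((m : ℝ) ^ 3) ^ n) := by
    have h1 := Finset.card_le_card hcover
    have h2 : (Finset.univ : Finset (A → Fin 3 → B)).card = (m ^ 3) ^ n := by
      rw [Finset.card_univ]
      simp [Fintype.card_fun, hm, hn]
    rw [h2] at h1
    have h3 : (((m ^ 3) ^ n : ℕ) : ℝ) ≤ ((∑ s ∈ Finset.Icc 1 σ,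
        ∑ S ∈ Finset.powersetCard s (Finset.univ : Finset A),
        ∑ T ∈ Finset.powersetCard s (Finset.univ : Finset B), (bad S T).card : ℕ) : ℝ) := by
      exact_mod_cast h1.trans (Finset.card_biUnion_le.trans (Finset.sum_le_sum fun s _ =>
        Finset.card_biUnion_le.trans (Finset.sum_le_sum fun S _ => Finset.card_biUnion_le)))
    push_cast at h3
    refine h3.trans (Finset.sum_le_sum fun s hs => ?_)
    have h4 : ∀ S ∈ Finset.powersetCard s (Finset.univ : Finset A),
        ∀ T ∈ Finset.powersetCard s (Finset.univ : Finset B),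
        ((bad S T).card : ℝ) = (((s : ℝ) ^ 3) ^ s / ((m : ℝ) ^ 3) ^ s) * ((m : ℝ) ^ 3) ^ n := by
      intro S hS T hT
      rw [Finset.mem_powersetCard] at hS hT
      have h5 := card_bad S T
      rw [hS.2, hT.2] at h5
      have h6 : ((bad S T).card : ℝ) * ((m : ℝ) ^ 3) ^ s = ((s : ℝ) ^ 3) ^ s * ((m : ℝ) ^ 3) ^ n := by
        exact_mod_cast h5
      have h7 : (0 : ℝ) < ((m : ℝ) ^ 3) ^ s := by positivity
      rw [div_mul_eq_mul_div, eq_div_iff h7.ne', h6]
    rw [Finset.sum_congr rfl fun S hS => Finset.sum_congr rfl fun T hT => h4 S hS T hT]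
    simp only [Finset.sum_const, Finset.card_powersetCard, Finset.card_univ, nsmul_eq_mul]
    rw [← hn, ← hm]
    apply le_of_eq
    ring
  have hlt : ∑ s ∈ Finset.Icc 1 σ, (n.choose s : ℝ) * (m.choose s : ℝ) *
      ((((s : ℝ) ^ 3) ^ s / ((m : ℝ) ^ 3) ^ s) * ((m : ℝ) ^ 3) ^ n) < ((m : ℝ) ^ 3) ^ n := by
    calc ∑ s ∈ Finset.Icc 1 σ, (n.choose s : ℝ) * (m.choose s : ℝ) *
        ((((s : ℝ) ^ 3) ^ s / ((m : ℝ) ^ 3) ^ s) * ((m : ℝ) ^ 3) ^ n)
        ≤ ∑ s ∈ Finset.Icc 1 σ, (1 / 4 : ℝ) ^ s * ((m : ℝ) ^ 3) ^ n := by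
          refine Finset.sum_le_sum fun s hs => ?_
          rw [← mul_assoc]
          have hs' := Finset.mem_Icc.1 hs
          have : 32 * N * s ≤ m := le_trans (Nat.mul_le_mul_left _ hs'.2) hσ
          exact mul_le_mul_of_nonneg_right (term_le N n m s hB hA this) (by positivity)
      _ = (∑ s ∈ Finset.Icc 1 σ, (1 / 4 : ℝ) ^ s) * ((m : ℝ) ^ 3) ^ n := by
          rw [Finset.sum_mul]
      _ < 1 * ((m : ℝ) ^ 3) ^ n := by
          have := geom_lt σ
          have h8 : (0 : ℝ) < ((m : ℝ) ^ 3) ^ n := by positivity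
          exact mul_lt_mul_of_pos_right this h8
      _ = ((m : ℝ) ^ 3) ^ n := one_mul _
  exact absurd (lt_of_le_of_lt hcard hlt) (lt_irrefl _)

/-- ABSTRACT KALTON-ROBERTS LEMMA: if every point of `U` is missed by few of the sets `X i`, and in
every cover of `U \ X i` by three sets one of them has property `P`, then there are `N` pairwise
disjoint subsets of `U` with property `P`. -/
theorem kr_abstract {V ι : Type*} [DecidableEq V] [Fintype ι] [DecidableEq ι] [Nonempty ι]
    (U : Finset V) (X : ι → Finset V) (N : ℕ)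
    (hmiss : ∀ v ∈ U, 32 * N ^ 2 * (Finset.univ.filter fun i => v ∉ X i).card ≤ Fintype.card ι)
    (P : Finset V → Prop)
    (hP : ∀ i, ∀ B : Fin 3 → Finset V, (∀ k, B k ⊆ U) → (∀ v ∈ U, v ∉ X i → ∃ k, v ∈ B k) →
      ∃ k, P (B k)) :
    ∃ W : Fin N → Finset V, (∀ j, W j ⊆ U ∧ P (W j)) ∧ ∀ i j, i ≠ j → Disjoint (W i) (W j) := by
  classical
  rcases Nat.eq_zero_or_pos N with rfl | hN
  · exact ⟨fun j => j.elim0, fun j => j.elim0, fun j => j.elim0⟩
  have hpos : 0 < Fintype.card ι := Fintype.card_pos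
  obtain ⟨nbr, hnbr⟩ := expander (A := ι × Fin N) (B := ι) N (Fintype.card ι / (32 * N)) hpos
    (by rw [Fintype.card_prod, Fintype.card_fin, Nat.mul_comm]) (Nat.mul_div_le _ _) hN
  have hex : ∀ v, ∃ f : ι × Fin N → ι, v ∈ U →
      (∀ a, v ∉ X a.1 → ∃ k, f a = nbr a k) ∧
      ∀ a a', v ∉ X a.1 → v ∉ X a'.1 → f a = f a' → a = a' := by
    intro v
    by_cases hv : v ∈ U
    swap
    · exact ⟨fun a => a.1, fun h => absurd h hv⟩
    have hI : (Finset.univ.filter fun a : ι × Fin N => v ∉ X a.1).card =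
        (Finset.univ.filter fun i => v ∉ X i).card * N := by
      have : (Finset.univ.filter fun a : ι × Fin N => v ∉ X a.1) =
          (Finset.univ.filter fun i => v ∉ X i) ×ˢ (Finset.univ : Finset (Fin N)) := by
        ext a
        simp
      rw [this, Finset.card_product]
      simp
    have hle : (Finset.univ.filter fun a : ι × Fin N => v ∉ X a.1).card ≤
        Fintype.card ι / (32 * N) := by
      rw [hI, Nat.le_div_iff_mul_le (by omega)]
      have := hmiss v hv
      nlinarith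
    let t : {a : ι × Fin N // v ∉ X a.1} → Finset ι := fun a => Finset.univ.image (nbr a.1)
    have hall : ∀ s : Finset {a : ι × Fin N // v ∉ X a.1}, s.card ≤ (s.biUnion t).card := by
      intro s
      have h1 : (s.map (Function.Embedding.subtype _)).card = s.card := Finset.card_map _
      have h2 : (s.map (Function.Embedding.subtype _)).card ≤ Fintype.card ι / (32 * N) := by
        refine le_trans (Finset.card_le_card ?_) hle
        intro a ha
        obtain ⟨b, _, rfl⟩ := Finset.mem_map.1 ha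
        simpa using b.2
      have h3 := hnbr _ h2
      rw [h1] at h3
      refine h3.trans (Finset.card_le_card ?_)
      intro x hx
      obtain ⟨a, ha, hxa⟩ := Finset.mem_biUnion.1 hx
      obtain ⟨b, hb, rfl⟩ := Finset.mem_map.1 ha
      exact Finset.mem_biUnion.2 ⟨b, hb, hxa⟩
    obtain ⟨f, hf1, hf2⟩ := (Finset.all_card_le_biUnion_card_iff_exists_injective t).1 hall
    refine ⟨fun a => if h : v ∉ X a.1 then f ⟨a, h⟩ else a.1, fun _ => ⟨?_, ?_⟩⟩
    · intro a ha
      obtain ⟨k, _, hk⟩ := Finset.mem_image.1 (hf2 ⟨a, ha⟩)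
      exact ⟨k, by simp only [ha, not_false_eq_true, dite_true]; exact hk.symm⟩
    · intro a a' ha ha' h
      simp only [ha, ha', not_false_eq_true, dite_true] at h
      have := hf1 h
      simpa using this
  choose f hf using hex
  have hk : ∀ a : ι × Fin N, ∃ k, P (U.filter fun v => v ∉ X a.1 ∧ f v a = nbr a k) := by
    intro a
    refine hP a.1 (fun k => U.filter fun v => v ∉ X a.1 ∧ f v a = nbr a k)
      (fun k => Finset.filter_subset _ _) ?_
    intro v hv hvX
    obtain ⟨k, hk⟩ := (hf v hv).1 a hvX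
    exact ⟨k, Finset.mem_filter.2 ⟨hv, hvX, hk⟩⟩
  choose k hk using hk
  obtain ⟨j, hj⟩ := Fintype.exists_le_card_fiber_of_mul_le_card (n := N)
    (fun a : ι × Fin N => nbr a (k a)) (by rw [Fintype.card_prod, Fintype.card_fin])
  set S := Finset.univ.filter fun a : ι × Fin N => nbr a (k a) = j with hS
  let e : Fin N → ι × Fin N := fun r => (S.equivFin.symm (Fin.castLE hj r)).1
  have he : ∀ r, nbr (e r) (k (e r)) = j := by
    intro r
    have : e r ∈ S := (S.equivFin.symm (Fin.castLE hj r)).2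
    exact (Finset.mem_filter.1 this).2
  have hinj : Function.Injective e := by
    intro r r' h
    have := Subtype.ext h
    have := S.equivFin.symm.injective this
    exact Fin.castLE_injective hj this
  refine ⟨fun r => U.filter fun v => v ∉ X (e r).1 ∧ f v (e r) = nbr (e r) (k (e r)),
    fun r => ⟨Finset.filter_subset _ _, hk (e r)⟩, ?_⟩
  intro r r' hne
  rw [Finset.disjoint_left]
  intro v hv hv'
  rw [Finset.mem_filter] at hv hv'
  apply hne
  apply hinj
  refine (hf v hv.1).2 _ _ hv.2.1 hv'.2.1 ?_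
  rw [hv.2.2, hv'.2.2, he, he]

end Crest.Agent.R042.KR509
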