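import Crest.Agent.R042.Spec_730

/-!
# Row 42 / S0059, (PAIR): the joint kernel of the one-block contractions (helper807)

`cont i lam` contracts block `i` of a tensor with `k + 1` blocks by the functional `lam`.
If all contractions `cont i lam z` with `lam (q i) = 0` are special of level `m - 1` (w.r.t. the
remaining blocks of `p`), then `z` is special of level `m` up to a multiple of `pure q`.
-/

open scoped BigOperators

set_option autoImplicit false
set_option linter.unusedSectionVars false

namespace Crest.Agent.R042.Ker807

open Crest.Agent.R042.Spec730 hiding pure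

local notation "pt" => Crest.Agent.R042.Spec730.pure

variable {F : Type*} [Field F] {k : ℕ} {ι : Type*} [Fintype ι] [DecidableEq ι]

/-- contraction of block `i` by `lam` -/
def cont (i : Fin (k + 1)) (lam : (ι → F) →ₗ[F] F) :
    ((Fin (k + 1) → ι) → F) →ₗ[F] ((Fin k → ι) → F) where
  toFun t := fun be => ∑ x : ι, lam (Pi.single x 1) * t (i.insertNth x be)
  map_add' s t := by
    funext be; simp [mul_add, Finset.sum_add_distrib]
  map_smul' c t := by
    funext be
    simp only [Pi.smul_apply, smul_eq_mul, RingHom.id_apply, Finset.mul_sum]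
    exact Finset.sum_congr rfl fun x _ => by ring

theorem cont_apply (i : Fin (k + 1)) (lam : (ι → F) →ₗ[F] F) (t : (Fin (k + 1) → ι) → F)
    (be : Fin k → ι) :
    cont i lam t be = ∑ x : ι, lam (Pi.single x 1) * t (i.insertNth x be) := rfl

theorem lam_eq (lam : (ι → F) →ₗ[F] F) (v : ι → F) :
    lam v = ∑ x : ι, lam (Pi.single x 1) * v x := by
  have hv : v = ∑ x : ι, v x • (Pi.single x (1 : F) : ι → F) := by
    funext y
    simp [Finset.sum_apply, Pi.single_apply]
  conv_lhs => rw [hv]
  simp only [map_sum, map_smul, smul_eq_mul]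
  exact Finset.sum_congr rfl fun x _ => by ring

theorem cont_pure (i : Fin (k + 1)) (lam : (ι → F) →ₗ[F] F) (c : Fin (k + 1) → ι → F) :
    cont i lam (pt c) = lam (c i) • pt (fun j => c (i.succAbove j)) := by
  funext be
  rw [cont_apply, Pi.smul_apply, smul_eq_mul, lam_eq lam (c i), Finset.sum_mul]
  refine Finset.sum_congr rfl fun x _ => ?_
  have h : pt c (i.insertNth x be) = c i x * pt (fun j => c (i.succAbove j)) be := by
    unfold Spec730.pure
    rw [Fin.prod_univ_succAbove _ i]
    simp [Fin.insertNth_apply_same, Fin.insertNth_apply_succAbove]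
  rw [h]; ring

/-- contraction loses at most one special block -/
theorem cont_spec (i : Fin (k + 1)) (lam : (ι → F) →ₗ[F] F) (m : ℕ) (p : Fin (k + 1) → ι → F)
    {t : (Fin (k + 1) → ι) → F} (ht : t ∈ spec m p) :
    cont i lam t ∈ spec (m - 1) (fun j => p (i.succAbove j)) := by
  classical
  refine Submodule.span_induction
    (p := fun t _ => cont i lam t ∈ spec (m - 1) (fun j => p (i.succAbove j))) ?_ ?_ ?_ ?_ ht
  · rintro x ⟨c, s, hs, hc, rfl⟩
    rw [cont_pure]
    refine Submodule.smul_mem _ _ (Submodule.subset_span ?_)
    refine ⟨fun j => c (i.succAbove j), Finset.univ.filter fun j => i.succAbove j ∈ s, ?_,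
      fun j hj => hc _ (Finset.mem_filter.1 hj).2, rfl⟩
    have h1 : (s.erase i) ⊆ (Finset.univ.filter fun j => i.succAbove j ∈ s).image i.succAbove := by
      intro j hj
      rw [Finset.mem_erase] at hj
      obtain ⟨j', rfl⟩ := Fin.exists_succAbove_eq hj.1
      exact Finset.mem_image.2 ⟨j', Finset.mem_filter.2 ⟨Finset.mem_univ _, hj.2⟩, rfl⟩
    have h2 := (Finset.card_le_card h1).trans Finset.card_image_le
    have h3 := Finset.pred_card_le_card_erase (s := s) (a := i)
    omega
  · rw [map_zero]; exact Submodule.zero_mem _
  · intro x y _ _ hx hy; rw [map_add]; exact Submodule.add_mem _ hx hy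
  · intro a x _ hx; rw [map_smul]; exact Submodule.smul_mem _ _ hx

/-- block decomposition of the product operator -/
theorem op_insertNth (A : Fin (k + 1) → (ι → F) →ₗ[F] (ι → F)) (z : (Fin (k + 1) → ι) → F)
    (i : Fin (k + 1)) (x : ι) (be : Fin k → ι) :
    op A z (i.insertNth x be) =
      op (fun j => A (i.succAbove j)) (cont i ((LinearMap.proj x).comp (A i)) z) be := by
  simp only [op, LinearMap.coe_mk, AddHom.coe_mk, cont_apply]
  rw [← (Fin.insertNthEquiv (fun _ => ι) i).sum_comp, Fintype.sum_prod_type, Finset.sum_comm]
  refine Finset.sum_congr rfl fun be' _ => ?_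
  rw [Finset.mul_sum]
  refine Finset.sum_congr rfl fun y _ => ?_
  rw [Fin.prod_univ_succAbove _ i]
  simp [Fin.insertNthEquiv, Fin.insertNth_apply_same, Fin.insertNth_apply_succAbove]
  ring

/-- a product operator kills the special tensors if it kills more than `k - m` blocks of `p` -/
theorem op_kill {k : ℕ} (A : Fin k → (ι → F) →ₗ[F] (ι → F)) (p : Fin k → ι → F) (m : ℕ)
    (hm : ∀ s : Finset (Fin k), m ≤ s.card → ∃ i ∈ s, A i (p i) = 0)
    {t : (Fin k → ι) → F} (ht : t ∈ spec m p) : op A t = 0 := by
  refine Submodule.span_induction (p := fun t _ => op A t = 0) ?_ ?_ ?_ ?_ ht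
  · rintro x ⟨c, s, hs, hc, rfl⟩
    obtain ⟨i, his, hi⟩ := hm s hs
    exact op_pure_zero _ _ i (by rw [hc i his]; exact hi)
  · simp
  · intro x y _ _ hx hy; rw [map_add, hx, hy, add_zero]
  · intro a x _ hx; rw [map_smul, hx, smul_zero]

/-- every tensor is a combination of product tensors -/
theorem span_pure {k : ℕ} : Submodule.span F (Set.range (pt : (Fin k → ι → F) → _)) = ⊤ := by
  classical
  rw [eq_top_iff]
  intro t _
  have h : t = ∑ be : Fin k → ι, t be • pt (fun i => (Pi.single (be i) (1 : F) : ι → F)) := by
    funext al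
    rw [Finset.sum_apply]
    rw [Finset.sum_eq_single al]
    · simp [Spec730.pure]
    · intro be _ hbe
      obtain ⟨i, hi⟩ := Function.ne_iff.1 hbe
      rw [Pi.smul_apply, smul_eq_mul]
      unfold Spec730.pure
      rw [Finset.prod_eq_zero (Finset.mem_univ i) (by simp [Pi.single_apply, Ne.symm hi]), mul_zero]
    · intro h; exact absurd (Finset.mem_univ _) h
  rw [h]
  exact Submodule.sum_mem _ fun be _ => Submodule.smul_mem _ _ (Submodule.subset_span ⟨_, rfl⟩)

/-- the product operator with projections to `p i` on the blocks of `s` -/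
theorem op_mem_spec {k : ℕ} (A : Fin k → (ι → F) →ₗ[F] (ι → F)) (p : Fin k → ι → F) (m : ℕ)
    (s : Finset (Fin k)) (hs : m ≤ s.card) (al : Fin k → (ι → F) →ₗ[F] F)
    (hA : ∀ i ∈ s, A i = (al i).smulRight (p i)) (t : (Fin k → ι) → F) : op A t ∈ spec m p := by
  classical
  have ht : t ∈ Submodule.span F (Set.range (pt : (Fin k → ι → F) → _)) := by
    rw [span_pure]; trivial
  refine Submodule.span_induction (p := fun t _ => op A t ∈ spec m p) ?_ ?_ ?_ ?_ ht
  · rintro x ⟨c, rfl⟩
    rw [op_pure]
    have h1 : pt (fun i => A i (c i)) =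
        (∏ i ∈ s, al i (c i)) • pt (fun i => if i ∈ s then p i else A i (c i)) := by
      funext be
      rw [Pi.smul_apply, smul_eq_mul]
      unfold Spec730.pure
      rw [← Finset.prod_mul_prod_compl s, ← Finset.prod_mul_prod_compl s, ← mul_assoc,
        ← Finset.prod_mul_distrib]
      congr 1
      · refine Finset.prod_congr rfl fun i hi => ?_
        show A i (c i) (be i) = al i (c i) * (if i ∈ s then p i else A i (c i)) (be i)
        rw [if_pos hi, hA i hi]; simp
      · refine Finset.prod_congr rfl fun i hi => ?_
        show A i (c i) (be i) = (if i ∈ s then p i else A i (c i)) (be i)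
        rw [if_neg (Finset.mem_compl.1 hi)]
    rw [h1]
    refine Submodule.smul_mem _ _ (Submodule.subset_span ?_)
    exact ⟨_, s, hs, fun i hi => by simp [hi], rfl⟩
  · rw [map_zero]; exact Submodule.zero_mem _
  · intro x y _ _ hx hy; rw [map_add]; exact Submodule.add_mem _ hx hy
  · intro a x _ hx; rw [map_smul]; exact Submodule.smul_mem _ _ hx

/-- the product operator with projections to `q i` on all blocks -/
theorem op_mem_line {k : ℕ} (A : Fin k → (ι → F) →ₗ[F] (ι → F)) (q : Fin k → ι → F)
    (be : Fin k → (ι → F) →ₗ[F] F)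
    (hA : ∀ i, A i = (be i).smulRight (q i)) (t : (Fin k → ι) → F) :
    ∃ c : F, op A t = c • pt q := by
  classical
  have ht : t ∈ Submodule.span F (Set.range (pt : (Fin k → ι → F) → _)) := by
    rw [span_pure]; trivial
  refine Submodule.span_induction (p := fun t _ => ∃ c : F, op A t = c • pt q) ?_ ?_ ?_ ?_ ht
  · rintro x ⟨c, rfl⟩
    refine ⟨∏ i, be i (c i), ?_⟩
    rw [op_pure]
    funext be'
    rw [Pi.smul_apply, smul_eq_mul]
    unfold Spec730.pure
    rw [← Finset.prod_mul_distrib]
    refine Finset.prod_congr rfl fun i _ => ?_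
    show A i (c i) (be' i) = be i (c i) * q i (be' i)
    rw [hA i]; simp
  · exact ⟨0, by simp⟩
  · rintro x y _ _ ⟨c, hx⟩ ⟨d, hy⟩; exact ⟨c + d, by rw [map_add, hx, hy, add_smul]⟩
  · rintro a x _ ⟨c, hx⟩; exact ⟨a * c, by rw [map_smul, hx, mul_smul]⟩

/-- dual vectors of an independent pair -/
theorem exists_dual (p q : ι → F) (h : LinearIndependent F ![p, q]) :
    ∃ α β : (ι → F) →ₗ[F] F, α p = 1 ∧ α q = 0 ∧ β p = 0 ∧ β q = 1 := by
  obtain ⟨g, hg⟩ := LinearMap.exists_leftInverse_of_injective
      (Fintype.linearCombination F ![p, q])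
      (by
        rw [LinearMap.ker_eq_bot]
        exact h.fintypeLinearCombination_injective)
  have e0 : g p = Pi.single 0 1 := by
    have := LinearMap.congr_fun hg (Pi.single 0 1)
    simpa [Fintype.linearCombination_apply_single] using this
  have e1 : g q = Pi.single 1 1 := by
    have := LinearMap.congr_fun hg (Pi.single 1 1)
    simpa [Fintype.linearCombination_apply_single] using this
  refine ⟨(LinearMap.proj 0).comp g, (LinearMap.proj 1).comp g, ?_, ?_, ?_, ?_⟩ <;>
    simp [e0, e1]

/-- **joint kernel of the contractions, `Q ⊥ Q'`**: if all contractions by functionals killing `q i`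
are special, then `z` is special up to a multiple of `pure q`. -/
theorem ker_line (m : ℕ) (hm : 2 ≤ m) (p q : Fin (k + 1) → ι → F)
    (hpq : ∀ i, LinearIndependent F ![p i, q i]) (z : (Fin (k + 1) → ι) → F)
    (hz : ∀ i, ∀ lam : (ι → F) →ₗ[F] F, lam (q i) = 0 →
      cont i lam z ∈ spec (m - 1) (fun j => p (i.succAbove j))) :
    ∃ c : F, z - c • pt q ∈ spec m p := by
  classical
  choose α β hαp hαq hβp hβq using fun i => exists_dual (p i) (q i) (hpq i)
  let A : Fin 3 → Fin (k + 1) → (ι → F) →ₗ[F] (ι → F) := fun c i =>
    if c = 0 then (α i).smulRight (p i) else if c = 1 then (β i).smulRight (q i)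
      else LinearMap.id - (α i).smulRight (p i) - (β i).smulRight (q i)
  have hA : ∀ i, ∑ c, A c i = LinearMap.id := by
    intro i
    simp [A, Fin.sum_univ_three]
  have hAp : ∀ c i, c ≠ 0 → A c i (p i) = 0 := by
    intro c i hc
    fin_cases c <;> simp_all [A]
  have hAq : ∀ c i, c ≠ 1 → A c i (q i) = 0 := by
    intro c i hc
    fin_cases c <;> simp_all [A]
  -- every colouring
  have key : ∀ χ : Fin (k + 1) → Fin 3, ∃ c : F, op (fun i => A (χ i) i) z - c • pt q ∈ spec m p := by
    intro χ
    by_cases h0 : m ≤ (Finset.univ.filter fun i => χ i = 0).card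
    · refine ⟨0, ?_⟩
      rw [zero_smul, sub_zero]
      refine op_mem_spec _ p m _ h0 α ?_ z
      intro i hi
      simp [A, (Finset.mem_filter.1 hi).2]
    by_cases h1 : ∀ i, χ i = 1
    · obtain ⟨c, hc⟩ := op_mem_line (fun i => A (χ i) i) q β (by intro i; simp [A, h1 i]) z
      exact ⟨c, by rw [hc, sub_self]; exact Submodule.zero_mem _⟩
    · -- there is a block not coloured 1 whose complement has less than m - 1 blocks of colour 0
      push Not at h0 h1
      have hi : ∃ i, χ i ≠ 1 ∧
          (Finset.univ.filter fun j : Fin k => χ (i.succAbove j) = 0).card < m - 1 := by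
        have hcard : ∀ i : Fin (k + 1),
            (Finset.univ.filter fun j : Fin k => χ (i.succAbove j) = 0).card ≤
              ((Finset.univ.filter fun j => χ j = 0).erase i).card := by
          intro i
          rw [← Finset.card_image_of_injective _ (Fin.succAbove_right_injective (p := i))]
          refine Finset.card_le_card ?_
          intro j hj
          obtain ⟨j', hj', rfl⟩ := Finset.mem_image.1 hj
          rw [Finset.mem_erase, Finset.mem_filter]
          exact ⟨Fin.succAbove_ne i j', Finset.mem_univ _, (Finset.mem_filter.1 hj').2⟩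
        by_cases hc : (Finset.univ.filter fun i => χ i = 0).card < m - 1
        · obtain ⟨i, hi⟩ := h1
          exact ⟨i, hi, lt_of_le_of_lt ((hcard i).trans (Finset.card_le_card
            (Finset.erase_subset _ _))) hc⟩
        · have hne : (Finset.univ.filter fun i => χ i = 0).Nonempty := by
            rw [← Finset.card_pos]; omega
          obtain ⟨i, hi⟩ := hne
          refine ⟨i, ?_, ?_⟩
          · rw [(Finset.mem_filter.1 hi).2]; decide
          · have := hcard i
            rw [Finset.card_erase_of_mem hi] at this
            have := Finset.card_pos.2 ⟨i, hi⟩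
            omega
      obtain ⟨i, hi1, hi2⟩ := hi
      refine ⟨0, ?_⟩
      have hzero : op (fun i => A (χ i) i) z = 0 := by
        funext al
        have hal : al = i.insertNth (al i) (fun j => al (i.succAbove j)) :=
          (Fin.insertNth_self_removeNth i al).symm
        rw [hal, op_insertNth]
        have h2 := hz i ((LinearMap.proj (al i)).comp (A (χ i) i)) (by
          simp [hAq (χ i) i hi1])
        have h3 := op_kill (fun j => A (χ (i.succAbove j)) (i.succAbove j))
          (fun j => p (i.succAbove j)) (m - 1) (by
            intro s hs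
            by_contra hcon
            push Not at hcon
            have : s ⊆ Finset.univ.filter fun j : Fin k => χ (i.succAbove j) = 0 := by
              intro j hj
              rw [Finset.mem_filter]
              refine ⟨Finset.mem_univ _, ?_⟩
              by_contra hne
              exact hcon j hj (hAp _ _ hne)
            exact absurd (Finset.card_le_card this) (by omega)) h2
        exact congrFun h3 _
      rw [hzero, zero_smul, sub_zero]
      exact Submodule.zero_mem _
  choose c hc using key
  refine ⟨∑ χ, c χ, ?_⟩
  have hsum := sum_op (Fin 3) A hA z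
  have : z - (∑ χ, c χ) • pt q = ∑ χ : Fin (k + 1) → Fin 3,
      (op (fun i => A (χ i) i) z - c χ • pt q) := by
    rw [Finset.sum_sub_distrib, hsum, Finset.sum_smul]
  rw [this]
  exact Submodule.sum_mem _ fun χ _ => hc χ

/-- **joint kernel of all contractions, `Q` not `⊥ Q'`**: here even one block is enough, but we only
need the form with all blocks. -/
theorem ker_all (m : ℕ) (hm : 2 ≤ m) (p : Fin (k + 1) → ι → F) (hp : ∀ i, p i ≠ 0)
    (z : (Fin (k + 1) → ι) → F)
    (hz : ∀ i, ∀ lam : (ι → F) →ₗ[F] F,
      cont i lam z ∈ spec (m - 1) (fun j => p (i.succAbove j))) : z ∈ spec m p := by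
  classical
  have hd : ∀ i, ∃ α : (ι → F) →ₗ[F] F, α (p i) = 1 := by
    intro i
    obtain ⟨x, hx⟩ := Function.ne_iff.1 (hp i)
    refine ⟨(p i x)⁻¹ • LinearMap.proj x, ?_⟩
    simp only [LinearMap.smul_apply, LinearMap.proj_apply, smul_eq_mul]
    exact inv_mul_cancel₀ hx
  choose α hα using hd
  let A : Fin 2 → Fin (k + 1) → (ι → F) →ₗ[F] (ι → F) := fun c i =>
    if c = 0 then (α i).smulRight (p i) else LinearMap.id - (α i).smulRight (p i)
  have hA : ∀ i, ∑ c, A c i = LinearMap.id := by
    intro i
    simp [A, Fin.sum_univ_two]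
  have hAp : ∀ c i, c ≠ 0 → A c i (p i) = 0 := by
    intro c i hc
    fin_cases c <;> simp_all [A]
  have key : ∀ χ : Fin (k + 1) → Fin 2, op (fun i => A (χ i) i) z ∈ spec m p := by
    intro χ
    by_cases h0 : m ≤ (Finset.univ.filter fun i => χ i = 0).card
    · refine op_mem_spec _ p m _ h0 α ?_ z
      intro i hi
      simp [A, (Finset.mem_filter.1 hi).2]
    · push Not at h0
      have hi : ∃ i : Fin (k + 1),
          (Finset.univ.filter fun j : Fin k => χ (i.succAbove j) = 0).card < m - 1 := by
        have hcard : ∀ i : Fin (k + 1),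
            (Finset.univ.filter fun j : Fin k => χ (i.succAbove j) = 0).card ≤
              ((Finset.univ.filter fun j => χ j = 0).erase i).card := by
          intro i
          rw [← Finset.card_image_of_injective _ (Fin.succAbove_right_injective (p := i))]
          refine Finset.card_le_card ?_
          intro j hj
          obtain ⟨j', hj', rfl⟩ := Finset.mem_image.1 hj
          rw [Finset.mem_erase, Finset.mem_filter]
          exact ⟨Fin.succAbove_ne i j', Finset.mem_univ _, (Finset.mem_filter.1 hj').2⟩
        by_cases hc : (Finset.univ.filter fun i => χ i = 0).card < m - 1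
        · exact ⟨0, lt_of_le_of_lt ((hcard 0).trans (Finset.card_le_card
            (Finset.erase_subset _ _))) hc⟩
        · have hne : (Finset.univ.filter fun i => χ i = 0).Nonempty := by
            rw [← Finset.card_pos]; omega
          obtain ⟨i, hi⟩ := hne
          refine ⟨i, ?_⟩
          have := hcard i
          rw [Finset.card_erase_of_mem hi] at this
          have := Finset.card_pos.2 ⟨i, hi⟩
          omega
      obtain ⟨i, hi2⟩ := hi
      have hzero : op (fun i => A (χ i) i) z = 0 := by
        funext al
        have hal : al = i.insertNth (al i) (fun j => al (i.succAbove j)) :=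
          (Fin.insertNth_self_removeNth i al).symm
        rw [hal, op_insertNth]
        have h2 := hz i ((LinearMap.proj (al i)).comp (A (χ i) i))
        have h3 := op_kill (fun j => A (χ (i.succAbove j)) (i.succAbove j))
          (fun j => p (i.succAbove j)) (m - 1) (by
            intro s hs
            by_contra hcon
            push Not at hcon
            have : s ⊆ Finset.univ.filter fun j : Fin k => χ (i.succAbove j) = 0 := by
              intro j hj
              rw [Finset.mem_filter]
              refine ⟨Finset.mem_univ _, ?_⟩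
              by_contra hne
              exact hcon j hj (hAp _ _ hne)
            exact absurd (Finset.card_le_card this) (by omega)) h2
        exact congrFun h3 _
      rw [hzero]
      exact Submodule.zero_mem _
  rw [← sum_op (Fin 2) A hA z]
  exact Submodule.sum_mem _ fun χ _ => key χ

end Crest.Agent.R042.Ker807
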