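import Crest.Agent.R042.Inst_592
import Crest.Agent.R042.GadB_44

/-! Row 42 / S0059, PLAN B: `LI v x m` for an arbitrary number `m` of the sample vectors (the
generalisation of `Gen_592` / `Inst_592` from 8 to `m + 1`; proofs after helper592). -/

set_option autoImplicit false
set_option linter.unusedSectionVars false
set_option linter.unusedSimpArgs false

namespace Crest.Agent.R042.LIm44

open Finset Function
open scoped Classical
open Crest.Agent.R042.TLev333 Crest.Agent.R042.Fam543 Crest.Agent.R042.Gen592
  Crest.Agent.R042.Inst592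

/-- independence of more vectors implies independence of fewer. -/
theorem li_mono {K W Ω I : Type*} [Field K] [AddCommGroup W] [Module K W] {v : Ω → W}
    {x : I → Ω} {a b : ℕ} (h : a ≤ b) (hx : LI K v b x) : LI K v a x :=
  fun J hJ => hx J (hJ.trans h)

section Gen

variable {K W Ω I : Type*} [Field K] [Fintype K] [AddCommGroup W] [Module K W] [Fintype W]
  [Fintype Ω]

/-- the set of bad samples: some vector lies in the span of `m` others. -/
lemma li_of_notMem (m : ℕ) {v : Ω → W} [Fintype I] (hI : 2 ≤ Fintype.card I) {x : I → Ω}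
    (h : ∀ (f : Fin m → I) (i : I), (∀ j, f j ≠ i) →
      v (x i) ∉ Submodule.span K (Set.range fun j => v (x (f j)))) : LI K v (m + 1) x := by
  classical
  intro J hJ
  rw [linearIndependent_iff_notMem_span]
  rintro ⟨i, hi⟩ hmem
  obtain ⟨d, hd⟩ := Fintype.exists_ne_of_one_lt_card (show 1 < Fintype.card I by omega) i
  have hcard : (J.erase i).card ≤ m := by
    rw [Finset.card_erase_of_mem hi]
    omega
  refine h (fun k => ((J.erase i).toList[(k : ℕ)]?).getD d) i ?_ ?_
  · intro k
    rcases hk : ((J.erase i).toList[(k : ℕ)]?) with _ | j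
    · simpa [hk] using hd
    · have hj : j ∈ J.erase i := by
        rw [← Finset.mem_toList]
        exact List.mem_of_getElem? hk
      simp only [hk, Option.getD_some]
      exact (Finset.mem_erase.mp hj).1
  · refine Submodule.span_mono ?_ hmem
    rintro _ ⟨⟨j, hj⟩, hji, rfl⟩
    have hji' : j ≠ i := fun hh => hji.2 (by simp [hh])
    have hj' : j ∈ (J.erase i).toList := by
      rw [Finset.mem_toList]
      exact Finset.mem_erase.mpr ⟨hji', hj⟩
    obtain ⟨k, hk, hk'⟩ := List.mem_iff_getElem.mp hj'
    rw [Finset.length_toList] at hk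
    refine ⟨⟨k, by omega⟩, ?_⟩
    have hk2 : (J.erase i).toList[k]? = some j := by
      rw [List.getElem?_eq_some_iff]
      exact ⟨by rw [Finset.length_toList]; exact hk, hk'⟩
    simp only [hk2, Option.getD_some]

lemma card_span_le (m : ℕ) {v : Ω → W} {c : ℕ} (hv : Fib v c) (u : Fin m → W) :
    (univ.filter fun Q : Ω => v Q ∈ Submodule.span K (Set.range u)).card ≤
      Fintype.card K ^ m * c := by
  classical
  rw [card_pre hv (fun w => w ∈ Submodule.span K (Set.range u))]
  refine Nat.mul_le_mul_right _ ?_
  have hsub : (univ.filter fun w : W => w ∈ Submodule.span K (Set.range u)) ⊆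
      (univ : Finset (Fin m → K)).image (fun a => ∑ i, a i • u i) := by
    intro w hw
    rw [Finset.mem_filter] at hw
    obtain ⟨a, ha⟩ := (Submodule.mem_span_range_iff_exists_fun K).mp hw.2
    rw [Finset.mem_image]
    exact ⟨a, Finset.mem_univ _, ha⟩
  calc _ ≤ _ := Finset.card_le_card hsub
    _ ≤ _ := Finset.card_image_le
    _ = _ := by rw [Finset.card_univ, Fintype.card_fun, Fintype.card_fin]

/-- all but `N^(m+1) K^m / |W|` of the samples are (m+1)-generic. -/
theorem card_not_li_le (m : ℕ) [Fintype I] [Nonempty Ω] {v : Ω → W} {c : ℕ} (hv : Fib v c)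
    (hI : 2 ≤ Fintype.card I) :
    (((univ.filter fun x : I → Ω => ¬ LI K v (m + 1) x).card : ℕ) : ℝ) ≤
      (Fintype.card I : ℝ) ^ (m + 1) * ((Fintype.card K : ℝ) ^ m / Fintype.card W) *
        (Fintype.card Ω : ℝ) ^ Fintype.card I := by
  classical
  set κ : ℝ := (Fintype.card K : ℝ) ^ m / Fintype.card W with hκ
  have hW : (0 : ℝ) < Fintype.card W := by exact_mod_cast Fintype.card_pos
  have hκ0 : 0 ≤ κ := by positivity
  set D : (Fin m → I) × I → Finset (I → Ω) := fun p =>
    univ.filter fun x => (∀ j, p.1 j ≠ p.2) ∧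
      v (x p.2) ∈ Submodule.span K (Set.range fun j => v (x (p.1 j))) with hD
  have hsub : (univ.filter fun x : I → Ω => ¬ LI K v (m + 1) x) ⊆ univ.biUnion D := by
    intro x hx
    rw [Finset.mem_filter] at hx
    by_contra hcon
    apply hx.2
    refine li_of_notMem m hI (fun f i hf hmem => hcon ?_)
    rw [Finset.mem_biUnion]
    refine ⟨(f, i), Finset.mem_univ _, ?_⟩
    rw [hD, Finset.mem_filter]
    exact ⟨Finset.mem_univ _, hf, hmem⟩
  have hDc : ∀ p, ((D p).card : ℝ) ≤ κ * (Fintype.card Ω : ℝ) ^ Fintype.card I := by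
    rintro ⟨f, i⟩
    by_cases hf : ∀ j, f j ≠ i
    · have h := count_one (I := I) (Ω := Ω) {i}
        (fun x => univ.filter fun Q : Ω => v Q ∈ Submodule.span K (Set.range fun j => v (x (f j))))
        κ hκ0 (by
          intro x j hj a
          rw [Finset.mem_singleton] at hj
          subst hj
          have : (fun k => v (update x j a (f k))) = fun k => v (x (f k)) := by
            funext k
            rw [update_of_ne (hf k)]
          rw [this]) (by
          intro x
          have h1 := card_span_le (K := K) m hv (fun j => v (x (f j)))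
          have h2 : (Fintype.card Ω : ℝ) = Fintype.card W * c := by
            rw [card_Om hv]; push_cast; rfl
          have h3 : ((univ.filter fun Q : Ω => v Q ∈
              Submodule.span K (Set.range fun j => v (x (f j)))).card : ℝ) ≤
              (Fintype.card K : ℝ) ^ m * c := by exact_mod_cast h1
          refine h3.trans (le_of_eq ?_)
          rw [h2, hκ]
          field_simp)
      rw [Finset.card_singleton, pow_one] at h
      refine le_trans ?_ h
      refine Nat.cast_le.mpr (Finset.card_le_card ?_)
      intro x hx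
      rw [hD, Finset.mem_filter] at hx
      rw [Finset.mem_filter]
      refine ⟨Finset.mem_univ _, ?_⟩
      intro j hj
      rw [Finset.mem_singleton] at hj
      subst hj
      rw [Finset.mem_filter]
      exact ⟨Finset.mem_univ _, hx.2.2⟩
    · have : D (f, i) = ∅ := by
        rw [hD]
        refine Finset.filter_eq_empty_iff.mpr ?_
        intro x _ hx
        exact hf hx.1
      rw [this, Finset.card_empty]
      push_cast
      positivity
  calc (((univ.filter fun x : I → Ω => ¬ LI K v (m + 1) x).card : ℕ) : ℝ)
      ≤ ∑ p, ((D p).card : ℝ) := by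
        have h := (Finset.card_le_card hsub).trans Finset.card_biUnion_le
        exact_mod_cast h
    _ ≤ ∑ _p : (Fin m → I) × I, κ * (Fintype.card Ω : ℝ) ^ Fintype.card I :=
        Finset.sum_le_sum (fun p _ => hDc p)
    _ = _ := by
        rw [Finset.sum_const, Finset.card_univ, Fintype.card_prod, Fintype.card_fun,
          Fintype.card_fin, nsmul_eq_mul]
        push_cast
        ring

end Gen

section Fam

variable {k0 KK : Type} [Field k0] [Field KK] [Algebra k0 KK]

/-- at most `m` of the vectors `b` of a sample are linearly independent. -/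
theorem li_b {K : Set k0} {d L m : ℕ} {I : Type*} {x : I → Om KK K d L} (hx : LI KK vv m x)
    (J : Finset I) (hJ : J.card ≤ m) : LinearIndependent KK (fun i : J => (x i).1.b) := by
  have h := hx J hJ
  let f : (Ix d → KK) →ₗ[KK] WW KK d := LinearMap.funLeft KK KK some
  exact LinearIndependent.of_comp f h

/-- neighbourhoods of a graph of degree `≤ m`: hypothesis `hli` of `GadB44.exists_gadB`. -/
theorem li_nbr {K : Set k0} {d L m : ℕ} {I : Type*} [Fintype I] {x : I → Om KK K d L}
    (hx : LI KK vv m x) (Γ : SimpleGraph I) [DecidableRel Γ.Adj]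
    (hdeg : ∀ i, (univ.filter fun j => Γ.Adj i j).card ≤ m) (i : I) :
    LinearIndependent KK (fun j : {j // Γ.Adj i j} => (x j).1.b) := by
  have h := li_b hx (univ.filter fun j => Γ.Adj i j) (hdeg i)
  exact h.comp (fun j : {j // Γ.Adj i j} =>
    (⟨j.1, Finset.mem_filter.2 ⟨mem_univ _, j.2⟩⟩ : (univ.filter fun j => Γ.Adj i j)))
    (fun a b hab => by
      have h1 := congrArg Subtype.val hab
      exact Subtype.ext h1)

variable [Fintype k0] [Fintype KK]

/-- all but `N^(m+1) |KK|^m / |KK|^(2d)` of the samples have any `m + 1` vectors independent. -/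
theorem card_not_li (m : ℕ) {K : Set k0} (h1 : (1 : k0) ∈ K) (d L : ℕ) {I : Type*} [Fintype I]
    (hI : 2 ≤ Fintype.card I) :
    (((univ.filter fun x : I → Om KK K d L => ¬ LI KK vv (m + 1) x).card : ℕ) : ℝ) ≤
      (Fintype.card I : ℝ) ^ (m + 1) *
        ((Fintype.card KK : ℝ) ^ m / (Fintype.card KK : ℝ) ^ (2 * d)) *
        (Fintype.card (Om KK K d L) : ℝ) ^ Fintype.card I := by
  have := nonempty_Om (KK := KK) h1 d L
  have h := card_not_li_le (K := KK) (I := I) m (fib (KK := KK) K d L) hI
  rw [card_WW] at h
  push_cast at h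
  exact h

end Fam

end Crest.Agent.R042.LIm44
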