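import Crest.Agent.R042.FinB_713
import Crest.Agent.R042.HG_365

/-!
# Row 42 / S0059, plan B: the asymptotic form of the label theorem consumed by the top theorem
-/

set_option autoImplicit false
set_option linter.unusedSectionVars false

namespace Crest.Agent.R042.FinB713

open Finset Filter Crest.Agent.R042.RowWin543 Crest.Agent.R042.Fam543
  Crest.Agent.R042.LocFam958 Crest.Agent.R042.SspAsm375 Crest.Agent.R042.Inst592
open scoped Classical

/-- **LABEL THEOREM, asymptotic form** (`card k0 = q`, `card KK = q ^ (2 j) = (2 ^ e) ^ 2`,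
`J = q ^ j`, density of `μ` at most `|KK| ^ m1`, marginals at most `cm / |KK| ^ 17`, `η = 1 / 8`):
the exceptional mass is at most `1 / (128 |KK| ^ 4)`.  `K1` is fixed before `j → ∞`. -/
def LabelAsy (q d L m1 : ℕ) (cm : ℝ) : Prop :=
  ∃ K1 : ℝ, 1 ≤ K1 ∧ ∀ᶠ j : ℕ in atTop,
    ∀ (k0 KK : Type) [Field k0] [Fintype k0] [Field KK] [Fintype KK] [Algebra k0 KK]
      [CharP KK 2] (e : ℕ), Fintype.card k0 = q → 2 ^ e = q ^ j →
      Fintype.card KK = q ^ (2 * j) →
    ∀ (K : Set k0), Fam543.Alph K → 0 < L → ∀ (ι : Type) [Fintype ι] [DecidableEq ι]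
      (x : ι → Om KK K d L), Gen592.LI KK vv 8 x →
    ∀ (p : Bool → ι), p false ≠ p true → ∀ μ : VV k0 KK d 2 L → ℝ, IsP μ →
      (∀ v, μ v * Fintype.card (VV k0 KK d 2 L) ≤ (Fintype.card KK : ℝ) ^ m1) →
      HG365.LabelConcl (2 ^ e) (fun i => (x i).1) (q ^ j) (1 / (8 * K1)) K1 (1 / 8)
        (1 / 128 * ((Fintype.card KK : ℝ)⁻¹) ^ 4) (cm / (Fintype.card KK : ℝ) ^ 17) p μ

end Crest.Agent.R042.FinB713
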