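import Crest.Agent.R042.LabB_763
import Crest.Agent.R042.PBAsy_713

/-!
# Row 42 (S0059, plan B): `LabelAsy` (713's asymptotic form of the label theorem)
-/

set_option autoImplicit false
set_option linter.unusedSectionVars false

namespace Crest.Agent.R042.LabB763

open Finset Crest.Agent.R042.PB Crest.Agent.R042.RowWin543 Crest.Agent.R042.Fam543
  Crest.Agent.R042.LocFam958 Crest.Agent.R042.ConfB461 Crest.Agent.R042.SspAsm375
  Crest.Agent.R042.SspFin375 Crest.Agent.R042.SspT375 Crest.Agent.R042.TLev333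
  Crest.Agent.R042.SspB375 Crest.Agent.R042.LocA726 Crest.Agent.R042.Inst592
  Crest.Agent.R042.SysOf333 Crest.Agent.R042.HG365 Crest.Agent.R042.FinB713
  Crest.Agent.R042.ParamBL763
open scoped Classical

/-- independence of at most `6` vectors from `LI 8` -/
theorem li6_of_li8 {k0 KK : Type} [Field k0] [Field KK] [Algebra k0 KK] [Fintype k0] [Fintype KK]
    {K : Set k0} {d L : ℕ} {ι : Type} [Fintype ι] {x : ι → Om KK K d L}
    (hx : Gen592.LI KK vv 8 x) (J : Finset ι) (hJ : J.card ≤ 6) :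
    LinearIndependent KK (fun i : J => (x i).1.b) := by
  let f : (Ix d → KK) →ₗ[KK] WW KK d := LinearMap.funLeft KK KK some
  exact LinearIndependent.of_comp f (hx J (hJ.trans (by norm_num)))

/-- **`LabelAsy`** -/
theorem labelAsy (q : ℕ) (hq : 2 ≤ q) (d L m1 : ℕ) (cm : ℝ) (hcm : 0 ≤ cm) :
    LabelAsy q d L m1 cm := by
  obtain ⟨h, m, K₀, -, -, hK₀, hnum⟩ := label_numbers q hq m1 (L * (2 * d + 1) ^ 2)
    (η := 1 / 8) (cm := cm) (cθ := 1 / 128) (by norm_num) hcm (by norm_num) 0 0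
  obtain ⟨b, C, -, -, hno⟩ := PBLabel341.noK (PBProb477.prob q h m)
  have hq0 : (0 : ℝ) < (q : ℝ) := by exact_mod_cast (by omega : 0 < q)
  have hq1 : (1 : ℝ) ≤ (q : ℝ) := by exact_mod_cast (by omega : 1 ≤ q)
  have hK1 : 1 ≤ K₀ * (q : ℝ) ^ 2 := by
    have : (1 : ℝ) ≤ (q : ℝ) ^ 2 := one_le_pow₀ hq1
    nlinarith
  refine ⟨K₀ * (q : ℝ) ^ 2, hK1, ?_⟩
  filter_upwards [hnum b C (1 / (8 * (K₀ * (q : ℝ) ^ 2))) (by positivity)] with j hj
  intro k0 KK _ _ _ _ _ _ e hcq he hcK K hK hL ι _ _ x hLI p hp μ hμ hMμ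
  obtain ⟨Nsd, δ, hNsd, hδ0, hδ1, n0, n1, n2, n3, -, n4⟩ := hj
  have hcKr : (Fintype.card KK : ℝ) = (q : ℝ) ^ (2 * j) := by exact_mod_cast hcK
  rw [hcKr] at hMμ ⊢
  have hcU : (Fintype.card (U KK d 2 L) : ℝ) = ((q : ℝ) ^ (2 * j)) ^ (L * (2 * d + 1) ^ 2) := by
    rw [card_UU, hcKr]
  obtain ⟨n5, n6⟩ := n4 (((q : ℝ) ^ (2 * j)) ^ m1) (Fintype.card (U KK d 2 L) : ℝ)
    (by positivity) le_rfl (Nat.cast_nonneg _) hcU.le
  intro κ _ r t' ht0 ht1 htm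
  obtain ⟨Ys, hYs⟩ := PBLabel341.label hno hcq hK (T := fun i => (x i).1) (fun i => (x i).2)
    (li6_of_li8 hLI) e hL p hp r t' ht0 ht1
    (cm / ((q : ℝ) ^ (2 * j)) ^ 17) htm μ hμ.nonneg hμ.sum (((q : ℝ) ^ (2 * j)) ^ m1) hMμ
    (1 / (8 * (K₀ * (q : ℝ) ^ 2))) (by positivity)
    (1 / 128 * ((q : ℝ) ^ (2 * j))⁻¹ ^ 4) δ (q ^ j) n0 n1 n2 hδ1 n5 Nsd hNsd
    (K₀ * (q : ℝ) ^ 2) K₀ hK₀ (by rw [hcq]) (1 / 8) (by norm_num) n6 (by
      rw [hcq]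
      refine le_trans (le_of_eq ?_) n3
      ring)
  refine ⟨Ys, le_trans (le_of_eq (Finset.sum_congr rfl fun x' _ => ?_)) hYs⟩
  exact congrArg (t' x' * ·) (ite_eq Iff.rfl)

end Crest.Agent.R042.LabB763
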