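import Crest.Agent.R042.PBLabel_341
import Crest.Agent.R042.PBProb_477
import Crest.Agent.R042.HG_365
import Crest.Agent.R042.FinB_713
import Crest.Agent.R042.ParamBL2_763

/-!
# Row 42 (S0059, plan B): the label theorem in asymptotic form

`hLab_asym`: for every `q, d, L, m1` there are a constant `K1` and a threshold such that for all
fields `k0 ≤ KK` with `card k0 = q`, `card KK = (2 ^ e) ^ 2` above the threshold, the hypothesis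
`hLab` of `FinB713.pair_of_level` holds with `J = 2 ^ e`, density `D = (card KK) ^ m1`, marginals
`1 / (card KK) ^ 15` and `e₀ = 1 / (128 (card KK) ^ 4)`.
-/

set_option autoImplicit false
set_option linter.unusedSectionVars false

namespace Crest.Agent.R042.LabB763

open Finset Crest.Agent.R042.PB Crest.Agent.R042.RowWin543 Crest.Agent.R042.Fam543
  Crest.Agent.R042.LocFam958 Crest.Agent.R042.ConfB461 Crest.Agent.R042.SspAsm375
  Crest.Agent.R042.SspFin375 Crest.Agent.R042.SspT375 Crest.Agent.R042.TLev333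
  Crest.Agent.R042.SspB375 Crest.Agent.R042.LocA726 Crest.Agent.R042.Inst592
  Crest.Agent.R042.SysOf333 Crest.Agent.R042.HG365 Crest.Agent.R042.FinB713
  Crest.Agent.R042.ParamBL763
open scoped Classical

/-- the numbers of the label theorem in the variable `Q = 2 ^ e` -/
theorem label_numbersQ (q : ℕ) (hq : 2 ≤ q) (m1 u1 : ℕ) {η : ℝ} (hη : 0 < η) :
    ∃ (h m : ℕ) (K₀ : ℝ), 1 ≤ K₀ ∧
      ∀ (b C : ℕ) (ε : ℝ), 0 < ε → ∀ᶠ Q : ℕ in Filter.atTop, ∃ (N : ℕ) (δ : ℝ),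
        0 < N ∧ 0 < δ ∧ δ ≤ 1 ∧
        Real.log (2 / (1 / (128 * ((Q : ℝ) ^ 2) ^ 4))) ≤ δ * Q ∧
        2 * (1 / ((Q : ℝ) ^ 2) ^ 15) / (1 / (128 * ((Q : ℝ) ^ 2) ^ 4)) ≤ δ ∧
        4 * (q : ℝ) ^ (2 * N) * (1 / ((Q : ℝ) ^ 2) ^ 15) ≤ 1 / (128 * ((Q : ℝ) ^ 2) ^ 4) ∧
        ∀ M U : ℝ, 0 ≤ M → M ≤ ((Q : ℝ) ^ 2) ^ m1 → 0 ≤ U → U ≤ ((Q : ℝ) ^ 2) ^ u1 →
          M * (2 * ((C : ℝ) * (δ ^ h + U ^ (2 * h + 2) * δ ^ m))) < (ε / 4) ^ (b + 1) ∧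
          M * 2 ^ N * K₀ ^ (-(η * N / 2)) < η / 2 := by
  obtain ⟨h, m, -, -, hmom⟩ := ParamSD375.mom_numbers m1 u1 (1 / 4) (by norm_num)
    (Nat.cast_nonneg _) (Nat.cast_nonneg _) 0 0
  obtain ⟨K₀, hK₀, hsd⟩ := ParamSD375.sd_numbers q hq η m1 (1 / 8) hη (Nat.cast_nonneg _)
    (by norm_num)
  refine ⟨h, m, K₀, hK₀, ?_⟩
  intro b C ε hε
  have t : Filter.Tendsto (fun Q : ℕ => (Q : ℝ) ^ 2) Filter.atTop Filter.atTop :=
    (Filter.tendsto_pow_atTop two_ne_zero).comp tendsto_natCast_atTop_atTop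
  have g1 := ev_pow (4 * 128) (a := 5) (b := 15) (by norm_num)
  have g2 := ev_rpow (256) (a := (1 / 4 : ℝ)) (b := 11) (by norm_num)
  filter_upwards [t.eventually (hmom b C ε hε), t.eventually hsd,
    t.eventually (ev_greedy' (c := 1 / 128) (by norm_num)), t.eventually ev_small2,
    t.eventually (Filter.eventually_gt_atTop 1), t.eventually g1, t.eventually g2]
    with Q e1 e2 e3 e7 e8 e9 e10
  obtain ⟨N, hN, hsdN, hqN⟩ := e2
  set X : ℝ := (Q : ℝ) ^ 2 with hX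
  have h0 : (0 : ℝ) < X := by linarith
  have hsq : X ^ ((1 : ℝ) / 2) = Q := by
    rw [hX, ← Real.rpow_natCast, ← Real.rpow_mul (Nat.cast_nonneg _)]
    norm_num
  have hth : (1 : ℝ) / (128 * X ^ 4) = 1 / 128 * X⁻¹ ^ 4 := by
    field_simp
  refine ⟨N, X ^ (-(1 / 4) : ℝ), hN, Real.rpow_pos_of_pos h0 _, e7, ?_, ?_, ?_, ?_⟩
  · rw [hth, ← hsq]
    exact e3
  · have e11 : 2 * (1 / X ^ 15) / (1 / (128 * X ^ 4)) = 256 * X ^ (-(11 : ℝ)) := by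
      rw [Real.rpow_neg h0.le]
      have : X ^ (11 : ℝ) = X ^ 11 := by norm_cast
      rw [this]
      field_simp
      norm_num
    rw [e11, Real.rpow_neg h0.le, Real.rpow_neg h0.le, ← div_eq_mul_inv,
      div_le_iff₀ (Real.rpow_pos_of_pos h0 _), inv_mul_eq_div,
      le_div_iff₀ (Real.rpow_pos_of_pos h0 _)]
    exact e10
  · have hle : X ^ ((1 : ℝ) / 8) ≤ X := by
      calc X ^ ((1 : ℝ) / 8) ≤ X ^ (1 : ℝ) :=
            Real.rpow_le_rpow_of_exponent_le e8.le (by norm_num)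
        _ = _ := Real.rpow_one _
    have hqX : (q : ℝ) ^ (2 * N) ≤ X := hqN.trans hle
    rw [div_eq_mul_inv (1 : ℝ) (X ^ 15), one_mul, ← div_eq_mul_inv,
      div_le_div_iff₀ (by positivity) (by positivity), one_mul]
    calc 4 * (q : ℝ) ^ (2 * N) * (128 * X ^ 4) ≤ 4 * X * (128 * X ^ 4) := by gcongr
      _ = 4 * 128 * X ^ 5 := by ring
      _ ≤ X ^ 15 := e9
  · intro M U hM hM' hU hU'
    refine ⟨e1 M U _ hM (by rwa [Real.rpow_natCast]) hU (by rwa [Real.rpow_natCast])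
      (Real.rpow_pos_of_pos h0 _).le le_rfl, ?_⟩
    refine lt_of_le_of_lt ?_ hsdN
    have hK0 : (0 : ℝ) ≤ K₀ ^ (-(η * N / 2)) := Real.rpow_nonneg (by linarith) _
    rw [Real.rpow_natCast]
    gcongr

theorem ite_eq {P Q : Prop} {i : Decidable P} {j : Decidable Q} (h : P ↔ Q) :
    (@ite ℝ P i 1 0) = @ite ℝ Q j 1 0 := by
  by_cases hP : P
  · rw [if_pos hP, if_pos (h.1 hP)]
  · rw [if_neg hP, if_neg (fun hQ => hP (h.2 hQ))]

/-- the bad event of 713's skeleton, `K1` the only constant -/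
def BE {k0 KK : Type} [Field k0] [Field KK] [Algebra k0 KK] [Fintype k0] [Fintype KK]
    [CharP KK 2] {d L : ℕ} (e : ℕ)
    (K1 : ℝ) (X R : Bool → Ty k0 KK d L) (μ : VV k0 KK d 2 L → ℝ) : Prop :=
  BadK (winX (2 ^ e) 2 X R) μ ((LocA726.VS (2 ^ e) 2 X).dualAnnihilator) (1 / (8 * K1)) ∨
    BadS (winX (2 ^ e) 2 X R) μ ((LocA726.VS (2 ^ e) 2 X).dualAnnihilator) K1 (1 / 8)

theorem card_UU {KK : Type} [Field KK] [Fintype KK] {d L : ℕ} :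
    (Fintype.card (U KK d 2 L) : ℝ) = (Fintype.card KK : ℝ) ^ (L * (2 * d + 1) ^ 2) := by
  have h := Module.card_eq_pow_finrank (K := KK) (V := U KK d 2 L)
  rw [h]
  push_cast
  congr 1
  rw [Module.finrank_pi_fintype]
  simp only [Module.finrank_fintype_fun_eq_card, Finset.sum_const, Finset.card_univ,
    Fintype.card_fin, Fintype.card_fun, smul_eq_mul, Fintype.card_option, Fintype.card_prod,
    Fintype.card_bool]
  ring

/-- **the label theorem, asymptotic form** -/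
theorem hLab_asym (q d L m1 : ℕ) (hq : 2 ≤ q) (hL : 0 < L) :
    ∃ K1 : ℝ, 1 ≤ K1 ∧ ∃ Q0 : ℕ, ∀ {k0 KK : Type} [Field k0] [Fintype k0] [Field KK] [Fintype KK]
      [Algebra k0 KK] [CharP KK 2] {K : Set k0} (_ : Fam543.Alph K) (e : ℕ),
      Fintype.card k0 = q → Fintype.card KK = (2 ^ e) ^ 2 → Q0 ≤ 2 ^ e →
      ∀ (N : ℕ) (x : Fin N → Om KK K d L)
        (_ : ∀ J : Finset (Fin N), J.card ≤ 6 → LinearIndependent KK (fun i : J => (x i).1.b))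
        (TD : TData (Om KK K d L) (Dl k0 KK d L) (TH KK d L (2 ^ e)))
        (_ : TD.perp = perp K d L)
        (_ : ∀ (P P' : Om KK K d L) (δ : Dl k0 KK d L) (ϑ : TH KK d L (2 ^ e)) (i : Fin (2 ^ e))
          (R : Om KK K d L),
          DX (2 ^ e) (fun a => (bif a then P' else P).1) (ϑ i) R.1 → TD.D1 P P' δ ϑ R)
        (_ : ∀ (P P' : Om KK K d L) (δ : Dl k0 KK d L) (ϑ : TH KK d L (2 ^ e)) (i : Fin (2 ^ e))
          (R R' : Om KK K d L),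
          DX2 (2 ^ e) (fun a => (bif a then P' else P).1) (ϑ i) R.1 R'.1 → TD.D2 P P' δ ϑ R R')
        (c : Jx (Fin N) × Dl k0 KK d L) (μ : VV k0 KK d 2 L → ℝ), IsP μ →
        (∀ v, μ v * Fintype.card (VV k0 KK d 2 L) ≤ (Fintype.card KK : ℝ) ^ m1) →
        ∀ t : Jx (Fin N) × Dl k0 KK d L → ℝ, IsP t →
        (∀ i, ∑ j ∈ Ai i, ∑ δ, t (j, δ) ≤ 1 / (Fintype.card KK : ℝ) ^ 15) →
        ∃ θ : TH KK d L (2 ^ e), ∑ c', t c' * (if One TD.sys x (c.1, c.2, θ) c'.1 ∧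
          BE e K1 (pj (fun i => (x i).1) c.1) (pj (fun i => (x i).1) c'.1) μ then 1 else 0) ≤
            1 / (128 * (Fintype.card KK : ℝ) ^ 4) := by
  obtain ⟨h, m, K₀, hK₀, hnum⟩ := label_numbersQ q hq m1 (L * (2 * d + 1) ^ 2)
    (η := 1 / 8) (by norm_num)
  obtain ⟨b, C, -, -, hno⟩ := PBLabel341.noK (PBProb477.prob q h m)
  have hq0 : (0 : ℝ) < (q : ℝ) := by exact_mod_cast (by omega : 0 < q)
  have hq1 : (1 : ℝ) ≤ (q : ℝ) := by exact_mod_cast (by omega : 1 ≤ q)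
  have hK1 : 1 ≤ K₀ * (q : ℝ) ^ 2 := by
    have : (1 : ℝ) ≤ (q : ℝ) ^ 2 := one_le_pow₀ hq1
    nlinarith
  refine ⟨K₀ * (q : ℝ) ^ 2, hK1, ?_⟩
  obtain ⟨Q0, hQ0⟩ := Filter.eventually_atTop.1 (hnum b C (1 / (8 * (K₀ * (q : ℝ) ^ 2)))
    (by positivity))
  refine ⟨Q0, ?_⟩
  intro k0 KK _ _ _ _ _ _ K hK e hcq hcK hQe N x hLI TD hperp hD1 hD2 c μ hμ hMμ t ht hm
  obtain ⟨Nsd, δ, hNsd, hδ0, hδ1, n1, n2, n3, n4⟩ := hQ0 (2 ^ e) hQe
  have hcKr : (Fintype.card KK : ℝ) = ((2 ^ e : ℕ) : ℝ) ^ 2 := by exact_mod_cast hcK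
  have hpos : (0 : ℝ) < ((2 ^ e : ℕ) : ℝ) := by positivity
  rw [hcKr] at hMμ hm ⊢
  have hcU : (Fintype.card (U KK d 2 L) : ℝ) = (((2 ^ e : ℕ) : ℝ) ^ 2) ^ (L * (2 * d + 1) ^ 2) := by
    rw [card_UU, hcKr]
  obtain ⟨n5, n6⟩ := n4 ((((2 ^ e : ℕ) : ℝ) ^ 2) ^ m1) (Fintype.card (U KK d 2 L) : ℝ)
    (by positivity) le_rfl (Nat.cast_nonneg _) hcU.le
  have hlab : LabelConcl (2 ^ e) (fun i => (x i).1) (2 ^ e) (1 / (8 * (K₀ * (q : ℝ) ^ 2)))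
      (K₀ * (q : ℝ) ^ 2) (1 / 8) (1 / (128 * (((2 ^ e : ℕ) : ℝ) ^ 2) ^ 4))
      (1 / (((2 ^ e : ℕ) : ℝ) ^ 2) ^ 15) (fun a => bif a then c.1.1.2 else c.1.1.1) μ := by
    intro κ _ r t' ht0 ht1 htm
    obtain ⟨Ys, hYs⟩ := PBLabel341.label hno hcq hK (T := fun i => (x i).1) (fun i => (x i).2)
      hLI e hL (fun a => bif a then c.1.1.2 else c.1.1.1) c.1.2 r t' ht0 ht1
      (1 / (((2 ^ e : ℕ) : ℝ) ^ 2) ^ 15) htm μ hμ.nonneg hμ.sum ((((2 ^ e : ℕ) : ℝ) ^ 2) ^ m1) hMμ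
      (1 / (8 * (K₀ * (q : ℝ) ^ 2))) (by positivity)
      (1 / (128 * (((2 ^ e : ℕ) : ℝ) ^ 2) ^ 4)) δ (2 ^ e) (by positivity) n1 n2 hδ1 n5 Nsd hNsd
      (K₀ * (q : ℝ) ^ 2) K₀ hK₀ (by rw [hcq]) (1 / 8) (by norm_num) n6 (by rw [hcq]; exact n3)
    refine ⟨Ys, le_trans (le_of_eq (Finset.sum_congr rfl fun x' _ => ?_)) hYs⟩
    exact congrArg (t' x' * ·) (ite_eq Iff.rfl)
  obtain ⟨ϑ, hϑ⟩ := hG (2 ^ e) x (2 ^ e) TD.sys (fun P R hPR => by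
      rw [TData.sys_perp, hperp] at hPR
      exact hPR)
    (fun s i R hR => hD1 (x s.1.1.1) (x s.1.1.2) s.2.1 s.2.2 i R (by
      convert hR using 2
      rename_i a
      cases a <;> rfl))
    (fun s i R R' hR => hD2 (x s.1.1.1) (x s.1.1.2) s.2.1 s.2.2 i R R' (by
      convert hR using 2
      rename_i a
      cases a <;> rfl))
    (1 / (8 * (K₀ * (q : ℝ) ^ 2))) (K₀ * (q : ℝ) ^ 2) (1 / 8)
    (1 / (128 * (((2 ^ e : ℕ) : ℝ) ^ 2) ^ 4)) (1 / (((2 ^ e : ℕ) : ℝ) ^ 2) ^ 15) c μ hlab t ht hm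
  refine ⟨ϑ, le_trans (le_of_eq (Finset.sum_congr rfl fun c' _ => ?_)) hϑ⟩
  exact congrArg (t c' * ·) (ite_eq Iff.rfl)

end Crest.Agent.R042.LabB763
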