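import Mathlib

/-!
# Row 42 / S0059, LIN-INSTANCE, part A (helper736): block degree and semicontinuity of injectivity
-/

set_option autoImplicit false
set_option linter.unusedSectionVars false

namespace Crest.Agent.R042.Lin736

open MvPolynomial Finset

section BD

variable {V : Type*} [Fintype V] [DecidableEq V] {F : Type*} [Field F] {kp : ℕ}

/-- block degree at most `δ` -/
def BD (δ : ℕ) (p : MvPolynomial (V × Fin kp) F) : Prop :=
  ∀ m ∈ p.support, ∀ b, ∑ v, m (v, b) ≤ δ

theorem BD.mono {δ δ' : ℕ} {p : MvPolynomial (V × Fin kp) F} (h : BD δ p) (hd : δ ≤ δ') :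
    BD δ' p := fun m hm b => (h m hm b).trans hd

theorem BD.add {δ : ℕ} {p p' : MvPolynomial (V × Fin kp) F} (h : BD δ p) (h' : BD δ p') :
    BD δ (p + p') := by
  intro m hm b
  rcases Finset.mem_union.1 (MvPolynomial.support_add hm) with hm | hm
  · exact h m hm b
  · exact h' m hm b

theorem BD.zero (δ : ℕ) : BD δ (0 : MvPolynomial (V × Fin kp) F) := by
  intro m hm b; simp at hm

theorem BD.C (δ : ℕ) (a : F) : BD δ (MvPolynomial.C a : MvPolynomial (V × Fin kp) F) := by
  intro m hm b
  rw [MvPolynomial.mem_support_iff, MvPolynomial.coeff_C] at hm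
  have : (0 : (V × Fin kp) →₀ ℕ) = m := by
    by_contra hne
    rw [if_neg hne] at hm
    exact hm rfl
  subst this
  simp

theorem BD.sum {ι : Type*} {δ : ℕ} (s : Finset ι) (f : ι → MvPolynomial (V × Fin kp) F)
    (h : ∀ i ∈ s, BD δ (f i)) : BD δ (∑ i ∈ s, f i) := by
  classical
  induction s using Finset.induction_on with
  | empty => simpa using BD.zero δ
  | insert i s hi ih =>
    rw [Finset.sum_insert hi]
    exact (h i (Finset.mem_insert_self _ _)).add
      (ih fun j hj => h j (Finset.mem_insert_of_mem hj))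

theorem BD.mul {δ δ' : ℕ} {p p' : MvPolynomial (V × Fin kp) F} (h : BD δ p) (h' : BD δ' p') :
    BD (δ + δ') (p * p') := by
  classical
  intro m hm b
  obtain ⟨m1, hm1, m2, hm2, rfl⟩ := Finset.mem_add.1 (MvPolynomial.support_mul p p' hm)
  simp only [Finsupp.add_apply, Finset.sum_add_distrib]
  exact add_le_add (h m1 hm1 b) (h' m2 hm2 b)

theorem BD.prod {ι : Type*} (s : Finset ι) (δ : ι → ℕ) (f : ι → MvPolynomial (V × Fin kp) F)
    (h : ∀ i ∈ s, BD (δ i) (f i)) : BD (∑ i ∈ s, δ i) (∏ i ∈ s, f i) := by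
  classical
  induction s using Finset.induction_on with
  | empty => simpa using BD.C 0 (1 : F)
  | insert i s hi ih =>
    rw [Finset.prod_insert hi, Finset.sum_insert hi]
    exact (h i (Finset.mem_insert_self _ _)).mul
      (ih fun j hj => h j (Finset.mem_insert_of_mem hj))

/-- block degree at most `δ b` in block `b` -/
def BDb (δ : Fin kp → ℕ) (p : MvPolynomial (V × Fin kp) F) : Prop :=
  ∀ m ∈ p.support, ∀ b, ∑ v, m (v, b) ≤ δ b

theorem BDb.toBD {δ : Fin kp → ℕ} {δ' : ℕ} {p : MvPolynomial (V × Fin kp) F} (h : BDb δ p)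
    (hd : ∀ b, δ b ≤ δ') : BD δ' p := fun m hm b => (h m hm b).trans (hd b)

theorem BDb.mono {δ δ' : Fin kp → ℕ} {p : MvPolynomial (V × Fin kp) F} (h : BDb δ p)
    (hd : ∀ b, δ b ≤ δ' b) : BDb δ' p := fun m hm b => (h m hm b).trans (hd b)

theorem BDb.add {δ : Fin kp → ℕ} {p p' : MvPolynomial (V × Fin kp) F} (h : BDb δ p)
    (h' : BDb δ p') : BDb δ (p + p') := by
  intro m hm b
  rcases Finset.mem_union.1 (MvPolynomial.support_add hm) with hm | hm
  · exact h m hm b
  · exact h' m hm b

theorem BDb.neg {δ : Fin kp → ℕ} {p : MvPolynomial (V × Fin kp) F} (h : BDb δ p) :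
    BDb δ (-p) := by
  intro m hm b
  rw [MvPolynomial.support_neg] at hm
  exact h m hm b

theorem BDb.sub {δ : Fin kp → ℕ} {p p' : MvPolynomial (V × Fin kp) F} (h : BDb δ p)
    (h' : BDb δ p') : BDb δ (p - p') := by
  rw [sub_eq_add_neg]; exact h.add h'.neg

theorem BDb.zero (δ : Fin kp → ℕ) : BDb δ (0 : MvPolynomial (V × Fin kp) F) := by
  intro m hm b; simp at hm

theorem BDb.C (δ : Fin kp → ℕ) (a : F) :
    BDb δ (MvPolynomial.C a : MvPolynomial (V × Fin kp) F) := by
  intro m hm b
  exact (BD.C 0 a m hm b).trans (Nat.zero_le _)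

theorem BDb.sum {ι : Type*} {δ : Fin kp → ℕ} (s : Finset ι)
    (f : ι → MvPolynomial (V × Fin kp) F)
    (h : ∀ i ∈ s, BDb δ (f i)) : BDb δ (∑ i ∈ s, f i) := by
  classical
  induction s using Finset.induction_on with
  | empty => simpa using BDb.zero δ
  | insert i s hi ih =>
    rw [Finset.sum_insert hi]
    exact (h i (Finset.mem_insert_self _ _)).add
      (ih fun j hj => h j (Finset.mem_insert_of_mem hj))

theorem BDb.mul {δ δ' : Fin kp → ℕ} {p p' : MvPolynomial (V × Fin kp) F} (h : BDb δ p)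
    (h' : BDb δ' p') : BDb (fun b => δ b + δ' b) (p * p') := by
  classical
  intro m hm b
  obtain ⟨m1, hm1, m2, hm2, rfl⟩ := Finset.mem_add.1 (MvPolynomial.support_mul p p' hm)
  simp only [Finsupp.add_apply, Finset.sum_add_distrib]
  exact add_le_add (h m1 hm1 b) (h' m2 hm2 b)

theorem BDb.C_mul {δ : Fin kp → ℕ} {p : MvPolynomial (V × Fin kp) F} (a : F) (h : BDb δ p) :
    BDb δ (MvPolynomial.C a * p) :=
  ((BDb.C (fun _ => 0) a).mul h).mono fun b => by simp

theorem BDb.prod {ι : Type*} (s : Finset ι) (δ : ι → Fin kp → ℕ)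
    (f : ι → MvPolynomial (V × Fin kp) F)
    (h : ∀ i ∈ s, BDb (δ i) (f i)) : BDb (fun b => ∑ i ∈ s, δ i b) (∏ i ∈ s, f i) := by
  classical
  induction s using Finset.induction_on with
  | empty => simpa using BDb.C (fun _ => 0) (1 : F)
  | insert i s hi ih =>
    rw [Finset.prod_insert hi]
    refine ((h i (Finset.mem_insert_self _ _)).mul
      (ih fun j hj => h j (Finset.mem_insert_of_mem hj))).mono fun b => ?_
    rw [Finset.sum_insert hi]

theorem BDb.X_pow (v : V) (b0 : Fin kp) (s : ℕ) :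
    BDb (fun b => if b = b0 then s else 0)
      ((MvPolynomial.X (v, b0) : MvPolynomial (V × Fin kp) F) ^ s) := by
  classical
  intro m hm b
  rw [MvPolynomial.X_pow_eq_monomial, MvPolynomial.mem_support_iff,
    MvPolynomial.coeff_monomial] at hm
  have : (Finsupp.single (v, b0) s : (V × Fin kp) →₀ ℕ) = m := by
    by_contra hne
    rw [if_neg hne] at hm
    exact hm rfl
  subst this
  by_cases hb : b = b0
  · subst hb
    simp only [if_true]
    rw [Finset.sum_eq_single v]
    · simp
    · intro v' _ hv'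
      rw [Finsupp.single_apply, if_neg]
      intro h; exact hv' (by simpa using (congrArg Prod.fst h).symm)
    · intro h; exact absurd (Finset.mem_univ _) h
  · simp only [hb, if_false]
    rw [Finset.sum_eq_zero]
    intro v' _
    rw [Finsupp.single_apply, if_neg]
    intro h
    exact hb (congrArg Prod.snd h).symm

theorem BD.det {r : ℕ} {δ : ℕ} (M : Matrix (Fin r) (Fin r) (MvPolynomial (V × Fin kp) F))
    (h : ∀ i j, BD δ (M i j)) : BD (r * δ) M.det := by
  classical
  rw [Matrix.det_apply]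
  refine BD.sum _ _ fun σ _ => ?_
  have h1 : BD (r * δ) (∏ i, M (σ i) i) :=
    (BD.prod univ (fun _ => δ) _ fun i _ => h (σ i) i).mono (by simp)
  intro m hm b
  refine h1 m ?_ b
  rw [MvPolynomial.mem_support_iff] at hm ⊢
  intro h0
  apply hm
  rcases Int.units_eq_one_or (Equiv.Perm.sign σ) with hs | hs
  · rw [hs, one_smul, h0]
  · rw [hs, Units.neg_smul, one_smul, MvPolynomial.coeff_neg, h0, neg_zero]

end BD

section SC

variable {F : Type*} [Field F] {V : Type*} [Fintype V] [DecidableEq V] {kp : ℕ}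
  {α : Type*} [Fintype α] [DecidableEq α]
  {E : Type*} [AddCommGroup E] [Module F E] [FiniteDimensional F E]

/-- **semicontinuity of injectivity modulo `D`** -/
theorem sc (δ : ℕ) (S : Submodule F E) (D : Submodule F (α → F))
    (m : α → E →ₗ[F] MvPolynomial (V × Fin kp) F) (hdeg : ∀ a e, BD δ (m a e))
    (χ0 : V × Fin kp → F)
    (h0 : ∀ e, (fun a => eval χ0 (m a e)) ∈ D → e ∈ S)
    (hS : ∀ χ, ∀ e ∈ S, (fun a => eval χ (m a e)) ∈ D) :
    ∃ h : MvPolynomial (V × Fin kp) F, eval χ0 h ≠ 0 ∧ BD (Module.finrank F E * δ) h ∧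
      ∀ χ, eval χ h ≠ 0 → ∀ e, (fun a => eval χ (m a e)) ∈ D → e ∈ S := by
  classical
  obtain ⟨S', hc⟩ := S.exists_isCompl
  -- evaluation
  let ev : (V × Fin kp → F) → E →ₗ[F] (α → F) := fun χ =>
    { toFun := fun e a => eval χ (m a e)
      map_add' := by intro x y; funext a; simp
      map_smul' := by intro c x; funext a; simp [MvPolynomial.smul_eval] }
  have hev : ∀ χ e a, ev χ e a = eval χ (m a e) := fun _ _ _ => rfl
  let φ : S' →ₗ[F] ((α → F) ⧸ D) := D.mkQ.comp ((ev χ0).comp S'.subtype)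
  have hφ : LinearMap.ker φ = ⊥ := by
    rw [LinearMap.ker_eq_bot']
    intro e he
    have h1 : ev χ0 (e : E) ∈ D := by
      have : D.mkQ (ev χ0 (e : E)) = 0 := he
      rwa [Submodule.mkQ_apply, Submodule.Quotient.mk_eq_zero] at this
    have h2 : (e : E) ∈ S := h0 _ h1
    have h3 : (e : E) = 0 := Submodule.disjoint_def.1 hc.disjoint _ h2 e.2
    exact Subtype.ext h3
  obtain ⟨g, hg⟩ := LinearMap.exists_leftInverse_of_injective φ hφ
  set r := Module.finrank F S' with hr
  let bs : Module.Basis (Fin r) F S' := Module.finBasis F S'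
  let ℓ : Fin r → (α → F) →ₗ[F] F := fun i => (bs.coord i).comp (g.comp D.mkQ)
  have hℓD : ∀ i, ∀ v ∈ D, ℓ i v = 0 := by
    intro i v hv
    have : D.mkQ v = 0 := by
      rw [Submodule.mkQ_apply, Submodule.Quotient.mk_eq_zero]; exact hv
    simp [ℓ, this]
  have hℓ : ∀ i (v : α → F), ℓ i v = ∑ a, ℓ i (Pi.single a 1) * v a := by
    intro i v
    have hv : v = ∑ a, v a • (Pi.single a (1 : F) : α → F) := by
      funext y; simp [Finset.sum_apply, Pi.single_apply]
    conv_lhs => rw [hv]
    simp only [map_sum, map_smul, smul_eq_mul]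
    exact Finset.sum_congr rfl fun x _ => by ring
  let H : Matrix (Fin r) (Fin r) (MvPolynomial (V × Fin kp) F) :=
    fun i j => ∑ a, MvPolynomial.C (ℓ i (Pi.single a 1)) * m a (bs j : E)
  have hHe : ∀ χ i j, eval χ (H i j) = ℓ i (ev χ (bs j : E)) := by
    intro χ i j
    rw [hℓ i (ev χ (bs j : E))]
    simp only [H, map_sum, map_mul, eval_C, hev]
  have hdet : ∀ χ, eval χ H.det = (Matrix.of fun i j => ℓ i (ev χ (bs j : E))).det := by
    intro χ
    rw [RingHom.map_det]
    congr 1
    ext i j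
    exact hHe χ i j
  refine ⟨H.det, ?_, ?_, ?_⟩
  · rw [hdet]
    have h1 : (Matrix.of fun i j => ℓ i (ev χ0 (bs j : E))) = (1 : Matrix (Fin r) (Fin r) F) := by
      ext i j
      have h2 : g (D.mkQ (ev χ0 (bs j : E))) = bs j := LinearMap.congr_fun hg (bs j)
      simp only [Matrix.of_apply, ℓ, LinearMap.comp_apply, h2, Module.Basis.coord_apply,
        Module.Basis.repr_self, Matrix.one_apply, Finsupp.single_apply]
      simp only [eq_comm]
    rw [h1, Matrix.det_one]
    exact one_ne_zero
  · refine (BD.det H (δ := δ) ?_).mono ?_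
    · intro i j
      refine BD.sum _ _ fun a _ => ?_
      exact ((BD.C 0 _).mul (hdeg a _)).mono (by simp)
    · exact Nat.mul_le_mul_right _ (Submodule.finrank_le S')
  · intro χ hχ e he
    rw [hdet] at hχ
    obtain ⟨s, hs, s', hs', rfl⟩ := Submodule.mem_sup.1
      (show e ∈ S ⊔ S' by rw [hc.sup_eq_top]; trivial)
    have h1 : ev χ s' ∈ D := by
      have h2 : ev χ (s + s') ∈ D := he
      rw [map_add] at h2
      have h3 := D.sub_mem h2 (hS χ s hs)
      have h4 : ev χ s + ev χ s' - (fun a => eval χ (m a s)) = ev χ s' := by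
        have : (fun a => eval χ (m a s)) = ev χ s := rfl
        rw [this]; abel
      rwa [h4] at h3
    let y : S' := ⟨s', hs'⟩
    have h5 : (Matrix.of fun i j => ℓ i (ev χ (bs j : E))).mulVec (bs.repr y) = 0 := by
      funext i
      have h6 : (y : E) = ∑ j, bs.repr y j • (bs j : E) := by
        have := congrArg (Subtype.val) (bs.sum_repr y)
        refine this.symm.trans ?_
        rw [Submodule.coe_sum]
        rfl
      have h7 : ℓ i (ev χ s') = 0 := hℓD i _ h1
      have h8 : s' = ∑ j, bs.repr y j • (bs j : E) := h6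
      rw [h8, map_sum, map_sum] at h7
      simp only [map_smul, smul_eq_mul] at h7
      simp only [Matrix.mulVec, dotProduct, Matrix.of_apply, Pi.zero_apply]
      rw [← h7]
      exact Finset.sum_congr rfl fun j _ => by ring
    have h9 := Matrix.eq_zero_of_mulVec_eq_zero hχ h5
    have h10 : bs.repr y = 0 := by
      ext j
      exact congrFun h9 j
    have h11 : y = 0 := by
      rw [← bs.repr.map_eq_zero_iff]
      exact h10
    have h12 : s' = 0 := congrArg Subtype.val h11
    rw [h12, add_zero]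
    exact hs

end SC

end Crest.Agent.R042.Lin736
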