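import Crest.Agent.R042.LinE_144
import Crest.Agent.R042.LinA_736

/-!
# Row 42 / S0059, LIN-INSTANCE, part B (helper736): frames `v ↦ B(x,y) v - B(x,v) y`
-/

set_option autoImplicit false
set_option linter.unusedSectionVars false

namespace Crest.Agent.R042.Lin736

open Crest.Agent.R042.Fam543 Crest.Agent.R042.SpecFam730 Crest.Agent.R042.Ker807
open Crest.Agent.R042.Pair57
open Crest.Agent.R042.Spec730 hiding pure
open scoped BigOperators
open Finset

local notation "pt" => Crest.Agent.R042.Spec730.pure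

variable {KK : Type} [Field KK] {d k : ℕ}

theorem B_add_right (x y y' : Ix d → KK) : B x (y + y') = B x y + B x y' := by
  rw [B_comm, B_add_left, B_comm y, B_comm y']

theorem B_smul_right (c : KK) (x y : Ix d → KK) : B x (c • y) = c * B x y := by
  rw [B_comm, B_smul_left, B_comm]

theorem B_sub_right (x y y' : Ix d → KK) : B x (y - y') = B x y - B x y' := by
  rw [sub_eq_add_neg, B_add_right, ← neg_one_smul KK y', B_smul_right]; ring

theorem B_single (x : Ix d → KK) (j : Ix d) : B x (Pi.single j 1) = x (sw j) := by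
  unfold B
  rw [Finset.sum_eq_single j]
  · simp
  · intro b _ hb; rw [Pi.single_eq_of_ne hb, mul_zero]
  · intro h; exact absurd (Finset.mem_univ _) h

/-- frame map -/
def kap (x y : Ix d → KK) : (Ix d → KK) →ₗ[KK] (Ix d → KK) where
  toFun v := B x y • v - B x v • y
  map_add' := by intro v w; rw [B_add_right, add_smul, smul_add]; abel
  map_smul' := by
    intro c v
    rw [B_smul_right]
    funext j
    simp only [Pi.sub_apply, Pi.smul_apply, smul_eq_mul, RingHom.id_apply]
    ring

theorem kap_apply (x y v : Ix d → KK) : kap x y v = B x y • v - B x v • y := rfl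

theorem kap_single (x y : Ix d → KK) (γ β : Ix d) :
    kap x y (Pi.single γ 1) β = B x y * (if β = γ then 1 else 0) - x (sw γ) * y β := by
  rw [kap_apply, B_single]
  simp [Pi.single_apply]

theorem B_kap (z x y w : Ix d → KK) : B z (kap x y w) = B x y * B z w - B x w * B z y := by
  rw [kap_apply, B_sub_right, B_smul_right, B_smul_right]

/-- splitting one slot -/
theorem fn_slot (i0 : Fin k) (η1 η2 η3 : Fin k → Ix d → KK) (β : KK)
    (h2 : ∀ i, i ≠ i0 → η1 i = η2 i) (h3 : ∀ i, i ≠ i0 → η1 i = η3 i)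
    (h : ∀ j, η1 i0 j = η2 i0 j + β * η3 i0 j) (t : Ten KK d k) :
    fn η1 t = fn η2 t + β * fn η3 t := by
  simp only [fn, LinearMap.coe_mk, AddHom.coe_mk]
  rw [Finset.mul_sum, ← Finset.sum_add_distrib]
  refine Finset.sum_congr rfl fun al _ => ?_
  have e1 : ∏ i, η1 i (al i) = η1 i0 (al i0) * ∏ i ∈ univ.erase i0, η1 i (al i) :=
    (Finset.mul_prod_erase univ (fun i => η1 i (al i)) (mem_univ i0)).symm
  have e2 : ∏ i, η2 i (al i) = η2 i0 (al i0) * ∏ i ∈ univ.erase i0, η1 i (al i) := by
    rw [← Finset.mul_prod_erase univ (fun i => η2 i (al i)) (mem_univ i0)]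
    congr 1
    refine Finset.prod_congr rfl fun i hi => ?_
    rw [h2 i (Finset.ne_of_mem_erase hi)]
  have e3 : ∏ i, η3 i (al i) = η3 i0 (al i0) * ∏ i ∈ univ.erase i0, η1 i (al i) := by
    rw [← Finset.mul_prod_erase univ (fun i => η3 i (al i)) (mem_univ i0)]
    congr 1
    refine Finset.prod_congr rfl fun i hi => ?_
    rw [h3 i (Finset.ne_of_mem_erase hi)]
  rw [e1, e2, e3, h]
  ring

/-- functionals equal modulo the killed covectors -/
theorem fn_congr_Tg {v : Fin k → Ix d → KK} {t : Ten KK d k} (ht : t ∈ Tg v)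
    (η η' : Fin k → Ix d → KK) (β : Fin k → KK)
    (h : ∀ i j, η i j = η' i j + β i * cv (v i) j) : fn η t = fn η' t := by
  classical
  have key : ∀ s : Finset (Fin k), fn (fun i => if i ∈ s then η i else η' i) t = fn η' t := by
    intro s
    induction s using Finset.induction_on with
    | empty => simp
    | insert i0 s hi ih =>
      rw [← ih]
      rw [fn_slot i0 (fun i => if i ∈ insert i0 s then η i else η' i)
        (fun i => if i ∈ s then η i else η' i)
        (fun i => if i = i0 then cv (v i0) else if i ∈ s then η i else η' i) (β i0)]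
      · have h0 := ((mem_Tg_iff_fn _ _).1 ht)
          (fun i => if i = i0 then cv (v i0) else if i ∈ s then η i else η' i) i0 (by simp)
        rw [h0, mul_zero, add_zero]
      · intro i hi'
        simp only [Finset.mem_insert, hi', false_or]
      · intro i hi'
        simp only [Finset.mem_insert, hi', false_or, if_false]
      · intro j
        simp only [Finset.mem_insert_self, if_true, hi, if_false]
        exact h i0 j
  have := key univ
  simpa using this

theorem fn_scale (c : Fin k → KK) (η : Fin k → Ix d → KK) (t : Ten KK d k) :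
    fn (fun i j => c i * η i j) t = (∏ i, c i) * fn η t := by
  simp only [fn, LinearMap.coe_mk, AddHom.coe_mk]
  rw [Finset.mul_sum]
  refine Finset.sum_congr rfl fun al _ => ?_
  rw [Finset.prod_mul_distrib]; ring

theorem dt_smul_single (η : Ix d → KK) (c : KK) (j : Ix d) :
    dt η (c • (Pi.single j 1 : Ix d → KK)) = c * η j := by
  unfold dt
  rw [Finset.sum_eq_single j]
  · simp [mul_comm]
  · intro b _ hb; simp [Pi.single_eq_of_ne hb]
  · intro h; exact absurd (Finset.mem_univ _) h

/-- operators which are scalars modulo the killed covectors -/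
theorem op_scalar {x : Fin k → Ix d → KK} {t : Ten KK d k} (ht : t ∈ Tg x)
    (M : Fin k → (Ix d → KK) →ₗ[KK] (Ix d → KK)) (c : Fin k → KK) (w : Fin k → Ix d → KK)
    (h : ∀ i v, M i v = c i • v + B (x i) v • w i) : op M t = (∏ i, c i) • t := by
  refine fn_ext fun η => ?_
  rw [fn_op, map_smul, smul_eq_mul, ← fn_scale]
  refine fn_congr_Tg ht _ _ (fun i => dt (η i) (w i)) ?_
  intro i j
  rw [h, dt_add, dt_smul_single, dt_smul, B_single]
  show _ = c i * η i j + dt (η i) (w i) * (x i (sw j))
  ring

/-- operators transport the killed covectors -/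
theorem op_mem_Tg (M : Fin k → (Ix d → KK) →ₗ[KK] (Ix d → KK)) (v v' : Fin k → Ix d → KK)
    (h : ∀ i, ∃ γ : KK, ∀ w, B (v' i) (M i w) = γ * B (v i) w) {t : Ten KK d k}
    (ht : t ∈ Tg v) : op M t ∈ Tg v' := by
  rw [mem_Tg_iff_fn]
  intro η i hi
  rw [fn_op]
  obtain ⟨γ, hγ⟩ := h i
  rw [fn_slot i (fun i j => dt (η i) (M i (Pi.single j 1)))
    (fun i' => if i' = i then 0 else fun j => dt (η i') (M i' (Pi.single j 1)))
    (fun i' => if i' = i then cv (v i) else fun j => dt (η i') (M i' (Pi.single j 1))) γ]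
  · rw [((mem_Tg_iff_fn _ _).1 ht)
      (fun i' => if i' = i then cv (v i) else fun j => dt (η i') (M i' (Pi.single j 1))) i
      (by simp), mul_zero, add_zero]
    simp only [fn, LinearMap.coe_mk, AddHom.coe_mk]
    refine Finset.sum_eq_zero fun al _ => ?_
    rw [Finset.prod_eq_zero (Finset.mem_univ i) (by simp), zero_mul]
  · intro i' hi'; simp [hi']
  · intro i' hi'; simp [hi']
  · intro j
    simp only [if_true, Pi.zero_apply, zero_add]
    rw [hi, dt_cv, hγ, B_single]
    rfl

/-- with the zero multiplier nothing is needed -/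
theorem op_mem_Tg_zero (M : Fin k → (Ix d → KK) →ₗ[KK] (Ix d → KK)) (v' : Fin k → Ix d → KK)
    (h : ∀ i, ∀ w, B (v' i) (M i w) = 0) (t : Ten KK d k) : op M t ∈ Tg v' := by
  rw [mem_Tg_iff_fn]
  intro η i hi
  rw [fn_op]
  simp only [fn, LinearMap.coe_mk, AddHom.coe_mk]
  refine Finset.sum_eq_zero fun al _ => ?_
  rw [Finset.prod_eq_zero (Finset.mem_univ i) ?_, zero_mul]
  rw [hi, dt_cv, h]

/-- the frame operator maps `Tg P` into `UU P x` -/
theorem op_kap_mem {P x y : Fin k → Ix d → KK} (hy : ∀ i, B (P i) (y i) = 0)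
    {t : Ten KK d k} (ht : t ∈ Tg P) : op (fun i => kap (x i) (y i)) t ∈ UU P x := by
  refine Submodule.mem_inf.2 ⟨op_mem_Tg _ P P ?_ ht, op_mem_Tg_zero _ x ?_ t⟩
  · intro i
    exact ⟨B (x i) (y i), fun w => by rw [B_kap, hy, mul_zero, sub_zero]⟩
  · intro i w
    rw [B_kap]; ring

theorem op_comp (M M' : Fin k → (Ix d → KK) →ₗ[KK] (Ix d → KK)) (t : Ten KK d k) :
    op M (op M' t) = op (fun i => (M i).comp (M' i)) t := by
  refine fn_ext fun η => ?_
  rw [fn_op, fn_op, fn_op]
  refine congrArg (fun η' : Fin k → Ix d → KK => fn η' t) ?_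
  funext i j
  have h : ∀ v : Ix d → KK, dt (fun j => dt (η i) (M i (Pi.single j 1))) v = dt (η i) (M i v) := by
    intro v
    have hv : v = ∑ x, v x • (Pi.single x (1 : KK) : Ix d → KK) := by
      funext y; simp [Finset.sum_apply, Pi.single_apply]
    conv_rhs => rw [hv]
    unfold dt
    simp only [map_sum, map_smul, Finset.sum_apply, Pi.smul_apply, smul_eq_mul, Finset.mul_sum]
    rw [Finset.sum_comm]
    refine Finset.sum_congr rfl fun x _ => ?_
    rw [Finset.sum_mul]
    exact Finset.sum_congr rfl fun z _ => by ring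
  exact h _

/-- the frame operators are inverse to each other up to a scalar -/
theorem op_kap_kap {x ξ y : Fin k → Ix d → KK} {t : Ten KK d k} (ht : t ∈ Tg x) :
    op (fun i => kap (x i) (y i)) (op (fun i => kap (ξ i) (y i)) t) =
      (∏ i, B (ξ i) (y i) * B (x i) (y i)) • t := by
  rw [op_comp]
  refine op_scalar ht _ _ (fun i => - B (ξ i) (y i) • y i) ?_
  intro i v
  rw [LinearMap.comp_apply, kap_apply, kap_apply, B_sub_right, B_smul_right, B_smul_right]
  funext j
  simp only [Pi.sub_apply, Pi.smul_apply, smul_eq_mul, Pi.add_apply]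
  ring

theorem stab_kap {a x y : Fin k → Ix d → KK} {S : Submodule KK (Ten KK d k)} (hS : Stab a S)
    (hx : ∀ i, B (a i) (x i) = 0) {t : Ten KK d k} (ht : t ∈ S) :
    op (fun i => kap (x i) (y i)) t ∈ S := by
  refine hS _ (fun i => ⟨B (x i) (y i), ?_⟩) t ht
  rw [kap_apply, B_comm (x i) (a i), hx, zero_smul, sub_zero]

end Crest.Agent.R042.Lin736
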