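import Crest.Agent.R042.LinE_144
import Crest.Agent.R042.Frame_910

/-!
# Row 42 / S0059, LIN-INSTANCE, LEAF C (helper910): rows only, one set `J` of blocks, on the grid
-/

set_option autoImplicit false
set_option linter.unusedSectionVars false

namespace Crest.Agent.R042.LinC910

open Crest.Agent.R042.Fam543 Crest.Agent.R042.SpecFam730 Crest.Agent.R042.Ker807
open Crest.Agent.R042.Pair57 Crest.Agent.R042.Lin736 Crest.Agent.R042.DegInterp910
open Crest.Agent.R042.Spec730 hiding pure
open scoped BigOperators Matrix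

local notation "pt" => Crest.Agent.R042.Spec730.pure

variable {KK : Type} [Field KK] {d k : ℕ}

/-! ### the bilinear form as a bilinear map -/

noncomputable def Bl : (Ix d → KK) →ₗ[KK] (Ix d → KK) →ₗ[KK] KK :=
  LinearMap.mk₂ KK (fun x y => B x y) (fun x x' y => B_add_left x x' y)
    (fun c x y => B_smul_left c x y)
    (fun x y y' => by rw [B_comm, B_add_left, B_comm y, B_comm y'])
    (fun c x y => by rw [B_comm, B_smul_left, B_comm y]; rfl)

theorem Bl_apply (x y : Ix d → KK) : Bl x y = B x y := rfl

theorem B_single (x : Ix d → KK) (j : Ix d) : B x (Pi.single j 1) = x (sw j) := by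
  unfold B
  rw [Finset.sum_eq_single j]
  · simp
  · intro i _ hi; simp [hi]
  · intro h; exact absurd (Finset.mem_univ j) h

theorem blk {p a : Ix d → KK} (hp : B p p ≠ 0) (hpa : B p a = 0) (ha : a ≠ 0) :
    Blk (Bl (KK := KK) (d := d)) p a where
  symm x y := B_comm x y
  nd x hx := by
    funext j
    have := hx (Pi.single (sw j) 1)
    rw [Bl_apply, B_single, sw_sw] at this
    exact this
  pp := hp
  pa := hpa
  ne := ha

theorem mem_UUl {p a x : Ix d → KK} : x ∈ DegInterp910.UU Bl p a ↔ B p x = 0 ∧ B a x = 0 :=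
  mem_UU

/-! ### the product form as a functional on matrices -/

variable (F : Fin k → (Ix d → KK) →ₗ[KK] (Ix d → KK) →ₗ[KK] KK)

def FF : Mat KK d k →ₗ[KK] KK where
  toFun M := ∑ al, ∑ be, (∏ i, F i (Pi.single (al i) 1) (Pi.single (be i) 1)) * M al be
  map_add' := by
    intro s t
    simp only [Pi.add_apply, mul_add, Finset.sum_add_distrib]
  map_smul' := by
    intro c t
    simp only [Pi.smul_apply, smul_eq_mul, RingHom.id_apply, Finset.mul_sum]
    exact Finset.sum_congr rfl fun j _ => Finset.sum_congr rfl fun j' _ => by ring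

theorem FF_apply (M : Mat KK d k) :
    FF F M = ∑ al, ∑ be, (∏ i, F i (Pi.single (al i) 1) (Pi.single (be i) 1)) * M al be := rfl

theorem fn_apply' (η : Fin k → Ix d → KK) (t : Ten KK d k) :
    fn η t = ∑ al, (∏ i, η i (al i)) * t al := rfl

theorem lin_sum (G : (Ix d → KK) →ₗ[KK] KK) (c : Ix d → KK) :
    G c = ∑ j, c j * G (Pi.single j 1) := by
  conv_lhs => rw [pi_eq_sum_univ' c]
  rw [map_sum]
  exact Finset.sum_congr rfl fun j _ => by rw [map_smul, smul_eq_mul]

theorem FF_outer_left (c : Fin k → Ix d → KK) (y : Ten KK d k) :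
    FF F (outer (pt c) y) = fn (fun i j => F i (c i) (Pi.single j 1)) y := by
  simp only [FF_apply, fn_apply', outer, Spec730.pure]
  rw [Finset.sum_comm]
  refine Finset.sum_congr rfl fun be _ => ?_
  have h1 : ∀ i, F i (c i) (Pi.single (be i) 1) =
      ∑ j, c i j * F i (Pi.single j 1) (Pi.single (be i) 1) := fun i =>
    lin_sum ((F i).flip (Pi.single (be i) 1)) (c i)
  simp only [h1]
  rw [Finset.prod_univ_sum, Fintype.piFinset_univ, Finset.sum_mul]
  refine Finset.sum_congr rfl fun al _ => ?_
  rw [Finset.prod_mul_distrib]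
  ring

theorem FF_outer_right (x : Ten KK d k) (c : Fin k → Ix d → KK) :
    FF F (outer x (pt c)) = fn (fun i j => F i (Pi.single j 1) (c i)) x := by
  simp only [FF_apply, fn_apply', outer, Spec730.pure]
  refine Finset.sum_congr rfl fun al _ => ?_
  have h1 : ∀ i, F i (Pi.single (al i) 1) (c i) =
      ∑ j, c i j * F i (Pi.single (al i) 1) (Pi.single j 1) := fun i =>
    lin_sum (F i (Pi.single (al i) 1)) (c i)
  simp only [h1]
  rw [Finset.prod_univ_sum, Fintype.piFinset_univ, Finset.sum_mul]
  refine Finset.sum_congr rfl fun be _ => ?_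
  rw [Finset.prod_mul_distrib]
  ring

/-- the covector of a functional -/
theorem dt_lin (G : (Ix d → KK) →ₗ[KK] KK) (x : Ix d → KK) :
    dt (fun j => G (Pi.single j 1)) x = G x := by
  rw [lin_sum G x]
  exact Finset.sum_congr rfl fun j _ => mul_comm _ _

/-! ### multilinearity of `fn` -/

theorem fn_update (η : Fin k → Ix d → KK) (i : Fin k) (u w : Ix d → KK) (c : KK)
    (t : Ten KK d k) :
    fn (Function.update η i (u + c • w)) t =
      fn (Function.update η i u) t + c * fn (Function.update η i w) t := by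
  have h1 : ∀ (v : Ix d → KK) (al : Fin k → Ix d), ∏ j, Function.update η i v j (al j) =
      v (al i) * ∏ j ∈ Finset.univ.erase i, η j (al j) := by
    intro v al
    rw [← Finset.mul_prod_erase _ _ (Finset.mem_univ i), Function.update_self]
    congr 1
    refine Finset.prod_congr rfl fun j hj => ?_
    rw [Function.update_of_ne (Finset.ne_of_mem_erase hj)]
  show (∑ al, (∏ j, Function.update η i (u + c • w) j (al j)) * t al) =
    (∑ al, (∏ j, Function.update η i u j (al j)) * t al) +
      c * ∑ al, (∏ j, Function.update η i w j (al j)) * t al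
  rw [Finset.mul_sum, ← Finset.sum_add_distrib]
  refine Finset.sum_congr rfl fun al _ => ?_
  rw [h1, h1, h1, Pi.add_apply, Pi.smul_apply, smul_eq_mul]
  ring

theorem fn_zero {v : Fin k → Ix d → KK} {t : Ten KK d k} (ht : t ∈ Tg v)
    (η : Fin k → Ix d → KK) (i : Fin k) (c : KK) (h : η i = c • cv (v i)) : fn η t = 0 := by
  have h1 := fn_update η i 0 (cv (v i)) c t
  have h2 : fn (Function.update η i (cv (v i))) t = 0 :=
    (mem_Tg_iff_fn _ _).1 ht _ i (by rw [Function.update_self])
  have h3 := fn_update η i 0 0 (-1) t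
  rw [zero_add, ← h, Function.update_eq_self] at h1
  have h4 : fn (Function.update η i (0 : Ix d → KK)) t = 0 := by
    rw [smul_zero, add_zero] at h3
    linear_combination h3
  rw [h1, h2, h4, mul_zero, add_zero]

theorem fn_congr_mod {v : Fin k → Ix d → KK} {t : Ten KK d k} (ht : t ∈ Tg v)
    (η η' : Fin k → Ix d → KK) (h : ∀ i, ∃ c : KK, η' i = η i + c • cv (v i)) :
    fn η' t = fn η t := by
  classical
  choose c hc using h
  have key : ∀ s : Finset (Fin k), fn (fun i => if i ∈ s then η' i else η i) t = fn η t := by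
    intro s
    induction s using Finset.induction_on with
    | empty => simp
    | insert i s hi ih =>
      rw [← ih]
      have h1 : (fun j => if j ∈ insert i s then η' j else η j) =
          Function.update (fun j => if j ∈ s then η' j else η j) i (η i + c i • cv (v i)) := by
        funext j
        by_cases hj : j = i
        · subst hj; rw [Function.update_self, if_pos (Finset.mem_insert_self _ _), hc]
        · rw [Function.update_of_ne hj]
          simp only [Finset.mem_insert, hj, false_or]
      have h2 : Function.update (fun j => if j ∈ s then η' j else η j) i (η i) =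
          (fun j => if j ∈ s then η' j else η j) := by
        funext j
        by_cases hj : j = i
        · subst hj; rw [Function.update_self, if_neg hi]
        · rw [Function.update_of_ne hj]
      have h5 : fn (Function.update (fun j => if j ∈ s then η' j else η j) i (cv (v i))) t = 0 :=
        (mem_Tg_iff_fn _ _).1 ht _ i (by rw [Function.update_self])
      rw [h1, fn_update, h2, h5, mul_zero, add_zero]
  have := key Finset.univ
  simpa using this

/-! ### the core -/

theorem outer_add_left (x x' y : Ten KK d k) : outer (x + x') y = outer x y + outer x' y := by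
  funext al be; simp only [outer, Pi.add_apply]; ring

theorem outer_smul_left (c : KK) (x y : Ten KK d k) : outer (c • x) y = c • outer x y := by
  funext al be; simp only [outer, Pi.smul_apply, smul_eq_mul]; ring

theorem outer_add_right (x y y' : Ten KK d k) : outer x (y + y') = outer x y + outer x y' := by
  funext al be; simp only [outer, Pi.add_apply]; ring

theorem outer_smul_right (c : KK) (x y : Ten KK d k) : outer x (c • y) = c • outer x y := by
  funext al be; simp only [outer, Pi.smul_apply, smul_eq_mul]; ring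

theorem outer_zero_left (y : Ten KK d k) : outer (0 : Ten KK d k) y = 0 := by
  funext al be; simp [outer]

theorem outer_zero_right (x : Ten KK d k) : outer x (0 : Ten KK d k) = 0 := by
  funext al be; simp [outer]

/-- covector as a linear functional -/
def dtl (η : Ix d → KK) : (Ix d → KK) →ₗ[KK] KK where
  toFun x := dt η x
  map_add' x y := by simp only [dt, Pi.add_apply, mul_add, Finset.sum_add_distrib]
  map_smul' c x := by
    simp only [dt, Pi.smul_apply, smul_eq_mul, RingHom.id_apply, Finset.mul_sum]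
    exact Finset.sum_congr rfl fun j _ => by ring

theorem dtl_single (η : Ix d → KK) (j : Ix d) : dtl η (Pi.single j 1) = η j := by
  show (∑ i, η i * (Pi.single j 1 : Ix d → KK) i) = η j
  rw [Finset.sum_eq_single j]
  · simp
  · intro i _ hi; simp [hi]
  · intro h; exact absurd (Finset.mem_univ j) h

theorem FF_Cm (F : Fin k → (Ix d → KK) →ₗ[KK] (Ix d → KK) →ₗ[KK] KK)
    (Pl Al Pr Ar : Fin k → Ix d → KK) (J s : Finset (Fin k)) (hs : J.card ≤ s.card)
    (h3 : ∀ i ∈ J, ∀ x, F i x (Ar i) = 0)
    (h4 : ∀ i ∈ s, ∃ α : KK, F i (Al i) = α • Bl (Ar i)) :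
    ∀ M ∈ Cm (Pair57.UU Pl Al) (An J.card Al ⊓ Tg Pl) (Pair57.UU Pr Ar)
      (AJ J Ar ⊓ Tg Pr), FF F M = 0 := by
  intro M hM
  refine Submodule.span_induction ?_ (map_zero _) (fun x y _ _ hx hy => by
    rw [map_add, hx, hy, add_zero]) (fun c x _ hx => by rw [map_smul, hx, smul_zero]) hM
  rintro M (⟨x, hx, y, hy, rfl⟩ | ⟨x, hx, y, hy, rfl⟩)
  · refine Submodule.span_induction (p := fun x _ => FF F (outer x y) = 0) ?_ ?_ ?_ ?_
      (UU_span hx)
    · rintro _ ⟨c, hc, rfl⟩
      rw [FF_outer_left]
      refine hy.1 _ fun i hi => ?_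
      rw [dt_lin]
      exact h3 i hi _
    · rw [outer_zero_left, map_zero]
    · intro x x' _ _ hx hx'
      rw [outer_add_left, map_add, hx, hx', add_zero]
    · intro c x _ hx
      rw [outer_smul_left, map_smul, hx, smul_zero]
  · refine Submodule.span_induction (p := fun y _ => FF F (outer x y) = 0) ?_ ?_ ?_ ?_
      (UU_span hy)
    · rintro _ ⟨c, hc, rfl⟩
      rw [FF_outer_right]
      refine hx.1 _ s hs fun i hi => ?_
      obtain ⟨α, hα⟩ := h4 i hi
      have h5 := dt_lin ((F i).flip (c i)) (Al i)
      simp only [LinearMap.flip_apply] at h5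
      rw [h5, hα, LinearMap.smul_apply, Bl_apply, (hc i).2, smul_zero]
    · rw [outer_zero_right, map_zero]
    · intro x x' _ _ hx hx'
      rw [outer_add_right, map_add, hx, hx', add_zero]
    · intro c x _ hx
      rw [outer_smul_right, map_smul, hx, smul_zero]

theorem core {n : ℕ} (hn : 2 * d + 1 = n + 2) (Pl Al Pr Ar : Fin k → Ix d → KK)
    (el er : Fin k → Fin (n + 1) → Ix d → KK)
    (hl : ∀ i, Blk Bl (Pl i) (Al i)) (hr : ∀ i, Blk Bl (Pr i) (Ar i))
    (fl : ∀ i, Frame Bl (Pl i) (Al i) n (el i)) (fr : ∀ i, Frame Bl (Pr i) (Ar i) n (er i))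
    (haa : ∀ i, Al i ∈ DegInterp910.UU Bl (Pl i) (Al i) → Ar i ∈ DegInterp910.UU Bl (Pr i) (Ar i))
    (J : Finset (Fin k)) {N : ℕ} (g : Fin N → Fin k → Fin (n + 1)) (hinj : Function.Injective g)
    (hgJ : ∀ j i, i ∉ J → g j i ≠ Fin.last n)
    (hgood : ∀ j, J.card ≤ (Finset.univ.filter fun i => g j i ≠ 0).card)
    (z : Fin N → Ten KK d k) (hz : ∀ j, z j ∈ Pair57.UU Pr (fun i => er i (g j i)))
    (hsum : (∑ j, outer (pt (fun i => el i (g j i))) (z j)) ∈
      Cm (Pair57.UU Pl Al) (An J.card Al ⊓ Tg Pl) (Pair57.UU Pr Ar) (AJ J Ar ⊓ Tg Pr)) :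
    ∀ j, z j ∈ AJ J Ar := by
  classical
  intro j0 η hη
  have hV : Module.finrank KK (Ix d → KK) = n + 2 := by
    rw [Module.finrank_fintype_fun_eq_card, Fintype.card_option, Fintype.card_prod,
      Fintype.card_fin, Fintype.card_bool, ← hn]
    ring
  have hη' : ∀ i ∈ J, dtl (η i) (Ar i) = 0 := fun i hi => hη i hi
  obtain ⟨F, h1, h2, h3, h4⟩ := @rows KK _ (Ix d → KK) _ _ (Ix d → KK) _ _ Bl Bl n _ _ (Fin k)
    Pl Al Pr Ar el er hV hV hl hr fl fr haa J (g j0) (hgJ j0) (fun i => dtl (η i)) hη'
  have hC := FF_Cm F Pl Al Pr Ar J (Finset.univ.filter fun i => g j0 i ≠ 0) (hgood j0) h3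
    (fun i hi => h4 i (Finset.mem_filter.1 hi).2)
  have h5 := hC _ hsum
  rw [map_sum, Finset.sum_eq_single j0] at h5
  · rw [FF_outer_left] at h5
    rw [← h5]
    symm
    refine fn_congr_mod (hz j0).1 _ _ fun i => ?_
    obtain ⟨α, hα⟩ := h1 i
    refine ⟨α, ?_⟩
    funext j
    rw [hα, LinearMap.add_apply, LinearMap.smul_apply, dtl_single, Bl_apply, B_single]
    rfl
  · intro j _ hj
    rw [FF_outer_left]
    obtain ⟨i, α, hα⟩ := h2 (g j) (hgJ j) (fun h => hj (hinj h))
    refine fn_zero (hz j).2 _ i α ?_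
    funext l
    show F i (el i (g j i)) (Pi.single l 1) = _
    rw [hα, LinearMap.smul_apply, Bl_apply, B_single]
    rfl
  · intro h; exact absurd (Finset.mem_univ j0) h

/-! ### the grid -/

theorem card_bad (n : ℕ) (J : Finset (Fin k)) :
    (Finset.univ.filter fun g : Fin k → Fin (n + 1) =>
      (Finset.univ.filter fun i => g i ≠ 0).card < J.card).card ≤ 2 ^ k * (n + 1) ^ J.card := by
  classical
  have h1 : (Finset.univ.filter fun g : Fin k → Fin (n + 1) =>
      (Finset.univ.filter fun i => g i ≠ 0).card < J.card) ⊆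
      (Finset.univ.filter fun Z : Finset (Fin k) => Z.card < J.card).biUnion fun Z =>
        Fintype.piFinset fun i => if i ∈ Z then (Finset.univ : Finset (Fin (n + 1))) else {0} := by
    intro g hg
    rw [Finset.mem_biUnion]
    refine ⟨Finset.univ.filter fun i => g i ≠ 0, ?_, ?_⟩
    · simpa using (Finset.mem_filter.1 hg).2
    · rw [Fintype.mem_piFinset]
      intro i
      split_ifs with hi
      · exact Finset.mem_univ _
      · simpa using hi
  refine (Finset.card_le_card h1).trans (Finset.card_biUnion_le.trans ?_)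
  calc ∑ Z ∈ Finset.univ.filter fun Z : Finset (Fin k) => Z.card < J.card,
        (Fintype.piFinset fun i => if i ∈ Z then (Finset.univ : Finset (Fin (n + 1)))
          else {0}).card
      ≤ ∑ Z ∈ Finset.univ.filter fun Z : Finset (Fin k) => Z.card < J.card,
        (n + 1) ^ J.card := by
        refine Finset.sum_le_sum fun Z hZ => ?_
        rw [Fintype.card_piFinset]
        have h2 : ∀ i, (if i ∈ Z then (Finset.univ : Finset (Fin (n + 1))) else {0}).card =
            if i ∈ Z then n + 1 else 1 := by
          intro i; split_ifs <;> simp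
        simp only [h2]
        rw [Finset.prod_ite_mem, Finset.univ_inter, Finset.prod_const]
        exact Nat.pow_le_pow_right (Nat.succ_pos _) (Finset.mem_filter.1 hZ).2.le
    _ = (Finset.univ.filter fun Z : Finset (Fin k) => Z.card < J.card).card *
        (n + 1) ^ J.card := by rw [Finset.sum_const, smul_eq_mul]
    _ ≤ 2 ^ k * (n + 1) ^ J.card := by
        refine Nat.mul_le_mul_right _ ?_
        refine (Finset.card_filter_le _ _).trans ?_
        rw [Finset.card_univ, Fintype.card_finset, Fintype.card_fin]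

theorem card_grid (n : ℕ) (J : Finset (Fin k)) :
    (Fintype.piFinset fun i : Fin k => if i ∈ J then (Finset.univ : Finset (Fin (n + 1)))
      else Finset.univ.erase (Fin.last n)).card = (n + 1) ^ J.card * n ^ (k - J.card) := by
  classical
  rw [Fintype.card_piFinset]
  have h2 : ∀ i, (if i ∈ J then (Finset.univ : Finset (Fin (n + 1)))
      else Finset.univ.erase (Fin.last n)).card = if i ∈ J then n + 1 else n := by
    intro i
    split_ifs
    · simp
    · rw [Finset.card_erase_of_mem (Finset.mem_univ _), Finset.card_univ, Fintype.card_fin]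
      rfl
  simp only [h2]
  rw [Finset.prod_ite, Finset.prod_const, Finset.prod_const, Finset.filter_mem_eq_inter,
    Finset.univ_inter]
  congr 2
  have h3 := Finset.card_filter_add_card_filter_not (s := (Finset.univ : Finset (Fin k)))
    (fun i => i ∈ J)
  rw [Finset.filter_mem_eq_inter, Finset.univ_inter, Finset.card_univ, Fintype.card_fin] at h3
  omega

theorem exists_grid (n : ℕ) (J : Finset (Fin k)) (N : ℕ)
    (hN : N + 2 ^ k * (n + 1) ^ J.card ≤ (n + 1) ^ J.card * n ^ (k - J.card)) :
    ∃ g : Fin N → Fin k → Fin (n + 1), Function.Injective g ∧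
      (∀ j i, i ∉ J → g j i ≠ Fin.last n) ∧
      (∀ j, J.card ≤ (Finset.univ.filter fun i => g j i ≠ 0).card) := by
  classical
  let G := (Fintype.piFinset fun i : Fin k => if i ∈ J then (Finset.univ : Finset (Fin (n + 1)))
      else Finset.univ.erase (Fin.last n)).filter fun g =>
        ¬ (Finset.univ.filter fun i => g i ≠ 0).card < J.card
  have hG : N ≤ G.card := by
    have h1 : ((Fintype.piFinset fun i : Fin k => if i ∈ J then
        (Finset.univ : Finset (Fin (n + 1))) else Finset.univ.erase (Fin.last n)).filter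
        fun g => (Finset.univ.filter fun i => g i ≠ 0).card < J.card).card + G.card =
        (Fintype.piFinset fun i : Fin k => if i ∈ J then
        (Finset.univ : Finset (Fin (n + 1))) else Finset.univ.erase (Fin.last n)).card :=
      Finset.card_filter_add_card_filter_not (s := Fintype.piFinset fun i : Fin k =>
        if i ∈ J then (Finset.univ : Finset (Fin (n + 1))) else Finset.univ.erase (Fin.last n))
        (fun g => (Finset.univ.filter fun i => g i ≠ 0).card < J.card)
    rw [card_grid] at h1
    have h2 : ((Fintype.piFinset fun i : Fin k => if i ∈ J then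
        (Finset.univ : Finset (Fin (n + 1))) else Finset.univ.erase (Fin.last n)).filter
        fun g => (Finset.univ.filter fun i => g i ≠ 0).card < J.card).card ≤
        2 ^ k * (n + 1) ^ J.card :=
      (Finset.card_le_card (Finset.filter_subset_filter _ (Finset.subset_univ _))).trans
        (card_bad n J)
    omega
  refine ⟨fun j => (G.equivFin.symm (Fin.castLE hG j) : Fin k → Fin (n + 1)), ?_, ?_, ?_⟩
  · intro j j' h
    have := G.equivFin.symm.injective (Subtype.ext h)
    exact Fin.castLE_injective hG this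
  · intro j i hi
    have h1 := (G.equivFin.symm (Fin.castLE hG j)).2
    have h2 := Fintype.mem_piFinset.1 (Finset.mem_filter.1 h1).1 i
    rw [if_neg hi] at h2
    exact Finset.ne_of_mem_erase h2
  · intro j
    have h1 := (G.equivFin.symm (Fin.castLE hG j)).2
    exact not_lt.1 (Finset.mem_filter.1 h1).2

/-! ### Frobenius -/

noncomputable def sg [CharP KK 2] [Finite KK] (a : ℕ) : KK ≃+* KK :=
  RingEquiv.ofBijective (iterateFrobenius KK 2 a)
    (Finite.injective_iff_bijective.1 (iterateFrobenius KK 2 a).injective)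

theorem sg_apply [CharP KK 2] [Finite KK] (a : ℕ) (x : KK) : sg a x = x ^ 2 ^ a := rfl

noncomputable def ta [CharP KK 2] [Finite KK] (a : ℕ) : (Ix d → KK) ≃+ (Ix d → KK) :=
  AddEquiv.piCongrRight fun _ => (sg (KK := KK) a).toAddEquiv

theorem ta_apply [CharP KK 2] [Finite KK] (a : ℕ) (x : Ix d → KK) :
    ta a x = fun j => x j ^ 2 ^ a := rfl

theorem ta_smul [CharP KK 2] [Finite KK] (a : ℕ) (c : KK) (x : Ix d → KK) :
    ta a (c • x) = sg a c • ta a x := by
  funext j
  simp only [ta_apply, sg_apply, Pi.smul_apply, smul_eq_mul, mul_pow]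

theorem ta_form [CharP KK 2] [Finite KK] (a : ℕ) (x y : Ix d → KK) :
    Bl (ta a x) (ta a y) = sg a (Bl x y) := by
  simp only [Bl_apply, B, map_sum, map_mul]
  rfl

/-- **LEAF C** -/
theorem grid_rows [CharP KK 2] [Finite KK] (a b : ℕ) (P A : Fin k → Ix d → KK)
    (hP : ∀ i, B (P i) (P i) ≠ 0) (hPA : ∀ i, B (P i) (A i) = 0) (hA : ∀ i, A i ≠ 0) {n : ℕ}
    (hn : 2 * d + 1 = n + 2) (J : Finset (Fin k)) (N : ℕ)
    (hN : N + 2 ^ k * (n + 1) ^ J.card ≤ (n + 1) ^ J.card * n ^ (k - J.card)) :
    ∃ x : Fin N → Fin k → Ix d → KK, (∀ j, Pt P A (x j)) ∧ (∀ j i, x j i ≠ 0) ∧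
      Indep false (2 ^ a) (2 ^ b) P
        (Dm (2 ^ a) (2 ^ b) P A (An J.card (qv (2 ^ a) A)) (AJ J (qv (2 ^ b) A)))
        (An J.card (qv (2 ^ a) A)) (AJ J (qv (2 ^ b) A)) x := by
  have hV : Module.finrank KK (Ix d → KK) = n + 2 := by
    rw [Module.finrank_fintype_fun_eq_card, Fintype.card_option, Fintype.card_prod,
      Fintype.card_fin, Fintype.card_bool, ← hn]
    ring
  have hb : ∀ i, Blk (Bl (KK := KK) (d := d)) (P i) (A i) := fun i => blk (hP i) (hPA i) (hA i)
  choose e he using fun i => exists_frame (hb i) hV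
  obtain ⟨g, hinj, hgJ, hgood⟩ := exists_grid n J N hN
  have h0 : 0 < n := by omega
  have hne : ∀ i g, e i g ≠ 0 := by
    intro i g
    refine Fin.cases ?_ (fun l => ?_) g
    · rw [(he i).sum]
      intro h1
      have h2 := Fintype.linearIndependent_iff.1 (he i).li (fun _ => 1) (by simpa using h1)
        ⟨0, h0⟩
      exact one_ne_zero h2
    · exact (he i).li.ne_zero l
  refine ⟨fun j i => e i (g j i), fun j i => mem_UUl.1 ((he i).mem (g j i)), fun j i => hne _ _,
    ?_⟩
  intro z z' hz hz' hsum j
  have hz0 : ∀ j, z' j = 0 := by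
    intro j
    have := hz' j
    simpa [TL] using this
  refine ⟨?_, by rw [hz0]; exact Submodule.zero_mem _⟩
  have hsum' : (∑ j, outer (pt (fun i => ta a (e i (g j i)))) (z j)) ∈
      Cm (Pair57.UU (fun i => ta a (P i)) (fun i => ta a (A i)))
        (An J.card (fun i => ta a (A i)) ⊓ Tg (fun i => ta a (P i)))
        (Pair57.UU (fun i => ta b (P i)) (fun i => ta b (A i)))
        (AJ J (fun i => ta b (A i)) ⊓ Tg (fun i => ta b (P i))) := by
    have h1 : (∑ j, outer (pt (fun i => ta a (e i (g j i)))) (z j)) =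
        ∑ j, (outer (pt (qv (2 ^ a) (fun i => e i (g j i)))) (z j) +
          outer (z' j) (pt (qv (2 ^ b) (fun i => e i (g j i))))) := by
      refine Finset.sum_congr rfl fun j _ => ?_
      rw [hz0, outer_zero_left, add_zero]
      rfl
    rw [h1]
    exact hsum
  exact core hn _ _ _ _ (fun i g => ta a (e i g)) (fun i g => ta b (e i g))
    (fun i => (hb i).twist (ta_form a)) (fun i => (hb i).twist (ta_form b))
    (fun i => (he i).twist (ta_smul a) (ta_form a))
    (fun i => (he i).twist (ta_smul b) (ta_form b))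
    (fun i h => (mem_UU_twist (ta_form b)).2 ((mem_UU_twist (ta_form a)).1 h))
    J g hinj hgJ hgood z (fun j => hz j) hsum' j

end Crest.Agent.R042.LinC910
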