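import Crest.Agent.R042.PairDefs_57

/-!
# Row 42 / S0059, (PAIR) leaf 2: the two-sided one-block contraction (helper807)
-/

set_option autoImplicit false
set_option linter.unusedSectionVars false

namespace Crest.Agent.R042.Pair57

open Crest.Agent.R042.Fam543 Crest.Agent.R042.SpecFam730 Crest.Agent.R042.Ker807
open Crest.Agent.R042.Spec730 hiding pure

local notation "pt" => Crest.Agent.R042.Spec730.pure

variable {KK : Type} [Field KK] {d k : ℕ}

/-- updating a kept block commutes with inserting a block -/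
theorem update_insertNth' {ι : Type} (i : Fin (k + 1)) (x : ι) (al : Fin k → ι) (j : Fin k)
    (y : ι) :
    Function.update (i.insertNth (α := fun _ => ι) x al : Fin (k + 1) → ι) (i.succAbove j) y =
      i.insertNth (α := fun _ => ι) x (Function.update al j y) := by
  funext l
  rcases Fin.eq_self_or_eq_succAbove i l with rfl | ⟨l', rfl⟩
  · rw [Function.update_of_ne (Fin.succAbove_ne l j).symm, Fin.insertNth_apply_same,
      Fin.insertNth_apply_same]
  · rw [Fin.insertNth_apply_succAbove]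
    by_cases h : l' = j
    · subst h; rw [Function.update_self, Function.update_self]
    · rw [Function.update_of_ne (fun h' => h (Fin.succAbove_right_injective h')),
        Function.update_of_ne h, Fin.insertNth_apply_succAbove]

/-- contractions in different blocks commute -/
theorem cg_cont (i : Fin (k + 1)) (lam : (Ix d → KK) →ₗ[KK] KK) (v : Fin (k + 1) → Ix d → KK)
    (j : Fin k) (t : Ten KK d (k + 1)) :
    cg (rm i v) j (cont i lam t) = cont i lam (cg v (i.succAbove j) t) := by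
  funext al
  show (∑ y, v (i.succAbove j) (sw y) * cont i lam t (Function.update al j y)) =
    ∑ x, lam (Pi.single x 1) * (∑ y, v (i.succAbove j) (sw y) *
      t (Function.update (i.insertNth (α := fun _ => Ix d) x al) (i.succAbove j) y))
  simp only [cont_apply, Finset.mul_sum]
  rw [Finset.sum_comm]
  refine Finset.sum_congr rfl fun x _ => Finset.sum_congr rfl fun y _ => ?_
  rw [update_insertNth']
  ring

/-- (2a) -/
theorem cont_mem_Tg (i : Fin (k + 1)) (lam : (Ix d → KK) →ₗ[KK] KK)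
    {v : Fin (k + 1) → Ix d → KK} {t : Ten KK d (k + 1)} (ht : t ∈ Tg v) :
    cont i lam t ∈ Tg (rm i v) := by
  rw [mem_Tg]
  intro j
  rw [cg_cont, mem_Tg.1 ht (i.succAbove j), map_zero]

theorem cont_mem_UU (i : Fin (k + 1)) (lam : (Ix d → KK) →ₗ[KK] KK)
    {v w : Fin (k + 1) → Ix d → KK} {t : Ten KK d (k + 1)} (ht : t ∈ UU v w) :
    cont i lam t ∈ UU (rm i v) (rm i w) :=
  ⟨cont_mem_Tg i lam ht.1, cont_mem_Tg i lam ht.2⟩

theorem cont_mem_SS (i : Fin (k + 1)) (lam : (Ix d → KK) →ₗ[KK] KK) {m : ℕ}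
    {a v : Fin (k + 1) → Ix d → KK} {t : Ten KK d (k + 1)} (ht : t ∈ SS m a v) :
    cont i lam t ∈ SS (m - 1) (rm i a) (rm i v) :=
  ⟨cont_spec i lam m a ht.1, cont_mem_Tg i lam ht.2⟩

/-- (2b), one entry -/
theorem cm_mem_Cm (i : Fin (k + 1)) (lam mu : (Ix d → KK) →ₗ[KK] KK) {m : ℕ}
    {P P' A P₁ P₁' A₁ : Fin (k + 1) → Ix d → KK} {M : Mat KK d (k + 1)}
    (hM : M ∈ Cm (UU P P') (SS m A P) (UU P₁ P₁') (SS m A₁ P₁)) :
    cm i lam mu M ∈ Cm (UU (rm i P) (rm i P')) (SS (m - 1) (rm i A) (rm i P))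
      (UU (rm i P₁) (rm i P₁')) (SS (m - 1) (rm i A₁) (rm i P₁)) := by
  refine Submodule.span_induction (p := fun M _ => cm i lam mu M ∈
    Cm (UU (rm i P) (rm i P')) (SS (m - 1) (rm i A) (rm i P))
      (UU (rm i P₁) (rm i P₁')) (SS (m - 1) (rm i A₁) (rm i P₁))) ?_ ?_ ?_ ?_ hM
  · rintro M (⟨x, hx, y, hy, rfl⟩ | ⟨x, hx, y, hy, rfl⟩)
    · rw [cm_outer]
      exact Submodule.subset_span (Or.inl ⟨_, cont_mem_UU i lam hx, _, cont_mem_SS i mu hy, rfl⟩)
    · rw [cm_outer]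
      exact Submodule.subset_span (Or.inr ⟨_, cont_mem_SS i lam hx, _, cont_mem_UU i mu hy, rfl⟩)
  · rw [map_zero]; exact Submodule.zero_mem _
  · intro x y _ _ hx hy; rw [map_add]; exact Submodule.add_mem _ hx hy
  · intro c x _ hx; rw [map_smul]; exact Submodule.smul_mem _ _ hx

/-- (2b) -/
theorem cmL_mem_CmL {L : ℕ} (i : Fin (k + 1)) (lam mu : (Ix d → KK) →ₗ[KK] KK) {m : ℕ}
    {P P' A P₁ P₁' A₁ : Fin (k + 1) → Ix d → KK} {M : MatL KK d (k + 1) L}
    (hM : M ∈ CmL L (UU P P') (SS m A P) (UU P₁ P₁') (SS m A₁ P₁)) :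
    cmL L i lam mu M ∈ CmL L (UU (rm i P) (rm i P')) (SS (m - 1) (rm i A) (rm i P))
      (UU (rm i P₁) (rm i P₁')) (SS (m - 1) (rm i A₁) (rm i P₁)) :=
  fun a b => cm_mem_Cm i lam mu (hM a b)

/-- the `q`-power of a product tensor -/
theorem qt_smul_pt (q : ℕ) (c : KK) (v : Fin k → Ix d → KK) :
    qt q (c • pt v) = c ^ q • pt (qv q v) := by
  funext al
  show (c * ∏ i, v i (al i)) ^ q = c ^ q * ∏ i, v i (al i) ^ q
  rw [mul_pow, Finset.prod_pow]

theorem qt_pt (q : ℕ) (v : Fin k → Ix d → KK) : qt q (pt v : Ten KK d k) = pt (qv q v) := by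
  have := qt_smul_pt (k := k) q (1 : KK) v
  rwa [one_smul, one_pow, one_smul] at this

theorem rm_qv (q : ℕ) (i : Fin (k + 1)) (v : Fin (k + 1) → Ix d → KK) :
    rm i (qv q v) = qv q (rm i v) := rfl

theorem cont_pt (i : Fin (k + 1)) (lam : (Ix d → KK) →ₗ[KK] KK) (v : Fin (k + 1) → Ix d → KK) :
    cont i lam (pt v) = lam (v i) • pt (rm i v) := cont_pure i lam v

section char2

variable [CharP KK 2]

/-- the `q`-power map intertwines the contractions -/
theorem cg_qt (e : ℕ) (v : Fin k → Ix d → KK) (i : Fin k) (t : Ten KK d k) :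
    cg (qv (2 ^ e) v) i (qt (2 ^ e) t) = qt (2 ^ e) (cg v i t) := by
  funext al
  show (∑ j, v i (sw j) ^ 2 ^ e * t (Function.update al i j) ^ 2 ^ e) =
    (∑ j, v i (sw j) * t (Function.update al i j)) ^ 2 ^ e
  rw [sum_pow_char_pow]
  exact Finset.sum_congr rfl fun j _ => by rw [mul_pow]

theorem qt_mem_Tg (e : ℕ) {v : Fin k → Ix d → KK} {t : Ten KK d k} (ht : t ∈ Tg v) :
    qt (2 ^ e) t ∈ Tg (qv (2 ^ e) v) := by
  rw [mem_Tg]
  intro i
  rw [cg_qt, mem_Tg.1 ht i]
  funext al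
  show (0 : KK) ^ 2 ^ e = 0
  exact zero_pow (pow_ne_zero _ two_ne_zero)

theorem qt_mem_UU (e : ℕ) {v w : Fin k → Ix d → KK} {t : Ten KK d k} (ht : t ∈ UU v w) :
    qt (2 ^ e) t ∈ UU (qv (2 ^ e) v) (qv (2 ^ e) w) := ⟨qt_mem_Tg e ht.1, qt_mem_Tg e ht.2⟩

/-- additivity of the `q`-power -/
theorem qt_add_two (e : ℕ) (s t : Ten KK d k) : qt (2 ^ e) (s + t) = qt (2 ^ e) s + qt (2 ^ e) t := by
  funext al
  exact add_pow_char_pow _ _ _ _

theorem qt_zero_two (e : ℕ) : qt (2 ^ e) (0 : Ten KK d k) = 0 := by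
  funext al
  exact zero_pow (pow_ne_zero _ two_ne_zero)

end char2

theorem outer_smul_left (c : KK) (x y : Ten KK d k) : outer (c • x) y = c • outer x y := by
  funext al be
  simp only [outer, Pi.smul_apply, smul_eq_mul]; ring

theorem outer_smul_right (c : KK) (x y : Ten KK d k) : outer x (c • y) = c • outer x y := by
  funext al be
  simp only [outer, Pi.smul_apply, smul_eq_mul]; ring

theorem outer_zero_left (y : Ten KK d k) : outer 0 y = 0 := by
  funext al be
  simp [outer]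

theorem outer_zero_right (x : Ten KK d k) : outer x 0 = 0 := by
  funext al be
  simp [outer]

/-- (2c), explicit formula: after the contraction only the row / column at `R` remains. -/
theorem cmL_mt_left (q : ℕ) {L : ℕ} (i : Fin (k + 1)) (lam mu : (Ix d → KK) →ₗ[KK] KK)
    (R : Fin (k + 1) → Ix d → KK) (ε : Fin L → KK) (z : Fin L → Ten KK d (k + 1)) (a b : Fin L) :
    cmL L i lam mu (mt q (fun a => ε a • pt R) z) a b =
      outer (pt (rm i R)) ((ε a * lam (R i)) • cont i mu (qt q (z b))) +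
        outer ((ε b ^ q * mu (qv q R i)) • cont i lam (z a)) (pt (rm i (qv q R))) := by
  rw [cmL_apply]
  show cm i lam mu (outer (ε a • pt R) (qt q (z b)) + outer (z a) (qt q (ε b • pt R))) = _
  rw [map_add, cm_outer, cm_outer, qt_smul_pt, map_smul, map_smul, cont_pt, cont_pt, smul_smul,
    smul_smul, outer_smul_left, outer_smul_right, outer_smul_left, outer_smul_right]

/-- (2c), the `R'` part dies -/
theorem cmL_mt_zero (q : ℕ) {L : ℕ} (i : Fin (k + 1)) (lam mu : (Ix d → KK) →ₗ[KK] KK)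
    (R' : Fin (k + 1) → Ix d → KK) (ε' : Fin L → KK) (z' : Fin L → Ten KK d (k + 1))
    (hlam : lam (R' i) = 0) (hmu : mu (qv q R' i) = 0) :
    cmL L i lam mu (mt q (fun a => ε' a • pt R') z') = 0 := by
  funext a b
  rw [cmL_mt_left, hlam, hmu, mul_zero, mul_zero, zero_smul, zero_smul, outer_zero_left,
    outer_zero_right, add_zero]
  rfl

theorem cmL_mt_add (q : ℕ) {L : ℕ} (i : Fin (k + 1)) (lam mu : (Ix d → KK) →ₗ[KK] KK)
    (R R' : Fin (k + 1) → Ix d → KK) (ε ε' : Fin L → KK) (z z' : Fin L → Ten KK d (k + 1))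
    (hlam : lam (R' i) = 0) (hmu : mu (qv q R' i) = 0) (a b : Fin L) :
    cmL L i lam mu (mt q (fun a => ε a • pt R) z + mt q (fun a => ε' a • pt R') z') a b =
      outer (pt (rm i R)) ((ε a * lam (R i)) • cont i mu (qt q (z b))) +
        outer ((ε b ^ q * mu (qv q R i)) • cont i lam (z a)) (pt (rm i (qv q R))) := by
  rw [map_add, cmL_mt_zero q i lam mu R' ε' z' hlam hmu, add_zero, cmL_mt_left]

/-- **(2c)** -/
theorem cmL_mt_mem_HmL [CharP KK 2] (e : ℕ) {L : ℕ} (i : Fin (k + 1))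
    (lam mu : (Ix d → KK) →ₗ[KK] KK) (P R R' : Fin (k + 1) → Ix d → KK) (ε ε' : Fin L → KK)
    (z z' : Fin L → Ten KK d (k + 1)) (hz : ∀ a, z a ∈ UU P R)
    (hlam : lam (R' i) = 0) (hmu : mu (qv (2 ^ e) R' i) = 0) :
    cmL L i lam mu (mt (2 ^ e) (fun a => ε a • pt R) z + mt (2 ^ e) (fun a => ε' a • pt R') z') ∈
      HmL L (rm i R) (rm i (qv (2 ^ e) R)) (UU (rm i P) (rm i R))
        (UU (rm i (qv (2 ^ e) P)) (rm i (qv (2 ^ e) R))) := by
  intro a b
  refine ⟨(ε a * lam (R i)) • cont i mu (qt (2 ^ e) (z b)),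
    Submodule.smul_mem _ _ (cont_mem_UU i mu (qt_mem_UU e (hz b))),
    (ε b ^ 2 ^ e * mu (qv (2 ^ e) R i)) • cont i lam (z a),
    Submodule.smul_mem _ _ (cont_mem_UU i lam (hz a)), ?_⟩
  exact cmL_mt_add (2 ^ e) i lam mu R R' ε ε' z z' hlam hmu a b

/-- the uncontracted window is in the hat window -/
theorem mt_mem_HmL [CharP KK 2] (e : ℕ) {L : ℕ} (P R : Fin k → Ix d → KK) (ε : Fin L → KK)
    (z : Fin L → Ten KK d k) (hz : ∀ a, z a ∈ UU P R) :
    mt (2 ^ e) (fun a => ε a • pt R) z ∈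
      HmL L R (qv (2 ^ e) R) (UU P R) (UU (qv (2 ^ e) P) (qv (2 ^ e) R)) := by
  intro a b
  refine ⟨ε a • qt (2 ^ e) (z b), Submodule.smul_mem _ _ (qt_mem_UU e (hz b)),
    ε b ^ 2 ^ e • z a, Submodule.smul_mem _ _ (hz a), ?_⟩
  show outer (ε a • pt R) (qt (2 ^ e) (z b)) + outer (z a) (qt (2 ^ e) (ε b • pt R)) = _
  rw [qt_smul_pt, outer_smul_left, outer_smul_right, outer_smul_right, outer_smul_left]

/-- the leftover `c • pt R'` at `R` (with `pt R' ∈ UU P R`) is in the hat window of `R` -/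
theorem mt_pt_mem_HmL [CharP KK 2] (e : ℕ) {L : ℕ} (P R R' : Fin k → Ix d → KK)
    (c c' : Fin L → KK) (hR' : (pt R' : Ten KK d k) ∈ UU P R) :
    mt (2 ^ e) (fun a => c a • pt R) (fun a => c' a • pt R') ∈
      HmL L R (qv (2 ^ e) R) (UU P R) (UU (qv (2 ^ e) P) (qv (2 ^ e) R)) :=
  mt_mem_HmL e P R c _ fun a => Submodule.smul_mem _ _ hR'

end Crest.Agent.R042.Pair57
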