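import Crest.Agent.R042.LinDefs_736
import Crest.Agent.R042.PairC_807

/-!
# Row 42 / S0059, LIN-INSTANCE, LEAF D of helper736: rows and columns separate (helper807)
-/

set_option autoImplicit false
set_option linter.unusedSectionVars false
set_option linter.unusedVariables false

namespace Crest.Agent.R042.LinD807

open Crest.Agent.R042.Fam543 Crest.Agent.R042.SpecFam730 Crest.Agent.R042.Ker807
open Crest.Agent.R042.Pair57 Crest.Agent.R042.Lin736
open Crest.Agent.R042.Spec730 hiding pure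
open scoped BigOperators

local notation "pt" => Crest.Agent.R042.Spec730.pure

variable {KK : Type} [Field KK] {d k : ℕ}

/-- `dt η` as a linear functional -/
def dl (η : Ix d → KK) : (Ix d → KK) →ₗ[KK] KK where
  toFun x := dt η x
  map_add' x y := by simp only [dt, Pi.add_apply, mul_add, Finset.sum_add_distrib]
  map_smul' c x := by
    simp only [dt, Pi.smul_apply, smul_eq_mul, RingHom.id_apply, Finset.mul_sum]
    exact Finset.sum_congr rfl fun j _ => by ring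

theorem dl_apply (η x : Ix d → KK) : dl η x = dt η x := rfl

theorem dl_single (η : Ix d → KK) (x : Ix d) : dl η (Pi.single x 1) = η x := by
  rw [dl_apply, dt, Finset.sum_eq_single x]
  · simp
  · intro y _ hy; simp [hy]
  · intro h; exact absurd (Finset.mem_univ _) h

theorem dt_cv (x y : Ix d → KK) : dt (cv x) y = B x y := rfl

theorem dt_smul (c : KK) (η x : Ix d → KK) : dt (c • η) x = c * dt η x := by
  simp only [dt, Pi.smul_apply, smul_eq_mul, Finset.mul_sum]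
  exact Finset.sum_congr rfl fun j _ => by ring

/-- product functional of a tensor = product functional of a contraction -/
theorem fn_insert (i : Fin (k + 1)) (w : Ix d → KK) (η : Fin k → Ix d → KK)
    (t : Ten KK d (k + 1)) :
    fn (i.insertNth (α := fun _ => Ix d → KK) w η) t = fn η (cont i (dl w) t) := by
  show (∑ al : Fin (k + 1) → Ix d, (∏ l, (i.insertNth (α := fun _ => Ix d → KK) w η :
      Fin (k + 1) → Ix d → KK) l (al l)) * t al) =
    ∑ be : Fin k → Ix d, (∏ j, η j (be j)) * ∑ x : Ix d, dl w (Pi.single x 1) *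
      t (i.insertNth x be)
  rw [← (Fin.insertNthEquiv (fun _ => Ix d) i).sum_comp, Fintype.sum_prod_type, Finset.sum_comm]
  refine Finset.sum_congr rfl fun be _ => ?_
  rw [Finset.mul_sum]
  refine Finset.sum_congr rfl fun x _ => ?_
  rw [dl_single, Fin.prod_univ_succAbove _ i]
  simp only [Fin.insertNthEquiv, Equiv.coe_fn_mk, Fin.insertNth_apply_same,
    Fin.insertNth_apply_succAbove]
  ring

/-- any contraction maps `An I0` into `An I0` -/
theorem cont_An (i : Fin (k + 1)) (w : Ix d → KK) (I0 : ℕ) (a : Fin (k + 1) → Ix d → KK)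
    {t : Ten KK d (k + 1)} (ht : t ∈ An I0 a) : cont i (dl w) t ∈ An I0 (rm i a) := by
  classical
  intro η s hs h
  rw [← fn_insert]
  refine ht _ (s.map i.succAboveEmb) (by rwa [Finset.card_map]) ?_
  intro l hl
  obtain ⟨j, hj, rfl⟩ := Finset.mem_map.1 hl
  show dt ((i.insertNth (α := fun _ => Ix d → KK) w η : Fin (k + 1) → Ix d → KK) (i.succAbove j))
    (a (i.succAbove j)) = 0
  rw [Fin.insertNth_apply_succAbove]
  exact h j hj

/-- a contraction killing `a i` maps `An I0` into `An (I0 - 1)` -/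
theorem cont_An' (i : Fin (k + 1)) (w : Ix d → KK) (I0 : ℕ) (a : Fin (k + 1) → Ix d → KK)
    (hw : dt w (a i) = 0) {t : Ten KK d (k + 1)} (ht : t ∈ An I0 a) :
    cont i (dl w) t ∈ An (I0 - 1) (rm i a) := by
  classical
  intro η s hs h
  rw [← fn_insert]
  refine ht _ (insert i (s.map i.succAboveEmb)) ?_ ?_
  · rw [Finset.card_insert_of_notMem, Finset.card_map]
    · omega
    · intro hi
      obtain ⟨j, _, hj⟩ := Finset.mem_map.1 hi
      exact Fin.succAbove_ne i j hj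
  · intro l hl
    rcases Finset.mem_insert.1 hl with rfl | hl
    · rw [Fin.insertNth_apply_same]; exact hw
    · obtain ⟨j, hj, rfl⟩ := Finset.mem_map.1 hl
      show dt ((i.insertNth (α := fun _ => Ix d → KK) w η : Fin (k + 1) → Ix d → KK)
        (i.succAbove j)) (a (i.succAbove j)) = 0
      rw [Fin.insertNth_apply_succAbove]
      exact h j hj

/-- `B (v i) ·` contracts the tensors of `Tg v` to zero -/
theorem cont_Tg_zero (i : Fin (k + 1)) (c : KK) (v : Fin (k + 1) → Ix d → KK)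
    {t : Ten KK d (k + 1)} (ht : t ∈ Tg v) : cont i (dl (c • cv (v i))) t = 0 := by
  funext be
  have h1 := mem_Tg.1 ht i
  have h2 := congrFun h1 (i.insertNth (α := fun _ => Ix d) none be)
  have h3 : (∑ j, v i (sw j) * t (Function.update
    (i.insertNth (α := fun _ => Ix d) none be) i j)) = 0 := h2
  show (∑ x, dl (c • cv (v i)) (Pi.single x 1) * t (i.insertNth x be)) = 0
  rw [← mul_zero c, ← h3, Finset.mul_sum]
  refine Finset.sum_congr rfl fun x _ => ?_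
  rw [dl_single, Fin.update_insertNth]
  show c * v i (sw x) * _ = _
  ring

/-- mapping controlled matrices by a two-sided contraction -/
theorem cm_Cm (i : Fin (k + 1)) (lam mu : (Ix d → KK) →ₗ[KK] KK)
    {UL SL UR SR : Submodule KK (Ten KK d (k + 1))} {UL' SL' UR' SR' : Submodule KK (Ten KK d k)}
    (h1 : ∀ t ∈ UL, cont i lam t ∈ UL') (h2 : ∀ t ∈ SL, cont i lam t ∈ SL')
    (h3 : ∀ t ∈ UR, cont i mu t ∈ UR') (h4 : ∀ t ∈ SR, cont i mu t ∈ SR')
    {M : Mat KK d (k + 1)} (hM : M ∈ Cm UL SL UR SR) : cm i lam mu M ∈ Cm UL' SL' UR' SR' := by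
  refine Submodule.span_induction (p := fun M _ => cm i lam mu M ∈ Cm UL' SL' UR' SR')
    ?_ ?_ ?_ ?_ hM
  · rintro M (⟨x, hx, y, hy, rfl⟩ | ⟨x, hx, y, hy, rfl⟩)
    · rw [cm_outer]
      exact Submodule.subset_span (Or.inl ⟨_, h1 x hx, _, h4 y hy, rfl⟩)
    · rw [cm_outer]
      exact Submodule.subset_span (Or.inr ⟨_, h2 x hx, _, h3 y hy, rfl⟩)
  · rw [map_zero]; exact Submodule.zero_mem _
  · intro x y _ _ hx hy; rw [map_add]; exact Submodule.add_mem _ hx hy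
  · intro c x _ hx; rw [map_smul]; exact Submodule.smul_mem _ _ hx

/-- the form of twisted vectors -/
theorem B_pow [CharP KK 2] (a : ℕ) (x y : Ix d → KK) :
    B (fun j => x j ^ 2 ^ a) (fun j => y j ^ 2 ^ a) = B x y ^ 2 ^ a := by
  unfold B
  rw [sum_pow_char_pow]
  exact Finset.sum_congr rfl fun j _ => by rw [mul_pow]

theorem rm_cons (q : ℕ) (e : Ix d → KK) (y : Fin k → Ix d → KK) :
    rm 0 (qv q (Fin.cons (α := fun _ => Ix d → KK) e y)) = qv q y := by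
  funext j l
  show (Fin.cons (α := fun _ => Ix d → KK) e y : Fin (k + 1) → Ix d → KK)
    ((0 : Fin (k + 1)).succAbove j) l ^ q = _
  rw [Fin.succAbove_zero, Fin.cons_succ]
  rfl

/-- the level lemma: choose the level after the contraction in block `0` -/
theorem level (a b : ℕ) (A : Fin (k + 1) → Ix d → KK) (lamv : Ix d → KK)
    (hlamA : dt lamv (qv (2 ^ a) A 0) = 0) (I0 : ℕ) (η : Fin (k + 1) → Ix d → KK)
    (s : Finset (Fin (k + 1))) (hs : I0 ≤ s.card)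
    (hη : ∀ i ∈ s, dt (η i) (qv (2 ^ b) A i) = 0) :
    ∃ I1, (I1 = I0 - 1 ∨ I1 = I0) ∧
      (∃ s' : Finset (Fin k), I1 ≤ s'.card ∧ ∀ l ∈ s', dt (η (Fin.succ l))
        (qv (2 ^ b) A (Fin.succ l)) = 0) ∧
      (∀ t ∈ An I0 (qv (2 ^ a) A), cont 0 (dl lamv) t ∈ An I1 (rm 0 (qv (2 ^ a) A))) ∧
      (∀ t ∈ An I0 (qv (2 ^ b) A), cont 0 (dl (η 0)) t ∈ An I1 (rm 0 (qv (2 ^ b) A))) := by
  classical
  have hcard : (s.erase 0).card ≤ (Finset.univ.filter fun l : Fin k => Fin.succ l ∈ s).card := by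
    have h1 : (s.erase 0) ⊆ (Finset.univ.filter fun l : Fin k => Fin.succ l ∈ s).image
        Fin.succ := by
      intro l hl
      rw [Finset.mem_erase] at hl
      obtain ⟨l', rfl⟩ := Fin.exists_succ_eq.2 hl.1
      exact Finset.mem_image.2 ⟨l', Finset.mem_filter.2 ⟨Finset.mem_univ _, hl.2⟩, rfl⟩
    exact (Finset.card_le_card h1).trans Finset.card_image_le
  have hkill : ∀ l ∈ (Finset.univ.filter fun l : Fin k => Fin.succ l ∈ s),
      dt (η (Fin.succ l)) (qv (2 ^ b) A (Fin.succ l)) = 0 :=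
    fun l hl => hη _ (Finset.mem_filter.1 hl).2
  by_cases h0 : (0 : Fin (k + 1)) ∈ s
  · refine ⟨I0 - 1, Or.inl rfl, ⟨_, ?_, hkill⟩, ?_, ?_⟩
    · rw [Finset.card_erase_of_mem h0] at hcard
      omega
    · exact fun t ht => cont_An' 0 lamv I0 _ hlamA ht
    · exact fun t ht => cont_An' 0 (η 0) I0 _ (hη 0 h0) ht
  · refine ⟨I0, Or.inr rfl, ⟨_, ?_, hkill⟩, ?_, ?_⟩
    · rw [Finset.erase_eq_of_notMem h0] at hcard
      exact hs.trans hcard
    · exact fun t ht => cont_An 0 lamv I0 _ ht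
    · exact fun t ht => cont_An 0 (η 0) I0 _ ht

/-- the contracted sum -/
theorem cm_sum (q q' : ℕ) (lamv et0 : Ix d → KK) {N : ℕ} (X : Fin N → Fin (k + 1) → Ix d → KK)
    (z z' : Fin N → Ten KK d (k + 1))
    (h1 : ∀ j, dt lamv (qv q (X j) 0) = 1) (h2 : ∀ j, cont 0 (dl lamv) (z' j) = 0) :
    cm 0 (dl lamv) (dl et0)
      (∑ j, (outer (pt (qv q (X j))) (z j) + outer (z' j) (pt (qv q' (X j))))) =
      ∑ j, (outer (pt (rm 0 (qv q (X j)))) (cont 0 (dl et0) (z j)) +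
        outer (0 : Ten KK d k) (pt (rm 0 (qv q' (X j))))) := by
  rw [map_sum]
  refine Finset.sum_congr rfl fun j _ => ?_
  rw [map_add, cm_outer, cm_outer, cont_pt, h2 j, dl_apply, h1 j, one_smul, outer_zero_left,
    outer_zero_left]

/-- evaluate a contraction in block `0` -/
theorem fn_zero (η : Fin (k + 1) → Ix d → KK) (t : Ten KK d (k + 1)) :
    fn (fun l => η (Fin.succ l)) (cont 0 (dl (η 0)) t) = fn η t := by
  have h2 := fn_insert 0 (η 0) (fun l => η (Fin.succ l)) t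
  have h3 : (Fin.insertNth (α := fun _ => Ix d → KK) 0 (η 0) fun l => η (Fin.succ l)) = η := by
    funext l
    refine Fin.cases ?_ (fun l' => ?_) l
    · rw [Fin.insertNth_apply_same]
    · have := Fin.insertNth_apply_succAbove (α := fun _ => Ix d → KK) 0 (η 0)
        (fun l => η (Fin.succ l)) l'
      rw [Fin.succAbove_zero] at this
      exact this
  rw [← h2, h3]

/-- rows, for abstract points -/
theorem sepRow [CharP KK 2] (a b : ℕ) (P A : Fin (k + 1) → Ix d → KK) (es : Ix d → KK)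
    (hee : B es es ≠ 0) (hAe : B es (qv (2 ^ a) A 0) = 0) (I0 : ℕ) {N : ℕ}
    (x : Fin N → Fin k → Ix d → KK) (X : Fin N → Fin (k + 1) → Ix d → KK)
    (hX0 : ∀ j, qv (2 ^ a) (X j) 0 = es)
    (hXa : ∀ j, rm 0 (qv (2 ^ a) (X j)) = qv (2 ^ a) (x j))
    (hXb : ∀ j, rm 0 (qv (2 ^ b) (X j)) = qv (2 ^ b) (x j))
    (h : ∀ I1, (I1 = I0 - 1 ∨ I1 = I0) → Indep false (2 ^ a) (2 ^ b) (rm 0 P)
      (Dm (2 ^ a) (2 ^ b) (rm 0 P) (rm 0 A) (An I1 (qv (2 ^ a) (rm 0 A)))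
        (An I1 (qv (2 ^ b) (rm 0 A)))) (An I1 (qv (2 ^ a) (rm 0 A)))
        (An I1 (qv (2 ^ b) (rm 0 A))) x)
    (z z' : Fin N → Ten KK d (k + 1))
    (hz : ∀ j, z j ∈ UU (qv (2 ^ b) P) (qv (2 ^ b) (X j)))
    (hz' : ∀ j, z' j ∈ UU (qv (2 ^ a) P) (qv (2 ^ a) (X j)))
    (hD : (∑ j, (outer (pt (qv (2 ^ a) (X j))) (z j) +
      outer (z' j) (pt (qv (2 ^ b) (X j))))) ∈
        Dm (2 ^ a) (2 ^ b) P A (An I0 (qv (2 ^ a) A)) (An I0 (qv (2 ^ b) A))) (j : Fin N) :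
    z j ∈ An I0 (qv (2 ^ b) A) := by
  intro η s hs hη
  have hlam1 : dt ((B es es)⁻¹ • cv es) es = 1 := by
    rw [dt_smul, dt_cv]; exact inv_mul_cancel₀ hee
  have hlamA : dt ((B es es)⁻¹ • cv es) (qv (2 ^ a) A 0) = 0 := by
    rw [dt_smul, dt_cv, hAe, mul_zero]
  obtain ⟨I1, hI1, ⟨s', hs', hkill⟩, hcl, hcr⟩ := level a b A _ hlamA I0 η s hs hη
  have hD' : cm 0 (dl ((B es es)⁻¹ • cv es)) (dl (η 0))
      (∑ j, (outer (pt (qv (2 ^ a) (X j))) (z j) + outer (z' j) (pt (qv (2 ^ b) (X j))))) ∈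
      Cm (UU (rm 0 (qv (2 ^ a) P)) (rm 0 (qv (2 ^ a) A)))
        (An I1 (rm 0 (qv (2 ^ a) A)) ⊓ Tg (rm 0 (qv (2 ^ a) P)))
        (UU (rm 0 (qv (2 ^ b) P)) (rm 0 (qv (2 ^ b) A)))
        (An I1 (rm 0 (qv (2 ^ b) A)) ⊓ Tg (rm 0 (qv (2 ^ b) P))) :=
    cm_Cm 0 _ _ (fun t ht => cont_mem_UU 0 _ ht)
      (fun t ht => Submodule.mem_inf.2 ⟨hcl t (Submodule.mem_inf.1 ht).1,
        cont_mem_Tg 0 _ (Submodule.mem_inf.1 ht).2⟩)
      (fun t ht => cont_mem_UU 0 _ ht)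
      (fun t ht => Submodule.mem_inf.2 ⟨hcr t (Submodule.mem_inf.1 ht).1,
        cont_mem_Tg 0 _ (Submodule.mem_inf.1 ht).2⟩) hD
  rw [cm_sum (2 ^ a) (2 ^ b) _ _ X z z' (fun j => by rw [hX0 j]; exact hlam1)
    (fun j => by
      have h3 := cont_Tg_zero 0 (B es es)⁻¹ _ (hz' j).2
      rwa [hX0 j] at h3)] at hD'
  have hD2 : (∑ j, (outer (pt (qv (2 ^ a) (x j))) (cont 0 (dl (η 0)) (z j)) +
        outer (0 : Ten KK d k) (pt (qv (2 ^ b) (x j))))) ∈
      Cm (UU (rm 0 (qv (2 ^ a) P)) (rm 0 (qv (2 ^ a) A)))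
        (An I1 (rm 0 (qv (2 ^ a) A)) ⊓ Tg (rm 0 (qv (2 ^ a) P)))
        (UU (rm 0 (qv (2 ^ b) P)) (rm 0 (qv (2 ^ b) A)))
        (An I1 (rm 0 (qv (2 ^ b) A)) ⊓ Tg (rm 0 (qv (2 ^ b) P))) := by
    have h4 : (∑ j, (outer (pt (rm 0 (qv (2 ^ a) (X j)))) (cont 0 (dl (η 0)) (z j)) +
        outer (0 : Ten KK d k) (pt (rm 0 (qv (2 ^ b) (X j)))))) =
        ∑ j, (outer (pt (qv (2 ^ a) (x j))) (cont 0 (dl (η 0)) (z j)) +
        outer (0 : Ten KK d k) (pt (qv (2 ^ b) (x j)))) :=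
      Finset.sum_congr rfl fun j _ => by rw [hXa j, hXb j]
    rw [← h4]; exact hD'
  have hzz : ∀ j, cont 0 (dl (η 0)) (z j) ∈ UU (qv (2 ^ b) (rm 0 P)) (qv (2 ^ b) (x j)) := by
    intro j
    have h1 := cont_mem_UU 0 (dl (η 0)) (hz j)
    rw [hXb j] at h1
    exact h1
  have hfin := h I1 hI1 (fun j => cont 0 (dl (η 0)) (z j)) (fun _ => 0) hzz
    (fun j => Submodule.zero_mem _) hD2 j
  have h1 := hfin.1 (fun l => η (Fin.succ l)) s' hs' hkill
  rw [← fn_zero η (z j)]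
  exact h1

/-- transposition -/
def tr : Mat KK d k →ₗ[KK] Mat KK d k where
  toFun M := fun al be => M be al
  map_add' _ _ := rfl
  map_smul' _ _ := rfl

theorem tr_outer (x y : Ten KK d k) : tr (outer x y) = outer y x := by
  funext al be
  show x be * y al = y al * x be
  ring

theorem tr_Cm {UL SL UR SR : Submodule KK (Ten KK d k)} {M : Mat KK d k}
    (hM : M ∈ Cm UL SL UR SR) : tr M ∈ Cm UR SR UL SL := by
  refine Submodule.span_induction (p := fun M _ => tr M ∈ Cm UR SR UL SL) ?_ ?_ ?_ ?_ hM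
  · rintro M (⟨x, hx, y, hy, rfl⟩ | ⟨x, hx, y, hy, rfl⟩)
    · rw [tr_outer]
      exact Submodule.subset_span (Or.inr ⟨y, hy, x, hx, rfl⟩)
    · rw [tr_outer]
      exact Submodule.subset_span (Or.inl ⟨y, hy, x, hx, rfl⟩)
  · rw [map_zero]; exact Submodule.zero_mem _
  · intro x y _ _ hx hy; rw [map_add]; exact Submodule.add_mem _ hx hy
  · intro c x _ hx; rw [map_smul]; exact Submodule.smul_mem _ _ hx

/-- **LEAF D**: with a common anisotropic vector `e` in block `0` rows and columns separate. -/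
theorem separate [CharP KK 2] (a b : ℕ) (P A : Fin (k + 1) → Ix d → KK)
    (hPA : ∀ i, B (P i) (A i) = 0) (e : Ix d → KK) (he : B (P 0) e = 0) (he' : B (A 0) e = 0)
    (hee : B e e ≠ 0) (I0 : ℕ) (hI0 : 1 ≤ I0) {N : ℕ} (x : Fin N → Fin k → Ix d → KK)
    (hx : ∀ j, Pt (rm 0 P) (rm 0 A) (x j))
    (h : ∀ I1, (I1 = I0 - 1 ∨ I1 = I0) → ∀ s t, (s, t) = (2 ^ a, 2 ^ b) ∨ (s, t) = (2 ^ b, 2 ^ a) →
      Indep false s t (rm 0 P) (Dm s t (rm 0 P) (rm 0 A) (An I1 (qv s (rm 0 A)))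
        (An I1 (qv t (rm 0 A)))) (An I1 (qv s (rm 0 A))) (An I1 (qv t (rm 0 A))) x) :
    Indep true (2 ^ a) (2 ^ b) P
      (Dm (2 ^ a) (2 ^ b) P A (An I0 (qv (2 ^ a) A)) (An I0 (qv (2 ^ b) A)))
      (An I0 (qv (2 ^ a) A)) (An I0 (qv (2 ^ b) A)) (fun j => Fin.cons e (x j)) := by
  have hp : ∀ c : ℕ, ∀ j, rm 0 (qv (2 ^ c) (Fin.cons (α := fun _ => Ix d → KK) e (x j))) =
      qv (2 ^ c) (x j) := fun c j => rm_cons _ _ _
  have hq : ∀ c : ℕ, ∀ j, qv (2 ^ c) (Fin.cons (α := fun _ => Ix d → KK) e (x j)) 0 =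
      fun l => e l ^ 2 ^ c := by
    intro c j
    funext l
    show (Fin.cons (α := fun _ => Ix d → KK) e (x j) : Fin (k + 1) → Ix d → KK) 0 l ^ 2 ^ c = _
    rw [Fin.cons_zero]
  have hBe : ∀ c : ℕ, B (fun l => e l ^ 2 ^ c) (fun l => e l ^ 2 ^ c) ≠ 0 := by
    intro c
    rw [B_pow]; exact pow_ne_zero _ hee
  have hAe : ∀ c : ℕ, B (fun l => e l ^ 2 ^ c) (qv (2 ^ c) A 0) = 0 := by
    intro c
    have h1 : B (fun l => e l ^ 2 ^ c) (qv (2 ^ c) A 0) = B e (A 0) ^ 2 ^ c := B_pow c e (A 0)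
    rw [h1, B_comm e (A 0), he', zero_pow (pow_ne_zero _ two_ne_zero)]
  intro z z' hz hz' hD j
  have hz'' : ∀ j, z' j ∈ UU (qv (2 ^ a) P)
      (qv (2 ^ a) (Fin.cons (α := fun _ => Ix d → KK) e (x j))) := by
    intro j
    have := hz' j
    unfold TL at this
    rwa [if_pos rfl] at this
  refine ⟨sepRow a b P A _ (hBe a) (hAe a) I0 x
    (fun j => Fin.cons (α := fun _ => Ix d → KK) e (x j)) (hq a) (hp a) (hp b)
    (fun I1 h1 => h I1 h1 _ _ (Or.inl rfl)) z z' hz hz'' hD j, ?_⟩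
  refine sepRow b a P A _ (hBe b) (hAe b) I0 x
    (fun j => Fin.cons (α := fun _ => Ix d → KK) e (x j)) (hq b) (hp b) (hp a)
    (fun I1 h1 => h I1 h1 _ _ (Or.inr rfl)) z' z hz'' hz ?_ j
  have h2 := tr_Cm hD
  rw [map_sum] at h2
  have h3 : (∑ j, tr (outer (pt (qv (2 ^ a) (Fin.cons (α := fun _ => Ix d → KK) e (x j)))) (z j) +
      outer (z' j) (pt (qv (2 ^ b) (Fin.cons (α := fun _ => Ix d → KK) e (x j)))))) =
      ∑ j, (outer (pt (qv (2 ^ b) (Fin.cons (α := fun _ => Ix d → KK) e (x j)))) (z' j) +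
      outer (z j) (pt (qv (2 ^ a) (Fin.cons (α := fun _ => Ix d → KK) e (x j))))) := by
    refine Finset.sum_congr rfl fun j _ => ?_
    rw [map_add, tr_outer, tr_outer]
    exact add_comm _ _
  rw [h3] at h2
  exact h2

end Crest.Agent.R042.LinD807
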