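import Crest.Agent.R042.PairDefs_57

/-!
# Row 42 / S0059, LIN-INSTANCE: definitions (helper736)

Block generic, letters of `PairDefs_57`.  Left data `P A : Fin k → Ix d → KK`, right data
`qv q P`, `qv q A`.
-/

set_option autoImplicit false
set_option linter.unusedSectionVars false

namespace Crest.Agent.R042.Lin736

open Crest.Agent.R042.Fam543 Crest.Agent.R042.SpecFam730 Crest.Agent.R042.Ker807
open Crest.Agent.R042.Pair57
open Crest.Agent.R042.Spec730 hiding pure
open scoped BigOperators Matrix

local notation "pt" => Crest.Agent.R042.Spec730.pure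

variable {KK : Type} [Field KK] {d k : ℕ}

/-- covector of `B x ·` -/
def cv (x : Ix d → KK) : Ix d → KK := fun j => x (sw j)

/-- value of a covector -/
def dt (η x : Ix d → KK) : KK := ∑ j, η j * x j

/-- product functional -/
def fn (η : Fin k → Ix d → KK) : Ten KK d k →ₗ[KK] KK where
  toFun t := ∑ al, (∏ i, η i (al i)) * t al
  map_add' := by intro s t; simp only [Pi.add_apply, mul_add, Finset.sum_add_distrib]
  map_smul' := by
    intro c t
    simp only [Pi.smul_apply, smul_eq_mul, RingHom.id_apply, Finset.mul_sum]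
    exact Finset.sum_congr rfl fun j _ => by ring

/-- tensors killed by all product functionals with at least `I0` slots killing `a` -/
def An (I0 : ℕ) (a : Fin k → Ix d → KK) : Submodule KK (Ten KK d k) where
  carrier := {t | ∀ η : Fin k → Ix d → KK, ∀ s : Finset (Fin k), I0 ≤ s.card →
    (∀ i ∈ s, dt (η i) (a i) = 0) → fn η t = 0}
  add_mem' := by intro x y hx hy η s hs h; rw [map_add, hx η s hs h, hy η s hs h, add_zero]
  zero_mem' := by intro η s _ _; exact map_zero _
  smul_mem' := by intro c x hx η s hs h; rw [map_smul, hx η s hs h, smul_zero]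

/-- tensors killed by all product functionals all of whose slots in `J` kill `a` -/
def AJ (J : Finset (Fin k)) (a : Fin k → Ix d → KK) : Submodule KK (Ten KK d k) where
  carrier := {t | ∀ η : Fin k → Ix d → KK, (∀ i ∈ J, dt (η i) (a i) = 0) → fn η t = 0}
  add_mem' := by intro x y hx hy η h; rw [map_add, hx η h, hy η h, add_zero]
  zero_mem' := by intro η _; exact map_zero _
  smul_mem' := by intro c x hx η h; rw [map_smul, hx η h, smul_zero]

/-- `U ⊗ SR + SL ⊗ U'` for the special spaces `SL`, `SR`; left exponent `s`, right exponent `t` -/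
def Dm (s t : ℕ) (P A : Fin k → Ix d → KK) (SL SR : Submodule KK (Ten KK d k)) :
    Submodule KK (Mat KK d k) :=
  Cm (UU (qv s P) (qv s A)) (SL ⊓ Tg (qv s P)) (UU (qv t P) (qv t A)) (SR ⊓ Tg (qv t P))

/-- left windows: `UU P x`, or nothing -/
def TL (c : Bool) (s : ℕ) (P x : Fin k → Ix d → KK) : Submodule KK (Ten KK d k) :=
  if c then UU (qv s P) (qv s x) else ⊥

/-- the admissible points -/
def Pt (P A x : Fin k → Ix d → KK) : Prop := ∀ i, B (P i) (x i) = 0 ∧ B (A i) (x i) = 0

/-- the points `x` have independent windows modulo `D` (`c = false`: rows only; `c = true`: rows and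
columns) -/
def Indep (c : Bool) (s t : ℕ) (P : Fin k → Ix d → KK) (D : Submodule KK (Mat KK d k))
    (SL SR : Submodule KK (Ten KK d k)) {N : ℕ} (x : Fin N → Fin k → Ix d → KK) : Prop :=
  ∀ z z' : Fin N → Ten KK d k, (∀ j, z j ∈ UU (qv t P) (qv t (x j))) →
    (∀ j, z' j ∈ TL c s P (x j)) →
    (∑ j, (outer (pt (qv s (x j))) (z j) + outer (z' j) (pt (qv t (x j))))) ∈ D →
    ∀ j, z j ∈ SR ∧ z' j ∈ SL

/-- one point: injectivity modulo `D` -/
def Inj (c : Bool) (s t : ℕ) (P : Fin k → Ix d → KK) (D : Submodule KK (Mat KK d k))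
    (SL SR : Submodule KK (Ten KK d k)) (x : Fin k → Ix d → KK) : Prop :=
  ∀ z ∈ UU (qv t P) (qv t x), ∀ z' ∈ TL c s P x,
    outer (pt (qv s x)) z + outer z' (pt (qv t x)) ∈ D → z ∈ SR ∧ z' ∈ SL

/-- stability of a space under the product operators fixing the lines `a i` -/
def Stab (a : Fin k → Ix d → KK) (S : Submodule KK (Ten KK d k)) : Prop :=
  ∀ M : Fin k → (Ix d → KK) →ₗ[KK] (Ix d → KK), (∀ i, ∃ c : KK, M i (a i) = c • a i) →
    ∀ t ∈ S, op M t ∈ S

end Crest.Agent.R042.Lin736
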