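import Crest.Agent.R042.LinDefs_736

/-!
# Row 42 / S0059, LIN-INSTANCE, leaf E of 736's list (helper144)

Basic facts about the product functionals `fn` and the special spaces `An`, `AJ`.
-/

set_option autoImplicit false
set_option linter.unusedSectionVars false

namespace Crest.Agent.R042.Lin736

open Crest.Agent.R042.Fam543 Crest.Agent.R042.SpecFam730 Crest.Agent.R042.Ker807
open Crest.Agent.R042.Pair57
open Crest.Agent.R042.Spec730 hiding pure
open scoped BigOperators Matrix

local notation "pt" => Crest.Agent.R042.Spec730.pure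

variable {KK : Type} [Field KK] {d k : ℕ}

/-! ### covectors -/

/-- `dt η` as a linear map -/
def dtL (η : Ix d → KK) : (Ix d → KK) →ₗ[KK] KK where
  toFun x := dt η x
  map_add' x y := by
    simp only [dt, Pi.add_apply, mul_add, Finset.sum_add_distrib]
  map_smul' c x := by
    simp only [dt, Pi.smul_apply, smul_eq_mul, RingHom.id_apply, Finset.mul_sum]
    exact Finset.sum_congr rfl fun j _ => by ring

theorem dtL_apply (η x : Ix d → KK) : dtL η x = dt η x := rfl

theorem dt_add (η x y : Ix d → KK) : dt η (x + y) = dt η x + dt η y := map_add (dtL η) x y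

theorem dt_smul (η : Ix d → KK) (c : KK) (x : Ix d → KK) : dt η (c • x) = c * dt η x :=
  map_smul (dtL η) c x

theorem dt_sub (η x y : Ix d → KK) : dt η (x - y) = dt η x - dt η y := map_sub (dtL η) x y

theorem dt_zero (η : Ix d → KK) : dt η 0 = 0 := map_zero (dtL η)

theorem dt_single (η : Ix d → KK) (j : Ix d) : dt η (Pi.single j 1) = η j := by
  unfold dt
  rw [Finset.sum_eq_single j]
  · simp
  · intro b _ hb; simp [hb]
  · intro h; exact absurd (Finset.mem_univ j) h

theorem dt_add_left (η θ x : Ix d → KK) : dt (η + θ) x = dt η x + dt θ x := by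
  simp only [dt, Pi.add_apply, add_mul, Finset.sum_add_distrib]

theorem dt_smul_left (c : KK) (η x : Ix d → KK) : dt (c • η) x = c * dt η x := by
  simp only [dt, Pi.smul_apply, smul_eq_mul, Finset.mul_sum]
  exact Finset.sum_congr rfl fun j _ => by ring

theorem dt_sub_left (η θ x : Ix d → KK) : dt (η - θ) x = dt η x - dt θ x := by
  simp only [dt, Pi.sub_apply, sub_mul, Finset.sum_sub_distrib]

theorem dt_cv (v x : Ix d → KK) : dt (cv v) x = B v x := rfl

/-- every linear functional is a `dt` -/
theorem exists_dt (lam : (Ix d → KK) →ₗ[KK] KK) :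
    ∃ η : Ix d → KK, ∀ x, lam x = dt η x :=
  ⟨fun j => lam (Pi.single j 1), fun x => lam_eq lam x⟩

/-- pull back of a covector by a linear map -/
def pbk (M : (Ix d → KK) →ₗ[KK] (Ix d → KK)) (η : Ix d → KK) : Ix d → KK :=
  fun j => dt η (M (Pi.single j 1))

theorem dt_pbk (M : (Ix d → KK) →ₗ[KK] (Ix d → KK)) (η x : Ix d → KK) :
    dt (pbk M η) x = dt η (M x) := by
  have := lam_eq ((dtL η).comp M) x
  exact this.symm

/-! ### product functionals -/

theorem fn_apply (η : Fin k → Ix d → KK) (t : Ten KK d k) :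
    fn η t = ∑ al, (∏ i, η i (al i)) * t al := rfl

theorem fn_pure (η c : Fin k → Ix d → KK) : fn η (pt c) = ∏ i, dt (η i) (c i) := by
  unfold dt
  rw [Finset.prod_univ_sum, Fintype.piFinset_univ]
  show (∑ al : Fin k → Ix d, (∏ i, η i (al i)) * ∏ i, c i (al i)) = _
  exact Finset.sum_congr rfl fun be _ => by rw [Finset.prod_mul_distrib]

/-- two linear maps agreeing on the product tensors agree -/
theorem ten_ext {M : Type*} [AddCommGroup M] [Module KK M] {f g : Ten KK d k →ₗ[KK] M}
    (h : ∀ c : Fin k → Ix d → KK, f (pt c) = g (pt c)) (t : Ten KK d k) : f t = g t := by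
  have ht : t ∈ Submodule.span KK (Set.range (pt : (Fin k → Ix d → KK) → _)) := by
    rw [span_pure]; trivial
  refine Submodule.span_induction (p := fun t _ => f t = g t) ?_ ?_ ?_ ?_ ht
  · rintro x ⟨c, rfl⟩; exact h c
  · rw [map_zero, map_zero]
  · intro x y _ _ hx hy; rw [map_add, map_add, hx, hy]
  · intro c x _ hx; rw [map_smul, map_smul, hx]

theorem fn_op (η : Fin k → Ix d → KK) (M : Fin k → (Ix d → KK) →ₗ[KK] (Ix d → KK))
    (t : Ten KK d k) :
    fn η (op M t) = fn (fun i j => dt (η i) (M i (Pi.single j 1))) t := by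
  refine ten_ext (f := (fn η).comp (op M)) (g := fn _) (fun c => ?_) t
  rw [LinearMap.comp_apply, op_pure, fn_pure, fn_pure]
  exact Finset.prod_congr rfl fun i _ => (dt_pbk (M i) (η i) (c i)).symm

theorem fn_single (al : Fin k → Ix d) (t : Ten KK d k) :
    fn (fun i => Pi.single (al i) 1) t = t al := by
  rw [fn_apply, Finset.sum_eq_single al]
  · simp
  · intro be _ hbe
    obtain ⟨i, hi⟩ := Function.ne_iff.1 hbe
    rw [Finset.prod_eq_zero (Finset.mem_univ i) (by simp [hi]), zero_mul]
  · intro h; exact absurd (Finset.mem_univ _) h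

theorem fn_ext {t t' : Ten KK d k} (h : ∀ η : Fin k → Ix d → KK, fn η t = fn η t') : t = t' := by
  funext al
  rw [← fn_single al t, ← fn_single al t', h]

theorem fn_cont (i : Fin (k + 1)) (η : Fin (k + 1) → Ix d → KK) (t : Ten KK d (k + 1)) :
    fn η t = fn (fun j => η (i.succAbove j)) (cont i (dtL (η i)) t) := by
  refine ten_ext (f := fn η) (g := (fn fun j => η (i.succAbove j)).comp (cont i (dtL (η i))))
    (fun c => ?_) t
  rw [LinearMap.comp_apply, cont_pure, map_smul, fn_pure, fn_pure, smul_eq_mul,
    Fin.prod_univ_succAbove _ i, dtL_apply]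

/-- `cg` is the contraction -/
theorem cg_eq_cont (v : Fin (k + 1) → Ix d → KK) (i : Fin (k + 1)) (t : Ten KK d (k + 1))
    (al : Fin (k + 1) → Ix d) :
    cg v i t al = cont i (dtL (cv (v i))) t (fun j => al (i.succAbove j)) := by
  show (∑ j, v i (sw j) * t (Function.update al i j)) = _
  rw [cont_apply]
  refine Finset.sum_congr rfl fun j _ => ?_
  rw [dtL_apply, dt_single]
  congr 2
  funext l
  rcases Fin.eq_self_or_eq_succAbove i l with rfl | ⟨l', rfl⟩
  · rw [Function.update_self, Fin.insertNth_apply_same]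
  · rw [Function.update_of_ne (Fin.succAbove_ne i l'), Fin.insertNth_apply_succAbove]

theorem cg_eq_zero_iff (v : Fin (k + 1) → Ix d → KK) (i : Fin (k + 1)) (t : Ten KK d (k + 1)) :
    cg v i t = 0 ↔ cont i (dtL (cv (v i))) t = 0 := by
  constructor
  · intro h
    funext be
    have h1 := congrFun h (i.insertNth (α := fun _ => Ix d) none be)
    rw [cg_eq_cont] at h1
    simpa [Fin.insertNth_apply_succAbove] using h1
  · intro h
    funext al
    rw [cg_eq_cont, h]; rfl

theorem mem_Tg_iff_fn (v : Fin k → Ix d → KK) (t : Ten KK d k) :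
    t ∈ Tg v ↔ ∀ (η : Fin k → Ix d → KK) (i : Fin k), η i = cv (v i) → fn η t = 0 := by
  rw [mem_Tg]
  cases k with
  | zero => exact ⟨fun _ _ i => i.elim0, fun _ i => i.elim0⟩
  | succ k =>
    constructor
    · intro h η i hi
      rw [fn_cont i, hi, (cg_eq_zero_iff v i t).1 (h i), map_zero]
    · intro h i
      rw [cg_eq_zero_iff]
      refine fn_ext fun η => ?_
      rw [map_zero]
      have h1 := h (i.insertNth (α := fun _ => Ix d → KK) (cv (v i)) η) i
        (by rw [Fin.insertNth_apply_same])
      rw [fn_cont i] at h1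
      simpa [Fin.insertNth_apply_same, Fin.insertNth_apply_succAbove] using h1

theorem fn_eq_zero_of_mem_Tg {v : Fin k → Ix d → KK} {t : Ten KK d k} (ht : t ∈ Tg v)
    {η : Fin k → Ix d → KK} (i : Fin k) {c : KK} (hi : η i = c • cv (v i)) : fn η t = 0 := by
  classical
  have h1 : fn η t = c * fn (Function.update η i (cv (v i))) t := by
    rw [fn_apply, fn_apply, Finset.mul_sum]
    refine Finset.sum_congr rfl fun al _ => ?_
    rw [← mul_assoc, ← Finset.mul_prod_erase _ _ (Finset.mem_univ i),
      ← Finset.mul_prod_erase _ (fun l => Function.update η i (cv (v i)) l (al l))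
        (Finset.mem_univ i), Function.update_self, hi, Pi.smul_apply, smul_eq_mul, mul_assoc c]
    congr 3
    refine Finset.prod_congr rfl fun l hl => ?_
    rw [Function.update_of_ne (Finset.ne_of_mem_erase hl)]
  rw [h1, (mem_Tg_iff_fn v t).1 ht _ i (Function.update_self _ _ _), mul_zero]

/-- additivity of `fn` in one slot -/
theorem fn_update_add (η : Fin k → Ix d → KK) (i : Fin k) (x y : Ix d → KK) (t : Ten KK d k) :
    fn (Function.update η i (x + y)) t =
      fn (Function.update η i x) t + fn (Function.update η i y) t := by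
  classical
  refine ten_ext (f := fn (Function.update η i (x + y)))
    (g := fn (Function.update η i x) + fn (Function.update η i y)) (fun c => ?_) t
  rw [LinearMap.add_apply, fn_pure, fn_pure, fn_pure,
    ← Finset.mul_prod_erase _ _ (Finset.mem_univ i),
    ← Finset.mul_prod_erase _ (fun l => dt (Function.update η i x l) (c l)) (Finset.mem_univ i),
    ← Finset.mul_prod_erase _ (fun l => dt (Function.update η i y l) (c l)) (Finset.mem_univ i),
    Function.update_self, Function.update_self, Function.update_self, dt_add_left, add_mul]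
  congr 1 <;>
  · congr 1
    refine Finset.prod_congr rfl fun l hl => ?_
    rw [Function.update_of_ne (Finset.ne_of_mem_erase hl),
      Function.update_of_ne (Finset.ne_of_mem_erase hl)]

theorem fn_update_smul (η : Fin k → Ix d → KK) (i : Fin k) (c : KK) (x : Ix d → KK)
    (t : Ten KK d k) :
    fn (Function.update η i (c • x)) t = c * fn (Function.update η i x) t := by
  classical
  refine ten_ext (f := fn (Function.update η i (c • x)))
    (g := c • fn (Function.update η i x)) (fun a => ?_) t
  rw [LinearMap.smul_apply, fn_pure, fn_pure, smul_eq_mul,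
    ← Finset.mul_prod_erase _ _ (Finset.mem_univ i),
    ← Finset.mul_prod_erase _ (fun l => dt (Function.update η i x l) (a l)) (Finset.mem_univ i),
    Function.update_self, Function.update_self, dt_smul_left, mul_assoc]
  congr 2
  refine Finset.prod_congr rfl fun l hl => ?_
  rw [Function.update_of_ne (Finset.ne_of_mem_erase hl),
    Function.update_of_ne (Finset.ne_of_mem_erase hl)]

/-! ### the special spaces -/

theorem mem_An {I0 : ℕ} {a : Fin k → Ix d → KK} {t : Ten KK d k} :
    t ∈ An I0 a ↔ ∀ η : Fin k → Ix d → KK, ∀ s : Finset (Fin k), I0 ≤ s.card →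
    (∀ i ∈ s, dt (η i) (a i) = 0) → fn η t = 0 := Iff.rfl

theorem mem_AJ {J : Finset (Fin k)} {a : Fin k → Ix d → KK} {t : Ten KK d k} :
    t ∈ AJ J a ↔ ∀ η : Fin k → Ix d → KK, (∀ i ∈ J, dt (η i) (a i) = 0) → fn η t = 0 := Iff.rfl

/-- `An` is the intersection of the `AJ` -/
theorem mem_An_iff_AJ {I0 : ℕ} {a : Fin k → Ix d → KK} {t : Ten KK d k} :
    t ∈ An I0 a ↔ ∀ J : Finset (Fin k), J.card = I0 → t ∈ AJ J a := by
  constructor
  · intro h J hJ η hη
    exact h η J hJ.ge hη
  · intro h η s hs hη
    obtain ⟨J, hJs, hJ⟩ := Finset.exists_subset_card_eq hs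
    exact h J hJ η fun i hi => hη i (hJs hi)

theorem An_le_AJ {I0 : ℕ} {a : Fin k → Ix d → KK} {J : Finset (Fin k)} (hJ : I0 ≤ J.card) :
    An I0 a ≤ AJ J a := fun _ h η hη => h η J hJ hη

theorem An_mono {I0 I1 : ℕ} (h : I0 ≤ I1) (a : Fin k → Ix d → KK) : An I0 a ≤ An I1 a :=
  fun _ ht η s hs hη => ht η s (h.trans hs) hη

theorem AJ_mono {J J' : Finset (Fin k)} (h : J ⊆ J') (a : Fin k → Ix d → KK) :
    AJ J a ≤ AJ J' a := fun _ ht η hη => ht η fun i hi => hη i (h hi)

theorem stab_AJ (J : Finset (Fin k)) (a : Fin k → Ix d → KK) : Stab a (AJ J a) := by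
  intro M hM t ht η hη
  rw [fn_op]
  refine ht _ fun i hi => ?_
  obtain ⟨c, hc⟩ := hM i
  have h1 := dt_pbk (M i) (η i) (a i)
  rw [hc, dt_smul, hη i hi, mul_zero] at h1
  exact h1

theorem stab_An (I0 : ℕ) (a : Fin k → Ix d → KK) : Stab a (An I0 a) := by
  intro M hM t ht η s hs hη
  rw [fn_op]
  refine ht _ s hs fun i hi => ?_
  obtain ⟨c, hc⟩ := hM i
  have h1 := dt_pbk (M i) (η i) (a i)
  rw [hc, dt_smul, hη i hi, mul_zero] at h1
  exact h1

theorem spec_le_An {m I0 : ℕ} (h : k + 1 ≤ m + I0) (a : Fin k → Ix d → KK) :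
    (spec m a : Submodule KK (Ten KK d k)) ≤ An I0 a := by
  classical
  intro t ht
  refine Submodule.span_induction (p := fun t _ => t ∈ An I0 a) ?_ ?_ ?_ ?_ ht
  · rintro x ⟨c, s, hs, hc, rfl⟩ η s' hs' hη
    obtain ⟨i, hi⟩ : (s ∩ s').Nonempty := by
      rw [← Finset.card_pos]
      have h1 := Finset.card_union_add_card_inter s s'
      have h2 : (s ∪ s').card ≤ k := by
        have := Finset.card_le_univ (s ∪ s')
        simpa using this
      omega
    rw [Finset.mem_inter] at hi
    rw [fn_pure]
    exact Finset.prod_eq_zero (Finset.mem_univ i) (by rw [hc i hi.1]; exact hη i hi.2)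
  · exact Submodule.zero_mem _
  · intro x y _ _ hx hy; exact Submodule.add_mem _ hx hy
  · intro c x _ hx; exact Submodule.smul_mem _ _ hx

theorem An_le_spec {m I0 : ℕ} {a : Fin k → Ix d → KK} (ha : ∀ i, a i ≠ 0) (h : m + I0 = k + 1) :
    (An I0 a : Submodule KK (Ten KK d k)) ≤ spec m a := by
  classical
  intro t ht
  -- functionals with `α i (a i) = 1`
  have hα : ∀ i, ∃ α : (Ix d → KK) →ₗ[KK] KK, α (a i) = 1 := by
    intro i
    obtain ⟨j, hj⟩ := Function.ne_iff.1 (ha i)
    refine ⟨(a i j)⁻¹ • LinearMap.proj j, ?_⟩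
    rw [LinearMap.smul_apply, LinearMap.proj_apply, smul_eq_mul]
    exact inv_mul_cancel₀ hj
  choose α hα using hα
  let Mb : Bool → Fin k → (Ix d → KK) →ₗ[KK] (Ix d → KK) := fun b i =>
    if b then (α i).smulRight (a i) else LinearMap.id - (α i).smulRight (a i)
  have hsum : ∀ i, ∑ c, Mb c i = LinearMap.id := by
    intro i
    rw [Fintype.sum_bool]
    simp [Mb]
  rw [← sum_op Bool Mb hsum t]
  refine Submodule.sum_mem _ fun χ _ => ?_
  by_cases hχ : m ≤ (Finset.univ.filter fun i => χ i = true).card
  · refine op_mem_spec _ a m _ hχ α (fun i hi => ?_) t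
    have := (Finset.mem_filter.1 hi).2
    simp [Mb, this]
  · have h0 : op (fun i => Mb (χ i) i) t = 0 := by
      refine fn_ext fun η => ?_
      rw [map_zero, fn_op]
      refine ht _ (Finset.univ.filter fun i => χ i = false) ?_ fun i hi => ?_
      · have h1 := Finset.card_filter_add_card_filter_not (s := (Finset.univ : Finset (Fin k)))
          (fun i => χ i = true)
        have h2 : (Finset.univ.filter fun i => ¬ χ i = true) =
            (Finset.univ.filter fun i => χ i = false) := by
          refine Finset.filter_congr fun i _ => ?_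
          simp
        rw [h2] at h1
        simp only [Finset.card_univ, Fintype.card_fin] at h1
        omega
      · have hi' := (Finset.mem_filter.1 hi).2
        have h1 := dt_pbk (Mb (χ i) i) (η i) (a i)
        have h2 : Mb (χ i) i (a i) = 0 := by
          simp [Mb, hi', hα i]
        rw [h2, dt_zero] at h1
        exact h1
    rw [h0]; exact Submodule.zero_mem _

/-! ### `UU` is spanned by product tensors -/

/-- a projector onto `p^⊥ ∩ a^⊥`, for arbitrary `p`, `a` -/
theorem exists_perp_proj (p a : Ix d → KK) :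
    ∃ (π : (Ix d → KK) →ₗ[KK] (Ix d → KK)) (u w : Ix d → KK),
      (∀ x, π x = x - (B p x • u + B a x • w)) ∧ ∀ x, B p (π x) = 0 ∧ B a (π x) = 0 := by
  let φ : (Ix d → KK) →ₗ[KK] (KK × KK) := (dtL (cv p)).prod (dtL (cv a))
  have hφ : ∀ x, φ x = (B p x, B a x) := fun x => rfl
  obtain ⟨s', hs'⟩ := LinearMap.exists_rightInverse_of_surjective φ.rangeRestrict
    (LinearMap.range_eq_top.2 φ.surjective_rangeRestrict)
  obtain ⟨s, hs⟩ := LinearMap.exists_extend s'
  have h1 : ∀ x, φ (s (φ x)) = φ x := by
    intro x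
    have h2 : s (φ x) = s' (φ.rangeRestrict x) :=
      LinearMap.congr_fun hs (φ.rangeRestrict x)
    have h3 : φ.rangeRestrict (s' (φ.rangeRestrict x)) = φ.rangeRestrict x :=
      LinearMap.congr_fun hs' (φ.rangeRestrict x)
    rw [h2]
    exact congrArg Subtype.val h3
  let π : (Ix d → KK) →ₗ[KK] (Ix d → KK) := LinearMap.id - s.comp φ
  have hπ : ∀ x, π x = x - s (φ x) := fun x => rfl
  refine ⟨π, s (1, 0), s (0, 1), fun x => ?_, fun x => ?_⟩
  · rw [hπ, hφ, ← map_smul, ← map_smul, ← map_add]
    congr 2
    ext <;> simp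
  · have h4 : φ (π x) = 0 := by
      rw [hπ, map_sub, h1, sub_self]
    rw [hφ] at h4
    exact ⟨congrArg Prod.fst h4, congrArg Prod.snd h4⟩

/-- changing all slots of a functional by multiples of `cv (P i)`, `cv (A i)` does nothing on
`UU P A` -/
theorem fn_congr_UU {P A : Fin k → Ix d → KK} {t : Ten KK d k} (ht : t ∈ UU P A)
    (η θ : Fin k → Ix d → KK)
    (h : ∀ i, ∃ x y : KK, θ i = η i + (x • cv (P i) + y • cv (A i))) : fn θ t = fn η t := by
  classical
  -- change the slots of `s`
  have key : ∀ s : Finset (Fin k), fn (fun i => if i ∈ s then θ i else η i) t = fn η t := by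
    intro s
    induction s using Finset.induction_on with
    | empty => simp
    | insert i s hi ih =>
      obtain ⟨x, y, hxy⟩ := h i
      have h1 : (fun l => if l ∈ insert i s then θ l else η l) =
          Function.update (fun l => if l ∈ s then θ l else η l) i
            (η i + (x • cv (P i) + y • cv (A i))) := by
        funext l
        by_cases hl : l = i
        · subst hl; rw [Function.update_self, ← hxy]; simp
        · rw [Function.update_of_ne hl]; simp [Finset.mem_insert, hl]
      have h2 : Function.update (fun l => if l ∈ s then θ l else η l) i (η i) =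
          (fun l => if l ∈ s then θ l else η l) := by
        funext l
        by_cases hl : l = i
        · subst hl; rw [Function.update_self]; simp [hi]
        · rw [Function.update_of_ne hl]
      have h3 : fn (Function.update (fun l => if l ∈ s then θ l else η l) i (x • cv (P i))) t = 0 :=
        fn_eq_zero_of_mem_Tg ht.1 i (c := x) (Function.update_self _ _ _)
      have h4 : fn (Function.update (fun l => if l ∈ s then θ l else η l) i (y • cv (A i))) t = 0 :=
        fn_eq_zero_of_mem_Tg ht.2 i (c := y) (Function.update_self _ _ _)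
      rw [h1, fn_update_add, fn_update_add, h2, ih, h3, h4, add_zero, add_zero]
  have := key Finset.univ
  simpa using this

theorem UU_span {P A : Fin k → Ix d → KK} {t : Ten KK d k} (ht : t ∈ UU P A) :
    t ∈ Submodule.span KK {y : Ten KK d k | ∃ c : Fin k → Ix d → KK,
      (∀ i, B (P i) (c i) = 0 ∧ B (A i) (c i) = 0) ∧ y = pt c} := by
  classical
  choose π u w hπ hπ' using fun i => exists_perp_proj (P i) (A i)
  have h1 : op π t = t := by
    refine fn_ext fun η => ?_
    rw [fn_op]
    refine fn_congr_UU ht _ _ fun i => ⟨-dt (η i) (u i), -dt (η i) (w i), ?_⟩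
    funext j
    show dt (η i) (π i (Pi.single j 1)) = _
    have h2 : B (P i) (Pi.single j 1) = cv (P i) j := by
      rw [← dt_cv, dt_single]
    have h3 : B (A i) (Pi.single j 1) = cv (A i) j := by
      rw [← dt_cv, dt_single]
    rw [hπ, dt_sub, dt_add, dt_smul, dt_smul, dt_single, h2, h3]
    simp only [Pi.add_apply, Pi.smul_apply, smul_eq_mul]
    ring
  rw [← h1]
  have ht' : t ∈ Submodule.span KK (Set.range (pt : (Fin k → Ix d → KK) → _)) := by
    rw [span_pure]; trivial
  refine Submodule.span_induction (p := fun t _ => op π t ∈ _) ?_ ?_ ?_ ?_ ht'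
  · rintro x ⟨c, rfl⟩
    rw [op_pure]
    exact Submodule.subset_span ⟨fun i => π i (c i), fun i => hπ' i (c i), rfl⟩
  · rw [map_zero]; exact Submodule.zero_mem _
  · intro x y _ _ hx hy; rw [map_add]; exact Submodule.add_mem _ hx hy
  · intro c x _ hx; rw [map_smul]; exact Submodule.smul_mem _ _ hx

/-- product tensors of admissible blocks are in `UU` -/
theorem pt_mem_UU {P A c : Fin k → Ix d → KK} (h : ∀ i, B (P i) (c i) = 0 ∧ B (A i) (c i) = 0) :
    (pt c : Ten KK d k) ∈ UU P A := by
  refine ⟨(mem_Tg_iff_fn _ _).2 fun η i hi => ?_, (mem_Tg_iff_fn _ _).2 fun η i hi => ?_⟩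
  · rw [fn_pure]
    exact Finset.prod_eq_zero (Finset.mem_univ i) (by rw [hi, dt_cv]; exact (h i).1)
  · rw [fn_pure]
    exact Finset.prod_eq_zero (Finset.mem_univ i) (by rw [hi, dt_cv]; exact (h i).2)

/-- a special space contains the admissible product tensors it should -/
theorem pt_mem_spec {m : ℕ} {a c : Fin k → Ix d → KK} (s : Finset (Fin k)) (hs : m ≤ s.card)
    (h : ∀ i ∈ s, c i = a i) : (pt c : Ten KK d k) ∈ spec m a :=
  Submodule.subset_span ⟨c, s, hs, h, rfl⟩

end Crest.Agent.R042.Lin736
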