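import Crest.Agent.R042.LinSC_736
import Crest.Agent.R042.DigitSZ_853

/-!
# Row 42 / S0059, LIN-INSTANCE (helper736): one-point count, replacement of points, greedy choice
-/

set_option autoImplicit false
set_option linter.unusedSectionVars false

namespace Crest.Agent.R042.Lin736

open Crest.Agent.R042.Fam543 Crest.Agent.R042.SpecFam730 Crest.Agent.R042.Ker807
open Crest.Agent.R042.Pair57
open Crest.Agent.R042.Spec730 hiding pure
open scoped BigOperators
open Finset MvPolynomial

local notation "pt" => Crest.Agent.R042.Spec730.pure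

variable {KK : Type} [Field KK] {d k : ℕ}

/-- digit substitution -/
def tws (Q : ℕ) {n kp : ℕ} (x : Fin n → KK) : Fin n × Fin kp → KK :=
  fun p => x p.1 ^ (Q ^ (p.2 : ℕ))

/-- the degree bound -/
def D0 (d k σ : ℕ) : ℕ := 2 * (2 * d + 1) ^ k * σ + 1

open Classical in
/-- **one point**: few digit points are bad -/
theorem one_point [CharP KK 2] [Fintype KK] {n kp Q σ : ℕ}
    (hcard : Fintype.card KK = Q ^ kp) (hQ : D0 d k σ < Q) (a b : ℕ) (hσ : 2 ^ a + 2 ^ b ≤ σ)
    (c : Bool) (P A : Fin k → Ix d → KK)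
    (hP : ∀ i, B (P i) (P i) ≠ 0)
    (SL SR : Submodule KK (Ten KK d k)) (hSL : Stab (qv (2 ^ a) A) SL)
    (hSR : Stab (qv (2 ^ b) A) SR) (D : Submodule KK (Mat KK d k))
    (hD : Dm (2 ^ a) (2 ^ b) P A SL SR ≤ D)
    (ex : Fin k → Fin kp) (hex : Function.Injective ex) (u : Fin n → Fin k → Ix d → KK)
    (hu : ∀ c, Pt P A (u c)) (χ0 : Fin n × Fin kp → KK) (h0 : ∀ i, ptx ex u χ0 i ≠ 0)
    (hI : Inj c (2 ^ a) (2 ^ b) P D SL SR (ptx ex u χ0)) :
    (univ.filter fun x : Fin n → KK =>
      ¬ Inj c (2 ^ a) (2 ^ b) P D SL SR (ptx ex u (tws Q x))).card * (Q - 1) ≤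
        D0 d k σ * Fintype.card KK ^ n := by
  obtain ⟨h, h1, h2, h3⟩ := semicont a b c P A hP SL SR hSL hSR D hD ex hex u hu χ0 h0 hI
  have hne : h ≠ 0 := by
    rintro rfl
    simp at h1
  have h4 := DigitSZ_853.digit_sz (V := Fin n) (K := KK) (k := kp) (Q := Q) (D := D0 d k σ)
    hQ hcard h hne (by
      intro m hm i
      refine (h2 m hm i).trans ?_
      unfold D0
      exact Nat.add_le_add_right (Nat.mul_le_mul_left _ hσ) 1)
  rw [Fintype.card_fin] at h4
  refine le_trans (Nat.mul_le_mul_right _ (Finset.card_le_card ?_)) h4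
  intro x hx
  rw [Finset.mem_filter] at hx ⊢
  refine ⟨hx.1, ?_⟩
  by_contra hcon
  exact hx.2 (h3 _ hcon)

theorem TL_le (c : Bool) (s : ℕ) (P x : Fin k → Ix d → KK) :
    TL c s P x ≤ UU (qv s P) (qv s x) := by
  unfold TL
  cases c
  · simp
  · simp

/-- the special part of a window lies in `Dm` -/
theorem special_mem [CharP KK 2] (a b : ℕ) (c : Bool) {P A x : Fin k → Ix d → KK}
    (hx : Pt P A x) {SL SR : Submodule KK (Ten KK d k)} {z z' : Ten KK d k}
    (hz : z ∈ UU (qv (2 ^ b) P) (qv (2 ^ b) x)) (hz' : z' ∈ TL c (2 ^ a) P x)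
    (hs : z ∈ SR) (hs' : z' ∈ SL) :
    outer (pt (qv (2 ^ a) x)) z + outer z' (pt (qv (2 ^ b) x)) ∈
      Dm (2 ^ a) (2 ^ b) P A SL SR := by
  have hq : ∀ a : ℕ, pt (qv (2 ^ a) x) ∈ UU (qv (2 ^ a) P) (qv (2 ^ a) A) := by
    intro a
    refine pt_mem_UU fun i => ⟨?_, ?_⟩
    · rw [B_qv, (hx i).1, zero_pow (pow_ne_zero _ two_ne_zero)]
    · rw [B_qv, (hx i).2, zero_pow (pow_ne_zero _ two_ne_zero)]
  refine Submodule.add_mem _ ?_ ?_
  · exact Submodule.subset_span (Or.inl ⟨_, hq a, _,
      Submodule.mem_inf.2 ⟨hs, (Submodule.mem_inf.1 hz).1⟩, rfl⟩)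
  · exact Submodule.subset_span (Or.inr ⟨_,
      Submodule.mem_inf.2 ⟨hs', (Submodule.mem_inf.1 (TL_le c _ _ _ hz')).1⟩, _, hq b, rfl⟩)

/-- the window of one point -/
def Wd (c : Bool) (s t : ℕ) (P x : Fin k → Ix d → KK) : Submodule KK (Mat KK d k) :=
  Hm (qv s x) (qv t x) (TL c s P x) (UU (qv t P) (qv t x))

/-- `D` plus the windows of the other points -/
def Dp (c : Bool) (s t : ℕ) (P : Fin k → Ix d → KK) (D : Submodule KK (Mat KK d k)) {N : ℕ}
    (x : Fin N → Fin k → Ix d → KK) (j0 : Fin N) : Submodule KK (Mat KK d k) :=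
  D ⊔ ⨆ j ∈ univ.erase j0, Wd c s t P (x j)

theorem mem_Dp {c : Bool} {s t : ℕ} {P : Fin k → Ix d → KK} {D : Submodule KK (Mat KK d k)}
    {N : ℕ} {x : Fin N → Fin k → Ix d → KK} {j0 : Fin N} {M : Mat KK d k} :
    M ∈ Dp c s t P D x j0 ↔ ∃ z z' : Fin N → Ten KK d k,
      (∀ j, z j ∈ UU (qv t P) (qv t (x j))) ∧ (∀ j, z' j ∈ TL c s P (x j)) ∧
      M - ∑ j ∈ univ.erase j0, (outer (pt (qv s (x j))) (z j) + outer (z' j) (pt (qv t (x j))))
        ∈ D := by
  unfold Dp
  constructor
  · intro h
    obtain ⟨m, hm, w, hw, rfl⟩ := Submodule.mem_sup.1 h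
    obtain ⟨μ, hμ⟩ := (Submodule.mem_iSup_finset_iff_exists_sum _ _).1 hw
    have hμ' : ∀ j, ∃ z ∈ UU (qv t P) (qv t (x j)), ∃ z' ∈ TL c s P (x j),
        (μ j : Mat KK d k) = outer (pt (qv s (x j))) z + outer z' (pt (qv t (x j))) := by
      intro j
      exact (μ j).2
    choose z hz z' hz' he using hμ'
    refine ⟨z, z', hz, hz', ?_⟩
    rw [← hμ]
    have : ∑ j ∈ univ.erase j0, (μ j : Mat KK d k) =
        ∑ j ∈ univ.erase j0, (outer (pt (qv s (x j))) (z j) +
          outer (z' j) (pt (qv t (x j)))) := Finset.sum_congr rfl fun j _ => he j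
    rw [this, add_sub_cancel_right]
    exact hm
  · rintro ⟨z, z', hz, hz', h⟩
    rw [← sub_add_cancel M (∑ j ∈ univ.erase j0, (outer (pt (qv s (x j))) (z j) +
          outer (z' j) (pt (qv t (x j)))))]
    refine Submodule.add_mem_sup h ?_
    refine Submodule.sum_mem _ fun j hj => ?_
    refine Submodule.mem_iSup_of_mem j (Submodule.mem_iSup_of_mem hj ?_)
    exact ⟨z j, hz j, z' j, hz' j, rfl⟩

theorem inj_of_indep {c : Bool} {s t : ℕ} {P : Fin k → Ix d → KK}
    {D : Submodule KK (Mat KK d k)} {SL SR : Submodule KK (Ten KK d k)} {N : ℕ}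
    {x : Fin N → Fin k → Ix d → KK} (h : Indep c s t P D SL SR x) (j0 : Fin N) :
    Inj c s t P (Dp c s t P D x j0) SL SR (x j0) := by
  classical
  intro z hz z' hz' hM
  obtain ⟨w, w', hw, hw', hD⟩ := mem_Dp.1 hM
  have h1 := h (fun j => if j = j0 then z else - w j) (fun j => if j = j0 then z' else - w' j)
    (by
      intro j
      by_cases hj : j = j0
      · subst hj; simpa using hz
      · simp only [hj, if_false]; exact Submodule.neg_mem _ (hw j))
    (by
      intro j
      by_cases hj : j = j0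
      · subst hj; simpa using hz'
      · simp only [hj, if_false]; exact Submodule.neg_mem _ (hw' j))
    (by
      convert hD using 1
      rw [← Finset.add_sum_erase univ _ (mem_univ j0), sub_eq_add_neg, ← Finset.sum_neg_distrib]
      congr 1
      · simp
      · refine Finset.sum_congr rfl fun j hj => ?_
        rw [if_neg (Finset.ne_of_mem_erase hj), if_neg (Finset.ne_of_mem_erase hj)]
        funext al be
        simp only [outer, Pi.add_apply, Pi.neg_apply]
        ring) j0
  simpa using h1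

theorem indep_update [CharP KK 2] {c : Bool} {a b : ℕ} {P A : Fin k → Ix d → KK}
    {D : Submodule KK (Mat KK d k)} {SL SR : Submodule KK (Ten KK d k)}
    (hD : Dm (2 ^ a) (2 ^ b) P A SL SR ≤ D) {N : ℕ}
    {x : Fin N → Fin k → Ix d → KK} (h : Indep c (2 ^ a) (2 ^ b) P D SL SR x) (j0 : Fin N)
    {y : Fin k → Ix d → KK} (hy : Pt P A y)
    (hI : Inj c (2 ^ a) (2 ^ b) P (Dp c (2 ^ a) (2 ^ b) P D x j0) SL SR y) :
    Indep c (2 ^ a) (2 ^ b) P D SL SR (Function.update x j0 y) := by
  classical
  intro z z' hz hz' hM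
  have hz0 : z j0 ∈ UU (qv (2 ^ b) P) (qv (2 ^ b) y) := by simpa using hz j0
  have hz0' : z' j0 ∈ TL c (2 ^ a) P y := by simpa using hz' j0
  rw [← Finset.add_sum_erase univ _ (mem_univ j0)] at hM
  simp only [Function.update_self] at hM
  have hsum : ∑ j ∈ univ.erase j0, (outer (pt (qv (2 ^ a) (Function.update x j0 y j))) (z j) +
      outer (z' j) (pt (qv (2 ^ b) (Function.update x j0 y j)))) =
      ∑ j ∈ univ.erase j0, (outer (pt (qv (2 ^ a) (x j))) (z j) +
      outer (z' j) (pt (qv (2 ^ b) (x j)))) := by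
    refine Finset.sum_congr rfl fun j hj => ?_
    rw [Function.update_of_ne (Finset.ne_of_mem_erase hj)]
  rw [hsum] at hM
  have h1 := hI (z j0) hz0 (z' j0) hz0' (by
    rw [mem_Dp]
    refine ⟨fun j => if j = j0 then 0 else - z j, fun j => if j = j0 then 0 else - z' j, ?_, ?_, ?_⟩
    · intro j
      by_cases hj : j = j0
      · simp [hj]
      · simp only [hj, if_false]
        have := hz j
        rw [Function.update_of_ne hj] at this
        exact Submodule.neg_mem _ this
    · intro j
      by_cases hj : j = j0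
      · simp [hj]
      · simp only [hj, if_false]
        have := hz' j
        rw [Function.update_of_ne hj] at this
        exact Submodule.neg_mem _ this
    · convert hM using 1
      rw [sub_eq_add_neg, ← Finset.sum_neg_distrib]
      congr 1
      refine Finset.sum_congr rfl fun j hj => ?_
      beta_reduce
      rw [if_neg (Finset.ne_of_mem_erase hj), if_neg (Finset.ne_of_mem_erase hj)]
      funext al be
      simp only [outer, Pi.add_apply, Pi.neg_apply]
      ring)
  have h2 := hD (special_mem a b c hy hz0 hz0' h1.1 h1.2)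
  have h3 := D.sub_mem hM h2
  rw [add_sub_cancel_left] at h3
  have h4 := h (fun j => if j = j0 then 0 else z j) (fun j => if j = j0 then 0 else z' j)
    (by
      intro j
      by_cases hj : j = j0
      · simp [hj]
      · simp only [hj, if_false]
        have := hz j
        rwa [Function.update_of_ne hj] at this)
    (by
      intro j
      by_cases hj : j = j0
      · simp [hj]
      · simp only [hj, if_false]
        have := hz' j
        rwa [Function.update_of_ne hj] at this)
    (by
      convert h3 using 1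
      rw [← Finset.add_sum_erase univ _ (mem_univ j0)]
      have e0 : outer (pt (qv (2 ^ a) (x j0))) (if j0 = j0 then 0 else z j0) +
          outer (if j0 = j0 then 0 else z' j0) (pt (qv (2 ^ b) (x j0))) = 0 := by
        funext al be
        simp [outer]
      rw [e0, zero_add]
      refine Finset.sum_congr rfl fun j hj => ?_
      rw [if_neg (Finset.ne_of_mem_erase hj), if_neg (Finset.ne_of_mem_erase hj)])
  intro j
  by_cases hj : j = j0
  · subst hj; exact h1
  · have := h4 j
    simpa [hj] using this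

open Classical in
/-- **greedy**: finitely many conditions, a dense set `X` of digit points -/
theorem greedy [CharP KK 2] [Fintype KK] {n kp Q σ : ℕ}
    (hcard : Fintype.card KK = Q ^ kp) (hQ : D0 d k σ < Q) {𝒥 : Type*} [Fintype 𝒥]
    (a b : 𝒥 → ℕ) (hσ : ∀ j, 2 ^ a j + 2 ^ b j ≤ σ)
    (c : 𝒥 → Bool) (P A : Fin k → Ix d → KK)
    (hP : ∀ i, B (P i) (P i) ≠ 0)
    (SL SR : 𝒥 → Submodule KK (Ten KK d k)) (hSL : ∀ j, Stab (qv (2 ^ a j) A) (SL j))
    (hSR : ∀ j, Stab (qv (2 ^ b j) A) (SR j))
    (ex : Fin k → Fin kp) (hex : Function.Injective ex) (u : Fin n → Fin k → Ix d → KK)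
    (hu : ∀ c, Pt P A (u c)) {N : ℕ} (χ : 𝒥 → Fin N → Fin n × Fin kp → KK)
    (h0 : ∀ j l i, ptx ex u (χ j l) i ≠ 0)
    (hI : ∀ j, Indep (c j) (2 ^ a j) (2 ^ b j) P
      (Dm (2 ^ a j) (2 ^ b j) P A (SL j) (SR j)) (SL j) (SR j) (fun l => ptx ex u (χ j l)))
    (X : Finset (Fin n → KK))
    (hX : Fintype.card 𝒥 * (D0 d k σ * Fintype.card KK ^ n) < X.card * (Q - 1)) :
    ∃ x : Fin N → Fin n → KK, (∀ l, x l ∈ X) ∧
      ∀ j, Indep (c j) (2 ^ a j) (2 ^ b j) P
        (Dm (2 ^ a j) (2 ^ b j) P A (SL j) (SR j)) (SL j) (SR j)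
        (fun l => ptx ex u (tws Q (x l))) := by
  have hXne : X.Nonempty := by
    rw [← Finset.card_pos]
    by_contra hcon
    have : X.card = 0 := by omega
    rw [this] at hX
    simp at hX
  obtain ⟨x0, hx0⟩ := hXne
  have key : ∀ m : ℕ, m ≤ N → ∃ x : Fin N → Fin n → KK, (∀ l, x l ∈ X) ∧
      ∀ j, Indep (c j) (2 ^ a j) (2 ^ b j) P
        (Dm (2 ^ a j) (2 ^ b j) P A (SL j) (SR j)) (SL j) (SR j)
        (fun l => if (l : ℕ) < m then ptx ex u (tws Q (x l)) else ptx ex u (χ j l)) := by
    intro m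
    induction m with
    | zero =>
      intro _
      refine ⟨fun _ => x0, fun _ => hx0, fun j => ?_⟩
      simpa using hI j
    | succ m ih =>
      intro hm
      obtain ⟨x, hx, hind⟩ := ih (by omega)
      let j0 : Fin N := ⟨m, by omega⟩
      let y : ∀ j : 𝒥, Fin N → Fin k → Ix d → KK := fun j l =>
        if (l : ℕ) < m then ptx ex u (tws Q (x l)) else ptx ex u (χ j l)
      have hy0 : ∀ j, y j j0 = ptx ex u (χ j j0) := by
        intro j; simp [y, j0]
      let bad : 𝒥 → Finset (Fin n → KK) := fun j => univ.filter fun v =>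
        ¬ Inj (c j) (2 ^ a j) (2 ^ b j) P
          (Dp (c j) (2 ^ a j) (2 ^ b j) P (Dm (2 ^ a j) (2 ^ b j) P A (SL j) (SR j)) (y j) j0)
          (SL j) (SR j) (ptx ex u (tws Q v))
      have hbad : ∀ j, (bad j).card * (Q - 1) ≤ D0 d k σ * Fintype.card KK ^ n := by
        intro j
        refine one_point hcard hQ (a j) (b j) (hσ j) (c j) P A hP (SL j) (SR j) (hSL j) (hSR j)
          _ ?_ ex hex u hu (χ j j0) (h0 j j0) ?_
        · exact le_sup_left
        · have := inj_of_indep (hind j) j0
          rw [← hy0 j]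
          exact this
      have hex' : ∃ v ∈ X, ∀ j, v ∉ bad j := by
        by_contra hcon
        push Not at hcon
        have hsub : X ⊆ univ.biUnion bad := by
          intro v hv
          obtain ⟨j, hj⟩ := hcon v hv
          exact Finset.mem_biUnion.2 ⟨j, mem_univ _, hj⟩
        have h1 : X.card * (Q - 1) ≤ Fintype.card 𝒥 * (D0 d k σ * Fintype.card KK ^ n) := by
          calc X.card * (Q - 1) ≤ (∑ j, (bad j).card) * (Q - 1) :=
                Nat.mul_le_mul_right _ ((Finset.card_le_card hsub).trans Finset.card_biUnion_le)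
            _ = ∑ j, (bad j).card * (Q - 1) := Finset.sum_mul _ _ _
            _ ≤ ∑ _j : 𝒥, D0 d k σ * Fintype.card KK ^ n := Finset.sum_le_sum fun j _ => hbad j
            _ = _ := by rw [Finset.sum_const, Finset.card_univ, smul_eq_mul]
        omega
      obtain ⟨v, hv, hvb⟩ := hex'
      refine ⟨Function.update x j0 v, ?_, ?_⟩
      · intro l
        by_cases hl : l = j0
        · subst hl; simpa using hv
        · rw [Function.update_of_ne hl]; exact hx l
      · intro j
        have h1 : Inj (c j) (2 ^ a j) (2 ^ b j) P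
          (Dp (c j) (2 ^ a j) (2 ^ b j) P (Dm (2 ^ a j) (2 ^ b j) P A (SL j) (SR j)) (y j) j0)
          (SL j) (SR j) (ptx ex u (tws Q v)) := by
          have := hvb j
          simp only [bad, Finset.mem_filter, Finset.mem_univ, true_and, not_not] at this
          exact this
        have h2 := indep_update (A := A) le_rfl (hind j) j0
          (ptx_Pt ex u P A hu (tws Q v)) h1
        convert h2 using 1
        funext l
        by_cases hl : l = j0
        · subst hl
          simp [j0]
        · have hl' : (l : ℕ) ≠ m := fun h => hl (Fin.ext h)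
          rw [Function.update_of_ne hl, Function.update_of_ne hl]
          by_cases h3 : (l : ℕ) < m
          · rw [if_pos h3, if_pos (by omega)]
          · rw [if_neg h3, if_neg (by omega)]
  obtain ⟨x, hx, hind⟩ := key N le_rfl
  refine ⟨x, hx, fun j => ?_⟩
  have := hind j
  simpa using this

end Crest.Agent.R042.Lin736
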