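import Crest.Agent.R042.LinB_736

/-!
# Row 42 / S0059, LIN-INSTANCE (helper736): semicontinuity for the windows
-/

set_option autoImplicit false
set_option linter.unusedSectionVars false

namespace Crest.Agent.R042.Lin736

open Crest.Agent.R042.Fam543 Crest.Agent.R042.SpecFam730 Crest.Agent.R042.Ker807
open Crest.Agent.R042.Pair57
open Crest.Agent.R042.Spec730 hiding pure
open scoped BigOperators
open Finset MvPolynomial

local notation "pt" => Crest.Agent.R042.Spec730.pure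

variable {KK : Type} [Field KK] {d k : ℕ}

section

variable {n kp : ℕ} (ex : Fin k → Fin kp) (u : Fin n → Fin k → Ix d → KK)

/-- the point with block coordinates `χ` -/
def ptx (χ : Fin n × Fin kp → KK) : Fin k → Ix d → KK :=
  fun i α => ∑ c, χ (c, ex i) * u c i α

/-- coordinate polynomial of the `s`-twisted point -/
noncomputable def lp (s : ℕ) (i : Fin k) (α : Ix d) : MvPolynomial (Fin n × Fin kp) KK :=
  ∑ c, C (u c i α ^ s) * X (c, ex i) ^ s

theorem eval_lp [CharP KK 2] (a : ℕ) (χ : Fin n × Fin kp → KK) (i : Fin k) (α : Ix d) :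
    eval χ (lp ex u (2 ^ a) i α) = qv (2 ^ a) (ptx ex u χ) i α := by
  simp only [lp, map_sum, map_mul, map_pow, eval_X, eval_C, qv, ptx]
  rw [sum_pow_char_pow]
  exact Finset.sum_congr rfl fun c _ => by rw [mul_pow, mul_comm]

theorem bd_lp (s : ℕ) (i : Fin k) (α : Ix d) :
    BDb (fun b => if b = ex i then s else 0) (lp ex u s i α) :=
  BDb.sum _ _ fun c _ => (BDb.X_pow c (ex i) s).C_mul _

/-- matrix entries of the frame operator -/
noncomputable def kpo (s : ℕ) (y : Fin k → Ix d → KK) (i : Fin k) (β γ : Ix d) :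
    MvPolynomial (Fin n × Fin kp) KK :=
  C (if β = γ then (1 : KK) else 0) * (∑ j, C (y i j ^ s) * lp ex u s i (sw j)) -
    C (y i β ^ s) * lp ex u s i (sw γ)

theorem eval_kpo [CharP KK 2] (a : ℕ) (χ : Fin n × Fin kp → KK) (y : Fin k → Ix d → KK)
    (i : Fin k) (β γ : Ix d) : eval χ (kpo ex u (2 ^ a) y i β γ) =
      kap (qv (2 ^ a) (ptx ex u χ) i) (qv (2 ^ a) y i) (Pi.single γ 1) β := by
  rw [kap_single]
  simp only [kpo, map_sub, map_mul, eval_C, map_sum, eval_lp]
  have h : B (qv (2 ^ a) (ptx ex u χ) i) (qv (2 ^ a) y i) =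
      ∑ j, y i j ^ 2 ^ a * qv (2 ^ a) (ptx ex u χ) i (sw j) := by
    unfold B
    refine Finset.sum_congr rfl fun j _ => ?_
    show _ * (y i j ^ 2 ^ a) = _
    ring
  rw [h]
  show _ = _ - _ * (y i β ^ 2 ^ a)
  ring

theorem bd_kpo (s : ℕ) (y : Fin k → Ix d → KK) (i : Fin k) (β γ : Ix d) :
    BDb (fun b => if b = ex i then s else 0) (kpo ex u s y i β γ) := by
  refine BDb.sub (BDb.C_mul _ (BDb.sum _ _ fun j _ => (bd_lp ex u s i _).C_mul _)) ?_
  exact (bd_lp ex u s i _).C_mul _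

theorem sum_ex_le (hex : Function.Injective ex) (s : ℕ) (b : Fin kp) :
    (∑ i, if b = ex i then s else 0) ≤ s := by
  classical
  by_cases h : ∃ i, b = ex i
  · obtain ⟨i, hi⟩ := h
    rw [Finset.sum_eq_single i]
    · simp [hi]
    · intro j _ hj
      rw [if_neg]
      intro h'
      exact hj (hex (by rw [← h', ← hi]))
    · intro h; exact absurd (Finset.mem_univ _) h
  · rw [Finset.sum_eq_zero]
    · exact Nat.zero_le _
    · intro i _
      rw [if_neg]
      exact fun h' => h ⟨i, h'⟩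

/-- the point tensor -/
noncomputable def ptP (s : ℕ) (al : Fin k → Ix d) : MvPolynomial (Fin n × Fin kp) KK :=
  ∏ i, lp ex u s i (al i)

theorem eval_ptP [CharP KK 2] (a : ℕ) (χ : Fin n × Fin kp → KK) (al : Fin k → Ix d) :
    eval χ (ptP ex u (2 ^ a) al) = pt (qv (2 ^ a) (ptx ex u χ)) al := by
  simp only [ptP, map_prod, eval_lp]
  rfl

theorem bd_ptP (hex : Function.Injective ex) (s : ℕ) (al : Fin k → Ix d) :
    BDb (fun _ => s) (ptP ex u s al) :=
  (BDb.prod univ _ _ fun i _ => bd_lp ex u s i (al i)).mono fun b => sum_ex_le ex hex s b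

/-- the frame operator applied to `z` -/
noncomputable def opP (s : ℕ) (y : Fin k → Ix d → KK) (z : Ten KK d k) (al : Fin k → Ix d) :
    MvPolynomial (Fin n × Fin kp) KK :=
  ∑ be, C (z be) * ∏ i, kpo ex u s y i (al i) (be i)

theorem eval_opP [CharP KK 2] (a : ℕ) (χ : Fin n × Fin kp → KK) (y : Fin k → Ix d → KK)
    (z : Ten KK d k) (al : Fin k → Ix d) : eval χ (opP ex u (2 ^ a) y z al) =
      op (fun i => kap (qv (2 ^ a) (ptx ex u χ) i) (qv (2 ^ a) y i)) z al := by
  simp only [opP, map_sum, map_mul, eval_C, map_prod, eval_kpo, op, LinearMap.coe_mk,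
    AddHom.coe_mk]
  exact Finset.sum_congr rfl fun be _ => by ring

theorem bd_opP (hex : Function.Injective ex) (s : ℕ) (y : Fin k → Ix d → KK) (z : Ten KK d k)
    (al : Fin k → Ix d) : BDb (fun _ => s) (opP ex u s y z al) :=
  BDb.sum _ _ fun be _ => BDb.C_mul _
    ((BDb.prod univ _ _ fun i _ => bd_kpo ex u s y i (al i) (be i)).mono
      fun b => sum_ex_le ex hex s b)

/-- the window vectors as polynomials -/
noncomputable def mm (s t : ℕ) (y : Fin k → Ix d → KK)
    (p : (Fin k → Ix d) × (Fin k → Ix d)) :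
    (Ten KK d k × Ten KK d k) →ₗ[KK] MvPolynomial (Fin n × Fin kp) KK where
  toFun z := ptP ex u s p.1 * opP ex u t y z.1 p.2 + opP ex u s y z.2 p.1 * ptP ex u t p.2
  map_add' := by
    intro z z'
    have h : ∀ (s : ℕ) (x x' : Ten KK d k) al,
        opP ex u s y (x + x') al = opP ex u s y x al + opP ex u s y x' al := by
      intro s x x' al
      simp only [opP, Pi.add_apply, map_add, add_mul, Finset.sum_add_distrib]
    rw [Prod.fst_add, Prod.snd_add, h, h]; ring
  map_smul' := by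
    intro c z
    have h : ∀ (s : ℕ) (x : Ten KK d k) al,
        opP ex u s y (c • x) al = C c * opP ex u s y x al := by
      intro s x al
      simp only [opP, Pi.smul_apply, smul_eq_mul, map_mul, Finset.mul_sum]
      exact Finset.sum_congr rfl fun be _ => by ring
    rw [Prod.smul_fst, Prod.smul_snd, h, h, RingHom.id_apply, MvPolynomial.smul_eq_C_mul]; ring

theorem eval_mm [CharP KK 2] (a b : ℕ) (χ : Fin n × Fin kp → KK) (y : Fin k → Ix d → KK)
    (z : Ten KK d k × Ten KK d k) (p : (Fin k → Ix d) × (Fin k → Ix d)) :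
    eval χ (mm ex u (2 ^ a) (2 ^ b) y p z) =
      (outer (pt (qv (2 ^ a) (ptx ex u χ)))
          (op (fun i => kap (qv (2 ^ b) (ptx ex u χ) i) (qv (2 ^ b) y i)) z.1) +
        outer (op (fun i => kap (qv (2 ^ a) (ptx ex u χ) i) (qv (2 ^ a) y i)) z.2)
          (pt (qv (2 ^ b) (ptx ex u χ)))) p.1 p.2 := by
  simp only [mm, LinearMap.coe_mk, AddHom.coe_mk, map_add, map_mul, eval_ptP, eval_opP]
  rfl

theorem bd_mm (hex : Function.Injective ex) (s t : ℕ) (y : Fin k → Ix d → KK)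
    (z : Ten KK d k × Ten KK d k) (p : (Fin k → Ix d) × (Fin k → Ix d)) :
    BD (s + t) (mm ex u s t y p z) := by
  refine BDb.toBD (δ := fun _ => s + t) (BDb.add ?_ ?_) (fun b => le_rfl)
  · exact (bd_ptP ex u hex s p.1).mul (bd_opP ex u hex t y z.1 p.2)
  · exact (bd_opP ex u hex s y z.2 p.1).mul (bd_ptP ex u hex t p.2)

end

theorem B_qv [CharP KK 2] (a : ℕ) (x y : Fin k → Ix d → KK) (i : Fin k) :
    B (qv (2 ^ a) x i) (qv (2 ^ a) y i) = B (x i) (y i) ^ 2 ^ a := by
  unfold B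
  rw [sum_pow_char_pow]
  exact Finset.sum_congr rfl fun j _ => by rw [mul_pow]; rfl

theorem card_Ix : Fintype.card (Ix d) = 2 * d + 1 := by
  simp [Ix, Fintype.card_option, Fintype.card_prod]; ring

theorem B_nondeg (x : Ix d → KK) (hx : x ≠ 0) : ∃ v, B x v ≠ 0 := by
  by_contra hcon
  push Not at hcon
  apply hx
  funext j
  have := hcon (Pi.single (sw j) 1)
  rw [B_single, sw_sw] at this
  exact this

theorem ptx_Pt {n kp : ℕ} (ex : Fin k → Fin kp) (u : Fin n → Fin k → Ix d → KK)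
    (P A : Fin k → Ix d → KK) (hu : ∀ c, Pt P A (u c)) (χ : Fin n × Fin kp → KK) :
    Pt P A (ptx ex u χ) := by
  have h : ∀ (v : Ix d → KK) (i : Fin k), (∀ c, B v (u c i) = 0) → B v (ptx ex u χ i) = 0 := by
    intro v i hv
    have h1 : ptx ex u χ i = ∑ c, χ (c, ex i) • u c i := by
      funext α; simp [ptx, Finset.sum_apply]
    have h2 : ∀ (s : Finset (Fin n)), B v (∑ c ∈ s, χ (c, ex i) • u c i) = 0 := by
      intro s
      classical
      induction s using Finset.induction_on with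
      | empty => simp [B]
      | insert c s hc ih =>
        rw [Finset.sum_insert hc, B_add_right, ih, B_smul_right, hv, mul_zero, add_zero]
    rw [h1, h2]
  intro i
  exact ⟨h _ i fun c => (hu c i).1, h _ i fun c => (hu c i).2⟩

/-- **semicontinuity**: injectivity of the window of one point modulo `D` at `χ0` implies it outside
the zeros of one polynomial. -/
theorem semicont [CharP KK 2] {n kp : ℕ} (a b : ℕ) (c : Bool) (P A : Fin k → Ix d → KK)
    (hP : ∀ i, B (P i) (P i) ≠ 0)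
    (SL SR : Submodule KK (Ten KK d k)) (hSL : Stab (qv (2 ^ a) A) SL)
    (hSR : Stab (qv (2 ^ b) A) SR) (D : Submodule KK (Mat KK d k))
    (hD : Dm (2 ^ a) (2 ^ b) P A SL SR ≤ D)
    (ex : Fin k → Fin kp) (hex : Function.Injective ex) (u : Fin n → Fin k → Ix d → KK)
    (hu : ∀ c, Pt P A (u c)) (χ0 : Fin n × Fin kp → KK) (h0 : ∀ i, ptx ex u χ0 i ≠ 0)
    (hI : Inj c (2 ^ a) (2 ^ b) P D SL SR (ptx ex u χ0)) :
    ∃ h : MvPolynomial (Fin n × Fin kp) KK, eval χ0 h ≠ 0 ∧
      BD (2 * (2 * d + 1) ^ k * (2 ^ a + 2 ^ b) + 1) h ∧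
      ∀ χ, eval χ h ≠ 0 → Inj c (2 ^ a) (2 ^ b) P D SL SR (ptx ex u χ) := by
  classical
  -- the vectors `y`
  have hy : ∀ i, ∃ y : Ix d → KK, B (P i) y = 0 ∧ B (ptx ex u χ0 i) y ≠ 0 := by
    intro i
    obtain ⟨v, hv⟩ := B_nondeg _ (h0 i)
    have hPx : B (P i) (ptx ex u χ0 i) = 0 := (ptx_Pt ex u P A hu χ0 i).1
    refine ⟨v - (B (P i) v / B (P i) (P i)) • P i, ?_, ?_⟩
    · rw [B_sub_right, B_smul_right, div_mul_cancel₀ _ (hP i), sub_self]
    · rw [B_sub_right, B_smul_right, B_comm (ptx ex u χ0 i) (P i), hPx, mul_zero, sub_zero]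
      exact hv
  choose y hyP hyx using hy
  have hyP' : ∀ (a : ℕ) i, B (qv (2 ^ a) P i) (qv (2 ^ a) y i) = 0 := by
    intro a i; rw [B_qv, hyP, zero_pow (pow_ne_zero _ two_ne_zero)]
  have hPt : ∀ χ (a : ℕ), (∀ i, B (qv (2 ^ a) P i) (qv (2 ^ a) (ptx ex u χ) i) = 0) ∧
      ∀ i, B (qv (2 ^ a) A i) (qv (2 ^ a) (ptx ex u χ) i) = 0 := by
    intro χ a
    have h := ptx_Pt ex u P A hu χ
    constructor
    · intro i; rw [B_qv, (h i).1, zero_pow (pow_ne_zero _ two_ne_zero)]
    · intro i; rw [B_qv, (h i).2, zero_pow (pow_ne_zero _ two_ne_zero)]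
  -- membership of the point tensors
  have hpt : ∀ χ (a : ℕ), pt (qv (2 ^ a) (ptx ex u χ)) ∈ UU (qv (2 ^ a) P) (qv (2 ^ a) A) := by
    intro χ a
    refine Submodule.mem_inf.2 ⟨?_, ?_⟩
    · rw [mem_Tg_iff_fn]
      intro η i hi
      rw [fn_pure, Finset.prod_eq_zero (Finset.mem_univ i)]
      rw [hi, dt_cv]; exact (hPt χ a).1 i
    · rw [mem_Tg_iff_fn]
      intro η i hi
      rw [fn_pure, Finset.prod_eq_zero (Finset.mem_univ i)]
      rw [hi, dt_cv]; exact (hPt χ a).2 i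
  set ξ := ptx ex u χ0 with hξ
  let E1 : Submodule KK (Ten KK d k × Ten KK d k) :=
    (UU (qv (2 ^ b) P) (qv (2 ^ b) ξ)).prod (TL c (2 ^ a) P ξ)
  let S1 : Submodule KK E1 := (SR.prod SL).comap E1.subtype
  let DD : Submodule KK ((Fin k → Ix d) × (Fin k → Ix d) → KK) :=
    { carrier := {v | (fun al be => v (al, be)) ∈ D}
      add_mem' := fun hx hy => D.add_mem hx hy
      zero_mem' := D.zero_mem
      smul_mem' := fun c _ hx => D.smul_mem c hx }
  have hmemDD : ∀ v, v ∈ DD ↔ (fun al be => v (al, be)) ∈ D := fun _ => Iff.rfl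
  -- the evaluation of the polynomial family
  have hev : ∀ χ (e : E1), ((fun p => eval χ (mm ex u (2 ^ a) (2 ^ b) y p (e : _ × _))) ∈ DD ↔
      outer (pt (qv (2 ^ a) (ptx ex u χ)))
          (op (fun i => kap (qv (2 ^ b) (ptx ex u χ) i) (qv (2 ^ b) y i)) e.1.1) +
        outer (op (fun i => kap (qv (2 ^ a) (ptx ex u χ) i) (qv (2 ^ a) y i)) e.1.2)
          (pt (qv (2 ^ b) (ptx ex u χ))) ∈ D) := by
    intro χ e
    rw [hmemDD]
    have : (fun al be => eval χ (mm ex u (2 ^ a) (2 ^ b) y (al, be) (e : _ × _))) =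
        outer (pt (qv (2 ^ a) (ptx ex u χ)))
          (op (fun i => kap (qv (2 ^ b) (ptx ex u χ) i) (qv (2 ^ b) y i)) e.1.1) +
        outer (op (fun i => kap (qv (2 ^ a) (ptx ex u χ) i) (qv (2 ^ a) y i)) e.1.2)
          (pt (qv (2 ^ b) (ptx ex u χ))) := by
      funext al be
      rw [eval_mm]
    rw [this]
  -- scalars at `χ0`
  have hsc : ∀ (a : ℕ) (z : Ten KK d k), z ∈ Tg (qv (2 ^ a) ξ) →
      op (fun i => kap (qv (2 ^ a) ξ i) (qv (2 ^ a) y i)) z =
        (∏ i, B (qv (2 ^ a) ξ i) (qv (2 ^ a) y i)) • z := by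
    intro a z hz
    refine op_scalar hz _ _ (fun i => - qv (2 ^ a) y i) ?_
    intro i v
    rw [kap_apply, smul_neg, sub_eq_add_neg]
  have hsc0 : ∀ (a : ℕ), (∏ i, B (qv (2 ^ a) ξ i) (qv (2 ^ a) y i)) ≠ 0 := by
    intro a
    refine Finset.prod_ne_zero_iff.2 fun i _ => ?_
    rw [B_qv]
    exact pow_ne_zero _ (hyx i)
  have hTLle : ∀ z, z ∈ TL c (2 ^ a) P ξ → z ∈ UU (qv (2 ^ a) P) (qv (2 ^ a) ξ) := by
    intro z hz
    unfold TL at hz
    cases c
    · simp only [Bool.false_eq_true, if_false, Submodule.mem_bot] at hz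
      rw [hz]; exact Submodule.zero_mem _
    · simpa using hz
  obtain ⟨h1, h1a, h1b, h1c⟩ := sc (F := KK) (V := Fin n) (kp := kp) (2 ^ a + 2 ^ b) S1 DD
    (fun p => (mm ex u (2 ^ a) (2 ^ b) y p).comp E1.subtype)
    (fun p e => bd_mm ex u hex (2 ^ a) (2 ^ b) y _ p) χ0
    (by
      intro e he
      have he' := (hev χ0 e).1 he
      obtain ⟨he1, he2⟩ := e.2
      have hz1 : e.1.1 ∈ Tg (qv (2 ^ b) ξ) := (Submodule.mem_inf.1 he1).2
      have hz2 : e.1.2 ∈ Tg (qv (2 ^ a) ξ) :=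
        (Submodule.mem_inf.1 (hTLle _ he2)).2
      rw [← hξ, hsc b _ hz1, hsc a _ hz2] at he'
      obtain ⟨r1, r2⟩ := hI _ (Submodule.smul_mem _ _ he1) _ (Submodule.smul_mem _ _ he2) he'
      refine Submodule.mem_prod.2 ⟨?_, ?_⟩
      · exact (SR.smul_mem_iff (hsc0 b)).1 r1
      · exact (SL.smul_mem_iff (hsc0 a)).1 r2)
    (by
      intro χ e he
      refine (hev χ e).2 ?_
      obtain ⟨he1, he2⟩ := e.2
      obtain ⟨hs1, hs2⟩ := Submodule.mem_prod.1 (show e.1 ∈ SR.prod SL from he)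
      refine D.add_mem (hD ?_) (hD ?_)
      · refine Submodule.subset_span (Or.inl ⟨_, hpt χ a, _, ?_, rfl⟩)
        refine Submodule.mem_inf.2 ⟨stab_kap hSR (fun i => ?_) hs1, ?_⟩
        · exact (hPt χ b).2 i
        · exact (Submodule.mem_inf.1 (op_kap_mem (hyP' b) (Submodule.mem_inf.1 he1).1)).1
      · refine Submodule.subset_span (Or.inr ⟨_, ?_, _, hpt χ b, rfl⟩)
        refine Submodule.mem_inf.2 ⟨stab_kap hSL (fun i => ?_) hs2, ?_⟩
        · exact (hPt χ a).2 i
        · exact (Submodule.mem_inf.1 (op_kap_mem (hyP' a)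
            (Submodule.mem_inf.1 (hTLle _ he2)).1)).1)
  -- the second factor
  let h2 : MvPolynomial (Fin n × Fin kp) KK :=
    ∏ i, ∑ j, C (y i j) * lp ex u 1 i (sw j)
  have h2e : ∀ χ, eval χ h2 = ∏ i, B (ptx ex u χ i) (y i) := by
    intro χ
    simp only [h2, map_prod, map_sum, map_mul, eval_C]
    refine Finset.prod_congr rfl fun i _ => ?_
    unfold B
    refine Finset.sum_congr rfl fun j _ => ?_
    have := eval_lp ex u 0 χ i (sw j)
    rw [pow_zero] at this
    rw [this]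
    simp only [qv, pow_one]
    ring
  refine ⟨h1 * h2, ?_, ?_, ?_⟩
  · rw [map_mul]
    refine mul_ne_zero h1a ?_
    rw [h2e]
    exact Finset.prod_ne_zero_iff.2 fun i _ => hyx i
  · have hb2 : BD 1 h2 := by
      refine BDb.toBD (δ := fun b => ∑ i, if b = ex i then 1 else 0) ?_
        (fun b => sum_ex_le ex hex 1 b)
      exact BDb.prod univ _ _ fun i _ => BDb.sum _ _ fun j _ => (bd_lp ex u 1 i _).C_mul _
    refine (h1b.mul hb2).mono ?_
    have hfr : Module.finrank KK E1 ≤ 2 * (2 * d + 1) ^ k := by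
      refine (Submodule.finrank_le E1).trans ?_
      rw [Module.finrank_prod, Module.finrank_pi, Fintype.card_fun, card_Ix, Fintype.card_fin]
      omega
    exact Nat.add_le_add_right (Nat.mul_le_mul_right _ hfr) 1
  · intro χ hχ z hz z' hz' hm
    rw [map_mul] at hχ
    have hχ1 := left_ne_zero_of_mul hχ
    have hχ2 : ∀ i, B (ptx ex u χ i) (y i) ≠ 0 := by
      have := right_ne_zero_of_mul hχ
      rw [h2e] at this
      exact fun i => Finset.prod_ne_zero_iff.1 this i (Finset.mem_univ i)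
    set x := ptx ex u χ with hx
    -- pull back
    let w : Ten KK d k := op (fun i => kap (qv (2 ^ b) ξ i) (qv (2 ^ b) y i)) z
    let w' : Ten KK d k := op (fun i => kap (qv (2 ^ a) ξ i) (qv (2 ^ a) y i)) z'
    have hTLx : z' ∈ UU (qv (2 ^ a) P) (qv (2 ^ a) x) := by
      unfold TL at hz'
      cases c
      · simp only [Bool.false_eq_true, if_false, Submodule.mem_bot] at hz'
        rw [hz']; exact Submodule.zero_mem _
      · simpa using hz'
    have hw : w ∈ UU (qv (2 ^ b) P) (qv (2 ^ b) ξ) :=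
      op_kap_mem (hyP' b) (Submodule.mem_inf.1 hz).1
    have hw' : w' ∈ TL c (2 ^ a) P ξ := by
      unfold TL at hz' ⊢
      cases c
      · simp only [Bool.false_eq_true, if_false, Submodule.mem_bot] at hz' ⊢
        simp only [w', hz', map_zero]
      · simp only [if_true]
        exact op_kap_mem (hyP' a) (Submodule.mem_inf.1 hTLx).1
    -- scalars
    let cb : KK := ∏ i, B (qv (2 ^ b) ξ i) (qv (2 ^ b) y i) * B (qv (2 ^ b) x i) (qv (2 ^ b) y i)
    let ca : KK := ∏ i, B (qv (2 ^ a) ξ i) (qv (2 ^ a) y i) * B (qv (2 ^ a) x i) (qv (2 ^ a) y i)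
    have hne : ∀ (a : ℕ), (∏ i, B (qv (2 ^ a) ξ i) (qv (2 ^ a) y i) *
        B (qv (2 ^ a) x i) (qv (2 ^ a) y i)) ≠ 0 := by
      intro a
      refine Finset.prod_ne_zero_iff.2 fun i _ => ?_
      rw [B_qv, B_qv]
      exact mul_ne_zero (pow_ne_zero _ (hyx i)) (pow_ne_zero _ (hχ2 i))
    have hbz : op (fun i => kap (qv (2 ^ b) x i) (qv (2 ^ b) y i)) w = cb • z :=
      op_kap_kap (Submodule.mem_inf.1 hz).2
    have haz : op (fun i => kap (qv (2 ^ a) x i) (qv (2 ^ a) y i)) w' = ca • z' :=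
      op_kap_kap (Submodule.mem_inf.1 hTLx).2
    -- rescale: e = (cb⁻¹ w, ca⁻¹ w')
    let e : E1 := ⟨(cb⁻¹ • w, ca⁻¹ • w'),
      Submodule.mem_prod.2 ⟨Submodule.smul_mem _ _ hw, Submodule.smul_mem _ _ hw'⟩⟩
    have he : (fun p => eval χ (((mm ex u (2 ^ a) (2 ^ b) y p).comp E1.subtype) e)) ∈ DD := by
      refine (hev χ e).2 ?_
      show outer _ (op _ (cb⁻¹ • w)) + outer (op _ (ca⁻¹ • w')) _ ∈ D
      rw [map_smul, map_smul, ← hx, hbz, haz, smul_smul, smul_smul,
        inv_mul_cancel₀ (hne b), inv_mul_cancel₀ (hne a), one_smul, one_smul]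
      exact hm
    have hfin := h1c χ hχ1 e he
    obtain ⟨r1, r2⟩ := Submodule.mem_prod.1 (show e.1 ∈ SR.prod SL from hfin)
    have r1' : w ∈ SR := (SR.smul_mem_iff (inv_ne_zero (hne b))).1 r1
    have r2' : w' ∈ SL := (SL.smul_mem_iff (inv_ne_zero (hne a))).1 r2
    constructor
    · have := stab_kap (x := qv (2 ^ b) x) (y := qv (2 ^ b) y) hSR (fun i => (hPt χ b).2 i) r1'
      rw [hbz] at this
      exact (SR.smul_mem_iff (hne b)).1 this
    · have := stab_kap (x := qv (2 ^ a) x) (y := qv (2 ^ a) y) hSL (fun i => (hPt χ a).2 i) r2'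
      rw [haz] at this
      exact (SL.smul_mem_iff (hne a)).1 this

end Crest.Agent.R042.Lin736
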