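import Crest.Agent.R042.LocFam_958
import Crest.Agent.R042.Inst_592

/-!
# Row 42 / S0059, plan B: one-end richness (the number `L` of random characters is a constant)

`RichP K E E'` : every `g ∈ K` is a ratio `E l / E' l`.  It is symmetric, it fails for a fraction of
at most `|K| (1 - 1/|K|)^L` of the types (independently of the `b`-part), and only the four CROSS
pairs of a conflict have to be rich.
-/

set_option autoImplicit false
set_option linter.unusedSectionVars false

namespace Crest.Agent.R042.RichB763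

open Finset Crest.Agent.R042.RowWin543 Crest.Agent.R042.Fam543 Crest.Agent.R042.LocFam958
open Crest.Agent.R042.Inst592

section words

variable {F : Type*} [Field F] {L : ℕ} {K : Set F}

/-- richness of one pair -/
def RichP (K : Set F) (E E' : Fin L → F) : Prop := ∀ g ∈ K, ∃ l, E l = g * E' l

theorem RichP.symm {E E' : Fin L → F} (h0 : (0 : F) ∉ K) (hinv : ∀ a ∈ K, a⁻¹ ∈ K)
    (h : RichP K E E') : RichP K E' E := by
  intro g hg
  obtain ⟨l, hl⟩ := h g⁻¹ (hinv g hg)
  have hg0 : g ≠ 0 := fun h => h0 (h ▸ hg)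
  refine ⟨l, ?_⟩
  rw [hl, ← mul_assoc, mul_inv_cancel₀ hg0, one_mul]

/-- every pair `(k, k')` is taken by a word `c • E_l` -/
theorem two_values_p (E E' : Fin L → F) (hE : RichP K E E') (hEK' : ∀ l, E' l ∈ K)
    (h0 : (0 : F) ∉ K) (hdiv : ∀ a ∈ K, ∀ b ∈ K, a / b ∈ K)
    {k k' : F} (hk : k ∈ K) (hk' : k' ∈ K) :
    ∃ c ∈ K, ∃ l, c * E l = k ∧ c * E' l = k' := by
  obtain ⟨l, hl⟩ := hE (k / k') (hdiv k hk k' hk')
  have hj : E' l ≠ 0 := fun h => h0 (h ▸ hEK' l)
  have hk0 : k' ≠ 0 := fun h => h0 (h ▸ hk')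
  refine ⟨k' / E' l, hdiv _ hk' _ (hEK' l), l, ?_, ?_⟩
  · rw [hl]; field_simp
  · field_simp

/-- the four digit equations, from the richness of the four cross pairs -/
theorem four_words_p (P P' Q Q' : Fin L → F)
    (h1 : RichP K P Q) (h2 : RichP K P Q') (h3 : RichP K P' Q) (h4 : RichP K P' Q')
    (hQ : ∀ l, Q l ∈ K) (hQ' : ∀ l, Q' l ∈ K)
    (h0 : (0 : F) ∉ K) (hdiv : ∀ a ∈ K, ∀ b ∈ K, a / b ∈ K)
    (hcomp : ∀ d : F, d ∉ K → ∃ a ∈ K, ∃ b ∈ K, a - b = d)
    {D₁ D₂ D₃ D₄ : F} (hD₁ : D₁ ∉ K) (hD₂ : D₂ ∉ K) (hD₃ : D₃ ∉ K) (hD₄ : D₄ ∉ K) :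
    ∃ c : Fin 4 → F, ∃ l : Fin 4 → Fin L, (∀ i, c i ∈ K) ∧
      c 0 * P' (l 0) - c 2 * P (l 2) = D₁ ∧
      c 1 * P' (l 1) - c 3 * P (l 3) = D₂ ∧
      c 0 * Q' (l 0) - c 1 * Q (l 1) = D₃ ∧
      c 2 * Q' (l 2) - c 3 * Q (l 3) = D₄ := by
  obtain ⟨a₁, ha₁, a₃, ha₃, hd₁⟩ := hcomp D₁ hD₁
  obtain ⟨a₂, ha₂, a₄, ha₄, hd₂⟩ := hcomp D₂ hD₂
  obtain ⟨b₁, hb₁, b₂, hb₂, hd₃⟩ := hcomp D₃ hD₃
  obtain ⟨b₃, hb₃, b₄, hb₄, hd₄⟩ := hcomp D₄ hD₄
  obtain ⟨c₁, hc₁, l₁, e₁, e₁'⟩ := two_values_p P' Q' h4 hQ' h0 hdiv ha₁ hb₁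
  obtain ⟨c₂, hc₂, l₂, e₂, e₂'⟩ := two_values_p P' Q h3 hQ h0 hdiv ha₂ hb₂
  obtain ⟨c₃, hc₃, l₃, e₃, e₃'⟩ := two_values_p P Q' h2 hQ' h0 hdiv ha₃ hb₃
  obtain ⟨c₄, hc₄, l₄, e₄, e₄'⟩ := two_values_p P Q h1 hQ h0 hdiv ha₄ hb₄
  refine ⟨![c₁, c₂, c₃, c₄], ![l₁, l₂, l₃, l₄], ?_, ?_, ?_, ?_, ?_⟩
  · intro i; fin_cases i <;> simpa
  · simpa [e₁, e₃] using hd₁
  · simpa [e₂, e₄] using hd₂
  · simpa [e₁', e₂'] using hd₃
  · simpa [e₃', e₄'] using hd₄

end words

section live

variable {k0 KK : Type} [Field k0] [Field KK] [Algebra k0 KK] {d kp L e : ℕ} [CharP KK 2]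

/-- **live**, cross form: 958's `live_word` with the richness of the four cross pairs only -/
theorem live_word_p {K : Set k0} (hK : Alph K) (P R : Bool → Ty k0 KK d L)
    (hP : ∀ a, Valid K (P a)) (hR : ∀ b, Valid K (R b))
    (hrich : ∀ a b, RichP K (P a).E (R b).E)
    (hPR : ∀ a b, Perp (P a) (R b)) (v v' : VV k0 KK d kp L)
    (hv : Perp (P false) (P true) → ∀ b, dlt (2 ^ e) kp P v (uvec (2 ^ e) kp (R b)) ∉ K)
    (hv' : Perp (R false) (R true) → ∀ a, dlt (2 ^ e) kp R v' (uvec (2 ^ e) kp (P a)) ∉ K) :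
    ∃ w ∈ W4 K (2 ^ e) kp P R, ∀ t ∈ Dg e kp P R hPR,
        (winX (2 ^ e) kp P R v + winY (2 ^ e) kp P R v' - w) t = 0 := by
  classical
  have h0 : (0 : k0) ∉ K := fun h => hK.ne_zero h rfl
  have hnotK : ∀ x : k0, x ∉ K → -x ∉ K := by
    intro x hx h
    exact hx (by simpa using hK.neg _ h)
  -- the four digits
  obtain ⟨D₁, hD₁, hD₁'⟩ : ∃ D : k0, D ∉ K ∧ (Perp (P false) (P true) →
      D = dlt (2 ^ e) kp P v (uvec (2 ^ e) kp (R false))) := by
    by_cases h : Perp (P false) (P true)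
    · exact ⟨_, hv h false, fun _ => rfl⟩
    · exact ⟨0, h0, fun h' => absurd h' h⟩
  obtain ⟨D₂, hD₂, hD₂'⟩ : ∃ D : k0, D ∉ K ∧ (Perp (P false) (P true) →
      D = dlt (2 ^ e) kp P v (uvec (2 ^ e) kp (R true))) := by
    by_cases h : Perp (P false) (P true)
    · exact ⟨_, hv h true, fun _ => rfl⟩
    · exact ⟨0, h0, fun h' => absurd h' h⟩
  obtain ⟨D₃, hD₃, hD₃'⟩ : ∃ D : k0, D ∉ K ∧ (Perp (R false) (R true) →
      D = - dlt (2 ^ e) kp R v' (uvec (2 ^ e) kp (P false))) := by
    by_cases h : Perp (R false) (R true)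
    · exact ⟨_, hnotK _ (hv' h false), fun _ => rfl⟩
    · exact ⟨0, h0, fun h' => absurd h' h⟩
  obtain ⟨D₄, hD₄, hD₄'⟩ : ∃ D : k0, D ∉ K ∧ (Perp (R false) (R true) →
      D = - dlt (2 ^ e) kp R v' (uvec (2 ^ e) kp (P true))) := by
    by_cases h : Perp (R false) (R true)
    · exact ⟨_, hnotK _ (hv' h true), fun _ => rfl⟩
    · exact ⟨0, h0, fun h' => absurd h' h⟩
  obtain ⟨c, l, hc, e1, e2, e3, e4⟩ := four_words_p (K := K) (P false).E (P true).E
    (R false).E (R true).E (hrich _ _) (hrich _ _) (hrich _ _) (hrich _ _)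
    (hR false).E (hR true).E h0
    (fun a ha b hb => by
      rw [div_eq_mul_inv]; exact hK.mul _ ha _ (hK.inv _ hb))
    (fun z hz => by
      obtain ⟨x, hx, y, hy, hxy⟩ := hK.complete z hz
      exact ⟨x, hx, -y, hK.neg _ hy, by rw [sub_neg_eq_add]; exact hxy⟩)
    hD₁ hD₂ hD₃ hD₄
  let ix : Bool × Bool → Fin 4 := fun ab => bif ab.1 then (bif ab.2 then 3 else 2)
    else (bif ab.2 then 1 else 0)
  refine ⟨word (2 ^ e) kp P R (fun ab => c (ix ab))
    (fun ab => l (ix ab)), ⟨_, _, fun ab => hc _, rfl⟩, ?_⟩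
  intro t ht
  unfold Dg at ht
  refine Submodule.span_induction (p := fun t _ => (winX (2 ^ e) kp P R v +
    winY (2 ^ e) kp P R v' -
    word (2 ^ e) kp P R (fun ab => c (ix ab)) (fun ab => l (ix ab))) t = 0) ?_ ?_ ?_ ?_ ht
  · rintro t (⟨h, b, rfl⟩ | ⟨h, a, rfl⟩)
    · rw [LinearMap.sub_apply, LinearMap.add_apply, winX_digP, winY_digP,
        word_digP hPR (K := K) hP]
      cases b
      · have := hD₁' h
        show _ + 0 - (c 0 * (P true).E (l 0) - c 2 * (P false).E (l 2)) = 0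
        rw [e1, this]; ring
      · have := hD₂' h
        show _ + 0 - (c 1 * (P true).E (l 1) - c 3 * (P false).E (l 3)) = 0
        rw [e2, this]; ring
    · rw [LinearMap.sub_apply, LinearMap.add_apply, winX_digR, winY_digR,
        word_digR hPR (K := K) hR]
      cases a
      · have := hD₃' h
        show 0 + _ - (c 0 * (R true).E (l 0) - c 1 * (R false).E (l 1)) = 0
        rw [e3, this]; ring
      · have := hD₄' h
        show 0 + _ - (c 2 * (R true).E (l 2) - c 3 * (R false).E (l 3)) = 0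
        rw [e4, this]; ring
  · exact map_zero _
  · intro x y _ _ hx hy
    rw [map_add, hx, hy, add_zero]
  · intro a x _ hx
    rw [map_smul, hx, smul_zero]

end live

section count

open scoped Classical

variable {k0 KK : Type} [Field k0] [Field KK] [Algebra k0 KK] [Fintype k0] [Fintype KK]
  {d L : ℕ}

/-- the vectors of characters that are not rich against a given one -/
theorem card_not_rich_E {K : Set k0} (hK : Alph K) (E0 : Fin L → k0) (hE0 : ∀ l, E0 l ∈ K) :
    (univ.filter fun E : Fin L → K => ¬ RichP K E0 fun l => (E l : k0)).card ≤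
      Fintype.card K * (Fintype.card K - 1) ^ L := by
  have h1 : (univ.filter fun E : Fin L → K => ¬ RichP K E0 fun l => (E l : k0)) ⊆
      univ.biUnion fun g : K => Fintype.piFinset fun l : Fin L =>
        univ.filter fun x : K => E0 l ≠ (g : k0) * (x : k0) := by
    intro E hE
    have hE' := (mem_filter.1 hE).2
    unfold RichP at hE'
    push Not at hE'
    obtain ⟨g, hg, h⟩ := hE'
    refine mem_biUnion.2 ⟨⟨g, hg⟩, mem_univ _, ?_⟩
    rw [Fintype.mem_piFinset]
    intro l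
    exact mem_filter.2 ⟨mem_univ _, h l⟩
  refine (card_le_card h1).trans (card_biUnion_le.trans ?_)
  rw [← smul_eq_mul, ← Finset.card_univ, ← Finset.sum_const]
  refine sum_le_sum fun g _ => ?_
  rw [Fintype.card_piFinset]
  refine (prod_le_pow_card _ _ (Fintype.card K - 1) ?_).trans ?_
  · intro l _
    have hx : (g : k0)⁻¹ * E0 l ∈ K := hK.mul _ (hK.inv _ g.2) _ (hE0 l)
    have h2 : (univ.filter fun x : K => E0 l ≠ (g : k0) * (x : k0)) ⊆
        univ.erase ⟨(g : k0)⁻¹ * E0 l, hx⟩ := by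
      intro x hx'
      refine mem_erase.2 ⟨?_, mem_univ _⟩
      rintro rfl
      apply (mem_filter.1 hx').2
      show E0 l = (g : k0) * ((g : k0)⁻¹ * E0 l)
      rw [← mul_assoc, mul_inv_cancel₀ (hK.ne_zero g.2), one_mul]
    refine (card_le_card h2).trans ?_
    rw [card_erase_of_mem (mem_univ _), Finset.card_univ]
  · rw [Finset.card_univ, Fintype.card_fin, Finset.card_univ]

/-- **one-end richness**: for every condition `A` on the vector part, the non rich types are at most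
a fraction `|K| ((|K| - 1)/|K|)^L` of the types with `A`. -/
theorem card_not_rich {K : Set k0} (hK : Alph K) (E0 : Fin L → k0) (hE0 : ∀ l, E0 l ∈ K)
    (A : WW KK d → Prop) :
    (univ.filter fun R : Om KK K d L => A (vv R) ∧ ¬ RichP K E0 R.1.E).card *
        Fintype.card K ^ L ≤
      Fintype.card K * (Fintype.card K - 1) ^ L *
        (univ.filter fun R : Om KK K d L => A (vv R)).card := by
  -- transport to the product
  have e1 : (univ.filter fun R : Om KK K d L => A (vv R) ∧ ¬ RichP K E0 R.1.E).card =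
      (univ.filter fun z : WW KK d × Zz KK K L =>
        A z.1 ∧ ¬ RichP K E0 fun l => (z.2.2 l : k0)).card := by
    refine card_bij (fun R _ => omEquiv K d L R) ?_ ?_ ?_
    · intro R hR
      exact mem_filter.2 ⟨mem_univ _, (mem_filter.1 hR).2⟩
    · intro R _ R' _ h
      exact (omEquiv K d L).injective h
    · intro z hz
      refine ⟨(omEquiv K d L).symm z, ?_, Equiv.apply_symm_apply _ _⟩
      have h := (mem_filter.1 hz).2
      refine mem_filter.2 ⟨mem_univ _, ?_⟩
      have hz' : z = omEquiv K d L ((omEquiv K d L).symm z) := (Equiv.apply_symm_apply _ _).symm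
      rw [hz'] at h
      exact h
  have e2 : (univ.filter fun R : Om KK K d L => A (vv R)).card =
      (univ.filter fun z : WW KK d × Zz KK K L => A z.1).card := by
    refine card_bij (fun R _ => omEquiv K d L R) ?_ ?_ ?_
    · intro R hR
      exact mem_filter.2 ⟨mem_univ _, (mem_filter.1 hR).2⟩
    · intro R _ R' _ h
      exact (omEquiv K d L).injective h
    · intro z hz
      refine ⟨(omEquiv K d L).symm z, ?_, Equiv.apply_symm_apply _ _⟩
      have h := (mem_filter.1 hz).2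
      refine mem_filter.2 ⟨mem_univ _, ?_⟩
      have hz' : z = omEquiv K d L ((omEquiv K d L).symm z) := (Equiv.apply_symm_apply _ _).symm
      rw [hz'] at h
      exact h
  have e3 : (univ.filter fun z : WW KK d × Zz KK K L =>
        A z.1 ∧ ¬ RichP K E0 fun l => (z.2.2 l : k0)) =
      (univ.filter A) ×ˢ ((univ : Finset {l : KK // Algebra.trace k0 KK l = 1}) ×ˢ
        (univ.filter fun E : Fin L → K => ¬ RichP K E0 fun l => (E l : k0))) := by
    ext z
    simp only [mem_filter, mem_univ, true_and, mem_product]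
  have e4 : (univ.filter fun z : WW KK d × Zz KK K L => A z.1) =
      (univ.filter A) ×ˢ ((univ : Finset {l : KK // Algebra.trace k0 KK l = 1}) ×ˢ
        (univ : Finset (Fin L → K))) := by
    ext z
    simp only [mem_filter, mem_univ, true_and, mem_product, and_true]
  rw [e1, e2, e3, e4, card_product, card_product, card_product, card_product]
  have h := card_not_rich_E hK E0 hE0
  have e5 : (univ : Finset (Fin L → K)).card = Fintype.card K ^ L := by
    rw [Finset.card_univ, Fintype.card_fun, Fintype.card_fin]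
  rw [e5]
  have h2 := Nat.mul_le_mul_left ((univ.filter A).card *
    (univ : Finset {l : KK // Algebra.trace k0 KK l = 1}).card * Fintype.card K ^ L) h
  calc _ = (univ.filter A).card * (univ : Finset {l : KK // Algebra.trace k0 KK l = 1}).card *
        Fintype.card K ^ L *
        (univ.filter fun E : Fin L → K => ¬ RichP K E0 fun l => (E l : k0)).card := by ring
    _ ≤ _ := h2
    _ = _ := by ring

/-- real form: for `t > 0` and `L ≥ |K| (log |K| + t)` the fraction is at most `e^{-t}` -/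
theorem card_not_rich_le {K : Set k0} (hK : Alph K) (E0 : Fin L → k0) (hE0 : ∀ l, E0 l ∈ K)
    (A : WW KK d → Prop) {t : ℝ}
    (hL : (Fintype.card K : ℝ) * (Real.log (Fintype.card K) + t) ≤ L) :
    ((univ.filter fun R : Om KK K d L => A (vv R) ∧ ¬ RichP K E0 R.1.E).card : ℝ) ≤
      Real.exp (-t) * ((univ.filter fun R : Om KK K d L => A (vv R)).card : ℝ) := by
  have hpos : 0 < Fintype.card K := Fintype.card_pos_iff.2 ⟨⟨1, hK.one⟩⟩
  have hposR : (0 : ℝ) < (Fintype.card K : ℝ) := by exact_mod_cast hpos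
  have h := card_not_rich (d := d) hK E0 hE0 A
  have hR : ((univ.filter fun R : Om KK K d L => A (vv R) ∧ ¬ RichP K E0 R.1.E).card : ℝ) *
        (Fintype.card K : ℝ) ^ L ≤
      (Fintype.card K : ℝ) * ((Fintype.card K : ℝ) - 1) ^ L *
        ((univ.filter fun R : Om KK K d L => A (vv R)).card : ℝ) := by
    have h' : (((univ.filter fun R : Om KK K d L => A (vv R) ∧ ¬ RichP K E0 R.1.E).card *
        Fintype.card K ^ L : ℕ) : ℝ) ≤ ((Fintype.card K * (Fintype.card K - 1) ^ L *
        (univ.filter fun R : Om KK K d L => A (vv R)).card : ℕ) : ℝ) := by exact_mod_cast h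
    push_cast [Nat.cast_sub hpos] at h'
    exact h'
  have hpow : ((Fintype.card K : ℝ) - 1) ^ L ≤
      (Fintype.card K : ℝ) ^ L * (Real.exp (-t) / (Fintype.card K : ℝ)) := by
    have h1 : ((Fintype.card K : ℝ) - 1) = (Fintype.card K : ℝ) * (1 - 1 / (Fintype.card K : ℝ)) := by
      field_simp
    have h2 : 1 - 1 / (Fintype.card K : ℝ) ≤ Real.exp (-(1 / (Fintype.card K : ℝ))) := by
      have := Real.add_one_le_exp (-(1 / (Fintype.card K : ℝ)))
      linarith
    have h3 : 0 ≤ 1 - 1 / (Fintype.card K : ℝ) := by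
      rw [sub_nonneg, div_le_one hposR]
      exact_mod_cast hpos
    rw [h1, mul_pow]
    refine mul_le_mul_of_nonneg_left ?_ (by positivity)
    refine (pow_le_pow_left₀ h3 h2 L).trans ?_
    rw [← Real.exp_nat_mul]
    have h4 : (L : ℝ) * -(1 / (Fintype.card K : ℝ)) ≤ -(Real.log (Fintype.card K) + t) := by
      have h5 : Real.log (Fintype.card K) + t ≤ (L : ℝ) / (Fintype.card K : ℝ) := by
        rw [le_div_iff₀ hposR]; linarith
      have h6 : (L : ℝ) * -(1 / (Fintype.card K : ℝ)) = -((L : ℝ) / (Fintype.card K : ℝ)) := by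
        ring
      rw [h6]; linarith
    refine (Real.exp_le_exp.2 h4).trans (le_of_eq ?_)
    rw [neg_add, Real.exp_add, Real.exp_neg, Real.exp_log hposR]
    field_simp
  have hKL : (0 : ℝ) < (Fintype.card K : ℝ) ^ L := by positivity
  have hA : (0 : ℝ) ≤ ((univ.filter fun R : Om KK K d L => A (vv R)).card : ℝ) := by positivity
  have h7 : (Fintype.card K : ℝ) * ((Fintype.card K : ℝ) - 1) ^ L ≤
      Real.exp (-t) * (Fintype.card K : ℝ) ^ L := by
    have := mul_le_mul_of_nonneg_left hpow hposR.le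
    refine this.trans (le_of_eq ?_)
    field_simp
  have h8 := mul_le_mul_of_nonneg_right h7 hA
  have h9 := hR.trans h8
  have h10 : ((univ.filter fun R : Om KK K d L => A (vv R) ∧ ¬ RichP K E0 R.1.E).card : ℝ) *
        (Fintype.card K : ℝ) ^ L ≤ (Real.exp (-t) *
          ((univ.filter fun R : Om KK K d L => A (vv R)).card : ℝ)) * (Fintype.card K : ℝ) ^ L := by
    refine h9.trans (le_of_eq ?_)
    ring
  exact le_of_mul_le_mul_right h10 hKL

end count

end Crest.Agent.R042.RichB763
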