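import Crest.Agent.R042.LocB_461
import Crest.Agent.R042.RichB_763

/-!
# Row 42 / S0059, plan B: `locB` with richness of the four cross pairs only
-/

set_option autoImplicit false
set_option linter.unusedSectionVars false

namespace Crest.Agent.R042.LocB461

open Finset Crest.Agent.R042.Conf921 Crest.Agent.R042.CondFree313 Crest.Agent.R042.ConfB461
open Crest.Agent.R042.LocFam958 Crest.Agent.R042.Fam543 Crest.Agent.R042.RowWin543
open Crest.Agent.R042.RichB763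
open scoped Classical

variable {k0 KK : Type} [Field k0] [Field KK] [Algebra k0 KK] {d kp L : ℕ}

/-- the digits depend only on the difference words -/
theorem dg_const [CharP KK 2] {e : ℕ} {P R : Bool → Ty k0 KK d L} (hPR : ∀ a b, Perp (P a) (R b))
    (v v₂ v' v₂' : VV k0 KK d kp L)
    (hv : Perp (P false) (P true) → ∀ b, dlt (2 ^ e) kp P v (uvec (2 ^ e) kp (R b)) =
      dlt (2 ^ e) kp P v₂ (uvec (2 ^ e) kp (R b)))
    (hv' : Perp (R false) (R true) → ∀ a, dlt (2 ^ e) kp R v' (uvec (2 ^ e) kp (P a)) =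
      dlt (2 ^ e) kp R v₂' (uvec (2 ^ e) kp (P a)))
    (t : TT (2 ^ e) kp P R) (ht : t ∈ Dg e kp P R hPR) :
    (winX (2 ^ e) kp P R v + winY (2 ^ e) kp P R v') t =
      (winX (2 ^ e) kp P R v₂ + winY (2 ^ e) kp P R v₂') t := by
  unfold Dg at ht
  refine Submodule.span_induction (p := fun t _ => (winX (2 ^ e) kp P R v +
    winY (2 ^ e) kp P R v') t = (winX (2 ^ e) kp P R v₂ + winY (2 ^ e) kp P R v₂') t)
      ?_ ?_ ?_ ?_ ht
  · rintro t (⟨h, b, rfl⟩ | ⟨h, a, rfl⟩)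
    · rw [LinearMap.add_apply, LinearMap.add_apply, winX_digP, winY_digP, winX_digP, winY_digP,
        hv h]
    · rw [LinearMap.add_apply, LinearMap.add_apply, winX_digR, winY_digR, winX_digR, winY_digR,
        hv' h]
  · rw [map_zero, map_zero]
  · intro x y _ _ hx hy
    rw [map_add, map_add, hx, hy]
  · intro a x _ hx
    rw [map_smul, map_smul, hx]

/-- **the local conflict bound, plan B, one-pair richness** -/
theorem locBP [Fintype k0] [Fintype KK] [CharP KK 2] {K : Set k0} (hK : Alph K) {e : ℕ}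
    (P R : Bool → Ty k0 KK d L) (hP : ∀ a, Valid K (P a)) (hR : ∀ b, Valid K (R b))
    (hrich : ∀ a b, RichP K (P a).E (R b).E)
    (hPR : ∀ a b, Perp (P a) (R b))
    (μ ν : VV k0 KK d kp L → ℝ)
    (hμ : ∀ x, 0 ≤ μ x) (sμ : ∑ x, μ x = 1) (hν : ∀ y, 0 ≤ ν y) (sν : ∑ y, ν y = 1)
    (hμc : Perp (P false) (P true) → ∀ v v₂, μ v ≠ 0 → μ v₂ ≠ 0 → ∀ b,
      dlt (2 ^ e) kp P v (uvec (2 ^ e) kp (R b)) = dlt (2 ^ e) kp P v₂ (uvec (2 ^ e) kp (R b)))
    (hμK : Perp (P false) (P true) → ∀ v, μ v ≠ 0 → ∀ b,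
      dlt (2 ^ e) kp P v (uvec (2 ^ e) kp (R b)) ∉ K)
    (hνc : Perp (R false) (R true) → ∀ v v₂, ν v ≠ 0 → ν v₂ ≠ 0 → ∀ a,
      dlt (2 ^ e) kp R v (uvec (2 ^ e) kp (P a)) = dlt (2 ^ e) kp R v₂ (uvec (2 ^ e) kp (P a)))
    (hνK : Perp (R false) (R true) → ∀ v, ν v ≠ 0 → ∀ a,
      dlt (2 ^ e) kp R v (uvec (2 ^ e) kp (P a)) ∉ K)
    (CX CY : Submodule k0 (Module.Dual k0 (VV k0 KK d kp L)))
    (hNN : NN (winX (2 ^ e) kp P R) CX ⊓ NN (winY (2 ^ e) kp P R) CY ≤ Dg e kp P R hPR)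
    (K₀ ε η : ℝ) (hK₀ : 0 ≤ K₀)
    (hX1 : ¬ BadK (winX (2 ^ e) kp P R) μ CX ε)
    (hX2 : ¬ BadS (winX (2 ^ e) kp P R) μ CX K₀ η)
    (hY1 : ¬ BadK (winX (2 ^ e) kp R P) ν CY ε)
    (hY2 : ¬ BadS (winX (2 ^ e) kp R P) ν CY K₀ η) :
    1 / (4 * (Fintype.card (EE (2 ^ e) kp P R) : ℝ)) * ((1 - 2 * η) - K₀ * (ε + ε)) ≤
      ∑ v, ∑ v', μ v * ν v' * (if ∀ a b, Rel K (2 ^ e) kp (P a) (R b) (lab v a) (lab v' b)
        then 1 else 0) := by
  have e1 : ∃ v, μ v ≠ 0 := by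
    by_contra h
    push Not at h
    rw [sum_eq_zero fun x _ => h x] at sμ
    exact zero_ne_one sμ
  have e2 : ∃ v, ν v ≠ 0 := by
    by_contra h
    push Not at h
    rw [sum_eq_zero fun x _ => h x] at sν
    exact zero_ne_one sν
  obtain ⟨v0, hv0⟩ := e1
  obtain ⟨v0', hv0'⟩ := e2
  obtain ⟨w0, hw0, hw⟩ := live_word_p (kp := kp) (e := e) hK P R hP hR hrich hPR v0 v0'
    (fun h b => hμK h v0 hv0 b) (fun h a => hνK h v0' hv0' a)
  have hY1' : ¬ BadK (winY (2 ^ e) kp P R) ν CY ε := by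
    rw [winY_eq, badK_equiv]
    exact hY1
  have hY2' : ¬ BadS (winY (2 ^ e) kp P R) ν CY K₀ η := by
    rw [winY_eq, badS_equiv]
    exact hY2
  have main := Loc767.loc_core (k := k0) (winX (2 ^ e) kp P R)
    (winY (2 ^ e) kp P R) μ ν hμ sμ hν sν CX CY K₀ η ε ε hK₀
    (core_K hX1) (core_K hY1') (core_S hX2) (core_S hY2') w0 (by
      intro φ h1 h2 x y hx hy
      obtain ⟨t, ht⟩ := exists_eval φ
      have ht1 : t ∈ NN (winX (2 ^ e) kp P R) CX := by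
        rw [mem_NN]
        convert h1 using 1
        refine LinearMap.ext fun v => ?_
        rw [LinearMap.comp_apply, ht]
        rfl
      have ht2 : t ∈ NN (winY (2 ^ e) kp P R) CY := by
        rw [mem_NN]
        convert h2 using 1
        refine LinearMap.ext fun v => ?_
        rw [LinearMap.comp_apply, ht]
        rfl
      have h3 := hw t (hNN ⟨ht1, ht2⟩)
      have h4 := dg_const hPR x v0 y v0' (fun h b => hμc h x v0 hx hv0 b)
        (fun h a => hνc h y v0' hy hv0' a) t (hNN ⟨ht1, ht2⟩)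
      rw [ht, ht, h4]
      rw [LinearMap.sub_apply, sub_eq_zero] at h3
      exact h3)
  refine main.trans ?_
  refine sum_le_sum fun x _ => sum_le_sum fun y _ => ?_
  split_ifs with h1 h2 h2
  · rw [mul_one]
  · exfalso
    apply h2
    have h3 := (conf_iff K (2 ^ e) kp P R hPR x y).2 (by rw [h1]; exact hw0)
    exact h3
  · rw [mul_one]; exact mul_nonneg (hμ x) (hν y)
  · rw [mul_zero]

/-- positivity form: `K₀ ε ≤ 1/16`, `η ≤ 1/16` give the constant `1 / (8 |EE|)` -/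
theorem locBP8 {EEc η K₀ ε S : ℝ} (hE : 0 < EEc) (hη : η ≤ 1 / 16) (hε : K₀ * ε ≤ 1 / 16)
    (h : 1 / (4 * EEc) * ((1 - 2 * η) - K₀ * (ε + ε)) ≤ S) : 1 / (8 * EEc) ≤ S := by
  refine le_trans ?_ h
  have h1 : (1 : ℝ) / 2 ≤ (1 - 2 * η) - K₀ * (ε + ε) := by nlinarith
  calc 1 / (8 * EEc) = 1 / (4 * EEc) * (1 / 2) := by field_simp; norm_num
    _ ≤ _ := mul_le_mul_of_nonneg_left h1 (by positivity)

end Crest.Agent.R042.LocB461
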