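import Crest.Agent.R042.LocC_958
import Crest.Agent.R042.ConfB_461

/-!
# Row 42 / S0059, plan B: the local conflict bound from `¬ BadK`, `¬ BadS` on both sides
-/

set_option autoImplicit false
set_option linter.unusedSectionVars false

namespace Crest.Agent.R042.LocB461

open Finset Crest.Agent.R042.Conf921 Crest.Agent.R042.CondFree313 Crest.Agent.R042.ConfB461
open Crest.Agent.R042.LocFam958 Crest.Agent.R042.Fam543 Crest.Agent.R042.RowWin543
open scoped Classical

section Equiv

variable {k : Type*} [Field k] {V E E' : Type*} [AddCommGroup V] [Module k V] [Fintype V]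
  [AddCommGroup E] [Module k E] [Fintype E] [AddCommGroup E'] [Module k E'] [Fintype E']

lemma avg_map_equiv (σ : E ≃ₗ[k] E') (H : Submodule k E) (f : E' → ℝ) (x : E) :
    avg (H.map σ.toLinearMap).toAddSubgroup f (σ x) = avg H.toAddSubgroup (fun y => f (σ y)) x := by
  have key : ∀ (e : H.toAddSubgroup ≃ (H.map σ.toLinearMap).toAddSubgroup),
      (∀ h, ((e h : (H.map σ.toLinearMap).toAddSubgroup) : E') = σ (h : E)) →
      avg (H.map σ.toLinearMap).toAddSubgroup f (σ x) =
        avg H.toAddSubgroup (fun y => f (σ y)) x := by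
    intro e he
    unfold avg
    rw [Fintype.card_congr e]
    congr 1
    refine (Fintype.sum_equiv e _ _ (fun h => ?_)).symm
    show f (σ (x + (h : E))) = f (σ x + ((e h : (H.map σ.toLinearMap).toAddSubgroup) : E'))
    rw [he h, map_add]
  exact key
    { toFun := fun h => ⟨σ h.1, Submodule.mem_map_of_mem (f := σ.toLinearMap) h.2⟩
      invFun := fun y => ⟨σ.symm y.1, by
        obtain ⟨z, hz, hz'⟩ := y.2
        have : σ.symm y.1 = z := by
          rw [← hz']
          exact σ.symm_apply_apply z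
        rw [this]
        exact hz⟩
      left_inv := fun h => Subtype.ext (σ.symm_apply_apply _)
      right_inv := fun y => Subtype.ext (σ.apply_symm_apply _) } (fun h => rfl)

lemma push_equiv (σ : E ≃ₗ[k] E') (π : V →ₗ[k] E) (ν : V → ℝ) (x : E) :
    push (σ.toLinearMap ∘ₗ π).toAddMonoidHom ν (σ x) = push π.toAddMonoidHom ν x := by
  unfold push
  refine Finset.sum_congr ?_ fun _ _ => rfl
  ext v
  simp only [Finset.mem_filter, Finset.mem_univ, true_and]
  exact σ.injective.eq_iff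

lemma map_comp_equiv (σ : E ≃ₗ[k] E') (π : V →ₗ[k] E) (D : Submodule k V) :
    D.map (σ.toLinearMap ∘ₗ π) = (D.map π).map σ.toLinearMap := Submodule.map_comp _ _ _

/-- `BadK` is invariant under equivalences of the window group -/
theorem badK_equiv (σ : E ≃ₗ[k] E') (π : V →ₗ[k] E) (ν : V → ℝ)
    (C : Submodule k (Module.Dual k V)) (ε : ℝ) :
    BadK (σ.toLinearMap ∘ₗ π) ν C ε ↔ BadK π ν C ε := by
  unfold BadK
  rw [map_comp_equiv]
  have h1 : ∀ x : E, avg ((C.dualCoannihilator.map π).map σ.toLinearMap).toAddSubgroup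
      (push (σ.toLinearMap ∘ₗ π).toAddMonoidHom ν) (σ x) =
      avg (C.dualCoannihilator.map π).toAddSubgroup (push π.toAddMonoidHom ν) x := by
    intro x
    rw [avg_map_equiv]
    congr 1
    funext y
    exact push_equiv σ π ν y
  have h2 : ∑ x with push (σ.toLinearMap ∘ₗ π).toAddMonoidHom ν x <
      avg ((C.dualCoannihilator.map π).map σ.toLinearMap).toAddSubgroup
        (push (σ.toLinearMap ∘ₗ π).toAddMonoidHom ν) x / 2,
      avg ((C.dualCoannihilator.map π).map σ.toLinearMap).toAddSubgroup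
        (push (σ.toLinearMap ∘ₗ π).toAddMonoidHom ν) x =
      ∑ x with push π.toAddMonoidHom ν x <
        avg (C.dualCoannihilator.map π).toAddSubgroup (push π.toAddMonoidHom ν) x / 2,
      avg (C.dualCoannihilator.map π).toAddSubgroup (push π.toAddMonoidHom ν) x := by
    rw [Finset.sum_filter, Finset.sum_filter]
    refine (Fintype.sum_equiv σ.toEquiv _ _ (fun x => ?_)).symm
    show _ = if push (σ.toLinearMap ∘ₗ π).toAddMonoidHom ν (σ x) < avg ((C.dualCoannihilator.map
      π).map σ.toLinearMap).toAddSubgroup (push (σ.toLinearMap ∘ₗ π).toAddMonoidHom ν) (σ x) / 2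
      then avg ((C.dualCoannihilator.map π).map σ.toLinearMap).toAddSubgroup
        (push (σ.toLinearMap ∘ₗ π).toAddMonoidHom ν) (σ x) else 0
    rw [h1, push_equiv]
  rw [h2]

/-- `BadS` is invariant under equivalences of the window group -/
theorem badS_equiv (σ : E ≃ₗ[k] E') (π : V →ₗ[k] E) (ν : V → ℝ)
    (C : Submodule k (Module.Dual k V)) (K η : ℝ) :
    BadS (σ.toLinearMap ∘ₗ π) ν C K η ↔ BadS π ν C K η := by
  unfold BadS
  rw [map_comp_equiv]
  have hcard : (Fintype.card E' : ℝ) = (Fintype.card E : ℝ) := by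
    rw [Fintype.card_congr σ.toEquiv]
  have h1 : ∀ x : E, avg ((C.dualCoannihilator.map π).map σ.toLinearMap).toAddSubgroup
      (push (σ.toLinearMap ∘ₗ π).toAddMonoidHom ν) (σ x) =
      avg (C.dualCoannihilator.map π).toAddSubgroup (push π.toAddMonoidHom ν) x := by
    intro x
    rw [avg_map_equiv]
    congr 1
    funext y
    exact push_equiv σ π ν y
  have h2 : ∑ x with K < avg ((C.dualCoannihilator.map π).map σ.toLinearMap).toAddSubgroup
        (push (σ.toLinearMap ∘ₗ π).toAddMonoidHom ν) x * (Fintype.card E' : ℝ),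
        push (σ.toLinearMap ∘ₗ π).toAddMonoidHom ν x =
      ∑ x with K < avg (C.dualCoannihilator.map π).toAddSubgroup (push π.toAddMonoidHom ν) x *
        (Fintype.card E : ℝ), push π.toAddMonoidHom ν x := by
    rw [Finset.sum_filter, Finset.sum_filter, hcard]
    refine (Fintype.sum_equiv σ.toEquiv _ _ (fun x => ?_)).symm
    show _ = if K < avg ((C.dualCoannihilator.map π).map σ.toLinearMap).toAddSubgroup
      (push (σ.toLinearMap ∘ₗ π).toAddMonoidHom ν) (σ x) * (Fintype.card E : ℝ)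
      then push (σ.toLinearMap ∘ₗ π).toAddMonoidHom ν (σ x) else 0
    rw [h1, push_equiv]
  rw [h2]

/-- the two descriptions of `EX` agree -/
theorem EX_eq_map [FiniteDimensional k V] [FiniteDimensional k E] (F : V →ₗ[k] E)
    (C : Submodule k (Module.Dual k V)) :
    Loc767.EX F C = C.dualCoannihilator.map F := by
  have h1 : (C.dualCoannihilator.map F).dualAnnihilator = Loc767.pull F C := by
    ext φ
    rw [Submodule.mem_dualAnnihilator, Loc767.mem_pull]
    constructor
    · intro h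
      have h2 : φ ∘ₗ F ∈ C.dualCoannihilator.dualAnnihilator := by
        rw [Submodule.mem_dualAnnihilator]
        intro v hv
        exact h (F v) (Submodule.mem_map_of_mem hv)
      rwa [Subspace.dualCoannihilator_dualAnnihilator_eq] at h2
    · rintro h _ ⟨v, hv, rfl⟩
      exact (Submodule.mem_dualCoannihilator v).1 hv _ h
  unfold Loc767.EX
  rw [← h1, Subspace.dualAnnihilator_dualCoannihilator_eq]

lemma pm_eq_push (π : V →ₗ[k] E) (ν : V → ℝ) :
    Loc767.pm π.toAddMonoidHom ν = push π.toAddMonoidHom ν := by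
  funext x
  unfold Loc767.pm push
  rfl

/-- bounds for `loc_core` -/
theorem core_K [FiniteDimensional k V] [FiniteDimensional k E] {π : V →ₗ[k] E} {ν : V → ℝ}
    {C : Submodule k (Module.Dual k V)} {ε : ℝ} (h : ¬ BadK π ν C ε) :
    ∑ x with Loc767.pm π.toAddMonoidHom ν x <
        avg (Loc767.EX π C).toAddSubgroup (Loc767.pm π.toAddMonoidHom ν) x / 2,
      avg (Loc767.EX π C).toAddSubgroup (Loc767.pm π.toAddMonoidHom ν) x ≤ ε := by
  unfold BadK at h
  rw [EX_eq_map, pm_eq_push]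
  exact not_lt.1 h

theorem core_S [FiniteDimensional k V] [FiniteDimensional k E] {π : V →ₗ[k] E} {ν : V → ℝ}
    {C : Submodule k (Module.Dual k V)} {K η : ℝ} (h : ¬ BadS π ν C K η) :
    ∑ x with K < avg (Loc767.EX π C).toAddSubgroup (Loc767.pm π.toAddMonoidHom ν) x *
        (Fintype.card E : ℝ), Loc767.pm π.toAddMonoidHom ν x ≤ η := by
  unfold BadS at h
  rw [EX_eq_map, pm_eq_push]
  exact not_lt.1 h

end Equiv

section Fam

variable {k0 KK : Type} [Field k0] [Field KK] [Algebra k0 KK] {d kp L : ℕ}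

/-- exchanging the two pairs of types -/
def swf (Q kp : ℕ) (P R : Bool → Ty k0 KK d L) : TT Q kp P R →ₗ[k0] TT Q kp R P :=
  LinearMap.pi fun ab : Bool × Bool =>
    (LinearEquiv.ofEq _ _ (UPQ_comm Q kp (P ab.2) (R ab.1))).toLinearMap ∘ₗ
      (LinearMap.proj (R := k0) (φ := fun ab => WW Q kp P R ab) (ab.2, ab.1))

theorem swf_apply (Q kp : ℕ) (P R : Bool → Ty k0 KK d L) (t : TT Q kp P R) (ab : Bool × Bool) :
    swf Q kp P R t ab =
      LinearEquiv.ofEq _ _ (UPQ_comm Q kp (P ab.2) (R ab.1)) (t (ab.2, ab.1)) := rfl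

theorem swf_coe (Q kp : ℕ) (P R : Bool → Ty k0 KK d L) (t : TT Q kp P R) (ab : Bool × Bool) :
    ((swf Q kp P R t ab : WW Q kp R P ab) : U KK d kp L) = (t (ab.2, ab.1) : U KK d kp L) := by
  rw [swf_apply]
  exact LinearEquiv.coe_ofEq_apply _ _

theorem swf_swf (Q kp : ℕ) (P R : Bool → Ty k0 KK d L) (t : TT Q kp P R) :
    swf Q kp R P (swf Q kp P R t) = t := by
  funext ab
  apply Subtype.ext
  rw [swf_coe, swf_coe]

/-- the equivalence of the window groups -/
def swE (Q kp : ℕ) (P R : Bool → Ty k0 KK d L) : EE Q kp R P ≃ₗ[k0] EE Q kp P R where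
  toFun φ := -(φ ∘ₗ swf Q kp P R)
  map_add' := by
    intro φ ψ
    refine LinearMap.ext fun t => ?_
    simp only [LinearMap.neg_apply, LinearMap.comp_apply, LinearMap.add_apply]
    ring
  map_smul' := by
    intro c φ
    refine LinearMap.ext fun t => ?_
    simp only [LinearMap.neg_apply, LinearMap.comp_apply, LinearMap.smul_apply, RingHom.id_apply,
      smul_eq_mul]
    ring
  invFun φ := -(φ ∘ₗ swf Q kp R P)
  left_inv := by
    intro φ
    refine LinearMap.ext fun t => ?_
    simp only [LinearMap.neg_apply, LinearMap.comp_apply, swf_swf, neg_neg]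
  right_inv := by
    intro φ
    refine LinearMap.ext fun t => ?_
    simp only [LinearMap.neg_apply, LinearMap.comp_apply, swf_swf, neg_neg]

theorem swE_apply (Q kp : ℕ) (P R : Bool → Ty k0 KK d L) (φ : EE Q kp R P) (t : TT Q kp P R) :
    (swE Q kp P R).toLinearMap φ t = - φ (swf Q kp P R t) := rfl

theorem winY_eq (Q kp : ℕ) (P R : Bool → Ty k0 KK d L) :
    winY Q kp P R = (swE Q kp P R).toLinearMap ∘ₗ winX Q kp R P := by
  refine LinearMap.ext fun v => LinearMap.ext fun t => ?_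
  rw [LinearMap.comp_apply, swE_apply, winX_apply, winY_apply]
  congr 1
  simp only [swf_coe]
  rw [Fintype.sum_prod_type, Fintype.sum_prod_type, Finset.sum_comm]

/-- **the local conflict bound, plan B** -/
theorem locB [Fintype k0] [Fintype KK] [CharP KK 2] {ι : Type*} {K : Set k0} (hK : Alph K) {e : ℕ}
    (T : ι → Ty k0 KK d L) (hT : ∀ i, Valid K (T i))
    (hrich : Rich380.RichF K (fun i => (T i).E))
    (p r : Bool → ι) (hPR : ∀ a b, Perp (T (p a)) (T (r b)))
    (μ ν : VV k0 KK d kp L → ℝ)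
    (hμ : ∀ x, 0 ≤ μ x) (sμ : ∑ x, μ x = 1) (hν : ∀ y, 0 ≤ ν y) (sν : ∑ y, ν y = 1)
    (hμc : Perp (T (p false)) (T (p true)) → ∀ v v₂, μ v ≠ 0 → μ v₂ ≠ 0 → ∀ b,
      dlt (2 ^ e) kp (fun a => T (p a)) v (uvec (2 ^ e) kp (T (r b))) =
        dlt (2 ^ e) kp (fun a => T (p a)) v₂ (uvec (2 ^ e) kp (T (r b))))
    (hμK : Perp (T (p false)) (T (p true)) → ∀ v, μ v ≠ 0 → ∀ b,
      dlt (2 ^ e) kp (fun a => T (p a)) v (uvec (2 ^ e) kp (T (r b))) ∉ K)
    (hνc : Perp (T (r false)) (T (r true)) → ∀ v v₂, ν v ≠ 0 → ν v₂ ≠ 0 → ∀ a,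
      dlt (2 ^ e) kp (fun b => T (r b)) v (uvec (2 ^ e) kp (T (p a))) =
        dlt (2 ^ e) kp (fun b => T (r b)) v₂ (uvec (2 ^ e) kp (T (p a))))
    (hνK : Perp (T (r false)) (T (r true)) → ∀ v, ν v ≠ 0 → ∀ a,
      dlt (2 ^ e) kp (fun b => T (r b)) v (uvec (2 ^ e) kp (T (p a))) ∉ K)
    (CX CY : Submodule k0 (Module.Dual k0 (VV k0 KK d kp L)))
    (hNN : NN (winX (2 ^ e) kp (fun a => T (p a)) (fun b => T (r b))) CX ⊓
      NN (winY (2 ^ e) kp (fun a => T (p a)) (fun b => T (r b))) CY ≤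
        Dg e kp (fun a => T (p a)) (fun b => T (r b)) hPR)
    (K₀ ε η : ℝ) (hK₀ : 0 ≤ K₀)
    (hX1 : ¬ BadK (winX (2 ^ e) kp (fun a => T (p a)) (fun b => T (r b))) μ CX ε)
    (hX2 : ¬ BadS (winX (2 ^ e) kp (fun a => T (p a)) (fun b => T (r b))) μ CX K₀ η)
    (hY1 : ¬ BadK (winX (2 ^ e) kp (fun b => T (r b)) (fun a => T (p a))) ν CY ε)
    (hY2 : ¬ BadS (winX (2 ^ e) kp (fun b => T (r b)) (fun a => T (p a))) ν CY K₀ η) :
    1 / (4 * (Fintype.card (EE (2 ^ e) kp (fun a => T (p a)) (fun b => T (r b))) : ℝ)) *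
        ((1 - 2 * η) - K₀ * (ε + ε)) ≤
      ∑ v, ∑ v', μ v * ν v' * (if ∀ a b, Rel K (2 ^ e) kp (T (p a)) (T (r b)) (lab v a) (lab v' b)
        then 1 else 0) := by
  have e1 : ∃ v, μ v ≠ 0 := by
    by_contra h
    push Not at h
    rw [sum_eq_zero fun x _ => h x] at sμ
    exact zero_ne_one sμ
  have e2 : ∃ v, ν v ≠ 0 := by
    by_contra h
    push Not at h
    rw [sum_eq_zero fun x _ => h x] at sν
    exact zero_ne_one sν
  obtain ⟨v0, hv0⟩ := e1
  obtain ⟨v0', hv0'⟩ := e2
  obtain ⟨w0, hw0, hw⟩ := live_class (kp := kp) hK (e := e) T hT hrich p r hPR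
    (fun b => dlt (2 ^ e) kp (fun a => T (p a)) v0 (uvec (2 ^ e) kp (T (r b))))
    (fun a => dlt (2 ^ e) kp (fun b => T (r b)) v0' (uvec (2 ^ e) kp (T (p a))))
    (fun h b => hμK h v0 hv0 b) (fun h a => hνK h v0' hv0' a)
  have hY1' : ¬ BadK (winY (2 ^ e) kp (fun a => T (p a)) (fun b => T (r b))) ν CY ε := by
    rw [winY_eq, badK_equiv]
    exact hY1
  have hY2' : ¬ BadS (winY (2 ^ e) kp (fun a => T (p a)) (fun b => T (r b))) ν CY K₀ η := by
    rw [winY_eq, badS_equiv]
    exact hY2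
  have main := Loc767.loc_core (k := k0) (winX (2 ^ e) kp (fun a => T (p a)) (fun b => T (r b)))
    (winY (2 ^ e) kp (fun a => T (p a)) (fun b => T (r b))) μ ν hμ sμ hν sν CX CY K₀ η ε ε hK₀
    (core_K hX1) (core_K hY1') (core_S hX2) (core_S hY2') w0 (by
      intro φ h1 h2 x y hx hy
      obtain ⟨t, ht⟩ := exists_eval φ
      have ht1 : t ∈ NN (winX (2 ^ e) kp (fun a => T (p a)) (fun b => T (r b))) CX := by
        rw [mem_NN]
        convert h1 using 1
        refine LinearMap.ext fun v => ?_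
        rw [LinearMap.comp_apply, ht]
        rfl
      have ht2 : t ∈ NN (winY (2 ^ e) kp (fun a => T (p a)) (fun b => T (r b))) CY := by
        rw [mem_NN]
        convert h2 using 1
        refine LinearMap.ext fun v => ?_
        rw [LinearMap.comp_apply, ht]
        rfl
      have h3 := hw x y (fun h b => hμc h x v0 hx hv0 b) (fun h a => hνc h y v0' hy hv0' a) t
        (hNN ⟨ht1, ht2⟩)
      rw [ht, ht]
      rw [LinearMap.sub_apply, sub_eq_zero] at h3
      exact h3)
  refine main.trans ?_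
  refine sum_le_sum fun x _ => sum_le_sum fun y _ => ?_
  split_ifs with h1 h2 h2
  · rw [mul_one]
  · exfalso
    apply h2
    have h3 := (conf_iff K (2 ^ e) kp (fun a => T (p a)) (fun b => T (r b)) hPR x y).2
      (by rw [h1]; exact hw0)
    exact h3
  · rw [mul_one]; exact mul_nonneg (hμ x) (hν y)
  · rw [mul_zero]

end Fam

end Crest.Agent.R042.LocB461
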