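import Crest.Agent.R042.LocFam_958
import Crest.Agent.R042.SpecFam_730
import Crest.Agent.R042.Greedy_695
import Crest.Agent.R042.Ctrl_420

/-!
# Row 42 / S0059: special part of the windows and index of the window range (helper767)

* `rangeX_inf_le`, `rangeY_inf_le`: the special functionals inside the four windows are the special
  functionals of the two rows (the `spw` of `Greedy_695`);
* `card_EE_le_X`, `card_EE_le_Y`: the range of the window map has index at most `q ^ 2`.
-/

set_option autoImplicit false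
set_option linter.unusedSectionVars false

namespace Crest.Agent.R042.LocB767

open Finset Module Crest.Agent.R042.RowWin543 Crest.Agent.R042.Fam543
  Crest.Agent.R042.LocFam958 Crest.Agent.R042.Greedy695

variable {k0 KK : Type} [Field k0] [Field KK] [Algebra k0 KK] {d kp L : ℕ}

/-- special vectors of the pair of types `T` at the end `a` -/
abbrev sp (Q m kp : ℕ) (T : Bool → Ty k0 KK d L) (a : Bool) : Submodule k0 (U KK d kp L) :=
  SpecFam730.specU k0 Q m kp L (SpecFam730.aop (T a).b (T (!a)).b)

/-- the two evaluation functionals -/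
def evA (a : Bool) (x t : U KK d kp L) : Dual k0 (Lab k0 (U KK d kp L)) :=
  bif a then ev2 x t else ev1 x t

theorem evA_apply (a : Bool) (x t : U KK d kp L) (v : Lab k0 (U KK d kp L)) :
    evA a x t v = (lab v a).1 x t := by
  cases a <;> rfl

theorem evA_mem (Sp : Bool → Submodule k0 (U KK d kp L)) (a : Bool) (x t : U KK d kp L)
    (ht : t ∈ Sp a) : evA a x t ∈ spw (Sp false) (Sp true) x := by
  cases a
  · exact Submodule.subset_span (Or.inl ⟨t, ht, rfl⟩)
  · exact Submodule.subset_span (Or.inr ⟨t, ht, rfl⟩)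

/-- the special functionals of the two rows `u false`, `u true` -/
abbrev spw2 (Sp : Bool → Submodule k0 (U KK d kp L)) (u : Bool → U KK d kp L) :
    Submodule k0 (Dual k0 (Lab k0 (U KK d kp L))) :=
  spw (Sp false) (Sp true) (u false) ⊔ spw (Sp false) (Sp true) (u true)

theorem spw_le_spw2 (Sp : Bool → Submodule k0 (U KK d kp L)) (u : Bool → U KK d kp L) (b : Bool) :
    spw (Sp false) (Sp true) (u b) ≤ spw2 Sp u := by
  cases b
  · exact le_sup_left
  · exact le_sup_right

/-! ### the vectors of `CX` give special functionals -/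

theorem flipX_mem (Q m : ℕ) (P R : Bool → Ty k0 KK d L) (t : TT Q kp P R)
    (ht : t ∈ SpecFam730.CX Q m kp P R) :
    (winX Q kp P R).flip t ∈ spw2 (sp Q m kp P) (fun b => uvec Q kp (R b)) := by
  obtain ⟨s, hs, r, hr, rfl⟩ := Submodule.mem_sup.1 ht
  rw [map_add]
  refine Submodule.add_mem _ ?_ ?_
  · have h1 : (winX Q kp P R).flip s =
        ∑ ab : Bool × Bool, evA ab.1 (uvec Q kp (R ab.2)) (s ab : U KK d kp L) := by
      refine LinearMap.ext fun v => ?_
      rw [LinearMap.flip_apply, winX_apply, LinearMap.sum_apply]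
      exact sum_congr rfl fun ab _ => (evA_apply _ _ _ _).symm
    rw [h1]
    refine Submodule.sum_mem _ fun ab _ => ?_
    refine spw_le_spw2 (sp Q m kp P) (fun b => uvec Q kp (R b)) ab.2 ?_
    refine evA_mem (sp Q m kp P) ab.1 _ _ ?_
    have := (Submodule.mem_pi.1 hs) ab (Set.mem_univ _)
    exact this
  · have h1 : (winX Q kp P R).flip r = 0 := by
      refine Submodule.span_induction (p := fun r _ => (winX Q kp P R).flip r = 0)
        ?_ ?_ ?_ ?_ hr
      · rintro D ⟨-, i, hi⟩
        refine LinearMap.ext fun v => ?_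
        rw [LinearMap.flip_apply, winX_apply, LinearMap.zero_apply]
        rw [Fintype.sum_prod_type]
        simp only [Fintype.sum_bool]
        have e : ∀ a b : Bool, ((D (a, b) : _) : U KK d kp L) = if a = i then
            (if b then -uvec Q kp (R false) else uvec Q kp (R true)) else 0 := fun a b => hi (a, b)
        rw [e, e, e, e]
        have s1 := v.1.2 (uvec Q kp (R false)) (uvec Q kp (R true))
        have s2 := v.2.2 (uvec Q kp (R false)) (uvec Q kp (R true))
        cases i
        · simp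
          linear_combination s1
        · simp
          linear_combination s2
      · exact map_zero _
      · intro x y _ _ hx hy
        rw [map_add, hx, hy, add_zero]
      · intro a x _ hx
        rw [map_smul, hx, smul_zero]
    rw [h1]
    exact Submodule.zero_mem _

theorem flipY_mem (Q m : ℕ) (P R : Bool → Ty k0 KK d L) (t : TT Q kp P R)
    (ht : t ∈ SpecFam730.CY Q m kp P R) :
    (winY Q kp P R).flip t ∈ spw2 (sp Q m kp R) (fun a => uvec Q kp (P a)) := by
  obtain ⟨s, hs, r, hr, rfl⟩ := Submodule.mem_sup.1 ht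
  rw [map_add]
  refine Submodule.add_mem _ ?_ ?_
  · have h1 : (winY Q kp P R).flip s =
        -∑ ab : Bool × Bool, evA ab.2 (uvec Q kp (P ab.1)) (s ab : U KK d kp L) := by
      refine LinearMap.ext fun v => ?_
      rw [LinearMap.flip_apply, winY_apply, LinearMap.neg_apply, LinearMap.sum_apply]
      congr 1
    rw [h1]
    refine Submodule.neg_mem _ (Submodule.sum_mem _ fun ab _ => ?_)
    refine spw_le_spw2 (sp Q m kp R) (fun a => uvec Q kp (P a)) ab.1 ?_
    refine evA_mem (sp Q m kp R) ab.2 _ _ ?_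
    have := (Submodule.mem_pi.1 hs) ab (Set.mem_univ _)
    exact this
  · have h1 : (winY Q kp P R).flip r = 0 := by
      refine Submodule.span_induction (p := fun r _ => (winY Q kp P R).flip r = 0)
        ?_ ?_ ?_ ?_ hr
      · rintro D ⟨-, i, hi⟩
        refine LinearMap.ext fun v => ?_
        rw [LinearMap.flip_apply, winY_apply, LinearMap.zero_apply]
        rw [Fintype.sum_prod_type]
        simp only [Fintype.sum_bool]
        have e : ∀ a b : Bool, ((D (a, b) : _) : U KK d kp L) = if b = i then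
            (if a then -uvec Q kp (P false) else uvec Q kp (P true)) else 0 := fun a b => hi (a, b)
        rw [e, e, e, e]
        have s1 := v.1.2 (uvec Q kp (P false)) (uvec Q kp (P true))
        have s2 := v.2.2 (uvec Q kp (P false)) (uvec Q kp (P true))
        cases i
        · simp
          linear_combination (-1 : k0) * s1
        · simp
          linear_combination (-1 : k0) * s2
      · exact map_zero _
      · intro x y _ _ hx hy
        rw [map_add, hx, hy, add_zero]
      · intro a x _ hx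
        rw [map_smul, hx, smul_zero]
    rw [h1]
    exact Submodule.zero_mem _

section fin

variable [Finite k0] [Finite KK]

/-- every functional of the windows is the evaluation at a vector quadruple -/
theorem mem_range_dualMap {V : Type*} [AddCommGroup V] [Module k0 V] (Q : ℕ)
    (P R : Bool → Ty k0 KK d L) (F : V →ₗ[k0] EE Q kp P R) (ψ : Dual k0 V) :
    ψ ∈ LinearMap.range F.dualMap ↔ ∃ t : TT Q kp P R, ψ = F.flip t := by
  have : FiniteDimensional k0 (TT Q kp P R) := inferInstance
  constructor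
  · rintro ⟨φ, rfl⟩
    obtain ⟨t, ht⟩ := (Module.evalEquiv k0 (TT Q kp P R)).surjective φ
    refine ⟨t, LinearMap.ext fun v => ?_⟩
    rw [← ht]
    rfl
  · rintro ⟨t, rfl⟩
    exact ⟨Module.evalEquiv k0 (TT Q kp P R) t, rfl⟩

/-- **special part of the windows**, side `X` -/
theorem rangeX_inf_le (Q m : ℕ) (P R : Bool → Ty k0 KK d L)
    (C : Submodule k0 (Dual k0 (VV k0 KK d kp L)))
    (hC : NN (winX Q kp P R) C ≤ SpecFam730.CX Q m kp P R) :
    LinearMap.range (winX Q kp P R).dualMap ⊓ C ≤
      spw2 (sp Q m kp P) (fun b => uvec Q kp (R b)) := by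
  rintro ψ ⟨h1, h2⟩
  obtain ⟨t, rfl⟩ := (mem_range_dualMap Q P R (winX Q kp P R) ψ).1 h1
  exact flipX_mem Q m P R t (hC h2)

/-- **special part of the windows**, side `Y` -/
theorem rangeY_inf_le (Q m : ℕ) (P R : Bool → Ty k0 KK d L)
    (C : Submodule k0 (Dual k0 (VV k0 KK d kp L)))
    (hC : NN (winY Q kp P R) C ≤ SpecFam730.CY Q m kp P R) :
    LinearMap.range (winY Q kp P R).dualMap ⊓ C ≤
      spw2 (sp Q m kp R) (fun a => uvec Q kp (P a)) := by
  rintro ψ ⟨h1, h2⟩
  obtain ⟨t, rfl⟩ := (mem_range_dualMap Q P R (winY Q kp P R) ψ).1 h1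
  exact flipY_mem Q m P R t (hC h2)

/-! ### index of the range -/

theorem range_flip {V W : Type*} [AddCommGroup V] [Module k0 V]
    [AddCommGroup W] [Module k0 W] [FiniteDimensional k0 W] (F : V →ₗ[k0] Dual k0 W) :
    LinearMap.range F.flip = LinearMap.range F.dualMap := by
  ext ψ
  constructor
  · rintro ⟨t, rfl⟩
    exact ⟨Module.evalEquiv k0 W t, rfl⟩
  · rintro ⟨φ, rfl⟩
    obtain ⟨t, ht⟩ := (Module.evalEquiv k0 W).surjective φ
    refine ⟨t, ?_⟩
    rw [← ht]
    rfl

theorem card_sub {X : Type*} [AddCommGroup X] [Module k0 X] [FiniteDimensional k0 X]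
    (S : Submodule k0 X) : Nat.card S = Nat.card k0 ^ finrank k0 S :=
  Module.natCard_eq_pow_finrank (K := k0) (V := S)

/-- abstract index bound: if the kernel of `F.flip` injects into `k0 × k0` then the range of `F`
has index at most `q ^ 2` -/
theorem card_le_of_ker {V W : Type*} [AddCommGroup V] [Module k0 V] [FiniteDimensional k0 V]
    [AddCommGroup W] [Module k0 W] [FiniteDimensional k0 W] (F : V →ₗ[k0] Dual k0 W)
    (g : LinearMap.ker F.flip → k0 × k0) (hg : Function.Injective g) :
    Nat.card (Dual k0 W) ≤ Nat.card k0 ^ 2 * Nat.card (LinearMap.range F) := by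
  have h1 : Nat.card (LinearMap.ker F.flip) ≤ Nat.card k0 ^ 2 := by
    have := Nat.card_le_card_of_injective g hg
    rwa [Nat.card_prod, ← pow_two] at this
  have hr : finrank k0 (LinearMap.range F.flip) = finrank k0 (LinearMap.range F) := by
    rw [range_flip]
    exact LinearMap.finrank_range_dualMap_eq_finrank_range F
  have hs : finrank k0 (LinearMap.range F.flip) + finrank k0 (LinearMap.ker F.flip) =
      finrank k0 W := LinearMap.finrank_range_add_finrank_ker F.flip
  have c1 : Nat.card (Dual k0 W) = Nat.card k0 ^ finrank k0 W := by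
    rw [Module.natCard_eq_pow_finrank (K := k0) (V := Dual k0 W), Subspace.dual_finrank_eq]
  have c2 : Nat.card (LinearMap.range F) = Nat.card k0 ^ finrank k0 (LinearMap.range F) :=
    card_sub _
  have c3 : Nat.card (LinearMap.ker F.flip) = Nat.card k0 ^ finrank k0 (LinearMap.ker F.flip) :=
    card_sub _
  rw [c1, ← hs, hr, pow_add, c2, mul_comm]
  refine Nat.mul_le_mul_right _ ?_
  rw [← c3]
  exact h1

/-- labels with one arbitrary component -/
def inc (a : Bool) (f : ↥(SymForm k0 (U KK d kp L))) : VV k0 KK d kp L :=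
  bif a then (0, f) else (f, 0)

theorem lab_inc (a a' : Bool) (f : ↥(SymForm k0 (U KK d kp L))) :
    (lab (inc a f) a').1 = if a' = a then f.1 else 0 := by
  cases a <;> cases a' <;> rfl

theorem ker_ctrl {u u' z z' : U KK d kp L} (hI : Ctrl420.Ind2 (⊥ : Submodule k0 _) u u')
    (h : ∀ f ∈ SymForm k0 (U KK d kp L), f u z + f u' z' = 0) :
    ∃ α : k0, z = α • u' ∧ z' = -(α • u) := by
  obtain ⟨α, h1, h2⟩ := Ctrl420.ctrl ⊥ u u' z z' hI (fun f hf _ => h f hf)
  refine ⟨α, sub_eq_zero.1 ((Submodule.mem_bot k0).1 h1), ?_⟩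
  exact eq_neg_of_add_eq_zero_left ((Submodule.mem_bot k0).1 h2)

theorem kerX (Q : ℕ) (P R : Bool → Ty k0 KK d L)
    (hI : Ctrl420.Ind2 (⊥ : Submodule k0 (U KK d kp L)) (uvec Q kp (R false)) (uvec Q kp (R true)))
    (t : TT Q kp P R) (ht : (winX Q kp P R).flip t = 0) (a : Bool) :
    ∃ α : k0, ((t (a, false) : _) : U KK d kp L) = α • uvec Q kp (R true) ∧
      ((t (a, true) : _) : U KK d kp L) = -(α • uvec Q kp (R false)) := by
  refine ker_ctrl hI fun f hf => ?_
  have h1 := LinearMap.congr_fun ht (inc a ⟨f, hf⟩)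
  rw [LinearMap.flip_apply, winX_apply, LinearMap.zero_apply, Fintype.sum_prod_type] at h1
  simp only [Fintype.sum_bool, lab_inc] at h1
  cases a <;> simpa [add_comm] using h1

theorem kerY (Q : ℕ) (P R : Bool → Ty k0 KK d L)
    (hI : Ctrl420.Ind2 (⊥ : Submodule k0 (U KK d kp L)) (uvec Q kp (P false)) (uvec Q kp (P true)))
    (t : TT Q kp P R) (ht : (winY Q kp P R).flip t = 0) (b : Bool) :
    ∃ α : k0, ((t (false, b) : _) : U KK d kp L) = α • uvec Q kp (P true) ∧
      ((t (true, b) : _) : U KK d kp L) = -(α • uvec Q kp (P false)) := by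
  refine ker_ctrl hI fun f hf => ?_
  have h1 := LinearMap.congr_fun ht (inc b ⟨f, hf⟩)
  rw [LinearMap.flip_apply, winY_apply, LinearMap.zero_apply, Fintype.sum_prod_type,
    neg_eq_zero] at h1
  simp only [Fintype.sum_bool, lab_inc] at h1
  cases b <;> simpa [add_comm] using h1

/-- **index of the window range**, side `X` -/
theorem card_EE_le_X (Q : ℕ) (P R : Bool → Ty k0 KK d L)
    (hI : Ctrl420.Ind2 (⊥ : Submodule k0 (U KK d kp L)) (uvec Q kp (R false)) (uvec Q kp (R true))) :
    Nat.card (EE Q kp P R) ≤ Nat.card k0 ^ 2 * Nat.card (LinearMap.range (winX Q kp P R)) := by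
  classical
  choose! α h1 h2 using fun (t : TT Q kp P R) (ht : (winX Q kp P R).flip t = 0) =>
    kerX Q P R hI t ht
  refine card_le_of_ker (winX Q kp P R)
    (fun t => (α t.1 false, α t.1 true)) ?_
  intro s t hst
  have e1 : α s.1 false = α t.1 false := (Prod.ext_iff.1 hst).1
  have e2 : α s.1 true = α t.1 true := (Prod.ext_iff.1 hst).2
  have e : ∀ a, α s.1 a = α t.1 a := by intro a; cases a <;> assumption
  have hs : (winX Q kp P R).flip s.1 = 0 := s.2
  have ht : (winX Q kp P R).flip t.1 = 0 := t.2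
  apply Subtype.ext
  funext ab
  apply Subtype.ext
  rcases ab with ⟨a, b⟩
  cases b
  · rw [h1 s.1 hs a, h1 t.1 ht a, e]
  · rw [h2 s.1 hs a, h2 t.1 ht a, e]

/-- **index of the window range**, side `Y` -/
theorem card_EE_le_Y (Q : ℕ) (P R : Bool → Ty k0 KK d L)
    (hI : Ctrl420.Ind2 (⊥ : Submodule k0 (U KK d kp L)) (uvec Q kp (P false)) (uvec Q kp (P true))) :
    Nat.card (EE Q kp P R) ≤ Nat.card k0 ^ 2 * Nat.card (LinearMap.range (winY Q kp P R)) := by
  classical
  choose! α h1 h2 using fun (t : TT Q kp P R) (ht : (winY Q kp P R).flip t = 0) =>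
    kerY Q P R hI t ht
  refine card_le_of_ker (winY Q kp P R)
    (fun t => (α t.1 false, α t.1 true)) ?_
  intro s t hst
  have e1 : α s.1 false = α t.1 false := (Prod.ext_iff.1 hst).1
  have e2 : α s.1 true = α t.1 true := (Prod.ext_iff.1 hst).2
  have e : ∀ a, α s.1 a = α t.1 a := by intro a; cases a <;> assumption
  have hs : (winY Q kp P R).flip s.1 = 0 := s.2
  have ht : (winY Q kp P R).flip t.1 = 0 := t.2
  apply Subtype.ext
  funext ab
  apply Subtype.ext
  rcases ab with ⟨a, b⟩
  cases a
  · rw [h1 s.1 hs b, h1 t.1 ht b, e]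
  · rw [h2 s.1 hs b, h2 t.1 ht b, e]

theorem ind2_bot {Sp : Submodule k0 (U KK d kp L)} {u u' : U KK d kp L}
    (h : Ctrl420.Ind2 Sp u u') : Ctrl420.Ind2 (⊥ : Submodule k0 (U KK d kp L)) u u' :=
  fun a b hab => h a b (bot_le (a := Sp) hab)

/-- real form of the index bound, as `hXI` of `Loc767.loc` -/
theorem hXI (Q : ℕ) (P R : Bool → Ty k0 KK d L) [Fintype (EE Q kp P R)]
    (hI : Ctrl420.Ind2 (⊥ : Submodule k0 (U KK d kp L)) (uvec Q kp (R false)) (uvec Q kp (R true))) :
    (Fintype.card (EE Q kp P R) : ℝ) ≤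
      (Nat.card k0 : ℝ) ^ 2 * (Nat.card (LinearMap.range (winX Q kp P R)) : ℝ) := by
  have := card_EE_le_X Q P R hI
  rw [Nat.card_eq_fintype_card] at this
  exact_mod_cast this

/-- real form of the index bound, as `hYI` of `Loc767.loc` -/
theorem hYI (Q : ℕ) (P R : Bool → Ty k0 KK d L) [Fintype (EE Q kp P R)]
    (hI : Ctrl420.Ind2 (⊥ : Submodule k0 (U KK d kp L)) (uvec Q kp (P false)) (uvec Q kp (P true))) :
    (Fintype.card (EE Q kp P R) : ℝ) ≤
      (Nat.card k0 : ℝ) ^ 2 * (Nat.card (LinearMap.range (winY Q kp P R)) : ℝ) := by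
  have := card_EE_le_Y Q P R hI
  rw [Nat.card_eq_fintype_card] at this
  exact_mod_cast this

end fin

end Crest.Agent.R042.LocB767
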