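import Crest.Agent.R042.LocC_958

/-!
# Row 42 / S0059: exchanging the two sides of a conflict

`winY` for `(P, R)` is, up to sign and reindexing, `winX` for `(R, P)`; `locS` is the local
conflict bound with the same structure `Side` required for both sides.
-/

set_option autoImplicit false
set_option linter.unusedSectionVars false

namespace Crest.Agent.R042.LocFam958

open Finset Crest.Agent.R042.RowWin543 Crest.Agent.R042.Fam543 Crest.Agent.R042.KLsup313
variable {k0 KK : Type} [Field k0] [Field KK] [Algebra k0 KK] {d kp L : ℕ}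

/-- reindexing of the four windows -/
def sigFun (Q kp : ℕ) (P R : Bool → Ty k0 KK d L) (t : TT Q kp P R) : TT Q kp R P :=
  fun ba => ⟨(t (ba.2, ba.1)).1, UPQ_comm Q kp (P ba.2) (R ba.1) ▸ (t (ba.2, ba.1)).2⟩

theorem sigFun_coe (Q kp : ℕ) (P R : Bool → Ty k0 KK d L) (t : TT Q kp P R) (ba : Bool × Bool) :
    (sigFun Q kp P R t ba).1 = (t (ba.2, ba.1)).1 := by
  unfold sigFun
  exact rfl

theorem sigFun_add (Q kp : ℕ) (P R : Bool → Ty k0 KK d L) (s t : TT Q kp P R) :
    sigFun Q kp P R (s + t) = sigFun Q kp P R s + sigFun Q kp P R t := by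
  funext ba
  apply Subtype.ext
  rw [Pi.add_apply, Submodule.coe_add, sigFun_coe, sigFun_coe, sigFun_coe, Pi.add_apply,
    Submodule.coe_add]

theorem sigFun_smul (Q kp : ℕ) (P R : Bool → Ty k0 KK d L) (c : k0) (t : TT Q kp P R) :
    sigFun Q kp P R (c • t) = c • sigFun Q kp P R t := by
  funext ba
  apply Subtype.ext
  rw [Pi.smul_apply, Submodule.coe_smul, sigFun_coe, sigFun_coe, Pi.smul_apply,
    Submodule.coe_smul]

theorem sigFun_sigFun (Q kp : ℕ) (P R : Bool → Ty k0 KK d L) (t : TT Q kp P R) :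
    sigFun Q kp R P (sigFun Q kp P R t) = t := by
  funext ab
  apply Subtype.ext
  rw [sigFun_coe, sigFun_coe]

/-- reindexing of the four windows, linear -/
def sigL (Q kp : ℕ) (P R : Bool → Ty k0 KK d L) : TT Q kp P R →ₗ[k0] TT Q kp R P :=
  { toFun := sigFun Q kp P R
    map_add' := sigFun_add Q kp P R
    map_smul' := sigFun_smul Q kp P R }

theorem sigL_apply (Q kp : ℕ) (P R : Bool → Ty k0 KK d L) (t : TT Q kp P R) :
    sigL Q kp P R t = sigFun Q kp P R t := rfl

theorem winY_eq (Q kp : ℕ) (P R : Bool → Ty k0 KK d L) (v : VV k0 KK d kp L)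
    (t : TT Q kp P R) : winY Q kp P R v t = - winX Q kp R P v (sigFun Q kp P R t) := by
  rw [winY_apply, winX_apply]
  congr 1
  refine Fintype.sum_equiv (Equiv.prodComm Bool Bool) _ _ (fun ab => ?_)
  rw [sigFun_coe]
  rfl

/-- the functionals of the windows of the second side -/
theorem mem_range_dual {Q kp : ℕ} {P R : Bool → Ty k0 KK d L} [Finite k0] [Finite KK]
    (π : VV k0 KK d kp L →ₗ[k0] EE Q kp P R) (ψ : Module.Dual k0 (VV k0 KK d kp L)) :
    ψ ∈ LinearMap.range π.dualMap ↔ ∃ t : TT Q kp P R, ∀ v, ψ v = π v t := by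
  constructor
  · rintro ⟨φ, rfl⟩
    obtain ⟨t, ht⟩ := exists_eval φ
    exact ⟨t, fun v => by rw [LinearMap.dualMap_apply, ht]⟩
  · rintro ⟨t, ht⟩
    refine ⟨Module.evalEquiv k0 _ t, LinearMap.ext fun v => ?_⟩
    rw [LinearMap.dualMap_apply, ht v]
    rfl

theorem range_dual_swap [Finite k0] [Finite KK] (Q kp : ℕ) (P R : Bool → Ty k0 KK d L) :
    LinearMap.range (winY Q kp P R).dualMap =
      LinearMap.range (winX Q kp R P : VV k0 KK d kp L →ₗ[k0] _).dualMap := by
  ext ψ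
  rw [mem_range_dual, mem_range_dual]
  constructor
  · rintro ⟨t, ht⟩
    refine ⟨-(sigFun Q kp P R t), fun v => ?_⟩
    rw [ht v, winY_eq, map_neg]
  · rintro ⟨t, ht⟩
    refine ⟨-(sigFun Q kp R P t), fun v => ?_⟩
    rw [ht v, map_neg, winY_eq, neg_neg, sigFun_sigFun]

theorem winY_eq' (Q kp : ℕ) (P R : Bool → Ty k0 KK d L) (v : VV k0 KK d kp L) :
    winY Q kp P R v = -((sigL Q kp P R).dualMap (winX Q kp R P v)) := by
  refine LinearMap.ext fun t => ?_
  rw [winY_eq, LinearMap.neg_apply, LinearMap.dualMap_apply, sigL_apply]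

/-- the image of the windows of the second side has the same size -/
theorem card_range_swap (Q kp : ℕ) (P R : Bool → Ty k0 KK d L) :
    Nat.card (LinearMap.range (winY Q kp P R)) =
      Nat.card (LinearMap.range (winX Q kp R P : VV k0 KK d kp L →ₗ[k0] _)) := by
  have hinj : Function.Injective (-(sigL Q kp P R).dualMap) := by
    intro φ ψ h
    refine LinearMap.ext fun t => ?_
    have h1 := LinearMap.congr_fun h (sigFun Q kp R P t)
    rw [LinearMap.neg_apply, LinearMap.neg_apply, LinearMap.neg_apply, LinearMap.neg_apply,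
      LinearMap.dualMap_apply, LinearMap.dualMap_apply, sigL_apply, sigFun_sigFun] at h1
    exact neg_injective h1
  have h1 : LinearMap.range (winY Q kp P R) =
      (LinearMap.range (winX Q kp R P : VV k0 KK d kp L →ₗ[k0] _)).map
        (-(sigL Q kp P R).dualMap) := by
    ext φ
    constructor
    · rintro ⟨v, rfl⟩
      exact ⟨winX Q kp R P v, ⟨v, rfl⟩, (winY_eq' Q kp P R v).symm⟩
    · rintro ⟨_, ⟨v, rfl⟩, rfl⟩
      exact ⟨v, winY_eq' Q kp P R v⟩
  rw [h1]
  exact (Nat.card_congr (Submodule.equivMapOfInjective _ hinj _).toEquiv).symm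

theorem card_EE_swap [Finite k0] [Finite KK] (Q kp : ℕ) (P R : Bool → Ty k0 KK d L) :
    Fintype.card (EE Q kp P R) = Fintype.card (EE Q kp R P) := by
  refine Fintype.card_congr
    { toFun := fun φ => (sigL Q kp R P).dualMap φ
      invFun := fun φ => (sigL Q kp P R).dualMap φ
      left_inv := fun φ => LinearMap.ext fun t => ?_
      right_inv := fun φ => LinearMap.ext fun t => ?_ }
  · rw [LinearMap.dualMap_apply, LinearMap.dualMap_apply, sigL_apply, sigL_apply, sigFun_sigFun]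
  · rw [LinearMap.dualMap_apply, LinearMap.dualMap_apply, sigL_apply, sigL_apply, sigFun_sigFun]

theorem NN_swap [Finite k0] [Finite KK] (Q kp : ℕ) (P R : Bool → Ty k0 KK d L)
    (C : Submodule k0 (Module.Dual k0 (VV k0 KK d kp L))) (t : TT Q kp P R) :
    t ∈ NN (winY Q kp P R) C ↔ sigFun Q kp P R t ∈ NN (winX Q kp R P) C := by
  rw [mem_NN, mem_NN]
  have h1 : (winY Q kp P R).flip t = - (winX Q kp R P).flip (sigFun Q kp P R t) := by
    refine LinearMap.ext fun v => ?_
    rw [LinearMap.neg_apply, LinearMap.flip_apply, LinearMap.flip_apply]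
    exact winY_eq Q kp P R v t
  rw [h1, Submodule.neg_mem_iff]


/-- `NN winX C ≤ CX` for `(R, P)` gives `NN winY C ≤ CY` for `(P, R)` -/
theorem NN_le_CY [Finite k0] [Finite KK] (Q m kp : ℕ) (P R : Bool → Ty k0 KK d L)
    (C : Submodule k0 (Module.Dual k0 (VV k0 KK d kp L)))
    (h : NN (winX Q kp R P) C ≤ SpecFam730.CX Q m kp R P) :
    NN (winY Q kp P R) C ≤ SpecFam730.CY Q m kp P R := by
  have key : SpecFam730.CX Q m kp R P ≤
      (SpecFam730.CY Q m kp P R).comap (sigL Q kp R P) := by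
    refine sup_le ?_ ?_
    · intro t ht
      rw [Submodule.mem_comap, sigL_apply]
      refine Submodule.mem_sup_left ?_
      intro w _
      have h1 : t (w.2, w.1) ∈ SpecFam730.SX Q m kp R P (w.2, w.1) :=
        ht (w.2, w.1) (Set.mem_univ _)
      have h3 : ((t (w.2, w.1) : WW Q kp R P (w.2, w.1)) : U KK d kp L) ∈
        SpecFam730.specU k0 Q m kp L (SpecFam730.aop (R w.2).b (R (!w.2)).b) := h1
      have h2 : ((sigFun Q kp R P t w : WW Q kp P R w) : U KK d kp L) = t (w.2, w.1) :=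
        sigFun_coe Q kp R P t w
      rw [← h2] at h3
      exact h3
    · rw [Submodule.span_le]
      rintro D ⟨hp, i, hi⟩
      rw [SetLike.mem_coe, Submodule.mem_comap, sigL_apply]
      refine Submodule.mem_sup_right (Submodule.subset_span ⟨hp, i, fun w => ?_⟩)
      have h2 : ((sigFun Q kp R P D w : WW Q kp P R w) : U KK d kp L) = D (w.2, w.1) :=
        sigFun_coe Q kp R P D w
      rw [h2]
      exact hi (w.2, w.1)
  intro t ht
  have h1 := key (h ((NN_swap Q kp P R C t).1 ht))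
  rw [Submodule.mem_comap, sigL_apply, sigFun_sigFun] at h1
  exact h1

/-- everything that is needed of one side: types `P` of the pair, types `R` of the other pair, `C`
the special functionals of `P`, `μ` the law of the labels of the pair -/
structure Side [Finite k0] [Finite KK] (e kp m : ℕ) (P R : Bool → Ty k0 KK d L)
    (C : Submodule k0 (Module.Dual k0 (VV k0 KK d kp L))) (μ : VV k0 KK d kp L → ℝ)
    (ε D I : ℝ) : Prop where
  nn : NN (winX (2 ^ e) kp P R) C ≤ SpecFam730.CX (2 ^ e) m kp P R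
  h1 : kl k0 μ (LinearMap.range (winX (2 ^ e) kp P R).dualMap ⊔ C) ≤ kl k0 μ C + ε
  h2 : kl k0 μ (LinearMap.range (winX (2 ^ e) kp P R).dualMap ⊓ C) ≤ D
  hI : (Fintype.card (EE (2 ^ e) kp P R) : ℝ) ≤
    I * (Nat.card (LinearMap.range (winX (2 ^ e) kp P R : VV k0 KK d kp L →ₗ[k0] _)) : ℝ)

open Classical in
/-- **the local conflict bound in the family, symmetric form** -/
theorem locS [Fintype k0] [Fintype KK] [CharP KK 2] {ι : Type*} {K : Set k0} (hK : Alph K)
    {e m m' : ℕ} (hm : kp < m + m') (hm1 : m ≤ kp) (hm2 : m' ≤ kp)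
    (T : ι → Ty k0 KK d L) (hT : ∀ i, Valid K (T i))
    (hrich : Rich380.RichF K (fun i => (T i).E))
    (p r : Bool → ι) (hPR : ∀ a b, Perp (T (p a)) (T (r b)))
    (hind : SpecFam730.Indep4 (fun a => T (p a)) (fun b => T (r b)))
    (μ ν : VV k0 KK d kp L → ℝ)
    (hμ : ∀ x, 0 ≤ μ x) (sμ : ∑ x, μ x = 1) (hν : ∀ y, 0 ≤ ν y) (sν : ∑ y, ν y = 1)
    (hμc : Perp (T (p false)) (T (p true)) → ∀ v v₂, μ v ≠ 0 → μ v₂ ≠ 0 → ∀ b,
      dlt (2 ^ e) kp (fun a => T (p a)) v (uvec (2 ^ e) kp (T (r b))) =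
        dlt (2 ^ e) kp (fun a => T (p a)) v₂ (uvec (2 ^ e) kp (T (r b))))
    (hμK : Perp (T (p false)) (T (p true)) → ∀ v, μ v ≠ 0 → ∀ b,
      dlt (2 ^ e) kp (fun a => T (p a)) v (uvec (2 ^ e) kp (T (r b))) ∉ K)
    (hνc : Perp (T (r false)) (T (r true)) → ∀ v v₂, ν v ≠ 0 → ν v₂ ≠ 0 → ∀ a,
      dlt (2 ^ e) kp (fun b => T (r b)) v (uvec (2 ^ e) kp (T (p a))) =
        dlt (2 ^ e) kp (fun b => T (r b)) v₂ (uvec (2 ^ e) kp (T (p a))))
    (hνK : Perp (T (r false)) (T (r true)) → ∀ v, ν v ≠ 0 → ∀ a,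
      dlt (2 ^ e) kp (fun b => T (r b)) v (uvec (2 ^ e) kp (T (p a))) ∉ K)
    (CX CY : Submodule k0 (Module.Dual k0 (VV k0 KK d kp L))) (ε D I : ℝ)
    (hX : Side e kp m (fun a => T (p a)) (fun b => T (r b)) CX μ ε D I)
    (hY : Side e kp m' (fun b => T (r b)) (fun a => T (p a)) CY ν ε D I)
    (hDI : 0 < D + Real.log I + 1)
    (hnum : 56 * Real.exp (8 * (D + Real.log I + 1)) * ε ≤ 1) :
    1 / (8 * (Fintype.card (EE (2 ^ e) kp (fun a => T (p a)) (fun b => T (r b))) : ℝ)) ≤
      ∑ v, ∑ v', μ v * ν v' * (if ∀ a b, Rel K (2 ^ e) kp (T (p a)) (T (r b)) (lab v a) (lab v' b)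
        then 1 else 0) := by
  have hNN := nn_inf_le hm hm1 hm2 hPR hind CX CY hX.nn
    (NN_le_CY (2 ^ e) m' kp (fun a => T (p a)) (fun b => T (r b)) CY hY.nn)
  refine locC hK T hT hrich p r hPR μ ν hμ sμ hν sν hμc hμK hνc hνK CX CY hNN ε D I
    hX.h1 hX.h2 hX.hI ?_ ?_ ?_ hDI hnum
  · rw [range_dual_swap]; exact hY.h1
  · rw [range_dual_swap]; exact hY.h2
  · rw [card_range_swap, card_EE_swap]; exact hY.hI

end Crest.Agent.R042.LocFam958
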