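import Crest.Agent.R042.FinB_713
import Crest.Agent.R042.LocBP_461
import Crest.Agent.R042.HG_365

/-!
# Row 42 / S0059, plan B, leaf B.20b: the local hypothesis `hLoc` of `FinB713.pair_of_level`

`hLoc`: for an alive pair of index pairs with laws supported in their classes, without the bad
events, the conflict probability is at least `1/(4 X^(4L(2d-1)²)) * ((1 - 2η) - K₁(ε + ε))`.
-/

set_option autoImplicit false
set_option linter.unusedSectionVars false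

namespace Crest.Agent.R042.LocSysB303

open Finset Crest.Agent.R042.RowWin543 Crest.Agent.R042.Fam543 Crest.Agent.R042.LocFam958
  Crest.Agent.R042.SspAsm375 Crest.Agent.R042.SspFin375 Crest.Agent.R042.SspT375
  Crest.Agent.R042.SspG375 Crest.Agent.R042.SspB375
  Crest.Agent.R042.TLev333 Crest.Agent.R042.Inst592 Crest.Agent.R042.SysOf333
  Crest.Agent.R042.FamV220 Crest.Agent.R042.IsoD543 Crest.Agent.R042.Dim755
  Crest.Agent.R042.FinB713 Crest.Agent.R042.RichB763 Crest.Agent.R042.Gen592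
  Crest.Agent.R042.ConfB461 Crest.Agent.R042.LocB461
open Crest.Agent.R042.SpecFam730 (Indep4)
open scoped Classical

variable {k0 KK : Type} [Field k0] [Field KK] [Algebra k0 KK] {d L : ℕ}

/-- independence of the `some` parts gives independence of the vectors -/
theorem li_b_of_vv {K : Set k0} {κ : Type*} (y : κ → Om KK K d L)
    (h : LinearIndependent KK fun k => vv (y k)) :
    LinearIndependent KK fun k => (y k).1.b := by
  refine LinearIndependent.of_comp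
    (LinearMap.pi fun j : Fin d × Bool => LinearMap.proj (R := KK) (φ := fun _ : Ix d => KK)
      (some j)) ?_
  exact h

/-- the four vectors of two cross-perpendicular index pairs are independent -/
theorem indep4_of_li [CharP KK 2] {K : Set k0} {N m : ℕ} (hm : 4 ≤ m) (x : Fin N → Om KK K d L)
    (hLI : LI KK vv m x) (s s' : Jx (Fin N))
    (hPR : ∀ a b, Perp (pj (fun i => (x i).1) s a) (pj (fun i => (x i).1) s' b)) :
    Indep4 (pj (fun i => (x i).1) s) (pj (fun i => (x i).1) s') := by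
  have hne : ∀ i j, Perp (x i).1 (x j).1 → i ≠ j := by
    rintro i j h rfl
    exact (x i).2.aniso h
  have h1 : s.1.1 ≠ s.1.2 := s.2
  have h2 : s'.1.1 ≠ s'.1.2 := s'.2
  have h3 : s.1.1 ≠ s'.1.1 := hne _ _ (hPR false false)
  have h4 : s.1.1 ≠ s'.1.2 := hne _ _ (hPR false true)
  have h5 : s.1.2 ≠ s'.1.1 := hne _ _ (hPR true false)
  have h6 : s.1.2 ≠ s'.1.2 := hne _ _ (hPR true true)
  set f : Fin 4 → Fin N := ![s.1.1, s.1.2, s'.1.1, s'.1.2] with hf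
  have hinj : Function.Injective f := by
    intro i j hij
    fin_cases i <;> fin_cases j <;> simp_all [Ne.symm h1, Ne.symm h2, Ne.symm h3, Ne.symm h4,
      Ne.symm h5, Ne.symm h6]
  have hJ := hLI (univ.image f) (by
    refine (card_image_le.trans ?_).trans hm
    rw [Finset.card_univ, Fintype.card_fin])
  have h7 := hJ.comp (fun k : Fin 4 => (⟨f k, mem_image_of_mem f (mem_univ k)⟩ :
    (univ.image f : Finset (Fin N)))) (by
      intro i j hij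
      exact hinj (congrArg Subtype.val hij))
  have h8 := li_b_of_vv (fun k : Fin 4 => x (f k)) h7
  unfold Indep4
  convert h8 using 1
  funext k
  fin_cases k <;> rfl

/-- size of the window group -/
theorem card_EE [Fintype k0] [Fintype KK] [CharP KK 2] {K : Set k0} (e : ℕ) (P R : Bool → Om KK K d L)
    (hPR : ∀ a b, Perp (P a).1 (R b).1) :
    (Fintype.card (LocFam958.EE (2 ^ e) 2 (fun a => (P a).1) (fun b => (R b).1)) : ℝ) =
      (Fintype.card KK : ℝ) ^ (4 * (L * (2 * d - 1) ^ 2)) := by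
  have h1 := Module.card_eq_pow_finrank (K := k0)
    (V := LocFam958.EE (2 ^ e) 2 (fun a => (P a).1) (fun b => (R b).1))
  have h2 := Module.card_eq_pow_finrank (K := k0) (V := KK)
  have h3 : Module.finrank k0 (LocFam958.EE (2 ^ e) 2 (fun a => (P a).1) (fun b => (R b).1)) =
      Module.finrank k0 KK * (4 * (L * (2 * d - 1) ^ 2)) := by
    rw [Subspace.dual_finrank_eq, Module.finrank_pi_fintype]
    have h4 : ∀ ab : Bool × Bool, Module.finrank k0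
        (WW (2 ^ e) 2 (fun a => (P a).1) (fun b => (R b).1) ab) =
        L * (Module.finrank k0 KK * (2 * d - 1) ^ 2) := fun ab =>
      finrank_UPQ_om (kp := 2) e (P ab.1) (R ab.2) (ne_of_perp _ _ (hPR ab.1 ab.2))
    rw [Finset.sum_congr rfl fun ab _ => h4 ab, Finset.sum_const, Finset.card_univ,
      Fintype.card_prod, Fintype.card_bool, smul_eq_mul]
    ring
  rw [h1, h2, h3]
  push_cast
  rw [pow_mul]

/-- the two hypotheses on the digits of a class -/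
theorem class_facts [CharP KK 2] {K : Set k0} {N : ℕ} (e : ℕ) (x : Fin N → Om KK K d L)
    (s s' : Jx (Fin N)) (δ : Dl k0 KK d L) (μ : VV k0 KK d 2 L → ℝ)
    (hs : ∀ v, μ v ≠ 0 → dword (2 ^ e) 2 (x s.1.1).1 (x s.1.2).1 v.1 v.2 = δ ∧
      ¬ Rel K (2 ^ e) 2 (x s.1.1).1 (x s.1.2).1 v.1 v.2)
    (h1 : ¬ Diso K (2 ^ e) 2 (x s.1.1).1 (x s.1.2).1 δ (x s'.1.1).1)
    (h2 : ¬ Diso K (2 ^ e) 2 (x s.1.1).1 (x s.1.2).1 δ (x s'.1.2).1) :
    (∀ v v₂, μ v ≠ 0 → μ v₂ ≠ 0 → ∀ b,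
      dlt (2 ^ e) 2 (pj (fun i => (x i).1) s) v (uvec (2 ^ e) 2 (pj (fun i => (x i).1) s' b)) =
        dlt (2 ^ e) 2 (pj (fun i => (x i).1) s) v₂
          (uvec (2 ^ e) 2 (pj (fun i => (x i).1) s' b))) ∧
    (Perp (x s.1.1).1 (x s.1.2).1 → ∀ v, μ v ≠ 0 → ∀ b,
      dlt (2 ^ e) 2 (pj (fun i => (x i).1) s) v
        (uvec (2 ^ e) 2 (pj (fun i => (x i).1) s' b)) ∉ K) := by
  have key : ∀ (v : VV k0 KK d 2 L) (z : U KK d 2 L),
      dlt (2 ^ e) 2 (pj (fun i => (x i).1) s) v z =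
        dword (2 ^ e) 2 (x s.1.1).1 (x s.1.2).1 v.1 v.2 z := by
    intro v z
    rw [dword_apply]
    rfl
  constructor
  · intro v v₂ hv hv₂ b
    rw [key, key, (hs v hv).1, (hs v₂ hv₂).1]
  · intro hp v hv b
    rw [key, (hs v hv).1]
    have hN := notS_of_not_rel K (2 ^ e) 2 _ _ v.1 v.2 hp (hs v hv).2
    rw [(hs v hv).1] at hN
    cases b
    · intro h
      exact h1 ⟨hp, hN, h⟩
    · intro h
      exact h2 ⟨hp, hN, h⟩

/-- **leaf B.20b: the local conflict bound for an alive pair** -/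
theorem loc [Fintype k0] [Fintype KK] [CharP KK 2] {K : Set k0} (hK : Fam543.Alph K) (e : ℕ)
    {N J m : ℕ} (hm : 4 ≤ m) (hL : 0 < L) (x : Fin N → Om KK K d L) (hLI : LI KK vv m x)
    (TD : TData (Om KK K d L) (Dl k0 KK d L) (TH KK d L J)) (hTp : TD.perp = perp K d L)
    (hiso : ∀ (P P' : Om KK K d L) (δ : Dl k0 KK d L) (ϑ : TH KK d L J) (R : Om KK K d L),
      Diso K (2 ^ e) 2 P.1 P'.1 δ R.1 → TD.D1 P P' δ ϑ R)
    (hrich : ∀ (P P' : Om KK K d L) (δ : Dl k0 KK d L) (ϑ : TH KK d L J) (R : Om KK K d L),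
      ¬ RichP K P.1.E R.1.E → TD.D1 P P' δ ϑ R)
    (hrich' : ∀ (P P' : Om KK K d L) (δ : Dl k0 KK d L) (ϑ : TH KK d L J) (R : Om KK K d L),
      ¬ RichP K P'.1.E R.1.E → TD.D1 P P' δ ϑ R)
    (kX K₁ η : ℝ) (hK₁ : 0 ≤ K₁)
    (s s' : Jx (Fin N) × Dl k0 KK d L × TH KK d L J) (μ μ' : VV k0 KK d 2 L → ℝ)
    (hμ : IsP μ)
    (hs : ∀ v, μ v ≠ 0 → dword (2 ^ e) 2 (x s.1.1.1).1 (x s.1.1.2).1 v.1 v.2 = s.2.1 ∧
      ¬ Rel K (2 ^ e) 2 (x s.1.1.1).1 (x s.1.1.2).1 v.1 v.2)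
    (hμ' : IsP μ')
    (hs' : ∀ v, μ' v ≠ 0 → dword (2 ^ e) 2 (x s'.1.1.1).1 (x s'.1.1.2).1 v.1 v.2 = s'.2.1 ∧
      ¬ Rel K (2 ^ e) 2 (x s'.1.1.1).1 (x s'.1.1.2).1 v.1 v.2)
    (hA : TD.Alive x s s')
    (h1 : ¬ (BadK (winX (2 ^ e) 2 (pj (fun i => (x i).1) s.1) (pj (fun i => (x i).1) s'.1)) μ
        ((LocA726.VS (2 ^ e) 2 (pj (fun i => (x i).1) s.1)).dualAnnihilator) kX ∨
      BadS (winX (2 ^ e) 2 (pj (fun i => (x i).1) s.1) (pj (fun i => (x i).1) s'.1)) μ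
        ((LocA726.VS (2 ^ e) 2 (pj (fun i => (x i).1) s.1)).dualAnnihilator) K₁ η))
    (h2 : ¬ (BadK (winX (2 ^ e) 2 (pj (fun i => (x i).1) s'.1) (pj (fun i => (x i).1) s.1)) μ'
        ((LocA726.VS (2 ^ e) 2 (pj (fun i => (x i).1) s'.1)).dualAnnihilator) kX ∨
      BadS (winX (2 ^ e) 2 (pj (fun i => (x i).1) s'.1) (pj (fun i => (x i).1) s.1)) μ'
        ((LocA726.VS (2 ^ e) 2 (pj (fun i => (x i).1) s'.1)).dualAnnihilator) K₁ η)) :
    1 / (4 * (Fintype.card KK : ℝ) ^ (4 * (L * (2 * d - 1) ^ 2))) *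
        ((1 - 2 * η) - K₁ * (kX + kX)) ≤
      ∑ v, ∑ v', μ v * μ' v' *
        (if CfR (relF K e 2 fun i => (x i).1) s.1 s'.1 v v' then 1 else 0) := by
  have hp : ∀ P R : Om KK K d L, TD.perp P R → Perp P.1 R.1 := by
    intro P R h
    rw [hTp] at h
    exact h
  have hPR : ∀ a b, Perp (pj (fun i => (x i).1) s.1 a) (pj (fun i => (x i).1) s'.1 b) := by
    intro a b
    cases a <;> cases b
    · exact hp _ _ hA.p11
    · exact hp _ _ hA.p12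
    · exact hp _ _ hA.p21
    · exact hp _ _ hA.p22
  have hRP : ∀ a b, Perp (pj (fun i => (x i).1) s'.1 a) (pj (fun i => (x i).1) s.1 b) :=
    fun a b => (hPR b a).symm
  have hVP : ∀ (t : Jx (Fin N)) (a : Bool), Valid K (pj (fun i => (x i).1) t a) :=
    fun t a => (x _).2
  have hInd := indep4_of_li hm x hLI s.1 s'.1 hPR
  have hri : ∀ a b, RichP K (pj (fun i => (x i).1) s.1 a).E (pj (fun i => (x i).1) s'.1 b).E := by
    intro a b
    by_contra h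
    cases a <;> cases b
    · exact hA.a1 (hrich _ _ _ _ _ h)
    · exact hA.a2 (hrich _ _ _ _ _ h)
    · exact hA.a1 (hrich' _ _ _ _ _ h)
    · exact hA.a2 (hrich' _ _ _ _ _ h)
  obtain ⟨c1, c2⟩ := class_facts e x s.1 s'.1 s.2.1 μ hs
    (fun h => hA.a1 (hiso _ _ _ _ _ h)) (fun h => hA.a2 (hiso _ _ _ _ _ h))
  obtain ⟨c3, c4⟩ := class_facts e x s'.1 s.1 s'.2.1 μ' hs'
    (fun h => hA.b1 (hiso _ _ _ _ _ h)) (fun h => hA.b2 (hiso _ _ _ _ _ h))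
  have hNN := nn_inf_le (kp := 2) (e := e) (m := 2) (m' := 2) (by norm_num) le_rfl le_rfl hPR hInd
    ((LocA726.VS (2 ^ e) 2 (pj (fun i => (x i).1) s.1)).dualAnnihilator)
    ((LocA726.VS (2 ^ e) 2 (pj (fun i => (x i).1) s'.1)).dualAnnihilator)
    (LocA726.nnX_le le_rfl (by norm_num) hK hL (hVP s'.1) hPR hInd _ le_rfl)
    (LocA726.nnY_le le_rfl (by norm_num) hK hL (hVP s.1) hPR hInd _ le_rfl)
  have main := locBP (kp := 2) hK (e := e) (pj (fun i => (x i).1) s.1)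
    (pj (fun i => (x i).1) s'.1) (hVP s.1) (hVP s'.1) hri hPR μ μ' hμ.nonneg hμ.sum hμ'.nonneg
    hμ'.sum (fun _ => c1) c2 (fun _ => c3) c4 _ _ hNN K₁ kX η hK₁
    (fun h => h1 (Or.inl h)) (fun h => h1 (Or.inr h)) (fun h => h2 (Or.inl h))
    (fun h => h2 (Or.inr h))
  have hc := card_EE e (fun a => x (bif a then s.1.1.2 else s.1.1.1))
    (fun b => x (bif b then s'.1.1.2 else s'.1.1.1)) hPR
  rw [← hc]
  refine main.trans (le_of_eq ?_)
  refine sum_congr rfl fun v _ => sum_congr rfl fun v' _ => ?_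
  congr 1
  refine if_congr ?_ rfl rfl
  unfold CfR relF
  constructor
  · intro h
    exact ⟨h false false, h false true, h true false, h true true⟩
  · rintro ⟨g1, g2, g3, g4⟩ a b
    cases a <;> cases b
    · exact g1
    · exact g2
    · exact g3
    · exact g4

/-- **`hLoc` of `FinB713.pair_of_level`**: `η₁ = 1/8`, `ε = 1/(8 K₁)`, `c₀ = 1/(8 X^(4L(2d-1)²))` -/
theorem hLoc [Fintype k0] [Fintype KK] [CharP KK 2] {K : Set k0} (hK : Fam543.Alph K) (e : ℕ)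
    {N J m : ℕ} (hm : 4 ≤ m) (hL : 0 < L) (x : Fin N → Om KK K d L) (hLI : LI KK vv m x)
    (TD : TData (Om KK K d L) (Dl k0 KK d L) (TH KK d L J)) (hTp : TD.perp = perp K d L)
    (hiso : ∀ (P P' : Om KK K d L) (δ : Dl k0 KK d L) (ϑ : TH KK d L J) (R : Om KK K d L),
      Diso K (2 ^ e) 2 P.1 P'.1 δ R.1 → TD.D1 P P' δ ϑ R)
    (hrich : ∀ (P P' : Om KK K d L) (δ : Dl k0 KK d L) (ϑ : TH KK d L J) (R : Om KK K d L),
      ¬ RichP K P.1.E R.1.E → TD.D1 P P' δ ϑ R)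
    (hrich' : ∀ (P P' : Om KK K d L) (δ : Dl k0 KK d L) (ϑ : TH KK d L J) (R : Om KK K d L),
      ¬ RichP K P'.1.E R.1.E → TD.D1 P P' δ ϑ R)
    (K₁ : ℝ) (hK₁ : 0 < K₁) :
    ∀ (s s' : Jx (Fin N) × Dl k0 KK d L × TH KK d L J) (μ μ' : VV k0 KK d 2 L → ℝ),
      IsP μ → (∀ v, μ v ≠ 0 → dword (2 ^ e) 2 (x s.1.1.1).1 (x s.1.1.2).1 v.1 v.2 = s.2.1 ∧
        ¬ Rel K (2 ^ e) 2 (x s.1.1.1).1 (x s.1.1.2).1 v.1 v.2) →
      IsP μ' → (∀ v, μ' v ≠ 0 → dword (2 ^ e) 2 (x s'.1.1.1).1 (x s'.1.1.2).1 v.1 v.2 = s'.2.1 ∧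
        ¬ Rel K (2 ^ e) 2 (x s'.1.1.1).1 (x s'.1.1.2).1 v.1 v.2) →
      TD.Alive x s s' →
      ¬ HG365.BadE (2 ^ e) (1 / (8 * K₁)) K₁ (1 / 8) (pj (fun i => (x i).1) s.1)
        (pj (fun i => (x i).1) s'.1) μ →
      ¬ HG365.BadE (2 ^ e) (1 / (8 * K₁)) K₁ (1 / 8) (pj (fun i => (x i).1) s'.1)
        (pj (fun i => (x i).1) s.1) μ' →
      1 / (8 * (Fintype.card KK : ℝ) ^ (4 * (L * (2 * d - 1) ^ 2))) ≤ ∑ v, ∑ v', μ v * μ' v' *
        (if CfR (relF K e 2 fun i => (x i).1) s.1 s'.1 v v' then 1 else 0) := by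
  intro s s' μ μ' hμ hs hμ' hs' hA h1 h2
  refine le_trans (le_of_eq ?_) (loc hK e hm hL x hLI TD hTp hiso hrich hrich' (1 / (8 * K₁)) K₁
    (1 / 8) hK₁.le s s' μ μ' hμ hs hμ' hs' hA h1 h2)
  have hX : (0 : ℝ) < (Fintype.card KK : ℝ) ^ (4 * (L * (2 * d - 1) ^ 2)) := by
    have : (0 : ℝ) < Fintype.card KK := by exact_mod_cast Fintype.card_pos
    positivity
  field_simp
  ring

/-- the same with the literal event of #29506 -/
theorem hLoc' [Fintype k0] [Fintype KK] [CharP KK 2] {K : Set k0} (hK : Fam543.Alph K) (e : ℕ)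
    {N J m : ℕ} (hm : 4 ≤ m) (hL : 0 < L) (x : Fin N → Om KK K d L) (hLI : LI KK vv m x)
    (TD : TData (Om KK K d L) (Dl k0 KK d L) (TH KK d L J)) (hTp : TD.perp = perp K d L)
    (hiso : ∀ (P P' : Om KK K d L) (δ : Dl k0 KK d L) (ϑ : TH KK d L J) (R : Om KK K d L),
      Diso K (2 ^ e) 2 P.1 P'.1 δ R.1 → TD.D1 P P' δ ϑ R)
    (hrich : ∀ (P P' : Om KK K d L) (δ : Dl k0 KK d L) (ϑ : TH KK d L J) (R : Om KK K d L),
      ¬ RichP K P.1.E R.1.E → TD.D1 P P' δ ϑ R)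
    (hrich' : ∀ (P P' : Om KK K d L) (δ : Dl k0 KK d L) (ϑ : TH KK d L J) (R : Om KK K d L),
      ¬ RichP K P'.1.E R.1.E → TD.D1 P P' δ ϑ R)
    (K₁ : ℝ) (hK₁ : 0 < K₁) :
    ∀ (s s' : Jx (Fin N) × Dl k0 KK d L × TH KK d L J) (μ μ' : VV k0 KK d 2 L → ℝ),
      IsP μ → (∀ v, μ v ≠ 0 → dword (2 ^ e) 2 (x s.1.1.1).1 (x s.1.1.2).1 v.1 v.2 = s.2.1 ∧
        ¬ Rel K (2 ^ e) 2 (x s.1.1.1).1 (x s.1.1.2).1 v.1 v.2) →
      IsP μ' → (∀ v, μ' v ≠ 0 → dword (2 ^ e) 2 (x s'.1.1.1).1 (x s'.1.1.2).1 v.1 v.2 = s'.2.1 ∧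
        ¬ Rel K (2 ^ e) 2 (x s'.1.1.1).1 (x s'.1.1.2).1 v.1 v.2) →
      TD.Alive x s s' →
      ¬ (fun (X R : Bool → Ty k0 KK d L) (μ : VV k0 KK d 2 L → ℝ) =>
        BadK (winX (2 ^ e) 2 X R) μ ((LocA726.VS (2 ^ e) 2 X).dualAnnihilator) (1 / (8 * K₁)) ∨
        BadS (winX (2 ^ e) 2 X R) μ ((LocA726.VS (2 ^ e) 2 X).dualAnnihilator) K₁ (1 / 8))
          (pj (fun i => (x i).1) s.1) (pj (fun i => (x i).1) s'.1) μ →
      ¬ (fun (X R : Bool → Ty k0 KK d L) (μ : VV k0 KK d 2 L → ℝ) =>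
        BadK (winX (2 ^ e) 2 X R) μ ((LocA726.VS (2 ^ e) 2 X).dualAnnihilator) (1 / (8 * K₁)) ∨
        BadS (winX (2 ^ e) 2 X R) μ ((LocA726.VS (2 ^ e) 2 X).dualAnnihilator) K₁ (1 / 8))
          (pj (fun i => (x i).1) s'.1) (pj (fun i => (x i).1) s.1) μ' →
      1 / (8 * (Fintype.card KK : ℝ) ^ (4 * (L * (2 * d - 1) ^ 2))) ≤ ∑ v, ∑ v', μ v * μ' v' *
        (if CfR (relF K e 2 fun i => (x i).1) s.1 s'.1 v v' then 1 else 0) :=
  hLoc hK e hm hL x hLI TD hTp hiso hrich hrich' K₁ hK₁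

end Crest.Agent.R042.LocSysB303
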