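import Mathlib
import Crest.Agent.R042.Conf_921
import Crest.Agent.R042.CondFree_313

/-!
Row 42, S0059, PLAN B, label level: LOC in total-variation form (helper303).
-/

set_option autoImplicit false
set_option linter.unusedSectionVars false

namespace Crest.Agent.R042.LocTV303

open Finset Crest.Agent.R042.Conf921 Crest.Agent.R042.CondFree313

section Abs

variable {E : Type*} [AddCommGroup E] [Fintype E]

open Classical in
lemma sum_avg (H : AddSubgroup E) (μ : E → ℝ) : ∑ x, avg H μ x = ∑ x, μ x := by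
  have := sum_avg_mul H μ (fun _ => 1) (fun _ _ _ => rfl)
  simpa using this

open Classical in
/-- TV form of (A) -/
theorem bad_tv (EX : AddSubgroup E) (μ : E → ℝ) (hμ : ∀ x, 0 ≤ μ x) (ε : ℝ)
    (h : ∑ x, |μ x - avg EX μ x| ≤ ε) :
    ∑ x with μ x < avg EX μ x / 2, avg EX μ x ≤ 2 * ε := by
  have h1 : ∑ x with μ x < avg EX μ x / 2, avg EX μ x ≤
      ∑ x with μ x < avg EX μ x / 2, 2 * |μ x - avg EX μ x| := by
    refine sum_le_sum fun x hx => ?_
    rw [mem_filter] at hx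
    have h2 := neg_le_abs (μ x - avg EX μ x)
    linarith [hx.2]
  have h3 : ∑ x with μ x < avg EX μ x / 2, 2 * |μ x - avg EX μ x| ≤
      ∑ x, 2 * |μ x - avg EX μ x| :=
    sum_le_sum_of_subset_of_nonneg (filter_subset _ _)
      (fun x _ _ => mul_nonneg (by norm_num) (abs_nonneg _))
  have h4 : ∑ x, 2 * |μ x - avg EX μ x| = 2 * ∑ x, |μ x - avg EX μ x| := (mul_sum _ _ _).symm
  rw [h4] at h3
  linarith

open Classical in
/-- from one-sided set form to `L¹` form -/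
theorem tv_of_sets (EX : AddSubgroup E) (μ : E → ℝ) (ε : ℝ)
    (h : ∀ M : Finset E, ∑ x ∈ M, μ x - ∑ x ∈ M, avg EX μ x ≤ ε) :
    ∑ x, |μ x - avg EX μ x| ≤ 2 * ε := by
  set P : Finset E := univ.filter fun x => avg EX μ x ≤ μ x with hP
  have h0 := sum_avg EX μ
  have h1 : ∑ x, |μ x - avg EX μ x| =
      ∑ x ∈ P, (μ x - avg EX μ x) + ∑ x ∈ univ.filter (fun x => ¬ avg EX μ x ≤ μ x),
        (avg EX μ x - μ x) := by
    rw [← sum_filter_add_sum_filter_not univ (fun x => avg EX μ x ≤ μ x)]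
    congr 1
    · refine sum_congr rfl fun x hx => ?_
      rw [mem_filter] at hx
      exact abs_of_nonneg (by linarith [hx.2])
    · refine sum_congr rfl fun x hx => ?_
      rw [mem_filter] at hx
      have := not_le.1 hx.2
      rw [abs_of_neg (by linarith)]; ring
  have h2 : ∑ x ∈ P, (μ x - avg EX μ x) + ∑ x ∈ univ.filter (fun x => ¬ avg EX μ x ≤ μ x),
      (μ x - avg EX μ x) = 0 := by
    rw [sum_filter_add_sum_filter_not univ (fun x => avg EX μ x ≤ μ x)]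
    rw [sum_sub_distrib, h0, sub_self]
  have h3 := h P
  rw [← sum_sub_distrib] at h3
  have h4 : ∑ x ∈ univ.filter (fun x => ¬ avg EX μ x ≤ μ x), (avg EX μ x - μ x) =
      - ∑ x ∈ univ.filter (fun x => ¬ avg EX μ x ≤ μ x), (μ x - avg EX μ x) := by
    rw [← sum_neg_distrib]
    exact sum_congr rfl fun x _ => by ring
  rw [h1, h4]
  linarith

open Classical in
/-- LOC for two laws on `E` -/
theorem loc_E (EX EY : AddSubgroup E) (μ ν : E → ℝ) (hμ : ∀ x, 0 ≤ μ x) (hν : ∀ x, 0 ≤ ν x)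
    (sμ : ∑ x, μ x = 1) (sν : ∑ x, ν x = 1) (K ε : ℝ) (hK : 0 ≤ K)
    (hTX : ∑ x, |μ x - avg EX μ x| ≤ ε) (hTY : ∑ x, |ν x - avg EY ν x| ≤ ε)
    (hKX : ∑ x with K < avg EX μ x * (Fintype.card E : ℝ), μ x ≤ 1 / 8)
    (hKY : ∑ x with K < avg EY ν x * (Fintype.card E : ℝ), ν x ≤ 1 / 8)
    (w0 : E) (hcls : ∀ x y, μ x ≠ 0 → ν y ≠ 0 → x + y - w0 ∈ EX ⊔ EY)
    (hnum : 8 * K * ε ≤ 1) :
    1 / (16 * (Fintype.card E : ℝ)) ≤ ∑ x, ∑ y, if x + y = w0 then μ x * ν y else 0 := by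
  have hN : 0 < (Fintype.card E : ℝ) := by exact_mod_cast Fintype.card_pos
  have hlam : (1 : ℝ) ≤ ∑ x, ∑ y with Live EX EY {w0} 1 (x + y), μ x * ν y := by
    have h1 : ∀ x, ∑ y with Live EX EY {w0} 1 (x + y), μ x * ν y = ∑ y, μ x * ν y := by
      intro x
      rw [sum_filter]
      refine sum_congr rfl fun y _ => ?_
      split_ifs with h
      · rfl
      · by_contra hne
        have hx : μ x ≠ 0 := fun h0 => hne (by rw [h0, zero_mul])
        have hy : ν y ≠ 0 := fun h0 => hne (by rw [h0, mul_zero])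
        refine h ?_
        unfold Live
        have hm := hcls x y hx hy
        have h2 : ({w ∈ ({w0} : Finset E) | x + y - w ∈ EX ⊔ EY} : Finset E) = {w0} := by
          rw [filter_eq_self]
          intro w hw
          rw [mem_singleton] at hw
          rw [hw]; exact hm
        rw [h2, card_singleton, Nat.cast_one, one_mul, one_mul, one_mul]
        exact_mod_cast Fintype.card_subtype_le _
    simp_rw [h1, ← mul_sum, sν, mul_one]
    rw [sμ]
  have hc := conf EX EY μ ν hμ hν sμ sν {w0} K (1 / 8) (2 * ε) (2 * ε) 1 1 hK zero_le_one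
    (bad_tv EX μ hμ ε hTX) (bad_tv EY ν hν ε hTY) hKX hKY hlam
  have h5 : ∑ x, ∑ y with x + y ∈ ({w0} : Finset E), μ x * ν y =
      ∑ x, ∑ y, if x + y = w0 then μ x * ν y else 0 := by
    refine sum_congr rfl fun x _ => ?_
    rw [sum_filter]
    refine sum_congr rfl fun y _ => ?_
    simp only [mem_singleton]
  rw [h5] at hc
  refine le_trans ?_ hc
  rw [card_singleton, Nat.cast_one, one_div, one_div, mul_inv, mul_inv]
  have h6 : 0 < ((Fintype.card E : ℝ))⁻¹ := inv_pos.2 hN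
  have h7 : (1 : ℝ) / 4 ≤ 1 * (1 - 2 * (1 / 8)) - K * (2 * ε + 2 * ε) := by
    nlinarith
  calc (16 : ℝ)⁻¹ * ((Fintype.card E : ℝ))⁻¹ = (4 : ℝ)⁻¹ * ((Fintype.card E : ℝ))⁻¹ * (1 / 4) := by
        ring
    _ ≤ _ := by
        refine mul_le_mul_of_nonneg_left ?_ (by positivity)
        exact h7

end Abs

section Push

variable {A B E : Type*} [Fintype A] [Fintype B] [AddCommGroup E] [Fintype E]

open Classical in
/-- push-forward of a law under any map -/
noncomputable def pushf (F : A → E) (μ : A → ℝ) (e : E) : ℝ := ∑ v with F v = e, μ v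

open Classical in
lemma pushf_nonneg (F : A → E) (μ : A → ℝ) (hμ : ∀ v, 0 ≤ μ v) (e : E) : 0 ≤ pushf F μ e :=
  sum_nonneg fun v _ => hμ v

open Classical in
lemma sum_pushf_mul (F : A → E) (μ : A → ℝ) (g : E → ℝ) :
    ∑ e, pushf F μ e * g e = ∑ v, μ v * g (F v) := by
  unfold pushf
  simp_rw [sum_mul, sum_filter]
  rw [sum_comm]
  refine sum_congr rfl fun v _ => ?_
  rw [sum_ite_eq]
  simp

open Classical in
lemma sum_pushf (F : A → E) (μ : A → ℝ) : ∑ e, pushf F μ e = ∑ v, μ v := by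
  have := sum_pushf_mul F μ (fun _ => 1)
  simpa using this

open Classical in
lemma exists_of_pushf_ne (F : A → E) (μ : A → ℝ) (e : E) (h : pushf F μ e ≠ 0) :
    ∃ v, F v = e ∧ μ v ≠ 0 := by
  obtain ⟨v, hv, hne⟩ := exists_ne_zero_of_sum_ne_zero h
  exact ⟨v, (mem_filter.1 hv).2, hne⟩

open Classical in
/-- **LOC, total-variation form** -/
theorem loc_tv (F : A → E) (G : B → E) (μ : A → ℝ) (ν : B → ℝ) (hμ : ∀ x, 0 ≤ μ x)
    (hν : ∀ x, 0 ≤ ν x) (sμ : ∑ x, μ x = 1) (sν : ∑ x, ν x = 1) (EX EY : AddSubgroup E)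
    (K ε : ℝ) (hK : 0 ≤ K)
    (hTX : ∑ x, |pushf F μ x - avg EX (pushf F μ) x| ≤ ε)
    (hTY : ∑ x, |pushf G ν x - avg EY (pushf G ν) x| ≤ ε)
    (hKX : ∑ x with K < avg EX (pushf F μ) x * (Fintype.card E : ℝ), pushf F μ x ≤ 1 / 8)
    (hKY : ∑ x with K < avg EY (pushf G ν) x * (Fintype.card E : ℝ), pushf G ν x ≤ 1 / 8)
    (w0 : E) (hcls : ∀ x y, μ x ≠ 0 → ν y ≠ 0 → F x + G y - w0 ∈ EX ⊔ EY)
    (hnum : 8 * K * ε ≤ 1) :
    1 / (16 * (Fintype.card E : ℝ)) ≤
      ∑ x, ∑ y, if F x + G y = w0 then μ x * ν y else 0 := by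
  have h := loc_E EX EY (pushf F μ) (pushf G ν) (pushf_nonneg F μ hμ) (pushf_nonneg G ν hν)
    (by rw [sum_pushf, sμ]) (by rw [sum_pushf, sν]) K ε hK hTX hTY hKX hKY w0
    (by
      intro x y hx hy
      obtain ⟨a, rfl, ha⟩ := exists_of_pushf_ne F μ x hx
      obtain ⟨b, rfl, hb⟩ := exists_of_pushf_ne G ν y hy
      exact hcls a b ha hb) hnum
  refine h.trans (le_of_eq ?_)
  have h1 : ∀ e, (∑ e', if e + e' = w0 then pushf F μ e * pushf G ν e' else 0) =
      pushf F μ e * (∑ b, ν b * (if e + G b = w0 then 1 else 0)) := by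
    intro e
    rw [← sum_pushf_mul G ν (fun e' => if e + e' = w0 then (1 : ℝ) else 0), mul_sum]
    refine sum_congr rfl fun e' _ => ?_
    split_ifs <;> ring
  simp_rw [h1]
  rw [sum_pushf_mul F μ (fun e => ∑ b, ν b * (if e + G b = w0 then (1 : ℝ) else 0))]
  refine sum_congr rfl fun a _ => ?_
  rw [mul_sum]
  refine sum_congr rfl fun b _ => ?_
  split_ifs <;> ring

end Push

section Lin

variable {k A B E : Type*} [Field k] [AddCommGroup A] [Module k A] [AddCommGroup B] [Module k B]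
  [AddCommGroup E] [Module k E] [FiniteDimensional k E]

/-- common kernel of the functionals `φ` of `E` with `φ ∘ F ∈ CX` -/
def EXof (F : A →ₗ[k] E) (CX : Submodule k (Module.Dual k A)) : Submodule k E :=
  (CX.comap F.dualMap).dualCoannihilator

theorem mem_EXof (F : A →ₗ[k] E) (CX : Submodule k (Module.Dual k A)) (e : E) :
    e ∈ EXof F CX ↔ ∀ φ : Module.Dual k E, φ ∘ₗ F ∈ CX → φ e = 0 := by
  unfold EXof
  rw [Submodule.mem_dualCoannihilator]
  rfl

/-- membership in `EX ⊔ EY` by digits -/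
theorem mem_sup_of_digits (F : A →ₗ[k] E) (G : B →ₗ[k] E) (CX : Submodule k (Module.Dual k A))
    (CY : Submodule k (Module.Dual k B)) (z : E)
    (h : ∀ φ : Module.Dual k E, φ ∘ₗ F ∈ CX → φ ∘ₗ G ∈ CY → φ z = 0) :
    z ∈ EXof F CX ⊔ EXof G CY := by
  have h1 : z ∈ ((EXof F CX ⊔ EXof G CY).dualAnnihilator).dualCoannihilator := by
    rw [Submodule.mem_dualCoannihilator]
    intro φ hφ
    rw [Submodule.dualAnnihilator_sup_eq, Submodule.mem_inf] at hφ
    unfold EXof at hφ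
    rw [Subspace.dualCoannihilator_dualAnnihilator_eq,
      Subspace.dualCoannihilator_dualAnnihilator_eq] at hφ
    exact h φ hφ.1 hφ.2
  rwa [Subspace.dualAnnihilator_dualCoannihilator_eq] at h1

theorem mem_sup_addSubgroup (S T : Submodule k E) (z : E) (h : z ∈ S ⊔ T) :
    z ∈ S.toAddSubgroup ⊔ T.toAddSubgroup := by
  rw [Submodule.mem_sup] at h
  obtain ⟨y, hy, w, hw, rfl⟩ := h
  exact add_mem ((le_sup_left : S.toAddSubgroup ≤ S.toAddSubgroup ⊔ T.toAddSubgroup) hy)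
    ((le_sup_right : T.toAddSubgroup ≤ S.toAddSubgroup ⊔ T.toAddSubgroup) hw)

open Classical in
/-- **LOC, total-variation form, linear version** -/
theorem loc_lin [Fintype A] [Fintype B] [Fintype E] (F : A →ₗ[k] E) (G : B →ₗ[k] E)
    (μ : A → ℝ) (ν : B → ℝ) (hμ : ∀ x, 0 ≤ μ x)
    (hν : ∀ x, 0 ≤ ν x) (sμ : ∑ x, μ x = 1) (sν : ∑ x, ν x = 1)
    (CX : Submodule k (Module.Dual k A)) (CY : Submodule k (Module.Dual k B))
    (K ε : ℝ) (hK : 0 ≤ K)
    (hTX : ∀ M : Finset E, ∑ x ∈ M, pushf F μ x -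
      ∑ x ∈ M, avg (EXof F CX).toAddSubgroup (pushf F μ) x ≤ ε)
    (hTY : ∀ M : Finset E, ∑ x ∈ M, pushf G ν x -
      ∑ x ∈ M, avg (EXof G CY).toAddSubgroup (pushf G ν) x ≤ ε)
    (hKX : ∑ x with K < avg (EXof F CX).toAddSubgroup (pushf F μ) x * (Fintype.card E : ℝ),
      pushf F μ x ≤ 1 / 8)
    (hKY : ∑ x with K < avg (EXof G CY).toAddSubgroup (pushf G ν) x * (Fintype.card E : ℝ),
      pushf G ν x ≤ 1 / 8)
    (w0 : E) (hdig : ∀ φ : Module.Dual k E, φ ∘ₗ F ∈ CX → φ ∘ₗ G ∈ CY → ∀ x y, μ x ≠ 0 →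
      ν y ≠ 0 → φ (F x + G y) = φ w0)
    (hnum : 16 * K * ε ≤ 1) :
    1 / (16 * (Fintype.card E : ℝ)) ≤
      ∑ x, ∑ y, if F x + G y = w0 then μ x * ν y else 0 := by
  refine loc_tv F G μ ν hμ hν sμ sν (EXof F CX).toAddSubgroup (EXof G CY).toAddSubgroup
    K (2 * ε) hK (tv_of_sets _ _ _ hTX) (tv_of_sets _ _ _ hTY) hKX hKY w0 ?_ (by linarith)
  intro x y hx hy
  refine mem_sup_addSubgroup _ _ _ (mem_sup_of_digits F G CX CY _ ?_)
  intro φ h1 h2
  rw [map_sub, hdig φ h1 h2 x y hx hy, sub_self]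

end Lin

end Crest.Agent.R042.LocTV303
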