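import Mathlib

/-!
# MAXT: the maximal tuple (row 42, S0059, LOC)

`h` is a supermodular monotone function of subspaces with `h ⊥ = 0`, `h ⊤ ≤ b`.  If a sequence of
subspaces `W e₁, W e₂, ...` is independent (each one disjoint from the span of the earlier ones) then
`∑ h (W e_j) ≤ b`.  Hence there is a list `l` of length `≤ b / c₀` such that every `e` with
`c₀ < h (W e)` is not independent of `l`.
-/

set_option autoImplicit false

namespace Crest.Agent.R042.MaxT420

open Submodule

variable {k Y : Type*} [Field k] [AddCommGroup Y] [Module k Y]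

variable {ε : Type*}

/-- `l` is a sequence, each entry admissible with respect to the later part of the list -/
def Good (Ind : List ε → ε → Prop) : List ε → Prop
  | [] => True
  | e :: l => Ind l e ∧ Good Ind l

/-- the span of the windows of a list -/
def spn (W : ε → Submodule k Y) : List ε → Submodule k Y
  | [] => ⊥
  | e :: l => W e ⊔ spn W l

theorem le_spn (W : ε → Submodule k Y) {e : ε} : ∀ {l : List ε}, e ∈ l → W e ≤ spn W l
  | [], h => by simp at h
  | a :: l, h => by
    rcases List.mem_cons.1 h with h | h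
    · subst h; exact le_sup_left
    · exact (le_spn W h).trans le_sup_right

theorem sum_le_spn (h : Submodule k Y → ℝ) (h0 : h ⊥ = 0)
    (hsup : ∀ S T, h S + h T ≤ h (S ⊔ T) + h (S ⊓ T))
    (W : ε → Submodule k Y) (Ind : List ε → ε → Prop)
    (hInd : ∀ l e, Good Ind l → Ind l e → Disjoint (W e) (spn W l)) :
    ∀ l : List ε, Good Ind l → (l.map fun e => h (W e)).sum ≤ h (spn W l)
  | [], _ => by simp [spn, h0]
  | e :: l, hl => by
    have h1 := sum_le_spn h h0 hsup W Ind hInd l hl.2
    have h2 := hsup (W e) (spn W l)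
    have h3 : W e ⊓ spn W l = ⊥ := (hInd l e hl.2 hl.1).eq_bot
    rw [h3, h0, add_zero] at h2
    rw [List.map_cons, List.sum_cons]
    show h (W e) + (l.map fun e => h (W e)).sum ≤ h (W e ⊔ spn W l)
    linarith

/-- **MAXT** -/
theorem maxt (h : Submodule k Y → ℝ) (h0 : h ⊥ = 0) (hmono : Monotone h)
    (hsup : ∀ S T, h S + h T ≤ h (S ⊔ T) + h (S ⊓ T)) (b c₀ : ℝ) (hc : 0 < c₀) (hb : h ⊤ ≤ b)
    (W : ε → Submodule k Y) (Ind : List ε → ε → Prop)
    (hInd : ∀ l e, Good Ind l → Ind l e → Disjoint (W e) (spn W l)) :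
    ∃ l : List ε, Good Ind l ∧ (l.length : ℝ) * c₀ ≤ b ∧ (∀ e ∈ l, c₀ < h (W e)) ∧
      ∀ e, c₀ < h (W e) → ¬ Ind l e := by
  classical
  -- lists of bad, successively independent entries
  let P : List ε → Prop := fun l => Good Ind l ∧ ∀ e ∈ l, c₀ < h (W e)
  have hlen : ∀ l, P l → (l.length : ℝ) * c₀ ≤ b := by
    intro l hl
    have h1 := sum_le_spn h h0 hsup W Ind hInd l hl.1
    have h2 : h (spn W l) ≤ h ⊤ := hmono le_top
    have h3 : (l.length : ℝ) * c₀ ≤ (l.map fun e => h (W e)).sum := by
      have : ∀ l : List ε, (∀ e ∈ l, c₀ < h (W e)) →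
          (l.length : ℝ) * c₀ ≤ (l.map fun e => h (W e)).sum := by
        intro l
        induction l with
        | nil => intro _; simp
        | cons a l ih =>
          intro hal
          have h4 := ih fun e he => hal e (List.mem_cons_of_mem _ he)
          have h5 := hal a (List.mem_cons_self ..)
          rw [List.map_cons, List.sum_cons, List.length_cons]
          push_cast
          linarith
      exact this l hl.2
    linarith
  -- a longest one
  have hbd : ∃ n : ℕ, ∀ l, P l → l.length ≤ n := by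
    obtain ⟨n, hn⟩ := exists_nat_ge (b / c₀)
    refine ⟨n, fun l hl => ?_⟩
    have h1 := hlen l hl
    rw [← le_div_iff₀ hc] at h1
    exact_mod_cast h1.trans hn
  obtain ⟨n, hn⟩ := hbd
  have hex : ∃ m, m ≤ n ∧ ∃ l, P l ∧ l.length = m := ⟨0, Nat.zero_le _, [], ⟨trivial, by simp⟩, rfl⟩
  let m := Nat.findGreatest (fun m => ∃ l, P l ∧ l.length = m) n
  have hm : ∃ l, P l ∧ l.length = m :=
    Nat.findGreatest_spec (P := fun m => ∃ l, P l ∧ l.length = m) (Nat.zero_le n)
      ⟨[], ⟨trivial, by simp⟩, rfl⟩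
  obtain ⟨l, hl, hlm⟩ := hm
  refine ⟨l, hl.1, hlen l hl, hl.2, ?_⟩
  intro e he hie
  have h6 : P (e :: l) := ⟨⟨hie, hl.1⟩, by
    intro e' he'
    rcases List.mem_cons.1 he' with h | h
    · subst h; exact he
    · exact hl.2 e' h⟩
  have h7 : (e :: l).length ≤ m :=
    Nat.le_findGreatest (P := fun m => ∃ l, P l ∧ l.length = m) (hn _ h6) ⟨_, h6, rfl⟩
  rw [List.length_cons] at h7
  omega

end Crest.Agent.R042.MaxT420
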