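import Mathlib

/-!
# PLAN B of S0059: moments of constant order (step (4) of helper477 #27828)
Abstract form: only tuples with a relation contribute to the moment.
-/

namespace Crest.Agent.R042.MomB895

open Finset

variable {V J : Type*} [Fintype V] [Fintype J]

/-- the moment inequality -/
theorem mom (b : ℕ) (hb : Even b) (t : J → ℝ) (ht0 : ∀ j, 0 ≤ t j)
    (g : J → V → ℝ) (hg : ∀ j v, |g j v| ≤ 1)
    (REL : (Fin b → J) → Prop) [DecidablePred REL]
    (hind : ∀ j : Fin b → J, ¬ REL j → ∑ v, ∏ k, g (j k) v = 0)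
    (δ : ℝ) (hδ : ∑ j : Fin b → J, (if REL j then ∏ k, t (j k) else 0) ≤ δ)
    (ν : V → ℝ) (hν0 : ∀ v, 0 ≤ ν v) (hν1 : ∑ v, ν v = 1)
    (M : ℝ) (hν : ∀ v, ν v * Fintype.card V ≤ M)
    (ε : ℝ) (hε0 : 0 ≤ ε) (hε : ε ≤ ∑ j, t j * ∑ v, ν v * g j v) :
    ε ^ b ≤ M * δ := by
  classical
  have hne : Nonempty V := by
    by_contra h
    rw [not_nonempty_iff] at h
    simp at hν1
  have hcard : (0 : ℝ) < Fintype.card V := by exact_mod_cast Fintype.card_pos
  have hM0 : 0 ≤ M := by
    obtain ⟨v⟩ := hne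
    exact le_trans (mul_nonneg (hν0 v) hcard.le) (hν v)
  -- G v
  set G : V → ℝ := fun v => ∑ j, t j * g j v with hG
  have h1 : ε ≤ ∑ v, ν v * G v := by
    refine hε.trans (le_of_eq ?_)
    simp only [hG, Finset.mul_sum]
    rw [Finset.sum_comm]
    refine Finset.sum_congr rfl fun v _ => Finset.sum_congr rfl fun j _ => by ring
  have h2 : ε ^ b ≤ ∑ v, ν v * G v ^ b := by
    calc ε ^ b ≤ (∑ v, ν v * G v) ^ b := pow_le_pow_left₀ hε0 h1 b
      _ ≤ ∑ v, ν v * G v ^ b :=
        Real.pow_arith_mean_le_arith_mean_pow_of_even univ ν G (fun v _ => hν0 v) hν1 hb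
  have h3 : ∑ v, ν v * G v ^ b ≤ (M / Fintype.card V) * ∑ v, G v ^ b := by
    rw [Finset.mul_sum]
    refine Finset.sum_le_sum fun v _ => ?_
    refine mul_le_mul_of_nonneg_right ?_ (hb.pow_nonneg _)
    rw [le_div_iff₀ hcard]
    exact hν v
  have h4 : ∑ v, G v ^ b ≤ Fintype.card V * δ := by
    have e1 : ∀ v, G v ^ b = ∑ j : Fin b → J, (∏ k, t (j k)) * ∏ k, g (j k) v := by
      intro v
      rw [hG, Fintype.sum_pow]
      refine Finset.sum_congr rfl fun j _ => ?_
      rw [Finset.prod_mul_distrib]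
    calc ∑ v, G v ^ b = ∑ j : Fin b → J, (∏ k, t (j k)) * ∑ v, ∏ k, g (j k) v := by
          simp only [e1]
          rw [Finset.sum_comm]
          refine Finset.sum_congr rfl fun j _ => ?_
          rw [Finset.mul_sum]
      _ ≤ ∑ j : Fin b → J, (Fintype.card V : ℝ) * (if REL j then ∏ k, t (j k) else 0) := by
          refine Finset.sum_le_sum fun j _ => ?_
          by_cases h : REL j
          · rw [if_pos h, mul_comm (Fintype.card V : ℝ)]
            refine mul_le_mul_of_nonneg_left ?_ (Finset.prod_nonneg fun k _ => ht0 _)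
            calc ∑ v, ∏ k, g (j k) v ≤ ∑ v : V, (1 : ℝ) := by
                  refine Finset.sum_le_sum fun v _ => ?_
                  refine (le_abs_self _).trans ?_
                  rw [Finset.abs_prod]
                  exact Finset.prod_le_one (fun k _ => abs_nonneg _) (fun k _ => hg _ _)
              _ = Fintype.card V := by simp
          · rw [if_neg h, hind j h]; simp
      _ = (Fintype.card V : ℝ) * ∑ j : Fin b → J, (if REL j then ∏ k, t (j k) else 0) := by
          rw [Finset.mul_sum]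
      _ ≤ Fintype.card V * δ := mul_le_mul_of_nonneg_left hδ hcard.le
  calc ε ^ b ≤ (M / Fintype.card V) * ∑ v, G v ^ b := h2.trans h3
    _ ≤ (M / Fintype.card V) * (Fintype.card V * δ) :=
        mul_le_mul_of_nonneg_left h4 (div_nonneg hM0 hcard.le)
    _ = M * δ := by field_simp

/-- if one factor has mean zero on every coset of a subgroup `H` and the other factors are
`H`-invariant, the product has sum zero -/
theorem sum_prod_eq_zero {A : Type*} [AddCommGroup A] [Fintype A] {b : ℕ}
    (g : Fin b → A → ℝ) (k₀ : Fin b) (H : AddSubgroup A) [Fintype H]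
    (hinv : ∀ k, k ≠ k₀ → ∀ v, ∀ h ∈ H, g k (v + h) = g k v)
    (hzero : ∀ v, ∑ h : H, g k₀ (v + (h : A)) = 0) :
    ∑ v, ∏ k, g k v = 0 := by
  classical
  have key : ∀ h : H, ∑ v, ∏ k, g k v = ∑ v, ∏ k, g k (v + (h : A)) := by
    intro h
    exact (Fintype.sum_equiv (Equiv.addRight (h : A)) _ _ (fun v => by simp)).symm
  have hH : (0 : ℝ) < Fintype.card H := by exact_mod_cast Fintype.card_pos
  have h1 : (Fintype.card H : ℝ) * ∑ v, ∏ k, g k v = 0 := by
    calc (Fintype.card H : ℝ) * ∑ v, ∏ k, g k v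
        = ∑ h : H, ∑ v, ∏ k, g k v := by simp
      _ = ∑ h : H, ∑ v, ∏ k, g k (v + (h : A)) := Finset.sum_congr rfl fun h _ => key h
      _ = ∑ v, ∑ h : H, ∏ k, g k (v + (h : A)) := Finset.sum_comm
      _ = ∑ v, (∏ k ∈ univ.erase k₀, g k v) * ∑ h : H, g k₀ (v + (h : A)) := by
          refine Finset.sum_congr rfl fun v _ => ?_
          rw [Finset.mul_sum]
          refine Finset.sum_congr rfl fun h _ => ?_
          rw [← Finset.prod_erase_mul univ _ (mem_univ k₀)]
          congr 1
          refine Finset.prod_congr rfl fun k hk => ?_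
          exact hinv k (Finset.ne_of_mem_erase hk) v h h.2
      _ = 0 := by simp [hzero]
  rcases mul_eq_zero.mp h1 with h | h
  · exact absurd h hH.ne'
  · exact h

/-- average of a function over the cosets of a subgroup -/
noncomputable def avgS {W : Type*} [AddCommGroup W] (E : AddSubgroup W) [Fintype E]
    (φ : W → ℝ) (x : W) : ℝ := (∑ e : E, φ (x + e)) / Fintype.card E

/-- `φ - avg φ` has sum zero over every coset of `E` -/
theorem sum_sub_avgS {W : Type*} [AddCommGroup W] (E : AddSubgroup W) [Fintype E]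
    (φ : W → ℝ) (x : W) : ∑ e : E, (φ (x + e) - avgS E φ (x + e)) = 0 := by
  classical
  have hE : (0 : ℝ) < Fintype.card E := by exact_mod_cast Fintype.card_pos
  have h1 : ∀ e : E, avgS E φ (x + e) = avgS E φ x := by
    intro e
    unfold avgS
    congr 1
    refine Fintype.sum_equiv (Equiv.addLeft e) _ _ (fun e' => ?_)
    simp [add_assoc]
  rw [Finset.sum_sub_distrib]
  simp only [h1]
  simp only [sum_const, card_univ, nsmul_eq_mul]
  unfold avgS
  field_simp
  simp

end Crest.Agent.R042.MomB895
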