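import Mathlib

/-!
Row 42, S0059, alphabet of 341 (#23911 (1)), generic part.
`k` finite field of odd characteristic, `F/k` of degree two, `N = norm`, `mu ⊆ k` a finite subgroup of
`k*`, `K = {x | N x ∈ mu}`.  Criterion for `K` sum-free and complete in terms of
`D(a,b,c) = a^2+b^2+c^2-2ab-2bc-2ca`.
-/

set_option autoImplicit false

namespace Crest.Agent.R042.NAlph767

/-- the quadratic form `D` -/
def D {R : Type*} [CommRing R] (a b c : R) : R :=
  a ^ 2 + b ^ 2 + c ^ 2 - 2 * a * b - 2 * b * c - 2 * c * a

section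
variable {k F : Type*} [Field k] [Fintype k] [Field F] [Finite F] [Algebra k F]

/-- the conjugation `x ↦ x^|k|` -/
noncomputable def cj (k F : Type*) [Field k] [Fintype k] [Field F] [Finite F] [Algebra k F] :
    F ≃ₐ[k] F := FiniteField.frobeniusAlgEquivOfAlgebraic k F

lemma cj_apply (x : F) : cj k F x = x ^ Fintype.card k := by
  simp [cj, FiniteField.coe_frobeniusAlgEquivOfAlgebraic]

variable (hd : Module.finrank k F = 2)

include hd in
lemma cj_cj (x : F) : cj k F (cj k F x) = x := by
  have := Fintype.ofFinite F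
  rw [cj_apply, cj_apply, ← pow_mul, ← pow_two, ← hd, ← Module.card_eq_pow_finrank]
  exact FiniteField.pow_card x

include hd in
lemma norm_eq (x : F) : algebraMap k F (Algebra.norm k x) = x * cj k F x := by
  rw [FiniteField.algebraMap_norm_eq_prod_pow, hd, Finset.prod_range_succ, Finset.prod_range_one,
    pow_zero, pow_one, pow_one, cj_apply, Nat.card_eq_fintype_card]

include hd in
lemma trace_eq (x : F) : algebraMap k F (Algebra.trace k F x) = x + cj k F x := by
  rw [FiniteField.algebraMap_trace_eq_sum_pow, hd, Finset.sum_range_succ, Finset.sum_range_one,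
    pow_zero, pow_one, pow_one, cj_apply, Nat.card_eq_fintype_card]

lemma algMap_inj : Function.Injective (algebraMap k F) := (algebraMap k F).injective

include hd in
lemma norm_cj (x : F) : Algebra.norm k (cj k F x) = Algebra.norm k x := by
  apply algMap_inj (F := F)
  rw [norm_eq hd, norm_eq hd, cj_cj hd, mul_comm]

include hd in
/-- `N(x+y) = N x + N y + Tr(x ȳ)` -/
lemma norm_add (x y : F) : Algebra.norm k (x + y)
    = Algebra.norm k x + Algebra.norm k y + Algebra.trace k F (x * cj k F y) := by
  apply algMap_inj (F := F)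
  have h1 : algebraMap k F (Algebra.norm k x + Algebra.norm k y
      + Algebra.trace k F (x * cj k F y)) = algebraMap k F (Algebra.norm k x)
        + algebraMap k F (Algebra.norm k y) + algebraMap k F (Algebra.trace k F (x * cj k F y)) := by
    rw [map_add (algebraMap k F), map_add (algebraMap k F)]
  rw [h1, norm_eq hd, norm_eq hd, norm_eq hd, trace_eq hd, map_add (cj k F), map_mul (cj k F),
    cj_cj hd]
  ring

include hd in
/-- the discriminant of an element is never a non-zero square -/
lemma disc_not_sq (h2 : (2 : k) ≠ 0) (x : F) (e : k) (he : e ≠ 0)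
    (h : (Algebra.trace k F x) ^ 2 - 4 * Algebra.norm k x = e ^ 2) : False := by
  have h2F : (2 : F) ≠ 0 := by
    intro h; apply h2; apply algMap_inj (F := F); rw [map_ofNat, h, map_zero]
  have E := congrArg (algebraMap k F) h
  rw [map_sub, map_pow, map_mul, map_pow, trace_eq hd, norm_eq hd, map_ofNat] at E
  have E2 : (x - cj k F x - algebraMap k F e) * (x - cj k F x + algebraMap k F e) = 0 := by
    linear_combination E
  have hce : cj k F (algebraMap k F e) = algebraMap k F e := AlgEquiv.commutes _ _
  have key : ∀ s : F, cj k F s = s → x - cj k F x = s → s = 0 := by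
    intro s hs hx
    have := congrArg (cj k F) hx
    rw [map_sub, cj_cj hd, hs] at this
    have h3 : 2 * s = 0 := by linear_combination -hx - this
    exact (mul_eq_zero.mp h3).resolve_left h2F
  have he' : algebraMap k F e ≠ 0 := by rwa [Ne, map_eq_zero]
  rcases mul_eq_zero.mp E2 with h | h
  · exact he' (key _ hce (by linear_combination h))
  · have := key (-algebraMap k F e) (by rw [map_neg, hce]) (by linear_combination h)
    exact he' (neg_eq_zero.mp this)

include hd in
/-- every value which is not a non-zero square is a discriminant -/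
lemma exists_of_disc (h2 : (2 : k) ≠ 0) (t m : k)
    (h : ∀ e : k, e ≠ 0 → t ^ 2 - 4 * m ≠ e ^ 2) :
    ∃ x : F, Algebra.norm k x = m ∧ Algebra.trace k F x = t := by
  have := Fintype.ofFinite F
  have h2F : (2 : F) ≠ 0 := by
    intro h; apply h2; apply algMap_inj (F := F); rw [map_ofNat, h, map_zero]
  have hck : ringChar k ≠ 2 := by
    intro h; apply h2
    have := ringChar.spec k 2
    exact_mod_cast this.mpr (by rw [h])
  have hcF : ringChar F ≠ 2 := by
    intro h; apply h2F
    have := ringChar.spec F 2
    exact_mod_cast this.mpr (by rw [h])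
  have hcard : Fintype.card F = Fintype.card k ^ 2 := by
    rw [Module.card_eq_pow_finrank (K := k) (V := F), hd]
  -- an element `s` with `s^2 = disc`, `cj s = -s`
  obtain ⟨s, hs, hs'⟩ : ∃ s : F, s ^ 2 = algebraMap k F (t ^ 2 - 4 * m) ∧ cj k F s = -s := by
    by_cases h0 : t ^ 2 - 4 * m = 0
    · exact ⟨0, by rw [h0]; simp, by simp⟩
    · have hns : ¬ IsSquare (t ^ 2 - 4 * m) := by
        rintro ⟨e, he⟩
        refine h e (fun h' => h0 ?_) (by rw [he, pow_two])
        rw [he, h']; ring
      have hodd : Fintype.card k % 2 = 1 := FiniteField.odd_card_of_char_ne_two hck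
      obtain ⟨n, hn⟩ : ∃ n, Fintype.card k = 2 * n + 1 := ⟨Fintype.card k / 2, by omega⟩
      have hp : (t ^ 2 - 4 * m) ^ n = -1 := by
        have h1 := FiniteField.pow_dichotomy hck h0
        have h3 := (FiniteField.isSquare_iff hck h0)
        rw [hn] at h1 h3
        have e : (2 * n + 1) / 2 = n := by omega
        rw [e] at h1 h3
        rcases h1 with h1 | h1
        · exact absurd (h3.mpr h1) hns
        · exact h1
      have hsq : IsSquare (algebraMap k F (t ^ 2 - 4 * m)) := by
        rw [FiniteField.isSquare_iff hcF (by rwa [Ne, map_eq_zero])]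
        rw [hcard, hn]
        have : (2 * n + 1) ^ 2 / 2 = n * (2 * (n + 1)) := by
          have : (2 * n + 1) ^ 2 = 2 * (n * (2 * (n + 1))) + 1 := by ring
          omega
        rw [this, pow_mul, ← map_pow, hp, map_neg, map_one, pow_mul]
        norm_num
      obtain ⟨s, hs⟩ := hsq
      refine ⟨s, by rw [hs, pow_two], ?_⟩
      rw [cj_apply, hn, pow_succ, pow_mul, pow_two, ← hs, ← map_pow, hp]
      simp
  refine ⟨(algebraMap k F t + s) / 2, ?_, ?_⟩
  · apply algMap_inj (F := F)
    rw [norm_eq hd, map_div₀, map_add, AlgEquiv.commutes, hs', map_ofNat]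
    rw [map_sub, map_pow, map_mul, map_ofNat] at hs
    have h4 : ((algebraMap k F t + s) / 2 * ((algebraMap k F t + -s) / 2)) * (2 * 2)
        = algebraMap k F m * (2 * 2) := by
      have e1 : ((algebraMap k F t + s) / 2 * ((algebraMap k F t + -s) / 2)) * (2 * 2)
        = (algebraMap k F t + s) * (algebraMap k F t + -s) := by
        field_simp
      rw [e1]; linear_combination -hs
    exact mul_right_cancel₀ (mul_ne_zero h2F h2F) h4
  · apply algMap_inj (F := F)
    rw [trace_eq hd, map_div₀, map_add, AlgEquiv.commutes, hs', map_ofNat]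
    field_simp
    ring

/-- the alphabet `K = {x | N x ∈ mu}` -/
def KK (k : Type*) {F : Type*} [Field k] [Fintype k] [Field F] [Finite F] [Algebra k F]
    (mu : Set k) : Set F := {x | Algebra.norm k x ∈ mu}

include hd in
/-- **sum-free criterion** -/
theorem sumfree_of (h2 : (2 : k) ≠ 0) (mu : Set k)
    (hD : ∀ a ∈ mu, ∀ b ∈ mu, ∀ c ∈ mu, ∃ e : k, e ≠ 0 ∧ D a b c = e ^ 2)
    {x y : F} (hx : x ∈ KK k mu) (hy : y ∈ KK k mu) : x + y ∉ KK k mu := by
  intro hxy
  obtain ⟨e, he, h⟩ := hD _ hx _ hy _ hxy
  refine disc_not_sq hd h2 (x * cj k F y) e he ?_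
  rw [← h, map_mul (Algebra.norm k), norm_cj hd]
  have := norm_add hd x y
  simp only [D]
  rw [this]
  ring

include hd in
/-- **completeness criterion** -/
theorem complete_of (h2 : (2 : k) ≠ 0) (mu : Set k) (h0 : (0 : k) ∉ mu) (hne : mu.Nonempty)
    (hD : ∀ c : k, c ≠ 0 → c ∉ mu → ∃ a ∈ mu, ∃ b ∈ mu, ∀ e : k, e ≠ 0 → D a b c ≠ e ^ 2)
    (z : F) (hz : z ∉ KK k mu) : ∃ x ∈ KK k mu, ∃ y ∈ KK k mu, x + y = z := by
  by_cases hz0 : z = 0
  · subst hz0
    obtain ⟨a, ha⟩ := hne
    obtain ⟨x, hx⟩ := FiniteField.norm_surjective k F a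
    refine ⟨x, by rw [KK, Set.mem_setOf_eq, hx]; exact ha, -x, ?_, by ring⟩
    have : Algebra.norm k (-x) = a := by
      rw [← neg_one_mul, map_mul]
      have : Algebra.norm k (-1 : F) = 1 := by
        apply algMap_inj (F := F)
        rw [norm_eq hd, map_neg, map_one, map_one]; ring
      rw [this, one_mul, hx]
    rw [KK, Set.mem_setOf_eq, this]; exact ha
  · have hc0 : Algebra.norm k z ≠ 0 := by rwa [Ne, Algebra.norm_eq_zero_iff]
    obtain ⟨a, ha, b, hb, h⟩ := hD (Algebra.norm k z) hc0 hz
    -- an element with norm `a b` and trace `c - a - b`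
    obtain ⟨ξ, hξn, hξt⟩ := exists_of_disc (F := F) hd h2 (Algebra.norm k z - a - b) (a * b)
      (fun e he hh => h e he (by rw [← hh]; simp only [D]; ring))
    have ha0 : a ≠ 0 := fun h => h0 (h ▸ ha)
    have hb0 : b ≠ 0 := fun h => h0 (h ▸ hb)
    obtain ⟨y, hy⟩ := FiniteField.norm_surjective k F b
    have hy0 : y ≠ 0 := by rintro rfl; rw [Algebra.norm_zero] at hy; exact hb0 hy.symm
    have hcy0 : cj k F y ≠ 0 := by rwa [Ne, map_eq_zero_iff _ (cj k F).injective]
    set x := ξ / cj k F y with hx
    have hxn : Algebra.norm k x = a := by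
      have : x * cj k F y = ξ := by rw [hx]; field_simp
      have := congrArg (Algebra.norm k) this
      rw [map_mul, norm_cj hd, hy, hξn] at this
      exact mul_right_cancel₀ hb0 this
    have hxy : Algebra.norm k (x + y) = Algebra.norm k z := by
      rw [norm_add hd, hxn, hy]
      have : x * cj k F y = ξ := by rw [hx]; field_simp
      rw [this, hξt]; ring
    have hxy0 : x + y ≠ 0 := by
      intro h; rw [h, Algebra.norm_zero] at hxy; exact hc0 hxy.symm
    set u := z / (x + y) with hu
    have hun : Algebra.norm k u = 1 := by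
      have : u * (x + y) = z := by rw [hu]; field_simp
      have := congrArg (Algebra.norm k) this
      rw [map_mul, hxy] at this
      exact mul_right_cancel₀ hc0 (by rw [this, one_mul])
    refine ⟨u * x, ?_, u * y, ?_, by rw [← mul_add, hu]; field_simp⟩
    · rw [KK, Set.mem_setOf_eq, map_mul, hun, one_mul, hxn]; exact ha
    · rw [KK, Set.mem_setOf_eq, map_mul, hun, one_mul, hy]; exact hb

end
end Crest.Agent.R042.NAlph767
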