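import Mathlib

/-!
Row 42, S0059, alphabet of 341 (#23911 (1)) : kernel checked tables for `q = 27901`, `k = 5`.
-/

set_option autoImplicit false

namespace Crest.Agent.R042.NAlph767

/-- the fifth roots of unity mod 27901 -/
def mu : List ℕ := [1, 8771, 7384, 6843, 4902]

/-- `x^13950 mod 27901` -/
def leg (x : ℕ) : ℕ :=
  Nat.mod (Nat.pow (Nat.mod (Nat.pow (Nat.mod (Nat.pow (Nat.mod (Nat.mul x x) 27901) 9) 27901) 25)
    27901) 31) 27901

/-- `D(a,b,c) mod 27901` for `a, b ≤ 27901` -/
def Dn (a b c : ℕ) : ℕ :=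
  Nat.mod (Nat.add (Nat.pow (Nat.sub (Nat.sub (Nat.add c 55802) a) b) 2)
    (Nat.mul 4 (Nat.mul (Nat.sub 27901 a) b))) 27901

/-- some pair of fifth roots of unity makes `D` a non-square -/
def okc (c : ℕ) : Bool :=
  mu.any fun a => mu.any fun b => Nat.beq (leg (Dn a b c)) 27900

/-- the check for one residue `c` -/
def ok (c : ℕ) : Bool :=
  bif Nat.beq (Nat.mod (Nat.pow c 5) 27901) 1 then mu.any (fun a => Nat.beq a c) else okc c

/-- all residues `c ∈ [1, 28056)` -/
def all1 : Bool := (List.range 168).all fun i => (List.range 168).all fun j =>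
  (Nat.beq (Nat.add (Nat.mul 168 i) j) 0) || (Nat.ble 27901 (Nat.add (Nat.mul 168 i) j)) ||
    ok (Nat.add (Nat.mul 168 i) j)

/-- `D(a,b,c)` is a non-zero square on `mu` -/
def all2 : Bool := mu.all fun a => mu.all fun b => mu.all fun c =>
  Nat.beq (leg (Dn a b c)) 1

theorem all2_true : all2 = true := by decide +kernel

theorem all1_true : all1 = true := by decide +kernel

end Crest.Agent.R042.NAlph767
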