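import Crest.Agent.R042.NAlph1_767
import Crest.Agent.R042.NAlph2_767

/-!
Row 42, S0059, alphabet of 341 (#23911 (1)): `q = 27901`, `K = {x ∈ F_{q^2} | N(x)^5 = 1}` is
sum-free and complete (`K + K = F \ K`).
-/

set_option autoImplicit false

namespace Crest.Agent.R042.NAlph767

/-- the prime -/
abbrev q : ℕ := 27901

instance fact_q : Fact (Nat.Prime q) := ⟨by norm_num⟩

lemma leg_eq (x : ℕ) : leg x = x ^ 13950 % 27901 := by
  show ((((x * x) % 27901) ^ 9 % 27901) ^ 25 % 27901) ^ 31 % 27901 = _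
  have h : ∀ a k : ℕ, (a % 27901) ^ k % 27901 = a ^ k % 27901 := fun a k =>
    (Nat.pow_mod a k 27901).symm
  rw [h, ← pow_mul, h, ← pow_mul, h, ← pow_two, ← pow_mul]

lemma leg_cast (x : ℕ) : ((leg x : ℕ) : ZMod q) = (x : ZMod q) ^ (q / 2) := by
  rw [leg_eq, ZMod.natCast_mod]; push_cast; rfl

lemma Dn_cast (a b c : ℕ) (ha : a ≤ q) (hb : b ≤ q) :
    ((Dn a b c : ℕ) : ZMod q) = D (a : ZMod q) b c := by
  have hq : ((27901 : ℕ) : ZMod q) = 0 := ZMod.natCast_self q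
  have e : Dn a b c = ((c + 55802 - a - b) ^ 2 + 4 * ((27901 - a) * b)) % 27901 := rfl
  rw [e, ZMod.natCast_mod]
  have hq' : q = 27901 := rfl
  rw [hq'] at ha hb
  have e1 : ((c + 55802 - a - b : ℕ) : ZMod q) = (c : ZMod q) - a - b := by
    have : (c + 55802 - a - b) + (a + b) = c + 2 * 27901 := by omega
    have h := congrArg (Nat.cast : ℕ → ZMod q) this
    push_cast at h
    push_cast at hq
    linear_combination h + 2 * hq
  have e2 : ((27901 - a : ℕ) : ZMod q) = - (a : ZMod q) := by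
    have : (27901 - a) + a = 27901 := by omega
    have h := congrArg (Nat.cast : ℕ → ZMod q) this
    rw [hq] at h
    push_cast at h
    linear_combination h
  rw [Nat.cast_add, Nat.cast_pow, e1, Nat.cast_mul, Nat.cast_mul, e2]
  simp only [D]
  push_cast
  ring

lemma leg_one {x : ℕ} (h : leg x = 1) : ∃ e : ZMod q, e ≠ 0 ∧ (x : ZMod q) = e ^ 2 := by
  have h1 : (x : ZMod q) ^ (q / 2) = 1 := by rw [← leg_cast, h, Nat.cast_one]
  have h0 : (x : ZMod q) ≠ 0 := by
    intro h; rw [h, zero_pow (by norm_num)] at h1; exact zero_ne_one h1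
  obtain ⟨e, he⟩ := (ZMod.euler_criterion q h0).mpr h1
  refine ⟨e, ?_, by rw [he, pow_two]⟩
  rintro rfl
  exact h0 (by rw [he, mul_zero])

lemma leg_neg {x : ℕ} (h : leg x = 27900) (e : ZMod q) (he : e ≠ 0) : (x : ZMod q) ≠ e ^ 2 := by
  intro hx
  have h1 : (x : ZMod q) ^ (q / 2) = -1 := by
    rw [← leg_cast, h]
    have hq : ((27901 : ℕ) : ZMod q) = 0 := ZMod.natCast_self q
    have : ((27900 : ℕ) : ZMod q) + 1 = ((27901 : ℕ) : ZMod q) := by push_cast; norm_num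
    rw [hq] at this
    exact eq_neg_of_add_eq_zero_left this
  rw [hx, ← pow_mul] at h1
  have h2 : e ^ (q - 1) = 1 := ZMod.pow_card_sub_one_eq_one he
  have h3 : 2 * (q / 2) = q - 1 := by norm_num
  rw [h3, h2] at h1
  have h4 : ((2 : ℕ) : ZMod q) = 0 := by
    push_cast
    linear_combination h1
  rw [ZMod.natCast_eq_zero_iff] at h4
  norm_num at h4

/-- the fifth roots of unity of `ZMod q` -/
def muZ : Set (ZMod q) := {x | x ^ 5 = 1}

lemma ok_of (c : ℕ) (h0 : c ≠ 0) (h1 : c < q) : ok c = true := by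
  have hq : q = 27901 := rfl
  rw [hq] at h1
  have h := all1_true
  rw [all1, List.all_eq_true] at h
  have hi : c / 168 < 168 := by omega
  have hj : c % 168 < 168 := Nat.mod_lt _ (by norm_num)
  have h2 := h (c / 168) (List.mem_range.mpr hi)
  rw [List.all_eq_true] at h2
  have h3 := h2 (c % 168) (List.mem_range.mpr hj)
  have hc : Nat.add (Nat.mul 168 (c / 168)) (c % 168) = c := Nat.div_add_mod c 168
  rw [hc, Bool.or_eq_true, Bool.or_eq_true] at h3
  rcases h3 with (h3 | h3) | h3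
  · exact absurd (Nat.eq_of_beq_eq_true h3) h0
  · have := Nat.le_of_ble_eq_true h3
    exact absurd this (not_le.mpr h1)
  · exact h3

lemma mem_mu {x : ZMod q} (hx : x ∈ muZ) : x.val ∈ mu := by
  have hx1 : x ^ 5 = 1 := hx
  have h0 : x.val ≠ 0 := by
    intro h
    rw [ZMod.val_eq_zero] at h
    rw [h] at hx1
    norm_num at hx1
  have hlt : x.val < q := ZMod.val_lt x
  have h := ok_of x.val h0 hlt
  have h5 : x.val ^ 5 % 27901 = 1 := by
    have e : ((x.val ^ 5 : ℕ) : ZMod q) = ((1 : ℕ) : ZMod q) := by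
      push_cast
      rw [ZMod.natCast_zmod_val, hx1]
    rw [ZMod.natCast_eq_natCast_iff'] at e
    exact e
  have hb : Nat.beq (Nat.mod (Nat.pow x.val 5) 27901) 1 = true := by
    rw [Nat.beq_eq]; exact h5
  rw [ok, hb, cond_true, List.any_eq_true] at h
  obtain ⟨a, ha, h⟩ := h
  rw [Nat.eq_of_beq_eq_true h] at ha
  exact ha

lemma mu_mem : ∀ a ∈ mu, a ≤ q ∧ ((a : ZMod q)) ^ 5 = 1 := by
  intro a ha
  have h : ∀ a ∈ mu, a ≤ 27901 ∧ a ^ 5 % 27901 = 1 := by decide +kernel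
  obtain ⟨h1, h2⟩ := h a ha
  refine ⟨h1, ?_⟩
  have : ((a ^ 5 : ℕ) : ZMod q) = ((1 : ℕ) : ZMod q) := by
    rw [ZMod.natCast_eq_natCast_iff']; exact h2
  push_cast at this
  exact this

lemma all2_of {a b c : ℕ} (ha : a ∈ mu) (hb : b ∈ mu) (hc : c ∈ mu) : leg (Dn a b c) = 1 := by
  have h := all2_true
  rw [all2, List.all_eq_true] at h
  have h1 := h a ha
  rw [List.all_eq_true] at h1
  have h2 := h1 b hb
  rw [List.all_eq_true] at h2
  exact Nat.eq_of_beq_eq_true (h2 c hc)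

lemma sq_mu (a : ZMod q) (ha : a ∈ muZ) (b : ZMod q) (hb : b ∈ muZ) (c : ZMod q) (hc : c ∈ muZ) :
    ∃ e : ZMod q, e ≠ 0 ∧ D a b c = e ^ 2 := by
  have h := leg_one (all2_of (mem_mu ha) (mem_mu hb) (mem_mu hc))
  rw [Dn_cast _ _ _ (ZMod.val_lt a).le (ZMod.val_lt b).le, ZMod.natCast_zmod_val,
    ZMod.natCast_zmod_val, ZMod.natCast_zmod_val] at h
  exact h

lemma nsq_mu (c : ZMod q) (h0 : c ≠ 0) (hc : c ∉ muZ) :
    ∃ a ∈ muZ, ∃ b ∈ muZ, ∀ e : ZMod q, e ≠ 0 → D a b c ≠ e ^ 2 := by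
  have hlt : c.val < q := ZMod.val_lt c
  have h := ok_of c.val (by rwa [Ne, ZMod.val_eq_zero]) hlt
  have hb : Nat.beq (Nat.mod (Nat.pow c.val 5) 27901) 1 = false := by
    by_contra hcon
    rw [Bool.not_eq_false, Nat.beq_eq] at hcon
    apply hc
    show c ^ 5 = 1
    have : ((c.val ^ 5 : ℕ) : ZMod q) = ((1 : ℕ) : ZMod q) := by
      rw [ZMod.natCast_eq_natCast_iff']; exact hcon
    push_cast at this
    rw [ZMod.natCast_zmod_val] at this
    exact this
  rw [ok, hb, cond_false, okc, List.any_eq_true] at h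
  obtain ⟨a, ha, h⟩ := h
  rw [List.any_eq_true] at h
  obtain ⟨b, hb', h⟩ := h
  have h' := Nat.eq_of_beq_eq_true h
  refine ⟨a, (mu_mem a ha).2, b, (mu_mem b hb').2, ?_⟩
  intro e he
  have := leg_neg h' e he
  rw [Dn_cast _ _ _ (mu_mem a ha).1 (mu_mem b hb').1, ZMod.natCast_zmod_val] at this
  exact this

section final
variable (F : Type*) [Field F] [Finite F] [Algebra (ZMod q) F]

/-- the alphabet `K` -/
def K : Set F := {x | (Algebra.norm (ZMod q) x) ^ 5 = 1}

variable {F}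

lemma K_eq : K F = KK (ZMod q) (F := F) muZ := rfl

lemma two_ne : (2 : ZMod q) ≠ 0 := by
  intro h
  have h4 : ((2 : ℕ) : ZMod q) = 0 := by exact_mod_cast h
  rw [ZMod.natCast_eq_zero_iff] at h4
  norm_num at h4

/-- **`K` is sum-free** -/
theorem K_sumfree (hd : Module.finrank (ZMod q) F = 2) {x y : F} (hx : x ∈ K F) (hy : y ∈ K F) :
    x + y ∉ K F :=
  sumfree_of hd two_ne muZ sq_mu hx hy

/-- **`K` is complete** -/
theorem K_complete (hd : Module.finrank (ZMod q) F = 2) (z : F) (hz : z ∉ K F) :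
    ∃ x ∈ K F, ∃ y ∈ K F, x + y = z := by
  refine complete_of hd two_ne muZ ?_ ⟨1, one_pow 5⟩ nsq_mu z hz
  show ¬ ((0 : ZMod q) ^ 5 = 1)
  norm_num

lemma K_one : (1 : F) ∈ K F := by
  show (Algebra.norm (ZMod q) (1 : F)) ^ 5 = 1
  rw [map_one, one_pow]

lemma K_mul {x y : F} (hx : x ∈ K F) (hy : y ∈ K F) : x * y ∈ K F := by
  show (Algebra.norm (ZMod q) (x * y)) ^ 5 = 1
  rw [map_mul, mul_pow, show (Algebra.norm (ZMod q) x) ^ 5 = 1 from hx,
    show (Algebra.norm (ZMod q) y) ^ 5 = 1 from hy, mul_one]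

lemma K_ne_zero {x : F} (hx : x ∈ K F) : x ≠ 0 := by
  rintro rfl
  have : (Algebra.norm (ZMod q) (0 : F)) ^ 5 = 1 := hx
  rw [Algebra.norm_zero] at this
  norm_num at this

lemma K_inv {x : F} (hx : x ∈ K F) : x⁻¹ ∈ K F := by
  show (Algebra.norm (ZMod q) (x⁻¹)) ^ 5 = 1
  have h : Algebra.norm (ZMod q) (x⁻¹) * Algebra.norm (ZMod q) x = 1 := by
    rw [← map_mul, inv_mul_cancel₀ (K_ne_zero hx), map_one]
  have h2 := congrArg (· ^ 5) h
  simp only [mul_pow, one_pow] at h2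
  rwa [show (Algebra.norm (ZMod q) x) ^ 5 = 1 from hx, mul_one] at h2

lemma K_pow {x : F} (hx : x ∈ K F) (n : ℕ) : x ^ n ∈ K F := by
  show (Algebra.norm (ZMod q) (x ^ n)) ^ 5 = 1
  rw [map_pow, ← pow_mul, mul_comm, pow_mul, show (Algebra.norm (ZMod q) x) ^ 5 = 1 from hx,
    one_pow]

lemma K_neg_one (hd : Module.finrank (ZMod q) F = 2) : (-1 : F) ∈ K F := by
  have : Algebra.norm (ZMod q) (-1 : F) = 1 := by
    apply algMap_inj (k := ZMod q) (F := F)
    rw [norm_eq hd, map_neg, map_one, map_one]; ring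
  show (Algebra.norm (ZMod q) (-1 : F)) ^ 5 = 1
  rw [this, one_pow]

lemma K_neg (hd : Module.finrank (ZMod q) F = 2) {x : F} (hx : x ∈ K F) : -x ∈ K F := by
  rw [← neg_one_mul]; exact K_mul (K_neg_one hd) hx

end final

/-- a concrete model -/
instance : Finite (GaloisField q 2) := inferInstance

theorem gf_finrank : Module.finrank (ZMod q) (GaloisField q 2) = 2 :=
  GaloisField.finrank q (by norm_num)

end Crest.Agent.R042.NAlph767
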