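import Crest.Agent.R042.Fam_543
import Crest.Agent.R042.PBDefs_341

/-!
# Plan B: letters of the family (`kp = 2`, `card KK = Q ^ 2`)
-/

set_option autoImplicit false
set_option linter.unusedSectionVars false

namespace Crest.Agent.R042.PB

open Finset Crest.Agent.R042.RowWin543 Crest.Agent.R042.Fam543

variable {k0 KK : Type} [Field k0] [Field KK] [Algebra k0 KK]

/-- the part of `P'` perpendicular to `P` (characteristic 2, `B b_P b_P = 1`) -/
def av {d L : ℕ} (P P' : Ty k0 KK d L) : Ix d → KK := P'.b + (B P.b P'.b) • P.b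

/-- the special space of `s = (P, P')` at the end `P` -/
def Sp2 (Q : ℕ) {d L : ℕ} (P P' : Ty k0 KK d L) : Submodule k0 (U KK d 2 L) where
  carrier := {x | ∀ l, ∃ c : KK, x l = c • Phi Q (av P P')}
  add_mem' := by
    intro x y hx hy l
    obtain ⟨c, hc⟩ := hx l
    obtain ⟨c', hc'⟩ := hy l
    exact ⟨c + c', by rw [Pi.add_apply, hc, hc', add_smul]⟩
  zero_mem' := fun l => ⟨0, by rw [Pi.zero_apply, zero_smul]⟩
  smul_mem' := by
    intro c x hx l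
    obtain ⟨c', hc'⟩ := hx l
    refine ⟨algebraMap k0 KK c * c', ?_⟩
    rw [Pi.smul_apply, hc', mul_smul, algebraMap_smul]

theorem mem_Sp2 {Q d L : ℕ} {P P' : Ty k0 KK d L} {x : U KK d 2 L} :
    x ∈ Sp2 Q P P' ↔ ∀ l, ∃ c : KK, x l = c • Phi Q (av P P') := Iff.rfl

/-- the blocks of the family -/
def fblk (Q : ℕ) {d L : ℕ} {κ : Type} (P P' : Ty k0 KK d L) (R R' : κ → Ty k0 KK d L) :
    Blk k0 (U KK d 2 L) κ where
  u := fun e => uvec Q 2 (R e)
  u' := fun e => uvec Q 2 (R' e)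
  D := fun e => UPQ Q 2 P (R e)
  D' := fun e => UPQ Q 2 P (R' e)
  Sp := Sp2 Q P P'

/-- the one-end sets -/
def deadX (Q : ℕ) {d L : ℕ} (P : Ty k0 KK d L) (Y : U KK d 2 L) (R : Ty k0 KK d L) : Prop :=
  ∃ a : k0, Y + a • uvec Q 2 R ∈ UPQ Q 2 P R

/-- the two-end sets -/
def deadX2 (Q : ℕ) {d L : ℕ} (P : Ty k0 KK d L) (Y : U KK d 2 L) (R R' : Ty k0 KK d L) : Prop :=
  ∃ a c : k0, c ≠ 0 ∧ ¬ Perp R R' ∧ Y + a • uvec Q 2 R + c • uvec Q 2 R' ∈ UPQ Q 2 P R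

/-- the blocks killed by `Y` -/
def kill (Q : ℕ) {d L : ℕ} (P : Ty k0 KK d L) (Y : U KK d 2 L) (R R' : Ty k0 KK d L) : Prop :=
  deadX Q P Y R ∨ deadX Q P Y R' ∨ deadX2 Q P Y R R' ∨ deadX2 Q P Y R' R

/-- if the displaced point lies in the window of `R` then `Y` kills the block -/
theorem kill_of_mem [CharP KK 2] (e : ℕ) {d L : ℕ} {P R R' : Ty k0 KK d L} {Y : U KK d 2 L}
    (hP' : Perp P R') {a c : k0}
    (h : Y + a • uvec (2 ^ e) 2 R + c • uvec (2 ^ e) 2 R' ∈ UPQ (2 ^ e) 2 P R) :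
    kill (2 ^ e) P Y R R' := by
  by_cases hc : c = 0
  · left
    refine ⟨a, ?_⟩
    rw [hc, zero_smul, add_zero] at h
    exact h
  by_cases hR : Perp R R'
  · left
    refine ⟨a, ?_⟩
    have h1 : uvec (2 ^ e) 2 R' ∈ UPQ (2 ^ e) 2 P R := uvec_mem_UPQ e hP' hR
    have h2 := Submodule.sub_mem _ h (Submodule.smul_mem _ c h1)
    rwa [add_sub_cancel_right] at h2
  · right; right; left
    exact ⟨a, c, hc, hR, h⟩

theorem kill_of_mem' [CharP KK 2] (e : ℕ) {d L : ℕ} {P R R' : Ty k0 KK d L} {Y : U KK d 2 L}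
    (hP : Perp P R) {a c : k0}
    (h : Y + a • uvec (2 ^ e) 2 R + c • uvec (2 ^ e) 2 R' ∈ UPQ (2 ^ e) 2 P R') :
    kill (2 ^ e) P Y R R' := by
  have h' : Y + c • uvec (2 ^ e) 2 R' + a • uvec (2 ^ e) 2 R ∈ UPQ (2 ^ e) 2 P R' := by
    rw [add_right_comm]; exact h
  rcases kill_of_mem e hP h' with h1 | h1 | h1 | h1
  · exact Or.inr (Or.inl h1)
  · exact Or.inl h1
  · exact Or.inr (Or.inr (Or.inr h1))
  · exact Or.inr (Or.inr (Or.inl h1))

end Crest.Agent.R042.PB
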