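import Crest.Agent.R042.Inst_592
import Crest.Agent.R042.PBFam_341

/-!
# Plan B: the two-end sets (C2): for given `Y`, `R` few `R'` satisfy `deadX2`
-/

set_option autoImplicit false
set_option linter.unusedSectionVars false

namespace Crest.Agent.R042.PBDead96

open Finset Crest.Agent.R042.RowWin543 Crest.Agent.R042.Fam543 Crest.Agent.R042.Inst592
open Crest.Agent.R042.PB
open scoped Classical

variable {k0 KK : Type} [Field k0] [Field KK] [Algebra k0 KK] [CharP KK 2]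

/-- the slot 0 equation of a point of the window -/
theorem slot_eq (e : ℕ) {d L : ℕ} {P R R' : Ty k0 KK d L} {Y : U KK d 2 L} {a c : k0}
    (h : Y + a • uvec (2 ^ e) 2 R + c • uvec (2 ^ e) 2 R' ∈ UPQ (2 ^ e) 2 P R) (l : Fin L)
    (j : Ix d) :
    contr (2 ^ e) R.b (0 : Fin 2) ((Y + a • uvec (2 ^ e) 2 R) l) (fun _ => j) +
      (algebraMap k0 KK c * (algebraMap k0 KK (R'.E l) * R'.lam) * B R.b R'.b) *
        (R'.b j) ^ (2 ^ e) = 0 := by
  have h1 := congrFun (mem_T1.1 ((Submodule.mem_inf.1 h).2 l) 0) (fun _ => j)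
  rw [Pi.zero_apply] at h1
  rw [← h1]
  have h2 : (Y + a • uvec (2 ^ e) 2 R + c • uvec (2 ^ e) 2 R') l =
      (Y + a • uvec (2 ^ e) 2 R) l +
        (algebraMap k0 KK c * (algebraMap k0 KK (R'.E l) * R'.lam)) • Phi (2 ^ e) R'.b := by
    rw [Pi.add_apply (Y + a • uvec (2 ^ e) 2 R)]
    congr 1
    show c • ((algebraMap k0 KK (R'.E l) * R'.lam) • Phi (2 ^ e) R'.b) = _
    rw [mul_smul (algebraMap k0 KK c), algebraMap_smul]
  rw [h2, map_add, Pi.add_apply]
  congr 1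
  rw [map_smul, Pi.smul_apply, contr_Phi]
  have h3 : (univ.erase (0 : Fin 2)) = {1} := by decide
  rw [h3, prod_singleton]
  simp only [smul_eq_mul, Fin.val_zero, pow_zero, pow_one, Fin.val_one]
  ring

/-- the unknown is determined by `Y`, `R` and the scalar `a` -/
theorem vv_eq (e : ℕ) {K : Set k0} (hK : Alph K) {d L : ℕ} (hL : 0 < L) {P R : Ty k0 KK d L}
    {R' R'' : Om KK K d L} {Y : U KK d 2 L} {a c' c'' : k0} (hc' : c' ≠ 0) (hR' : ¬ Perp R R'.1)
    (h' : Y + a • uvec (2 ^ e) 2 R + c' • uvec (2 ^ e) 2 R'.1 ∈ UPQ (2 ^ e) 2 P R)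
    (h'' : Y + a • uvec (2 ^ e) 2 R + c'' • uvec (2 ^ e) 2 R''.1 ∈ UPQ (2 ^ e) 2 P R) :
    vv R' = vv R'' := by
  set l : Fin L := ⟨0, hL⟩
  have e' := fun j => slot_eq e h' l j
  have e'' := fun j => slot_eq e h'' l j
  set k' : KK := algebraMap k0 KK c' * (algebraMap k0 KK (R'.1.E l) * R'.1.lam) * B R.b R'.1.b
  set k'' : KK := algebraMap k0 KK c'' * (algebraMap k0 KK (R''.1.E l) * R''.1.lam) *
    B R.b R''.1.b
  have hk : k' = k'' := by
    have h1 := e' none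
    have h2 := e'' none
    rw [R'.2.b0, one_pow, mul_one] at h1
    rw [R''.2.b0, one_pow, mul_one] at h2
    exact add_left_cancel (h1.trans h2.symm)
  have hlam : R'.1.lam ≠ 0 := by
    intro h0
    have h1 := R'.2.lam
    rw [h0, map_zero] at h1
    exact zero_ne_one h1
  have hE : algebraMap k0 KK (R'.1.E l) ≠ 0 := by
    intro h0
    exact hK.ne_zero (R'.2.E l) ((map_eq_zero _).1 h0)
  have hk0 : k' ≠ 0 :=
    mul_ne_zero (mul_ne_zero (fun h0 => hc' ((map_eq_zero _).1 h0)) (mul_ne_zero hE hlam)) hR'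
  funext j
  have h1 := e' (some j)
  have h2 := e'' (some j)
  rw [← hk] at h2
  have h3 : k' * (R'.1.b (some j)) ^ (2 ^ e) = k' * (R''.1.b (some j)) ^ (2 ^ e) :=
    add_left_cancel (h1.trans h2.symm)
  have h4 := mul_left_cancel₀ hk0 h3
  show R'.1.b (some j) = R''.1.b (some j)
  exact iterateFrobenius_inj KK 2 e (by
    rw [iterateFrobenius_def, iterateFrobenius_def]; exact h4)

variable [Fintype k0] [Fintype KK]

/-- the size of the sample space -/
theorem card_Om (K : Set k0) (d L : ℕ) :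
    Fintype.card (Om KK K d L) = Fintype.card KK ^ (2 * d) * Fintype.card (Zz KK K L) := by
  rw [Fintype.card_congr (omEquiv K d L), Fintype.card_prod, card_WW]

/-- **(C2)** few `R'` -/
theorem card_deadX2 (e : ℕ) {K : Set k0} (hK : Alph K) {d L : ℕ} (hL : 0 < L)
    (P R : Ty k0 KK d L) (Y : U KK d 2 L) (S : Finset (Om KK K d L))
    (hS : ∀ R' ∈ S, deadX2 (2 ^ e) P Y R R'.1) :
    Fintype.card KK ^ (2 * d) * S.card ≤ Fintype.card k0 * Fintype.card (Om KK K d L) := by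
  have h1 : S ⊆ univ.biUnion fun a : k0 => S.filter fun R' =>
      ∃ c : k0, c ≠ 0 ∧ ¬ Perp R R'.1 ∧
        Y + a • uvec (2 ^ e) 2 R + c • uvec (2 ^ e) 2 R'.1 ∈ UPQ (2 ^ e) 2 P R := by
    intro R' hR'
    obtain ⟨a, c, h⟩ := hS R' hR'
    exact mem_biUnion.2 ⟨a, mem_univ _, mem_filter.2 ⟨hR', c, h⟩⟩
  have h2 : ∀ a : k0, (S.filter fun R' =>
      ∃ c : k0, c ≠ 0 ∧ ¬ Perp R R'.1 ∧
        Y + a • uvec (2 ^ e) 2 R + c • uvec (2 ^ e) 2 R'.1 ∈ UPQ (2 ^ e) 2 P R).card ≤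
          Fintype.card (Zz KK K L) := by
    intro a
    rcases (S.filter fun R' =>
      ∃ c : k0, c ≠ 0 ∧ ¬ Perp R R'.1 ∧
        Y + a • uvec (2 ^ e) 2 R + c • uvec (2 ^ e) 2 R'.1 ∈
          UPQ (2 ^ e) 2 P R).eq_empty_or_nonempty with h0 | ⟨R0, hR0⟩
    · rw [h0, card_empty]; exact Nat.zero_le _
    · obtain ⟨-, c0, hc0, hp0, hm0⟩ := mem_filter.1 hR0
      refine (card_le_card (t := univ.filter fun R' => vv R' = vv R0) ?_).trans
        (le_of_eq ?_)
      · intro R' hR'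
        obtain ⟨-, c, hc, hp, hm⟩ := mem_filter.1 hR'
        exact mem_filter.2 ⟨mem_univ _, vv_eq e hK hL hc hp hm hm0⟩
      · convert fib (KK := KK) K d L (vv R0)
  have h3 : S.card ≤ Fintype.card k0 * Fintype.card (Zz KK K L) :=
    (card_le_card h1).trans (card_biUnion_le.trans ((sum_le_sum fun a _ => h2 a).trans
      (le_of_eq (by rw [sum_const, card_univ, smul_eq_mul]))))
  rw [card_Om]
  calc Fintype.card KK ^ (2 * d) * S.card
      ≤ Fintype.card KK ^ (2 * d) * (Fintype.card k0 * Fintype.card (Zz KK K L)) :=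
        Nat.mul_le_mul_left _ h3
    _ = _ := by ring

/-- (C2) in the form of a density -/
theorem card_deadX2_real (e : ℕ) {K : Set k0} (hK : Alph K) {d L : ℕ} (hL : 0 < L)
    (P R : Ty k0 KK d L) (Y : U KK d 2 L) (S : Finset (Om KK K d L))
    (hS : ∀ R' ∈ S, deadX2 (2 ^ e) P Y R R'.1) :
    ((S.card : ℕ) : ℝ) ≤
      (Fintype.card k0 : ℝ) / (Fintype.card KK : ℝ) ^ (2 * d) * Fintype.card (Om KK K d L) := by
  have h := card_deadX2 e hK hL P R Y S hS
  have hpos : (0 : ℝ) < (Fintype.card KK : ℝ) ^ (2 * d) :=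
    pow_pos (Nat.cast_pos.2 Fintype.card_pos) _
  have h' : (Fintype.card KK : ℝ) ^ (2 * d) * (S.card : ℝ) ≤
      (Fintype.card k0 : ℝ) * (Fintype.card (Om KK K d L) : ℝ) := by
    exact_mod_cast h
  rw [div_mul_eq_mul_div, le_div_iff₀ hpos, mul_comm]
  exact h'

/-- (C2) as a filter, any decidability instance -/
theorem card_deadX2_filter (e : ℕ) {K : Set k0} (hK : Alph K) {d L : ℕ} (hL : 0 < L)
    (P R : Ty k0 KK d L) (Y : U KK d 2 L)
    [DecidablePred fun R' : Om KK K d L => deadX2 (2 ^ e) P Y R R'.1] :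
    (((univ.filter fun R' : Om KK K d L => deadX2 (2 ^ e) P Y R R'.1).card : ℕ) : ℝ) ≤
      (Fintype.card k0 : ℝ) / (Fintype.card KK : ℝ) ^ (2 * d) * Fintype.card (Om KK K d L) :=
  card_deadX2_real e hK hL P R Y _ fun _ h => (mem_filter.1 h).2

end Crest.Agent.R042.PBDead96
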