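import Crest.Agent.R042.PBFam_341
import Crest.Agent.R042.SpecFam_730
import Crest.Agent.R042.Inst_592

/-!
# Plan B, family side: the deterministic half of `PB.Hyp` for the frozen family

`kp = 2`, `Q = 2 ^ e` arbitrary.  From "the `b`'s of any six different types are independent":
(sp), (ind), (aniso), (aniso'), (h1).
-/

set_option autoImplicit false
set_option linter.unusedSectionVars false

namespace Crest.Agent.R042.PBFac989

open Finset Crest.Agent.R042.Fam543 Crest.Agent.R042.SpecFam730 Crest.Agent.R042.PB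

variable {k0 KK : Type} [Field k0] [Field KK] [Algebra k0 KK]

/-! ### functionals -/

theorem exists_fun {V ι : Type*} [AddCommGroup V] [Module KK V] (b : ι → V) (J : Finset ι)
    (h : LinearIndependent KK (fun i : J => b i)) (i : ι) (hi : i ∈ J) :
    ∃ f : V →ₗ[KK] KK, f (b i) = 1 ∧ ∀ j ∈ J, j ≠ i → f (b j) = 0 := by
  classical
  obtain ⟨g, hg⟩ := LinearMap.exists_extend (p := Submodule.span KK (Set.range fun i : J => b i))
    ((Finsupp.lapply (⟨i, hi⟩ : J) : (J →₀ KK) →ₗ[KK] KK).comp h.repr)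
  have key : ∀ j : J, g (b j) = if j = (⟨i, hi⟩ : J) then 1 else 0 := by
    intro j
    have hk : b j ∈ Submodule.span KK (Set.range fun i : J => b i) :=
      Submodule.subset_span ⟨j, rfl⟩
    have h5 : g (b j) = ((Finsupp.lapply (⟨i, hi⟩ : J) : (J →₀ KK) →ₗ[KK] KK).comp h.repr)
        ⟨b j, hk⟩ := by
      rw [← hg]; rfl
    rw [h5, LinearMap.comp_apply, h.repr_eq_single j ⟨b j, hk⟩ rfl]
    simp [Finsupp.single_apply]
  refine ⟨g, ?_, ?_⟩
  · rw [key ⟨i, hi⟩, if_pos rfl]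
  · intro j hj hji
    rw [key ⟨j, hj⟩, if_neg]
    intro h
    exact hji (congrArg Subtype.val h)

variable {d L : ℕ}

theorem Phi_two (Q : ℕ) (b : Ix d → KK) (al : Fin 2 → Ix d) :
    (Phi Q b : U0 KK d 2) al = b (al 0) * b (al 1) ^ Q := by
  simp [Phi, Fin.prod_univ_two]

/-- `f` in slot `0`, the coordinate `none` in slot `1` -/
def rd (k0 : Type) {KK : Type} [Field k0] [Field KK] [Algebra k0 KK] {d L : ℕ}
    (f : (Ix d → KK) →ₗ[KK] KK) (l : Fin L) : U KK d 2 L →ₗ[k0] KK where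
  toFun x := f (fun i => x l ![i, none])
  map_add' := by
    intro x y
    rw [← map_add]; rfl
  map_smul' := by
    intro c x
    have h1 : (fun i => (c • x) l ![i, none]) = (algebraMap k0 KK c) • (fun i => x l ![i, none]) := by
      funext i
      simp [Pi.smul_apply, Algebra.smul_def]
    rw [h1, map_smul, RingHom.id_apply, smul_eq_mul, ← Algebra.smul_def]

theorem rd_apply (f : (Ix d → KK) →ₗ[KK] KK) (l : Fin L) (x : U KK d 2 L) :
    rd k0 f l x = f (fun i => x l ![i, none]) := rfl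

theorem rd_uvec (Q : ℕ) (f : (Ix d → KK) →ₗ[KK] KK) (l : Fin L) (R : Ty k0 KK d L)
    (hR : R.b none = 1) :
    rd k0 f l (uvec Q 2 R) = (algebraMap k0 KK (R.E l) * R.lam) * f R.b := by
  rw [rd_apply]
  have h1 : (fun i => uvec Q 2 R l ![i, none]) = (algebraMap k0 KK (R.E l) * R.lam) • R.b := by
    funext i
    simp only [uvec, Pi.smul_apply, smul_eq_mul]
    rw [Phi_two]
    simp [hR]
  rw [h1, map_smul, smul_eq_mul]

theorem rd_Sp2 (Q : ℕ) (f : (Ix d → KK) →ₗ[KK] KK) (l : Fin L) {P P' : Ty k0 KK d L}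
    (ha : f (av P P') = 0) {x : U KK d 2 L} (hx : x ∈ Sp2 Q P P') : rd k0 f l x = 0 := by
  obtain ⟨c, hc⟩ := hx l
  rw [rd_apply]
  have h1 : (fun i => x l ![i, none]) = (c * (av P P' none) ^ Q) • av P P' := by
    funext i
    rw [hc]
    simp only [Pi.smul_apply, smul_eq_mul]
    rw [Phi_two]
    simp
    ring
  rw [h1, map_smul, ha, smul_zero]

theorem smul_uvec (Q : ℕ) (a : k0) (R : Ty k0 KK d L) (l : Fin L) :
    (a • uvec Q 2 R) l =
      (algebraMap k0 KK a * (algebraMap k0 KK (R.E l) * R.lam)) • (Phi Q R.b : U0 KK d 2) := by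
  funext al
  rw [Pi.smul_apply, Pi.smul_apply, Algebra.smul_def, mul_smul]
  rfl

theorem scal_ne {K : Set k0} (hK : Alph K) {R : Ty k0 KK d L} (hR : Valid K R) (l : Fin L) :
    algebraMap k0 KK (R.E l) * R.lam ≠ 0 := by
  refine mul_ne_zero ?_ ?_
  · rw [Ne, map_eq_zero]
    exact hK.ne_zero (hR.E l)
  · intro h
    have := hR.lam
    rw [h, map_zero] at this
    exact zero_ne_one this

section core

variable {K : Set k0} (hK : Alph K) {ι : Type} {T : ι → Ty k0 KK d L}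
  (hT : ∀ i, Valid K (T i))
  (hLI : ∀ J : Finset ι, J.card ≤ 6 → LinearIndependent KK (fun i : J => (T i).b))

include hK hT hLI

/-- **coefficients modulo the special space** -/
theorem coef (Q : ℕ) (hL : 0 < L) {p p' i : ι} (hip : i ≠ p) (hip' : i ≠ p') (s : Finset ι)
    (hs : s.card ≤ 3) (his : i ∉ s) {a : k0} {z : U KK d 2 L}
    (hz : z ∈ Submodule.span k0 ((fun j => uvec Q 2 (T j)) '' (s : Set ι)))
    (h : a • uvec Q 2 (T i) + z ∈ Sp2 Q (T p) (T p')) : a = 0 := by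
  classical
  let J : Finset ι := insert i (insert p (insert p' s))
  have hJ : J.card ≤ 6 := by
    refine (card_insert_le _ _).trans ?_
    have h1 := card_insert_le p (insert p' s)
    have h2 := card_insert_le p' s
    omega
  obtain ⟨f, hf1, hf0⟩ := exists_fun (fun i => (T i).b) J (hLI J hJ) i (mem_insert_self _ _)
  have hp : f (T p).b = 0 :=
    hf0 p (mem_insert_of_mem (mem_insert_self _ _)) hip.symm
  have hp' : f (T p').b = 0 :=
    hf0 p' (mem_insert_of_mem (mem_insert_of_mem (mem_insert_self _ _))) hip'.symm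
  have hav : f (av (T p) (T p')) = 0 := by
    rw [av, map_add, map_smul, hp, hp', smul_zero, add_zero]
  have hz0 : rd k0 f ⟨0, hL⟩ z = 0 := by
    refine Submodule.span_induction (p := fun z _ => rd k0 f ⟨0, hL⟩ z = 0) ?_ ?_ ?_ ?_ hz
    · rintro _ ⟨j, hj, rfl⟩
      have hj' : j ∈ s := hj
      show rd k0 f ⟨0, hL⟩ (uvec Q 2 (T j)) = 0
      rw [rd_uvec Q f _ (T j) (hT j).b0, hf0 j (mem_insert_of_mem (mem_insert_of_mem
        (mem_insert_of_mem hj'))) (fun h => his (h ▸ hj')), mul_zero]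
    · exact map_zero _
    · intro x y _ _ hx hy
      rw [map_add, hx, hy, add_zero]
    · intro c x _ hx
      rw [map_smul, hx, smul_zero]
  have h1 := rd_Sp2 Q f ⟨0, hL⟩ hav h
  rw [map_add, map_smul, hz0, add_zero, rd_uvec Q f _ (T i) (hT i).b0, hf1, mul_one,
    Algebra.smul_def, mul_eq_zero] at h1
  rcases h1 with h1 | h1
  · rwa [map_eq_zero] at h1
  · exact absurd h1 (scal_ne hK (hT i) _)

/-- (ind) -/
theorem ind (Q : ℕ) (hL : 0 < L) {p p' r r' : ι} (h1 : r ≠ p) (h2 : r ≠ p') (h3 : r' ≠ p)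
    (h4 : r' ≠ p') (h5 : r ≠ r') (a c : k0)
    (h : a • uvec Q 2 (T r) + c • uvec Q 2 (T r') ∈ Sp2 Q (T p) (T p')) :
    a = 0 ∧ c = 0 := by
  classical
  constructor
  · refine coef hK hT hLI Q hL h1 h2 {r'} (by simp) (by simpa using h5)
      (z := c • uvec Q 2 (T r')) ?_ h
    exact Submodule.smul_mem _ _ (Submodule.subset_span ⟨r', by simp, rfl⟩)
  · rw [add_comm] at h
    refine coef hK hT hLI Q hL h3 h4 {r} (by simp) (by simpa using h5.symm)
      (z := a • uvec Q 2 (T r)) ?_ h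
    exact Submodule.smul_mem _ _ (Submodule.subset_span ⟨r, by simp, rfl⟩)

/-- (h1), the set: all blocks which hit `y` modulo special pass through one type -/
theorem h1_set (Q : ℕ) (hL : 0 < L) {p p' : ι} {κ : Type*} (r r' : κ → ι)
    (h1 : ∀ e, r e ≠ p) (h2 : ∀ e, r e ≠ p') (h3 : ∀ e, r' e ≠ p) (h4 : ∀ e, r' e ≠ p')
    (h5 : ∀ e, r e ≠ r' e) (y : U KK d 2 L) (e₁ : κ)
    (he₁ : ∃ a c : k0, (a ≠ 0 ∨ c ≠ 0) ∧
      a • uvec Q 2 (T (r e₁)) + c • uvec Q 2 (T (r' e₁)) - y ∈ Sp2 Q (T p) (T p')) :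
    ∃ i, i ≠ p ∧ i ≠ p' ∧ ∀ e, (∃ a c : k0, (a ≠ 0 ∨ c ≠ 0) ∧
      a • uvec Q 2 (T (r e)) + c • uvec Q 2 (T (r' e)) - y ∈ Sp2 Q (T p) (T p')) →
      r e = i ∨ r' e = i := by
  classical
  obtain ⟨a, c, hac, hy⟩ := he₁
  have sp : ∀ (s : Finset ι) (j : ι) (x : k0), j ∈ s →
      x • uvec Q 2 (T j) ∈ Submodule.span k0 ((fun j => uvec Q 2 (T j)) '' (s : Set ι)) :=
    fun s j x hj => Submodule.smul_mem _ _ (Submodule.subset_span ⟨j, hj, rfl⟩)
  rcases hac with ha | hc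
  · refine ⟨r e₁, h1 _, h2 _, ?_⟩
    rintro e ⟨a', c', -, hy'⟩
    by_contra hne
    simp only [not_or] at hne
    apply ha
    refine coef hK hT hLI Q hL (h1 e₁) (h2 e₁) {r' e₁, r e, r' e} card_le_three ?_
      (z := c • uvec Q 2 (T (r' e₁)) - (a' • uvec Q 2 (T (r e)) + c' • uvec Q 2 (T (r' e)))) ?_ ?_
    · simp only [mem_insert, mem_singleton, not_or]
      exact ⟨h5 e₁, Ne.symm hne.1, Ne.symm hne.2⟩
    · exact Submodule.sub_mem _ (sp _ _ _ (by simp))
        (Submodule.add_mem _ (sp _ _ _ (by simp)) (sp _ _ _ (by simp)))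
    · have := Submodule.sub_mem _ hy hy'
      convert this using 1
      abel
  · refine ⟨r' e₁, h3 _, h4 _, ?_⟩
    rintro e ⟨a', c', -, hy'⟩
    by_contra hne
    simp only [not_or] at hne
    apply hc
    refine coef hK hT hLI Q hL (h3 e₁) (h4 e₁) {r e₁, r e, r' e} card_le_three ?_
      (z := a • uvec Q 2 (T (r e₁)) - (a' • uvec Q 2 (T (r e)) + c' • uvec Q 2 (T (r' e)))) ?_ ?_
    · simp only [mem_insert, mem_singleton, not_or]
      exact ⟨(h5 e₁).symm, Ne.symm hne.1, Ne.symm hne.2⟩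
    · exact Submodule.sub_mem _ (sp _ _ _ (by simp))
        (Submodule.add_mem _ (sp _ _ _ (by simp)) (sp _ _ _ (by simp)))
    · have := Submodule.sub_mem _ hy hy'
      convert this using 1
      abel

open scoped Classical in
/-- (h1) -/
theorem h1_sum (Q : ℕ) (hL : 0 < L) {p p' : ι} {κ : Type*} [Fintype κ] (r r' : κ → ι)
    (h1 : ∀ e, r e ≠ p) (h2 : ∀ e, r e ≠ p') (h3 : ∀ e, r' e ≠ p) (h4 : ∀ e, r' e ≠ p')
    (h5 : ∀ e, r e ≠ r' e) (τ : κ → ℝ) (hτ : ∀ e, 0 ≤ τ e) (δ : ℝ) (hδ0 : 0 ≤ δ)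
    (hδ : ∀ i, ∑ e with (r e = i ∨ r' e = i), τ e ≤ δ) (y : U KK d 2 L) :
    ∑ e with (∃ a c : k0, (a ≠ 0 ∨ c ≠ 0) ∧
      a • uvec Q 2 (T (r e)) + c • uvec Q 2 (T (r' e)) - y ∈ Sp2 Q (T p) (T p')),
      τ e ≤ δ := by
  by_cases hex : ∃ e₁, ∃ a c : k0, (a ≠ 0 ∨ c ≠ 0) ∧
      a • uvec Q 2 (T (r e₁)) + c • uvec Q 2 (T (r' e₁)) - y ∈ Sp2 Q (T p) (T p')
  · obtain ⟨e₁, he₁⟩ := hex
    obtain ⟨i, -, -, hi⟩ := h1_set hK hT hLI Q hL r r' h1 h2 h3 h4 h5 y e₁ he₁
    refine le_trans (sum_le_sum_of_subset_of_nonneg ?_ fun e _ _ => hτ e) (hδ i)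
    intro e he
    rw [mem_filter] at he ⊢
    exact ⟨he.1, hi e he.2⟩
  · rw [sum_eq_zero]
    · exact hδ0
    · intro e he
      exact absurd ⟨e, (mem_filter.1 he).2⟩ hex

end core

section anis

variable [CharP KK 2]

theorem B_av_self {P P' : Ty k0 KK d L} (hb : P.b none = 1) : B P.b (av P P') = 0 := by
  rw [av, B_comm, B_add_left, B_smul_left, B_self, hb, one_pow, mul_one, B_comm P'.b P.b]
  exact CharTwo.add_self_eq_zero _

theorem B_av {P P' R : Ty k0 KK d L} (h1 : Perp P R) (h2 : Perp P' R) : B R.b (av P P') = 0 := by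
  have h1' : B R.b P.b = 0 := h1.symm
  have h2' : B R.b P'.b = 0 := h2.symm
  rw [av, B_comm, B_add_left, B_smul_left, B_comm P'.b R.b, B_comm P.b R.b, h1', h2', mul_zero,
    add_zero]

/-- (sp) -/
theorem sp_le (e : ℕ) {P P' R : Ty k0 KK d L} (hP : P.b none = 1) (h1 : Perp P R)
    (h2 : Perp P' R) : Sp2 (2 ^ e) P P' ≤ UPQ (2 ^ e) 2 P R := by
  intro x hx
  refine Submodule.mem_inf.2 ⟨?_, ?_⟩
  · intro l
    obtain ⟨c, hc⟩ := hx l
    rw [hc]
    exact Submodule.smul_mem _ _ (Phi_mem_T1 e (B_av_self hP))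
  · intro l
    obtain ⟨c, hc⟩ := hx l
    rw [hc]
    exact Submodule.smul_mem _ _ (Phi_mem_T1 e (B_av h1 h2))

theorem contr0_Phi (e : ℕ) (h b : Ix d → KK) (al : Fin 2 → Ix d) :
    contr (2 ^ e) h (0 : Fin 2) (Phi (2 ^ e) b) al = B h b * b (al 1) ^ (2 ^ e) := by
  rw [contr_Phi]
  have h1 : (univ : Finset (Fin 2)).erase 0 = {1} := by decide
  rw [h1, prod_singleton]
  simp

/-- (aniso) -/
theorem aniso [Finite KK] {K : Set k0} (hK : Alph K) (e : ℕ) (hL : 0 < L)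
    {P P' R R' : Ty k0 KK d L} (hR : Valid K R) (h1 : Perp P R) (h2 : Perp P' R)
    (hind : LinearIndependent KK ![R.b, R'.b]) {s : U KK d 2 L}
    (hs : s ∈ Sp2 (2 ^ e) P P') (a c : k0)
    (h : s + a • uvec (2 ^ e) 2 R + c • uvec (2 ^ e) 2 R' ∈ UP (2 ^ e) 2 R) : a = 0 := by
  let l : Fin L := ⟨0, hL⟩
  obtain ⟨x, hx⟩ := hs l
  have h3 := (mem_T1.1 (h l)) 0
  have key : (algebraMap k0 KK a * (algebraMap k0 KK (R.E l) * R.lam)) • tw (2 ^ e) 2 R.b 1 +
      (algebraMap k0 KK c * (algebraMap k0 KK (R'.E l) * R'.lam) * B R.b R'.b) •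
        tw (2 ^ e) 2 R'.b 1 = 0 := by
    funext j
    have h4 := congrFun h3 ![none, j]
    have h5 : (s + a • uvec (2 ^ e) 2 R + c • uvec (2 ^ e) 2 R') l =
        x • Phi (2 ^ e) (av P P') +
        (algebraMap k0 KK a * (algebraMap k0 KK (R.E l) * R.lam)) • Phi (2 ^ e) R.b +
        (algebraMap k0 KK c * (algebraMap k0 KK (R'.E l) * R'.lam)) • Phi (2 ^ e) R'.b := by
      rw [Pi.add_apply, Pi.add_apply, hx, smul_uvec, smul_uvec]
    rw [h5, map_add, map_add, map_smul, map_smul, map_smul] at h4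
    simp only [Pi.add_apply, Pi.smul_apply, smul_eq_mul, Pi.zero_apply] at h4
    rw [contr0_Phi, contr0_Phi, contr0_Phi, B_av h1 h2, B_self, hR.b0] at h4
    simp only [Matrix.cons_val_one, Matrix.cons_val_fin_one] at h4
    simp only [Pi.add_apply, Pi.smul_apply, smul_eq_mul, Pi.zero_apply, tw]
    simp only [Fin.val_one, pow_one]
    linear_combination h4
  have h6 := (LinearIndependent.pair_iff.1 (tw_indep e R.b R'.b hind (1 : Fin 2))) _ _ key
  have h7 := h6.1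
  rw [mul_eq_zero, map_eq_zero] at h7
  rcases h7 with h7 | h7
  · exact h7
  · exact absurd h7 (scal_ne hK hR l)

open scoped Classical in
/-- **`PB.Hyp` for the family from (h2), (h2')**.  Blocks = pairs of indices `(r e, r' e)` of the
sample, one-type masses at most `δ`. -/
theorem hyp_fblk [Finite KK] {K : Set k0} (hK : Alph K) {ι : Type} {T : ι → Ty k0 KK d L}
    (hT : ∀ i, Valid K (T i))
    (hLI : ∀ J : Finset ι, J.card ≤ 6 → LinearIndependent KK (fun i : J => (T i).b))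
    (e : ℕ) (hL : 0 < L) {p p' : ι} {κ : Type} [Fintype κ] (r r' : κ → ι)
    (h1 : ∀ x, Perp (T p) (T (r x))) (h2 : ∀ x, Perp (T p') (T (r x)))
    (h3 : ∀ x, Perp (T p) (T (r' x))) (h4 : ∀ x, Perp (T p') (T (r' x)))
    (h5 : ∀ x, r x ≠ r' x) (τ : κ → ℝ) (hτ : ∀ x, 0 ≤ τ x) (hs : ∑ x, τ x = 1) (δ : ℝ)
    (hδ : ∀ i, ∑ x with (r x = i ∨ r' x = i), τ x ≤ δ) (hδ0 : 0 ≤ δ)
    (h2m : ∀ Y : U KK d 2 L, Y ∉ Sp2 (2 ^ e) (T p) (T p') → ∀ a c : k0,
      ∑ x with (Y + a • uvec (2 ^ e) 2 (T (r x)) + c • uvec (2 ^ e) 2 (T (r' x)) ∈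
        UPQ (2 ^ e) 2 (T p) (T (r x))), τ x ≤ δ)
    (h2m' : ∀ Y : U KK d 2 L, Y ∉ Sp2 (2 ^ e) (T p) (T p') → ∀ a c : k0,
      ∑ x with (Y + a • uvec (2 ^ e) 2 (T (r x)) + c • uvec (2 ^ e) 2 (T (r' x)) ∈
        UPQ (2 ^ e) 2 (T p) (T (r' x))), τ x ≤ δ) :
    Hyp (fblk (2 ^ e) (T p) (T p') (fun x => T (r x)) (fun x => T (r' x))) τ δ := by
  have ne : ∀ {i j : ι}, Perp (T i) (T j) → j ≠ i := by
    rintro i j h rfl
    exact (hT j).aniso h
  have li : ∀ i j : ι, i ≠ j → LinearIndependent KK ![(T i).b, (T j).b] := by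
    intro i j hij
    have h := hLI {i, j} ((card_le_two).trans (by norm_num))
    have h' := h.comp (![⟨i, by simp⟩, ⟨j, by simp⟩] : Fin 2 → ({i, j} : Finset ι)) (by
      intro a b hab
      fin_cases a <;> fin_cases b <;> simp_all)
    convert h' using 1
    funext a
    fin_cases a <;> rfl
  refine
    { nonneg := hτ
      sum := hs
      sp := fun x => sp_le e (hT p).b0 (h1 x) (h2 x)
      sp' := fun x => sp_le e (hT p).b0 (h3 x) (h4 x)
      ind := fun x a c h => ind hK hT hLI (2 ^ e) hL (ne (h1 x)) (ne (h2 x)) (ne (h3 x))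
        (ne (h4 x)) (h5 x) a c h
      aniso := fun x s hs a c h => aniso hK e hL (hT (r x)) (h1 x) (h2 x) (li _ _ (h5 x)) hs a c
        (Submodule.mem_inf.1 h).2
      aniso' := fun x s hs a c h => aniso hK e hL (hT (r' x)) (h3 x) (h4 x)
        (li _ _ (h5 x).symm) hs c a (by
          have h' := (Submodule.mem_inf.1 h).2
          rw [add_right_comm] at h'
          exact h')
      h1 := ?_
      h2 := h2m
      h2' := h2m' }
  intro y
  have := h1_sum hK hT hLI (2 ^ e) hL (p := p) (p' := p') r r' (fun x => ne (h1 x))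
    (fun x => ne (h2 x)) (fun x => ne (h3 x)) (fun x => ne (h4 x)) h5 τ hτ δ hδ0 hδ y
  refine le_trans (le_of_eq ?_) this
  refine sum_congr ?_ fun _ _ => rfl
  ext x
  simp only [mem_filter, mem_univ, true_and]
  exact Iff.rfl

end anis

end Crest.Agent.R042.PBFac989
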