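import Mathlib

/-!
# PLAN B of S0059, step (5): greedy removal of heavy one-point sets (helper477 #27828, helper341)
-/

namespace Crest.Agent.R042.PBGreedy895

open Finset

open Classical in
/-- what is left of `κ` after removing the sets `X Y`, `Y ∈ l` -/
noncomputable def left {κ Θ : Type*} [Fintype κ] (X : Θ → κ → Prop) (l : List Θ) : Finset κ :=
  univ.filter fun e => ∀ Y ∈ l, ¬ X Y e

open Classical in
theorem mem_left {κ Θ : Type*} [Fintype κ] (X : Θ → κ → Prop) (l : List Θ) (e : κ) :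
    e ∈ left X l ↔ ∀ Y ∈ l, ¬ X Y e := by
  simp [left]

open Classical in
theorem left_nil {κ Θ : Type*} [Fintype κ] (X : Θ → κ → Prop) : left X [] = univ := by
  simp [left]

open Classical in
theorem left_cons {κ Θ : Type*} [Fintype κ] (X : Θ → κ → Prop) (Y : Θ) (l : List Θ) :
    left X (Y :: l) = (left X l).filter fun e => ¬ X Y e := by
  ext e
  simp only [mem_left, mem_filter, List.mem_cons, forall_eq_or_imp]
  tauto

open Classical in
/-- **Greedy**: after at most `J` removals either no set `X Y` carries more than a fraction `p`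
of the current mass, or the current mass is at most `(1-p)^J` times the total mass. -/
theorem greedy {κ Θ : Type*} [Fintype κ] (τ : κ → ℝ)
    (X : Θ → κ → Prop) (p : ℝ) (hp1 : p ≤ 1) (J : ℕ) :
    ∃ l : List Θ, l.length ≤ J ∧
      ((∀ Y, ∑ e ∈ (left X l).filter (fun e => X Y e), τ e ≤ p * ∑ e ∈ left X l, τ e) ∨
        ∑ e ∈ left X l, τ e ≤ (1 - p) ^ J * ∑ e, τ e) := by
  induction J with
  | zero =>
    refine ⟨[], le_rfl, Or.inr ?_⟩
    rw [left_nil]; simp
  | succ J ih =>
    obtain ⟨l, hl, h⟩ := ih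
    rcases h with h | h
    · exact ⟨l, hl.trans (Nat.le_succ _), Or.inl h⟩
    · by_cases hY : ∀ Y, ∑ e ∈ (left X l).filter (fun e => X Y e), τ e
          ≤ p * ∑ e ∈ left X l, τ e
      · exact ⟨l, hl.trans (Nat.le_succ _), Or.inl hY⟩
      · push Not at hY
        obtain ⟨Y, hY⟩ := hY
        refine ⟨Y :: l, by simp; omega, Or.inr ?_⟩
        rw [left_cons]
        have hsplit : ∑ e ∈ (left X l).filter (fun e => X Y e), τ e
            + ∑ e ∈ (left X l).filter (fun e => ¬ X Y e), τ e = ∑ e ∈ left X l, τ e :=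
          Finset.sum_filter_add_sum_filter_not _ _ _
        have h1 : ∑ e ∈ (left X l).filter (fun e => ¬ X Y e), τ e
            ≤ (1 - p) * ∑ e ∈ left X l, τ e := by linarith
        calc ∑ e ∈ (left X l).filter (fun e => ¬ X Y e), τ e
            ≤ (1 - p) * ∑ e ∈ left X l, τ e := h1
          _ ≤ (1 - p) * ((1 - p) ^ J * ∑ e, τ e) :=
              mul_le_mul_of_nonneg_left h (by linarith)
          _ = (1 - p) ^ (J + 1) * ∑ e, τ e := by ring

open Classical in
/-- numerical form: with `J ≥ log(1/θ)/p` the second alternative is `≤ θ` -/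
theorem greedy' {κ Θ : Type*} [Fintype κ] (τ : κ → ℝ) (h0 : ∀ e, 0 ≤ τ e)
    (h1 : ∑ e, τ e ≤ 1)
    (X : Θ → κ → Prop) (p : ℝ) (hp1 : p ≤ 1) (J : ℕ) (θ : ℝ) (hθ : 0 < θ)
    (hJ : Real.log (1 / θ) ≤ p * J) :
    ∃ l : List Θ, l.length ≤ J ∧
      ((∀ Y, ∑ e ∈ (left X l).filter (fun e => X Y e), τ e ≤ p * ∑ e ∈ left X l, τ e) ∨
        ∑ e ∈ left X l, τ e ≤ θ) := by
  obtain ⟨l, hl, h⟩ := greedy τ X p hp1 J
  refine ⟨l, hl, h.imp_right fun h => h.trans ?_⟩
  have hs0 : 0 ≤ ∑ e, τ e := Finset.sum_nonneg fun e _ => h0 e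
  have h2 : (1 - p) ^ J ≤ θ := by
    have h3 : 1 - p ≤ Real.exp (-p) := by
      have := Real.add_one_le_exp (-p); linarith
    calc (1 - p) ^ J ≤ Real.exp (-p) ^ J := pow_le_pow_left₀ (by linarith) h3 J
      _ = Real.exp (-(p * J)) := by rw [← Real.exp_nat_mul]; ring_nf
      _ ≤ Real.exp (-(Real.log (1 / θ))) := by
          apply Real.exp_le_exp.mpr; linarith
      _ = θ := by
          rw [Real.log_div one_ne_zero hθ.ne', Real.log_one]
          simp [Real.exp_log hθ]
  calc (1 - p) ^ J * ∑ e, τ e ≤ θ * 1 :=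
        mul_le_mul h2 h1 hs0 hθ.le
    _ = θ := mul_one θ

end Crest.Agent.R042.PBGreedy895
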