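import Crest.Agent.R042.SspAsm_375

/-! Row 42 / S0059: from weights on `V × V`, `V = ι × 𝓕` (type index × label), of the cross kind
to laws on (index pairs) × (label pairs), and back (consumes `SspAsm375.asm`). -/

set_option autoImplicit false
set_option linter.unusedSectionVars false

namespace Crest.Agent.R042.SspFin375

open Finset SspAsm375
open scoped Classical

variable {ι 𝓕 : Type*} [Fintype ι] [DecidableEq ι] [Fintype 𝓕]

/-- ordered pairs of distinct type indices. -/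
abbrev Jx (ι : Type*) := {p : ι × ι // p.1 ≠ p.2}

/-- the pair of vertices of an index pair and a label pair. -/
def ph (x : Jx ι × (𝓕 × 𝓕)) : (ι × 𝓕) × (ι × 𝓕) := ((x.1.1.1, x.2.1), (x.1.1.2, x.2.2))

lemma ph_inj : Function.Injective (ph (ι := ι) (𝓕 := 𝓕)) := by
  rintro ⟨⟨⟨i, i'⟩, h⟩, ⟨f, f'⟩⟩ ⟨⟨⟨j, j'⟩, h'⟩, ⟨g, g'⟩⟩ e
  simp only [ph, Prod.mk.injEq] at e
  obtain ⟨⟨rfl, rfl⟩, rfl, rfl⟩ := e
  rfl

lemma sum_ph (g : (ι × 𝓕) × (ι × 𝓕) → ℝ) (hg : ∀ z, g z ≠ 0 → z.1.1 ≠ z.2.1) :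
    ∑ z, g z = ∑ x : Jx ι × (𝓕 × 𝓕), g (ph x) := by
  rw [← Finset.sum_image (s := (univ : Finset (Jx ι × (𝓕 × 𝓕)))) (g := ph) (f := g)
    (fun x _ y _ h => ph_inj h)]
  symm
  refine Finset.sum_subset (Finset.subset_univ _) ?_
  intro z _ hz
  by_contra h
  apply hz
  rw [Finset.mem_image]
  exact ⟨(⟨(z.1.1, z.2.1), hg z h⟩, (z.1.2, z.2.2)), Finset.mem_univ _, rfl⟩

/-- index pairs containing `i`. -/
noncomputable def Ai (i : ι) : Finset (Jx ι) := univ.filter fun j => j.1.1 = i ∨ j.1.2 = i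

/-- conflict: all four cross pairs adjacent. -/
def Cf (E : ι × 𝓕 → ι × 𝓕 → Prop) (z z' : (ι × 𝓕) × (ι × 𝓕)) : Prop :=
  E z.1 z'.1 ∧ E z.1 z'.2 ∧ E z.2 z'.1 ∧ E z.2 z'.2

/-- admissible weights of the cross kind (666's `AdmP` with the kind clause). -/
structure AdmX (n : ℕ) (d : ℝ) (E : ι × 𝓕 → ι × 𝓕 → Prop) (w : (ι × 𝓕) × (ι × 𝓕) → ℝ) : Prop where
  nonneg : ∀ z, 0 ≤ w z
  supp : ∀ z, w z ≠ 0 → z.1.1 ≠ z.2.1 ∧ ¬ E z.1 z.2
  marg : ∀ a, ∑ b, w (a, b) + ∑ b, w (b, a) ≤ 1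
  cap : ∀ z, w z ≤ n / Fintype.card (ι × 𝓕)
  tot : ∑ z, w z = d * Fintype.card (ι × 𝓕)

/-- the law of an admissible weight. -/
noncomputable def law (d : ℝ) (w : (ι × 𝓕) × (ι × 𝓕) → ℝ) (x : Jx ι × (𝓕 × 𝓕)) : ℝ :=
  w (ph x) / (d * Fintype.card (ι × 𝓕))

variable {n : ℕ} {d : ℝ} {E : ι × 𝓕 → ι × 𝓕 → Prop} {w : (ι × 𝓕) × (ι × 𝓕) → ℝ}

lemma isP_law [Nonempty ι] [Nonempty 𝓕] (hd : 0 < d) (h : AdmX n d E w) : IsP (law d w) := by
  have hV : (0 : ℝ) < Fintype.card (ι × 𝓕) := by exact_mod_cast Fintype.card_pos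
  refine ⟨fun x => div_nonneg (h.nonneg _) (by positivity), ?_⟩
  unfold law
  rw [← Finset.sum_div, ← sum_ph w (fun z hz => (h.supp z hz).1), h.tot]
  exact div_self (by positivity)

lemma cap_law [Nonempty ι] [Nonempty 𝓕] (hd : 0 < d) (h : AdmX n d E w) (x : Jx ι × (𝓕 × 𝓕)) :
    law d w x * (Fintype.card (Jx ι) * Fintype.card (𝓕 × 𝓕)) ≤ n / d := by
  have hV : (0 : ℝ) < Fintype.card (ι × 𝓕) := by exact_mod_cast Fintype.card_pos
  have h1 : (Fintype.card (Jx ι) : ℝ) * Fintype.card (𝓕 × 𝓕) ≤ (Fintype.card (ι × 𝓕) : ℝ) ^ 2 := by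
    have h2 := Fintype.card_le_of_injective (ph (ι := ι) (𝓕 := 𝓕)) ph_inj
    rw [Fintype.card_prod, Fintype.card_prod (ι × 𝓕)] at h2
    rw [pow_two]
    exact_mod_cast h2
  have h3 : law d w x ≤ (n / Fintype.card (ι × 𝓕)) / (d * Fintype.card (ι × 𝓕)) := by
    unfold law
    exact div_le_div_of_nonneg_right (h.cap _) (by positivity)
  have h0 : 0 ≤ (n / Fintype.card (ι × 𝓕) : ℝ) / (d * Fintype.card (ι × 𝓕)) := by positivity
  calc law d w x * (Fintype.card (Jx ι) * Fintype.card (𝓕 × 𝓕)) ≤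
      (n / Fintype.card (ι × 𝓕)) / (d * Fintype.card (ι × 𝓕)) * (Fintype.card (ι × 𝓕) : ℝ) ^ 2 :=
        mul_le_mul h3 h1 (by positivity) h0
    _ = n / d := by field_simp

lemma marg_law [Nonempty ι] [Nonempty 𝓕] (hd : 0 < d) (h : AdmX n d E w) (i : ι) :
    ∑ j ∈ Ai i, ∑ y, law d w (j, y) ≤ 1 / (d * Fintype.card ι) := by
  have hι : (0 : ℝ) < Fintype.card ι := by exact_mod_cast Fintype.card_pos
  have h𝓕 : (0 : ℝ) < Fintype.card 𝓕 := by exact_mod_cast Fintype.card_pos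
  have hV : (0 : ℝ) < Fintype.card (ι × 𝓕) := by exact_mod_cast Fintype.card_pos
  -- the sum of the weights of the pairs touching type `i`
  have h1 : ∑ j ∈ Ai i, ∑ y, w (ph (j, y)) ≤ Fintype.card 𝓕 := by
    have e1 : ∑ j ∈ Ai i, ∑ y, w (ph (j, y)) =
        ∑ x : Jx ι × (𝓕 × 𝓕), (if x.1 ∈ Ai i then w (ph x) else 0) := by
      rw [Fintype.sum_prod_type]
      rw [← Finset.sum_filter_add_sum_filter_not univ (fun j : Jx ι => j ∈ Ai i)]
      have e2 : univ.filter (fun j : Jx ι => j ∈ Ai i) = Ai i := by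
        ext j
        simp
      rw [e2]
      have e3 : ∑ j ∈ univ.filter (fun j : Jx ι => ¬ j ∈ Ai i), ∑ y : 𝓕 × 𝓕,
          (if (j, y).1 ∈ Ai i then w (ph (j, y)) else 0) = 0 := by
        refine Finset.sum_eq_zero fun j hj => Finset.sum_eq_zero fun y _ => ?_
        rw [Finset.mem_filter] at hj
        exact if_neg hj.2
      rw [e3, add_zero]
      refine Finset.sum_congr rfl fun j hj => Finset.sum_congr rfl fun y _ => ?_
      exact (if_pos hj).symm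
    have e4 : ∑ x : Jx ι × (𝓕 × 𝓕), (if x.1 ∈ Ai i then w (ph x) else 0) =
        ∑ z : (ι × 𝓕) × (ι × 𝓕), (if z.1.1 = i ∨ z.2.1 = i then w z else 0) := by
      rw [sum_ph (fun z => if z.1.1 = i ∨ z.2.1 = i then w z else 0)]
      · refine Finset.sum_congr rfl fun x _ => ?_
        have : x.1 ∈ Ai i ↔ ((ph x).1.1 = i ∨ (ph x).2.1 = i) := by
          unfold Ai
          rw [Finset.mem_filter]
          simp [ph]
        simp only [this]
      · intro z hz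
        split_ifs at hz with h5
        · exact (h.supp z hz).1
        · exact absurd rfl hz
    have e5 : ∑ z : (ι × 𝓕) × (ι × 𝓕), (if z.1.1 = i ∨ z.2.1 = i then w z else 0) ≤
        ∑ f : 𝓕, (∑ b, w ((i, f), b) + ∑ b, w (b, (i, f))) := by
      have e6 : ∀ z : (ι × 𝓕) × (ι × 𝓕), (if z.1.1 = i ∨ z.2.1 = i then w z else 0) ≤
          (if z.1.1 = i then w z else 0) + (if z.2.1 = i then w z else 0) := by
        intro z
        have := h.nonneg z
        by_cases h1 : z.1.1 = i <;> by_cases h2 : z.2.1 = i <;> simp [h1, h2, this]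
      refine (Finset.sum_le_sum fun z _ => e6 z).trans ?_
      rw [Finset.sum_add_distrib, Finset.sum_add_distrib]
      refine add_le_add (le_of_eq ?_) (le_of_eq ?_)
      · rw [Fintype.sum_prod_type]
        rw [Fintype.sum_prod_type]
        rw [Finset.sum_comm]
        refine Finset.sum_congr rfl fun f _ => ?_
        rw [Finset.sum_comm]
        refine Finset.sum_congr rfl fun b _ => ?_
        rw [Finset.sum_ite_eq']
        simp
      · rw [Fintype.sum_prod_type, Finset.sum_comm, Fintype.sum_prod_type, Finset.sum_comm]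
        refine Finset.sum_congr rfl fun f _ => ?_
        rw [Finset.sum_comm]
        refine Finset.sum_congr rfl fun b _ => ?_
        rw [Finset.sum_ite_eq']
        simp
    rw [e1, e4]
    refine e5.trans ?_
    refine (Finset.sum_le_sum fun f _ => h.marg (i, f)).trans ?_
    simp
  have h2 : ∑ j ∈ Ai i, ∑ y, law d w (j, y) =
      (∑ j ∈ Ai i, ∑ y, w (ph (j, y))) / (d * Fintype.card (ι × 𝓕)) := by
    rw [Finset.sum_div]
    refine Finset.sum_congr rfl fun j _ => ?_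
    rw [Finset.sum_div]
    rfl
  rw [h2, Fintype.card_prod]
  push_cast
  rw [div_le_div_iff₀ (by positivity) (by positivity)]
  nlinarith [mul_le_mul_of_nonneg_left h1 (by positivity : (0:ℝ) ≤ d * Fintype.card ι)]

/-- **supersaturation of the cross kind** from the assembly theorem. -/
theorem ssp_cross [Nonempty ι] [Nonempty 𝓕] (hn : 0 < n) (hd : 0 < d)
    {Δ Θ : Type*} [Fintype Δ] [Fintype Θ]
    (dl : Jx ι → 𝓕 × 𝓕 → Δ) (w₁ w₂ : (ι × 𝓕) × (ι × 𝓕) → ℝ)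
    (h1 : AdmX n d E w₁) (h2 : AdmX n d E w₂)
    (b : ℝ) (hb : 0 < b) (hbM : 8 * Real.log (n / d * Fintype.card Δ) ≤ b)
    (G : Jx ι × Δ → (𝓕 × 𝓕 → ℝ) → Θ → Prop)
    (hG : ∀ (c : Jx ι × Δ) (μ : 𝓕 × 𝓕 → ℝ), IsP μ →
      (∀ y, μ y ≠ 0 → dl c.1 y = c.2 ∧ ¬ E (c.1.1.1, y.1) (c.1.1.2, y.2)) → KL μ ≤ b →
      ∃ θ, G c μ θ)
    (Live : Jx ι × Δ × Θ → Jx ι × Δ × Θ → Prop)
    (c₀ : ℝ) (hc₀ : 0 ≤ c₀)
    (hLoc : ∀ (c : Jx ι × Δ) (μ : 𝓕 × 𝓕 → ℝ) (θ : Θ) (c' : Jx ι × Δ) (μ' : 𝓕 × 𝓕 → ℝ) (θ' : Θ),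
      IsP μ → (∀ y, μ y ≠ 0 → dl c.1 y = c.2 ∧ ¬ E (c.1.1.1, y.1) (c.1.1.2, y.2)) → KL μ ≤ b →
      G c μ θ →
      IsP μ' → (∀ y, μ' y ≠ 0 → dl c'.1 y = c'.2 ∧ ¬ E (c'.1.1.1, y.1) (c'.1.1.2, y.2)) →
      KL μ' ≤ b → G c' μ' θ' →
      Live (c.1, c.2, θ) (c'.1, c'.2, θ') →
      c₀ ≤ ∑ y, ∑ y', μ y * μ' y' * (if Cf E (ph (c.1, y)) (ph (c'.1, y')) then 1 else 0))
    (M₀ : ℝ)
    (hT : ∀ t₁ t₂ : Jx ι × Δ × Θ → ℝ, IsP t₁ → IsP t₂ →
      (∀ i, ∑ j ∈ Ai i, ∑ x : Δ × Θ, t₁ (j, x) ≤ 2 * (1 / (d * Fintype.card ι))) →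
      (∀ i, ∑ j ∈ Ai i, ∑ x : Δ × Θ, t₂ (j, x) ≤ 2 * (1 / (d * Fintype.card ι))) →
      M₀ ≤ ∑ x, ∑ x', t₁ x * t₂ x' * (if Live x x' then 1 else 0)) :
    d * (49 / 64 * M₀ * c₀) * Fintype.card (ι × 𝓕) * (d * Fintype.card (ι × 𝓕)) ≤
      ∑ z, ∑ z', w₁ z * w₂ z' * (if Cf E z z' then 1 else 0) := by
  have hV : (0 : ℝ) < Fintype.card (ι × 𝓕) := by exact_mod_cast Fintype.card_pos
  have key := asm dl (law d w₁) (law d w₂) (isP_law hd h1) (isP_law hd h2) (n / d)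
    (by positivity) (cap_law hd h1) (cap_law hd h2) b hb hbM Ai (1 / (d * Fintype.card ι))
    (marg_law hd h1) (marg_law hd h2) (fun j y => ¬ E (j.1.1, y.1) (j.1.2, y.2))
    (fun j y h => by
      have h3 : w₁ (ph (j, y)) ≠ 0 := by
        intro h4
        apply h
        unfold law
        rw [h4, zero_div]
      exact (h1.supp _ h3).2)
    (fun j y h => by
      have h3 : w₂ (ph (j, y)) ≠ 0 := by
        intro h4
        apply h
        unfold law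
        rw [h4, zero_div]
      exact (h2.supp _ h3).2)
    (fun x x' => Cf E (ph x) (ph x')) G hG Live c₀ hc₀ hLoc M₀ hT
  have e1 : ∑ z, ∑ z', w₁ z * w₂ z' * (if Cf E z z' then (1 : ℝ) else 0) =
      ∑ x, ∑ x', w₁ (ph x) * w₂ (ph x') * (if Cf E (ph x) (ph x') then 1 else 0) := by
    rw [sum_ph (fun z => ∑ z', w₁ z * w₂ z' * (if Cf E z z' then (1 : ℝ) else 0))]
    · refine Finset.sum_congr rfl fun x _ => ?_
      rw [sum_ph (fun z' => w₁ (ph x) * w₂ z' * (if Cf E (ph x) z' then (1 : ℝ) else 0))]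
      intro z' hz'
      refine (h2.supp z' ?_).1
      intro h0
      apply hz'
      rw [h0]
      simp
    · intro z hz
      refine (h1.supp z ?_).1
      intro h0
      apply hz
      refine Finset.sum_eq_zero fun z' _ => ?_
      rw [h0]
      simp
  have e2 : ∑ x, ∑ x', law d w₁ x * law d w₂ x' * (if Cf E (ph x) (ph x') then (1 : ℝ) else 0) =
      (∑ x, ∑ x', w₁ (ph x) * w₂ (ph x') * (if Cf E (ph x) (ph x') then (1 : ℝ) else 0)) /
        (d * Fintype.card (ι × 𝓕)) ^ 2 := by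
    rw [Finset.sum_div]
    refine Finset.sum_congr rfl fun x _ => ?_
    rw [Finset.sum_div]
    refine Finset.sum_congr rfl fun x' _ => ?_
    unfold law
    field_simp
  rw [e1]
  rw [e2, le_div_iff₀ (by positivity)] at key
  refine le_trans (le_of_eq ?_) key
  ring

end Crest.Agent.R042.SspFin375
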