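import Crest.Agent.R042.PBFac_989
import Crest.Agent.R042.SspFin_375

/-!
# Plan B: the hypothesis `hm1` of the label theorem (341 #28939) and `Hyp` at both ends

`s : Bool → ι` the indices of the pair, `r : κ → Bool → ι` the indices of the blocks.
-/

set_option autoImplicit false
set_option linter.unusedSectionVars false

namespace Crest.Agent.R042.PBHm1989

open Finset Crest.Agent.R042.Fam543 Crest.Agent.R042.PB Crest.Agent.R042.PBFac989

variable {k0 KK : Type} [Field k0] [Field KK] [Algebra k0 KK] [CharP KK 2]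
variable {d L : ℕ} {K : Set k0} (hK : Alph K) {ι : Type} {T : ι → Ty k0 KK d L}
  (hT : ∀ i, Valid K (T i))
  (hLI : ∀ J : Finset ι, J.card ≤ 6 → LinearIndependent KK (fun i : J => (T i).b))

include hK hT hLI

/-- the blocks of `G` which hit `y` modulo the special space pass through one index -/
theorem one_index (Q : ℕ) (hL : 0 < L) {κ : Type*} (s : Bool → ι) (r : κ → Bool → ι)
    (hr : ∀ e, r e false ≠ r e true) (G : κ → Prop)
    (hG : ∀ e, G e → ∀ a b, Perp (T (s a)) (T (r e b))) (a : Bool) (y : U KK d 2 L)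
    (hex : ∃ e, G e ∧ ∃ α γ : k0, (α ≠ 0 ∨ γ ≠ 0) ∧
      α • uvec Q 2 (T (r e false)) + γ • uvec Q 2 (T (r e true)) - y ∈
        Sp2 Q (T (s a)) (T (s (!a)))) :
    ∃ i, ∀ e, (G e ∧ ∃ α γ : k0, (α ≠ 0 ∨ γ ≠ 0) ∧
      α • uvec Q 2 (T (r e false)) + γ • uvec Q 2 (T (r e true)) - y ∈
        Sp2 Q (T (s a)) (T (s (!a)))) → (r e false = i ∨ r e true = i) := by
  have ne : ∀ {i j : ι}, Perp (T i) (T j) → j ≠ i := by
    rintro i j h rfl
    exact (hT j).aniso h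
  obtain ⟨e₁, hG₁, he₁⟩ := hex
  obtain ⟨i, -, -, hi⟩ := h1_set hK hT hLI Q hL (p := s a) (p' := s (!a))
    (κ := {e // G e}) (fun e => r e.1 false) (fun e => r e.1 true)
    (fun e => ne (hG e.1 e.2 _ _)) (fun e => ne (hG e.1 e.2 _ _)) (fun e => ne (hG e.1 e.2 _ _))
    (fun e => ne (hG e.1 e.2 _ _)) (fun e => hr e.1) y ⟨e₁, hG₁⟩ he₁
  exact ⟨i, fun e he => hi ⟨e, he.1⟩ he.2⟩

open scoped Classical in
/-- **hm1** -/
theorem hm1 (Q : ℕ) (hL : 0 < L) {κ : Type*} [Fintype κ] (s : Bool → ι) (r : κ → Bool → ι)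
    (hr : ∀ e, r e false ≠ r e true) (G : κ → Prop)
    (hG : ∀ e, G e → ∀ a b, Perp (T (s a)) (T (r e b))) (t : κ → ℝ) (ht : ∀ e, 0 ≤ t e)
    (m1 : ℝ) (hm0 : 0 ≤ m1) (hm : ∀ i, ∑ e with (r e false = i ∨ r e true = i), t e ≤ m1)
    (a : Bool) (y : U KK d 2 L) :
    ∑ e with (G e ∧ ∃ α γ : k0, (α ≠ 0 ∨ γ ≠ 0) ∧
      α • uvec Q 2 (T (r e false)) + γ • uvec Q 2 (T (r e true)) - y ∈
        Sp2 Q (T (s a)) (T (s (!a)))), t e ≤ m1 := by
  by_cases hex : ∃ e, G e ∧ ∃ α γ : k0, (α ≠ 0 ∨ γ ≠ 0) ∧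
      α • uvec Q 2 (T (r e false)) + γ • uvec Q 2 (T (r e true)) - y ∈
        Sp2 Q (T (s a)) (T (s (!a)))
  · obtain ⟨i, hi⟩ := one_index hK hT hLI Q hL s r hr G hG a y hex
    refine le_trans (sum_le_sum_of_subset_of_nonneg ?_ fun e _ _ => ht e) (hm i)
    intro e he
    rw [mem_filter] at he ⊢
    exact ⟨he.1, hi e he.2⟩
  · rw [sum_eq_zero]
    · exact hm0
    · intro e he
      exact absurd ⟨e, (mem_filter.1 he).2⟩ hex

end Crest.Agent.R042.PBHm1989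

namespace Crest.Agent.R042.PBHm1989

open Finset Crest.Agent.R042.Fam543 Crest.Agent.R042.PB Crest.Agent.R042.PBFac989 SspFin375

/-- the indices of a pair, `false` = first end -/
def jj {ι : Type*} (j : Jx ι) : Bool → ι := fun a => bif a then j.1.2 else j.1.1

theorem jj_ne {ι : Type*} (j : Jx ι) : jj j false ≠ jj j true := j.2

open scoped Classical in
/-- the one-index masses of 375's laws -/
theorem mass_Jx {ι Δ : Type*} [Fintype ι] [DecidableEq ι] [Fintype Δ] (t : Jx ι × Δ → ℝ) (i : ι) :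
    ∑ e : Jx ι × Δ with (jj e.1 false = i ∨ jj e.1 true = i), t e =
      ∑ j ∈ Ai i, ∑ δ, t (j, δ) := by
  rw [sum_filter, Fintype.sum_prod_type, Ai, sum_filter]
  refine sum_congr rfl fun j _ => ?_
  by_cases h : j.1.1 = i ∨ j.1.2 = i
  · rw [if_pos h]
    exact sum_congr rfl fun δ _ => if_pos h
  · rw [if_neg h]
    exact sum_eq_zero fun δ _ => if_neg h

variable {k0 KK : Type} [Field k0] [Field KK] [Algebra k0 KK] [CharP KK 2]
variable {d L : ℕ} {K : Set k0} (hK : Alph K) {ι : Type} [Fintype ι] [DecidableEq ι]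
  {T : ι → Ty k0 KK d L} (hT : ∀ i, Valid K (T i))
  (hLI : ∀ J : Finset ι, J.card ≤ 6 → LinearIndependent KK (fun i : J => (T i).b))

include hK hT hLI

open scoped Classical in
/-- **hm1** for 375's laws `t` on `Jx ι × Δ` -/
theorem hm1_Jx (Q : ℕ) (hL : 0 < L) {Δ : Type*} [Fintype Δ] (s : Jx ι)
    (G : Jx ι × Δ → Prop) (hG : ∀ e, G e → ∀ a b, Perp (T (jj s a)) (T (jj e.1 b)))
    (t : Jx ι × Δ → ℝ) (ht : ∀ e, 0 ≤ t e) (m1 : ℝ) (hm0 : 0 ≤ m1)
    (hm : ∀ i, ∑ j ∈ Ai i, ∑ δ, t (j, δ) ≤ m1) (a : Bool) (y : U KK d 2 L) :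
    ∑ e with (G e ∧ ∃ α γ : k0, (α ≠ 0 ∨ γ ≠ 0) ∧
      α • uvec Q 2 (T (jj e.1 false)) + γ • uvec Q 2 (T (jj e.1 true)) - y ∈
        Sp2 Q (T (jj s a)) (T (jj s (!a)))), t e ≤ m1 := by
  refine hm1 hK hT hLI Q hL (jj s) (fun e : Jx ι × Δ => jj e.1) (fun e => jj_ne e.1) G hG t ht
    m1 hm0 (fun i => ?_) a y
  refine le_trans (le_of_eq ?_) (hm i)
  rw [← mass_Jx]
  refine sum_congr ?_ fun _ _ => rfl
  ext e
  simp only [mem_filter, mem_univ, true_and]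

end Crest.Agent.R042.PBHm1989
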