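import Crest.Agent.R042.ConfB_461

/-!
# Row 42, S0059, plan B: joints between `ConfB_461` and `PBMomBlk_253`, `PBSDBlk_895`

* `sum_zero_of_le`, `sum_zero_of_le'`: vanishing sums over a group pass to larger groups;
* `exists_special'`: the special set is determined by the functionals in `range π.dualMap ⊓ C`.
-/

set_option autoImplicit false

namespace Crest.Agent.R042.PBJoint726

open Finset Crest.Agent.R042.Conf921 Crest.Agent.R042.CondFree313 Crest.Agent.R042.ConfB461
open scoped Classical

/-- vanishing sums over a group pass to larger groups -/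
theorem sum_zero_of_le {V : Type*} [AddCommGroup V] [Fintype V] (G H : AddSubgroup V)
    (hGH : G ≤ H) (g : V → ℝ) (h : ∀ v, ∑ u : G, g (v + (u : V)) = 0) (v : V) :
    ∑ u : H, g (v + (u : V)) = 0 := by
  have h1 : ∀ w : G, ∑ u : H, g (v + (w : V) + (u : V)) = ∑ u : H, g (v + (u : V)) := by
    intro w
    refine Fintype.sum_equiv (Equiv.addLeft (⟨(w : V), hGH w.2⟩ : H)) _ _ (fun u => ?_)
    congr 1
    simp [add_assoc]
  have h2 : (Fintype.card G : ℝ) * ∑ u : H, g (v + (u : V)) =
      ∑ w : G, ∑ u : H, g (v + (w : V) + (u : V)) := by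
    rw [Finset.sum_congr rfl (fun w _ => h1 w), Finset.sum_const, Finset.card_univ, nsmul_eq_mul]
  rw [Finset.sum_comm] at h2
  have h3 : ∀ u : H, ∑ w : G, g (v + (w : V) + (u : V)) = 0 := by
    intro u
    rw [← h (v + (u : V))]
    exact Finset.sum_congr rfl fun w _ => by rw [add_right_comm]
  rw [Finset.sum_congr rfl (fun u _ => h3 u), Finset.sum_const_zero] at h2
  have hc : (Fintype.card G : ℝ) ≠ 0 := by
    have : 0 < Fintype.card G := Fintype.card_pos
    positivity
  exact (mul_eq_zero.1 h2).resolve_left hc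

section Linear

variable {k : Type*} [Field k] {V E : Type*} [AddCommGroup V] [Module k V] [Fintype V]
  [AddCommGroup E] [Module k E] [Fintype E]

/-- from the sum over `C.dualCoannihilator` (`exists_test`) to the sum over a larger group
(`hgcond` of `mom_blk` with `H = ker (CC B B' e)`) -/
theorem sum_zero_of_le' (C C' : Submodule k (Module.Dual k V)) (hC : C' ≤ C) (g : V → ℝ)
    (h : ∀ v, ∑ u : C.dualCoannihilator, g (v + (u : V)) = 0) (v : V) :
    ∑ u : C'.dualCoannihilator.toAddSubgroup, g (v + (u : V)) = 0 :=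
  sum_zero_of_le C.dualCoannihilator.toAddSubgroup C'.dualCoannihilator.toAddSubgroup
    (fun _ hu => Submodule.dualCoannihilator_anti hC hu) g h v

/-- common kernel of `range π.dualMap ⊓ C` -/
theorem coann_inf (π : V →ₗ[k] E) (C : Submodule k (Module.Dual k V)) :
    (LinearMap.range π.dualMap ⊓ C).dualCoannihilator = LinearMap.ker π ⊔ C.dualCoannihilator := by
  have hf : FiniteDimensional k V := Module.Finite.of_finite
  have h1 : LinearMap.range π.dualMap ⊓ C =
      (LinearMap.ker π ⊔ C.dualCoannihilator).dualAnnihilator := by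
    rw [Submodule.dualAnnihilator_sup_eq, LinearMap.range_dualMap_eq_dualAnnihilator_ker,
      Subspace.dualCoannihilator_dualAnnihilator_eq]
  rw [h1, Subspace.dualAnnihilator_dualCoannihilator_eq]

/-- **special density, linear form, with the exact invariance needed by `PBSD895.sd_blk`** -/
theorem exists_special' (π : V →ₗ[k] E) (ν : V → ℝ) (hν : ∀ v, 0 ≤ ν v) (sν : ∑ v, ν v = 1)
    (C : Submodule k (Module.Dual k V)) (K η : ℝ) (hK : 0 ≤ K) (h : BadS π ν C K η) :
    ∃ S : Finset V, (∀ v v' : V, (∀ c ∈ LinearMap.range π.dualMap ⊓ C, c v = c v') →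
        v ∈ S → v' ∈ S) ∧
      (S.card : ℝ) * K * (Nat.card (LinearMap.range π) : ℝ) ≤
        (Fintype.card V : ℝ) * (Fintype.card E : ℝ) ∧ η < ∑ v ∈ S, ν v := by
  obtain ⟨h1, h2, h3⟩ := special_set π.toAddMonoidHom ν hν sν C.dualCoannihilator.toAddSubgroup K hK
  refine ⟨univ.filter fun v => K < avg (C.dualCoannihilator.toAddSubgroup.map π.toAddMonoidHom)
    (push π.toAddMonoidHom ν) (π.toAddMonoidHom v) * (Fintype.card E : ℝ), ?_, ?_, ?_⟩
  · intro v v' hv
    have hmem : v' - v ∈ LinearMap.ker π ⊔ C.dualCoannihilator := by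
      rw [← coann_inf, Submodule.mem_dualCoannihilator]
      intro c hc
      rw [map_sub, hv c hc, sub_self]
    obtain ⟨a, ha, b, hb, hab⟩ := Submodule.mem_sup.1 hmem
    have e1 : v' = v + b + a := by
      have : v' = v + (v' - v) := by abel
      rw [this, ← hab]; abel
    have e2 : π.toAddMonoidHom v' = π.toAddMonoidHom (v + b) := by
      rw [e1, map_add π.toAddMonoidHom (v + b) a]
      have : π.toAddMonoidHom a = 0 := LinearMap.mem_ker.1 ha
      rw [this, add_zero]
    rw [Finset.mem_filter, Finset.mem_filter]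
    simp only [Finset.mem_univ, true_and]
    rw [e2]
    have e3 := h1 (v + b) v (by
      have : v + b - v = b := by abel
      rw [this]; exact hb)
    exact e3.2
  · exact h2
  · unfold BadS at h
    rw [map_toAdd, h3] at h
    exact h

/-- the same with the size in the form `hDc` of `sd_blk` -/
theorem exists_special_blk (π : V →ₗ[k] E) (ν : V → ℝ) (hν : ∀ v, 0 ≤ ν v) (sν : ∑ v, ν v = 1)
    (C : Submodule k (Module.Dual k V)) (K η : ℝ) (hK : 0 ≤ K) (h : BadS π ν C K η) (I : ℝ)
    (hI : 0 < I) (hE : (Fintype.card E : ℝ) ≤ I * (Nat.card (LinearMap.range π) : ℝ)) :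
    ∃ S : Finset V, (∀ v v' : V, (∀ c ∈ (LinearMap.range π.dualMap ⊓ C :
        Submodule k (Module.Dual k V)), c v = c v') → v ∈ S → v' ∈ S) ∧
      K / I * (S.card : ℝ) ≤ (Fintype.card V : ℝ) ∧ η ≤ ∑ v ∈ S, ν v := by
  obtain ⟨S, h1, h2, h3⟩ := exists_special' π ν hν sν C K η hK h
  refine ⟨S, h1, ?_, h3.le⟩
  have hr : (0 : ℝ) < (Nat.card (LinearMap.range π) : ℝ) := by
    have : 0 < Nat.card (LinearMap.range π) := Nat.card_pos
    exact_mod_cast this
  have hV : (0 : ℝ) ≤ (Fintype.card V : ℝ) := Nat.cast_nonneg _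
  have h4 : (S.card : ℝ) * K * (Nat.card (LinearMap.range π) : ℝ) ≤
      (Fintype.card V : ℝ) * I * (Nat.card (LinearMap.range π) : ℝ) := by
    refine h2.trans ?_
    rw [mul_assoc (Fintype.card V : ℝ)]
    exact mul_le_mul_of_nonneg_left hE hV
  have h5 := le_of_mul_le_mul_right h4 hr
  rw [div_mul_eq_mul_div, div_le_iff₀ hI]
  linarith

end Linear

end Crest.Agent.R042.PBJoint726
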