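import Crest.Agent.R042.PBMomBlk_253
import Crest.Agent.R042.ConfB_461

/-!
Row 42, S0059, PLAN B: MOM + PROB + test functions of helper461 give hypothesis `hK` of the label
theorem (helper253).
-/

set_option autoImplicit false

namespace Crest.Agent.R042.PBMom253

open Finset Crest.Agent.R042.Conf921 Crest.Agent.R042.KLsup313
open Crest.Agent.R042.PB Crest.Agent.R042.RowWin543 Crest.Agent.R042.ConfB461

section Aux

variable {V : Type*} [AddCommGroup V] [Fintype V]

open scoped Classical in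
lemma sum_of_le {H H' : AddSubgroup V} (h : H ≤ H') (g : V → ℝ)
    (hg : ∀ v, ∑ u : H, g (v + (u : V)) = 0) (v : V) : ∑ u : H', g (v + (u : V)) = 0 := by
  have h1 : avg H g = fun _ => 0 := by
    funext x
    unfold avg
    rw [hg x, zero_div]
  have h2 : avg H' g v = 0 := by
    have e : avg H' (avg H g) = avg H' g := by
      rw [avg_avg, sup_eq_left.2 h]
    rw [← e, h1]
    unfold avg
    simp
  unfold avg at h2
  rcases div_eq_zero_iff.1 h2 with h3 | h3
  · exact h3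
  · exact absurd h3 (card_pos' H').ne'

end Aux

open scoped Classical in
/-- **hK**: no law of blocks with `Hyp` at both ends can be supported on `BadK` blocks -/
theorem hK_of {q h m : ℕ} (hP : ProbStmt q h m) : ∃ b C : ℕ, Even b ∧ 0 < b ∧
    ∀ (k U κ : Type) [Field k] [Fintype k] [AddCommGroup U] [Module k U] [Fintype U] [Fintype κ]
      (B B' : Blk k U κ) (δ : ℝ), Fintype.card k = q → 0 ≤ δ → δ ≤ 1 →
      ∀ (EE : κ → Type) [∀ e, AddCommGroup (EE e)] [∀ e, Module k (EE e)] [∀ e, Fintype (EE e)]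
      (π : ∀ e, (SymForm k U × SymForm k U) →ₗ[k] EE e)
      (C' : κ → Submodule k (Module.Dual k (SymForm k U × SymForm k U))),
      (∀ e, ∀ v ∈ ker (WW B B' e), π e v = 0) → (∀ e, CC B B' e ≤ C' e) →
      ∀ (ν : SymForm k U × SymForm k U → ℝ), (∀ f, 0 ≤ ν f) → ∑ f, ν f = 1 → ∀ (Ma : ℝ),
      (∀ f, ν f * (Fintype.card (SymForm k U × SymForm k U) : ℝ) ≤ Ma) → ∀ (ε : ℝ), 0 ≤ ε →
      Ma * (2 * ((C : ℝ) * (δ ^ h + (Fintype.card U : ℝ) ^ (2 * h + 2) * δ ^ m)))
        < (ε / 4) ^ (b + 1) →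
      ∀ τ : κ → ℝ, Hyp B τ δ → Hyp B' τ δ → (∀ e, τ e ≠ 0 → BadK (π e) ν (C' e) ε) → False := by
  obtain ⟨b, C, hb, hb0, hmain⟩ := mom_prob hP
  refine ⟨b, C, hb, hb0, ?_⟩
  intro k U κ _ _ _ _ _ _ B B' δ hq hδ0 hδ1 EE _ _ _ π C' hπ hC ν hν sν Ma hM ε hε hnum τ hB hB'
    hbad
  -- test functions
  have hex : ∀ e, ∃ g : SymForm k U × SymForm k U → ℝ, (∀ v, |g v| ≤ 1) ∧
      (∀ v u, π e u = 0 → g (v + u) = g v) ∧
      (∀ v, ∑ u : ker (CC B B' e), g (v + (u : SymForm k U × SymForm k U)) = 0) ∧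
      (τ e ≠ 0 → ε / 2 ≤ ∑ v, ν v * g v) := by
    intro e
    by_cases he : τ e = 0
    · exact ⟨fun _ => 0, by simp, by simp, by simp, fun h => absurd he h⟩
    · obtain ⟨g, h1, h2, h3, h4⟩ := exists_test (π e) ν (C' e) ε (hbad e he)
      refine ⟨g, h1, h2, fun v => ?_, fun _ => h4⟩
      refine sum_of_le (H := ker (C' e)) (ker_anti (hC e)) g (fun v => ?_) v
      have := h3 v
      convert this
  choose g hg1 hg2 hg3 hg4 using hex
  have hav : ε / 2 ≤ ∑ e, τ e * ∑ f, ν f * g e f := by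
    calc ε / 2 = ∑ e, τ e * (ε / 2) := by rw [← Finset.sum_mul, hB.sum, one_mul]
      _ ≤ _ := by
        refine Finset.sum_le_sum fun e _ => ?_
        by_cases he : τ e = 0
        · rw [he, zero_mul, zero_mul]
        · exact mul_le_mul_of_nonneg_left (hg4 e he) (hB.nonneg e)
  have h1 := hmain k U κ B B' τ δ hq hδ0 hδ1 hB hB' ν hν sν Ma hM (ε / 2) (by linarith) g hg1
    (fun e f h hh => hg2 e f h (hπ e h hh)) (fun e f => by convert hg3 e f) hav
  rw [show ε / 2 / 2 = ε / 4 by ring] at h1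
  linarith

end Crest.Agent.R042.PBMom253
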