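import Crest.Agent.R042.PBSpecFam_895
import Crest.Agent.R042.PBhK_253

/-!
# PLAN B of S0059: `hK` of the label theorem for the blocks of the family

helper253's `hK_of` at `π := winX`, `C' := (VS (2 ^ e) 2 X).dualAnnihilator`.
-/

set_option autoImplicit false
set_option linter.unusedSectionVars false

namespace Crest.Agent.R042.PBSpecFam895

open Finset Crest.Agent.R042.RowWin543 Crest.Agent.R042.Fam543 Crest.Agent.R042.PB
  Crest.Agent.R042.ConfB461 Crest.Agent.R042.PBMom253 Crest.Agent.R042.LocFam958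
open Crest.Agent.R042.SpecFam730 (specU aop tw Indep4)

section

variable {k0 KK : Type} [Field k0] [Field KK] [Algebra k0 KK] {d L : ℕ}

/-- the windows of the family at the block `Y x`, seen from `X` -/
abbrev BX (Q : ℕ) {κ : Type} (X : Bool → Ty k0 KK d L) (Y : κ → Bool → Ty k0 KK d L) (a : Bool) :
    Blk k0 (U KK d 2 L) κ :=
  fblk Q (X a) (X (!a)) (fun x => Y x false) (fun x => Y x true)

theorem winX_of_ker (Q : ℕ) {κ : Type} (X : Bool → Ty k0 KK d L) (Y : κ → Bool → Ty k0 KK d L)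
    (x : κ) (v : VV k0 KK d 2 L)
    (hv : v ∈ ker (WW (BX Q X Y false) (BX Q X Y true) x)) : winX Q 2 X (Y x) v = 0 := by
  rw [mem_ker_WW] at hv
  obtain ⟨h1, h2, h3, h4⟩ := hv
  refine LinearMap.ext fun t => ?_
  rw [winX_apply, Fintype.sum_prod_type, Fintype.sum_bool, Fintype.sum_bool, Fintype.sum_bool,
    LinearMap.zero_apply]
  have e1 : (lab v false).1 (uvec Q 2 (Y x false)) (t (false, false) : U KK d 2 L) = 0 :=
    h1 _ (t (false, false)).2
  have e2 : (lab v false).1 (uvec Q 2 (Y x true)) (t (false, true) : U KK d 2 L) = 0 :=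
    h2 _ (t (false, true)).2
  have e3 : (lab v true).1 (uvec Q 2 (Y x false)) (t (true, false) : U KK d 2 L) = 0 :=
    h3 _ (t (true, false)).2
  have e4 : (lab v true).1 (uvec Q 2 (Y x true)) (t (true, true) : U KK d 2 L) = 0 :=
    h4 _ (t (true, true)).2
  show (((lab v true).1 (uvec Q 2 (Y x true)) (t (true, true) : U KK d 2 L) +
    (lab v true).1 (uvec Q 2 (Y x false)) (t (true, false) : U KK d 2 L)) +
    ((lab v false).1 (uvec Q 2 (Y x true)) (t (false, true) : U KK d 2 L) +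
    (lab v false).1 (uvec Q 2 (Y x false)) (t (false, false) : U KK d 2 L))) = 0
  rw [e1, e2, e3, e4]
  simp

theorem CC_le_VS [CharP KK 2] (Q : ℕ) {κ : Type} (X : Bool → Ty k0 KK d L)
    (Y : κ → Bool → Ty k0 KK d L) (x : κ) :
    CC (BX Q X Y false) (BX Q X Y true) x ≤ (LocA726.VS Q 2 X).dualAnnihilator := by
  intro φ hφ
  rw [Submodule.mem_dualAnnihilator]
  intro v hv
  have hs : ∀ (a : Bool) (z : U KK d 2 L), ∀ t ∈ Sp2 Q (X a) (X (!a)), (lab v a).1 z t = 0 := by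
    intro a z t ht
    rw [← specU_eq_Sp2] at ht
    exact hv a z t ht
  have hk : v ∈ ker (CC (BX Q X Y false) (BX Q X Y true) x) := by
    rw [mem_ker_CC]
    exact ⟨fun z hz => hs false _ z hz, fun z hz => hs false _ z hz,
      fun z hz => hs true _ z hz, fun z hz => hs true _ z hz⟩
  rw [mem_ker] at hk
  exact hk φ hφ

end

open scoped Classical in
/-- **`hK` of the label theorem**, blocks `fblk` of the family -/
theorem hK_fam {q h m : ℕ} (hP : ProbStmt q h m) : ∃ b C : ℕ, Even b ∧ 0 < b ∧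
    ∀ (k0 KK : Type) [Field k0] [Field KK] [Algebra k0 KK] (d L : ℕ) [CharP KK 2] [Fintype k0]
      [Fintype KK] (Q : ℕ) (κ : Type) [Fintype κ] (X : Bool → Ty k0 KK d L)
      (Y : κ → Bool → Ty k0 KK d L) [∀ x, Fintype (EE Q 2 X (Y x))] (δ : ℝ),
      Fintype.card k0 = q → 0 ≤ δ → δ ≤ 1 →
      ∀ (ν : VV k0 KK d 2 L → ℝ), (∀ f, 0 ≤ ν f) → ∑ f, ν f = 1 → ∀ (Ma : ℝ),
      (∀ f, ν f * (Fintype.card (VV k0 KK d 2 L) : ℝ) ≤ Ma) → ∀ (ε : ℝ), 0 ≤ ε →
      Ma * (2 * ((C : ℝ) * (δ ^ h + (Fintype.card (U KK d 2 L) : ℝ) ^ (2 * h + 2) * δ ^ m)))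
        < (ε / 4) ^ (b + 1) →
      ∀ τ : κ → ℝ,
      Hyp (fblk Q (X false) (X true) (fun x => Y x false) (fun x => Y x true)) τ δ →
      Hyp (fblk Q (X true) (X false) (fun x => Y x false) (fun x => Y x true)) τ δ →
      (∀ x, τ x ≠ 0 → BadK (winX Q 2 X (Y x)) ν (LocA726.VS Q 2 X).dualAnnihilator ε) → False := by
  obtain ⟨b, C, hb, hb0, hmain⟩ := hK_of hP
  refine ⟨b, C, hb, hb0, ?_⟩
  intro k0 KK _ _ _ d L _ _ _ Q κ _ X Y _ δ hq h0 h1 ν hν sν Ma hM ε hε hnum τ hH hH' hbad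
  refine hmain k0 (U KK d 2 L) κ (BX Q X Y false) (BX Q X Y true) δ hq h0 h1
    (fun x => EE Q 2 X (Y x)) (fun x => winX Q 2 X (Y x))
    (fun _ => (LocA726.VS Q 2 X).dualAnnihilator)
    (fun x v hv => winX_of_ker Q X Y x v hv) (fun x => CC_le_VS Q X Y x) ν hν sν Ma hM ε hε ?_
    τ hH hH' hbad
  convert hnum using 6

end Crest.Agent.R042.PBSpecFam895
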