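import Crest.Agent.R042.PBSDBlk_895
import Crest.Agent.R042.ConfB_461

/-!
# PLAN B of S0059: `BadS` has small mass (helper341 #28939, HALF (B))
-/

set_option autoImplicit false

namespace Crest.Agent.R042.PBSD895

open Finset Crest.Agent.R042.RowWin543 Crest.Agent.R042.PB Crest.Agent.R042.ConfB461

section Bridge

variable {k : Type*} [Field k] {V E : Type*} [AddCommGroup V] [Module k V]
  [FiniteDimensional k V] [AddCommGroup E] [Module k E]

/-- cutting `C` down to the functionals of the window does not change the image of its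
annihilator in the window -/
theorem map_coann_inf (π : V →ₗ[k] E) (C : Submodule k (Module.Dual k V)) :
    (C ⊓ LinearMap.range π.dualMap).dualCoannihilator.map π = C.dualCoannihilator.map π := by
  have h1 : C ⊓ LinearMap.range π.dualMap
      = (C.dualCoannihilator ⊔ LinearMap.ker π).dualAnnihilator := by
    rw [Submodule.dualAnnihilator_sup_eq, ← LinearMap.range_dualMap_eq_dualAnnihilator_ker,
      Subspace.dualCoannihilator_dualAnnihilator_eq]
  rw [h1, Subspace.dualAnnihilator_dualCoannihilator_eq, Submodule.map_sup]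
  have h2 : (LinearMap.ker π).map π = ⊥ := by
    rw [eq_bot_iff]
    rintro _ ⟨x, hx, rfl⟩
    exact hx
  rw [h2, sup_bot_eq]

theorem badS_inf [Fintype V] [Fintype E] (π : V →ₗ[k] E) (ν : V → ℝ)
    (C : Submodule k (Module.Dual k V)) (K η : ℝ) :
    BadS π ν (C ⊓ LinearMap.range π.dualMap) K η ↔ BadS π ν C K η := by
  unfold BadS
  rw [map_coann_inf]

end Bridge

open Classical in
/-- **the blocks with large special density have small mass** -/
theorem special_mass {k U κ : Type} [Field k] [Fintype k] [AddCommGroup U] [Module k U] [Finite U]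
    [Fintype κ] (u u' : κ → U) (Sp Sp' : Submodule k U) (τ : κ → ℝ)
    (hτ0 : ∀ e, 0 ≤ τ e) (δ : ℝ)
    (h1 : ∀ y : U, ∑ e with (∃ a c : k, (a ≠ 0 ∨ c ≠ 0) ∧
      a • u e + c • u' e - y ∈ Sp), τ e ≤ δ)
    (h1' : ∀ y : U, ∑ e with (∃ a c : k, (a ≠ 0 ∨ c ≠ 0) ∧
      a • u e + c • u' e - y ∈ Sp'), τ e ≤ δ)
    (C : Submodule k (Module.Dual k (SymForm k U × SymForm k U)))
    {E : κ → Type} [∀ e, AddCommGroup (E e)] [∀ e, Module k (E e)] [∀ e, Fintype (E e)]
    (π : ∀ e, (SymForm k U × SymForm k U) →ₗ[k] E e)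
    (hS : ∀ e, ∀ φ ∈ C ⊓ LinearMap.range (π e).dualMap,
      ∃ z1 ∈ Sp, ∃ z2 ∈ Sp, ∃ z3 ∈ Sp', ∃ z4 ∈ Sp',
        φ = evF (u e) z1 + evF (u' e) z2 + evS (u e) z3 + evS (u' e) z4)
    (ν : SymForm k U × SymForm k U → ℝ) (h0 : ∀ v, 0 ≤ ν v) (hν1 : ∑ v, ν v = 1)
    (M : ℝ) (hν : ∀ v, ν v * Fintype.card (SymForm k U × SymForm k U) ≤ M)
    (N : ℕ) (hN : 0 < N) (K : ℝ) (hK : 0 ≤ K) (K₀ : ℝ) (hK₀ : 1 ≤ K₀)
    (hKK : ∀ e, K₀ * Fintype.card (E e) ≤ K * (Nat.card (LinearMap.range (π e)) : ℝ))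
    (η : ℝ) (hη : 0 ≤ η)
    (hnum : M * 2 ^ N * K₀ ^ (-(η * N / 2)) < η / 2) :
    ∑ e with BadS (π e) ν C K η, τ e ≤ 2 * (Fintype.card k : ℝ) ^ (2 * N) * δ := by
  set B : Blk k U κ := ⟨u, u', fun _ => ⊤, fun _ => ⊤, Sp⟩ with hB
  set B' : Blk k U κ := ⟨u, u', fun _ => ⊤, fun _ => ⊤, Sp'⟩ with hB'
  have hex : ∀ e, BadS (π e) ν C K η →
      ∃ S : Finset (SymForm k U × SymForm k U),
        (∀ v v', (∀ c ∈ C ⊓ LinearMap.range (π e).dualMap, c v = c v') → v ∈ S → v' ∈ S) ∧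
        K₀ * S.card ≤ Fintype.card (SymForm k U × SymForm k U) ∧ η ≤ ∑ v ∈ S, ν v := by
    intro e he
    rw [← badS_inf] at he
    obtain ⟨S, hS1, hS2, hS3⟩ := exists_special (π e) ν h0 hν1 _ K η hK he
    refine ⟨S, ?_, ?_, hS3.le⟩
    · intro v v' hc hv
      refine (hS1 v v' ?_).1 hv
      rw [Submodule.mem_dualCoannihilator]
      intro φ hφ
      rw [map_sub, hc φ hφ, sub_self]
    · have hE : (0 : ℝ) < Fintype.card (E e) := by
        have : Nonempty (E e) := ⟨0⟩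
        exact_mod_cast Fintype.card_pos
      have h2 : (K₀ * S.card) * Fintype.card (E e)
          ≤ Fintype.card (SymForm k U × SymForm k U) * Fintype.card (E e) := by
        calc (K₀ * S.card) * Fintype.card (E e) = S.card * (K₀ * Fintype.card (E e)) := by ring
          _ ≤ S.card * (K * (Nat.card (LinearMap.range (π e)) : ℝ)) :=
              mul_le_mul_of_nonneg_left (hKK e) (Nat.cast_nonneg _)
          _ = S.card * K * (Nat.card (LinearMap.range (π e)) : ℝ) := by ring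
          _ ≤ _ := hS2
      exact le_of_mul_le_mul_right h2 hE
  choose! D hD1 hD2 hD3 using hex
  exact sd_blk B B' τ hτ0 δ h1 h1' (fun e => C ⊓ LinearMap.range (π e).dualMap)
    (fun e φ hφ => hS e φ hφ) ν h0 hν1 M hν N hN K₀ hK₀ η hη hnum
    (univ.filter fun e => BadS (π e) ν C K η) D
    (fun e he => hD1 e (mem_filter.mp he).2) (fun e he => hD2 e (mem_filter.mp he).2)
    (fun e he => hD3 e (mem_filter.mp he).2)

open Classical in
/-- `hS` of helper365's `label_core`: a law satisfying `Hyp` at both ends is not carried by the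
blocks with large special density -/
theorem special_false {k U κ : Type} [Field k] [Fintype k] [AddCommGroup U] [Module k U] [Finite U]
    [Fintype κ] (B B' : Blk k U κ) (hu : B'.u = B.u) (hu' : B'.u' = B.u')
    (C : Submodule k (Module.Dual k (SymForm k U × SymForm k U)))
    {E : κ → Type} [∀ e, AddCommGroup (E e)] [∀ e, Module k (E e)] [∀ e, Fintype (E e)]
    (π : ∀ e, (SymForm k U × SymForm k U) →ₗ[k] E e)
    (hS : ∀ e, ∀ φ ∈ C ⊓ LinearMap.range (π e).dualMap,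
      ∃ z1 ∈ B.Sp, ∃ z2 ∈ B.Sp, ∃ z3 ∈ B'.Sp, ∃ z4 ∈ B'.Sp,
        φ = evF (B.u e) z1 + evF (B.u' e) z2 + evS (B.u e) z3 + evS (B.u' e) z4)
    (ν : SymForm k U × SymForm k U → ℝ) (h0 : ∀ v, 0 ≤ ν v) (hν1 : ∑ v, ν v = 1)
    (M : ℝ) (hν : ∀ v, ν v * Fintype.card (SymForm k U × SymForm k U) ≤ M)
    (N : ℕ) (hN : 0 < N) (K : ℝ) (hK : 0 ≤ K) (K₀ : ℝ) (hK₀ : 1 ≤ K₀)
    (hKK : ∀ e, K₀ * Fintype.card (E e) ≤ K * (Nat.card (LinearMap.range (π e)) : ℝ))
    (η : ℝ) (hη : 0 ≤ η)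
    (hnum : M * 2 ^ N * K₀ ^ (-(η * N / 2)) < η / 2)
    (δ : ℝ) (hδ : 2 * (Fintype.card k : ℝ) ^ (2 * N) * δ < 1)
    (τ : κ → ℝ) (hH : Hyp B τ δ) (hH' : Hyp B' τ δ)
    (hall : ∀ e, τ e ≠ 0 → BadS (π e) ν C K η) : False := by
  have h := special_mass B.u B.u' B.Sp B'.Sp τ hH.nonneg δ
    (fun y => by have := hH.h1 y; convert this)
    (fun y => by have := hH'.h1 y; rw [hu, hu'] at this; convert this)
    C π hS ν h0 hν1 M hν N hN K hK K₀ hK₀ hKK η hη hnum
  have h2 : ∑ e with BadS (π e) ν C K η, τ e = 1 := by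
    rw [← hH.sum]
    refine Finset.sum_subset (Finset.filter_subset _ _) ?_
    intro e _ he
    by_contra hne
    exact he (mem_filter.mpr ⟨mem_univ _, hall e hne⟩)
  linarith

end Crest.Agent.R042.PBSD895
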