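import Crest.Agent.R042.SpecFam_730
import Crest.Agent.R042.PBFam_341

/-!
# Bridge lemmas for PLAN B (helper730)

For `m = kp` the special space is the line of the product tensor: `spec kp p = span {pure p}`.
-/

set_option autoImplicit false
set_option linter.unusedSectionVars false

namespace Crest.Agent.R042.SpecB730

open Crest.Agent.R042.Fam543 Crest.Agent.R042.Spec730 Crest.Agent.R042.SpecFam730

theorem spec_full {F : Type*} [Field F] {k : ℕ} {ι : Type*} (p : Fin k → ι → F) :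
    spec k p = Submodule.span F {pure p} := by
  apply le_antisymm
  · rw [spec, Submodule.span_le]
    rintro t ⟨c, s, hs, hc, rfl⟩
    have hu : s = Finset.univ := Finset.eq_univ_of_card s
      (le_antisymm (by simpa using Finset.card_le_univ s) (by simpa using hs))
    have : c = p := by
      funext i
      exact hc i (by rw [hu]; exact Finset.mem_univ i)
    subst this
    exact Submodule.subset_span rfl
  · rw [Submodule.span_le, Set.singleton_subset_iff]
    exact Submodule.subset_span ⟨p, Finset.univ, by simp, fun _ _ => rfl, rfl⟩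

variable {k0 KK : Type} [Field k0] [Field KK] [Algebra k0 KK]

theorem mem_spec_full {Q d kp : ℕ} {a : Ix d → KK} {t : U0 KK d kp} :
    t ∈ spec kp (tw Q kp a) ↔ ∃ c : KK, t = c • Phi Q a := by
  rw [spec_full, Submodule.mem_span_singleton]
  constructor
  · rintro ⟨c, h⟩; exact ⟨c, h.symm⟩
  · rintro ⟨c, h⟩; exact ⟨c, h.symm⟩

theorem mem_specU_full {Q d kp L : ℕ} {a : Ix d → KK} {x : U KK d kp L} :
    x ∈ specU k0 Q kp kp L a ↔ ∀ l, ∃ c : KK, x l = c • Phi Q a := by
  rw [mem_specU]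
  exact forall_congr' fun l => mem_spec_full

/-- in characteristic 2 the vector `a_s` is `b' + B b b' • b` -/
theorem aop_eq [CharP KK 2] {d : ℕ} (b b' : Ix d → KK) : aop b b' = b' + B b b' • b := by
  rw [aop]
  funext j
  simp only [Pi.sub_apply, Pi.add_apply, Pi.smul_apply, smul_eq_mul]
  exact CharTwo.sub_eq_add _ _

/-- 341's special space of plan B is `specU` with `kp = m = 2` -/
theorem Sp2_eq [CharP KK 2] (Q : ℕ) {d L : ℕ} (P P' : Ty k0 KK d L) :
    PB.Sp2 Q P P' = specU k0 Q 2 2 L (aop P.b P'.b) := by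
  ext x
  rw [PB.mem_Sp2, mem_specU_full, aop_eq]
  rfl

/-- membership in the special part of a window, `kp = 2` -/
theorem mem_SX [CharP KK 2] (Q : ℕ) {d L : ℕ} (X Y : Bool → Ty k0 KK d L) (w : Bool × Bool)
    (z : win Q 2 X Y w) :
    z ∈ SX Q 2 2 X Y w ↔ (z : U KK d 2 L) ∈ PB.Sp2 Q (X w.1) (X (!w.1)) := by
  rw [SX, Submodule.mem_comap, Sp2_eq]; rfl

theorem mem_SY [CharP KK 2] (Q : ℕ) {d L : ℕ} (X Y : Bool → Ty k0 KK d L) (w : Bool × Bool)
    (z : win Q 2 X Y w) :
    z ∈ SY Q 2 2 X Y w ↔ (z : U KK d 2 L) ∈ PB.Sp2 Q (Y w.2) (Y (!w.2)) := by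
  rw [SY, Submodule.mem_comap, Sp2_eq]; rfl

/-- **four digits for plan B** (`kp = 2`, no numerical hypothesis) -/
theorem CX_inf_CY_two [CharP KK 2] [Finite KK] (e : ℕ) {d L : ℕ} (X Y : Bool → Ty k0 KK d L)
    (h : Indep4 X Y) :
    CX (2 ^ e) 2 2 X Y ⊓ CY (2 ^ e) 2 2 X Y =
      Submodule.span k0 (DX (2 ^ e) 2 X Y ∪ DY (2 ^ e) 2 X Y) :=
  CX_inf_CY e 2 2 2 (by norm_num) le_rfl le_rfl X Y h

end Crest.Agent.R042.SpecB730
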