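import Crest.Agent.R042.PBMomBlk_253
import Crest.Agent.R042.PBSpecial_895
import Crest.Agent.R042.PBGreedy_895
import Crest.Agent.R042.PBFac_989
import Crest.Agent.R042.ConfB_461
import Crest.Agent.R042.LocB_767
import Crest.Agent.R042.LocA_726
import Crest.Agent.R042.LocC_958
import Crest.Agent.R042.SpecB_730

/-!
# Plan B of row 42 / S0059: the label theorem

For a pair `s = (P, P')` and a law `μ` of bounded density on pairs of labels there are `J` points
`Ys` such that for most blocks `(R, R')` not killed by them the window law of `μ` satisfies the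
hypotheses of the conflict lemma.
-/

set_option autoImplicit false
set_option linter.unusedSectionVars false

namespace Crest.Agent.R042.PBLabel341

open Finset Crest.Agent.R042.RowWin543 Crest.Agent.R042.Fam543 Crest.Agent.R042.PB
open Crest.Agent.R042.LocFam958 (VV lab lab_false lab_true TT EE winX winX_apply NN)
open Crest.Agent.R042.PBMom253 Crest.Agent.R042.ConfB461

section Abs

/-- averages over a bigger group -/
theorem sum_zero_of_le {V : Type*} [AddCommGroup V] [Fintype V] (D H : AddSubgroup V)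
    [Fintype D] [Fintype H] (h : D ≤ H) (g : V → ℝ)
    (hg : ∀ v, ∑ u : D, g (v + (u : V)) = 0) (f : V) : ∑ u : H, g (f + (u : V)) = 0 := by
  have h1 : ∀ w : D, ∑ u : H, g (f + (u : V) + (w : V)) = ∑ u : H, g (f + (u : V)) := by
    intro w
    refine Fintype.sum_equiv (Equiv.addRight (⟨(w : V), h w.2⟩ : H)) _ _ fun u => ?_
    simp [add_assoc]
  have h2 : (Fintype.card D : ℝ) * ∑ u : H, g (f + (u : V)) =
      ∑ w : D, ∑ u : H, g (f + (u : V) + (w : V)) := by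
    rw [Finset.sum_congr rfl (fun w _ => h1 w), Finset.sum_const, Finset.card_univ, nsmul_eq_mul]
  rw [Finset.sum_comm, Finset.sum_eq_zero fun u _ => hg _] at h2
  have hc : (0 : ℝ) < (Fintype.card D : ℝ) := by exact_mod_cast Fintype.card_pos
  rcases mul_eq_zero.1 h2 with h3 | h3
  · exact absurd h3 hc.ne'
  · exact h3

open scoped Classical in
/-- sums over a subtype -/
theorem sub_sum_le {κ : Type*} [Fintype κ] (P : κ → Prop) [Fintype {x // P x}]
    (Q : {x // P x} → Prop) [DecidablePred Q] (f : κ → ℝ)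
    (hf : ∀ x, 0 ≤ f x) (S : Finset κ) (h : ∀ x : {x // P x}, Q x → x.1 ∈ S) :
    ∑ x : {x // P x} with Q x, f x.1 ≤ ∑ x ∈ S, f x := by
  have h1 : ∑ x : {x // P x} with Q x, f x.1 =
      ∑ x ∈ (univ.filter Q).map (Function.Embedding.subtype P), f x := by
    rw [Finset.sum_map]
    rfl
  rw [h1]
  refine Finset.sum_le_sum_of_subset_of_nonneg ?_ fun x _ _ => hf x
  intro x hx
  rw [Finset.mem_map] at hx
  obtain ⟨y, hy, rfl⟩ := hx
  exact h y (Finset.mem_filter.1 hy).2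

end Abs

variable {k0 KK : Type} [Field k0] [Field KK] [Algebra k0 KK] {d L : ℕ}

/-- the special functionals of a pair of types -/
abbrev Cs (Q : ℕ) (X : Bool → Ty k0 KK d L) :
    Submodule k0 (Module.Dual k0 (VV k0 KK d 2 L)) :=
  (LocA726.VS (kp := 2) Q 2 X).dualAnnihilator

/-- the blocks seen from the end `a` -/
def bk (Q : ℕ) {κ : Type} (X : Bool → Ty k0 KK d L) (R : κ → Bool → Ty k0 KK d L) (a : Bool) :
    Blk k0 (U KK d 2 L) κ :=
  fblk Q (X a) (X (!a)) (fun x => R x false) (fun x => R x true)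

/-- `y` kills the block `R` -/
def killT (Q : ℕ) (X : Bool → Ty k0 KK d L) (y : Bool × U KK d 2 L)
    (R : Bool → Ty k0 KK d L) : Prop :=
  y.2 ∉ Sp2 Q (X y.1) (X (!y.1)) ∧ kill Q (X y.1) y.2 (R false) (R true)

theorem winX_eq_zero {Q : ℕ} {κ : Type} {X : Bool → Ty k0 KK d L} {R : κ → Bool → Ty k0 KK d L}
    {x : κ} {v : VV k0 KK d 2 L} (h : v ∈ ker (WW (bk Q X R false) (bk Q X R true) x)) :
    winX Q 2 X (R x) v = 0 := by
  obtain ⟨h1, h2, h3, h4⟩ := (mem_ker_WW _ _ _ _).1 h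
  refine LinearMap.ext fun t => ?_
  rw [winX_apply, LinearMap.zero_apply]
  refine Finset.sum_eq_zero fun ab _ => ?_
  rcases ab with ⟨a, b⟩
  cases a <;> cases b
  · exact h1 _ (t (false, false)).2
  · exact h2 _ (t (false, true)).2
  · exact h3 _ (t (true, false)).2
  · exact h4 _ (t (true, true)).2

theorem VS_le_ker [CharP KK 2] {Q : ℕ} {κ : Type} {X : Bool → Ty k0 KK d L}
    {R : κ → Bool → Ty k0 KK d L} {x : κ} :
    (LocA726.VS (kp := 2) Q 2 X).toAddSubgroup ≤ ker (CC (bk Q X R false) (bk Q X R true) x) := by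
  intro v hv
  have hv' : v ∈ LocA726.VS (kp := 2) Q 2 X := hv
  rw [LocA726.mem_VS] at hv'
  have h0 : ∀ a y, ∀ t ∈ Sp2 Q (X a) (X (!a)), (lab v a).1 y t = 0 := by
    intro a y t ht
    refine hv' a y t ?_
    rw [← SpecB730.Sp2_eq]
    exact ht
  rw [mem_ker_CC]
  exact ⟨fun z hz => h0 false _ z hz, fun z hz => h0 false _ z hz, fun z hz => h0 true _ z hz,
    fun z hz => h0 true _ z hz⟩

theorem Cs_coann [Finite k0] [Finite KK] (Q : ℕ) (X : Bool → Ty k0 KK d L) :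
    (Cs Q X).dualCoannihilator = LocA726.VS (kp := 2) Q 2 X := by
  have : FiniteDimensional k0 (VV k0 KK d 2 L) := Module.Finite.of_finite
  exact Subspace.dualAnnihilator_dualCoannihilator_eq

open scoped Classical in
/-- a law of blocks satisfying `Hyp` at both ends cannot consist of `BadK` blocks -/
def NoK (q h m b C : ℕ) : Prop :=
    ∀ (k0 KK : Type) [Field k0] [Field KK] [Algebra k0 KK] [Fintype k0] [Fintype KK]
      [CharP KK 2] (d L : ℕ) (Q : ℕ) (κ : Type) [Fintype κ] (X : Bool → Ty k0 KK d L)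
      (R : κ → Bool → Ty k0 KK d L) (τ : κ → ℝ) (δ : ℝ), Fintype.card k0 = q → 0 ≤ δ → δ ≤ 1 →
      Hyp (bk Q X R false) τ δ → Hyp (bk Q X R true) τ δ →
      ∀ (μ : VV k0 KK d 2 L → ℝ), (∀ f, 0 ≤ μ f) → ∑ f, μ f = 1 → ∀ (M : ℝ),
      (∀ f, μ f * (Fintype.card (VV k0 KK d 2 L) : ℝ) ≤ M) → ∀ (ε : ℝ), 0 ≤ ε →
      (∀ x, τ x ≠ 0 → BadK (winX Q 2 X (R x)) μ (Cs Q X) ε) →
      (ε / 4) ^ (b + 1) ≤
        M * (2 * ((C : ℝ) * (δ ^ h + (Fintype.card (U KK d 2 L) : ℝ) ^ (2 * h + 2) * δ ^ m)))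

open scoped Classical in
/-- **step 1** -/
theorem noK {q h m : ℕ} (hP : ProbStmt q h m) :
    ∃ b C : ℕ, Even b ∧ 0 < b ∧ NoK q h m b C := by
  obtain ⟨b, C, hb, hb0, hmain⟩ := mom_prob hP
  refine ⟨b, C, hb, hb0, ?_⟩
  intro k0 KK _ _ _ _ _ _ d L Q κ _ X R τ δ hq hδ0 hδ1 hB hB' μ hμ sμ M hM ε hε hbad
  have hex : ∀ x, ∃ g : VV k0 KK d 2 L → ℝ, (∀ v, |g v| ≤ 1) ∧
      (∀ v u, winX Q 2 X (R x) u = 0 → g (v + u) = g v) ∧
      (∀ v, ∑ u : (LocA726.VS (kp := 2) Q 2 X).toAddSubgroup,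
        g (v + (u : VV k0 KK d 2 L)) = 0) ∧
      τ x * (ε / 2) ≤ τ x * ∑ v, μ v * g v := by
    intro x
    by_cases hx : τ x = 0
    · refine ⟨fun _ => 0, ?_, ?_, ?_, ?_⟩
      · intro v; simp
      · intro v u _; rfl
      · intro v; simp
      · rw [hx, zero_mul, zero_mul]
    · obtain ⟨g, g1, g2, g3, g4⟩ := exists_test (winX Q 2 X (R x)) μ (Cs Q X) ε (hbad x hx)
      refine ⟨g, g1, g2, ?_, mul_le_mul_of_nonneg_left g4 (hB.nonneg x)⟩
      intro v
      rw [← g3 v]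
      refine Fintype.sum_equiv
        (Equiv.subtypeEquivRight fun u => ?_) _ _ fun u => rfl
      show u ∈ LocA726.VS (kp := 2) Q 2 X ↔ u ∈ (Cs Q X).dualCoannihilator
      rw [Cs_coann]
  choose g g1 g2 g3 g4 using hex
  have key := hmain k0 (U KK d 2 L) κ (bk Q X R false) (bk Q X R true) τ δ hq hδ0 hδ1 hB hB' μ hμ
    sμ M hM (ε / 2) (by linarith) g g1
    (fun x f v hv => g2 x f v (winX_eq_zero hv))
    (fun x f => sum_zero_of_le _ _ VS_le_ker (g x) (g3 x) f)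
    (by
      calc ε / 2 = ∑ x, τ x * (ε / 2) := by rw [← Finset.sum_mul, hB.sum, one_mul]
        _ ≤ ∑ x, τ x * ∑ f, μ f * g x f := Finset.sum_le_sum fun x _ => g4 x)
  have e1 : ε / 2 / 2 = ε / 4 := by ring
  rw [e1] at key
  exact key

/-- good position of a block -/
def OkI {ι : Type} (T : ι → Ty k0 KK d L) (p r : Bool → ι) : Prop :=
  (∀ a b, Perp (T (p a)) (T (r b))) ∧ r false ≠ r true

open scoped Classical in
/-- **step 2**: mass of the `BadK` blocks not killed -/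
theorem massK [Fintype k0] [Fintype KK] [CharP KK 2] {q h m b C : ℕ} (hno : NoK q h m b C)
    (hq : Fintype.card k0 = q) {K : Set k0} (hK : Alph K) {ι : Type} {T : ι → Ty k0 KK d L}
    (hT : ∀ i, Valid K (T i))
    (hLI : ∀ J : Finset ι, J.card ≤ 6 → LinearIndependent KK (fun i : J => (T i).b))
    (e : ℕ) (hL : 0 < L) (p : Bool → ι) {κ : Type} [Fintype κ] (r : κ → Bool → ι)
    (t : κ → ℝ) (ht : ∀ x, 0 ≤ t x) (st : ∑ x, t x ≤ 1) (m1 : ℝ)
    (hm1 : ∀ i, ∑ x with (r x false = i ∨ r x true = i), t x ≤ m1)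
    (μ : VV k0 KK d 2 L → ℝ) (hμ : ∀ f, 0 ≤ μ f) (sμ : ∑ f, μ f = 1) (M : ℝ)
    (hM : ∀ f, μ f * (Fintype.card (VV k0 KK d 2 L) : ℝ) ≤ M) (kX : ℝ) (hkX : 0 ≤ kX)
    (θ δ : ℝ) (J : ℕ) (hθ : 0 < θ) (hJ : Real.log (1 / θ) ≤ δ * J) (hm1δ : m1 / θ ≤ δ)
    (hδ1 : δ ≤ 1)
    (hnum : M * (2 * ((C : ℝ) *
      (δ ^ h + (Fintype.card (U KK d 2 L) : ℝ) ^ (2 * h + 2) * δ ^ m))) < (kX / 4) ^ (b + 1)) :
    ∃ Ys : Fin J → Bool × U KK d 2 L, ∑ x, t x * (if OkI T p (r x) ∧
      (∀ i, ¬ killT (2 ^ e) (fun a => T (p a)) (Ys i) (fun b => T (r x b))) ∧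
      BadK (winX (2 ^ e) 2 (fun a => T (p a)) (fun b => T (r x b))) μ
        (Cs (2 ^ e) fun a => T (p a)) kX then 1 else 0) ≤ θ := by
  set X : Bool → Ty k0 KK d L := fun a => T (p a) with hX
  set R : κ → Bool → Ty k0 KK d L := fun x b => T (r x b) with hR
  set A : κ → Prop := fun x => OkI T p (r x) ∧
    BadK (winX (2 ^ e) 2 X (R x)) μ (Cs (2 ^ e) X) kX with hA
  set t1 : κ → ℝ := fun x => if A x then t x else 0 with ht1
  have t1n : ∀ x, 0 ≤ t1 x := by
    intro x; simp only [ht1]; split_ifs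
    · exact ht x
    · exact le_rfl
  have t1le : ∀ x, t1 x ≤ t x := by
    intro x; simp only [ht1]; split_ifs
    · exact le_rfl
    · exact ht x
  have t1A : ∀ x, t1 x ≠ 0 → A x := by
    intro x hx
    by_contra hne
    apply hx
    simp only [ht1, if_neg hne]
  obtain ⟨l, hl, hcase⟩ := PBGreedy895.greedy' t1 t1n
    ((Finset.sum_le_sum fun x _ => t1le x).trans st)
    (fun (y : Bool × U KK d 2 L) x => killT (2 ^ e) X y (R x)) δ hδ1 J θ hθ hJ
  have main : ∑ x ∈ PBGreedy895.left (fun (y : Bool × U KK d 2 L) x =>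
      killT (2 ^ e) X y (R x)) l, t1 x ≤ θ := by
    rcases hcase with hc | hc
    swap
    · exact hc
    by_contra hgt
    push Not at hgt
    set Lf := PBGreedy895.left (fun (y : Bool × U KK d 2 L) x => killT (2 ^ e) X y (R x)) l with hLf
    set s := ∑ x ∈ Lf, t1 x with hs
    have hs0 : 0 < s := hθ.trans hgt
    have hm0 : 0 ≤ m1 := (Finset.sum_nonneg fun x _ => ht x).trans (hm1 (p false))
    have hδ0 : 0 ≤ δ := (div_nonneg hm0 hθ.le).trans hm1δ
    let Pr : κ → Prop := fun x => x ∈ Lf ∧ t1 x ≠ 0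
    let τ : {x // Pr x} → ℝ := fun x => t1 x.1 / s
    have hτn : ∀ x, 0 ≤ τ x := fun x => div_nonneg (t1n _) hs0.le
    have hτs : ∑ x, τ x = 1 := by
      have e1 : ∑ x : {x // Pr x}, t1 x.1 = s := by
        rw [hs, ← Finset.sum_filter_add_sum_filter_not Lf (fun x => t1 x ≠ 0)]
        have e2 : ∑ x ∈ Lf.filter (fun x => ¬ t1 x ≠ 0), t1 x = 0 :=
          Finset.sum_eq_zero fun x hx => by
            have := (Finset.mem_filter.1 hx).2
            push Not at this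
            exact this
        rw [e2, add_zero]
        symm
        refine Finset.sum_subtype _ (fun x => ?_) _
        rw [Finset.mem_filter]
      simp only [τ]
      rw [← Finset.sum_div, e1, div_self hs0.ne']
    have hsum : ∀ (Qd : {x // Pr x} → Prop) (S : Finset κ), (∀ x, Qd x → x.1 ∈ S) →
        ∑ x with Qd x, τ x ≤ (∑ x ∈ S, t1 x) / s := by
      intro Qd S hS
      simp only [τ]
      rw [← Finset.sum_div]
      exact div_le_div_of_nonneg_right (sub_sum_le Pr Qd t1 t1n S hS) hs0.le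
    have hyp : ∀ a, Hyp (bk (2 ^ e) X (fun x : {x // Pr x} => R x.1) a) τ δ := by
      intro a
      have h2 : ∀ Y : U KK d 2 L, Y ∉ Sp2 (2 ^ e) (T (p a)) (T (p !a)) →
          ∀ Qd : {x // Pr x} → Prop,
          (∀ x, Qd x → kill (2 ^ e) (T (p a)) Y (T (r x.1 false)) (T (r x.1 true))) →
          ∑ x with Qd x, τ x ≤ δ := by
        intro Y hY Qd hQd
        refine (hsum Qd (Lf.filter fun x => killT (2 ^ e) X (a, Y) (R x)) ?_).trans ?_
        · intro x hx
          rw [Finset.mem_filter]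
          exact ⟨x.2.1, hY, hQd x hx⟩
        · rw [div_le_iff₀ hs0]
          exact hc (a, Y)
      have hOk : ∀ x : {x // Pr x}, OkI T p (r x.1) := fun x => (t1A _ x.2.2).1
      refine PBFac989.hyp_fblk hK hT hLI e hL (p := p a) (p' := p !a)
        (fun x : {x // Pr x} => r x.1 false) (fun x => r x.1 true)
        (fun x => (hOk x).1 a false) (fun x => (hOk x).1 (!a) false)
        (fun x => (hOk x).1 a true) (fun x => (hOk x).1 (!a) true)
        (fun x => (hOk x).2) τ hτn hτs δ ?_ hδ0 ?_ ?_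
      · intro i
        refine le_trans (le_of_eq ?_) ((hsum (fun x : {x // Pr x} => r x.1 false = i ∨ r x.1 true = i)
          (univ.filter fun x => r x false = i ∨ r x true = i) ?_).trans ?_)
        · refine Finset.sum_congr ?_ fun _ _ => rfl
          ext x
          simp only [Finset.mem_filter]
        · intro x hx
          rw [Finset.mem_filter]
          exact ⟨Finset.mem_univ _, hx⟩
        · refine le_trans ?_ hm1δ
          refine div_le_div₀ hm0 ((Finset.sum_le_sum fun x _ => t1le x).trans (hm1 i)) hθ hgt.le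
      · intro Y hY α c
        refine h2 Y hY _ fun x hx => ?_
        exact kill_of_mem e ((hOk x).1 a true) hx
      · intro Y hY α c
        refine h2 Y hY _ fun x hx => ?_
        exact kill_of_mem' e ((hOk x).1 a false) hx
    have key := hno k0 KK d L (2 ^ e) {x // Pr x} X (fun x => R x.1) τ δ hq hδ0 hδ1 (hyp false)
      (hyp true) μ hμ sμ M hM kX hkX (fun x _ => (t1A _ x.2.2).2)
    linarith
  refine ⟨fun i => (l[i.1]?).getD (false, 0), le_trans (le_of_eq ?_)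
    (le_trans (Finset.sum_le_sum_of_subset_of_nonneg (f := t1) (s := univ.filter fun x =>
      (∀ i : Fin J, ¬ killT (2 ^ e) X ((l[i.1]?).getD (false, 0)) (R x)) ∧ A x) ?_
      fun x _ _ => t1n x) main)⟩
  · rw [Finset.sum_filter]
    refine Finset.sum_congr rfl fun x _ => ?_
    simp only [ht1]
    by_cases h1 : A x
    · by_cases h2 : ∀ i : Fin J, ¬ killT (2 ^ e) X ((l[i.1]?).getD (false, 0)) (R x)
      · rw [if_pos ⟨h1.1, h2, h1.2⟩, if_pos ⟨h2, h1⟩, if_pos h1, mul_one]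
      · rw [if_neg (fun h => h2 h.2.1), if_neg (fun h => h2 h.1), mul_zero]
    · rw [if_neg (fun h => h1 ⟨h.1, h.2.2⟩), if_neg (fun h => h1 h.2), mul_zero]
  · intro x hx
    rw [Finset.mem_filter] at hx
    rw [PBGreedy895.mem_left]
    intro y hy
    obtain ⟨i, hi, rfl⟩ := List.getElem_of_mem hy
    have := hx.2.1 ⟨i, lt_of_lt_of_le hi hl⟩
    simpa [List.getElem?_eq_getElem hi] using this

theorem exists_of_mem_spw {k U : Type*} [Field k] [AddCommGroup U] [Module k U]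
    (Sp Sp' : Submodule k U) (x : U) (φ : Module.Dual k (SymForm k U × SymForm k U))
    (h : φ ∈ Greedy695.spw Sp Sp' x) : ∃ z ∈ Sp, ∃ z' ∈ Sp', ∀ v, φ v = v.1.1 x z + v.2.1 x z' := by
  refine Submodule.span_induction (p := fun φ _ => ∃ z ∈ Sp, ∃ z' ∈ Sp',
    ∀ v : SymForm k U × SymForm k U, φ v = v.1.1 x z + v.2.1 x z') ?_ ?_ ?_ ?_ h
  · rintro φ (⟨z, hz, rfl⟩ | ⟨z, hz, rfl⟩)
    · exact ⟨z, hz, 0, Submodule.zero_mem _, fun v => by simp⟩
    · exact ⟨0, Submodule.zero_mem _, z, hz, fun v => by simp⟩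
  · exact ⟨0, Submodule.zero_mem _, 0, Submodule.zero_mem _, fun v => by simp⟩
  · rintro φ ψ _ _ ⟨z, hz, z', hz', h1⟩ ⟨y, hy, y', hy', h2⟩
    refine ⟨z + y, Submodule.add_mem _ hz hy, z' + y', Submodule.add_mem _ hz' hy', fun v => ?_⟩
    rw [LinearMap.add_apply, h1, h2, map_add, map_add]; ring
  · rintro c φ _ ⟨z, hz, z', hz', h1⟩
    refine ⟨c • z, Submodule.smul_mem _ _ hz, c • z', Submodule.smul_mem _ _ hz', fun v => ?_⟩
    rw [LinearMap.smul_apply, h1, map_smul, map_smul, smul_eq_mul, smul_eq_mul, smul_eq_mul]; ring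

theorem indep4_of [CharP KK 2] {K : Set k0} {ι : Type} {T : ι → Ty k0 KK d L}
    (hT : ∀ i, Valid K (T i))
    (hLI : ∀ J : Finset ι, J.card ≤ 6 → LinearIndependent KK (fun i : J => (T i).b))
    (p r : Bool → ι) (hp : p false ≠ p true) (h : OkI T p r) :
    SpecFam730.Indep4 (fun a => T (p a)) (fun b => T (r b)) := by
  classical
  have ne : ∀ a b, p a ≠ r b := by
    intro a b hab
    have := h.1 a b
    rw [hab] at this
    exact (hT _).aniso this
  let f : Fin 4 → ι := ![p false, p true, r false, r true]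
  have hf : Function.Injective f := by
    have h1 := ne false false
    have h2 := ne false true
    have h3 := ne true false
    have h4 := ne true true
    have h5 := h.2
    intro a b hab
    fin_cases a <;> fin_cases b <;> simp_all [f]
  have h1 := hLI (univ.image f) (card_image_le.trans (by simp))
  have h2 := h1.comp (fun a : Fin 4 => (⟨f a, mem_image_of_mem f (mem_univ a)⟩ : univ.image f))
    (fun a b hab => hf (Subtype.ext_iff.1 hab))
  unfold SpecFam730.Indep4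
  convert h2 using 1
  funext a
  fin_cases a <;> rfl

open scoped Classical in
/-- **step 3**: mass of the `BadS` blocks -/
theorem massS [Fintype k0] [Fintype KK] [CharP KK 2] {K : Set k0} (hK : Alph K) {ι : Type}
    {T : ι → Ty k0 KK d L} (hT : ∀ i, Valid K (T i))
    (hLI : ∀ J : Finset ι, J.card ≤ 6 → LinearIndependent KK (fun i : J => (T i).b))
    (e : ℕ) (hL : 0 < L) (p : Bool → ι) (hp : p false ≠ p true) {κ : Type} [Fintype κ]
    (r : κ → Bool → ι) (t : κ → ℝ) (ht : ∀ x, 0 ≤ t x) (m1 : ℝ)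
    (hm1 : ∀ i, ∑ x with (r x false = i ∨ r x true = i), t x ≤ m1)
    (μ : VV k0 KK d 2 L → ℝ) (hμ : ∀ f, 0 ≤ μ f) (sμ : ∑ f, μ f = 1) (M : ℝ)
    (hM : ∀ f, μ f * (Fintype.card (VV k0 KK d 2 L) : ℝ) ≤ M) (N : ℕ) (hN : 0 < N)
    (K₀ K₁ : ℝ) (hK₁ : 1 ≤ K₁) (hK₀ : K₁ * (Fintype.card k0 : ℝ) ^ 2 ≤ K₀)
    (η : ℝ) (hη : 0 ≤ η) (hnum : M * 2 ^ N * K₁ ^ (-(η * N / 2)) < η / 2) :
    ∑ x, t x * (if OkI T p (r x) ∧
      BadS (winX (2 ^ e) 2 (fun a => T (p a)) (fun b => T (r x b))) μ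
        (Cs (2 ^ e) fun a => T (p a)) K₀ η then 1 else 0) ≤
      2 * (Fintype.card k0 : ℝ) ^ (2 * N) * m1 := by
  set X : Bool → Ty k0 KK d L := fun a => T (p a) with hX
  set R : κ → Bool → Ty k0 KK d L := fun x b => T (r x b) with hR
  have hm0 : 0 ≤ m1 := (Finset.sum_nonneg fun x _ => ht x).trans (hm1 (p false))
  have ne : ∀ {i j : ι}, Perp (T i) (T j) → j ≠ i := by
    rintro i j h rfl
    exact (hT j).aniso h
  let Pr : κ → Prop := fun x => OkI T p (r x)
  have hK₀' : 0 ≤ K₀ := le_trans (by positivity) hK₀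
  have h1 : ∀ a : Bool, ∀ y : U KK d 2 L, ∑ x : {x // Pr x} with (∃ α c : k0, (α ≠ 0 ∨ c ≠ 0) ∧
      α • uvec (2 ^ e) 2 (R x.1 false) + c • uvec (2 ^ e) 2 (R x.1 true) - y ∈
        Sp2 (2 ^ e) (X a) (X !a)), t x.1 ≤ m1 := by
    intro a y
    have h2 := PBFac989.h1_sum hK hT hLI (2 ^ e) hL (p := p a) (p' := p !a)
      (fun x : {x // Pr x} => r x.1 false) (fun x => r x.1 true)
      (fun x => ne (x.2.1 a false)) (fun x => ne (x.2.1 (!a) false))
      (fun x => ne (x.2.1 a true)) (fun x => ne (x.2.1 (!a) true)) (fun x => x.2.2)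
      (fun x => t x.1) (fun x => ht _) m1 hm0 (fun i => ?_) y
    · refine le_trans (le_of_eq ?_) h2
      refine Finset.sum_congr ?_ fun _ _ => rfl
      ext x
      simp only [Finset.mem_filter]
      exact Iff.rfl
    · refine le_trans (sub_sum_le Pr _ t ht (univ.filter fun x => r x false = i ∨ r x true = i) ?_)
        (hm1 i)
      intro x hx
      rw [Finset.mem_filter]
      exact ⟨Finset.mem_univ _, hx⟩
  have key := PBSD895.special_mass (fun x : {x // Pr x} => uvec (2 ^ e) 2 (R x.1 false))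
    (fun x => uvec (2 ^ e) 2 (R x.1 true)) (Sp2 (2 ^ e) (X false) (X true))
    (Sp2 (2 ^ e) (X true) (X false)) (fun x => t x.1) (fun x => ht _) m1 (h1 false) (h1 true)
    (Cs (2 ^ e) X) (fun x => winX (2 ^ e) 2 X (R x.1)) ?_ μ hμ sμ M hM N hN K₀ hK₀' K₁ hK₁ ?_ η hη
    hnum
  · refine le_trans (le_of_eq ?_) key
    rw [Finset.sum_filter]
    have e1 : ∑ x : {x // Pr x}, (if BadS (winX (2 ^ e) 2 X (R x.1)) μ (Cs (2 ^ e) X) K₀ η then
        t x.1 else 0) = ∑ x ∈ univ.filter Pr, (if BadS (winX (2 ^ e) 2 X (R x)) μ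
          (Cs (2 ^ e) X) K₀ η then t x else 0) := by
      symm
      refine Finset.sum_subtype (f := fun x => if BadS (winX (2 ^ e) 2 X (R x)) μ
          (Cs (2 ^ e) X) K₀ η then t x else 0) _ (fun x => ?_)
      rw [Finset.mem_filter]
      exact and_iff_right (Finset.mem_univ _)
    rw [e1, Finset.sum_filter]
    refine Finset.sum_congr rfl fun x _ => ?_
    by_cases h2 : Pr x
    · by_cases h3 : BadS (winX (2 ^ e) 2 X (R x)) μ (Cs (2 ^ e) X) K₀ η
      · rw [if_pos ⟨h2, h3⟩, if_pos h2, if_pos h3, mul_one]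
      · rw [if_neg (fun h => h3 h.2), if_pos h2, if_neg h3, mul_zero]
    · rw [if_neg (fun h => h2 h.1), if_neg h2, mul_zero]
  · intro x φ hφ
    have hI4 := indep4_of hT hLI p (r x.1) hp x.2
    have hnn := LocA726.nnX_le (e := e) (m := 2) (kp := 2) le_rfl (by norm_num) hK hL
      (P := X) (R := R x.1) (fun b => hT _) x.2.1 hI4 (Cs (2 ^ e) X) le_rfl
    have h3 := LocB767.rangeX_inf_le (2 ^ e) 2 X (R x.1) (Cs (2 ^ e) X) hnn ⟨hφ.2, hφ.1⟩
    obtain ⟨φ1, hφ1, φ2, hφ2, hsum⟩ := Submodule.mem_sup.1 h3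
    obtain ⟨z1, hz1, z1', hz1', h4⟩ := exists_of_mem_spw _ _ _ _ hφ1
    obtain ⟨z2, hz2, z2', hz2', h5⟩ := exists_of_mem_spw _ _ _ _ hφ2
    have hsp : ∀ a, LocB767.sp (2 ^ e) 2 2 X a = Sp2 (2 ^ e) (X a) (X !a) := fun a =>
      (SpecB730.Sp2_eq (2 ^ e) (X a) (X !a)).symm
    rw [hsp] at hz1 hz1' hz2 hz2'
    refine ⟨z1, hz1, z2, hz2, z1', hz1', z2', hz2', LinearMap.ext fun v => ?_⟩
    rw [← hsum, LinearMap.add_apply, h4, h5]
    simp only [LinearMap.add_apply]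
    show _ = v.1.1 _ _ + v.1.1 _ _ + v.2.1 _ _ + v.2.1 _ _
    ring
  · intro x
    have hI4 := indep4_of hT hLI p (r x.1) hp x.2
    have h3 := LocA726.indepX X (R x.1) hI4 false
    have h4 := ExFam726.ind2_of (k0 := k0) (L := L) e 2 (by norm_num) (kp := 2) (by norm_num)
      (R x.1 false) (R x.1 true) _ h3 (LocA726.E_ne hK hL (hT _)) (LocA726.E_ne hK hL (hT _))
      (LocA726.lam_ne (hT _)) (LocA726.lam_ne (hT _))
    have h5 := LocB767.hXI (2 ^ e) X (R x.1) (LocB767.ind2_bot h4)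
    rw [Nat.card_eq_fintype_card] at h5
    calc K₁ * (Fintype.card (EE (2 ^ e) 2 X (R x.1)) : ℝ) ≤
        K₁ * ((Fintype.card k0 : ℝ) ^ 2 * (Nat.card (LinearMap.range (winX (2 ^ e) 2 X (R x.1))) : ℝ)) :=
          mul_le_mul_of_nonneg_left h5 (by linarith)
      _ = (K₁ * (Fintype.card k0 : ℝ) ^ 2) *
          (Nat.card (LinearMap.range (winX (2 ^ e) 2 X (R x.1))) : ℝ) := by ring
      _ ≤ _ := mul_le_mul_of_nonneg_right hK₀ (Nat.cast_nonneg _)

open scoped Classical in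
/-- **THE LABEL THEOREM** of plan B (index form; `(b, C)` from `noK`). -/
theorem label [Fintype k0] [Fintype KK] [CharP KK 2] {q h m b C : ℕ} (hno : NoK q h m b C)
    (hq : Fintype.card k0 = q) {K : Set k0} (hK : Alph K) {ι : Type} {T : ι → Ty k0 KK d L}
    (hT : ∀ i, Valid K (T i))
    (hLI : ∀ J : Finset ι, J.card ≤ 6 → LinearIndependent KK (fun i : J => (T i).b))
    (e : ℕ) (hL : 0 < L) (p : Bool → ι) (hp : p false ≠ p true) {κ : Type} [Fintype κ]
    (r : κ → Bool → ι) (t : κ → ℝ) (ht : ∀ x, 0 ≤ t x) (st : ∑ x, t x ≤ 1) (m1 : ℝ)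
    (hm1 : ∀ i, ∑ x with (r x false = i ∨ r x true = i), t x ≤ m1)
    (μ : VV k0 KK d 2 L → ℝ) (hμ : ∀ f, 0 ≤ μ f) (sμ : ∑ f, μ f = 1) (M : ℝ)
    (hM : ∀ f, μ f * (Fintype.card (VV k0 KK d 2 L) : ℝ) ≤ M) (kX : ℝ) (hkX : 0 ≤ kX)
    (θ δ : ℝ) (J : ℕ) (hθ : 0 < θ) (hJ : Real.log (2 / θ) ≤ δ * J) (hm1δ : 2 * m1 / θ ≤ δ)
    (hδ1 : δ ≤ 1)
    (hnum : M * (2 * ((C : ℝ) *
      (δ ^ h + (Fintype.card (U KK d 2 L) : ℝ) ^ (2 * h + 2) * δ ^ m))) < (kX / 4) ^ (b + 1))
    (N : ℕ) (hN : 0 < N) (K₀ K₁ : ℝ) (hK₁ : 1 ≤ K₁) (hK₀ : K₁ * (Fintype.card k0 : ℝ) ^ 2 ≤ K₀)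
    (η : ℝ) (hη : 0 ≤ η) (hsd : M * 2 ^ N * K₁ ^ (-(η * N / 2)) < η / 2)
    (hNm : 4 * (Fintype.card k0 : ℝ) ^ (2 * N) * m1 ≤ θ) :
    ∃ Ys : Fin J → Bool × U KK d 2 L, ∑ x, t x * (if OkI T p (r x) ∧
      (∀ i, ¬ killT (2 ^ e) (fun a => T (p a)) (Ys i) (fun b => T (r x b))) ∧
      (BadK (winX (2 ^ e) 2 (fun a => T (p a)) (fun b => T (r x b))) μ
          (Cs (2 ^ e) fun a => T (p a)) kX ∨
        BadS (winX (2 ^ e) 2 (fun a => T (p a)) (fun b => T (r x b))) μ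
          (Cs (2 ^ e) fun a => T (p a)) K₀ η) then 1 else 0) ≤ θ := by
  obtain ⟨Ys, hYs⟩ := massK hno hq hK hT hLI e hL p r t ht st m1 hm1 μ hμ sμ M hM kX hkX (θ / 2) δ J
    (by linarith) (by
      have : (1 : ℝ) / (θ / 2) = 2 / θ := by field_simp
      rw [this]; exact hJ) (by
      have : m1 / (θ / 2) = 2 * m1 / θ := by field_simp
      rw [this]; exact hm1δ) hδ1 hnum
  have h2 := massS hK hT hLI e hL p hp r t ht m1 hm1 μ hμ sμ M hM N hN K₀ K₁ hK₁ hK₀ η hη hsd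
  refine ⟨Ys, ?_⟩
  have h3 : ∑ x, t x * (if OkI T p (r x) ∧
      (∀ i, ¬ killT (2 ^ e) (fun a => T (p a)) (Ys i) (fun b => T (r x b))) ∧
      (BadK (winX (2 ^ e) 2 (fun a => T (p a)) (fun b => T (r x b))) μ
          (Cs (2 ^ e) fun a => T (p a)) kX ∨
        BadS (winX (2 ^ e) 2 (fun a => T (p a)) (fun b => T (r x b))) μ
          (Cs (2 ^ e) fun a => T (p a)) K₀ η) then (1 : ℝ) else 0) ≤
      ∑ x, t x * (if OkI T p (r x) ∧
        (∀ i, ¬ killT (2 ^ e) (fun a => T (p a)) (Ys i) (fun b => T (r x b))) ∧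
        BadK (winX (2 ^ e) 2 (fun a => T (p a)) (fun b => T (r x b))) μ
          (Cs (2 ^ e) fun a => T (p a)) kX then 1 else 0) +
      ∑ x, t x * (if OkI T p (r x) ∧
        BadS (winX (2 ^ e) 2 (fun a => T (p a)) (fun b => T (r x b))) μ
          (Cs (2 ^ e) fun a => T (p a)) K₀ η then 1 else 0) := by
    rw [← Finset.sum_add_distrib]
    refine Finset.sum_le_sum fun x _ => ?_
    rw [← mul_add]
    refine mul_le_mul_of_nonneg_left ?_ (ht x)
    by_cases h4 : OkI T p (r x) ∧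
      (∀ i, ¬ killT (2 ^ e) (fun a => T (p a)) (Ys i) (fun b => T (r x b))) ∧
      (BadK (winX (2 ^ e) 2 (fun a => T (p a)) (fun b => T (r x b))) μ
          (Cs (2 ^ e) fun a => T (p a)) kX ∨
        BadS (winX (2 ^ e) 2 (fun a => T (p a)) (fun b => T (r x b))) μ
          (Cs (2 ^ e) fun a => T (p a)) K₀ η)
    · rw [if_pos h4]
      rcases h4.2.2 with h5 | h5
      · rw [if_pos ⟨h4.1, h4.2.1, h5⟩]
        split_ifs <;> norm_num
      · rw [if_pos (⟨h4.1, h5⟩ : OkI T p (r x) ∧ _)]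
        split_ifs <;> norm_num
    · rw [if_neg h4]
      split_ifs <;> norm_num
  linarith

end Crest.Agent.R042.PBLabel341
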