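import Crest.Agent.R042.PBDefs_341
import Crest.Agent.R042.PBGreedy_895

/-!
# Plan B of row 42 / S0059: the LABEL THEOREM, core (helper365, second of 59B.18)

From a sub-probability `p` on blocks, remove greedily the blocks killed by few points `Y`; if the bad
blocks still carry mass `> θ₀` then the normalised restriction satisfies `Hyp` at both ends.
-/

set_option autoImplicit false

namespace Crest.Agent.R042.PBLabel365

open Finset Crest.Agent.R042.PB Crest.Agent.R042.RowWin543 Crest.Agent.R042.PBGreedy895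
open scoped Classical

variable {k U κ : Type} [Field k] [AddCommGroup U] [Module k U]

/-- blocks killed by a point at one end -/
def XE (B : Blk k U κ) (Y : U) (e : κ) : Prop :=
  Y ∉ B.Sp ∧ ∃ a c : k, Y + a • B.u e + c • B.u' e ∈ B.D e ∨ Y + a • B.u e + c • B.u' e ∈ B.D' e

/-- blocks killed by a point at the end `y.1` -/
def XX (B B' : Blk k U κ) (y : Bool × U) (e : κ) : Prop :=
  (y.1 = false ∧ XE B y.2 e) ∨ (y.1 = true ∧ XE B' y.2 e)

theorem not_XX_zero (B B' : Blk k U κ) (e : κ) : ¬ XX B B' (false, 0) e := by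
  rintro (⟨_, h, _⟩ | ⟨h, _⟩)
  · exact h (Submodule.zero_mem _)
  · exact absurd h (by simp)

/-- the deterministic part of `Hyp` -/
structure Facts (B : Blk k U κ) : Prop where
  sp : ∀ e, B.Sp ≤ B.D e
  sp' : ∀ e, B.Sp ≤ B.D' e
  ind : ∀ e, ∀ a c : k, a • B.u e + c • B.u' e ∈ B.Sp → a = 0 ∧ c = 0
  aniso : ∀ e, ∀ s ∈ B.Sp, ∀ a c : k, s + a • B.u e + c • B.u' e ∈ B.D e → a = 0
  aniso' : ∀ e, ∀ s ∈ B.Sp, ∀ a c : k, s + a • B.u e + c • B.u' e ∈ B.D' e → c = 0

/-- the blocks dependent on `y` modulo the special space -/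
def H1 (B : Blk k U κ) (y : U) (e : κ) : Prop :=
  ∃ a c : k, (a ≠ 0 ∨ c ≠ 0) ∧ a • B.u e + c • B.u' e - y ∈ B.Sp

variable [Fintype κ]

/-- the normalised restriction -/
noncomputable def res (p : κ → ℝ) (S : Finset κ) (e : κ) : ℝ :=
  if e ∈ S then p e / ∑ x ∈ S, p x else 0

omit [Fintype κ] in
theorem res_nonneg {p : κ → ℝ} (hp : ∀ e, 0 ≤ p e) (S : Finset κ) (e : κ) : 0 ≤ res p S e := by
  unfold res
  split_ifs
  · exact div_nonneg (hp e) (Finset.sum_nonneg fun x _ => hp x)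
  · exact le_rfl

theorem sum_res_filter (p : κ → ℝ) (S : Finset κ) (C : κ → Prop) :
    ∑ e with C e, res p S e = (∑ e ∈ S with C e, p e) / ∑ x ∈ S, p x := by
  rw [Finset.sum_div, Finset.sum_filter, Finset.sum_filter]
  rw [← Finset.sum_subset (Finset.subset_univ S)]
  · refine Finset.sum_congr rfl fun e he => ?_
    simp only [res, if_pos he]
  · intro e _ he
    simp only [res, if_neg he, ite_self]

theorem sum_res {p : κ → ℝ} {S : Finset κ} (hS : 0 < ∑ x ∈ S, p x) : ∑ e, res p S e = 1 := by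
  have h := sum_res_filter p S (fun _ => True)
  simp only [Finset.filter_true] at h
  rw [h, div_self hS.ne']

theorem hyp_res {B : Blk k U κ} (F : Facts B) {p : κ → ℝ} (hp : ∀ e, 0 ≤ p e) {S : Finset κ}
    (hS : 0 < ∑ x ∈ S, p x) {δ : ℝ}
    (h1 : ∀ y, ∑ e ∈ S with H1 B y e, p e ≤ δ * ∑ x ∈ S, p x)
    (h2 : ∀ Y, ∑ e ∈ S with XE B Y e, p e ≤ δ * ∑ x ∈ S, p x) :
    Hyp B (res p S) δ where
  nonneg := res_nonneg hp S
  sum := sum_res hS
  sp := F.sp
  sp' := F.sp'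
  ind := F.ind
  aniso := F.aniso
  aniso' := F.aniso'
  h1 := by
    intro y
    have h := sum_res_filter p S (H1 B y)
    unfold H1 at h
    rw [h, div_le_iff₀ hS]
    exact h1 y
  h2 := by
    intro Y hY a c
    rw [sum_res_filter, div_le_iff₀ hS]
    refine le_trans (Finset.sum_le_sum_of_subset_of_nonneg ?_ fun e _ _ => hp e) (h2 Y)
    intro e he
    rw [mem_filter] at he ⊢
    exact ⟨he.1, hY, a, c, Or.inl he.2⟩
  h2' := by
    intro Y hY a c
    rw [sum_res_filter, div_le_iff₀ hS]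
    refine le_trans (Finset.sum_le_sum_of_subset_of_nonneg ?_ fun e _ _ => hp e) (h2 Y)
    intro e he
    rw [mem_filter] at he ⊢
    exact ⟨he.1, hY, a, c, Or.inr he.2⟩

/-- **the core of the label theorem** -/
theorem label_core (B B' : Blk k U κ) (F : Facts B) (F' : Facts B')
    (p : κ → ℝ) (hp : ∀ e, 0 ≤ p e) (sp : ∑ e, p e ≤ 1) (α : ℝ)
    (h1 : ∀ y, ∑ e with H1 B y e, p e ≤ α) (h1' : ∀ y, ∑ e with H1 B' y e, p e ≤ α)
    (θ₀ p₀ δ : ℝ) (hθ : 0 < θ₀) (hp1 : p₀ ≤ 1) (J : ℕ) (hJ : Real.log (1 / θ₀) ≤ p₀ * J)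
    (hα : 2 * α ≤ δ * θ₀) (hδ : 2 * p₀ ≤ δ)
    (Bad1 Bad2 : κ → Prop)
    (hK : ∀ τ : κ → ℝ, Hyp B τ δ → Hyp B' τ δ → (∀ e, τ e ≠ 0 → Bad1 e) → False)
    (hS : ∀ τ : κ → ℝ, Hyp B τ δ → Hyp B' τ δ → (∀ e, τ e ≠ 0 → Bad2 e) → False) :
    ∃ θ : Fin J → Bool × U,
      ∑ e with (∀ i, ¬ XX B B' (θ i) e) ∧ (Bad1 e ∨ Bad2 e), p e ≤ θ₀ := by
  set p1 : κ → ℝ := fun e => if Bad1 e ∨ Bad2 e then p e else 0 with hp1d
  have hp10 : ∀ e, 0 ≤ p1 e := by
    intro e
    simp only [hp1d]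
    split_ifs
    · exact hp e
    · exact le_rfl
  have hp11 : ∑ e, p1 e ≤ 1 := by
    refine le_trans (Finset.sum_le_sum fun e _ => ?_) sp
    simp only [hp1d]
    split_ifs
    · exact le_rfl
    · exact hp e
  obtain ⟨l, hl, h⟩ := greedy' p1 hp10 hp11 (XX B B') p₀ hp1 J θ₀ hθ hJ
  -- the data
  have hdata : ∃ θ : Fin J → Bool × U, ∀ e, (∀ i, ¬ XX B B' (θ i) e) → e ∈ left (XX B B') l := by
    refine ⟨fun i => if h : (i : ℕ) < l.length then l[(i : ℕ)] else (false, 0), ?_⟩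
    intro e he
    rw [mem_left]
    intro Y hY
    obtain ⟨n, hn, hn2⟩ := List.getElem_of_mem hY
    have := he ⟨n, lt_of_lt_of_le hn hl⟩
    simp only [hn, dif_pos] at this
    rwa [hn2] at this
  obtain ⟨θ, hθd⟩ := hdata
  have hsum : ∑ e with (∀ i, ¬ XX B B' (θ i) e) ∧ (Bad1 e ∨ Bad2 e), p e
      ≤ ∑ e ∈ left (XX B B') l, p1 e := by
    have e1 : ∑ e with (∀ i, ¬ XX B B' (θ i) e) ∧ (Bad1 e ∨ Bad2 e), p e
        = ∑ e with (∀ i, ¬ XX B B' (θ i) e) ∧ (Bad1 e ∨ Bad2 e), p1 e := by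
      refine Finset.sum_congr rfl fun e he => ?_
      have := (mem_filter.mp he).2.2
      simp only [hp1d, if_pos this]
    rw [e1]
    refine Finset.sum_le_sum_of_subset_of_nonneg ?_ fun e _ _ => hp10 e
    intro e he
    exact hθd e (mem_filter.mp he).2.1
  refine ⟨θ, hsum.trans ?_⟩
  rcases h with h | h
  swap
  · exact h
  -- otherwise
  by_contra hcon
  push Not at hcon
  set L := left (XX B B') l with hL
  set M0 := ∑ e ∈ L, p1 e with hM0
  have hM0pos : 0 < M0 := hθ.trans hcon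
  -- the general step
  have step : ∀ Bd : κ → Prop, (∀ e, Bd e → Bad1 e ∨ Bad2 e) →
      M0 / 2 ≤ ∑ e ∈ L with Bd e, p e →
      (∀ τ : κ → ℝ, Hyp B τ δ → Hyp B' τ δ → (∀ e, τ e ≠ 0 → Bd e) → False) → False := by
    intro Bd hBd hm hfalse
    set S : Finset κ := L.filter Bd with hSdef
    have hSpos : 0 < ∑ x ∈ S, p x := lt_of_lt_of_le (by linarith) hm
    have hδ0 : 0 ≤ δ := by
      have hα0 : 0 ≤ α := le_trans (Finset.sum_nonneg fun e _ => hp e) (h1 0)
      by_contra hneg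
      push Not at hneg
      nlinarith
    have hp0 : ∀ Y, ∑ e ∈ S with XX B B' Y e, p e ≤ δ * ∑ x ∈ S, p x := by
      intro Y
      have e1 : ∑ e ∈ S with XX B B' Y e, p e ≤ ∑ e ∈ L.filter (fun e => XX B B' Y e), p1 e := by
        have e2 : ∑ e ∈ S with XX B B' Y e, p e = ∑ e ∈ S with XX B B' Y e, p1 e := by
          refine Finset.sum_congr rfl fun e he => ?_
          have h3 : Bd e := (mem_filter.mp (mem_filter.mp he).1).2
          simp only [hp1d, if_pos (hBd e h3)]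
        rw [e2]
        refine Finset.sum_le_sum_of_subset_of_nonneg ?_ fun e _ _ => hp10 e
        intro e he
        rw [mem_filter] at he ⊢
        exact ⟨(mem_filter.mp he.1).1, he.2⟩
      have e3 := h Y
      have e4 : p₀ * M0 ≤ δ * (M0 / 2) := by nlinarith
      calc _ ≤ p₀ * M0 := e1.trans e3
        _ ≤ δ * (M0 / 2) := e4
        _ ≤ δ * ∑ x ∈ S, p x := mul_le_mul_of_nonneg_left hm hδ0
    have hαS : ∀ (G : Blk k U κ), (∀ y, ∑ e with H1 G y e, p e ≤ α) →
        ∀ y, ∑ e ∈ S with H1 G y e, p e ≤ δ * ∑ x ∈ S, p x := by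
      intro G hG y
      have e1 : ∑ e ∈ S with H1 G y e, p e ≤ ∑ e with H1 G y e, p e := by
        refine Finset.sum_le_sum_of_subset_of_nonneg ?_ fun e _ _ => hp e
        intro e he
        rw [mem_filter] at he ⊢
        exact ⟨mem_univ _, he.2⟩
      have e2 : α ≤ δ * (M0 / 2) := by nlinarith
      calc _ ≤ α := e1.trans (hG y)
        _ ≤ δ * (M0 / 2) := e2
        _ ≤ δ * ∑ x ∈ S, p x := mul_le_mul_of_nonneg_left hm hδ0
    refine hfalse (res p S) (hyp_res F hp hSpos (hαS B h1) ?_) (hyp_res F' hp hSpos (hαS B' h1') ?_)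
      ?_
    · intro Y
      refine le_trans (Finset.sum_le_sum_of_subset_of_nonneg ?_ fun e _ _ => hp e) (hp0 (false, Y))
      intro e he
      rw [mem_filter] at he ⊢
      exact ⟨he.1, Or.inl ⟨rfl, he.2⟩⟩
    · intro Y
      refine le_trans (Finset.sum_le_sum_of_subset_of_nonneg ?_ fun e _ _ => hp e) (hp0 (true, Y))
      intro e he
      rw [mem_filter] at he ⊢
      exact ⟨he.1, Or.inr ⟨rfl, he.2⟩⟩
    · intro e he
      by_contra hBe
      apply he
      unfold res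
      rw [if_neg]
      intro heS
      exact hBe (mem_filter.mp heS).2
  have hsplit : M0 ≤ ∑ e ∈ L with Bad1 e, p e + ∑ e ∈ L with Bad2 e, p e := by
    rw [hM0, Finset.sum_filter, Finset.sum_filter, ← Finset.sum_add_distrib]
    refine Finset.sum_le_sum fun e _ => ?_
    simp only [hp1d]
    have := hp e
    by_cases b1 : Bad1 e <;> by_cases b2 : Bad2 e <;> simp [b1, b2, this]
  rcases le_total (M0 / 2) (∑ e ∈ L with Bad1 e, p e) with h3 | h3
  · exact step Bad1 (fun e he => Or.inl he) h3 hK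
  · refine step Bad2 (fun e he => Or.inr he) ?_ hS
    linarith

end Crest.Agent.R042.PBLabel365
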