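import Crest.Agent.R042.PBMom_253
import Crest.Agent.R042.PBDefs_341
import Crest.Agent.R042.SymInst_695

/-!
Row 42, S0059, PLAN B, step (4) MOMENTS in the letters of PBDefs_341 (helper253).
-/

set_option autoImplicit false

namespace Crest.Agent.R042.PBMom253

open Finset Crest.Agent.R042.Conf921 Crest.Agent.R042.KLsup313
open Crest.Agent.R042.PB Crest.Agent.R042.RowWin543

section G

variable {k V : Type*} [Field k] [AddCommGroup V] [Module k V] [Fintype V]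

open Classical in
/-- (M4) with test functions as hypotheses -/
theorem mom_g [Finite k] [Module.Finite k V] {κ : Type*} [Fintype κ]
    (W C : κ → Submodule k (Module.Dual k V))
    (τ : κ → ℝ) (hτ : ∀ i, 0 ≤ τ i) (sτ : ∑ i, τ i = 1)
    (μ : V → ℝ) (hμ : ∀ f, 0 ≤ μ f) (sμ : ∑ f, μ f = 1) (Ma : ℝ)
    (hM : ∀ f, μ f * (Fintype.card V : ℝ) ≤ Ma) (ε : ℝ) (hε : 0 ≤ ε)
    (g : κ → V → ℝ) (hg1 : ∀ i f, |g i f| ≤ 1)
    (hgdep : ∀ i f, ∀ h ∈ ker (W i), g i (f + h) = g i f)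
    (hgcond : ∀ i f, ∑ u : ker (C i), g i (f + (u : V)) = 0)
    (hav : ε ≤ ∑ i, τ i * ∑ f, μ f * g i f) (b : ℕ) (hb : Even b) :
    (ε / 2) ^ (b + 1) ≤ Ma * ∑ κs ∈ univ.filter (fun κs : Fin b → κ =>
        ∃ w : Fin b → Module.Dual k V, (∀ i, w i ∈ W (κs i)) ∧ ∑ i, w i = 0 ∧
          b ≤ 2 * {i | w i ∉ C (κs i)}.ncard),
      ∏ i, τ (κs i) := by
  have hgc : ∀ i f, avg (ker (C i)) (g i) f = 0 := by
    intro i f
    unfold avg
    rw [hgcond i f, zero_div]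
  have hm := moment τ hτ sτ g hg1 μ hμ sμ Ma hM ε hε hav b hb
  have hMa : 0 ≤ Ma := (mul_nonneg (hμ 0) (Nat.cast_nonneg _)).trans (hM 0)
  refine hm.trans (mul_le_mul_of_nonneg_left ?_ hMa)
  refine Finset.sum_le_sum_of_subset_of_nonneg ?_ (fun κs _ _ => Finset.prod_nonneg fun i _ => hτ _)
  intro κs hκs
  rw [Finset.mem_filter] at hκs ⊢
  refine ⟨mem_univ _, ?_⟩
  have h := many (k := k) (fun i => W (κs i)) (fun i => C (κs i)) ?_
  · obtain ⟨w, h1, h2, h3⟩ := h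
    rw [Fintype.card_fin] at h3
    exact ⟨w, h1, h2, h3⟩
  · intro i0
    by_contra hcon
    push Not at hcon
    exact hκs.2 (zero_exp (fun i => W (κs i)) (fun i => C (κs i)) (fun i => g (κs i))
      (fun i => hgdep (κs i)) (fun i => hgc (κs i)) i0 (fun w h1 h2 => hcon w h1 h2))

end G

section Blocks

variable {k U κ : Type} [Field k] [AddCommGroup U] [Module k U]

/-- the functional `(f, f') ↦ f(u,z₁) + f(u',z₂) + f'(v,z₃) + f'(v',z₄)` -/
noncomputable def Lam (u u' v v' : U) :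
    (U × U × U × U) →ₗ[k] Module.Dual k (SymForm k U × SymForm k U) :=
  LinearMap.mk₂ k (fun z p => (p.1 : U →ₗ[k] U →ₗ[k] k) u z.1 + (p.1 : U →ₗ[k] U →ₗ[k] k) u' z.2.1
      + (p.2 : U →ₗ[k] U →ₗ[k] k) v z.2.2.1 + (p.2 : U →ₗ[k] U →ₗ[k] k) v' z.2.2.2)
    (fun z z' p => by simp only [Prod.fst_add, Prod.snd_add, map_add]; ring)
    (fun c z p => by simp only [Prod.smul_fst, Prod.smul_snd, map_smul, smul_eq_mul]; ring)
    (fun z p p' => by
      simp only [Prod.fst_add, Prod.snd_add, Submodule.coe_add, LinearMap.add_apply]; ring)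
    (fun c z p => by
      simp only [Prod.smul_fst, Prod.smul_snd, Submodule.coe_smul, LinearMap.smul_apply,
        smul_eq_mul]; ring)

lemma Lam_apply (u u' v v' : U) (z : U × U × U × U) (p : SymForm k U × SymForm k U) :
    Lam (k := k) u u' v v' z p = (p.1 : U →ₗ[k] U →ₗ[k] k) u z.1
      + (p.1 : U →ₗ[k] U →ₗ[k] k) u' z.2.1
      + (p.2 : U →ₗ[k] U →ₗ[k] k) v z.2.2.1 + (p.2 : U →ₗ[k] U →ₗ[k] k) v' z.2.2.2 := rfl

/-- functionals of the four windows at the block `e` -/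
noncomputable def WW (B B' : Blk k U κ) (e : κ) :
    Submodule k (Module.Dual k (SymForm k U × SymForm k U)) :=
  ((B.D e).prod ((B.D' e).prod ((B'.D e).prod (B'.D' e)))).map
    (Lam (B.u e) (B.u' e) (B'.u e) (B'.u' e))

/-- special functionals at the block `e` -/
noncomputable def CC (B B' : Blk k U κ) (e : κ) :
    Submodule k (Module.Dual k (SymForm k U × SymForm k U)) :=
  (B.Sp.prod (B.Sp.prod (B'.Sp.prod B'.Sp))).map
    (Lam (B.u e) (B.u' e) (B'.u e) (B'.u' e))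

lemma mem_ker_WW (B B' : Blk k U κ) (e : κ) (p : SymForm k U × SymForm k U) :
    p ∈ ker (WW B B' e) ↔
      (∀ z ∈ B.D e, (p.1 : U →ₗ[k] U →ₗ[k] k) (B.u e) z = 0) ∧
      (∀ z ∈ B.D' e, (p.1 : U →ₗ[k] U →ₗ[k] k) (B.u' e) z = 0) ∧
      (∀ z ∈ B'.D e, (p.2 : U →ₗ[k] U →ₗ[k] k) (B'.u e) z = 0) ∧
      (∀ z ∈ B'.D' e, (p.2 : U →ₗ[k] U →ₗ[k] k) (B'.u' e) z = 0) := by
  rw [mem_ker]
  constructor
  · intro h
    refine ⟨fun z hz => ?_, fun z hz => ?_, fun z hz => ?_, fun z hz => ?_⟩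
    · have := h (Lam (B.u e) (B.u' e) (B'.u e) (B'.u' e) (z, 0, 0, 0))
        (Submodule.mem_map_of_mem (by simp [hz]))
      simpa [Lam_apply] using this
    · have := h (Lam (B.u e) (B.u' e) (B'.u e) (B'.u' e) (0, z, 0, 0))
        (Submodule.mem_map_of_mem (by simp [hz]))
      simpa [Lam_apply] using this
    · have := h (Lam (B.u e) (B.u' e) (B'.u e) (B'.u' e) (0, 0, z, 0))
        (Submodule.mem_map_of_mem (by simp [hz]))
      simpa [Lam_apply] using this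
    · have := h (Lam (B.u e) (B.u' e) (B'.u e) (B'.u' e) (0, 0, 0, z))
        (Submodule.mem_map_of_mem (by simp [hz]))
      simpa [Lam_apply] using this
  · rintro ⟨h1, h2, h3, h4⟩ w ⟨z, hz, rfl⟩
    simp only [SetLike.mem_coe, Submodule.mem_prod] at hz
    rw [Lam_apply, h1 _ hz.1, h2 _ hz.2.1, h3 _ hz.2.2.1, h4 _ hz.2.2.2]
    simp

lemma mem_ker_CC (B B' : Blk k U κ) (e : κ) (p : SymForm k U × SymForm k U) :
    p ∈ ker (CC B B' e) ↔
      (∀ z ∈ B.Sp, (p.1 : U →ₗ[k] U →ₗ[k] k) (B.u e) z = 0) ∧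
      (∀ z ∈ B.Sp, (p.1 : U →ₗ[k] U →ₗ[k] k) (B.u' e) z = 0) ∧
      (∀ z ∈ B'.Sp, (p.2 : U →ₗ[k] U →ₗ[k] k) (B'.u e) z = 0) ∧
      (∀ z ∈ B'.Sp, (p.2 : U →ₗ[k] U →ₗ[k] k) (B'.u' e) z = 0) := by
  rw [mem_ker]
  constructor
  · intro h
    refine ⟨fun z hz => ?_, fun z hz => ?_, fun z hz => ?_, fun z hz => ?_⟩
    · have := h (Lam (B.u e) (B.u' e) (B'.u e) (B'.u' e) (z, 0, 0, 0))
        (Submodule.mem_map_of_mem (by simp [hz]))
      simpa [Lam_apply] using this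
    · have := h (Lam (B.u e) (B.u' e) (B'.u e) (B'.u' e) (0, z, 0, 0))
        (Submodule.mem_map_of_mem (by simp [hz]))
      simpa [Lam_apply] using this
    · have := h (Lam (B.u e) (B.u' e) (B'.u e) (B'.u' e) (0, 0, z, 0))
        (Submodule.mem_map_of_mem (by simp [hz]))
      simpa [Lam_apply] using this
    · have := h (Lam (B.u e) (B.u' e) (B'.u e) (B'.u' e) (0, 0, 0, z))
        (Submodule.mem_map_of_mem (by simp [hz]))
      simpa [Lam_apply] using this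
  · rintro ⟨h1, h2, h3, h4⟩ w ⟨z, hz, rfl⟩
    simp only [SetLike.mem_coe, Submodule.mem_prod] at hz
    rw [Lam_apply, h1 _ hz.1, h2 _ hz.2.1, h3 _ hz.2.2.1, h4 _ hz.2.2.2]
    simp

/-- both parts trivial ⇒ special functional -/
lemma mem_CC_of_triv (B B' : Blk k U κ) (e : κ)
    (z : U × U × U × U) (h1 : Triv B e z.1 z.2.1) (h2 : Triv B' e z.2.2.1 z.2.2.2) :
    Lam (B.u e) (B.u' e) (B'.u e) (B'.u' e) z ∈ CC B B' e := by
  obtain ⟨α, ha1, ha2⟩ := h1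
  obtain ⟨β, hb1, hb2⟩ := h2
  refine ⟨(z.1 - α • B.u' e, z.2.1 + α • B.u e, z.2.2.1 - β • B'.u' e, z.2.2.2 + β • B'.u e),
    ?_, ?_⟩
  · simp only [SetLike.mem_coe, Submodule.mem_prod]
    exact ⟨ha1, ha2, hb1, hb2⟩
  · refine LinearMap.ext fun p => ?_
    rw [Lam_apply, Lam_apply]
    have s1 := (mem_symForm (p.1 : U →ₗ[k] U →ₗ[k] k)).1 p.1.2 (B.u e) (B.u' e)
    have s2 := (mem_symForm (p.2 : U →ₗ[k] U →ₗ[k] k)).1 p.2.2 (B'.u e) (B'.u' e)
    simp only [map_sub, map_add, map_smul, smul_eq_mul]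
    rw [s1, s2]
    ring

open scoped Classical in
/-- the PROB sum -/
noncomputable def probSum [Fintype κ] (B : Blk k U κ) (τ : κ → ℝ) (b : ℕ) : ℝ :=
  ∑ e : Fin b → κ with (∃ z z' : Fin b → U, IsRel B e z z' ∧
        b ≤ 4 * (univ.filter fun i => ¬ Triv B (e i) (z i) (z' i)).card), ∏ i, τ (e i)

open scoped Classical in
/-- **MOM for blocks** -/
theorem mom_blk [Finite k] [Finite U] [Fintype κ]
    (B B' : Blk k U κ)
    (τ : κ → ℝ) (hτ : ∀ e, 0 ≤ τ e) (sτ : ∑ e, τ e = 1)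
    (ν : SymForm k U × SymForm k U → ℝ) (hν : ∀ f, 0 ≤ ν f) (sν : ∑ f, ν f = 1) (Ma : ℝ)
    (hM : ∀ f, ν f * (Fintype.card (SymForm k U × SymForm k U) : ℝ) ≤ Ma) (ε : ℝ) (hε : 0 ≤ ε)
    (g : κ → SymForm k U × SymForm k U → ℝ) (hg1 : ∀ e f, |g e f| ≤ 1)
    (hgdep : ∀ e f, ∀ h ∈ ker (WW B B' e), g e (f + h) = g e f)
    (hgcond : ∀ e f, ∑ u : ker (CC B B' e), g e (f + (u : SymForm k U × SymForm k U)) = 0)
    (hav : ε ≤ ∑ e, τ e * ∑ f, ν f * g e f) (b : ℕ) (hb : Even b) :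
    (ε / 2) ^ (b + 1) ≤ Ma * (probSum B τ b + probSum B' τ b) := by
  have hfin : Module.Finite k (SymForm k U × SymForm k U) := Module.Finite.of_finite
  have hm := mom_g (k := k) (WW B B') (CC B B') τ hτ sτ ν hν sν Ma hM ε hε g hg1 hgdep hgcond hav
    b hb
  have hMa : 0 ≤ Ma := (mul_nonneg (hν 0) (Nat.cast_nonneg _)).trans (hM 0)
  refine hm.trans (mul_le_mul_of_nonneg_left ?_ hMa)
  unfold probSum
  have hp : ∀ e : Fin b → κ, 0 ≤ ∏ i, τ (e i) := fun e => Finset.prod_nonneg fun i _ => hτ _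
  refine le_trans ?_ (Finset.sum_union_inter (f := fun e : Fin b → κ => ∏ i, τ (e i))).le
  refine le_trans ?_ (le_add_of_nonneg_right (Finset.sum_nonneg fun e _ => hp e))
  refine Finset.sum_le_sum_of_subset_of_nonneg ?_ (fun e _ _ => hp e)
  intro e he
  rw [Finset.mem_filter] at he
  obtain ⟨-, w, hw1, hw2, hw3⟩ := he
  choose z hz1 hz2 using hw1
  simp only [SetLike.mem_coe, Submodule.mem_prod] at hz1
  have hrel1 : IsRel B e (fun i => (z i).1) (fun i => (z i).2.1) := by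
    refine ⟨fun i => (hz1 i).1, fun i => (hz1 i).2.1, fun f hf => ?_⟩
    have h := congrArg (fun φ : Module.Dual k (SymForm k U × SymForm k U) =>
      φ ((⟨f, hf⟩ : SymForm k U), (0 : SymForm k U))) hw2
    simp only [LinearMap.sum_apply, LinearMap.zero_apply] at h
    rw [← h]
    refine Finset.sum_congr rfl fun i _ => ?_
    rw [← hz2 i, Lam_apply]
    simp
  have hrel2 : IsRel B' e (fun i => (z i).2.2.1) (fun i => (z i).2.2.2) := by
    refine ⟨fun i => (hz1 i).2.2.1, fun i => (hz1 i).2.2.2, fun f hf => ?_⟩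
    have h := congrArg (fun φ : Module.Dual k (SymForm k U × SymForm k U) =>
      φ ((0 : SymForm k U), (⟨f, hf⟩ : SymForm k U))) hw2
    simp only [LinearMap.sum_apply, LinearMap.zero_apply] at h
    rw [← h]
    refine Finset.sum_congr rfl fun i _ => ?_
    rw [← hz2 i, Lam_apply]
    simp
  set S1 := univ.filter fun i => ¬ Triv B (e i) (z i).1 (z i).2.1 with hS1
  set S2 := univ.filter fun i => ¬ Triv B' (e i) (z i).2.2.1 (z i).2.2.2 with hS2
  have hsub : {i | w i ∉ CC B B' (e i)} ⊆ ((S1 ∪ S2 : Finset (Fin b)) : Set (Fin b)) := by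
    intro i hi
    rw [Finset.mem_coe, Finset.mem_union, hS1, hS2, Finset.mem_filter, Finset.mem_filter]
    by_contra hcon
    push Not at hcon
    apply hi
    have t1 := hcon.1 (mem_univ _)
    have t2 := hcon.2 (mem_univ _)
    rw [← hz2 i]
    exact mem_CC_of_triv B B' (e i) (z i) t1 t2
  have hcard : {i | w i ∉ CC B B' (e i)}.ncard ≤ S1.card + S2.card := by
    calc {i | w i ∉ CC B B' (e i)}.ncard ≤ ((S1 ∪ S2 : Finset (Fin b)) : Set (Fin b)).ncard :=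
          Set.ncard_le_ncard hsub (Finset.finite_toSet _)
      _ = (S1 ∪ S2).card := Set.ncard_coe_finset _
      _ ≤ _ := Finset.card_union_le _ _
  rw [Finset.mem_union, Finset.mem_filter, Finset.mem_filter]
  have hor : b ≤ 4 * S1.card ∨ b ≤ 4 * S2.card := by omega
  rcases hor with h | h
  · exact Or.inl ⟨mem_univ _, _, _, hrel1, h⟩
  · exact Or.inr ⟨mem_univ _, _, _, hrel2, h⟩

open scoped Classical in
/-- **MOM + PROB** -/
theorem mom_prob {q h m : ℕ} (hP : ProbStmt q h m) : ∃ b C : ℕ, Even b ∧ 0 < b ∧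
    ∀ (k U κ : Type) [Field k] [Fintype k] [AddCommGroup U] [Module k U] [Fintype U] [Fintype κ]
      (B B' : Blk k U κ) (τ : κ → ℝ) (δ : ℝ), Fintype.card k = q → 0 ≤ δ → δ ≤ 1 →
      Hyp B τ δ → Hyp B' τ δ →
      ∀ (ν : SymForm k U × SymForm k U → ℝ), (∀ f, 0 ≤ ν f) → ∑ f, ν f = 1 → ∀ (Ma : ℝ),
      (∀ f, ν f * (Fintype.card (SymForm k U × SymForm k U) : ℝ) ≤ Ma) → ∀ (ε : ℝ), 0 ≤ ε →
      ∀ (g : κ → SymForm k U × SymForm k U → ℝ), (∀ e f, |g e f| ≤ 1) →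
      (∀ e f, ∀ h ∈ ker (WW B B' e), g e (f + h) = g e f) →
      (∀ e f, ∑ u : ker (CC B B' e), g e (f + (u : SymForm k U × SymForm k U)) = 0) →
      ε ≤ ∑ e, τ e * ∑ f, ν f * g e f →
      (ε / 2) ^ (b + 1) ≤ Ma * (2 * ((C : ℝ) * (δ ^ h + (Fintype.card U : ℝ) ^ (2 * h + 2) * δ ^ m)))
      := by
  obtain ⟨b, C, hb, hb0, hmain⟩ := hP
  refine ⟨b, C, hb, hb0, ?_⟩
  intro k U κ _ _ _ _ _ _ B B' τ δ hq hδ0 hδ1 hB hB' ν hν sν Ma hM ε hε g hg1 hgd hgc hav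
  have h1 := mom_blk B B' τ hB.nonneg hB.sum ν hν sν Ma hM ε hε g hg1 hgd hgc hav b hb
  have hMa : 0 ≤ Ma := (mul_nonneg (hν 0) (Nat.cast_nonneg _)).trans (hM 0)
  refine h1.trans (mul_le_mul_of_nonneg_left ?_ hMa)
  have e1 : probSum B τ b ≤
      (C : ℝ) * (δ ^ h + (Fintype.card U : ℝ) ^ (2 * h + 2) * δ ^ m) := by
    unfold probSum
    convert hmain k U κ B τ δ hq hδ0 hδ1 hB
  have e2 : probSum B' τ b ≤
      (C : ℝ) * (δ ^ h + (Fintype.card U : ℝ) ^ (2 * h + 2) * δ ^ m) := by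
    unfold probSum
    convert hmain k U κ B' τ δ hq hδ0 hδ1 hB'
  linarith

end Blocks

end Crest.Agent.R042.PBMom253
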