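import Crest.Agent.R042.CondFree_313

/-!
Row 42, S0059, PLAN B of helper477 (#27828), step (4) MOMENTS (helper253).
`V` = finite space of label pairs, blocks `k : κ` with functional spaces `W k` (the four windows) and
`C k ≤ W k` (the special functionals).  If a law `μ` of bounded density sees the non-special part of the
blocks of a law `τ`, then relations between `b` random blocks are not rare.
-/

set_option autoImplicit false

namespace Crest.Agent.R042.PBMom253

open Finset Crest.Agent.R042.Conf921 Crest.Agent.R042.KLsup313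

section M1

variable {𝓕 κ : Type*} [Fintype 𝓕] [Fintype κ]

open Classical in
/-- **(M1)** the moment inequality -/
theorem moment (τ : κ → ℝ) (hτ : ∀ k, 0 ≤ τ k) (sτ : ∑ k, τ k = 1) (g : κ → 𝓕 → ℝ)
    (hg : ∀ k f, |g k f| ≤ 1) (ν : 𝓕 → ℝ) (hν : ∀ f, 0 ≤ ν f) (sν : ∑ f, ν f = 1) (Ma : ℝ)
    (hM : ∀ f, ν f * (Fintype.card 𝓕 : ℝ) ≤ Ma) (ε : ℝ) (hε : 0 ≤ ε)
    (hav : ε ≤ ∑ k, τ k * ∑ f, ν f * g k f) (b : ℕ) (hb : Even b) :
    (ε / 2) ^ (b + 1) ≤ Ma * ∑ κs ∈ univ.filter (fun κs : Fin b → κ => ∑ f, ∏ i, g (κs i) f ≠ 0),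
      ∏ i, τ (κs i) := by
  set G : 𝓕 → ℝ := fun f => ∑ k, τ k * g k f with hG
  have hG1 : ∀ f, G f ≤ 1 := by
    intro f
    calc G f ≤ ∑ k, τ k * 1 := Finset.sum_le_sum fun k _ =>
          mul_le_mul_of_nonneg_left (abs_le.1 (hg k f)).2 (hτ k)
      _ = 1 := by simp [sτ]
  have hE : ε ≤ ∑ f, ν f * G f := by
    refine hav.trans (le_of_eq ?_)
    simp only [hG, Finset.mul_sum]
    rw [Finset.sum_comm]
    refine Finset.sum_congr rfl fun f _ => Finset.sum_congr rfl fun k _ => by ring
  have hne : Nonempty 𝓕 := by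
    by_contra h
    rw [not_nonempty_iff] at h
    rw [Finset.univ_eq_empty, Finset.sum_empty] at sν
    exact zero_ne_one sν
  have hc : (0 : ℝ) < (Fintype.card 𝓕 : ℝ) := by exact_mod_cast Fintype.card_pos
  have hMa : 0 ≤ Ma := by
    obtain ⟨f⟩ := hne
    exact (mul_nonneg (hν f) hc.le).trans (hM f)
  -- mass of the large set
  have h2 : ε / 2 ≤ ∑ f, if ε / 2 ≤ G f then ν f else 0 := by
    have h1 : ∑ f, ν f * G f ≤ ∑ f, ((if ε / 2 ≤ G f then ν f else 0) + ν f * (ε / 2)) := by
      refine Finset.sum_le_sum fun f _ => ?_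
      split_ifs with h
      · have := mul_le_mul_of_nonneg_left (hG1 f) (hν f)
        have := mul_nonneg (hν f) (by linarith : (0 : ℝ) ≤ ε / 2)
        linarith
      · rw [zero_add]
        exact mul_le_mul_of_nonneg_left (not_le.1 h).le (hν f)
    rw [Finset.sum_add_distrib, ← Finset.sum_mul, sν] at h1
    linarith
  have h3 : (ε / 2) ^ (b + 1) ≤ ∑ f, ν f * G f ^ b := by
    calc (ε / 2) ^ (b + 1) = (ε / 2) ^ b * (ε / 2) := pow_succ _ _
      _ ≤ (ε / 2) ^ b * ∑ f, if ε / 2 ≤ G f then ν f else 0 :=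
          mul_le_mul_of_nonneg_left h2 (pow_nonneg (by linarith) _)
      _ = ∑ f, (ε / 2) ^ b * (if ε / 2 ≤ G f then ν f else 0) := Finset.mul_sum _ _ _
      _ ≤ ∑ f, ν f * G f ^ b := by
          refine Finset.sum_le_sum fun f _ => ?_
          split_ifs with h
          · rw [mul_comm]
            exact mul_le_mul_of_nonneg_left (pow_le_pow_left₀ (by linarith) h b) (hν f)
          · rw [mul_zero]
            exact mul_nonneg (hν f) (hb.pow_nonneg _)
  have h4 : ∑ f, ν f * G f ^ b ≤ Ma / (Fintype.card 𝓕 : ℝ) * ∑ f, G f ^ b := by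
    rw [Finset.mul_sum]
    refine Finset.sum_le_sum fun f _ => mul_le_mul_of_nonneg_right ?_ (hb.pow_nonneg _)
    rw [le_div_iff₀ hc]
    exact hM f
  have h5 : ∑ f, G f ^ b = ∑ κs : Fin b → κ, (∏ i, τ (κs i)) * ∑ f, ∏ i, g (κs i) f := by
    have : ∀ f, G f ^ b = ∑ κs : Fin b → κ, (∏ i, τ (κs i)) * ∏ i, g (κs i) f := by
      intro f
      have e := Finset.prod_univ_sum (fun _ : Fin b => (univ : Finset κ))
        (fun (_ : Fin b) k => τ k * g k f)
      rw [Finset.prod_const, Finset.card_univ, Fintype.card_fin, Fintype.piFinset_univ] at e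
      rw [hG, e]
      exact Finset.sum_congr rfl fun κs _ => Finset.prod_mul_distrib
    simp_rw [this]
    rw [Finset.sum_comm]
    exact Finset.sum_congr rfl fun κs _ => (Finset.mul_sum _ _ _).symm
  have h6 : ∑ f, G f ^ b ≤ (Fintype.card 𝓕 : ℝ) *
      ∑ κs ∈ univ.filter (fun κs : Fin b → κ => ∑ f, ∏ i, g (κs i) f ≠ 0), ∏ i, τ (κs i) := by
    rw [h5, Finset.sum_filter, Finset.mul_sum]
    refine Finset.sum_le_sum fun κs _ => ?_
    have hp : 0 ≤ ∏ i, τ (κs i) := Finset.prod_nonneg fun i _ => hτ _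
    split_ifs with h
    · rw [mul_comm]
      refine mul_le_mul_of_nonneg_right ?_ hp
      calc ∑ f, ∏ i, g (κs i) f ≤ ∑ _f : 𝓕, (1 : ℝ) := by
            refine Finset.sum_le_sum fun f _ => ?_
            calc ∏ i, g (κs i) f ≤ |∏ i, g (κs i) f| := le_abs_self _
              _ = ∏ i, |g (κs i) f| := Finset.abs_prod _ _
              _ ≤ 1 := Finset.prod_le_one (fun i _ => abs_nonneg _) fun i _ => hg _ _
        _ = (Fintype.card 𝓕 : ℝ) := by simp
    · rw [not_not] at h
      rw [h, mul_zero, mul_zero]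
  calc (ε / 2) ^ (b + 1) ≤ ∑ f, ν f * G f ^ b := h3
    _ ≤ Ma / (Fintype.card 𝓕 : ℝ) * ∑ f, G f ^ b := h4
    _ ≤ Ma / (Fintype.card 𝓕 : ℝ) * ((Fintype.card 𝓕 : ℝ) *
      ∑ κs ∈ univ.filter (fun κs : Fin b → κ => ∑ f, ∏ i, g (κs i) f ≠ 0), ∏ i, τ (κs i)) :=
        mul_le_mul_of_nonneg_left h6 (div_nonneg hMa hc.le)
    _ = _ := by field_simp

end M1

section M2

variable {k V : Type*} [Field k] [AddCommGroup V] [Module k V] [Fintype V]

/-- the common kernel of a space of functionals -/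
abbrev ker (W : Submodule k (Module.Dual k V)) : AddSubgroup V := W.dualCoannihilator.toAddSubgroup

omit [Fintype V] in
lemma mem_ker {W : Submodule k (Module.Dual k V)} {v : V} :
    v ∈ ker W ↔ ∀ w ∈ W, w v = 0 := by
  simp only [ker, Submodule.mem_toAddSubgroup, Submodule.mem_dualCoannihilator]

omit [Fintype V] in
lemma ker_anti {W W' : Submodule k (Module.Dual k V)} (h : W ≤ W') : ker W' ≤ ker W :=
  fun _ hv => mem_ker.2 fun w hw => mem_ker.1 hv w (h hw)

lemma ker_le_sup [Module.Finite k V] {A B C : Submodule k (Module.Dual k V)} (h : A ⊓ B ≤ C) :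
    ker C ≤ ker A ⊔ ker B := by
  have h1 : C.dualCoannihilator ≤ A.dualCoannihilator ⊔ B.dualCoannihilator := by
    have e : (A.dualCoannihilator ⊔ B.dualCoannihilator).dualAnnihilator = A ⊓ B := by
      rw [Submodule.dualAnnihilator_sup_eq, Subspace.dualCoannihilator_dualAnnihilator_eq,
        Subspace.dualCoannihilator_dualAnnihilator_eq]
    have e2 : A.dualCoannihilator ⊔ B.dualCoannihilator = (A ⊓ B).dualCoannihilator := by
      rw [← e, Subspace.dualAnnihilator_dualCoannihilator_eq]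
    rw [e2]
    exact Submodule.dualCoannihilator_anti h
  intro v hv
  have hv' : v ∈ A.dualCoannihilator ⊔ B.dualCoannihilator := h1 hv
  obtain ⟨x, hx, y, hy, rfl⟩ := Submodule.mem_sup.1 hv'
  exact AddSubgroup.add_mem _ (AddSubgroup.mem_sup_left hx) (AddSubgroup.mem_sup_right hy)

/-- **(M2)** zero expectation -/
theorem zero_exp [Module.Finite k V] {ι : Type*} [Fintype ι] [DecidableEq ι]
    (W C : ι → Submodule k (Module.Dual k V)) (g : ι → V → ℝ)
    (hdep : ∀ i f, ∀ h ∈ ker (W i), g i (f + h) = g i f)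
    (hcond : ∀ i f, avg (ker (C i)) (g i) f = 0) (i0 : ι)
    (hrel : ∀ w : ι → Module.Dual k V, (∀ i, w i ∈ W i) → ∑ i, w i = 0 → w i0 ∈ C i0) :
    ∑ f, ∏ i, g i f = 0 := by
  classical
  set W' : Submodule k (Module.Dual k V) := ⨆ i ∈ univ.erase i0, W i with hW'
  have hle : W' ⊓ W i0 ≤ C i0 := by
    rintro w ⟨hw1, hw2⟩
    rw [hW', SetLike.mem_coe, Submodule.mem_iSup_finset_iff_exists_sum] at hw1
    obtain ⟨u, hu⟩ := hw1
    have h := hrel (fun i => if i = i0 then -w else (u i : Module.Dual k V)) ?_ ?_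
    · simp only [if_true] at h
      exact (Submodule.neg_mem_iff _).1 h
    · intro i
      by_cases hi : i = i0
      · subst hi
        simp only [if_true]
        exact Submodule.neg_mem _ hw2
      · simp only [if_neg hi]
        exact (u i).2
    · rw [← Finset.add_sum_erase _ _ (mem_univ i0)]
      simp only [if_true]
      have : ∑ x ∈ univ.erase i0, (if x = i0 then -w else (u x : Module.Dual k V)) = w := by
        rw [← hu]
        refine Finset.sum_congr rfl fun i hi => ?_
        rw [if_neg (Finset.ne_of_mem_erase hi)]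
      rw [this, neg_add_cancel]
  have hK : ker (C i0) ≤ ker W' ⊔ ker (W i0) := ker_le_sup hle
  -- the other factors
  set P : V → ℝ := fun f => ∏ i ∈ univ.erase i0, g i f with hP
  have hPinv : ∀ f, ∀ h ∈ ker W', P (f + h) = P f := by
    intro f h hh
    refine Finset.prod_congr rfl fun i hi => ?_
    refine hdep i f h (ker_anti ?_ hh)
    exact le_iSup₂_of_le i hi le_rfl
  have h1 : ∑ f, ∏ i, g i f = ∑ f, g i0 f * P f := by
    refine Finset.sum_congr rfl fun f _ => ?_
    rw [← Finset.mul_prod_erase _ _ (mem_univ i0)]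
  set a := avg (ker W') (g i0) with ha
  have ha0 : ∀ f, a f = 0 := by
    -- a is invariant under ker W' and ker (W i0), hence under ker (C i0)
    have i1 : ∀ x, ∀ h ∈ ker W', a (x + h) = a x := fun x h hh => avg_add _ _ x hh
    have i2 : ∀ x, ∀ h ∈ ker (W i0), a (x + h) = a x :=
      avg_inv_of_inv _ _ _ (fun x h hh => hdep i0 x h hh)
    have i3 : ∀ x, ∀ h ∈ ker (C i0), a (x + h) = a x := by
      intro x h hh
      obtain ⟨u, hu, v, hv, rfl⟩ := AddSubgroup.mem_sup.1 (hK hh)
      rw [← add_assoc, i2 _ v hv, i1 _ u hu]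
    have e1 : ∀ f, avg (ker (C i0)) a f = a f := by
      intro f
      unfold avg
      rw [Finset.sum_congr rfl fun (h : ker (C i0)) _ => i3 f (h : V) h.2, Finset.sum_const,
        Finset.card_univ, nsmul_eq_mul, mul_div_cancel_left₀]
      exact (card_pos' (ker (C i0))).ne'
    have e2 : avg (ker (C i0)) a = avg (ker W') (avg (ker (C i0)) (g i0)) := by
      rw [ha, avg_avg, avg_avg, sup_comm]
    intro f
    rw [← e1 f, e2]
    have : avg (ker (C i0)) (g i0) = fun _ => 0 := funext (hcond i0)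
    rw [this]
    unfold avg
    simp
  have h2 : ∑ f, g i0 f * P f = ∑ f, a f * P f := (sum_avg_mul (ker W') (g i0) P hPinv).symm
  rw [h1, h2]
  simp [ha0]

end M2

section M3

variable {k : Type*} [Field k] [Finite k]

/-- a proper subspace has at most half of the points -/
lemma two_mul_card_le {A : Type*} [AddCommGroup A] [Fintype A] (S : AddSubgroup A)
    [DecidablePred (· ∈ S)] {v : A} (hv : v ∉ S) :
    Fintype.card A ≤ 2 * (univ.filter (fun x : A => x ∉ S)).card := by
  have h1 : (univ.filter (fun x : A => x ∈ S)).card ≤ (univ.filter (fun x : A => x ∉ S)).card := by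
    refine Finset.card_le_card_of_injOn (fun x => x + v) ?_ (fun x _ y _ h => add_right_cancel h)
    intro x hx
    simp only [Finset.coe_filter, mem_univ, true_and, Set.mem_setOf_eq] at hx ⊢
    refine fun h => hv ?_
    have := S.sub_mem h hx
    simpa using this
  have h2 := Finset.card_filter_add_card_filter_not (s := (univ : Finset A)) (fun x => x ∈ S)
  rw [Finset.card_univ] at h2
  omega

/-- **(M3)** one relation with many non-special components -/
theorem many {ι D : Type*} [Fintype ι] [AddCommGroup D] [Module k D]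
    (W C : ι → Submodule k D)
    (hrel : ∀ i0 : ι, ∃ w : ι → D, (∀ i, w i ∈ W i) ∧ ∑ i, w i = 0 ∧ w i0 ∉ C i0) :
    ∃ w : ι → D, (∀ i, w i ∈ W i) ∧ ∑ i, w i = 0 ∧
      Fintype.card ι ≤ 2 * {i | w i ∉ C i}.ncard := by
  classical
  have := Fintype.ofFinite k
  choose r hr1 hr2 hr3 using hrel
  -- combination with coefficients α
  let L : ι → (ι → k) →ₗ[k] D := fun j => Fintype.linearCombination k (fun i => r i j)
  have hL : ∀ j α, L j α = ∑ i, α i • r i j := fun j α => Fintype.linearCombination_apply _ _ _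
  let S : ι → AddSubgroup (ι → k) := fun j => ((C j).comap (L j)).toAddSubgroup
  have hS : ∀ j α, α ∈ S j ↔ L j α ∈ C j := fun j α => Iff.rfl
  have hcard : ∀ j, Fintype.card (ι → k) ≤ 2 * (univ.filter (fun α : ι → k => α ∉ S j)).card := by
    intro j
    refine two_mul_card_le (S j) (v := Pi.single j 1) ?_
    rw [hS, hL]
    rw [Finset.sum_eq_single j]
    · simpa using hr3 j
    · intro i _ hij
      rw [Pi.single_eq_of_ne hij, zero_smul]
    · intro h; exact absurd (mem_univ _) h
  have hsum : ∑ α : ι → k, (univ.filter (fun j => α ∉ S j)).card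
      = ∑ j, (univ.filter (fun α : ι → k => α ∉ S j)).card := by
    simp_rw [Finset.card_filter]
    exact Finset.sum_comm
  have hex : ∃ α : ι → k, Fintype.card ι ≤ 2 * (univ.filter (fun j => α ∉ S j)).card := by
    by_contra hcon
    push Not at hcon
    have hlt : ∑ α : ι → k, 2 * (univ.filter (fun j => α ∉ S j)).card
        < ∑ _α : ι → k, Fintype.card ι :=
      Finset.sum_lt_sum_of_nonempty univ_nonempty fun α _ => hcon α
    rw [← Finset.mul_sum, hsum, Finset.sum_const, Finset.card_univ, smul_eq_mul,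
      Finset.mul_sum] at hlt
    have : ∑ _j : ι, Fintype.card (ι → k)
        ≤ ∑ j, 2 * (univ.filter (fun α : ι → k => α ∉ S j)).card :=
      Finset.sum_le_sum fun j _ => hcard j
    rw [Finset.sum_const, Finset.card_univ, smul_eq_mul] at this
    rw [mul_comm] at hlt
    omega
  obtain ⟨α, hα⟩ := hex
  refine ⟨fun j => L j α, fun j => ?_, ?_, ?_⟩
  · simp only [hL]
    exact Submodule.sum_mem _ fun i _ => Submodule.smul_mem _ _ (hr1 i j)
  · simp_rw [hL]
    rw [Finset.sum_comm]
    refine Finset.sum_eq_zero fun i _ => ?_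
    rw [← Finset.smul_sum, hr2 i, smul_zero]
  · refine hα.trans (le_of_eq ?_)
    rw [Set.ncard_eq_toFinset_card']
    congr 2
    ext j
    simp [hS]

end M3

section M4

variable {k V : Type*} [Field k] [AddCommGroup V] [Module k V] [Fintype V]

open Classical in
/-- the mass of the special-conditional-uniform law on the points where the window law is less than half
of it -/
noncomputable def bad (W C : Submodule k (Module.Dual k V)) (μ : V → ℝ) : ℝ :=
  ∑ f with avg (ker W) μ f < avg (ker C) μ f / 2, avg (ker C) μ f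

lemma avg_const_of_inv (H : AddSubgroup V) (f : V → ℝ) (hf : ∀ x, ∀ h ∈ H, f (x + h) = f x) (x : V) :
    avg H f x = f x := by
  classical
  unfold avg
  rw [Finset.sum_congr rfl fun (h : H) _ => hf x (h : V) h.2, Finset.sum_const, Finset.card_univ,
    nsmul_eq_mul, mul_div_cancel_left₀]
  exact (card_pos' H).ne'

lemma avg_mem_Icc (H : AddSubgroup V) (f : V → ℝ) (h0 : ∀ x, 0 ≤ f x) (h1 : ∀ x, f x ≤ 1) (x : V) :
    0 ≤ avg H f x ∧ avg H f x ≤ 1 := by
  classical
  refine ⟨avg_nonneg H h0 x, ?_⟩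
  unfold avg
  rw [div_le_one (card_pos' H)]
  calc ∑ h : H, f (x + (h : V)) ≤ ∑ _h : H, (1 : ℝ) := Finset.sum_le_sum fun h _ => h1 _
    _ = (Fintype.card H : ℝ) := by simp

open Classical in
/-- **(M4)** relations are not rare, if the law `μ` sees the non-special parts -/
theorem mom [Finite k] [Module.Finite k V] {κ : Type*} [Fintype κ]
    (W C : κ → Submodule k (Module.Dual k V)) (hCW : ∀ i, C i ≤ W i)
    (τ : κ → ℝ) (hτ : ∀ i, 0 ≤ τ i) (sτ : ∑ i, τ i = 1)
    (μ : V → ℝ) (hμ : ∀ f, 0 ≤ μ f) (sμ : ∑ f, μ f = 1) (Ma : ℝ)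
    (hM : ∀ f, μ f * (Fintype.card V : ℝ) ≤ Ma) (ε : ℝ) (hε : 0 ≤ ε)
    (hbad : ∀ i, τ i ≠ 0 → ε ≤ bad (W i) (C i) μ) (b : ℕ) (hb : Even b) :
    (ε / 4) ^ (b + 1) ≤ Ma * ∑ κs ∈ univ.filter (fun κs : Fin b → κ =>
        ∃ w : Fin b → Module.Dual k V, (∀ i, w i ∈ W (κs i)) ∧ ∑ i, w i = 0 ∧
          b ≤ 2 * {i | w i ∉ C (κs i)}.ncard),
      ∏ i, τ (κs i) := by
  -- test functions
  let A : κ → V → ℝ := fun i f => if avg (ker (W i)) μ f < avg (ker (C i)) μ f / 2 then 1 else 0
  let g : κ → V → ℝ := fun i f => avg (ker (C i)) (A i) f - A i f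
  have hA0 : ∀ i f, 0 ≤ A i f := fun i f => by simp only [A]; split_ifs <;> norm_num
  have hA1 : ∀ i f, A i f ≤ 1 := fun i f => by simp only [A]; split_ifs <;> norm_num
  have hAinv : ∀ i f, ∀ h ∈ ker (W i), A i (f + h) = A i f := by
    intro i f h hh
    simp only [A]
    rw [avg_add _ _ f hh, avg_add _ _ f (ker_anti (hCW i) hh)]
  have hg1 : ∀ i f, |g i f| ≤ 1 := by
    intro i f
    obtain ⟨h1, h2⟩ := avg_mem_Icc (ker (C i)) (A i) (hA0 i) (hA1 i) f
    rw [abs_le]
    have := hA0 i f
    have := hA1 i f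
    constructor
    · simp only [g]; linarith
    · simp only [g]; linarith
  have hgdep : ∀ i f, ∀ h ∈ ker (W i), g i (f + h) = g i f := by
    intro i f h hh
    simp only [g]
    rw [hAinv i f h hh, avg_add _ _ f (ker_anti (hCW i) hh)]
  have hgcond : ∀ i f, avg (ker (C i)) (g i) f = 0 := by
    intro i f
    have e1 : avg (ker (C i)) (g i) f
        = avg (ker (C i)) (avg (ker (C i)) (A i)) f - avg (ker (C i)) (A i) f := by
      unfold avg
      simp only [g]
      unfold avg
      rw [← sub_div, ← Finset.sum_sub_distrib]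
    rw [e1, avg_const_of_inv _ _ (fun x h hh => avg_add _ _ x hh) f, sub_self]
  -- the mean of g
  have hmean : ∀ i, bad (W i) (C i) μ / 2 ≤ ∑ f, μ f * g i f := by
    intro i
    have e1 : ∑ f, μ f * avg (ker (C i)) (A i) f = ∑ f, avg (ker (C i)) μ f * A i f := by
      have h1 := sum_avg_mul (ker (C i)) μ (avg (ker (C i)) (A i)) (fun x h hh => avg_add _ _ x hh)
      have h2 := sum_avg_mul (ker (C i)) (A i) (avg (ker (C i)) μ) (fun x h hh => avg_add _ _ x hh)
      rw [← h1]
      calc _ = ∑ f, avg (ker (C i)) (A i) f * avg (ker (C i)) μ f :=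
            Finset.sum_congr rfl fun f _ => mul_comm _ _
        _ = _ := by rw [h2]; exact Finset.sum_congr rfl fun f _ => mul_comm _ _
    have e2 : ∑ f, μ f * A i f = ∑ f, avg (ker (W i)) μ f * A i f :=
      (sum_avg_mul (ker (W i)) μ (A i) (hAinv i)).symm
    have e3 : ∑ f, μ f * g i f = ∑ f, (avg (ker (C i)) μ f - avg (ker (W i)) μ f) * A i f := by
      have : ∀ f, μ f * g i f = μ f * avg (ker (C i)) (A i) f - μ f * A i f := fun f => by
        simp only [g]; ring
      simp_rw [this, Finset.sum_sub_distrib, e1, e2, ← Finset.sum_sub_distrib, sub_mul]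
    rw [e3]
    unfold bad
    rw [Finset.sum_filter, Finset.sum_div]
    refine Finset.sum_le_sum fun f _ => ?_
    simp only [A]
    split_ifs with h
    · linarith
    · simp
  have hav : ε / 2 ≤ ∑ i, τ i * ∑ f, μ f * g i f := by
    calc ε / 2 = ∑ i, τ i * (ε / 2) := by rw [← Finset.sum_mul, sτ, one_mul]
      _ ≤ _ := by
        refine Finset.sum_le_sum fun i _ => ?_
        by_cases h : τ i = 0
        · rw [h, zero_mul, zero_mul]
        · refine mul_le_mul_of_nonneg_left ?_ (hτ i)
          have := hbad i h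
          have := hmean i
          linarith
  have hm := moment τ hτ sτ g hg1 μ hμ sμ Ma hM (ε / 2) (by linarith) hav b hb
  have hMa : 0 ≤ Ma := by
    have hne : Nonempty V := ⟨0⟩
    obtain ⟨f⟩ := hne
    exact (mul_nonneg (hμ f) (Nat.cast_nonneg _)).trans (hM f)
  rw [show ε / 2 / 2 = ε / 4 by ring] at hm
  refine hm.trans (mul_le_mul_of_nonneg_left ?_ hMa)
  refine Finset.sum_le_sum_of_subset_of_nonneg ?_ (fun κs _ _ => Finset.prod_nonneg fun i _ => hτ _)
  intro κs hκs
  rw [Finset.mem_filter] at hκs ⊢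
  refine ⟨mem_univ _, ?_⟩
  have h := many (k := k) (fun i => W (κs i)) (fun i => C (κs i)) ?_
  · obtain ⟨w, h1, h2, h3⟩ := h
    rw [Fintype.card_fin] at h3
    exact ⟨w, h1, h2, h3⟩
  · intro i0
    by_contra hcon
    push Not at hcon
    exact hκs.2 (zero_exp (fun i => W (κs i)) (fun i => C (κs i)) (fun i => g (κs i))
      (fun i => hgdep (κs i)) (fun i => hgcond (κs i)) i0 (fun w h1 h2 => hcon w h1 h2))

end M4

end Crest.Agent.R042.PBMom253
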