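import Crest.Agent.R042.PBFam_341
import Crest.Agent.R042.Inst_592

/-!
# Plan B: the one-end sets `deadX` are small

For `Y` outside the special space of `s = (P, P')`, at most a fraction `(q ^ 2 + 1) / card KK` of the
common third types `R` of `P, P'` has `deadX`.
-/

set_option autoImplicit false
set_option linter.unusedSectionVars false

namespace Crest.Agent.R042.PBOne342

open Finset Crest.Agent.R042.Fam543 Crest.Agent.R042.Inst592 Crest.Agent.R042.PB

variable {k0 KK : Type} [Field k0] [Field KK] [Algebra k0 KK]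

section alg

variable [CharP KK 2]

theorem two_pow_pow (e i : ℕ) : (2 ^ e) ^ i = 2 ^ (e * i) := (pow_mul 2 e i).symm

theorem add_pow_Q (e i : ℕ) (x y : KK) :
    (x + y) ^ ((2 ^ e) ^ i) = x ^ ((2 ^ e) ^ i) + y ^ ((2 ^ e) ^ i) := by
  rw [two_pow_pow]; exact add_pow_char_pow x y 2 _

theorem contr_add_vec (e : ℕ) {d kp : ℕ} (h h' : Ix d → KK) (i : Fin kp) (t : U0 KK d kp) :
    contr (2 ^ e) (h + h') i t = contr (2 ^ e) h i t + contr (2 ^ e) h' i t := by
  funext al
  show ∑ j, ((h + h') (sw j)) ^ ((2 ^ e) ^ (i : ℕ)) * t (Function.update al i j) =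
    (∑ j, (h (sw j)) ^ ((2 ^ e) ^ (i : ℕ)) * t (Function.update al i j)) +
      ∑ j, (h' (sw j)) ^ ((2 ^ e) ^ (i : ℕ)) * t (Function.update al i j)
  rw [← sum_add_distrib]
  refine sum_congr rfl fun j _ => ?_
  rw [Pi.add_apply, add_pow_Q, add_mul]

theorem contr_smul_vec (Q : ℕ) {d kp : ℕ} (c : KK) (h : Ix d → KK) (i : Fin kp)
    (t : U0 KK d kp) : contr Q (c • h) i t = c ^ (Q ^ (i : ℕ)) • contr Q h i t := by
  funext al
  show ∑ j, ((c • h) (sw j)) ^ (Q ^ (i : ℕ)) * t (Function.update al i j) =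
    c ^ (Q ^ (i : ℕ)) * ∑ j, (h (sw j)) ^ (Q ^ (i : ℕ)) * t (Function.update al i j)
  rw [mul_sum]
  refine sum_congr rfl fun j _ => ?_
  rw [Pi.smul_apply, smul_eq_mul, mul_pow, mul_assoc]

theorem pow_inj_Q (e i : ℕ) {x y : KK} (h : x ^ ((2 ^ e) ^ i) = y ^ ((2 ^ e) ^ i)) : x = y := by
  rw [two_pow_pow] at h
  exact (iterateFrobenius KK 2 (e * i)).injective (by simpa [iterateFrobenius_def] using h)

theorem pow_surj_Q [Finite KK] (e i : ℕ) (y : KK) : ∃ x : KK, x ^ ((2 ^ e) ^ i) = y := by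
  have h : Function.Surjective (fun x : KK => x ^ ((2 ^ e) ^ i)) :=
    Finite.injective_iff_surjective.1 fun x y h => pow_inj_Q e i h
  exact h y

theorem exists_smul_of_perp {d : ℕ} {a τ : Ix d → KK} (ha : a ≠ 0)
    (h : ∀ x : Ix d → KK, B a x = 0 → B x τ = 0) : ∃ c : KK, τ = c • a := by
  classical
  obtain ⟨j0, hj0⟩ : ∃ j, a j ≠ 0 := by
    by_contra hh
    push Not at hh
    exact ha (funext hh)
  refine ⟨τ j0 / a j0, ?_⟩
  funext j
  -- test vector
  let x : Ix d → KK := fun i => (if i = sw j then a j0 else 0) - (if i = sw j0 then a j else 0)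
  have hx1 : ∀ g : Ix d → KK, (∑ i, g i * x i) = g (sw j) * a j0 - g (sw j0) * a j := by
    intro g
    simp only [x, mul_sub, sum_sub_distrib, mul_ite, mul_zero, Finset.sum_ite_eq', mem_univ,
      if_true]
  have h1 : B a x = 0 := by
    have := hx1 (fun i => a (sw i))
    unfold B
    rw [this, sw_sw, sw_sw]; ring
  have h2 := h x h1
  rw [B_comm] at h2
  have h3 := hx1 (fun i => τ (sw i))
  unfold B at h2
  rw [h3, sw_sw, sw_sw] at h2
  rw [Pi.smul_apply, smul_eq_mul]
  field_simp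
  linear_combination h2

theorem eq_smul_Phi [Finite KK] (e : ℕ) {d : ℕ} {a : Ix d → KK} (ha : a ≠ 0) (t : U0 KK d 2)
    (h : ∀ i : Fin 2, ∀ x : Ix d → KK, B a x = 0 → contr (2 ^ e) x i t = 0) :
    ∃ c : KK, t = c • (Phi (2 ^ e) a : U0 KK d 2) := by
  -- slot vectors
  have key : ∀ (i : Fin 2) (al : Fin 2 → Ix d), ∃ c : KK, ∀ j,
      t (Function.update al i j) = c * a j ^ ((2 ^ e) ^ (i : ℕ)) := by
    intro i al
    choose rt hrt using pow_surj_Q (KK := KK) e i
    obtain ⟨c, hc⟩ := exists_smul_of_perp (τ := fun j => rt (t (Function.update al i j))) ha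
      (by
        intro x hx
        have h1 := congrFun (h i x hx) al
        have h1' : ∑ j, (x (sw j)) ^ ((2 ^ e) ^ (i : ℕ)) * t (Function.update al i j) = 0 := h1
        apply pow_inj_Q e i
        rw [zero_pow (pow_ne_zero _ (pow_ne_zero _ two_ne_zero))]
        unfold B
        rw [two_pow_pow, sum_pow_char_pow]
        rw [← h1']
        refine sum_congr rfl fun j _ => ?_
        rw [mul_pow, ← two_pow_pow, hrt])
    refine ⟨c ^ ((2 ^ e) ^ (i : ℕ)), fun j => ?_⟩
    have h2 := congrFun hc j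
    rw [← hrt (t (Function.update al i j)), h2, Pi.smul_apply, smul_eq_mul, mul_pow]
  obtain ⟨j0, hj0⟩ : ∃ j, a j ≠ 0 := by
    by_contra hh
    push Not at hh
    exact ha (funext hh)
  obtain ⟨c1, hc1⟩ := key 1 (fun _ => j0)
  refine ⟨c1 / a j0, ?_⟩
  funext al
  obtain ⟨c0, hc0⟩ := key 0 al
  -- t al = c0 * a (al 0)
  have e1 : t al = c0 * a (al 0) := by
    have := hc0 (al 0)
    rw [Function.update_eq_self] at this
    simpa using this
  have e2 : t (Function.update al 0 j0) = c0 * a j0 := by simpa using hc0 j0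
  have e3 : Function.update al 0 j0 = Function.update (fun _ => j0) 1 (al 1) := by
    funext i
    fin_cases i <;> simp [Function.update]
  have e4 : t (Function.update al 0 j0) = c1 * a (al 1) ^ (2 ^ e) := by
    rw [e3]; simpa using hc1 (al 1)
  rw [Pi.smul_apply, smul_eq_mul, e1]
  unfold Phi
  rw [Fin.prod_univ_two]
  simp only [Fin.val_zero, pow_zero, pow_one, Fin.val_one]
  have h5 : c0 * a j0 = c1 * a (al 1) ^ (2 ^ e) := by rw [← e2, e4]
  field_simp
  linear_combination (a (al 0)) * h5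

theorem av_ne_zero {K : Set k0} {d L : ℕ} {P P' : Ty k0 KK d L} (hP : Valid K P)
    (hP' : Valid K P') (hne : P.b ≠ P'.b) : av P P' ≠ 0 := by
  intro h
  have h1 := congrFun h none
  simp only [av, Pi.add_apply, Pi.smul_apply, smul_eq_mul, hP.b0, hP'.b0, mul_one,
    Pi.zero_apply] at h1
  have h2 : B P.b P'.b = 1 := by
    rw [← CharTwo.add_eq_zero (R := KK)]
    rw [add_comm] at h1
    exact h1
  apply hne
  funext j
  have h3 := congrFun h j
  simp only [av, Pi.add_apply, Pi.smul_apply, smul_eq_mul, Pi.zero_apply, h2, one_mul] at h3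
  exact ((CharTwo.add_eq_zero (R := KK)).1 h3).symm

theorem B_av {d L : ℕ} (P P' : Ty k0 KK d L) (x : Ix d → KK) :
    B (av P P') x = B P'.b x + B P.b P'.b * B P.b x := by
  unfold av
  rw [B_add_left, B_smul_left]

theorem mem_Sp2_of_contr [Finite KK] (e : ℕ) {K : Set k0} {d L : ℕ} {P P' : Ty k0 KK d L}
    (hP : Valid K P) (hP' : Valid K P') (hne : P.b ≠ P'.b) {Y : U KK d 2 L}
    (hY : Y ∈ UP (2 ^ e) 2 P)
    (h : ∀ l, ∀ i : Fin 2, ∀ u : Ix d → KK, B P.b u = 0 → B P'.b u = 0 →
      contr (2 ^ e) u i (Y l) = 0) : Y ∈ Sp2 (2 ^ e) P P' := by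
  intro l
  refine eq_smul_Phi e (av_ne_zero hP hP' hne) (Y l) fun i x hx => ?_
  -- x = u + B P x • P
  have hBP : B P.b P.b = 1 := by rw [B_self, hP.b0, one_pow]
  have hx' : B P'.b x = B P.b P'.b * B P.b x := by
    rw [B_av] at hx
    exact (CharTwo.add_eq_zero (R := KK)).1 hx
  set u : Ix d → KK := x + (B P.b x) • P.b with hu
  have hu1 : B P.b u = 0 := by
    rw [hu, B_comm, B_add_left, B_smul_left, hBP, mul_one, B_comm]
    exact CharTwo.add_self_eq_zero _
  have hu2 : B P'.b u = 0 := by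
    rw [hu, B_comm, B_add_left, B_smul_left, B_comm x, hx', mul_comm]
    exact CharTwo.add_self_eq_zero _
  have hxu : x = u + (B P.b x) • P.b := by
    rw [hu, add_assoc]
    rw [show (B P.b x) • P.b + (B P.b x) • P.b = 0 from by
      funext j; exact CharTwo.add_self_eq_zero _]
    rw [add_zero]
  rw [hxu, contr_add_vec, contr_smul_vec, h l i u hu1 hu2, zero_add,
    (mem_T1.1 (hY l)) i, smul_zero]

end alg

section count

open scoped Classical

variable [Fintype k0] [Fintype KK] [CharP KK 2]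

/-- move a type along a vector without `none` coordinate -/
def shift {K : Set k0} {d L : ℕ} (u0 : Ix d → KK) (h0 : u0 none = 0) (x : KK)
    (R : Om KK K d L) : Om KK K d L :=
  ⟨⟨R.1.b + x • u0, R.1.lam, R.1.E⟩, ⟨by
    show R.1.b none + x * u0 none = 1
    rw [R.2.b0, h0, mul_zero, add_zero], R.2.lam, R.2.E⟩⟩

/-- the common third types -/
noncomputable def comm {K : Set k0} {d L : ℕ} (P P' : Ty k0 KK d L) : Finset (Om KK K d L) :=
  univ.filter fun R => Perp P R.1 ∧ Perp P' R.1

theorem mem_comm {K : Set k0} {d L : ℕ} {P P' : Ty k0 KK d L} {R : Om KK K d L} :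
    R ∈ comm (K := K) P P' ↔ Perp P R.1 ∧ Perp P' R.1 := by simp [comm]

theorem count_zero (e : ℕ) {K : Set k0} {d L : ℕ} (P P' : Ty k0 KK d L) (t : U0 KK d 2)
    (i : Fin 2) (al : Fin 2 → Ix d) (u0 : Ix d → KK) (h0 : u0 none = 0) (hP : B P.b u0 = 0)
    (hP' : B P'.b u0 = 0) (hu : contr (2 ^ e) u0 i t al ≠ 0) :
    Fintype.card KK * ((comm (K := K) P P').filter fun R =>
      contr (2 ^ e) R.1.b i t al = 0).card ≤ (comm (K := K) P P').card := by
  rw [← Finset.card_univ, ← Finset.card_product]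
  refine Finset.card_le_card_of_injOn (fun z => shift u0 h0 z.1 z.2) ?_ ?_
  · intro z hz
    rw [Finset.mem_coe, Finset.mem_product, Finset.mem_filter, mem_comm] at hz
    rw [Finset.mem_coe, mem_comm]
    constructor
    · show B P.b (z.2.1.b + z.1 • u0) = 0
      rw [B_comm, B_add_left, B_smul_left, B_comm _ P.b, B_comm u0, hP, mul_zero, add_zero]
      exact hz.2.1.1
    · show B P'.b (z.2.1.b + z.1 • u0) = 0
      rw [B_comm, B_add_left, B_smul_left, B_comm _ P'.b, B_comm u0, hP', mul_zero, add_zero]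
      exact hz.2.1.2
  · rintro ⟨x, R⟩ hz ⟨y, S⟩ hz' h
    rw [Finset.mem_coe, Finset.mem_product, Finset.mem_filter] at hz hz'
    have h1 : (shift u0 h0 x R).1 = (shift u0 h0 y S).1 := congrArg Subtype.val h
    have hb : R.1.b + x • u0 = S.1.b + y • u0 := congrArg Ty.b h1
    have hl : R.1.lam = S.1.lam := by have := congrArg Ty.lam h1; exact this
    have hE : R.1.E = S.1.E := by have := congrArg Ty.E h1; exact this
    have h2 : contr (2 ^ e) (R.1.b + x • u0) i t al = contr (2 ^ e) (S.1.b + y • u0) i t al := by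
      rw [hb]
    rw [contr_add_vec, contr_add_vec, contr_smul_vec, contr_smul_vec] at h2
    simp only [Pi.add_apply, Pi.smul_apply, smul_eq_mul] at h2
    rw [hz.2.2, hz'.2.2, zero_add, zero_add] at h2
    have hxy : x = y := pow_inj_Q e i (mul_right_cancel₀ hu h2)
    subst hxy
    have hb' : R.1.b = S.1.b := add_right_cancel hb
    have : R = S := Subtype.ext (Ty.ext hb' hl hE)
    rw [this]

theorem count_lam {K : Set k0} {d L : ℕ} (P P' : Ty k0 KK d L)
    (ψ : (Ix d → KK) → (Fin L → k0) → k0 → KK) :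
    Fintype.card KK * ((comm (K := K) P P').filter fun R =>
      ∃ a : k0, R.1.lam = ψ R.1.b R.1.E a).card ≤
      Fintype.card k0 ^ 2 * (comm (K := K) P P').card := by
  obtain ⟨l0, hl0⟩ := Algebra.trace_surjective k0 KK 1
  let aa : Om KK K d L → k0 := fun R =>
    if h : ∃ a : k0, R.1.lam = ψ R.1.b R.1.E a then h.choose else 0
  have haa : ∀ R : Om KK K d L, (∃ a : k0, R.1.lam = ψ R.1.b R.1.E a) →
      R.1.lam = ψ R.1.b R.1.E (aa R) := by
    intro R h
    simp only [aa, dif_pos h]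
    exact h.choose_spec
  let newl : KK → KK := fun x => x - (Algebra.trace k0 KK x) • l0 + l0
  have hnew : ∀ x, Algebra.trace k0 KK (newl x) = 1 := by
    intro x
    simp only [newl, map_add, map_sub, map_smul, hl0, smul_eq_mul, mul_one]
    ring
  let mv : KK → Om KK K d L → Om KK K d L := fun x R =>
    ⟨⟨R.1.b, newl x, R.1.E⟩, ⟨R.2.b0, hnew x, R.2.E⟩⟩
  have hq : Fintype.card k0 ^ 2 * (comm (K := K) P P').card =
      ((univ : Finset (k0 × k0)) ×ˢ comm (K := K) P P').card := by
    rw [Finset.card_product, Finset.card_univ, Fintype.card_prod, pow_two]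
  rw [hq, ← Finset.card_univ, ← Finset.card_product]
  refine Finset.card_le_card_of_injOn
    (fun z => ((aa z.2, Algebra.trace k0 KK z.1), mv z.1 z.2)) ?_ ?_
  · intro z hz
    rw [Finset.mem_coe, Finset.mem_product, Finset.mem_filter, mem_comm] at hz
    rw [Finset.mem_coe, Finset.mem_product, mem_comm]
    exact ⟨mem_univ _, hz.2.1⟩
  · rintro ⟨x, R⟩ hz ⟨y, S⟩ hz' h
    rw [Finset.mem_coe, Finset.mem_product, Finset.mem_filter] at hz hz'
    simp only [Prod.mk.injEq] at h
    obtain ⟨⟨h1, h2⟩, h3⟩ := h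
    have h4 : (mv x R).1 = (mv y S).1 := congrArg Subtype.val h3
    have hb : R.1.b = S.1.b := by have := congrArg Ty.b h4; exact this
    have hl : newl x = newl y := congrArg Ty.lam h4
    have hE : R.1.E = S.1.E := by have := congrArg Ty.E h4; exact this
    have hxy : x = y := by
      simp only [newl, h2] at hl
      have := add_right_cancel hl
      exact sub_left_injective this
    have hlam : R.1.lam = S.1.lam := by
      rw [haa R hz.2.2, haa S hz'.2.2, hb, hE, h1]
    have : R = S := Subtype.ext (Ty.ext hb hlam hE)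
    rw [this, hxy]

/-- what `deadX` says in one coordinate -/
theorem dead_coord (e : ℕ) {K : Set k0} {d L : ℕ} {P R : Ty k0 KK d L} (hR : Valid K R)
    {Y : U KK d 2 L} {a : k0} (h : Y + a • uvec (2 ^ e) 2 R ∈ UPQ (2 ^ e) 2 P R)
    (l : Fin L) (i : Fin 2) (al : Fin 2 → Ix d) :
    contr (2 ^ e) R.b i (Y l) al = algebraMap k0 KK a * (algebraMap k0 KK (R.E l) * R.lam) *
      ∏ i' ∈ univ.erase i, (R.b (al i')) ^ ((2 ^ e) ^ (i' : ℕ)) := by
  have h1 : (Y + a • uvec (2 ^ e) 2 R) l ∈ T1 (2 ^ e) R.b := (Submodule.mem_inf.1 h).2 l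
  have h2 := congrFun (mem_T1.1 h1 i) al
  have h3 : (Y + a • uvec (2 ^ e) 2 R) l =
      Y l + (algebraMap k0 KK a * (algebraMap k0 KK (R.E l) * R.lam)) •
        (Phi (2 ^ e) R.b : U0 KK d 2) := by
    rw [Pi.add_apply, Pi.smul_apply]
    show Y l + a • ((algebraMap k0 KK (R.E l) * R.lam) • (Phi (2 ^ e) R.b : U0 KK d 2)) = _
    rw [← algebraMap_smul KK a, smul_smul]
  rw [h3, map_add, map_smul, Pi.add_apply, Pi.smul_apply, smul_eq_mul, contr_Phi] at h2
  have hB : B R.b R.b = 1 := by rw [B_self, hR.b0, one_pow]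
  rw [hB, one_pow, one_mul] at h2
  exact (CharTwo.add_eq_zero (R := KK)).1 h2

theorem card_deadX_of (e : ℕ) {K : Set k0} {d L : ℕ} (P P' : Ty k0 KK d L) (Y : U KK d 2 L)
    (l : Fin L) (i : Fin 2) (al : Fin 2 → Ix d)
    (hz : Fintype.card KK * ((comm (K := K) P P').filter fun R =>
      contr (2 ^ e) R.1.b i (Y l) al = 0).card ≤ (comm (K := K) P P').card) :
    Fintype.card KK * ((comm (K := K) P P').filter fun R => deadX (2 ^ e) P Y R.1).card ≤
      (Fintype.card k0 ^ 2 + 1) * (comm (K := K) P P').card := by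
  have hl := count_lam (K := K) P P' (fun b E a => contr (2 ^ e) b i (Y l) al /
    (algebraMap k0 KK a * algebraMap k0 KK (E l) *
      ∏ i' ∈ univ.erase i, (b (al i')) ^ ((2 ^ e) ^ (i' : ℕ))))
  have hsub : ((comm (K := K) P P').filter fun R => deadX (2 ^ e) P Y R.1) ⊆
      ((comm (K := K) P P').filter fun R => contr (2 ^ e) R.1.b i (Y l) al = 0) ∪
      ((comm (K := K) P P').filter fun R => ∃ a : k0, R.1.lam =
        contr (2 ^ e) R.1.b i (Y l) al / (algebraMap k0 KK a * algebraMap k0 KK (R.1.E l) *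
      ∏ i' ∈ univ.erase i, (R.1.b (al i')) ^ ((2 ^ e) ^ (i' : ℕ)))) := by
    intro R hR
    rw [Finset.mem_filter] at hR
    obtain ⟨hc, a, ha⟩ := hR
    have h1 := dead_coord e R.2 ha l i al
    rw [Finset.mem_union, Finset.mem_filter, Finset.mem_filter]
    by_cases h0 : contr (2 ^ e) R.1.b i (Y l) al = 0
    · exact Or.inl ⟨hc, h0⟩
    · refine Or.inr ⟨hc, a, ?_⟩
      have h2 : algebraMap k0 KK a * algebraMap k0 KK (R.1.E l) *
          ∏ i' ∈ univ.erase i, (R.1.b (al i')) ^ ((2 ^ e) ^ (i' : ℕ)) ≠ 0 := by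
        intro hh
        apply h0
        rw [h1]
        calc _ = (algebraMap k0 KK a * algebraMap k0 KK (R.1.E l) *
          ∏ i' ∈ univ.erase i, (R.1.b (al i')) ^ ((2 ^ e) ^ (i' : ℕ))) * R.1.lam := by ring
          _ = 0 := by rw [hh, zero_mul]
      rw [eq_div_iff h2, h1]
      ring
  have h3 := (Finset.card_le_card hsub).trans (Finset.card_union_le _ _)
  calc _ ≤ Fintype.card KK * (_ + _) := Nat.mul_le_mul_left _ h3
    _ = Fintype.card KK * _ + Fintype.card KK * _ := Nat.mul_add _ _ _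
    _ ≤ (comm (K := K) P P').card + Fintype.card k0 ^ 2 * (comm (K := K) P P').card :=
        Nat.add_le_add hz hl
    _ = _ := by ring

/-- **one-end density** of plan B: for `Y` outside the special space at most a fraction
`(q ^ 2 + 1) / card KK` of the common third types has `deadX`. -/
theorem card_deadX (e : ℕ) {K : Set k0} {d L : ℕ} {P P' : Ty k0 KK d L} (hP : Valid K P)
    (hP' : Valid K P') (hne : P.b ≠ P'.b) {Y : U KK d 2 L} (hY : Y ∉ Sp2 (2 ^ e) P P') :
    Fintype.card KK * ((comm (K := K) P P').filter fun R => deadX (2 ^ e) P Y R.1).card ≤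
      (Fintype.card k0 ^ 2 + 1) * (comm (K := K) P P').card := by
  by_cases hYP : Y ∈ UP (2 ^ e) 2 P
  swap
  · have : ((comm (K := K) P P').filter fun R => deadX (2 ^ e) P Y R.1) = ∅ := by
      rw [Finset.filter_eq_empty_iff]
      intro R hR hd
      obtain ⟨a, ha⟩ := hd
      apply hYP
      have h1 := (Submodule.mem_inf.1 ha).1
      have h2 := Submodule.smul_mem _ a (uvec_mem_UP (L := L) (kp := 2) e (mem_comm.1 hR).1)
      have h3 := Submodule.sub_mem _ h1 h2
      rwa [add_sub_cancel_right] at h3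
    rw [this, Finset.card_empty, Nat.mul_zero]
    exact Nat.zero_le _
  have hex : ∃ l, ∃ i : Fin 2, ∃ u : Ix d → KK, B P.b u = 0 ∧ B P'.b u = 0 ∧
      contr (2 ^ e) u i (Y l) ≠ 0 := by
    by_contra hh
    push Not at hh
    exact hY (mem_Sp2_of_contr e hP hP' hne hYP hh)
  by_cases hal : ∃ l, ∃ i : Fin 2, ∃ u : Ix d → KK, ∃ al, u none = 0 ∧ B P.b u = 0 ∧
      B P'.b u = 0 ∧ contr (2 ^ e) u i (Y l) al ≠ 0
  · obtain ⟨l, i, u, al, h0, h1, h2, h3⟩ := hal
    exact card_deadX_of e P P' Y l i al (count_zero e P P' (Y l) i al u h0 h1 h2 h3)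
  · push Not at hal
    obtain ⟨l, i, u, h1, h2, h3⟩ := hex
    obtain ⟨al, h4⟩ : ∃ al, contr (2 ^ e) u i (Y l) al ≠ 0 := by
      by_contra hh
      push Not at hh
      exact h3 (funext hh)
    have hu0 : u none ≠ 0 := fun h0 => h4 (hal l i u al h0 h1 h2)
    refine card_deadX_of e P P' Y l i al ?_
    have : ((comm (K := K) P P').filter fun R => contr (2 ^ e) R.1.b i (Y l) al = 0) = ∅ := by
      rw [Finset.filter_eq_empty_iff]
      intro R hR h5
      have h6 := hal l i (R.1.b + (u none)⁻¹ • u) al (by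
        rw [Pi.add_apply, Pi.smul_apply, smul_eq_mul, inv_mul_cancel₀ hu0, R.2.b0]
        exact CharTwo.add_self_eq_zero _) (by
        rw [B_comm, B_add_left, B_smul_left, B_comm _ P.b, B_comm u, h1, mul_zero, add_zero]
        exact (mem_comm.1 hR).1) (by
        rw [B_comm, B_add_left, B_smul_left, B_comm _ P'.b, B_comm u, h2, mul_zero, add_zero]
        exact (mem_comm.1 hR).2)
      rw [contr_add_vec, contr_smul_vec, Pi.add_apply, Pi.smul_apply, smul_eq_mul, h5,
        zero_add, mul_eq_zero] at h6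
      rcases h6 with h6 | h6
      · exact inv_ne_zero hu0 (pow_eq_zero_iff (pow_ne_zero _ (pow_ne_zero _ two_ne_zero))|>.1 h6)
      · exact h4 h6
    rw [this, Finset.card_empty, Nat.mul_zero]
    exact Nat.zero_le _

end count

end Crest.Agent.R042.PBOne342
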