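import Crest.Agent.R042.PBSDSub_895
import Crest.Agent.R042.PBDefs_341
import Crest.Agent.R042.SymInst_695

/-!
# PLAN B of S0059: block instance of SD

`V = SymForm × SymForm` (labels of the two ends), blocks `e` with rows `u e, u' e`.  If the rows of
the blocks `r 0, .., r (n-1)` are independent modulo `Sp` and modulo `Sp'` then the special
functionals of these blocks are independent; hence blocks which are bad for the special density
have small `τ`-mass.
-/

set_option autoImplicit false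

namespace Crest.Agent.R042.PBSD895

open Finset Crest.Agent.R042.RowWin543 Crest.Agent.R042.PB

variable {k U κ : Type} [Field k] [AddCommGroup U] [Module k U]

/-- rows of the blocks `r i` independent modulo `Sp` -/
def IndL (Sp : Submodule k U) (u u' : κ → U) {n : ℕ} (r : Fin n → κ) : Prop :=
  ∀ α β : Fin n → k, ∑ i, (α i • u (r i) + β i • u' (r i)) ∈ Sp → α = 0 ∧ β = 0

/-- the functional `(f, f') ↦ f x y` -/
def evF (x y : U) : Module.Dual k (SymForm k U × SymForm k U) where
  toFun v := v.1.1 x y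
  map_add' _ _ := rfl
  map_smul' _ _ := rfl

/-- the functional `(f, f') ↦ f' x y` -/
def evS (x y : U) : Module.Dual k (SymForm k U × SymForm k U) where
  toFun v := v.2.1 x y
  map_add' _ _ := rfl
  map_smul' _ _ := rfl

/-- the rows, indexed by `Fin n × Bool`, are linearly independent and their span is disjoint
from `Sp` -/
theorem IndL.rows {Sp : Submodule k U} {u u' : κ → U} {n : ℕ} {r : Fin n → κ}
    (h : IndL Sp u u' r) :
    LinearIndependent k (fun j : Fin n × Bool => if j.2 then u' (r j.1) else u (r j.1)) ∧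
    Disjoint (Submodule.span k (Set.range
      (fun j : Fin n × Bool => if j.2 then u' (r j.1) else u (r j.1)))) Sp := by
  classical
  have key : ∀ g : Fin n × Bool → k,
      ∑ j, g j • (if j.2 then u' (r j.1) else u (r j.1))
        = ∑ i, (g (i, false) • u (r i) + g (i, true) • u' (r i)) := by
    intro g
    rw [Fintype.sum_prod_type]
    refine Finset.sum_congr rfl fun i _ => ?_
    rw [Fintype.sum_bool]
    simp [add_comm]
  constructor
  · rw [Fintype.linearIndependent_iff]
    intro g hg j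
    rw [key] at hg
    have h1 := h (fun i => g (i, false)) (fun i => g (i, true)) (by
      have h0 := Sp.zero_mem
      rw [← hg] at h0
      exact h0)
    obtain ⟨i, b⟩ := j
    cases b
    · exact congrFun h1.1 i
    · exact congrFun h1.2 i
  · rw [Submodule.disjoint_def]
    intro x hx hxS
    rw [Submodule.mem_span_range_iff_exists_fun] at hx
    obtain ⟨g, hg⟩ := hx
    rw [key] at hg
    have h1 := h (fun i => g (i, false)) (fun i => g (i, true)) (by
      have h0 := hxS
      rw [← hg] at h0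
      exact h0)
    rw [← hg]
    have e1 : ∀ i, g (i, false) = 0 := fun i => congrFun h1.1 i
    have e2 : ∀ i, g (i, true) = 0 := fun i => congrFun h1.2 i
    simp [e1, e2]

/-- if `∑ f(u,z) + f(u',z') = 0` for all symmetric `f`, `z, z' ∈ Sp`, rows independent mod `Sp`,
then all `z`, `z'` vanish -/
theorem IndL.zero {Sp : Submodule k U} {u u' : κ → U} {n : ℕ} {r : Fin n → κ}
    (h : IndL Sp u u' r) (z z' : Fin n → U) (hz : ∀ i, z i ∈ Sp) (hz' : ∀ i, z' i ∈ Sp)
    (hf : ∀ f ∈ SymForm k U, ∑ i, (f (u (r i)) (z i) + f (u' (r i)) (z' i)) = 0) (i : Fin n) :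
    z i = 0 ∧ z' i = 0 := by
  classical
  obtain ⟨hli, hdis⟩ := h.rows
  set row : Fin n × Bool → U := fun j => if j.2 then u' (r j.1) else u (r j.1) with hrow
  have main : ∀ (b : Bool) (ζ : U →ₗ[k] k), ζ (if b then z' i else z i) = 0 := by
    intro b ζ
    obtain ⟨f, hfS, hf1, -, -⟩ := rows_surj (Submodule.span k (Set.range row)) Sp hdis row
      (fun j => Submodule.subset_span ⟨j, rfl⟩) hli
      (fun j => if j = (i, b) then ζ.comp Sp.subtype else 0)
    have h1 := hf f hfS
    have e : ∀ j, (f (u (r j)) (z j) + f (u' (r j)) (z' j))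
        = (if (j, false) = (i, b) then ζ (z j) else 0) + (if (j, true) = (i, b) then ζ (z' j) else 0) := by
      intro j
      have a1 := hf1 (j, false) ⟨z j, hz j⟩
      have a2 := hf1 (j, true) ⟨z' j, hz' j⟩
      simp only [hrow] at a1 a2
      have a1' : f (u (r j)) (z j) = if (j, false) = (i, b) then ζ (z j) else 0 := by
        have := a1
        simp only [Bool.false_eq_true, if_false] at this
        rw [this]
        split_ifs <;> simp
      have a2' : f (u' (r j)) (z' j) = if (j, true) = (i, b) then ζ (z' j) else 0 := by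
        have := a2
        simp only [if_true] at this
        rw [this]
        split_ifs <;> simp
      rw [a1', a2']
    simp only [e] at h1
    rw [Finset.sum_add_distrib] at h1
    cases b
    · simpa [Prod.ext_iff] using h1
    · simpa [Prod.ext_iff] using h1
  constructor
  · by_contra hne
    obtain ⟨ζ, hζ⟩ := Submodule.exists_le_ker_of_notMem (p := (⊥ : Submodule k U)) (v := z i)
      (by simpa using hne)
    exact hζ.1 (by simpa using main false ζ)
  · by_contra hne
    obtain ⟨ζ, hζ⟩ := Submodule.exists_le_ker_of_notMem (p := (⊥ : Submodule k U)) (v := z' i)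
      (by simpa using hne)
    exact hζ.1 (by simpa using main true ζ)


/-- special functionals of the block `e` -/
def IsSpec (B B' : Blk k U κ) (e : κ) (φ : Module.Dual k (SymForm k U × SymForm k U)) : Prop :=
  ∃ z1 ∈ B.Sp, ∃ z2 ∈ B.Sp, ∃ z3 ∈ B'.Sp, ∃ z4 ∈ B'.Sp,
    φ = evF (B.u e) z1 + evF (B.u' e) z2 + evS (B'.u e) z3 + evS (B'.u' e) z4

/-- row-independent blocks have independent special functionals -/
theorem spec_indep (B B' : Blk k U κ) {n : ℕ} {r : Fin n → κ}
    (h : IndL B.Sp B.u B.u' r) (h' : IndL B'.Sp B'.u B'.u' r)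
    (φ : Fin n → Module.Dual k (SymForm k U × SymForm k U))
    (hφ : ∀ i, IsSpec B B' (r i) (φ i)) (h0 : ∑ i, φ i = 0) (i : Fin n) : φ i = 0 := by
  choose z1 hz1 z2 hz2 z3 hz3 z4 hz4 hφ using hφ
  have hF : ∀ f ∈ SymForm k U, ∑ i, (f (B.u (r i)) (z1 i) + f (B.u' (r i)) (z2 i)) = 0 := by
    intro f hf
    have h1 := LinearMap.congr_fun h0 ((⟨f, hf⟩, 0) : SymForm k U × SymForm k U)
    rw [LinearMap.sum_apply] at h1
    rw [← h1.trans (LinearMap.zero_apply _)]
    refine Finset.sum_congr rfl fun i _ => ?_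
    rw [hφ i]
    simp [evF, evS]
  have hS : ∀ f ∈ SymForm k U, ∑ i, (f (B'.u (r i)) (z3 i) + f (B'.u' (r i)) (z4 i)) = 0 := by
    intro f hf
    have h1 := LinearMap.congr_fun h0 ((0, ⟨f, hf⟩) : SymForm k U × SymForm k U)
    rw [LinearMap.sum_apply] at h1
    rw [← h1.trans (LinearMap.zero_apply _)]
    refine Finset.sum_congr rfl fun i _ => ?_
    rw [hφ i]
    simp [evF, evS]
  have a := h.zero z1 z2 hz1 hz2 hF i
  have b := h'.zero z3 z4 hz3 hz4 hS i
  rw [hφ i, a.1, a.2, b.1, b.2]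
  ext v <;> simp [evF, evS]

theorem indL_zero (Sp : Submodule k U) (u u' : κ → U) (r : Fin 0 → κ) : IndL Sp u u' r := by
  intro α β _
  exact ⟨funext fun i => i.elim0, funext fun i => i.elim0⟩

/-- if the list cannot be extended by `e` then the rows of `e` are dependent on the list -/
theorem dep_of_not_indL {Sp : Submodule k U} {u u' : κ → U} {n : ℕ} {r : Fin n → κ}
    (h : IndL Sp u u' r) (e : κ)
    (he : ¬ IndL Sp u u' (Fin.snoc r e : Fin (n + 1) → κ)) :
    ∃ α β : Fin n → k, ∃ a c : k, (a ≠ 0 ∨ c ≠ 0) ∧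
      a • u e + c • u' e - ∑ i, (α i • u (r i) + β i • u' (r i)) ∈ Sp := by
  unfold IndL at he
  push Not at he
  obtain ⟨α, β, hs, hne⟩ := he
  rw [Fin.sum_univ_castSucc] at hs
  simp only [Fin.snoc_castSucc, Fin.snoc_last] at hs
  refine ⟨fun i => - α i.castSucc, fun i => - β i.castSucc, α (Fin.last n), β (Fin.last n), ?_, ?_⟩
  · by_contra hcon
    push Not at hcon
    obtain ⟨ha, hc⟩ := hcon
    rw [ha, hc] at hs
    simp only [zero_smul, add_zero] at hs
    have h1 := h (fun i => α i.castSucc) (fun i => β i.castSucc) hs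
    have hα : α = 0 := by
      funext i
      refine Fin.lastCases ?_ (fun j => ?_) i
      · exact ha
      · exact congrFun h1.1 j
    have hβ : β = 0 := by
      funext i
      refine Fin.lastCases ?_ (fun j => ?_) i
      · exact hc
      · exact congrFun h1.2 j
    exact hne hα hβ
  · convert hs using 1
    rw [sub_eq_add_neg, add_comm, ← Finset.sum_neg_distrib]
    congr 1
    refine Finset.sum_congr rfl fun i _ => ?_
    simp only [neg_smul, neg_add, neg_neg]

open Classical in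
theorem sum_biUnion_le' {ι : Type*} {κ : Type*} (s : Finset ι) (E : ι → Finset κ) (τ : κ → ℝ)
    (h : ∀ e, 0 ≤ τ e) : ∑ e ∈ s.biUnion E, τ e ≤ ∑ i ∈ s, ∑ e ∈ E i, τ e := by
  induction s using Finset.induction_on with
  | empty => simp
  | insert a s ha ih =>
    rw [Finset.biUnion_insert, Finset.sum_insert ha]
    have h1 : ∑ e ∈ E a ∪ s.biUnion E, τ e ≤ ∑ e ∈ E a, τ e + ∑ e ∈ s.biUnion E, τ e := by
      rw [← Finset.sum_union_inter]
      have : 0 ≤ ∑ e ∈ E a ∩ s.biUnion E, τ e := Finset.sum_nonneg fun e _ => h e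
      linarith
    linarith

open Classical in
/-- **SD for blocks**: the blocks whose special windows have a saturated set of uniform density
`≤ 1/K₀` and `ν`-mass `≥ η` have `τ`-mass `≤ 2 q^(2N) δ`. -/
theorem sd_blk [Fintype k] [Fintype κ] [Finite U] (B B' : Blk k U κ) (τ : κ → ℝ)
    (hτ0 : ∀ e, 0 ≤ τ e) (δ : ℝ)
    (h1 : ∀ y : U, ∑ e with (∃ a c : k, (a ≠ 0 ∨ c ≠ 0) ∧
      a • B.u e + c • B.u' e - y ∈ B.Sp), τ e ≤ δ)
    (h1' : ∀ y : U, ∑ e with (∃ a c : k, (a ≠ 0 ∨ c ≠ 0) ∧
      a • B'.u e + c • B'.u' e - y ∈ B'.Sp), τ e ≤ δ)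
    (C : κ → Submodule k (Module.Dual k (SymForm k U × SymForm k U)))
    (hC : ∀ e, ∀ φ ∈ C e, IsSpec B B' e φ)
    (ν : SymForm k U × SymForm k U → ℝ) (h0 : ∀ v, 0 ≤ ν v) (hν1 : ∑ v, ν v = 1)
    (M : ℝ) (hν : ∀ v, ν v * Fintype.card (SymForm k U × SymForm k U) ≤ M)
    (N : ℕ) (hN : 0 < N) (K₀ : ℝ) (hK : 1 ≤ K₀) (η : ℝ) (hη : 0 ≤ η)
    (hnum : M * 2 ^ N * K₀ ^ (-(η * N / 2)) < η / 2)
    (A : Finset κ) (D : κ → Finset (SymForm k U × SymForm k U))
    (hD : ∀ e ∈ A, ∀ v v', (∀ c ∈ C e, c v = c v') → v ∈ D e → v' ∈ D e)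
    (hDc : ∀ e ∈ A, K₀ * (D e).card ≤ Fintype.card (SymForm k U × SymForm k U))
    (hbad : ∀ e ∈ A, η ≤ ∑ v ∈ D e, ν v) :
    ∑ e ∈ A, τ e ≤ 2 * (Fintype.card k : ℝ) ^ (2 * N) * δ := by
  set P : ℕ → Prop := fun n => ∃ r : Fin n → κ, (∀ i, r i ∈ A) ∧
    IndL B.Sp B.u B.u' r ∧ IndL B'.Sp B'.u B'.u' r with hP
  have hP0 : P 0 := ⟨fun i => i.elim0, fun i => i.elim0, indL_zero _ _ _ _, indL_zero _ _ _ _⟩
  have hPN : ¬ P N := by
    rintro ⟨r, hrA, hr, hr'⟩
    have := sd_sub_rpow (k := k) (V := SymForm k U × SymForm k U) hN (fun i => C (r i))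
      (fun c hc i => by
        have h2 := spec_indep B B' hr hr' (fun i => (c i : Module.Dual k _))
          (fun i => hC _ _ (c i).2) hc i
        exact Subtype.ext h2)
      (fun i => D (r i)) (fun i => hD _ (hrA i)) K₀ hK (fun i => hDc _ (hrA i)) ν h0 hν1 M hν η hη
      (fun i => hbad _ (hrA i))
    linarith
  -- maximal n
  obtain ⟨n, hnN, hn, hn1⟩ : ∃ n, n < N ∧ P n ∧ ¬ P (n + 1) := by
    by_contra hcon
    push Not at hcon
    have : ∀ n, n ≤ N → P n := by
      intro n
      induction n with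
      | zero => intro _; exact hP0
      | succ n ih => intro hle; exact hcon n (by omega) (ih (by omega))
    exact hPN (this N le_rfl)
  obtain ⟨r, hrA, hr, hr'⟩ := hn
  have hδ : 0 ≤ δ := le_trans (Finset.sum_nonneg fun e _ => hτ0 e) (h1 0)
  set E1 : (Fin n → k) × (Fin n → k) → Finset κ := fun ab =>
    univ.filter fun e => ∃ a c : k, (a ≠ 0 ∨ c ≠ 0) ∧
      a • B.u e + c • B.u' e - ∑ i, (ab.1 i • B.u (r i) + ab.2 i • B.u' (r i)) ∈ B.Sp with hE1
  set E2 : (Fin n → k) × (Fin n → k) → Finset κ := fun ab =>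
    univ.filter fun e => ∃ a c : k, (a ≠ 0 ∨ c ≠ 0) ∧
      a • B'.u e + c • B'.u' e - ∑ i, (ab.1 i • B'.u (r i) + ab.2 i • B'.u' (r i)) ∈ B'.Sp with hE2
  have hcover : A ⊆ (univ : Finset ((Fin n → k) × (Fin n → k))).biUnion fun ab => E1 ab ∪ E2 ab := by
    intro e he
    have hnot : ¬ (IndL B.Sp B.u B.u' (Fin.snoc r e : Fin (n + 1) → κ) ∧
        IndL B'.Sp B'.u B'.u' (Fin.snoc r e : Fin (n + 1) → κ)) := by
      intro hcon
      refine hn1 ⟨Fin.snoc r e, fun i => ?_, hcon.1, hcon.2⟩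
      refine Fin.lastCases ?_ (fun j => ?_) i
      · simpa using he
      · simpa using hrA j
    rw [not_and_or] at hnot
    rw [mem_biUnion]
    rcases hnot with h | h
    · obtain ⟨α, β, a, c, hac, hmem⟩ := dep_of_not_indL hr e h
      exact ⟨(α, β), mem_univ _, mem_union_left _ (mem_filter.mpr ⟨mem_univ _, a, c, hac, hmem⟩)⟩
    · obtain ⟨α, β, a, c, hac, hmem⟩ := dep_of_not_indL hr' e h
      exact ⟨(α, β), mem_univ _, mem_union_right _ (mem_filter.mpr ⟨mem_univ _, a, c, hac, hmem⟩)⟩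
  have hq : (1 : ℝ) ≤ Fintype.card k := by exact_mod_cast Fintype.card_pos
  calc ∑ e ∈ A, τ e
      ≤ ∑ e ∈ (univ : Finset ((Fin n → k) × (Fin n → k))).biUnion fun ab => E1 ab ∪ E2 ab, τ e :=
        Finset.sum_le_sum_of_subset_of_nonneg hcover (fun e _ _ => hτ0 e)
    _ ≤ ∑ ab : (Fin n → k) × (Fin n → k), ∑ e ∈ E1 ab ∪ E2 ab, τ e := by
        exact sum_biUnion_le' _ _ τ hτ0
    _ ≤ ∑ _ab : (Fin n → k) × (Fin n → k), (δ + δ) := by
        refine Finset.sum_le_sum fun ab _ => ?_
        calc ∑ e ∈ E1 ab ∪ E2 ab, τ e ≤ ∑ e ∈ E1 ab, τ e + ∑ e ∈ E2 ab, τ e := by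
              rw [← Finset.sum_union_inter]
              have : 0 ≤ ∑ e ∈ E1 ab ∩ E2 ab, τ e := Finset.sum_nonneg fun e _ => hτ0 e
              linarith
          _ ≤ δ + δ := add_le_add (h1 _) (h1' _)
    _ = (Fintype.card k : ℝ) ^ (2 * n) * (2 * δ) := by
        rw [Finset.sum_const, Finset.card_univ, Fintype.card_prod, Fintype.card_fun,
          Fintype.card_fin, nsmul_eq_mul]
        push_cast
        rw [two_mul n, pow_add]
        ring
    _ ≤ (Fintype.card k : ℝ) ^ (2 * N) * (2 * δ) := by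
        refine mul_le_mul_of_nonneg_right ?_ (by linarith)
        exact pow_le_pow_right₀ hq (by omega)
    _ = 2 * (Fintype.card k : ℝ) ^ (2 * N) * δ := by ring

end Crest.Agent.R042.PBSD895
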