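import Crest.Agent.R042.PBSD_895

/-!
# PLAN B of S0059: SD in the set / submodule form of helper341 (#28470)
-/

namespace Crest.Agent.R042.PBSD895

open Finset

open Classical in
/-- sets which are unions of fibres of jointly surjective homomorphisms are independent -/
theorem card_inter_le {V : Type*} [AddCommGroup V] [Fintype V] {N : ℕ}
    {W : Fin N → Type*} [∀ i, AddCommGroup (W i)] [∀ i, Fintype (W i)]
    (S : ∀ i, V →+ W i) (hS : Function.Surjective fun v i => S i v)
    (D : Fin N → Finset V) (hD : ∀ i v v', S i v = S i v' → v ∈ D i → v' ∈ D i)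
    (K₀ : ℝ) (hK : 0 < K₀) (hDc : ∀ i, K₀ * (D i).card ≤ Fintype.card V) (A : Finset (Fin N)) :
    ((univ.filter fun v => ∀ i ∈ A, v ∈ D i).card : ℝ) * K₀ ^ A.card ≤ Fintype.card V := by
  set B : ∀ i, Finset (W i) := fun i => (D i).image (S i) with hB
  have hmem : ∀ i v, S i v ∈ B i ↔ v ∈ D i := by
    intro i v
    simp only [hB, mem_image]
    constructor
    · rintro ⟨v', hv', h⟩; exact hD i v' v h hv'
    · intro h; exact ⟨v, h, rfl⟩
  have hV : (0 : ℝ) < Fintype.card V := by
    have : Nonempty V := ⟨0⟩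
    exact_mod_cast Fintype.card_pos
  have hBc : ∀ i, K₀ * (B i).card ≤ Fintype.card (W i) := by
    intro i
    -- use the product formula with the single index i
    have h1 := card_preimage S hS (fun j => if j = i then B j else univ)
    have h2 : (univ.filter fun v => ∀ j, S j v ∈ (if j = i then B j else univ : Finset (W j)))
        = D i := by
      ext v
      simp only [mem_filter, mem_univ, true_and]
      constructor
      · intro h
        have := h i
        rw [if_pos rfl] at this
        exact (hmem i v).1 this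
      · intro h j
        by_cases hj : j = i
        · subst hj; rw [if_pos rfl]; exact (hmem j v).2 h
        · rw [if_neg hj]; exact mem_univ _
    rw [h2] at h1
    have hWpos : ∀ i, (0 : ℝ) < Fintype.card (W i) := fun i => by
      exact_mod_cast Fintype.card_pos
    have e1 : ∏ j, (Fintype.card (W j) : ℝ)
        = Fintype.card (W i) * ∏ j ∈ univ.erase i, (Fintype.card (W j) : ℝ) :=
      (Finset.mul_prod_erase univ _ (mem_univ i)).symm
    have e2 : ∏ j, (((if j = i then B j else univ : Finset (W j)).card : ℕ) : ℝ)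
        = (B i).card * ∏ j ∈ univ.erase i, (Fintype.card (W j) : ℝ) := by
      rw [← Finset.mul_prod_erase univ _ (mem_univ i)]
      congr 1
      · rw [if_pos rfl]
      · refine Finset.prod_congr rfl fun j hj => ?_
        rw [if_neg (Finset.ne_of_mem_erase hj), Finset.card_univ]
    have hP : 0 < ∏ j ∈ univ.erase i, (Fintype.card (W j) : ℝ) :=
      Finset.prod_pos fun j _ => hWpos j
    have h3 : ((D i).card : ℝ) * Fintype.card (W i) = Fintype.card V * (B i).card := by
      have : ((D i).card : ℝ) * Fintype.card (W i) * ∏ j ∈ univ.erase i, (Fintype.card (W j) : ℝ)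
          = Fintype.card V * (B i).card * ∏ j ∈ univ.erase i, (Fintype.card (W j) : ℝ) := by
        have := h1
        rw [e1, e2] at this
        linarith
      exact mul_right_cancel₀ hP.ne' this
    have h4 : Fintype.card V * (K₀ * (B i).card) ≤ Fintype.card V * (Fintype.card (W i) : ℝ) := by
      calc Fintype.card V * (K₀ * (B i).card) = K₀ * (Fintype.card V * (B i).card) := by ring
        _ = K₀ * ((D i).card * Fintype.card (W i)) := by rw [h3]
        _ = (K₀ * (D i).card) * Fintype.card (W i) := by ring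
        _ ≤ Fintype.card V * Fintype.card (W i) :=
            mul_le_mul_of_nonneg_right (hDc i) (hWpos i).le
    exact le_of_mul_le_mul_left h4 hV
  have h := card_preimage_le S hS B K₀ hK hBc A
  have e : (univ.filter fun v => ∀ i ∈ A, S i v ∈ B i) = univ.filter fun v => ∀ i ∈ A, v ∈ D i := by
    ext v
    simp only [mem_filter, mem_univ, true_and, hmem]
  rwa [e] at h

open Classical in
/-- the Markov / union bound step for sets satisfying the product bound -/
theorem sd_core {V : Type*} [Fintype V] {N : ℕ} (hN : 0 < N) (D : Fin N → Finset V)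
    (K₀ : ℝ) (hK : 0 < K₀)
    (hprod : ∀ A : Finset (Fin N),
      ((univ.filter fun v => ∀ i ∈ A, v ∈ D i).card : ℝ) * K₀ ^ A.card ≤ Fintype.card V)
    (ν : V → ℝ) (h0 : ∀ v, 0 ≤ ν v) (h1 : ∑ v, ν v = 1)
    (M : ℝ) (hν : ∀ v, ν v * Fintype.card V ≤ M) (η : ℝ) (hη : 0 ≤ η)
    (hbad : ∀ i, η ≤ ∑ v ∈ D i, ν v) (m : ℕ) (hm : (m : ℝ) ≤ η * N / 2 + 1) :
    η / 2 ≤ M * 2 ^ N / K₀ ^ m := by
  have hne : Nonempty V := by
    by_contra h
    rw [not_nonempty_iff] at h
    simp at h1
  have hV : (0 : ℝ) < Fintype.card V := by exact_mod_cast Fintype.card_pos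
  have hM0 : 0 ≤ M := by
    obtain ⟨v⟩ := hne
    exact le_trans (mul_nonneg (h0 v) hV.le) (hν v)
  have hNr : (0 : ℝ) < N := by exact_mod_cast hN
  set cnt : V → ℕ := fun v => (univ.filter fun i => v ∈ D i).card with hcnt
  set G : Finset V := univ.filter fun v => m ≤ cnt v with hG
  have hdc : ∑ v, ν v * cnt v = ∑ i, ∑ v ∈ D i, ν v := by
    have e1 : ∀ v, ν v * cnt v = ∑ i, (if v ∈ D i then ν v else 0) := by
      intro v
      rw [← Finset.sum_filter, Finset.sum_const, nsmul_eq_mul, mul_comm]
    simp only [e1]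
    rw [Finset.sum_comm]
    refine Finset.sum_congr rfl fun i _ => ?_
    rw [Finset.sum_ite_mem, Finset.univ_inter]
  have hlow : η * N ≤ ∑ v, ν v * cnt v := by
    rw [hdc]
    calc η * N = ∑ _i : Fin N, η := by simp [mul_comm]
      _ ≤ _ := Finset.sum_le_sum fun i _ => hbad i
  have hcntN : ∀ v, (cnt v : ℝ) ≤ N := by
    intro v
    have : cnt v ≤ N := (Finset.card_le_univ _).trans_eq (Fintype.card_fin N)
    exact_mod_cast this
  have hηN : 0 ≤ η * N / 2 := by positivity
  have hup : ∑ v, ν v * cnt v ≤ N * ∑ v ∈ G, ν v + η * N / 2 := by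
    rw [← Finset.sum_filter_add_sum_filter_not univ (fun v => m ≤ cnt v)]
    refine add_le_add ?_ ?_
    · rw [Finset.mul_sum]
      refine Finset.sum_le_sum fun v _ => ?_
      rw [mul_comm (N : ℝ)]
      exact mul_le_mul_of_nonneg_left (hcntN v) (h0 v)
    · calc ∑ v ∈ univ.filter (fun v => ¬ m ≤ cnt v), ν v * cnt v
          ≤ ∑ v ∈ univ.filter (fun v => ¬ m ≤ cnt v), ν v * (η * N / 2) := by
            refine Finset.sum_le_sum fun v hv => mul_le_mul_of_nonneg_left ?_ (h0 v)
            have h2 : cnt v + 1 ≤ m := by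
              have := (mem_filter.mp hv).2
              omega
            have h3 : (cnt v : ℝ) + 1 ≤ m := by exact_mod_cast h2
            linarith
        _ = (∑ v ∈ univ.filter (fun v => ¬ m ≤ cnt v), ν v) * (η * N / 2) := by
            rw [Finset.sum_mul]
        _ ≤ 1 * (η * N / 2) := by
            refine mul_le_mul_of_nonneg_right ?_ hηN
            rw [← h1]
            exact Finset.sum_le_sum_of_subset_of_nonneg (Finset.subset_univ _)
              (fun v _ _ => h0 v)
        _ = η * N / 2 := one_mul _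
  have hνG : η / 2 ≤ ∑ v ∈ G, ν v := by
    have : η / 2 * N ≤ (∑ v ∈ G, ν v) * N := by nlinarith
    exact le_of_mul_le_mul_right this hNr
  have hνG2 : ∑ v ∈ G, ν v ≤ M * (G.card : ℝ) / Fintype.card V := by
    rw [le_div_iff₀ hV, Finset.sum_mul]
    calc ∑ v ∈ G, ν v * Fintype.card V ≤ ∑ _v ∈ G, M := Finset.sum_le_sum fun v _ => hν v
      _ = M * G.card := by rw [Finset.sum_const, nsmul_eq_mul, mul_comm]
  have hGsub : G ⊆ (powersetCard m (univ : Finset (Fin N))).biUnion
      fun A => univ.filter fun v => ∀ i ∈ A, v ∈ D i := by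
    intro v hv
    have hv' : m ≤ cnt v := (mem_filter.mp hv).2
    obtain ⟨A, hA, hAc⟩ := Finset.exists_subset_card_eq hv'
    rw [mem_biUnion]
    refine ⟨A, mem_powersetCard.mpr ⟨subset_univ _, hAc⟩, ?_⟩
    rw [mem_filter]
    exact ⟨mem_univ _, fun i hi => (mem_filter.mp (hA hi)).2⟩
  have hKm : 0 < K₀ ^ m := pow_pos hK m
  have hGcard : (G.card : ℝ) ≤ 2 ^ N * (Fintype.card V / K₀ ^ m) := by
    calc (G.card : ℝ) ≤ ∑ A ∈ powersetCard m (univ : Finset (Fin N)),
          ((univ.filter fun v => ∀ i ∈ A, v ∈ D i).card : ℝ) := by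
          have := (Finset.card_le_card hGsub).trans Finset.card_biUnion_le
          exact_mod_cast this
      _ ≤ ∑ A ∈ powersetCard m (univ : Finset (Fin N)), (Fintype.card V / K₀ ^ m : ℝ) := by
          refine Finset.sum_le_sum fun A hA => ?_
          rw [le_div_iff₀ hKm]
          have h := hprod A
          rw [(mem_powersetCard.mp hA).2] at h
          exact h
      _ = ((powersetCard m (univ : Finset (Fin N))).card : ℝ) * (Fintype.card V / K₀ ^ m) := by
          rw [Finset.sum_const, nsmul_eq_mul]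
      _ ≤ 2 ^ N * (Fintype.card V / K₀ ^ m) := by
          refine mul_le_mul_of_nonneg_right ?_ (by positivity)
          have : (powersetCard m (univ : Finset (Fin N))).card ≤ 2 ^ N := by
            calc (powersetCard m (univ : Finset (Fin N))).card
                ≤ (univ : Finset (Fin N)).powerset.card :=
                  Finset.card_le_card (fun A _ => Finset.mem_powerset.mpr (Finset.subset_univ A))
              _ = 2 ^ N := by rw [Finset.card_powerset, Finset.card_univ, Fintype.card_fin]
          exact_mod_cast this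
  calc η / 2 ≤ M * (G.card : ℝ) / Fintype.card V := hνG.trans hνG2
    _ ≤ M * (2 ^ N * (Fintype.card V / K₀ ^ m)) / Fintype.card V := by
        refine div_le_div_of_nonneg_right ?_ hV.le
        exact mul_le_mul_of_nonneg_left hGcard hM0
    _ = M * 2 ^ N / K₀ ^ m := by field_simp

/-- jointly surjective evaluation maps from independent spaces of functionals -/
theorem eval_surjective {k V : Type*} [Field k] [AddCommGroup V] [Module k V]
    [FiniteDimensional k V] {N : ℕ} (C : Fin N → Submodule k (Module.Dual k V))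
    (hC : ∀ c : ∀ i, C i, ∑ i, (c i : Module.Dual k V) = 0 → ∀ i, c i = 0) :
    Function.Surjective fun (v : V) (i : Fin N) =>
      ((C i).subtype.dualMap (Module.Dual.eval k V v) : Module.Dual k (C i)) := by
  classical
  set T : V →ₗ[k] (∀ i, Module.Dual k (C i)) :=
    LinearMap.pi fun i => (C i).subtype.dualMap ∘ₗ Module.Dual.eval k V with hT
  have hTs : Function.Surjective T := by
    rw [← LinearMap.range_eq_top]
    by_contra hne
    obtain ⟨φ, hφ0, hφ⟩ := Submodule.exists_le_ker_of_lt_top _ (lt_top_iff_ne_top.mpr hne)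
    have hfin : ∀ i, Module.Finite k (C i) := fun i => inferInstance
    have hfree : ∀ i, Module.Free k (C i) := fun i => Module.Free.of_divisionRing k (C i)
    -- φ on the i-th factor is evaluation at some element of C i
    have hi : ∀ i, ∃ c : C i, ∀ x : Module.Dual k (C i), φ (Pi.single i x) = x c := by
      intro i
      obtain ⟨c, hc⟩ := (Module.evalEquiv k (C i)).surjective (φ ∘ₗ LinearMap.single k (fun i => Module.Dual k (C i)) i)
      refine ⟨c, fun x => ?_⟩
      have := congrArg (fun ψ => ψ x) hc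
      simpa using this.symm
    choose c hc using hi
    have hφx : ∀ x : (∀ i, Module.Dual k (C i)), φ x = ∑ i, x i (c i) := by
      intro x
      conv_lhs => rw [← Finset.univ_sum_single x]
      rw [map_sum]
      exact Finset.sum_congr rfl fun i _ => hc i (x i)
    have hsum : ∑ i, (c i : Module.Dual k V) = 0 := by
      ext v
      have h1 : φ (T v) = 0 := hφ ⟨v, rfl⟩
      rw [hφx] at h1
      simpa [hT] using h1
    have hc0 := hC c hsum
    apply hφ0
    ext x
    simp only [LinearMap.coe_comp, Function.comp_apply, LinearMap.zero_apply]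
    rw [hφx]
    simp [hc0]
  exact hTs


open Classical in
/-- **SD** in the form of helper341 #28470. -/
theorem sd_sub {k V : Type*} [Field k] [Finite k] [AddCommGroup V] [Module k V] [Fintype V]
    [FiniteDimensional k V] {N : ℕ} (hN : 0 < N)
    (C : Fin N → Submodule k (Module.Dual k V))
    (hC : ∀ c : ∀ i, C i, ∑ i, (c i : Module.Dual k V) = 0 → ∀ i, c i = 0)
    (D : Fin N → Finset V)
    (hD : ∀ i v v', (∀ c ∈ C i, c v = c v') → v ∈ D i → v' ∈ D i)
    (K₀ : ℝ) (hK : 0 < K₀) (hDc : ∀ i, K₀ * (D i).card ≤ Fintype.card V)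
    (ν : V → ℝ) (h0 : ∀ v, 0 ≤ ν v) (h1 : ∑ v, ν v = 1)
    (M : ℝ) (hν : ∀ v, ν v * Fintype.card V ≤ M) (η : ℝ) (hη : 0 ≤ η)
    (hbad : ∀ i, η ≤ ∑ v ∈ D i, ν v) (m : ℕ) (hm : (m : ℝ) ≤ η * N / 2 + 1) :
    η / 2 ≤ M * 2 ^ N / K₀ ^ m := by
  have hfin : ∀ i, Finite (Module.Dual k (C i)) := fun i => Module.finite_of_finite k
  let _ : ∀ i, Fintype (Module.Dual k (C i)) := fun i => Fintype.ofFinite _
  refine sd_core hN D K₀ hK (fun A => ?_) ν h0 h1 M hν η hη hbad m hm
  refine card_inter_le (W := fun i => Module.Dual k (C i))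
    (fun i => ((C i).subtype.dualMap ∘ₗ Module.Dual.eval k V).toAddMonoidHom)
    (eval_surjective C hC) D (fun i v v' h hv => hD i v v' (fun c hc => ?_) hv) K₀ hK hDc A
  have := congrArg (fun ψ : Module.Dual k (C i) => ψ ⟨c, hc⟩) h
  simpa using this

open Classical in
/-- real exponent version: `η / 2 ≤ M * 2 ^ N * K₀ ^ (-(η N / 2))` -/
theorem sd_sub_rpow {k V : Type*} [Field k] [Finite k] [AddCommGroup V] [Module k V] [Fintype V]
    [FiniteDimensional k V] {N : ℕ} (hN : 0 < N)
    (C : Fin N → Submodule k (Module.Dual k V))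
    (hC : ∀ c : ∀ i, C i, ∑ i, (c i : Module.Dual k V) = 0 → ∀ i, c i = 0)
    (D : Fin N → Finset V)
    (hD : ∀ i v v', (∀ c ∈ C i, c v = c v') → v ∈ D i → v' ∈ D i)
    (K₀ : ℝ) (hK : 1 ≤ K₀) (hDc : ∀ i, K₀ * (D i).card ≤ Fintype.card V)
    (ν : V → ℝ) (h0 : ∀ v, 0 ≤ ν v) (h1 : ∑ v, ν v = 1)
    (M : ℝ) (hν : ∀ v, ν v * Fintype.card V ≤ M) (η : ℝ) (hη : 0 ≤ η)
    (hbad : ∀ i, η ≤ ∑ v ∈ D i, ν v) :
    η / 2 ≤ M * 2 ^ N * K₀ ^ (-(η * N / 2)) := by
  have hK0 : 0 < K₀ := lt_of_lt_of_le one_pos hK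
  have hx : 0 ≤ η * N / 2 := by positivity
  have hm : ((⌈η * N / 2⌉₊ : ℕ) : ℝ) ≤ η * N / 2 + 1 := (Nat.ceil_lt_add_one hx).le
  have h := sd_sub hN C hC D hD K₀ hK0 hDc ν h0 h1 M hν η hη hbad _ hm
  have hM0 : 0 ≤ M := by
    by_contra hneg
    push Not at hneg
    have hV : (0 : ℝ) < Fintype.card V := by
      have : Nonempty V := ⟨0⟩
      exact_mod_cast Fintype.card_pos
    have := le_trans (mul_nonneg (h0 0) hV.le) (hν 0)
    linarith
  refine h.trans ?_
  rw [div_eq_mul_inv]
  refine mul_le_mul_of_nonneg_left ?_ (by positivity)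
  rw [Real.rpow_neg hK0.le]
  refine inv_anti₀ (Real.rpow_pos_of_pos hK0 _) ?_
  rw [← Real.rpow_natCast K₀ ⌈η * N / 2⌉₊]
  exact Real.rpow_le_rpow_of_exponent_le hK (Nat.le_ceil _)

/-- `iSupIndep` gives the hypothesis `hC` -/
theorem hC_of_iSupIndep {k X : Type*} [Field k] [AddCommGroup X] [Module k X] {N : ℕ}
    (C : Fin N → Submodule k X) (h : iSupIndep C) :
    ∀ c : ∀ i, C i, ∑ i, (c i : X) = 0 → ∀ i, c i = 0 := by
  classical
  intro c hc i
  have hi := (iSupIndep_def.mp h) i
  rw [Submodule.disjoint_def] at hi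
  have h1 : (c i : X) = - ∑ j ∈ univ.erase i, (c j : X) := by
    rw [← Finset.add_sum_erase univ _ (mem_univ i)] at hc
    exact eq_neg_of_add_eq_zero_left hc
  have h2 : (c i : X) ∈ ⨆ (j) (_ : j ≠ i), C j := by
    rw [h1]
    refine Submodule.neg_mem _ (Submodule.sum_mem _ fun j hj => ?_)
    exact Submodule.mem_iSup_of_mem j
      (Submodule.mem_iSup_of_mem (Finset.ne_of_mem_erase hj) (c j).2)
  exact Subtype.ext (hi _ (c i).2 h2)

end Crest.Agent.R042.PBSD895
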