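import Mathlib

/-!
# PLAN B of S0059: special density (helper341 #28160 (e), #28307 SD)

`V` finite label group, `S e : V →+ W e` the special windows.  `Bad e`: the law of `S e` under `ν`
has density `> K₀` on a set of `ν`-mass `≥ η`.  If `N` blocks are bad and the joint window map is
onto, then `η / 2 ≤ M * 2 ^ N / K₀ ^ m` for every `m ≤ η N / 2`.
-/

namespace Crest.Agent.R042.PBSD895

open Finset

open Classical in
/-- the law of `S` under `ν` at `w` -/
noncomputable def law {V W : Type*} [Fintype V] (ν : V → ℝ) (S : V → W) (w : W) : ℝ :=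
  ∑ v ∈ univ.filter (fun v => S v = w), ν v

open Classical in
/-- heavy points of the law of `S` under `ν` -/
noncomputable def heavy {V W : Type*} [Fintype V] [Fintype W] (ν : V → ℝ) (S : V → W) (K₀ : ℝ) :
    Finset W :=
  univ.filter fun w => K₀ < law ν S w * Fintype.card W

open Classical in
theorem sum_law {V W : Type*} [Fintype V] [Fintype W] (ν : V → ℝ) (S : V → W) (A : Finset W) :
    ∑ w ∈ A, law ν S w = ∑ v ∈ univ.filter (fun v => S v ∈ A), ν v := by
  unfold law
  rw [← Finset.sum_fiberwise_of_maps_to (s := univ.filter (fun v => S v ∈ A)) (t := A) (g := S)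
    (fun v hv => (mem_filter.mp hv).2)]
  refine Finset.sum_congr rfl fun w hw => Finset.sum_congr ?_ fun _ _ => rfl
  ext v
  simp only [mem_filter, mem_univ, true_and]
  constructor
  · rintro rfl; exact ⟨hw, rfl⟩
  · rintro ⟨_, h⟩; exact h

open Classical in
/-- a heavy set is small -/
theorem card_heavy {V W : Type*} [Fintype V] [Fintype W] [Nonempty W] (ν : V → ℝ)
    (h0 : ∀ v, 0 ≤ ν v) (h1 : ∑ v, ν v ≤ 1) (S : V → W) (K₀ : ℝ) :
    K₀ * (heavy ν S K₀).card ≤ Fintype.card W := by
  have hW : (0 : ℝ) < Fintype.card W := by exact_mod_cast Fintype.card_pos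
  have h2 : ∑ w ∈ heavy ν S K₀, law ν S w ≤ 1 := by
    rw [sum_law]
    exact (Finset.sum_le_sum_of_subset_of_nonneg (Finset.subset_univ _)
      (fun v _ _ => h0 v)).trans h1
  calc K₀ * (heavy ν S K₀).card = ∑ w ∈ heavy ν S K₀, K₀ := by
        rw [Finset.sum_const, nsmul_eq_mul, mul_comm]
    _ ≤ ∑ w ∈ heavy ν S K₀, law ν S w * Fintype.card W := by
        refine Finset.sum_le_sum fun w hw => ?_
        exact (mem_filter.mp hw).2.le
    _ = (∑ w ∈ heavy ν S K₀, law ν S w) * Fintype.card W := by rw [Finset.sum_mul]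
    _ ≤ 1 * Fintype.card W := mul_le_mul_of_nonneg_right h2 hW.le
    _ = Fintype.card W := one_mul _

/-- equal fibres of a surjective homomorphism: number of points mapped to a product set -/
theorem card_preimage {V : Type*} [AddCommGroup V] [Fintype V] [DecidableEq V] {N : ℕ}
    {W : Fin N → Type*} [∀ i, AddCommGroup (W i)] [∀ i, Fintype (W i)] [∀ i, DecidableEq (W i)]
    (S : ∀ i, V →+ W i) (hS : Function.Surjective fun v i => S i v) (B : ∀ i, Finset (W i)) :
    ((univ.filter fun v => ∀ i, S i v ∈ B i).card : ℝ) * ∏ i, (Fintype.card (W i) : ℝ)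
      = Fintype.card V * ∏ i, ((B i).card : ℝ) := by
  classical
  set T : V →+ (∀ i, W i) := AddMonoidHom.pi S with hT
  have hT' : Function.Surjective T := hS
  -- all fibres have the same size
  have hfib : ∀ w : ∀ i, W i, (univ.filter fun v => T v = w).card
      = (univ.filter fun v => T v = 0).card := by
    intro w
    obtain ⟨v0, hv0⟩ := hT' w
    refine Finset.card_bij (fun v _ => v - v0) ?_ ?_ ?_
    · intro v hv
      simp only [mem_filter, mem_univ, true_and] at hv ⊢
      rw [map_sub, hv, hv0, sub_self]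
    · intro v _ v' _ h
      exact sub_left_injective h
    · intro v hv
      refine ⟨v + v0, ?_, by simp⟩
      simp only [mem_filter, mem_univ, true_and] at hv ⊢
      rw [map_add, hv, hv0, zero_add]
  have hcount : ∀ A : Finset (∀ i, W i), (univ.filter fun v => T v ∈ A).card
      = A.card * (univ.filter fun v => T v = 0).card := by
    intro A
    rw [Finset.card_eq_sum_card_fiberwise (f := T) (t := A)
      (fun v hv => by simpa using hv)]
    rw [Finset.sum_congr rfl (g := fun _ => (univ.filter fun v => T v = 0).card)]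
    · simp
    · intro w hw
      rw [← hfib w]
      congr 1
      ext v
      simp only [mem_filter, mem_univ, true_and]
      constructor
      · rintro ⟨_, h⟩; exact h
      · rintro rfl; exact ⟨hw, rfl⟩
  have h1 : (univ.filter fun v => ∀ i, S i v ∈ B i).card
      = (∏ i, (B i).card) * (univ.filter fun v => T v = 0).card := by
    rw [← Fintype.card_piFinset, ← hcount]
    congr 1
    ext v
    simp [hT, Fintype.mem_piFinset]
  have h2 : Fintype.card V = (∏ i, Fintype.card (W i)) * (univ.filter fun v => T v = 0).card := by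
    have := hcount univ
    simpa using this
  rw [h1, h2]
  push_cast
  ring


/-- the points with `S i v ∈ B i` for all `i ∈ A` -/
theorem card_preimage_le {V : Type*} [AddCommGroup V] [Fintype V] [DecidableEq V] {N : ℕ}
    {W : Fin N → Type*} [∀ i, AddCommGroup (W i)] [∀ i, Fintype (W i)] [∀ i, DecidableEq (W i)]
    (S : ∀ i, V →+ W i) (hS : Function.Surjective fun v i => S i v) (B : ∀ i, Finset (W i))
    (K₀ : ℝ) (hK : 0 < K₀) (hB : ∀ i, K₀ * (B i).card ≤ Fintype.card (W i)) (A : Finset (Fin N)) :
    ((univ.filter fun v => ∀ i ∈ A, S i v ∈ B i).card : ℝ) * K₀ ^ A.card ≤ Fintype.card V := by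
  classical
  set B' : ∀ i, Finset (W i) := fun i => if i ∈ A then B i else univ with hB'
  have h1 := card_preimage S hS B'
  have h2 : (univ.filter fun v => ∀ i, S i v ∈ B' i) = univ.filter fun v => ∀ i ∈ A, S i v ∈ B i := by
    ext v
    simp only [mem_filter, mem_univ, true_and, hB']
    refine forall_congr' fun i => ?_
    by_cases hi : i ∈ A <;> simp [hi]
  rw [h2] at h1
  have hWpos : ∀ i, (0 : ℝ) < Fintype.card (W i) := fun i => by
    exact_mod_cast Fintype.card_pos
  have hP : 0 < ∏ i, (Fintype.card (W i) : ℝ) := Finset.prod_pos fun i _ => hWpos i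
  have h3 : (∏ i, ((B' i).card : ℝ)) * K₀ ^ A.card ≤ ∏ i, (Fintype.card (W i) : ℝ) := by
    have e1 : K₀ ^ A.card = ∏ i, (if i ∈ A then K₀ else 1) := by
      rw [Finset.prod_ite_mem, Finset.univ_inter, Finset.prod_const]
    rw [e1, ← Finset.prod_mul_distrib]
    refine Finset.prod_le_prod (fun i _ => ?_) (fun i _ => ?_)
    · by_cases hi : i ∈ A
      · simp only [hi, if_true]; positivity
      · simp only [hi, if_false]; positivity
    · by_cases hi : i ∈ A
      · simp only [hB', hi, if_true]
        rw [mul_comm]; exact hB i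
      · simp [hB', hi]
  have hcV : (0 : ℝ) ≤ Fintype.card V := by positivity
  have h4 : (((univ.filter fun v => ∀ i ∈ A, S i v ∈ B i).card : ℝ) * K₀ ^ A.card)
      * ∏ i, (Fintype.card (W i) : ℝ) ≤ Fintype.card V * ∏ i, (Fintype.card (W i) : ℝ) := by
    calc (((univ.filter fun v => ∀ i ∈ A, S i v ∈ B i).card : ℝ) * K₀ ^ A.card)
          * ∏ i, (Fintype.card (W i) : ℝ)
        = (((univ.filter fun v => ∀ i ∈ A, S i v ∈ B i).card : ℝ)
          * ∏ i, (Fintype.card (W i) : ℝ)) * K₀ ^ A.card := by ring
      _ = Fintype.card V * ((∏ i, ((B' i).card : ℝ)) * K₀ ^ A.card) := by rw [h1]; ring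
      _ ≤ Fintype.card V * ∏ i, (Fintype.card (W i) : ℝ) := mul_le_mul_of_nonneg_left h3 hcV
  exact le_of_mul_le_mul_right h4 hP

open Classical in
/-- **SD**: `N` jointly independent bad blocks are impossible as soon as
`M * 2 ^ N / K₀ ^ m < η / 2`, `m ≤ η N / 2`. -/
theorem sd {V : Type*} [AddCommGroup V] [Fintype V] {N : ℕ} (hN : 0 < N)
    {W : Fin N → Type*} [∀ i, AddCommGroup (W i)] [∀ i, Fintype (W i)]
    (S : ∀ i, V →+ W i) (hS : Function.Surjective fun v i => S i v)
    (ν : V → ℝ) (h0 : ∀ v, 0 ≤ ν v) (h1 : ∑ v, ν v = 1)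
    (M : ℝ) (hν : ∀ v, ν v * Fintype.card V ≤ M)
    (K₀ : ℝ) (hK : 0 < K₀) (η : ℝ)
    (hbad : ∀ i, η ≤ ∑ v ∈ univ.filter (fun v => S i v ∈ heavy ν (S i) K₀), ν v)
    (m : ℕ) (hm : (m : ℝ) ≤ η * N / 2) :
    η / 2 ≤ M * 2 ^ N / K₀ ^ m := by
  have hne : Nonempty V := ⟨0⟩
  have hV : (0 : ℝ) < Fintype.card V := by exact_mod_cast Fintype.card_pos
  have hM0 : 0 ≤ M := by
    obtain ⟨v⟩ := hne
    exact le_trans (mul_nonneg (h0 v) hV.le) (hν v)
  have hNr : (0 : ℝ) < N := by exact_mod_cast hN
  set B : ∀ i, Finset (W i) := fun i => heavy ν (S i) K₀ with hB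
  set cnt : V → ℕ := fun v => (univ.filter fun i => S i v ∈ B i).card with hcnt
  set G : Finset V := univ.filter fun v => m ≤ cnt v with hG
  -- double counting
  have hdc : ∑ v, ν v * cnt v = ∑ i, ∑ v ∈ univ.filter (fun v => S i v ∈ B i), ν v := by
    have e1 : ∀ v, ν v * cnt v = ∑ i, (if S i v ∈ B i then ν v else 0) := by
      intro v
      rw [← Finset.sum_filter, Finset.sum_const, nsmul_eq_mul, mul_comm]
    simp only [e1]
    rw [Finset.sum_comm]
    refine Finset.sum_congr rfl fun i _ => ?_
    rw [Finset.sum_filter]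
  have hlow : η * N ≤ ∑ v, ν v * cnt v := by
    rw [hdc]
    calc η * N = ∑ _i : Fin N, η := by simp [mul_comm]
      _ ≤ _ := Finset.sum_le_sum fun i _ => hbad i
  have hcntN : ∀ v, (cnt v : ℝ) ≤ N := by
    intro v
    have : cnt v ≤ N := (Finset.card_le_univ _).trans_eq (Fintype.card_fin N)
    exact_mod_cast this
  have hup : ∑ v, ν v * cnt v ≤ N * ∑ v ∈ G, ν v + η * N / 2 := by
    have hηN : 0 ≤ η * N / 2 := le_trans (Nat.cast_nonneg m) hm
    rw [← Finset.sum_filter_add_sum_filter_not univ (fun v => m ≤ cnt v)]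
    refine add_le_add ?_ ?_
    · rw [Finset.mul_sum]
      refine Finset.sum_le_sum fun v _ => ?_
      rw [mul_comm (N : ℝ)]
      exact mul_le_mul_of_nonneg_left (hcntN v) (h0 v)
    · calc ∑ v ∈ univ.filter (fun v => ¬ m ≤ cnt v), ν v * cnt v
          ≤ ∑ v ∈ univ.filter (fun v => ¬ m ≤ cnt v), ν v * (η * N / 2) := by
            refine Finset.sum_le_sum fun v hv => mul_le_mul_of_nonneg_left ?_ (h0 v)
            have : cnt v ≤ m := by
              have := (mem_filter.mp hv).2
              omega
            exact le_trans (by exact_mod_cast this) hm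
        _ = (∑ v ∈ univ.filter (fun v => ¬ m ≤ cnt v), ν v) * (η * N / 2) := by
            rw [Finset.sum_mul]
        _ ≤ 1 * (η * N / 2) := by
            refine mul_le_mul_of_nonneg_right ?_ hηN
            rw [← h1]
            exact Finset.sum_le_sum_of_subset_of_nonneg (Finset.subset_univ _)
              (fun v _ _ => h0 v)
        _ = η * N / 2 := one_mul _
  have hνG : η / 2 ≤ ∑ v ∈ G, ν v := by
    have : η / 2 * N ≤ (∑ v ∈ G, ν v) * N := by nlinarith
    exact le_of_mul_le_mul_right this hNr
  have hνG2 : ∑ v ∈ G, ν v ≤ M * (G.card : ℝ) / Fintype.card V := by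
    rw [le_div_iff₀ hV, Finset.sum_mul]
    calc ∑ v ∈ G, ν v * Fintype.card V ≤ ∑ _v ∈ G, M := Finset.sum_le_sum fun v _ => hν v
      _ = M * G.card := by rw [Finset.sum_const, nsmul_eq_mul, mul_comm]
  -- size of G
  have hGsub : G ⊆ (powersetCard m (univ : Finset (Fin N))).biUnion
      fun A => univ.filter fun v => ∀ i ∈ A, S i v ∈ B i := by
    intro v hv
    have hv' : m ≤ cnt v := (mem_filter.mp hv).2
    obtain ⟨A, hA, hAc⟩ := Finset.exists_subset_card_eq hv'
    rw [mem_biUnion]
    refine ⟨A, mem_powersetCard.mpr ⟨subset_univ _, hAc⟩, ?_⟩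
    rw [mem_filter]
    exact ⟨mem_univ _, fun i hi => (mem_filter.mp (hA hi)).2⟩
  have hKm : 0 < K₀ ^ m := pow_pos hK m
  have hGcard : (G.card : ℝ) ≤ 2 ^ N * (Fintype.card V / K₀ ^ m) := by
    calc (G.card : ℝ) ≤ ∑ A ∈ powersetCard m (univ : Finset (Fin N)),
          ((univ.filter fun v => ∀ i ∈ A, S i v ∈ B i).card : ℝ) := by
          have := (Finset.card_le_card hGsub).trans Finset.card_biUnion_le
          exact_mod_cast this
      _ ≤ ∑ A ∈ powersetCard m (univ : Finset (Fin N)), (Fintype.card V / K₀ ^ m : ℝ) := by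
          refine Finset.sum_le_sum fun A hA => ?_
          rw [le_div_iff₀ hKm]
          have h := card_preimage_le S hS B K₀ hK
            (fun i => card_heavy ν h0 h1.le (S i) K₀) A
          rw [(mem_powersetCard.mp hA).2] at h
          exact h
      _ = ((powersetCard m (univ : Finset (Fin N))).card : ℝ) * (Fintype.card V / K₀ ^ m) := by
          rw [Finset.sum_const, nsmul_eq_mul]
      _ ≤ 2 ^ N * (Fintype.card V / K₀ ^ m) := by
          refine mul_le_mul_of_nonneg_right ?_ (by positivity)
          have : (powersetCard m (univ : Finset (Fin N))).card ≤ 2 ^ N := by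
            calc (powersetCard m (univ : Finset (Fin N))).card
                ≤ (univ : Finset (Fin N)).powerset.card :=
                  Finset.card_le_card (fun A _ => Finset.mem_powerset.mpr (Finset.subset_univ A))
              _ = 2 ^ N := by rw [Finset.card_powerset, Finset.card_univ, Fintype.card_fin]
          exact_mod_cast this
  calc η / 2 ≤ M * (G.card : ℝ) / Fintype.card V := hνG.trans hνG2
    _ ≤ M * (2 ^ N * (Fintype.card V / K₀ ^ m)) / Fintype.card V := by
        refine div_le_div_of_nonneg_right ?_ hV.le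
        exact mul_le_mul_of_nonneg_left hGcard hM0
    _ = M * 2 ^ N / K₀ ^ m := by field_simp

end Crest.Agent.R042.PBSD895
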