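import Mathlib

/-!
# Plan B of row 42 / S0059: Ramsey, sequential integration, corank (RAM, SEQ, COR)
-/

set_option autoImplicit false

namespace Crest.Agent.R042.PBSeq420

open Finset

/-! ## RAM -/

/-- end-homogeneous subsequences -/
theorem endHom {C : Type*} [Fintype C] [DecidableEq C] {α : Type*} [LinearOrder α] (t : ℕ) :
    ∃ n : ℕ, ∀ s : Finset α, n ≤ s.card → ∀ c : α → α → C,
      ∃ φ : Fin t → α, StrictMono φ ∧ (∀ i, φ i ∈ s) ∧
        ∃ g : Fin t → Option C, ∀ i j, i < j → some (c (φ i) (φ j)) = g i := by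
  induction t with
  | zero =>
    exact ⟨0, fun s _ c => ⟨Fin.elim0, fun i => i.elim0, fun i => i.elim0, Fin.elim0,
      fun i => i.elim0⟩⟩
  | succ t ih =>
    obtain ⟨n, hn⟩ := ih
    refine ⟨Fintype.card C * n + 1, fun s hs c => ?_⟩
    have hne : s.Nonempty := by
      rw [← Finset.card_pos]; omega
    let a := s.min' hne
    have ha : a ∈ s := s.min'_mem hne
    by_cases hn0 : n = 0
    · -- the tail may be taken empty only if t = 0 is possible: use IH with the empty set
      obtain ⟨φ, hφ, hφs, g, hg⟩ := hn ∅ (by simp [hn0]) c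
      have ht : t = 0 := by
        by_contra h
        exact absurd (hφs ⟨0, Nat.pos_of_ne_zero h⟩) (Finset.notMem_empty _)
      subst ht
      refine ⟨fun _ => a, ?_, fun _ => ha, fun _ => none, ?_⟩
      · intro i j hij
        have h1 : i = j := Fin.ext (by omega)
        exact absurd hij (by rw [h1]; exact lt_irrefl _)
      · intro i j hij
        have h1 : i = j := Fin.ext (by omega)
        exact absurd hij (by rw [h1]; exact lt_irrefl _)
    · have hcard : Fintype.card C * n ≤ (s.erase a).card := by
        rw [Finset.card_erase_of_mem ha]; omega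
      obtain ⟨col, hcol⟩ : ∃ y : C, n ≤ ((s.erase a).filter fun x => c a x = y).card := by
        by_contra hcon
        push Not at hcon
        have h1 : (s.erase a).card = ∑ y : C, ((s.erase a).filter fun x => c a x = y).card :=
          Finset.card_eq_sum_card_fiberwise fun x _ => Finset.mem_univ (c a x)
        by_cases hC : IsEmpty C
        · exact hC.elim (c a a)
        · rw [not_isEmpty_iff] at hC
          have h2 : ∑ y : C, ((s.erase a).filter fun x => c a x = y).card
              < ∑ _y : C, n := Finset.sum_lt_sum_of_nonempty Finset.univ_nonempty fun y _ => hcon y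
          rw [Finset.sum_const, Finset.card_univ, smul_eq_mul] at h2
          omega
      obtain ⟨φ, hφ, hφs, g, hg⟩ := hn _ hcol c
      refine ⟨Fin.cons a φ, ?_, ?_, Fin.cons (some col) g, ?_⟩
      · intro i j
        refine Fin.cases ?_ (fun i => ?_) i
        · refine Fin.cases ?_ (fun j => ?_) j
          · intro h; exact absurd h (lt_irrefl _)
          · intro _
            have h2 := hφs j
            rw [Finset.mem_filter, Finset.mem_erase] at h2
            simp only [Fin.cons_zero, Fin.cons_succ]
            exact lt_of_le_of_ne (s.min'_le _ h2.1.2) (Ne.symm h2.1.1)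
        · refine Fin.cases ?_ (fun j => ?_) j
          · intro h; exact absurd h (Fin.not_lt_zero _)
          · intro h
            simp only [Fin.cons_succ]
            exact hφ (Fin.succ_lt_succ_iff.1 h)
      · intro i
        refine Fin.cases ?_ (fun i => ?_) i
        · simpa using ha
        · have := hφs i
          rw [Finset.mem_filter, Finset.mem_erase] at this
          simpa using this.1.2
      · intro i j
        refine Fin.cases ?_ (fun i => ?_) i
        · refine Fin.cases ?_ (fun j => ?_) j
          · intro h; exact absurd h (lt_irrefl _)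
          · intro _
            have := hφs j
            rw [Finset.mem_filter] at this
            simp [this.2]
        · refine Fin.cases ?_ (fun j => ?_) j
          · intro h; exact absurd h (Fin.not_lt_zero _)
          · intro h
            simpa using hg i j (Fin.succ_lt_succ_iff.1 h)

/-- **RAM** -/
theorem ram {C : Type*} [Fintype C] (m : ℕ) :
    ∃ n : ℕ, ∀ N, n ≤ N → ∀ c : Fin N → Fin N → C,
      ∃ φ : Fin m → Fin N, StrictMono φ ∧ ∃ G : C, ∀ i j, i < j → c (φ i) (φ j) = G := by
  classical
  obtain ⟨n, hn⟩ := endHom (C := C) (α := ℕ) (Fintype.card C * m + 1)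
  refine ⟨n + 1, fun N hN c => ?_⟩
  have hN0 : 0 < N := by omega
  -- extend the colouring to `ℕ`
  let c' : ℕ → ℕ → C := fun i j =>
    if h : i < N ∧ j < N then c ⟨i, h.1⟩ ⟨j, h.2⟩ else c ⟨0, hN0⟩ ⟨0, hN0⟩
  obtain ⟨φ, hφ, hφs, g, hg⟩ := hn (Finset.range N) (by rw [Finset.card_range]; omega) c'
  have hlt : ∀ i, φ i < N := fun i => Finset.mem_range.1 (hφs i)
  -- pigeonhole on the colours of the first `card C * m` points
  let last : Fin (Fintype.card C * m + 1) := Fin.last _
  have hcol : ∀ i : Fin (Fintype.card C * m), ∃ y : C, g i.castSucc = some y := by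
    intro i
    exact ⟨_, (hg i.castSucc (Fin.last _) (Fin.castSucc_lt_last i)).symm⟩
  choose col hcol using hcol
  obtain ⟨G, hG⟩ : ∃ y : C, m ≤ (univ.filter fun i => col i = y).card := by
    by_contra hcon
    push Not at hcon
    have h1 : (univ : Finset (Fin (Fintype.card C * m))).card
        = ∑ y : C, (univ.filter fun i => col i = y).card :=
      Finset.card_eq_sum_card_fiberwise fun x _ => Finset.mem_univ (col x)
    have : Nonempty C := ⟨c ⟨0, hN0⟩ ⟨0, hN0⟩⟩
    have h2 : ∑ y : C, (univ.filter fun i => col i = y).card < ∑ _y : C, m :=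
      Finset.sum_lt_sum_of_nonempty Finset.univ_nonempty fun y _ => hcon y
    rw [Finset.sum_const, Finset.card_univ, smul_eq_mul] at h2
    rw [Finset.card_univ, Fintype.card_fin] at h1
    omega
  -- choose `m` of them in increasing order
  obtain ⟨t, ht, htc⟩ := Finset.exists_subset_card_eq hG
  let ψ : Fin m ↪o Fin (Fintype.card C * m) := t.orderEmbOfFin htc
  refine ⟨fun i => ⟨φ (ψ i).castSucc, hlt _⟩, ?_, G, ?_⟩
  · intro i j hij
    show φ _ < φ _
    exact hφ (Fin.castSucc_lt_castSucc_iff.2 (ψ.strictMono hij))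
  · intro i j hij
    have h3 : ψ i < ψ j := ψ.strictMono hij
    have h4 := hg (ψ i).castSucc (ψ j).castSucc (Fin.castSucc_lt_castSucc_iff.2 h3)
    have h5 : col (ψ i) = G := by
      have := ht (t.orderEmbOfFin_mem htc i)
      exact (Finset.mem_filter.1 this).2
    rw [hcol, h5] at h4
    have h6 := Option.some_injective _ h4
    rw [← h6]
    simp only [c']
    rw [dif_pos ⟨hlt _, hlt _⟩]

/-! ## SEQ -/

variable {ι κ : Type*} [Fintype ι] [DecidableEq ι] [Fintype κ]

/-- resampling one coordinate -/
theorem resample (τ : κ → ℝ) (h1 : ∑ x, τ x = 1) (i0 : ι) (F : (ι → κ) → ℝ) :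
    ∑ e : ι → κ, (∏ i, τ (e i)) * F e =
      ∑ e : ι → κ, (∏ i, τ (e i)) * ∑ x, τ x * F (Function.update e i0 x) := by
  classical
  -- the involution `(e, x) ↦ (update e i0 x, e i0)`
  have hw : ∀ (e : ι → κ) (x : κ), (∏ i, τ (e i)) * τ x =
      (∏ i, τ (Function.update e i0 x i)) * τ (e i0) := by
    intro e x
    rw [← Finset.mul_prod_erase univ (fun i => τ (e i)) (mem_univ i0),
      ← Finset.mul_prod_erase univ (fun i => τ (Function.update e i0 x i)) (mem_univ i0)]
    have h2 : ∏ i ∈ univ.erase i0, τ (Function.update e i0 x i) = ∏ i ∈ univ.erase i0, τ (e i) := by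
      refine prod_congr rfl fun i hi => ?_
      rw [Function.update_of_ne (Finset.ne_of_mem_erase hi)]
    rw [h2, Function.update_self]
    ring
  let E : ((ι → κ) × κ) ≃ ((ι → κ) × κ) :=
    { toFun := fun p => (Function.update p.1 i0 p.2, p.1 i0)
      invFun := fun p => (Function.update p.1 i0 p.2, p.1 i0)
      left_inv := by rintro ⟨e, x⟩; simp
      right_inv := by rintro ⟨e, x⟩; simp }
  have h3 : ∑ p : (ι → κ) × κ, ((∏ i, τ (p.1 i)) * τ p.2) * F (Function.update p.1 i0 p.2) =
      ∑ p : (ι → κ) × κ, ((∏ i, τ (p.1 i)) * τ p.2) * F p.1 := by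
    refine Fintype.sum_equiv E _ _ ?_
    rintro ⟨e, x⟩
    show ((∏ i, τ (e i)) * τ x) * F (Function.update e i0 x) =
      ((∏ i, τ (Function.update e i0 x i)) * τ (e i0)) * F (Function.update e i0 x)
    rw [hw]
  rw [Fintype.sum_prod_type, Fintype.sum_prod_type] at h3
  have h4 : ∑ e : ι → κ, (∏ i, τ (e i)) * ∑ x, τ x * F (Function.update e i0 x) =
      ∑ e : ι → κ, ∑ x, ((∏ i, τ (e i)) * τ x) * F (Function.update e i0 x) := by
    refine sum_congr rfl fun e _ => ?_
    rw [mul_sum]
    exact sum_congr rfl fun x _ => by ring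
  rw [h4, h3]
  refine sum_congr rfl fun e _ => ?_
  have h5 : ∑ x, ((∏ i, τ (e i)) * τ x) * F e = ((∏ i, τ (e i)) * F e) * ∑ x, τ x := by
    rw [mul_sum]; exact sum_congr rfl fun x _ => by ring
  rw [h5, h1, mul_one]

open Classical in
/-- **SEQ** -/
theorem seq (τ : κ → ℝ) (h0 : ∀ x, 0 ≤ τ x) (h1 : ∑ x, τ x = 1) {m : ℕ} (φ : Fin m → ι)
    (A : Fin m → (ι → κ) → Prop) (hA : ∀ k j, k < j → ∀ e x, A k (Function.update e (φ j) x) ↔ A k e)
    (δ : ℝ) (hδ : 0 ≤ δ) (S : Finset (Fin m))
    (hS : ∀ k ∈ S, ∀ e, ∑ x with A k (Function.update e (φ k) x), τ x ≤ δ) :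
    ∑ e : ι → κ with (∀ k ∈ S, A k e), ∏ i, τ (e i) ≤ δ ^ S.card := by
  induction S using Finset.induction_on_max with
  | empty =>
    simp only [Finset.notMem_empty, false_imp_iff, implies_true, Finset.filter_true,
      Finset.card_empty, pow_zero]
    have : ∑ e : ι → κ, ∏ i, τ (e i) = ∏ _i : ι, ∑ x, τ x := by
      rw [Finset.prod_univ_sum]; simp
    rw [this, h1]; simp
  | insert k S hk ih =>
    have hkS : k ∉ S := fun h => lt_irrefl _ (hk k h)
    have ih' := ih fun j hj => hS j (Finset.mem_insert_of_mem hj)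
    have e1 : ∑ e : ι → κ with (∀ j ∈ insert k S, A j e), ∏ i, τ (e i) =
        ∑ e : ι → κ, (∏ i, τ (e i)) * (if (∀ j ∈ insert k S, A j e) then (1 : ℝ) else 0) := by
      rw [Finset.sum_filter]
      exact sum_congr rfl fun e _ => by split_ifs <;> simp
    have e2 : ∑ e : ι → κ with (∀ j ∈ S, A j e), ∏ i, τ (e i) =
        ∑ e : ι → κ, (∏ i, τ (e i)) * (if (∀ j ∈ S, A j e) then (1 : ℝ) else 0) := by
      rw [Finset.sum_filter]
      exact sum_congr rfl fun e _ => by split_ifs <;> simp
    rw [e1, resample τ h1 (φ k), Finset.card_insert_of_notMem hkS, pow_succ]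
    rw [e2] at ih'
    have e3 : ∑ e : ι → κ, (∏ i, τ (e i)) * ∑ x, τ x *
          (if (∀ j ∈ insert k S, A j (Function.update e (φ k) x)) then (1 : ℝ) else 0) ≤
        ∑ e : ι → κ, ((∏ i, τ (e i)) * (if (∀ j ∈ S, A j e) then (1 : ℝ) else 0)) * δ := by
      refine sum_le_sum fun e _ => ?_
      rw [mul_assoc]
      refine mul_le_mul_of_nonneg_left ?_ (prod_nonneg fun i _ => h0 _)
      by_cases h : ∀ j ∈ S, A j e
      · rw [if_pos h, one_mul]
        calc ∑ x, τ x * (if (∀ j ∈ insert k S, A j (Function.update e (φ k) x)) then (1 : ℝ) else 0)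
            ≤ ∑ x, (if A k (Function.update e (φ k) x) then τ x else 0) := by
              refine sum_le_sum fun x _ => ?_
              by_cases h2 : A k (Function.update e (φ k) x)
              · rw [if_pos h2]
                split_ifs
                · simp
                · simpa using h0 x
              · rw [if_neg h2, if_neg fun h3 => h2 (h3 k (Finset.mem_insert_self _ _))]
                simp
          _ = ∑ x with A k (Function.update e (φ k) x), τ x := by rw [Finset.sum_filter]
          _ ≤ δ := hS k (Finset.mem_insert_self _ _) e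
      · rw [if_neg h, zero_mul]
        refine le_of_eq (sum_eq_zero fun x _ => ?_)
        rw [if_neg, mul_zero]
        intro h3
        exact h fun j hj => (hA j k (hk j hj) e x).1 (h3 j (Finset.mem_insert_of_mem hj))
    refine e3.trans ?_
    rw [← Finset.sum_mul]
    exact mul_le_mul_of_nonneg_right ih' hδ

/-! ## COR -/

section COR

variable {k U : Type*} [Field k] [AddCommGroup U] [Module k U]

/-- the combination of the rows before `i` with coefficients `p` -/
def comb (u u' : κ → U) {b : ℕ} (e : Fin b → κ) (i : Fin b) (p : Fin b → k × k) : U :=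
  ∑ j, if j < i then (p j).1 • u (e j) + (p j).2 • u' (e j) else 0

theorem comb_update (u u' : κ → U) {b : ℕ} (e : Fin b → κ) (i j : Fin b) (hij : i ≤ j) (x : κ)
    (p : Fin b → k × k) : comb u u' (Function.update e j x) i p = comb u u' e i p := by
  unfold comb
  refine sum_congr rfl fun l _ => ?_
  split_ifs with h
  · have hne : l ≠ j := (lt_of_lt_of_le h hij).ne
    rw [Function.update_of_ne hne]
  · rfl

/-- block `i` depends on the earlier blocks modulo `Sp` -/
def Dep (Sp : Submodule k U) (u u' : κ → U) {b : ℕ} (e : Fin b → κ) (i : Fin b) : Prop :=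
  ∃ a c : k, (a ≠ 0 ∨ c ≠ 0) ∧ ∃ p : Fin b → k × k,
    a • u (e i) + c • u' (e i) - comb u u' e i p ∈ Sp

/-- the same with the span of the earlier rows -/
theorem dep_iff (Sp : Submodule k U) (u u' : κ → U) {b : ℕ} (e : Fin b → κ) (i : Fin b) :
    Dep Sp u u' e i ↔ ∃ a c : k, (a ≠ 0 ∨ c ≠ 0) ∧ a • u (e i) + c • u' (e i) ∈
      Submodule.span k {y | ∃ j, j < i ∧ (y = u (e j) ∨ y = u' (e j))} ⊔ Sp := by
  have hcomb : ∀ p : Fin b → k × k, comb u u' e i p ∈
      Submodule.span k {y | ∃ j, j < i ∧ (y = u (e j) ∨ y = u' (e j))} := by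
    intro p
    refine Submodule.sum_mem _ fun j _ => ?_
    split_ifs with h
    · exact Submodule.add_mem _
        (Submodule.smul_mem _ _ (Submodule.subset_span ⟨j, h, Or.inl rfl⟩))
        (Submodule.smul_mem _ _ (Submodule.subset_span ⟨j, h, Or.inr rfl⟩))
    · exact Submodule.zero_mem _
  have hspan : ∀ y ∈ Submodule.span k {y | ∃ j, j < i ∧ (y = u (e j) ∨ y = u' (e j))},
      ∃ p : Fin b → k × k, y = comb u u' e i p := by
    intro y hy
    induction hy using Submodule.span_induction with
    | mem y hy =>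
      obtain ⟨j, hj, h⟩ := hy
      rcases h with h | h
      · refine ⟨fun l => if l = j then (1, 0) else (0, 0), ?_⟩
        unfold comb
        rw [Finset.sum_eq_single j]
        · simp [hj, h]
        · intro l _ hl; simp [hl]
        · intro h; exact absurd (mem_univ _) h
      · refine ⟨fun l => if l = j then (0, 1) else (0, 0), ?_⟩
        unfold comb
        rw [Finset.sum_eq_single j]
        · simp [hj, h]
        · intro l _ hl; simp [hl]
        · intro h; exact absurd (mem_univ _) h
    | zero =>
      refine ⟨fun _ => (0, 0), ?_⟩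
      unfold comb
      simp
    | add y z _ _ h1 h2 =>
      obtain ⟨p, hp⟩ := h1
      obtain ⟨r, hr⟩ := h2
      refine ⟨fun j => ((p j).1 + (r j).1, (p j).2 + (r j).2), ?_⟩
      rw [hp, hr]
      unfold comb
      rw [← sum_add_distrib]
      refine sum_congr rfl fun j _ => ?_
      split_ifs
      · simp only [add_smul]; abel
      · simp
    | smul c y _ h1 =>
      obtain ⟨p, hp⟩ := h1
      refine ⟨fun j => (c * (p j).1, c * (p j).2), ?_⟩
      rw [hp]
      unfold comb
      rw [smul_sum]
      refine sum_congr rfl fun j _ => ?_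
      split_ifs
      · simp only [smul_add, mul_smul]
      · simp
  constructor
  · rintro ⟨a, c, hac, p, hp⟩
    refine ⟨a, c, hac, ?_⟩
    have : a • u (e i) + c • u' (e i) =
        comb u u' e i p + (a • u (e i) + c • u' (e i) - comb u u' e i p) := by abel
    rw [this]
    exact Submodule.add_mem_sup (hcomb p) hp
  · rintro ⟨a, c, hac, h⟩
    obtain ⟨y, hy, z, hz, hyz⟩ := Submodule.mem_sup.1 h
    obtain ⟨p, hp⟩ := hspan y hy
    refine ⟨a, c, hac, p, ?_⟩
    rw [← hyz, hp]
    simpa using hz

open Classical in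
/-- **COR**: few blocks depend on the earlier ones -/
theorem cor [Fintype k] (Sp : Submodule k U) (u u' : κ → U) (τ : κ → ℝ) (h0 : ∀ x, 0 ≤ τ x)
    (h1 : ∑ x, τ x = 1) (δ : ℝ) (hδ : 0 ≤ δ)
    (hy : ∀ y : U, ∑ x with (∃ a c : k, (a ≠ 0 ∨ c ≠ 0) ∧ a • u x + c • u' x - y ∈ Sp), τ x ≤ δ)
    (b h : ℕ) :
    ∑ e : Fin b → κ with h ≤ (univ.filter fun i => Dep Sp u u' e i).card, ∏ i, τ (e i)
      ≤ 2 ^ b * ((Fintype.card k : ℝ) ^ (2 * b) * δ) ^ h := by
  set D : ℝ := (Fintype.card k : ℝ) ^ (2 * b) * δ with hD
  have hD0 : 0 ≤ D := by positivity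
  -- one block
  have hone : ∀ i : Fin b, ∀ e : Fin b → κ,
      ∑ x with Dep Sp u u' (Function.update e i x) i, τ x ≤ D := by
    intro i e
    calc ∑ x with Dep Sp u u' (Function.update e i x) i, τ x
        ≤ ∑ p : Fin b → k × k, ∑ x with (∃ a c : k, (a ≠ 0 ∨ c ≠ 0) ∧
            a • u x + c • u' x - comb u u' e i p ∈ Sp), τ x := by
          simp only [Finset.sum_filter]
          rw [Finset.sum_comm]
          refine sum_le_sum fun x _ => ?_
          by_cases hx : Dep Sp u u' (Function.update e i x) i
          · rw [if_pos hx]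
            obtain ⟨a, c, hac, p, hp⟩ := hx
            rw [Function.update_self, comb_update u u' e i i le_rfl x p] at hp
            refine le_trans ?_ (Finset.single_le_sum (f := fun p : Fin b → k × k =>
              if (∃ a c : k, (a ≠ 0 ∨ c ≠ 0) ∧ a • u x + c • u' x - comb u u' e i p ∈ Sp)
                then τ x else 0) (fun p _ => by split_ifs; exacts [h0 x, le_rfl]) (mem_univ p))
            rw [if_pos ⟨a, c, hac, hp⟩]
          · rw [if_neg hx]
            exact sum_nonneg fun p _ => by split_ifs; exacts [h0 x, le_rfl]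
      _ ≤ ∑ _p : Fin b → k × k, δ := sum_le_sum fun p _ => hy _
      _ = D := by
          rw [Finset.sum_const, Finset.card_univ, nsmul_eq_mul, hD]
          congr 1
          rw [Fintype.card_fun, Fintype.card_prod, Fintype.card_fin]
          push_cast
          rw [← pow_two, ← pow_mul]
  -- a fixed set of blocks
  have hset : ∀ S : Finset (Fin b),
      ∑ e : Fin b → κ with (∀ i ∈ S, Dep Sp u u' e i), ∏ i, τ (e i) ≤ D ^ S.card := by
    intro S
    refine seq τ h0 h1 (fun i : Fin b => i) (fun i e => Dep Sp u u' e i) ?_ D hD0 S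
      (fun i _ e => hone i e)
    intro i j hij e x
    unfold Dep
    have hne : i ≠ j := hij.ne
    simp only [Function.update_of_ne hne, comb_update u u' e i j hij.le]
  calc ∑ e : Fin b → κ with h ≤ (univ.filter fun i => Dep Sp u u' e i).card, ∏ i, τ (e i)
      ≤ ∑ S ∈ (univ : Finset (Finset (Fin b))).filter fun S => S.card = h,
          ∑ e : Fin b → κ with (∀ i ∈ S, Dep Sp u u' e i), ∏ i, τ (e i) := by
        simp only [Finset.sum_filter (s := (univ : Finset (Fin b → κ)))]
        rw [Finset.sum_comm]
        refine sum_le_sum fun e _ => ?_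
        have hnn : 0 ≤ ∏ i, τ (e i) := prod_nonneg fun i _ => h0 _
        by_cases he : h ≤ (univ.filter fun i => Dep Sp u u' e i).card
        · rw [if_pos he]
          obtain ⟨S, hS, hSc⟩ := Finset.exists_subset_card_eq he
          refine le_trans ?_ (Finset.single_le_sum (f := fun S : Finset (Fin b) =>
            if (∀ i ∈ S, Dep Sp u u' e i) then ∏ i, τ (e i) else 0)
            (fun S _ => by split_ifs; exacts [hnn, le_rfl])
            (Finset.mem_filter.2 ⟨mem_univ S, hSc⟩))
          rw [if_pos fun i hi => (Finset.mem_filter.1 (hS hi)).2]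
        · rw [if_neg he]
          exact sum_nonneg fun S _ => by split_ifs; exacts [hnn, le_rfl]
    _ ≤ ∑ S ∈ (univ : Finset (Finset (Fin b))).filter fun S => S.card = h, D ^ h := by
        refine sum_le_sum fun S hS => ?_
        have := hset S
        rwa [(Finset.mem_filter.1 hS).2] at this
    _ ≤ ∑ _S : Finset (Fin b), D ^ h := by
        refine Finset.sum_le_sum_of_subset_of_nonneg (Finset.filter_subset _ _) ?_
        intro S _ _; positivity
    _ = 2 ^ b * D ^ h := by
        rw [Finset.sum_const, Finset.card_univ, Fintype.card_finset, Fintype.card_fin, nsmul_eq_mul]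
        push_cast; ring

end COR

end Crest.Agent.R042.PBSeq420
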