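import Crest.Agent.R042.PBSpecial_895
import Crest.Agent.R042.PBFam_341
import Crest.Agent.R042.LocB_767
import Crest.Agent.R042.LocA_726

/-!
# PLAN B of S0059: the special functionals of the windows of the family (`kp = 2`)

* `specU_eq_Sp2`: the special space of `SpecFam_730` (`m = kp = 2`) is the `Sp2` of `PBFam_341`;
* `fam_special`: `hS` of `special_mass` / `special_false` for `π := winX` and
  `C := (VS (2 ^ e) 2 X).dualAnnihilator`;
* `fam_card`: `hKK` with `K₀ = K / q ^ 2`;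
* `special_false_fam`: `hS` of the label theorem, for the blocks `fblk` of the family.
-/

set_option autoImplicit false
set_option linter.unusedSectionVars false

namespace Crest.Agent.R042.PBSpecFam895

open Finset Crest.Agent.R042.RowWin543 Crest.Agent.R042.Fam543 Crest.Agent.R042.PB
  Crest.Agent.R042.ConfB461 Crest.Agent.R042.PBSD895 Crest.Agent.R042.LocFam958
open Crest.Agent.R042.SpecFam730 (specU aop tw Indep4)

variable {k0 KK : Type} [Field k0] [Field KK] [Algebra k0 KK] {d L : ℕ}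

/-- in characteristic 2 the two letters of the perpendicular part agree -/
theorem av_eq_aop [CharP KK 2] (P P' : Ty k0 KK d L) : av P P' = aop P.b P'.b := by
  unfold av aop
  funext j
  simp only [Pi.add_apply, Pi.sub_apply, Pi.smul_apply]
  rw [CharTwo.sub_eq_add]

/-- `spec 2` of two blocks is the line of the product tensor -/
theorem spec_two (Q : ℕ) (p : Ix d → KK) :
    Spec730.spec 2 (tw Q 2 p) = Submodule.span KK {(Phi Q p : U0 KK d 2)} := by
  refine le_antisymm (Submodule.span_mono ?_) (Submodule.span_le.2 ?_)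
  · rintro t ⟨c, s, hs, hc, rfl⟩
    have hsu : s = Finset.univ := by
      apply Finset.eq_univ_of_card
      have h2 : s.card ≤ Fintype.card (Fin 2) := Finset.card_le_univ s
      rw [Fintype.card_fin] at h2 ⊢
      omega
    have hc' : c = tw Q 2 p := funext fun i => hc i (by rw [hsu]; exact Finset.mem_univ i)
    rw [hc']
    exact rfl
  · rintro t rfl
    exact SpecFam730.Phi_mem_spec Q 2 le_rfl p

/-- the special space of `SpecFam_730` for `m = kp = 2` -/
theorem specU_eq_Sp2 [CharP KK 2] (Q : ℕ) (P P' : Ty k0 KK d L) :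
    specU k0 Q 2 2 L (aop P.b P'.b) = Sp2 Q P P' := by
  ext x
  rw [SpecFam730.mem_specU, mem_Sp2, av_eq_aop]
  refine forall_congr' fun l => ?_
  rw [spec_two, Submodule.mem_span_singleton]
  exact exists_congr fun c => eq_comm

/-- the special functionals of a row -/
theorem mem_spw {k U : Type*} [Field k] [AddCommGroup U] [Module k U] {Sp Sp' : Submodule k U}
    {x : U} {φ : Module.Dual k (Greedy695.Lab k U)} (h : φ ∈ Greedy695.spw Sp Sp' x) :
    ∃ s ∈ Sp, ∃ s' ∈ Sp', φ = Greedy695.ev1 x s + Greedy695.ev2 x s' := by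
  refine Submodule.span_induction (p := fun φ _ => ∃ s ∈ Sp, ∃ s' ∈ Sp',
    φ = Greedy695.ev1 x s + Greedy695.ev2 x s') ?_ ?_ ?_ ?_ h
  · rintro ψ (⟨t, ht, rfl⟩ | ⟨t, ht, rfl⟩)
    · refine ⟨t, ht, 0, Submodule.zero_mem _, ?_⟩
      refine LinearMap.ext fun v => ?_
      simp
    · refine ⟨0, Submodule.zero_mem _, t, ht, ?_⟩
      refine LinearMap.ext fun v => ?_
      simp
  · refine ⟨0, Submodule.zero_mem _, 0, Submodule.zero_mem _, ?_⟩
    refine LinearMap.ext fun v => ?_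
    simp
  · rintro a b _ _ ⟨s, hs, s', hs', rfl⟩ ⟨t, ht, t', ht', rfl⟩
    refine ⟨s + t, Submodule.add_mem _ hs ht, s' + t', Submodule.add_mem _ hs' ht', ?_⟩
    refine LinearMap.ext fun v => ?_
    simp only [LinearMap.add_apply, Greedy695.ev1_apply, Greedy695.ev2_apply, map_add]
    ring
  · rintro c a _ ⟨s, hs, s', hs', rfl⟩
    refine ⟨c • s, Submodule.smul_mem _ c hs, c • s', Submodule.smul_mem _ c hs', ?_⟩
    refine LinearMap.ext fun v => ?_
    simp only [LinearMap.add_apply, LinearMap.smul_apply, Greedy695.ev1_apply,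
      Greedy695.ev2_apply, map_smul, smul_add]

variable [CharP KK 2] [Finite k0] [Finite KK]

/-- **`hS` for the windows of the family** (side `X`) -/
theorem fam_special {e : ℕ} {K : Set k0} (hK : Alph K) (hL : 0 < L)
    {P R : Bool → Ty k0 KK d L} (hR : ∀ b, Valid K (R b)) (hPR : ∀ a b, Perp (P a) (R b))
    (h : Indep4 P R) (C : Submodule k0 (Module.Dual k0 (VV k0 KK d 2 L)))
    (hC : C ≤ (LocA726.VS (2 ^ e) 2 P).dualAnnihilator)
    (φ : Module.Dual k0 (VV k0 KK d 2 L))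
    (hφ : φ ∈ C ⊓ LinearMap.range (winX (2 ^ e) 2 P R).dualMap) :
    ∃ z1 ∈ Sp2 (2 ^ e) (P false) (P true), ∃ z2 ∈ Sp2 (2 ^ e) (P false) (P true),
    ∃ z3 ∈ Sp2 (2 ^ e) (P true) (P false), ∃ z4 ∈ Sp2 (2 ^ e) (P true) (P false),
      φ = evF (uvec (2 ^ e) 2 (R false)) z1 + evF (uvec (2 ^ e) 2 (R true)) z2 +
        evS (uvec (2 ^ e) 2 (R false)) z3 + evS (uvec (2 ^ e) 2 (R true)) z4 := by
  have h1 := LocB767.rangeX_inf_le (2 ^ e) 2 P R C
    (LocA726.nnX_le le_rfl (by norm_num) hK hL hR hPR h C hC) ⟨hφ.2, hφ.1⟩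
  obtain ⟨a, ha, b, hb, rfl⟩ := Submodule.mem_sup.1 h1
  obtain ⟨s, hs, s', hs', rfl⟩ := mem_spw ha
  obtain ⟨t, ht, t', ht', rfl⟩ := mem_spw hb
  have e0 : LocB767.sp (2 ^ e) 2 2 P false = Sp2 (2 ^ e) (P false) (P true) :=
    specU_eq_Sp2 (2 ^ e) (P false) (P true)
  have e1 : LocB767.sp (2 ^ e) 2 2 P true = Sp2 (2 ^ e) (P true) (P false) :=
    specU_eq_Sp2 (2 ^ e) (P true) (P false)
  rw [e0] at hs ht
  rw [e1] at hs' ht'
  refine ⟨s, hs, t, ht, s', hs', t', ht', ?_⟩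
  refine LinearMap.ext fun v => ?_
  show (v.1.1 _ s + v.2.1 _ s') + (v.1.1 _ t + v.2.1 _ t') =
    v.1.1 _ s + v.1.1 _ t + v.2.1 _ s' + v.2.1 _ t'
  ring

/-- `hKK` of `special_mass` with `K₀ = K / q ^ 2` -/
theorem fam_card (Q : ℕ) (P R : Bool → Ty k0 KK d L) [Fintype (EE Q 2 P R)]
    (hI : Ctrl420.Ind2 (⊥ : Submodule k0 (U KK d 2 L)) (uvec Q 2 (R false)) (uvec Q 2 (R true)))
    (K : ℝ) (hK : 0 ≤ K) :
    K / (Nat.card k0 : ℝ) ^ 2 * (Fintype.card (EE Q 2 P R) : ℝ) ≤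
      K * (Nat.card (LinearMap.range (winX Q 2 P R)) : ℝ) := by
  have hq : (0 : ℝ) < (Nat.card k0 : ℝ) ^ 2 := by
    have : 0 < Nat.card k0 := Nat.card_pos
    positivity
  rw [div_mul_eq_mul_div, div_le_iff₀ hq]
  calc K * (Fintype.card (EE Q 2 P R) : ℝ)
      ≤ K * ((Nat.card k0 : ℝ) ^ 2 * (Nat.card (LinearMap.range (winX Q 2 P R)) : ℝ)) :=
        mul_le_mul_of_nonneg_left (LocB767.hXI Q P R hI) hK
    _ = _ := by ring

/-- independence of the two rows of a valid block (side `X`) -/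
theorem fam_ind {e : ℕ} {K : Set k0} (hK : Alph K) (hL : 0 < L)
    {P R : Bool → Ty k0 KK d L} (hR : ∀ b, Valid K (R b)) (h : Indep4 P R) :
    Ctrl420.Ind2 (⊥ : Submodule k0 (U KK d 2 L)) (uvec (2 ^ e) 2 (R false))
      (uvec (2 ^ e) 2 (R true)) :=
  LocB767.ind2_bot (ExFam726.ind2_of e 2 (by norm_num) (by norm_num) (R false) (R true) _
    (LocA726.indepX P R h false) (LocA726.E_ne hK hL (hR false)) (LocA726.E_ne hK hL (hR true))
    (LocA726.lam_ne (hR false)) (LocA726.lam_ne (hR true)))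

open Classical in
/-- **`hS` of the label theorem**, blocks `fblk` of the family: a law satisfying `Hyp` at both ends
is not carried by the blocks with large special density -/
theorem special_false_fam {e : ℕ} {K : Set k0} (hK : Alph K) (hL : 0 < L) {κ : Type} [Fintype κ]
    [Fintype k0]
    (X : Bool → Ty k0 KK d L) (Y : κ → Bool → Ty k0 KK d L)
    [∀ x, Fintype (EE (2 ^ e) 2 X (Y x))]
    (hR : ∀ x b, Valid K (Y x b)) (hPR : ∀ x a b, Perp (X a) (Y x b))
    (h : ∀ x, Indep4 X (Y x))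
    (ν : VV k0 KK d 2 L → ℝ) (h0 : ∀ v, 0 ≤ ν v) (hν1 : ∑ v, ν v = 1)
    (M : ℝ) (hν : ∀ v, ν v * Fintype.card (VV k0 KK d 2 L) ≤ M)
    (N : ℕ) (hN : 0 < N) (K₀ : ℝ) (hK₀ : (Fintype.card k0 : ℝ) ^ 2 ≤ K₀)
    (η : ℝ) (hη : 0 ≤ η)
    (hnum : M * 2 ^ N * (K₀ / (Fintype.card k0 : ℝ) ^ 2) ^ (-(η * N / 2)) < η / 2)
    (δ : ℝ) (hδ : 2 * (Fintype.card k0 : ℝ) ^ (2 * N) * δ < 1)
    (τ : κ → ℝ)
    (hH : Hyp (fblk (2 ^ e) (X false) (X true) (fun x => Y x false) (fun x => Y x true)) τ δ)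
    (hH' : Hyp (fblk (2 ^ e) (X true) (X false) (fun x => Y x false) (fun x => Y x true)) τ δ)
    (hall : ∀ x, τ x ≠ 0 → BadS (winX (2 ^ e) 2 X (Y x)) ν
      (LocA726.VS (2 ^ e) 2 X).dualAnnihilator K₀ η) : False := by
  have hq : (0 : ℝ) < (Fintype.card k0 : ℝ) ^ 2 := by
    have : 0 < Fintype.card k0 := Fintype.card_pos
    positivity
  refine special_false
    (fblk (2 ^ e) (X false) (X true) (fun x => Y x false) (fun x => Y x true))
    (fblk (2 ^ e) (X true) (X false) (fun x => Y x false) (fun x => Y x true)) rfl rfl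
    (LocA726.VS (2 ^ e) 2 X).dualAnnihilator (fun x => winX (2 ^ e) 2 X (Y x))
    (fun x φ hφ => fam_special hK hL (hR x) (hPR x) (h x) _ le_rfl φ hφ)
    ν h0 hν1 M hν N hN K₀ (hq.le.trans hK₀) (K₀ / (Fintype.card k0 : ℝ) ^ 2)
    ((one_le_div hq).2 hK₀) (fun x => ?_) η hη hnum δ hδ τ hH hH' hall
  have := fam_card (2 ^ e) X (Y x) (fam_ind hK hL (hR x) (h x)) K₀ (hq.le.trans hK₀)
  rwa [Nat.card_eq_fintype_card] at this

end Crest.Agent.R042.PBSpecFam895
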