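import Mathlib

/-!
# Row 42 / S0059, (PAIR): the abstract dimension count (helper57)
-/

set_option autoImplicit false

namespace Crest.Agent.R042.PairAbs57

open Module

variable {K : Type*} [Field K] {Y M : Type*} [AddCommGroup Y] [Module K Y] [AddCommGroup M]
  [Module K M] [FiniteDimensional K Y] [FiniteDimensional K M]

/-- the count: `π` injective on `W`, the maps `Θ j ∘ π` send `W` into `Hj j`, their joint kernel
is sent into `H`. -/
theorem count {J : Type*} [Fintype J] {N : J → Type*} [∀ j, AddCommGroup (N j)]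
    [∀ j, Module K (N j)] [∀ j, FiniteDimensional K (N j)]
    (π : Y →ₗ[K] M) (Θ : ∀ j, M →ₗ[K] N j) (W S : Submodule K Y)
    (G H : Submodule K M) (Gj Hj : ∀ j, Submodule K (N j))
    (hG : ∀ x ∈ S, π x ∈ G) (hGj : ∀ j, ∀ x ∈ S, Θ j (π x) ∈ Gj j)
    (ha : ∀ x ∈ W, π x = 0 → x = 0)
    (hb : ∀ x ∈ W, ∀ j, Θ j (π x) ∈ Hj j)
    (hc : ∀ x ∈ W, (∀ j, Θ j (π x) = 0) → π x ∈ H) :
    finrank K ↥(S ⊓ W) ≤ finrank K ↥(G ⊓ H) + ∑ j, finrank K ↥(Gj j ⊓ Hj j) := by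
  classical
  let Ψ : ↥(S ⊓ W) →ₗ[K] (∀ j, ↥(Gj j ⊓ Hj j)) := LinearMap.pi fun j =>
    LinearMap.codRestrict (Gj j ⊓ Hj j) (((Θ j).comp π).comp (S ⊓ W).subtype)
      (fun x => ⟨hGj j x.1 x.2.1, hb x.1 x.2.2 j⟩)
  have h1 := LinearMap.finrank_range_add_finrank_ker Ψ
  have h2 : finrank K (LinearMap.range Ψ) ≤ ∑ j, finrank K ↥(Gj j ⊓ Hj j) := by
    calc finrank K (LinearMap.range Ψ) ≤ finrank K (∀ j, ↥(Gj j ⊓ Hj j)) :=
          Submodule.finrank_le _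
      _ = ∑ j, finrank K ↥(Gj j ⊓ Hj j) := Module.finrank_pi_fintype K
  have h3 : finrank K (LinearMap.ker Ψ) ≤ finrank K ↥(G ⊓ H) := by
    let Φ : LinearMap.ker Ψ →ₗ[K] ↥(G ⊓ H) :=
      LinearMap.codRestrict (G ⊓ H) ((π.comp (S ⊓ W).subtype).comp (LinearMap.ker Ψ).subtype)
        (fun x => by
          refine ⟨hG x.1.1 x.1.2.1, hc x.1.1 x.1.2.2 fun j => ?_⟩
          have h4 : Ψ x.1 = 0 := x.2
          have h5 := congrArg (fun f => ((f j : ↥(Gj j ⊓ Hj j)) : N j)) h4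
          exact h5)
    refine LinearMap.finrank_le_finrank_of_injective (f := Φ) ?_
    rw [← LinearMap.ker_eq_bot, LinearMap.ker_eq_bot']
    intro x hx
    have h6 : π x.1.1 = 0 := congrArg (fun y : ↥(G ⊓ H) => (y : M)) hx
    have h7 := ha x.1.1 x.1.2.2 h6
    exact Subtype.ext (Subtype.ext h7)
  omega

/-- the same modulo subspaces -/
theorem count_mod {J : Type*} [Fintype J] {N : J → Type*} [∀ j, AddCommGroup (N j)]
    [∀ j, Module K (N j)] [∀ j, FiniteDimensional K (N j)]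
    (π : Y →ₗ[K] M) (Θ : ∀ j, M →ₗ[K] N j) (C : Submodule K Y) (C₁ : Submodule K M)
    (Cj : ∀ j, Submodule K (N j)) (hC : C ≤ C₁.comap π) (hCj : ∀ j, C₁ ≤ (Cj j).comap (Θ j))
    (W : Submodule K Y) (S : Submodule K (Y ⧸ C))
    (G : Submodule K (M ⧸ C₁)) (H : Submodule K M)
    (Gj : ∀ j, Submodule K (N j ⧸ Cj j)) (Hj : ∀ j, Submodule K (N j))
    (hG : ∀ x, C.mkQ x ∈ S → C₁.mkQ (π x) ∈ G)
    (hGj : ∀ j, ∀ x, C.mkQ x ∈ S → (Cj j).mkQ (Θ j (π x)) ∈ Gj j)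
    (ha : ∀ x ∈ W, π x ∈ C₁ → x ∈ C)
    (hb : ∀ x ∈ W, ∀ j, ∃ h ∈ Hj j, Θ j (π x) - h ∈ Cj j)
    (hc : ∀ x ∈ W, (∀ j, Θ j (π x) ∈ Cj j) → ∃ h ∈ H, π x - h ∈ C₁) :
    finrank K ↥(W.map C.mkQ ⊓ S) ≤
      finrank K ↥(G ⊓ H.map C₁.mkQ) + ∑ j, finrank K ↥(Gj j ⊓ (Hj j).map (Cj j).mkQ) := by
  have key := count (K := K) (Y := Y ⧸ C) (M := M ⧸ C₁) (N := fun j => N j ⧸ Cj j)
    (Submodule.mapQ C C₁ π hC) (fun j => Submodule.mapQ C₁ (Cj j) (Θ j) (hCj j))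
    (W.map C.mkQ) S G (H.map C₁.mkQ) Gj (fun j => (Hj j).map (Cj j).mkQ)
    (by
      intro x hx
      obtain ⟨y, rfl⟩ := C.mkQ_surjective x
      simpa using hG y hx)
    (by
      intro j x hx
      obtain ⟨y, rfl⟩ := C.mkQ_surjective x
      simpa using hGj j y hx)
    (by
      rintro _ ⟨x, hx, rfl⟩ h0
      have h1 : C₁.mkQ (π x) = 0 := by simpa using h0
      rw [Submodule.mkQ_apply, Submodule.Quotient.mk_eq_zero] at h1
      rw [Submodule.mkQ_apply, Submodule.Quotient.mk_eq_zero]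
      exact ha x hx h1)
    (by
      rintro _ ⟨x, hx, rfl⟩ j
      obtain ⟨h, hh, h1⟩ := hb x hx j
      refine ⟨h, hh, ?_⟩
      have h2 : (Cj j).mkQ h = (Cj j).mkQ (Θ j (π x)) := by
        rw [Submodule.mkQ_apply, Submodule.mkQ_apply]
        symm
        rw [Submodule.Quotient.eq]
        exact h1
      rw [h2]
      simp)
    (by
      rintro _ ⟨x, hx, rfl⟩ h0
      obtain ⟨h, hh, h1⟩ := hc x hx fun j => by
        have h2 : (Cj j).mkQ (Θ j (π x)) = 0 := by simpa using h0 j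
        rwa [Submodule.mkQ_apply, Submodule.Quotient.mk_eq_zero] at h2
      refine ⟨h, hh, ?_⟩
      have h2 : C₁.mkQ h = C₁.mkQ (π x) := by
        rw [Submodule.mkQ_apply, Submodule.mkQ_apply]
        symm
        rw [Submodule.Quotient.eq]
        exact h1
      rw [h2]
      simp)
  rwa [inf_comm] at key

end Crest.Agent.R042.PairAbs57
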