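import Crest.Agent.R042.Ker_807
import Crest.Agent.R042.SpecFam_730

/-!
# Row 42 / S0059, (PAIR): definitions (helper57)

Everything is block generic: a vector `b : Ix d → KK` enters only through its block vectors
`v : Fin k → Ix d → KK` (`v = tw Q kp b`, or `tw Q kp b ∘ i.succAbove` after removing a block,
or the entrywise `q`-power on the right).
-/

set_option autoImplicit false
set_option linter.unusedSectionVars false

namespace Crest.Agent.R042.Pair57

open Crest.Agent.R042.Fam543 Crest.Agent.R042.SpecFam730 Crest.Agent.R042.Ker807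
open Crest.Agent.R042.Spec730 hiding pure

local notation "pt" => Crest.Agent.R042.Spec730.pure

variable {KK : Type} [Field KK] {d k : ℕ}

/-- tensors with `k` blocks -/
abbrev Ten (KK : Type) (d k : ℕ) := (Fin k → Ix d) → KK

/-- matrices = `Ten ⊗ Ten` -/
abbrev Mat (KK : Type) (d k : ℕ) := (Fin k → Ix d) → (Fin k → Ix d) → KK

/-- `L × L` matrices of matrices = `(KK^L ⊗ Ten) ⊗ (KK^L ⊗ Ten)` -/
abbrev MatL (KK : Type) (d k L : ℕ) := Fin L → Fin L → Mat KK d k

/-- rank one matrix -/
def outer (x y : Ten KK d k) : Mat KK d k := fun al be => x al * y be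

/-- contraction of block `i` with `B (v i) ·`, block kept -/
def cg (v : Fin k → Ix d → KK) (i : Fin k) : Ten KK d k →ₗ[KK] Ten KK d k where
  toFun t := fun al => ∑ j, v i (sw j) * t (Function.update al i j)
  map_add' := by
    intro s t; funext al
    simp only [Pi.add_apply, mul_add, Finset.sum_add_distrib]
  map_smul' := by
    intro c t; funext al
    simp only [Pi.smul_apply, smul_eq_mul, RingHom.id_apply, Finset.mul_sum]
    exact Finset.sum_congr rfl fun j _ => by ring

/-- tensors killed by all contractions with `B (v i) ·` -/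
def Tg (v : Fin k → Ix d → KK) : Submodule KK (Ten KK d k) := ⨅ i, LinearMap.ker (cg v i)

theorem mem_Tg {v : Fin k → Ix d → KK} {t : Ten KK d k} : t ∈ Tg v ↔ ∀ i, cg v i t = 0 := by
  simp [Tg, Submodule.mem_iInf, LinearMap.mem_ker]

theorem T1_eq (Q : ℕ) (h : Ix d → KK) : (T1 Q h : Submodule KK (U0 KK d k)) = Tg (tw Q k h) := rfl

/-- entrywise `q`-power of block vectors -/
def qv (q : ℕ) (v : Fin k → Ix d → KK) : Fin k → Ix d → KK := fun i j => v i j ^ q

/-- entrywise `q`-power of a tensor -/
def qt (q : ℕ) (t : Ten KK d k) : Ten KK d k := fun al => t al ^ q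

/-- removing block `i` -/
def rm (i : Fin (k + 1)) (v : Fin (k + 1) → Ix d → KK) : Fin k → Ix d → KK :=
  fun j => v (i.succAbove j)

/-- `T(p, p')` -/
def UU (v w : Fin k → Ix d → KK) : Submodule KK (Ten KK d k) := Tg v ⊓ Tg w

/-- special tensors in `T(p)`: at least `m` blocks in direction `a` -/
def SS (m : ℕ) (a v : Fin k → Ix d → KK) : Submodule KK (Ten KK d k) := spec m a ⊓ Tg v

/-- controlled matrices of one entry: `U ⊗ S' + S ⊗ U'` -/
def Cm (UL SL UR SR : Submodule KK (Ten KK d k)) : Submodule KK (Mat KK d k) :=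
  Submodule.span KK ({M | ∃ x ∈ UL, ∃ y ∈ SR, M = outer x y} ∪
    {M | ∃ x ∈ SL, ∃ y ∈ UR, M = outer x y})

/-- controlled matrices, all entries -/
def CmL (L : ℕ) (UL SL UR SR : Submodule KK (Ten KK d k)) : Submodule KK (MatL KK d k L) where
  carrier := {M | ∀ a b, M a b ∈ Cm UL SL UR SR}
  add_mem' := fun hx hy a b => Submodule.add_mem _ (hx a b) (hy a b)
  zero_mem' := fun _ _ => Submodule.zero_mem _
  smul_mem' := fun c _ hx a b => Submodule.smul_mem _ c (hx a b)

theorem mem_CmL {L : ℕ} {UL SL UR SR : Submodule KK (Ten KK d k)} {M : MatL KK d k L} :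
    M ∈ CmL L UL SL UR SR ↔ ∀ a b, M a b ∈ Cm UL SL UR SR := Iff.rfl

/-- hat window of one entry: rows `pt r ⊗ TR` and columns `TL ⊗ pt r'` -/
def Hm (r r' : Fin k → Ix d → KK) (TL TR : Submodule KK (Ten KK d k)) :
    Submodule KK (Mat KK d k) where
  carrier := {M | ∃ z ∈ TR, ∃ z' ∈ TL, M = outer (pt r) z + outer z' (pt r')}
  add_mem' := by
    rintro _ _ ⟨z, hz, z', hz', rfl⟩ ⟨w, hw, w', hw', rfl⟩
    refine ⟨z + w, TR.add_mem hz hw, z' + w', TL.add_mem hz' hw', ?_⟩
    funext al be
    simp only [outer, Pi.add_apply]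
    ring
  zero_mem' := by
    refine ⟨0, TR.zero_mem, 0, TL.zero_mem, ?_⟩
    funext al be
    simp [outer]
  smul_mem' := by
    rintro c _ ⟨z, hz, z', hz', rfl⟩
    refine ⟨c • z, TR.smul_mem c hz, c • z', TL.smul_mem c hz', ?_⟩
    funext al be
    simp only [outer, Pi.add_apply, Pi.smul_apply, smul_eq_mul]
    ring

/-- hat window, all entries -/
def HmL (L : ℕ) (r r' : Fin k → Ix d → KK) (TL TR : Submodule KK (Ten KK d k)) :
    Submodule KK (MatL KK d k L) where
  carrier := {M | ∀ a b, M a b ∈ Hm r r' TL TR}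
  add_mem' := fun hx hy a b => Submodule.add_mem _ (hx a b) (hy a b)
  zero_mem' := fun _ _ => Submodule.zero_mem _
  smul_mem' := fun c _ hx a b => Submodule.smul_mem _ c (hx a b)

/-- two sided contraction of block `i` of a matrix -/
def cm (i : Fin (k + 1)) (lam mu : (Ix d → KK) →ₗ[KK] KK) :
    Mat KK d (k + 1) →ₗ[KK] Mat KK d k where
  toFun M := fun al be => ∑ x, ∑ y, lam (Pi.single x 1) * mu (Pi.single y 1) *
    M (i.insertNth x al) (i.insertNth y be)
  map_add' := by
    intro s t; funext al be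
    simp only [Pi.add_apply, mul_add, Finset.sum_add_distrib]
  map_smul' := by
    intro c t; funext al be
    simp only [Pi.smul_apply, smul_eq_mul, RingHom.id_apply, Finset.mul_sum]
    exact Finset.sum_congr rfl fun j _ => Finset.sum_congr rfl fun j' _ => by ring

/-- two sided contraction of all entries -/
def cmL (L : ℕ) (i : Fin (k + 1)) (lam mu : (Ix d → KK) →ₗ[KK] KK) :
    MatL KK d (k + 1) L →ₗ[KK] MatL KK d k L where
  toFun M := fun a b => cm i lam mu (M a b)
  map_add' := by intro s t; funext a b; simp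
  map_smul' := by intro c t; funext a b; simp

theorem cmL_apply (L : ℕ) (i : Fin (k + 1)) (lam mu : (Ix d → KK) →ₗ[KK] KK)
    (M : MatL KK d (k + 1) L) (a b : Fin L) : cmL L i lam mu M a b = cm i lam mu (M a b) := rfl

theorem cm_outer (i : Fin (k + 1)) (lam mu : (Ix d → KK) →ₗ[KK] KK) (x y : Ten KK d (k + 1)) :
    cm i lam mu (outer x y) = outer (cont i lam x) (cont i mu y) := by
  funext al be
  show (∑ u, ∑ v, lam (Pi.single u 1) * mu (Pi.single v 1) *
    (x (i.insertNth u al) * y (i.insertNth v be))) = _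
  rw [outer, cont_apply, cont_apply, Finset.sum_mul_sum]
  exact Finset.sum_congr rfl fun u _ => Finset.sum_congr rfl fun v _ => by ring

/-- the matrix of the functional `f ↦ f(x, y)`: `x ⊗ y^(q) + y ⊗ x^(q)` -/
def mt (q : ℕ) {L : ℕ} (x y : Fin L → Ten KK d k) : MatL KK d k L :=
  fun a b => outer (x a) (qt q (y b)) + outer (y a) (qt q (x b))

end Crest.Agent.R042.Pair57
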