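import Crest.Agent.R042.TypeB_763
import Crest.Agent.R042.LabAsy_763

/-!
# Row 42 (S0059, plan B): `PairConfK`
-/

namespace Crest.Agent.R042.PairFin763

/-- **the pair construction**, every constant -/
theorem pairConfK (K₀ : ℕ) (hK₀ : 0 < K₀) : S59Spine883.PairConfK K₀ :=
  FinB713.pairConfK_of_asy K₀ hK₀
    (fun q d L m1 cm hq hcm => LabB763.labelAsy q hq d L m1 cm hcm)
    (fun η β hη hη1 hβ _ h12 => TypeB763.typeAsy η β hη hη1 hβ h12)

theorem pairConfK_100000 : S59Spine883.PairConfK 100000 := pairConfK 100000 (by norm_num)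

end Crest.Agent.R042.PairFin763
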