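import Crest.Agent.R042.PairPi_57

/-!
# Row 42 / S0059, (PAIR): the coefficient lemma (INJ) (helper57)
-/

set_option autoImplicit false
set_option linter.unusedSectionVars false

namespace Crest.Agent.R042.Pair57

open Crest.Agent.R042.Fam543 Crest.Agent.R042.SpecFam730 Crest.Agent.R042.Ker807
open Crest.Agent.R042.RowWin543 Module
open Crest.Agent.R042.Spec730 hiding pure

local notation "pt" => Crest.Agent.R042.Spec730.pure

section field

variable {k0 KK : Type} [Field k0] [Field KK] [Algebra k0 KK] [Fintype k0] [Finite KK]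

/-- elements fixed by the square of Frobenius lie in `k0` when the degree is odd -/
theorem base_of_pow (hodd : Odd (finrank k0 KK)) (b : KK)
    (h : (b ^ Fintype.card k0) ^ Fintype.card k0 = b) : ∃ c : k0, algebraMap k0 KK c = b := by
  have hfin : Module.Finite k0 KK := Module.Finite.of_finite
  let φ := FiniteField.frobeniusAlgEquivOfAlgebraic k0 KK
  have hφ : ∀ x, φ x = x ^ Fintype.card k0 := fun x => rfl
  have hord : φ ^ finrank k0 KK = 1 := by
    rw [← FiniteField.orderOf_frobeniusAlgEquivOfAlgebraic k0 KK]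
    exact pow_orderOf_eq_one _
  have h2 : (φ ^ 2) b = b := by
    rw [pow_two, AlgEquiv.mul_apply, hφ, hφ, h]
  obtain ⟨m, hm⟩ := hodd
  have h3 : ∀ j : ℕ, ((φ ^ 2) ^ j) b = b := by
    intro j
    induction j with
    | zero => rfl
    | succ j ih => rw [pow_succ, AlgEquiv.mul_apply, h2, ih]
  have h4 : φ b = b := by
    have h5 : (φ ^ 2) ^ (m + 1) = φ := by
      rw [← pow_mul]
      have : 2 * (m + 1) = finrank k0 KK + 1 := by omega
      rw [this, pow_succ, hord, one_mul]
    have h6 := h3 (m + 1)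
    rwa [h5] at h6
  have h7 : b ∈ Set.range (algebraMap k0 KK) := by
    rw [IsGalois.mem_range_algebraMap_iff_fixed]
    intro f
    obtain ⟨n, hn⟩ := (FiniteField.bijective_frobeniusAlgEquivOfAlgebraic_pow k0 KK).2 f
    have hn' : φ ^ (n : ℕ) = f := hn
    rw [← hn']
    have h8 : ∀ j : ℕ, (φ ^ j) b = b := by
      intro j
      induction j with
      | zero => rfl
      | succ j ih => rw [pow_succ, AlgEquiv.mul_apply, h4, ih]
    exact h8 _
  obtain ⟨c, hc⟩ := h7
  exact ⟨c, hc⟩

end field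

section functional

variable {KK : Type} [Field KK] {d k L : ℕ}

/-- product functional -/
def pf (v : Fin k → (Ix d → KK) →ₗ[KK] KK) : Ten KK d k →ₗ[KK] KK where
  toFun t := ∑ al : Fin k → Ix d, (∏ i, v i (Pi.single (al i) 1)) * t al
  map_add' s t := by simp [mul_add, Finset.sum_add_distrib]
  map_smul' c t := by
    simp only [Pi.smul_apply, smul_eq_mul, RingHom.id_apply, Finset.mul_sum]
    exact Finset.sum_congr rfl fun be _ => by ring

theorem pf_pure (v : Fin k → (Ix d → KK) →ₗ[KK] KK) (c : Fin k → Ix d → KK) :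
    pf v (pt c) = ∏ i, v i (c i) := by
  have h : ∀ i, v i (c i) = ∑ x : Ix d, v i (Pi.single x 1) * c i x := fun i => lam_eq _ _
  simp_rw [h]
  rw [Finset.prod_univ_sum, Fintype.piFinset_univ]
  show (∑ al : Fin k → Ix d, (∏ i, v i (Pi.single (al i) 1)) * ∏ i, c i (al i)) = _
  exact Finset.sum_congr rfl fun be _ => by rw [Finset.prod_mul_distrib]

theorem pf_spec (v : Fin k → (Ix d → KK) →ₗ[KK] KK) (p : Fin k → Ix d → KK) (m : ℕ)
    (hm : ∀ s : Finset (Fin k), m ≤ s.card → ∃ i ∈ s, v i (p i) = 0)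
    {t : Ten KK d k} (ht : t ∈ spec m p) : pf v t = 0 := by
  refine Submodule.span_induction (p := fun t _ => pf v t = 0) ?_ ?_ ?_ ?_ ht
  · rintro x ⟨c, s, hs, hc, rfl⟩
    obtain ⟨i, his, hi⟩ := hm s hs
    rw [pf_pure]
    exact Finset.prod_eq_zero (Finset.mem_univ i) (by rw [hc i his]; exact hi)
  · simp
  · intro x y _ _ hx hy; rw [map_add, hx, hy, add_zero]
  · intro a x _ hx; rw [map_smul, hx, smul_zero]

/-- functional on the left argument -/
def pl (v : Fin k → (Ix d → KK) →ₗ[KK] KK) : Mat KK d k →ₗ[KK] Ten KK d k where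
  toFun M := fun be => pf v fun al => M al be
  map_add' s t := by
    funext be
    exact map_add (pf v) (fun al => s al be) (fun al => t al be)
  map_smul' c t := by
    funext be
    exact map_smul (pf v) c (fun al => t al be)

theorem pl_outer (v : Fin k → (Ix d → KK) →ₗ[KK] KK) (x y : Ten KK d k) :
    pl v (outer x y) = pf v x • y := by
  funext be
  have h : (fun al => outer x y al be) = y be • x := by
    funext al
    simp [outer, mul_comm]
  show pf v (fun al => outer x y al be) = _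
  rw [h, map_smul, Pi.smul_apply, smul_eq_mul, smul_eq_mul, mul_comm]

theorem pl_Cm (v : Fin k → (Ix d → KK) →ₗ[KK] KK) {UL SL UR SR : Submodule KK (Ten KK d k)}
    (hv : ∀ x ∈ SL, pf v x = 0) {M : Mat KK d k} (hM : M ∈ Cm UL SL UR SR) : pl v M ∈ SR := by
  refine Submodule.span_induction (p := fun M _ => pl v M ∈ SR) ?_ ?_ ?_ ?_ hM
  · rintro M (⟨x, hx, y, hy, rfl⟩ | ⟨x, hx, y, hy, rfl⟩)
    · rw [pl_outer]; exact SR.smul_mem _ hy
    · rw [pl_outer, hv x hx, zero_smul]; exact SR.zero_mem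
  · rw [map_zero]; exact SR.zero_mem
  · intro x y _ _ hx hy; rw [map_add]; exact SR.add_mem hx hy
  · intro a x _ hx; rw [map_smul]; exact SR.smul_mem _ hx

/-- pure functional: `1` at `pt r`, `0` at `pt r'`, `0` on `spec m a` -/
theorem exists_pf (m : ℕ) (hm : 2 ≤ m) (hmk : m ≤ k) (r r' a : Fin k → Ix d → KK)
    (hra : ∀ i, LinearIndependent KK ![r i, a i]) (hrr : ∀ i, LinearIndependent KK ![r i, r' i]) :
    ∃ v : Fin k → (Ix d → KK) →ₗ[KK] KK, pf v (pt r) = 1 ∧ pf v (pt r') = 0 ∧
      ∀ x ∈ spec m a, pf v x = 0 := by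
  classical
  have i0 : Fin k := ⟨0, by omega⟩
  choose α β hα hα' hβ hβ' using fun i => exists_dual (r i) (a i) (hra i)
  choose α₁ β₁ h1 h2 h3 h4 using fun i => exists_dual (r i) (r' i) (hrr i)
  refine ⟨fun i => if i = i0 then α₁ i else α i, ?_, ?_, ?_⟩
  · rw [pf_pure]
    refine Finset.prod_eq_one fun i _ => ?_
    by_cases h : i = i0
    · simp only [h, if_true]; exact h1 i0
    · simp only [h, if_false]; exact hα i
  · rw [pf_pure]
    refine Finset.prod_eq_zero (Finset.mem_univ i0) ?_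
    simp only [if_true]; exact h2 i0
  · intro x hx
    refine pf_spec _ a m ?_ hx
    intro s hs
    obtain ⟨i, hi, hne⟩ : ∃ i ∈ s, i ≠ i0 := by
      by_contra hcon
      push Not at hcon
      have : s ⊆ {i0} := fun i hi => Finset.mem_singleton.2 (hcon i hi)
      have := Finset.card_le_card this
      rw [Finset.card_singleton] at this
      omega
    refine ⟨i, hi, ?_⟩
    simp only [hne, if_false]; exact hα' i

end functional

section inj

variable {k0 KK : Type} [Field k0] [Field KK] [Algebra k0 KK] [Fintype k0] [Finite KK]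
  {d k L : ℕ}

theorem qt_smul_pure (q : ℕ) (c : KK) (v : Fin k → Ix d → KK) :
    qt q (c • pt v) = c ^ q • pt (qv q v) := by
  funext al
  simp [qt, qv, Spec730.pure, mul_pow, Finset.prod_pow]

/-- **(INJ)** -/
theorem inj_coef (hodd : Odd (finrank k0 KK)) (hL : 0 < L) (m : ℕ) (hm : 2 ≤ m) (hmk : m ≤ k)
    (R R' A : Fin k → Ix d → KK)
    (hRA : ∀ i, LinearIndependent KK ![R i, A i]) (hR'A : ∀ i, LinearIndependent KK ![R' i, A i])
    (hRR : ∀ i, LinearIndependent KK ![R i, R' i])
    (hRAq : ∀ i, LinearIndependent KK ![qv (Fintype.card k0) R i, qv (Fintype.card k0) A i])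
    (hR'Aq : ∀ i, LinearIndependent KK ![qv (Fintype.card k0) R' i, qv (Fintype.card k0) A i])
    (hRRq : ∀ i, LinearIndependent KK ![qv (Fintype.card k0) R i, qv (Fintype.card k0) R' i])
    {UL SL UR SR : Submodule KK (Ten KK d k)} (hSL : SL ≤ spec m A)
    (hSR : SR ≤ spec m (qv (Fintype.card k0) A))
    (ε ε' c c' : Fin L → KK) (hε : ∀ a, ε a ≠ 0) (hε' : ∀ a, ε' a ≠ 0)
    (hM : mt (Fintype.card k0) (fun a => ε a • pt R) (fun a => c a • pt R') +
      mt (Fintype.card k0) (fun a => ε' a • pt R') (fun a => c' a • pt R) ∈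
        CmL L UL SL UR SR) :
    ∃ b : k0, (∀ a, c a = algebraMap k0 KK b * ε' a) ∧
      ∀ a, c' a = -(algebraMap k0 KK b * ε a) := by
  classical
  set q := Fintype.card k0 with hq
  -- the entries
  have hent : ∀ a b, (ε a * c b ^ q + c' a * ε' b ^ q) • outer (pt R) (pt (qv q R')) +
      (c a * ε b ^ q + ε' a * c' b ^ q) • outer (pt R') (pt (qv q R)) ∈ Cm UL SL UR SR := by
    intro a b
    have h1 := hM a b
    have h2 : (mt q (fun a => ε a • pt R) (fun a => c a • pt R') +
      mt q (fun a => ε' a • pt R') (fun a => c' a • pt R)) a b =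
      (ε a * c b ^ q + c' a * ε' b ^ q) • outer (pt R) (pt (qv q R')) +
      (c a * ε b ^ q + ε' a * c' b ^ q) • outer (pt R') (pt (qv q R)) := by
      funext al be
      simp only [mt, Pi.add_apply, qt_smul_pure, outer, Pi.smul_apply, smul_eq_mul]
      ring
    rwa [h2] at h1
  -- extraction of coefficients
  obtain ⟨v, hv1, hv2, hv3⟩ := exists_pf m hm hmk R R' A hRA hRR
  obtain ⟨w, hw1, hw2, hw3⟩ := exists_pf m hm hmk R' R A hR'A
    (fun i => (LinearIndependent.pair_symm_iff).1 (hRR i))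
  obtain ⟨v', hv1', hv2', hv3'⟩ := exists_pf m hm hmk (qv q R) (qv q R') (qv q A) hRAq hRRq
  obtain ⟨w', hw1', hw2', hw3'⟩ := exists_pf m hm hmk (qv q R') (qv q R) (qv q A) hR'Aq
    (fun i => (LinearIndependent.pair_symm_iff).1 (hRRq i))
  have hA : ∀ a b, ε a * c b ^ q + c' a * ε' b ^ q = 0 := by
    intro a b
    have h1 := hw3' _ (hSR (pl_Cm v (fun x hx => hv3 x (hSL hx)) (hent a b)))
    rw [map_add, map_smul, map_smul, pl_outer, pl_outer, hv1, hv2, one_smul, zero_smul, smul_zero,
      add_zero, map_smul, hw1', smul_eq_mul, mul_one] at h1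
    exact h1
  have hB : ∀ a b, c a * ε b ^ q + ε' a * c' b ^ q = 0 := by
    intro a b
    have h1 := hv3' _ (hSR (pl_Cm w (fun x hx => hw3 x (hSL hx)) (hent a b)))
    rw [map_add, map_smul, map_smul, pl_outer, pl_outer, hw1, hw2, one_smul, zero_smul, smul_zero,
      zero_add, map_smul, hv1', smul_eq_mul, mul_one] at h1
    exact h1
  let a0 : Fin L := ⟨0, hL⟩
  let b : KK := -(c' a0) / ε a0
  have hc'0 : c' a0 = -(b * ε a0) := by
    simp only [b]
    field_simp [hε a0]
  have hcb : ∀ x, c x ^ q = b * ε' x ^ q := by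
    intro x
    have h1 := hA a0 x
    rw [hc'0] at h1
    have h2 : ε a0 * (c x ^ q - b * ε' x ^ q) = 0 := by linear_combination h1
    rcases mul_eq_zero.1 h2 with h3 | h3
    · exact absurd h3 (hε a0)
    · exact sub_eq_zero.1 h3
  have hc' : ∀ x, c' x = -(b * ε x) := by
    intro x
    have h1 := hA x a0
    rw [hcb a0] at h1
    have h2 : ε' a0 ^ q * (c' x + b * ε x) = 0 := by linear_combination h1
    rcases mul_eq_zero.1 h2 with h3 | h3
    · exact absurd h3 (pow_ne_zero q (hε' a0))
    · exact eq_neg_of_add_eq_zero_left h3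
  have hneg : (-1 : KK) ^ q = -1 := by
    have h1 := pow_smul' (k0 := k0) (-1 : k0) (1 : KK)
    simpa using h1
  have hc : ∀ x, c x = b ^ q * ε' x := by
    intro x
    have h1 := hB x a0
    rw [hc'0] at h1
    have h2 : (-(b * ε a0)) ^ q = -(b ^ q * ε a0 ^ q) := by
      rw [neg_eq_neg_one_mul, mul_pow, hneg, mul_pow]; ring
    rw [h2] at h1
    have h3 : ε a0 ^ q * (c x - b ^ q * ε' x) = 0 := by linear_combination h1
    rcases mul_eq_zero.1 h3 with h4 | h4
    · exact absurd h4 (pow_ne_zero q (hε a0))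
    · exact sub_eq_zero.1 h4
  have hbb : (b ^ q) ^ q = b := by
    have h1 := hcb a0
    rw [hc a0, mul_pow] at h1
    have h2 : ε' a0 ^ q * ((b ^ q) ^ q - b) = 0 := by linear_combination h1
    rcases mul_eq_zero.1 h2 with h3 | h3
    · exact absurd h3 (pow_ne_zero q (hε' a0))
    · exact sub_eq_zero.1 h3
  obtain ⟨b0, hb0⟩ := base_of_pow (k0 := k0) hodd b hbb
  refine ⟨b0, fun x => ?_, fun x => ?_⟩
  · rw [hb0, hc x]
    congr 1
    rw [← hb0, ← map_pow, FiniteField.pow_card]
  · rw [hb0, hc' x]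

end inj

end Crest.Agent.R042.Pair57
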