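import Crest.Agent.R042.TypeB_303
import Crest.Agent.R042.LabAsy_763

/-!
# Row 42 / S0059, plan B: `PairConfK K₀` for every `K₀ > 0`
-/

set_option autoImplicit false

namespace Crest.Agent.R042.PairK303

/-- **PLAN B, closed.** -/
theorem pairConfK (K₀ : ℕ) (hK₀ : 0 < K₀) : S59Spine883.PairConfK K₀ :=
  FinB713.pairConfK_of_asy K₀ hK₀ (fun q d L m1 cm hq hcm => LabB763.labelAsy q hq d L m1 cm hcm)
    TypeB303.typeAsy

end Crest.Agent.R042.PairK303
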