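import Crest.Agent.R042.PairC_807

/-!
# Row 42 / S0059, (PAIR) leaf 3: the kernel of the two-sided contractions (helper807)

If all two-sided one-block contractions `cmL i lam mu` with `lam (R' i) = 0`, `mu (R' i ^ q) = 0` of
`mt q u z + mt q u' z'` are controlled, then `z b` is special up to a multiple of `pt R'`.
-/

set_option autoImplicit false
set_option linter.unusedSectionVars false

namespace Crest.Agent.R042.Pair57

open Crest.Agent.R042.Fam543 Crest.Agent.R042.SpecFam730 Crest.Agent.R042.Ker807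
open Crest.Agent.R042.Spec730 hiding pure

local notation "pt" => Crest.Agent.R042.Spec730.pure

variable {KK : Type} [Field KK] {d k : ℕ}

/-- the full contraction with `⊗ B (v i) ·` -/
def fc (v : Fin k → Ix d → KK) : Ten KK d k →ₗ[KK] KK where
  toFun t := ∑ al : Fin k → Ix d, (∏ i, v i (sw (al i))) * t al
  map_add' := by
    intro s t
    simp only [Pi.add_apply, mul_add, Finset.sum_add_distrib]
  map_smul' := by
    intro c t
    simp only [Pi.smul_apply, smul_eq_mul, RingHom.id_apply, Finset.mul_sum]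
    exact Finset.sum_congr rfl fun j _ => by ring

theorem fc_pt (v w : Fin k → Ix d → KK) : fc v (pt w) = ∏ i, B (v i) (w i) := by
  show (∑ al : Fin k → Ix d, (∏ i, v i (sw (al i))) * ∏ i, w i (al i)) = _
  unfold B
  rw [Finset.prod_univ_sum, Fintype.piFinset_univ]
  exact Finset.sum_congr rfl fun al _ => by rw [Finset.prod_mul_distrib]

/-- the full contraction kills the tensors killed by one block contraction -/
theorem fc_eq_zero (v : Fin k → Ix d → KK) (i : Fin k) {t : Ten KK d k} (ht : cg v i t = 0) :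
    fc v t = 0 := by
  classical
  show (∑ al : Fin k → Ix d, (∏ j, v j (sw (al j))) * t al) = 0
  -- group the multi-indices by their restriction off `i`
  have h1 : ∀ al : Fin k → Ix d, (∏ j, v j (sw (al j))) * t al =
      (∏ j ∈ Finset.univ.erase i, v j (sw (al j))) * (v i (sw (al i)) * t al) := by
    intro al
    rw [← Finset.mul_prod_erase Finset.univ _ (Finset.mem_univ i)]
    ring
  simp_rw [h1]
  -- the sum over al of F(al) where we average over the update of coordinate i
  have hcard : (Fintype.card (Ix d) : ℕ) ≠ 0 := Fintype.card_ne_zero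
  have e1 : (∑ al : Fin k → Ix d, (∏ j ∈ Finset.univ.erase i, v j (sw (al j))) *
      (v i (sw (al i)) * t al)) =
      ∑ al : Fin k → Ix d, if al i = none then
        (∏ j ∈ Finset.univ.erase i, v j (sw (al j))) * (∑ x, v i (sw x) *
          t (Function.update al i x)) else 0 := by
    have e2 : (∑ al : Fin k → Ix d, if al i = none then
        (∏ j ∈ Finset.univ.erase i, v j (sw (al j))) * (∑ x, v i (sw x) *
          t (Function.update al i x)) else 0) =
        ∑ al ∈ Finset.univ.filter (fun al : Fin k → Ix d => al i = none), ∑ x : Ix d,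
          (∏ j ∈ Finset.univ.erase i, v j (sw (al j))) * (v i (sw x) *
          t (Function.update al i x)) := by
      rw [Finset.sum_filter]
      refine Finset.sum_congr rfl fun al _ => ?_
      by_cases h : al i = none
      · rw [if_pos h, if_pos h, Finset.mul_sum]
      · rw [if_neg h, if_neg h]
    rw [e2, ← Finset.sum_product']
    refine Finset.sum_bij' (fun al _ => (Function.update al i none, al i))
      (fun p _ => Function.update p.1 i p.2) ?_ ?_ ?_ ?_ ?_
    · intro al _
      simp
    · intro p _; exact Finset.mem_univ _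
    · intro al _; simp
    · rintro ⟨al, x⟩ hp
      have : al i = none := by simpa using hp
      refine Prod.ext ?_ ?_
      · show Function.update (Function.update al i x) i none = al
        rw [Function.update_idem, ← this, Function.update_eq_self]
      · show Function.update al i x i = x
        rw [Function.update_self]
    · intro al _
      show _ = (∏ j ∈ Finset.univ.erase i, v j (sw (Function.update al i none j))) *
        (v i (sw (al i)) * t (Function.update (Function.update al i none) i (al i)))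
      rw [Function.update_idem, Function.update_eq_self]
      congr 1
      refine Finset.prod_congr rfl fun j hj => ?_
      rw [Function.update_of_ne (Finset.ne_of_mem_erase hj)]
  rw [e1]
  refine Finset.sum_eq_zero fun al _ => ?_
  have h2 := congrFun ht al
  have h3 : (∑ x, v i (sw x) * t (Function.update al i x)) = 0 := h2
  rw [h3, mul_zero, ite_self]

/-- left full contraction of a matrix -/
def lfc (v : Fin k → Ix d → KK) : Mat KK d k →ₗ[KK] Ten KK d k where
  toFun M := fun be => fc v fun al => M al be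
  map_add' s t := by
    funext be
    exact map_add (fc v) (fun al => s al be) (fun al => t al be)
  map_smul' c t := by
    funext be
    exact map_smul (fc v) c (fun al => t al be)

theorem lfc_outer (v : Fin k → Ix d → KK) (x y : Ten KK d k) :
    lfc v (outer x y) = fc v x • y := by
  funext be
  show fc v (fun al => x al * y be) = fc v x * y be
  have : (fun al => x al * y be) = y be • x := by
    funext al; simp [mul_comm]
  rw [this, map_smul, smul_eq_mul, mul_comm]

/-- the left contraction of a controlled matrix is special -/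
theorem lfc_Cm {k : ℕ} (R P P' A P₁ P₁' A₁ : Fin k → Ix d → KK) (m : ℕ) (hm : 1 ≤ m)
    (hRA : ∀ i, B (R i) (A i) = 0) {M : Mat KK d k}
    (hM : M ∈ Cm (UU P P') (SS m A P) (UU P₁ P₁') (SS m A₁ P₁)) :
    lfc R M ∈ SS m A₁ P₁ := by
  refine Submodule.span_induction (p := fun M _ => lfc R M ∈ SS m A₁ P₁) ?_ ?_ ?_ ?_ hM
  · rintro M (⟨x, hx, y, hy, rfl⟩ | ⟨x, hx, y, hy, rfl⟩)
    · rw [lfc_outer]; exact Submodule.smul_mem _ _ hy
    · rw [lfc_outer]
      have h0 : fc R x = 0 := by
        refine Submodule.span_induction (p := fun x _ => fc R x = 0) ?_ ?_ ?_ ?_ hx.1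
        · rintro t ⟨c, s, hs, hc, rfl⟩
          rw [fc_pt]
          have : s.Nonempty := by rw [← Finset.card_pos]; omega
          obtain ⟨i, hi⟩ := this
          exact Finset.prod_eq_zero (Finset.mem_univ i) (by rw [hc i hi, hRA i])
        · exact map_zero _
        · intro x y _ _ hx hy; rw [map_add, hx, hy, add_zero]
        · intro a x _ hx; rw [map_smul, hx, smul_zero]
      rw [h0, zero_smul]; exact Submodule.zero_mem _
  · rw [map_zero]; exact Submodule.zero_mem _
  · intro x y _ _ hx hy; rw [map_add]; exact Submodule.add_mem _ hx hy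
  · intro c x _ hx; rw [map_smul]; exact Submodule.smul_mem _ _ hx

section char2

variable [CharP KK 2] [Finite KK]

theorem pow_bij (e : ℕ) : Function.Bijective fun x : KK => x ^ 2 ^ e := by
  have : ExpChar KK 2 := ExpChar.prime Nat.prime_two
  have hb : Function.Bijective (iterateFrobenius KK 2 e) := by
    rw [coe_iterateFrobenius]
    exact (Finite.injective_iff_bijective.1 (frobenius_inj KK 2)).iterate _
  have h : (fun x : KK => x ^ 2 ^ e) = iterateFrobenius KK 2 e := by
    funext x
    rw [iterateFrobenius_def]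
  rw [h]
  exact hb

theorem qt_inj (e : ℕ) : Function.Injective (qt (2 ^ e) : Ten KK d k → Ten KK d k) := by
  intro s t h
  funext al
  exact (pow_bij e).1 (congrFun h al)

theorem qt_surj (e : ℕ) (t : Ten KK d k) : ∃ s : Ten KK d k, qt (2 ^ e) s = t := by
  choose s hs using fun al => (pow_bij (KK := KK) e).2 (t al)
  exact ⟨s, funext hs⟩

/-- special tensors of the twisted vectors are twists of special tensors -/
theorem exists_qt_spec (e m : ℕ) (A : Fin k → Ix d → KK) {t : Ten KK d k}
    (ht : t ∈ spec m (qv (2 ^ e) A)) : ∃ s ∈ spec m A, qt (2 ^ e) s = t := by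
  refine Submodule.span_induction (p := fun t _ => ∃ s ∈ spec m A, qt (2 ^ e) s = t)
    ?_ ?_ ?_ ?_ ht
  · rintro t ⟨c, s, hs, hc, rfl⟩
    choose c' hc' using fun i j => (pow_bij (KK := KK) e).2 (c i j)
    refine ⟨pt c', Submodule.subset_span ⟨c', s, hs, ?_, rfl⟩, ?_⟩
    · intro i hi
      funext j
      refine (pow_bij e).1 ?_
      show c' i j ^ 2 ^ e = A i j ^ 2 ^ e
      have h1 : c' i j ^ 2 ^ e = c i j := hc' i j
      rw [h1, hc i hi]; rfl
    · rw [qt_pt]
      congr 1
      funext i j
      exact hc' i j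
  · exact ⟨0, Submodule.zero_mem _, qt_zero_two e⟩
  · rintro x y _ _ ⟨s, hs, hs'⟩ ⟨t, ht, ht'⟩
    exact ⟨s + t, Submodule.add_mem _ hs ht, by rw [qt_add_two, hs', ht']⟩
  · rintro a x _ ⟨s, hs, hs'⟩
    obtain ⟨c, hc⟩ := (pow_bij (KK := KK) e).2 a
    refine ⟨c • s, Submodule.smul_mem _ _ hs, ?_⟩
    funext al
    show (c * s al) ^ 2 ^ e = a * x al
    have h1 : c ^ 2 ^ e = a := hc
    have h2 : s al ^ 2 ^ e = x al := congrFun hs' al
    rw [mul_pow, h1, h2]

theorem qv_indep (e : ℕ) {p q : Ix d → KK} (h : LinearIndependent KK ![p, q]) :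
    LinearIndependent KK ![fun j => p j ^ 2 ^ e, fun j => q j ^ 2 ^ e] := by
  have : ExpChar KK 2 := ExpChar.prime Nat.prime_two
  rw [LinearIndependent.pair_iff] at h ⊢
  intro s t hst
  obtain ⟨s', hs'⟩ := (pow_bij (KK := KK) e).2 s
  obtain ⟨t', ht'⟩ := (pow_bij (KK := KK) e).2 t
  have hs'' : s' ^ 2 ^ e = s := hs'
  have ht'' : t' ^ 2 ^ e = t := ht'
  have h0 : s' • p + t' • q = 0 := by
    funext j
    have h1 := congrFun hst j
    simp only [Pi.add_apply, Pi.smul_apply, smul_eq_mul, Pi.zero_apply] at h1 ⊢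
    refine (pow_bij e).1 ?_
    show (s' * p j + t' * q j) ^ 2 ^ e = (0 : KK) ^ 2 ^ e
    rw [add_pow_char_pow, mul_pow, mul_pow, hs'', ht'', h1,
      zero_pow (pow_ne_zero _ two_ne_zero)]
  obtain ⟨h1, h2⟩ := h s' t' h0
  subst h1; subst h2
  rw [zero_pow (pow_ne_zero _ two_ne_zero)] at hs'' ht''
  exact ⟨hs''.symm, ht''.symm⟩

/-- **LEAF 3, kernel.** -/
theorem kernel (e : ℕ) {L : ℕ} (hk : 1 ≤ k) (m : ℕ) (hm : 2 ≤ m)
    (P P' A R R' : Fin (k + 1) → Ix d → KK) (ε ε' : Fin L → KK)
    (hRR : ∀ i, B (R i) (R i) = 1) (hRA : ∀ i, B (R i) (A i) = 0)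
    (hAR' : ∀ i, LinearIndependent KK ![A i, R' i])
    (hRR' : ∀ i, LinearIndependent KK ![R i, R' i])
    (hε : ∀ a, ε a ≠ 0)
    (z z' : Fin L → Ten KK d (k + 1)) (hz : ∀ a, z a ∈ UU P R)
    (hc : ∀ i, ∀ lam mu : (Ix d → KK) →ₗ[KK] KK, lam (R' i) = 0 → mu (qv (2 ^ e) R' i) = 0 →
      cmL L i lam mu (mt (2 ^ e) (fun a => ε a • pt R) z + mt (2 ^ e) (fun a => ε' a • pt R') z') ∈
        CmL L (UU (rm i P) (rm i P')) (SS (m - 1) (rm i A) (rm i P))
          (UU (rm i (qv (2 ^ e) P)) (rm i (qv (2 ^ e) P')))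
          (SS (m - 1) (rm i (qv (2 ^ e) A)) (rm i (qv (2 ^ e) P)))) (b : Fin L) :
    ∃ c : KK, z b - c • pt R' ∈ spec m A := by
  have key : ∃ c : KK, qt (2 ^ e) (z b) - c • pt (qv (2 ^ e) R') ∈ spec m (qv (2 ^ e) A) := by
    refine ker_line m hm (qv (2 ^ e) A) (qv (2 ^ e) R') (fun i => qv_indep e (hAR' i)) _ ?_
    intro i mu hmu
    -- a functional on the left with `lam (R' i) = 0`, `lam (R i) = 1`
    obtain ⟨lam, _, h1, h2, _, _⟩ := exists_dual (R i) (R' i) (hRR' i)
    have h3 := hc i lam mu h2 hmu b b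
    rw [cmL_mt_add (2 ^ e) i lam mu R R' ε ε' z z' h2 hmu] at h3
    have h4 := lfc_Cm (rm i R) _ _ _ _ _ _ (m - 1) (by omega) (fun j => hRA (i.succAbove j)) h3
    rw [map_add, lfc_outer, lfc_outer, fc_pt, map_smul] at h4
    have h5 : fc (rm i R) (cont i lam (z b)) = 0 :=
      fc_eq_zero (rm i R) ⟨0, by omega⟩ (mem_Tg.1 (cont_mem_Tg i lam (hz b).2) _)
    have h6 : ∏ j, B (rm i R j) (rm i R j) = 1 :=
      Finset.prod_eq_one fun j _ => hRR (i.succAbove j)
    rw [h5, h6, smul_zero, zero_smul, add_zero, one_smul, h1, mul_one] at h4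
    have h7 := (Submodule.smul_mem_iff _ (hε b)).1 h4
    exact h7.1
  obtain ⟨c, hc⟩ := key
  obtain ⟨c', hc'⟩ := (pow_bij (KK := KK) e).2 c
  have hc'' : c' ^ 2 ^ e = c := hc'
  obtain ⟨s, hs, hs'⟩ := exists_qt_spec e m A hc
  refine ⟨c', ?_⟩
  have : z b - c' • pt R' = s := by
    refine qt_inj e ?_
    rw [hs']
    funext al
    show (z b al - c' * _) ^ 2 ^ e = z b al ^ 2 ^ e - c * _
    rw [sub_pow_char_pow, mul_pow, hc'']
    have h8 := congrFun (qt_pt (2 ^ e) R') al
    rw [← h8]
    rfl
  rw [this]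
  exact hs

/-- the leftover is only there if `R ⊥ R'` -/
theorem kernel_perp (m : ℕ) (hm : 2 ≤ m) (P A R R' : Fin (k + 1) → Ix d → KK)
    (hAR' : ∀ i, LinearIndependent KK ![A i, R' i])
    {z : Ten KK d (k + 1)} (hz : z ∈ UU P R) {c : KK} (hzc : z - c • pt R' ∈ spec m A)
    (hc0 : c ≠ 0) (i : Fin (k + 1)) : B (R i) (R' i) = 0 := by
  classical
  -- contract block `i` with `B (R i) ·`
  let lam : (Ix d → KK) →ₗ[KK] KK :=
    { toFun := fun x => B (R i) x
      map_add' := fun x y => by rw [B_comm, B_add_left, B_comm x, B_comm y]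
      map_smul' := fun a x => by
        rw [B_comm, B_smul_left, B_comm x, RingHom.id_apply, smul_eq_mul] }
  have hlam : ∀ x, lam (Pi.single x 1) = R i (sw x) := by
    intro x
    show B (R i) (Pi.single x 1) = _
    unfold B
    rw [Finset.sum_eq_single x]
    · simp
    · intro y _ hy; simp [hy]
    · intro h; exact absurd (Finset.mem_univ _) h
  have hcz : cont i lam z = 0 := by
    funext be
    have h1 := mem_Tg.1 hz.2 i
    have h2 := congrFun h1 (i.insertNth (α := fun _ => Ix d) none be)
    show (∑ x, lam (Pi.single x 1) * z (i.insertNth x be)) = 0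
    have h3 : (∑ j, R i (sw j) * z (Function.update
      (i.insertNth (α := fun _ => Ix d) none be) i j)) = 0 := h2
    rw [← h3]
    refine Finset.sum_congr rfl fun x _ => ?_
    rw [hlam, Fin.update_insertNth]
  have h4 := cont_spec i lam m A hzc
  rw [map_sub, hcz, map_smul, cont_pt, zero_sub] at h4
  have h5 : (c * lam (R' i)) • pt (rm i R') ∈ spec (m - 1) (rm i A) := by
    rw [← smul_smul]
    exact (Submodule.neg_mem_iff _).1 h4
  by_contra hne
  have hne' : c * lam (R' i) ≠ 0 := mul_ne_zero hc0 hne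
  have h6 : pt (rm i R') ∈ spec (m - 1) (rm i A) := (Submodule.smul_mem_iff _ hne').1 h5
  have h7 : pt (rm i R') ∈ spec k (rm i R') :=
    Submodule.subset_span ⟨rm i R', Finset.univ, by simp, fun _ _ => rfl, rfl⟩
  have h8 := Submodule.disjoint_def.1 (spec_disjoint (m - 1) k (by omega) (rm i A) (rm i R')
    (fun j => hAR' (i.succAbove j))) _ h6 h7
  -- a product of nonzero vectors is nonzero
  have h9 : ∀ j, ∃ x, rm i R' j x ≠ 0 := by
    intro j
    have := (hAR' (i.succAbove j)).ne_zero 1
    exact Function.ne_iff.1 this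
  choose x hx using h9
  have h10 := congrFun h8 x
  exact (Finset.prod_ne_zero_iff.2 fun j _ => hx j) h10

end char2

end Crest.Agent.R042.Pair57
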