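import Crest.Agent.R042.PairDefs_57
import Crest.Agent.R042.SymInst_695

/-!
# Row 42 / S0059, (PAIR): the twisted quotient `π₁` (helper57)

`π₁ : Dual k0 (SymForm k0 U) → MatL`, `π₁ (f ↦ f x y) = mt q x y`, `q = card k0`.
-/

set_option autoImplicit false
set_option linter.unusedSectionVars false

namespace Crest.Agent.R042.Pair57

open Crest.Agent.R042.Fam543 Crest.Agent.R042.SpecFam730 Crest.Agent.R042.Ker807
open Crest.Agent.R042.RowWin543 Module
open Crest.Agent.R042.Spec730 hiding pure

local notation "pt" => Crest.Agent.R042.Spec730.pure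

variable {k0 KK : Type} [Field k0] [Field KK] [Algebra k0 KK] [Fintype k0] {d k L : ℕ}

theorem pow_add' (x y : KK) :
    (x + y) ^ Fintype.card k0 = x ^ Fintype.card k0 + y ^ Fintype.card k0 :=
  map_add (FiniteField.frobeniusAlgHom k0 KK) x y

theorem pow_smul' (c : k0) (x : KK) :
    (c • x) ^ Fintype.card k0 = c • x ^ Fintype.card k0 :=
  map_smul (FiniteField.frobeniusAlgHom k0 KK) c x

theorem qtk_add (x y : Ten KK d k) :
    qt (Fintype.card k0) (x + y) = qt (Fintype.card k0) x + qt (Fintype.card k0) y := by
  funext al
  exact pow_add' _ _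

theorem qtk_smul (c : k0) (x : Ten KK d k) :
    qt (Fintype.card k0) (c • x) = c • qt (Fintype.card k0) x := by
  funext al
  exact pow_smul' _ _

theorem mtk_comm (q : ℕ) (x y : Fin L → Ten KK d k) : mt q x y = mt q y x := by
  funext a b
  exact add_comm _ _

theorem mtk_add (x x' y : Fin L → Ten KK d k) :
    mt (Fintype.card k0) (x + x') y = mt (Fintype.card k0) x y + mt (Fintype.card k0) x' y := by
  funext a b al be
  simp only [mt, outer, Pi.add_apply, qtk_add]
  ring

theorem mtk_smul (c : k0) (x y : Fin L → Ten KK d k) :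
    mt (Fintype.card k0) (c • x) y = c • mt (Fintype.card k0) x y := by
  funext a b al be
  simp only [mt, outer, Pi.add_apply, Pi.smul_apply, qtk_smul]
  simp only [Algebra.smul_def]
  ring

/-- the pairing of matrices -/
def pairM (F M : MatL KK d k L) : KK := ∑ a, ∑ b, ∑ al, ∑ be, F a b al be * M a b al be

theorem pairM_add_right (F M N : MatL KK d k L) : pairM F (M + N) = pairM F M + pairM F N := by
  simp only [pairM, Pi.add_apply, mul_add, Finset.sum_add_distrib]

theorem pairM_add_left (F M N : MatL KK d k L) : pairM (F + M) N = pairM F N + pairM M N := by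
  simp only [pairM, Pi.add_apply, add_mul, Finset.sum_add_distrib]

theorem pairM_smul_right (c : k0) (F M : MatL KK d k L) : pairM F (c • M) = c • pairM F M := by
  simp only [pairM, Pi.smul_apply, Finset.smul_sum, mul_smul_comm]

theorem pairM_smul_left (c : k0) (F M : MatL KK d k L) : pairM (c • F) M = c • pairM F M := by
  simp only [pairM, Pi.smul_apply, Finset.smul_sum, smul_mul_assoc]

/-- the pairing as a linear map into the dual -/
noncomputable def td : MatL KK d k L →ₗ[k0] Dual k0 (MatL KK d k L) :=
  LinearMap.mk₂ k0 (fun M F => Algebra.trace k0 KK (pairM F M))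
    (fun M N F => by rw [pairM_add_right, map_add])
    (fun c M F => by rw [pairM_smul_right, map_smul])
    (fun M F G => by rw [pairM_add_left, map_add])
    (fun c M F => by rw [pairM_smul_left, map_smul])

theorem td_apply (M F : MatL KK d k L) : td (k0 := k0) M F = Algebra.trace k0 KK (pairM F M) := rfl

theorem td_inj [Finite KK] : Function.Injective (td (k0 := k0) : MatL KK d k L →ₗ[k0] _) := by
  classical
  have : Module.Finite k0 KK := Module.Finite.of_finite
  rw [← LinearMap.ker_eq_bot, LinearMap.ker_eq_bot']
  intro M hM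
  funext a b al be
  have hnd := traceForm_nondegenerate k0 KK
  refine hnd.1 _ fun c => ?_
  have h1 : td (k0 := k0) M (fun a' b' al' be' =>
      if a' = a then if b' = b then if al' = al then if be' = be then c else 0 else 0 else 0 else 0)
      = 0 := by rw [hM]; rfl
  rw [td_apply] at h1
  have h2 : pairM (fun a' b' al' be' =>
      if a' = a then if b' = b then if al' = al then if be' = be then c else 0 else 0 else 0 else 0)
      M = c * M a b al be := by
    unfold pairM
    rw [Finset.sum_eq_single a, Finset.sum_eq_single b, Finset.sum_eq_single al,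
      Finset.sum_eq_single be]
    all_goals simp +contextual
  rw [h2] at h1
  rw [Algebra.traceForm_apply, mul_comm]
  exact h1

/-- as an equivalence -/
noncomputable def tdE [Finite KK] : MatL KK d k L ≃ₗ[k0] Dual k0 (MatL KK d k L) :=
  have : Module.Finite k0 KK := Module.Finite.of_finite
  LinearEquiv.ofInjectiveOfFinrankEq td td_inj (Subspace.dual_finrank_eq).symm

/-- matrices give labels -/
noncomputable def labF (F : MatL KK d k L) : U KK d k L →ₗ[k0] U KK d k L →ₗ[k0] k0 :=
  LinearMap.mk₂ k0 (fun x y => Algebra.trace k0 KK (pairM F (mt (Fintype.card k0) x y)))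
    (fun x x' y => by rw [mtk_add, pairM_add_right, map_add])
    (fun c x y => by rw [mtk_smul, pairM_smul_right, map_smul])
    (fun x y y' => by rw [mtk_comm, mtk_add, pairM_add_right, map_add, mtk_comm, mtk_comm _ y' x])
    (fun c x y => by rw [mtk_comm, mtk_smul, pairM_smul_right, map_smul, mtk_comm])

/-- the label of a matrix -/
noncomputable def labS : MatL KK d k L →ₗ[k0] SymForm k0 (U KK d k L) where
  toFun F := ⟨labF F, fun x y => by
    show Algebra.trace k0 KK (pairM F (mt _ x y)) = Algebra.trace k0 KK (pairM F (mt _ y x))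
    rw [mtk_comm]⟩
  map_add' F G := by
    refine Subtype.ext ?_
    refine LinearMap.ext fun x => LinearMap.ext fun y => ?_
    show Algebra.trace k0 KK (pairM (F + G) (mt _ x y)) =
      Algebra.trace k0 KK (pairM F (mt _ x y)) + Algebra.trace k0 KK (pairM G (mt _ x y))
    rw [pairM_add_left, map_add]
  map_smul' c F := by
    refine Subtype.ext ?_
    refine LinearMap.ext fun x => LinearMap.ext fun y => ?_
    show Algebra.trace k0 KK (pairM (c • F) (mt _ x y)) =
      c • Algebra.trace k0 KK (pairM F (mt _ x y))
    rw [pairM_smul_left, map_smul]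

/-- evaluation functionals -/
def ev (x y : U KK d k L) : Dual k0 (SymForm k0 (U KK d k L)) where
  toFun f := f.1 x y
  map_add' f g := rfl
  map_smul' c f := rfl

theorem ev_apply (x y : U KK d k L) (f : SymForm k0 (U KK d k L)) : ev x y f = f.1 x y := rfl

/-- the twisted quotient -/
noncomputable def pi1 [Finite KK] :
    Dual k0 (SymForm k0 (U KK d k L)) →ₗ[k0] MatL KK d k L :=
  (tdE (k0 := k0) (KK := KK)).symm.toLinearMap.comp (labS (k0 := k0)).dualMap

theorem pi1_ev [Finite KK] (x y : U KK d k L) :
    pi1 (k0 := k0) (ev x y) = mt (Fintype.card k0) x y := by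
  unfold pi1
  rw [LinearMap.comp_apply, LinearEquiv.coe_coe, LinearEquiv.symm_apply_eq]
  refine LinearMap.ext fun F => ?_
  show (labF F) x y = td (k0 := k0) (mt (Fintype.card k0) x y) F
  rw [td_apply]
  rfl

end Crest.Agent.R042.Pair57
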