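import Crest.Agent.R042.PairAbs_57
import Crest.Agent.R042.PairPi_57
import Crest.Agent.R042.LocB_767
import Crest.Agent.R042.Dead_582

/-!
# Row 42 / S0059, (PAIR): the one-end function `nn` (helper57)

* `twx ex b`: block vectors with exponents `ex` (`tw Q k b = twx Q (fun i => i) b`,
  `rm i (tw Q (k+1) b) = twx Q (fun j => i.succAbove j) b`, both `rfl`);
* `CC` controlled matrices, `HH` hat window of `b` (both label ends `a : Bool`);
* `pi2 : Dual k0 (VV) → (Bool → MatL)`;
* `CS` the controlled functionals of the pair of types `T`;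
* `Gs i G` the span of all contractions of block `i`;
* `nn S b` the one-end function.
-/

set_option autoImplicit false
set_option linter.unusedSectionVars false

namespace Crest.Agent.R042.Pair57

open Crest.Agent.R042.Fam543 Crest.Agent.R042.SpecFam730 Crest.Agent.R042.Ker807
open Crest.Agent.R042.RowWin543 Module
open Crest.Agent.R042.LocFam958 (VV lab lab_false lab_true lab_add lab_smul WW TT EE winX winX_apply)
open Crest.Agent.R042.LocB767 (sp evA evA_apply)
open Crest.Agent.R042.Spec730 hiding pure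

local notation "pt" => Crest.Agent.R042.Spec730.pure

/-- relative dimension of `G ∩ (H + C)` modulo `C` -/
noncomputable def rd {K : Type*} [Field K] {M : Type*} [AddCommGroup M] [Module K M]
    (C H G : Submodule K M) : ℝ :=
  (finrank K ↥((H ⊔ C) ⊓ G) : ℝ) - finrank K ↥(C ⊓ G)

/-! ### block vectors with exponents -/

section blocks

variable {KK : Type} [Field KK] {d k L : ℕ}

/-- block vectors with exponents -/
def twx (Q : ℕ) (ex : Fin k → ℕ) (b : Ix d → KK) : Fin k → Ix d → KK :=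
  fun i j => b j ^ (Q ^ ex i)

theorem tw_eq_twx (Q : ℕ) (b : Ix d → KK) : tw Q k b = twx Q (fun i => (i : ℕ)) b := rfl

theorem rm_tw (Q : ℕ) (i : Fin (k + 1)) (b : Ix d → KK) :
    rm i (tw Q (k + 1) b) = twx Q (fun j => ((i.succAbove j : Fin (k + 1)) : ℕ)) b := rfl

/-- both label ends -/
abbrev M2 (KK : Type) (d k L : ℕ) := Bool → MatL KK d k L

end blocks

section family

variable {k0 KK : Type} [Field k0] [Field KK] [Algebra k0 KK] {d k L : ℕ}

/-- controlled matrices of the pair of vectors `p : Bool → Ix d → KK`, as a `k0`-space -/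
def CC (k0 : Type) {KK : Type} [Field k0] [Field KK] [Algebra k0 KK] {d k : ℕ} (L q Q m : ℕ)
    (ex : Fin k → ℕ) (p : Bool → Ix d → KK) : Submodule k0 (M2 KK d k L) where
  carrier := {M | ∀ a, M a ∈ CmL L (UU (twx Q ex (p a)) (twx Q ex (p (!a))))
    (SS m (twx Q ex (aop (p a) (p (!a)))) (twx Q ex (p a)))
    (UU (qv q (twx Q ex (p a))) (qv q (twx Q ex (p (!a)))))
    (SS m (qv q (twx Q ex (aop (p a) (p (!a))))) (qv q (twx Q ex (p a))))}
  add_mem' := fun hx hy a => Submodule.add_mem _ (hx a) (hy a)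
  zero_mem' := fun _ => Submodule.zero_mem _
  smul_mem' := fun c M hM a => by
    have h1 : (c • M) a = (algebraMap k0 KK c) • M a := by
      simp [Pi.smul_apply, algebraMap_smul]
    rw [h1]
    exact Submodule.smul_mem _ _ (hM a)

/-- hat window of `b` of the pair of vectors `p` -/
def HH (k0 : Type) {KK : Type} [Field k0] [Field KK] [Algebra k0 KK] {d k : ℕ} (L q Q : ℕ)
    (ex : Fin k → ℕ) (p : Bool → Ix d → KK) (b : Ix d → KK) : Submodule k0 (M2 KK d k L) where
  carrier := {M | ∀ a, M a ∈ HmL L (twx Q ex b) (qv q (twx Q ex b))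
    (UU (twx Q ex (p a)) (twx Q ex b)) (UU (qv q (twx Q ex (p a))) (qv q (twx Q ex b)))}
  add_mem' := fun hx hy a => Submodule.add_mem _ (hx a) (hy a)
  zero_mem' := fun _ => Submodule.zero_mem _
  smul_mem' := fun c M hM a => by
    have h1 : (c • M) a = (algebraMap k0 KK c) • M a := by
      simp [Pi.smul_apply, algebraMap_smul]
    rw [h1]
    exact Submodule.smul_mem _ _ (hM a)

/-- two-sided contraction of both ends, `k0`-linear -/
def cm2 (k0 : Type) {KK : Type} [Field k0] [Field KK] [Algebra k0 KK] {d k : ℕ} (L : ℕ)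
    (i : Fin (k + 1)) (lam mu : (Ix d → KK) →ₗ[KK] KK) :
    M2 KK d (k + 1) L →ₗ[k0] M2 KK d k L where
  toFun M := fun a => cmL L i lam mu (M a)
  map_add' := by intro s t; funext a; simp
  map_smul' := by
    intro c t; funext a
    show cmL L i lam mu (c • t a) = c • cmL L i lam mu (t a)
    rw [← algebraMap_smul KK c (t a), map_smul, algebraMap_smul]

/-- span of all contractions of block `i` -/
def Gs (i : Fin (k + 1)) (G : Submodule k0 (M2 KK d (k + 1) L)) : Submodule k0 (M2 KK d k L) :=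
  Submodule.span k0 {N | ∃ M ∈ G, ∃ lam mu, N = cm2 k0 L i lam mu M}

section pi2

variable [Fintype k0] [Finite KK]

/-- inclusion of one label -/
def incL (a : Bool) : Label k0 KK d k L →ₗ[k0] VV k0 KK d k L :=
  bif a then LinearMap.inr k0 (Label k0 KK d k L) (Label k0 KK d k L)
    else LinearMap.inl k0 (Label k0 KK d k L) (Label k0 KK d k L)

/-- the twisted quotient for both labels -/
noncomputable def pi2 : Dual k0 (VV k0 KK d k L) →ₗ[k0] M2 KK d k L :=
  LinearMap.pi fun a => pi1.comp (incL (k0 := k0) (KK := KK) (d := d) (k := k) (L := L) a).dualMap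

theorem pi2_evA (a b : Bool) (x y : U KK d k L) :
    pi2 (k0 := k0) (evA a x y) b = if a = b then mt (Fintype.card k0) x y else 0 := by
  have h : (incL (k0 := k0) (KK := KK) (d := d) (k := k) (L := L) b).dualMap (evA a x y) =
      if a = b then ev x y else 0 := by
    refine LinearMap.ext fun f => ?_
    show evA a x y (incL b f) = _
    rw [evA_apply]
    cases a <;> cases b <;> simp [incL, lab] <;> rfl
  show pi1 ((incL (k0 := k0) (KK := KK) (d := d) (k := k) (L := L) b).dualMap (evA a x y)) = _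
  rw [h]
  split_ifs
  · exact pi1_ev x y
  · exact map_zero _

end pi2

/-- controlled functionals of the pair of types `T` -/
def CS (Q m k : ℕ) (T : Bool → Ty k0 KK d L) : Submodule k0 (Dual k0 (VV k0 KK d k L)) :=
  Submodule.span k0 {φ | ∃ a, ∃ y ∈ UPQ Q k (T a) (T (!a)), ∃ t ∈ sp Q m k T a ⊓ UP Q k (T a),
    φ = evA a y t}

/-- **the one-end function** (`k + 1` blocks) -/
noncomputable def nn [Fintype k0] [Finite KK] (Q m : ℕ) (T : Bool → Ty k0 KK d L)
    (S : Submodule k0 (Dual k0 (VV k0 KK d (k + 1) L))) (b : Ix d → KK) : ℝ :=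
  rd (CC k0 L (Fintype.card k0) Q m (fun i : Fin (k + 1) => (i : ℕ)) fun a => (T a).b)
    (HH k0 L (Fintype.card k0) Q (fun i : Fin (k + 1) => (i : ℕ)) (fun a => (T a).b) b)
    (S.map pi2) +
  ((2 * d) ^ 2 : ℕ) * ∑ i : Fin (k + 1),
    rd (CC k0 L (Fintype.card k0) Q (m - 1)
        (fun j : Fin k => ((i.succAbove j : Fin (k + 1)) : ℕ)) fun a => (T a).b)
      (HH k0 L (Fintype.card k0) Q
        (fun j : Fin k => ((i.succAbove j : Fin (k + 1)) : ℕ)) (fun a => (T a).b) b)
      (Gs i (S.map pi2))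

end family

/-! ### the count in the form of `Dead_582` -/

section count

variable {K : Type*} [Field K] {Y M : Type*} [AddCommGroup Y] [Module K Y] [AddCommGroup M]
  [Module K M] [FiniteDimensional K Y] [FiniteDimensional K M]

theorem rd_eq (C H G : Submodule K M) :
    rd C H G = finrank K ↥(G.map C.mkQ ⊓ H.map C.mkQ) := by
  have h1 := Dead582.finrank_map_mkQ C ((H ⊔ C) ⊓ G)
  have h2 : C ⊓ ((H ⊔ C) ⊓ G) = C ⊓ G := by
    rw [← inf_assoc, inf_eq_left.2 (le_sup_right : C ≤ H ⊔ C)]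
  have h3 : ((H ⊔ C) ⊓ G).map C.mkQ = G.map C.mkQ ⊓ H.map C.mkQ := by
    apply le_antisymm
    · refine le_inf (Submodule.map_mono inf_le_right) ?_
      rintro _ ⟨x, hx, rfl⟩
      obtain ⟨h, hh, c, hc, rfl⟩ := Submodule.mem_sup.1 hx.1
      refine ⟨h, hh, ?_⟩
      have : C.mkQ c = 0 := by simpa using hc
      rw [map_add, this, add_zero]
    · rintro _ ⟨⟨g, hg, rfl⟩, ⟨h, hh, h4⟩⟩
      refine ⟨g, ⟨?_, hg⟩, rfl⟩
      have h5 : C.mkQ (g - h) = 0 := by rw [map_sub, h4, sub_self]
      rw [Submodule.mkQ_apply, Submodule.Quotient.mk_eq_zero] at h5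
      have : g = h + (g - h) := by abel
      rw [this]
      exact Submodule.add_mem_sup hh h5
  rw [h3, h2] at h1
  rw [h1]
  rfl

theorem count_sup {J : Type*} [Fintype J] {N : J → Type*} [∀ j, AddCommGroup (N j)]
    [∀ j, Module K (N j)] [∀ j, FiniteDimensional K (N j)]
    (π : Y →ₗ[K] M) (Θ : ∀ j, M →ₗ[K] N j) (C : Submodule K Y) (C₁ : Submodule K M)
    (Cj : ∀ j, Submodule K (N j)) (hC : C ≤ C₁.comap π) (hCj : ∀ j, C₁ ≤ (Cj j).comap (Θ j))
    (W : Submodule K Y) (S : Submodule K Y) (hS : C ≤ S) (H : Submodule K M)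
    (Gj : ∀ j, Submodule K (N j)) (Hj : ∀ j, Submodule K (N j))
    (hGj : ∀ j, ∀ x ∈ S, Θ j (π x) ∈ Gj j)
    (ha : ∀ x ∈ W, π x ∈ C₁ → x ∈ C)
    (hb : ∀ x ∈ W, ∀ j, ∃ h ∈ Hj j, Θ j (π x) - h ∈ Cj j)
    (hc : ∀ x ∈ W, (∀ j, Θ j (π x) ∈ Cj j) → ∃ h ∈ H, π x - h ∈ C₁) :
    (finrank K ↥((W ⊔ C) ⊓ S) : ℝ) - finrank K C ≤
      rd C₁ H (S.map π) + ∑ j, rd (Cj j) (Hj j) (Gj j) := by
  have key := PairAbs57.count_mod π Θ C C₁ Cj hC hCj W (S.map C.mkQ) ((S.map π).map C₁.mkQ) H
    (fun j => (Gj j).map (Cj j).mkQ) Hj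
    (by
      intro x hx
      obtain ⟨s, hs, h1⟩ := hx
      have h2 : C.mkQ (x - s) = 0 := by rw [map_sub, h1, sub_self]
      rw [Submodule.mkQ_apply, Submodule.Quotient.mk_eq_zero] at h2
      have h3 : x ∈ S := by
        have : x = s + (x - s) := by abel
        rw [this]
        exact S.add_mem hs (hS h2)
      exact ⟨π x, ⟨x, h3, rfl⟩, rfl⟩)
    (by
      intro j x hx
      obtain ⟨s, hs, h1⟩ := hx
      have h2 : C.mkQ (x - s) = 0 := by rw [map_sub, h1, sub_self]
      rw [Submodule.mkQ_apply, Submodule.Quotient.mk_eq_zero] at h2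
      have h3 : x ∈ S := by
        have : x = s + (x - s) := by abel
        rw [this]
        exact S.add_mem hs (hS h2)
      exact ⟨_, hGj j x h3, rfl⟩)
    ha hb hc
  have h1 := rd_eq C W S
  have h2 : C ⊓ S = C := inf_eq_left.2 hS
  rw [rd, h2, inf_comm (S.map C.mkQ)] at h1
  rw [h1, rd_eq]
  simp_rw [rd_eq]
  exact_mod_cast key

end count

end Crest.Agent.R042.Pair57
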