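import Crest.Agent.R042.PairInj_57
import Crest.Agent.R042.PairK_807

/-!
# Row 42 / S0059, (PAIR): one label end, block level (helper57)
-/

set_option autoImplicit false
set_option linter.unusedSectionVars false

namespace Crest.Agent.R042.Pair57

open Crest.Agent.R042.Fam543 Crest.Agent.R042.SpecFam730 Crest.Agent.R042.Ker807
open Crest.Agent.R042.RowWin543 Module
open Crest.Agent.R042.Spec730 hiding pure

local notation "pt" => Crest.Agent.R042.Spec730.pure

section basic

variable {KK : Type} [Field KK] {d k L : ℕ}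

/-- the functionals killing `v` (`v none = 1`) -/
def kf (v : Ix d → KK) (j : Fin d × Bool) : (Ix d → KK) →ₗ[KK] KK :=
  LinearMap.proj (some j) - v (some j) • LinearMap.proj none

theorem kf_apply (v x : Ix d → KK) (j : Fin d × Bool) :
    kf v j x = x (some j) - v (some j) * x none := rfl

theorem kf_self (v : Ix d → KK) (hv : v none = 1) (j : Fin d × Bool) : kf v j v = 0 := by
  rw [kf_apply, hv, mul_one, sub_self]

theorem kf_span (v : Ix d → KK) (hv : v none = 1) (lam : (Ix d → KK) →ₗ[KK] KK)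
    (hl : lam v = 0) : lam = ∑ j, lam (Pi.single (some j) 1) • kf v j := by
  refine LinearMap.ext fun x => ?_
  rw [LinearMap.sum_apply]
  simp only [LinearMap.smul_apply, kf_apply, smul_eq_mul, mul_sub, Finset.sum_sub_distrib]
  have h1 := lam_eq lam v
  rw [Fintype.sum_option, hv, mul_one, hl] at h1
  rw [lam_eq lam x, Fintype.sum_option]
  have h2 : ∑ j, lam (Pi.single (some j) 1) * (v (some j) * x none) =
      (∑ j, lam (Pi.single (some j) 1) * v (some j)) * x none := by
    rw [Finset.sum_mul]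
    exact Finset.sum_congr rfl fun j _ => by ring
  rw [h2]
  linear_combination (-x none) * h1

theorem cm_add_left (i : Fin (k + 1)) (lam lam' mu : (Ix d → KK) →ₗ[KK] KK)
    (M : Mat KK d (k + 1)) : cm i (lam + lam') mu M = cm i lam mu M + cm i lam' mu M := by
  funext al be
  show (∑ x, ∑ y, (lam (Pi.single x 1) + lam' (Pi.single x 1)) * mu (Pi.single y 1) * _) =
    (∑ x, ∑ y, lam (Pi.single x 1) * mu (Pi.single y 1) * _) +
      (∑ x, ∑ y, lam' (Pi.single x 1) * mu (Pi.single y 1) * _)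
  simp only [← Finset.sum_add_distrib]
  exact Finset.sum_congr rfl fun x _ => Finset.sum_congr rfl fun y _ => by ring

theorem cm_smul_left (i : Fin (k + 1)) (c : KK) (lam mu : (Ix d → KK) →ₗ[KK] KK)
    (M : Mat KK d (k + 1)) : cm i (c • lam) mu M = c • cm i lam mu M := by
  funext al be
  show (∑ x, ∑ y, (c * lam (Pi.single x 1)) * mu (Pi.single y 1) * _) =
    c * (∑ x, ∑ y, lam (Pi.single x 1) * mu (Pi.single y 1) * _)
  simp only [Finset.mul_sum]
  exact Finset.sum_congr rfl fun x _ => Finset.sum_congr rfl fun y _ => by ring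

theorem cm_add_right (i : Fin (k + 1)) (lam mu mu' : (Ix d → KK) →ₗ[KK] KK)
    (M : Mat KK d (k + 1)) : cm i lam (mu + mu') M = cm i lam mu M + cm i lam mu' M := by
  funext al be
  show (∑ x, ∑ y, lam (Pi.single x 1) * (mu (Pi.single y 1) + mu' (Pi.single y 1)) * _) =
    (∑ x, ∑ y, lam (Pi.single x 1) * mu (Pi.single y 1) * _) +
      (∑ x, ∑ y, lam (Pi.single x 1) * mu' (Pi.single y 1) * _)
  simp only [← Finset.sum_add_distrib]
  exact Finset.sum_congr rfl fun x _ => Finset.sum_congr rfl fun y _ => by ring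

theorem cm_smul_right (i : Fin (k + 1)) (c : KK) (lam mu : (Ix d → KK) →ₗ[KK] KK)
    (M : Mat KK d (k + 1)) : cm i lam (c • mu) M = c • cm i lam mu M := by
  funext al be
  show (∑ x, ∑ y, lam (Pi.single x 1) * (c * mu (Pi.single y 1)) * _) =
    c * (∑ x, ∑ y, lam (Pi.single x 1) * mu (Pi.single y 1) * _)
  simp only [Finset.mul_sum]
  exact Finset.sum_congr rfl fun x _ => Finset.sum_congr rfl fun y _ => by ring

/-- all functionals from the finite family `kf` -/
theorem all_of_kf (i : Fin (k + 1)) (v w : Ix d → KK) (hv : v none = 1) (hw : w none = 1)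
    (Z : Submodule KK (Mat KK d k)) (M : Mat KK d (k + 1))
    (h : ∀ j j', cm i (kf v j) (kf w j') M ∈ Z) (lam mu : (Ix d → KK) →ₗ[KK] KK)
    (hl : lam v = 0) (hm : mu w = 0) : cm i lam mu M ∈ Z := by
  classical
  rw [kf_span v hv lam hl]
  have h1 : ∀ s : Finset (Fin d × Bool),
      cm i (∑ j ∈ s, lam (Pi.single (some j) 1) • kf v j) mu M ∈ Z := by
    intro s
    induction s using Finset.induction_on with
    | empty =>
      have : cm i (∑ j ∈ (∅ : Finset (Fin d × Bool)), lam (Pi.single (some j) 1) • kf v j) mu M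
          = 0 := by
        rw [Finset.sum_empty, show (0 : (Ix d → KK) →ₗ[KK] KK) = (0 : KK) • mu by simp,
          cm_smul_left, zero_smul]
      rw [this]
      exact Z.zero_mem
    | insert j s hj ih =>
      rw [Finset.sum_insert hj, cm_add_left, cm_smul_left]
      refine Z.add_mem (Z.smul_mem _ ?_) ih
      rw [kf_span w hw mu hm]
      have h2 : ∀ s : Finset (Fin d × Bool),
          cm i (kf v j) (∑ j' ∈ s, mu (Pi.single (some j') 1) • kf w j') M ∈ Z := by
        intro s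
        induction s using Finset.induction_on with
        | empty =>
          have : cm i (kf v j) (∑ j' ∈ (∅ : Finset (Fin d × Bool)),
              mu (Pi.single (some j') 1) • kf w j') M = 0 := by
            rw [Finset.sum_empty, show (0 : (Ix d → KK) →ₗ[KK] KK) = (0 : KK) • mu by simp,
              cm_smul_right, zero_smul]
          rw [this]
          exact Z.zero_mem
        | insert j' s hj' ih =>
          rw [Finset.sum_insert hj', cm_add_right, cm_smul_right]
          exact Z.add_mem (Z.smul_mem _ (h j j')) ih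
      exact h2 Finset.univ
  exact h1 Finset.univ

theorem outer_mem_left {UL SL UR SR : Submodule KK (Ten KK d k)} {x y : Ten KK d k}
    (hx : x ∈ UL) (hy : y ∈ SR) : outer x y ∈ Cm UL SL UR SR :=
  Submodule.subset_span (Or.inl ⟨x, hx, y, hy, rfl⟩)

theorem outer_mem_right {UL SL UR SR : Submodule KK (Ten KK d k)} {x y : Ten KK d k}
    (hx : x ∈ SL) (hy : y ∈ UR) : outer x y ∈ Cm UL SL UR SR :=
  Submodule.subset_span (Or.inr ⟨x, hx, y, hy, rfl⟩)

variable [CharP KK 2]

theorem qt_mem_spec (e m : ℕ) (A : Fin k → Ix d → KK) {t : Ten KK d k} (ht : t ∈ spec m A) :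
    qt (2 ^ e) t ∈ spec m (qv (2 ^ e) A) := by
  refine Submodule.span_induction (p := fun t _ => qt (2 ^ e) t ∈ spec m (qv (2 ^ e) A))
    ?_ ?_ ?_ ?_ ht
  · rintro t ⟨c, s, hs, hc, rfl⟩
    rw [qt_pt]
    refine Submodule.subset_span ⟨_, s, hs, ?_, rfl⟩
    intro i hi
    funext j
    show c i j ^ 2 ^ e = A i j ^ 2 ^ e
    rw [hc i hi]
  · rw [qt_zero_two]; exact Submodule.zero_mem _
  · intro x y _ _ hx hy; rw [qt_add_two]; exact Submodule.add_mem _ hx hy
  · intro a x _ hx
    have : qt (2 ^ e) (a • x) = a ^ 2 ^ e • qt (2 ^ e) x := by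
      funext al
      exact mul_pow _ _ _
    rw [this]
    exact Submodule.smul_mem _ _ hx

theorem qt_mem_SS (e : ℕ) {m : ℕ} {A P : Fin k → Ix d → KK} {t : Ten KK d k}
    (ht : t ∈ SS m A P) : qt (2 ^ e) t ∈ SS m (qv (2 ^ e) A) (qv (2 ^ e) P) :=
  ⟨qt_mem_spec e m A ht.1, qt_mem_Tg e ht.2⟩

/-- the matrix of a controlled functional -/
theorem mt_mem_CmL (e : ℕ) {m : ℕ} {P P' A : Fin k → Ix d → KK} (y t : Fin L → Ten KK d k)
    (hy : ∀ a, y a ∈ UU P P') (ht : ∀ a, t a ∈ SS m A P) :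
    mt (2 ^ e) y t ∈ CmL L (UU P P') (SS m A P) (UU (qv (2 ^ e) P) (qv (2 ^ e) P'))
      (SS m (qv (2 ^ e) A) (qv (2 ^ e) P)) := by
  intro a b
  exact Submodule.add_mem _ (outer_mem_left (hy a) (qt_mem_SS e (ht b)))
    (outer_mem_right (ht a) (qt_mem_UU e (hy b)))

theorem mt_add_right_two (e : ℕ) (x y y' : Fin L → Ten KK d k) :
    mt (2 ^ e) x (y + y') = mt (2 ^ e) x y + mt (2 ^ e) x y' := by
  funext a b
  show outer (x a) (qt (2 ^ e) (y b + y' b)) + outer (y a + y' a) (qt (2 ^ e) (x b)) =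
    (outer (x a) (qt (2 ^ e) (y b)) + outer (y a) (qt (2 ^ e) (x b))) +
      (outer (x a) (qt (2 ^ e) (y' b)) + outer (y' a) (qt (2 ^ e) (x b)))
  rw [qt_add_two]
  funext al be
  simp only [outer, Pi.add_apply]
  ring

end basic

section one

variable {KK : Type} [Field KK] {d k L : ℕ} [CharP KK 2] [Finite KK]

/-- block level data of a pair `(P, P')`, its special direction `A`, two third types `R`, `R'` -/
structure Blks (P P' A R R' : Fin (k + 1) → Ix d → KK) : Prop where
  RR : ∀ i, B (R i) (R i) = 1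
  RR' : ∀ i, B (R' i) (R' i) = 1
  RA : ∀ i, B (R i) (A i) = 0
  RA' : ∀ i, B (R' i) (A i) = 0
  LA : ∀ i, LinearIndependent KK ![A i, R i]
  LA' : ∀ i, LinearIndependent KK ![A i, R' i]
  LR : ∀ i, LinearIndependent KK ![R i, R' i]
  n : ∀ i, R i none = 1
  n' : ∀ i, R' i none = 1
  U : (pt R : Ten KK d (k + 1)) ∈ UU P P'
  U' : (pt R' : Ten KK d (k + 1)) ∈ UU P P'

theorem Blks.symm {P P' A R R' : Fin (k + 1) → Ix d → KK} (h : Blks P P' A R R') :
    Blks P P' A R' R :=
  ⟨h.RR', h.RR, h.RA', h.RA, h.LA', h.LA, fun i => (LinearIndependent.pair_symm_iff).1 (h.LR i),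
    h.n', h.n, h.U', h.U⟩

/-- kernel, one side: decomposition of `z` -/
theorem decomp (r m : ℕ) (hk : 1 ≤ k) (hm : 2 ≤ m) {P P' A R R' : Fin (k + 1) → Ix d → KK}
    (h : Blks P P' A R R') (ε ε' : Fin L → KK) (hε : ∀ a, ε a ≠ 0)
    (z z' : Fin L → Ten KK d (k + 1)) (hz : ∀ a, z a ∈ UU P R)
    (hc : ∀ i j j', cmL L i (kf (R' i) j) (kf (qv (2 ^ r) R' i) j')
      (mt (2 ^ r) (fun a => ε a • pt R) z + mt (2 ^ r) (fun a => ε' a • pt R') z') ∈
        CmL L (UU (rm i P) (rm i P')) (SS (m - 1) (rm i A) (rm i P))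
          (UU (rm i (qv (2 ^ r) P)) (rm i (qv (2 ^ r) P')))
          (SS (m - 1) (rm i (qv (2 ^ r) A)) (rm i (qv (2 ^ r) P)))) :
    ∃ c : Fin L → KK, (∀ a, z a - c a • pt R' ∈ SS m A P) ∧
      ∀ a, c a ≠ 0 → ∀ i, B (R i) (R' i) = 0 := by
  have hqn : ∀ i, qv (2 ^ r) R' i none = 1 := by
    intro i
    show R' i none ^ 2 ^ r = 1
    rw [h.n', one_pow]
  have key := kernel r hk m hm P P' A R R' ε ε' h.RR h.RA h.LA' h.LR hε z z' hz (by
    intro i lam mu hl hmu a b
    exact all_of_kf i (R' i) (qv (2 ^ r) R' i) (h.n' i) (hqn i) _ _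
      (fun j j' => hc i j j' a b) lam mu hl hmu)
  choose c hcs using key
  refine ⟨c, fun a => ⟨hcs a, Submodule.sub_mem _ (hz a).1 (Submodule.smul_mem _ _ h.U'.1)⟩, ?_⟩
  intro a ha i
  exact kernel_perp m hm P A R R' h.LA' (hz a) (hcs a) ha i

/-- `pt R'` is in the window of `R` if `R ⊥ R'` -/
theorem pt_mem_UU {P P' A R R' : Fin (k + 1) → Ix d → KK} (h : Blks P P' A R R')
    (hp : ∀ i, B (R i) (R' i) = 0) : (pt R' : Ten KK d (k + 1)) ∈ UU P R := by
  refine ⟨h.U'.1, (mem_Tg (v := R) (t := pt R')).2 ?_⟩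
  intro i
  funext al
  show (∑ j, R i (sw j) * (∏ l, R' l (Function.update al i j l))) = 0
  have h1 : ∀ j, (∏ l, R' l (Function.update al i j l)) =
      R' i j * ∏ l ∈ Finset.univ.erase i, R' l (al l) := by
    intro j
    rw [← Finset.mul_prod_erase Finset.univ _ (Finset.mem_univ i), Function.update_self]
    congr 1
    refine Finset.prod_congr rfl fun l hl => ?_
    rw [Function.update_of_ne (Finset.ne_of_mem_erase hl)]
  simp_rw [h1]
  have h2 : ∑ j, R i (sw j) * (R' i j * ∏ l ∈ Finset.univ.erase i, R' l (al l)) =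
      B (R i) (R' i) * ∏ l ∈ Finset.univ.erase i, R' l (al l) := by
    unfold B
    rw [Finset.sum_mul]
    exact Finset.sum_congr rfl fun j _ => by ring
  rw [h2, hp i, zero_mul]

/-- both decompositions -/
theorem decomp2 (r m : ℕ) (hk : 1 ≤ k) (hm : 2 ≤ m) {P P' A R R' : Fin (k + 1) → Ix d → KK}
    (h : Blks P P' A R R') (ε ε' : Fin L → KK) (hε : ∀ a, ε a ≠ 0) (hε' : ∀ a, ε' a ≠ 0)
    (z z' : Fin L → Ten KK d (k + 1)) (hz : ∀ a, z a ∈ UU P R) (hz' : ∀ a, z' a ∈ UU P R')
    (hc : ∀ i j j', cmL L i (kf (R' i) j) (kf (qv (2 ^ r) R' i) j')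
      (mt (2 ^ r) (fun a => ε a • pt R) z + mt (2 ^ r) (fun a => ε' a • pt R') z') ∈
        CmL L (UU (rm i P) (rm i P')) (SS (m - 1) (rm i A) (rm i P))
          (UU (rm i (qv (2 ^ r) P)) (rm i (qv (2 ^ r) P')))
          (SS (m - 1) (rm i (qv (2 ^ r) A)) (rm i (qv (2 ^ r) P))))
    (hc' : ∀ i j j', cmL L i (kf (R i) j) (kf (qv (2 ^ r) R i) j')
      (mt (2 ^ r) (fun a => ε a • pt R) z + mt (2 ^ r) (fun a => ε' a • pt R') z') ∈
        CmL L (UU (rm i P) (rm i P')) (SS (m - 1) (rm i A) (rm i P))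
          (UU (rm i (qv (2 ^ r) P)) (rm i (qv (2 ^ r) P')))
          (SS (m - 1) (rm i (qv (2 ^ r) A)) (rm i (qv (2 ^ r) P)))) :
    ∃ c c' : Fin L → KK, (∀ a, z a - c a • pt R' ∈ SS m A P) ∧
      (∀ a, z' a - c' a • pt R ∈ SS m A P) ∧
      (((∀ a, c a = 0) ∧ ∀ a, c' a = 0) ∨ ∀ i, B (R i) (R' i) = 0) := by
  obtain ⟨c, hc1, hc2⟩ := decomp r m hk hm h ε ε' hε z z' hz hc
  obtain ⟨c', hc1', hc2'⟩ := decomp r m hk hm h.symm ε' ε hε' z' z hz' (by
    intro i j j'
    have h9 := hc' i j j'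
    rwa [add_comm (mt (2 ^ r) (fun a => ε a • pt R) z)] at h9)
  refine ⟨c, c', hc1, hc1', ?_⟩
  by_cases h1 : (∀ a, c a = 0) ∧ ∀ a, c' a = 0
  · exact Or.inl h1
  · right
    rw [not_and_or] at h1
    rcases h1 with h1 | h1
    · push Not at h1
      obtain ⟨a, ha⟩ := h1
      exact hc2 a ha
    · push Not at h1
      obtain ⟨a, ha⟩ := h1
      intro i
      rw [B_comm]
      exact hc2' a ha i

/-- splitting of the matrix into a controlled part and the leftover -/
theorem split_mt (r m : ℕ) {P P' A R R' : Fin (k + 1) → Ix d → KK}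
    (h : Blks P P' A R R') (ε ε' c c' : Fin L → KK) (z z' : Fin L → Ten KK d (k + 1))
    (h1 : ∀ a, z a - c a • pt R' ∈ SS m A P) (h2 : ∀ a, z' a - c' a • pt R ∈ SS m A P) :
    (mt (2 ^ r) (fun a => ε a • pt R) z + mt (2 ^ r) (fun a => ε' a • pt R') z') -
      (mt (2 ^ r) (fun a => ε a • pt R) (fun a => c a • pt R') +
        mt (2 ^ r) (fun a => ε' a • pt R') (fun a => c' a • pt R)) ∈
      CmL L (UU P P') (SS m A P) (UU (qv (2 ^ r) P) (qv (2 ^ r) P'))
        (SS m (qv (2 ^ r) A) (qv (2 ^ r) P)) := by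
  have e1 : z = (fun a => z a - c a • pt R') + (fun a => c a • pt R') := by
    funext a; simp
  have e2 : z' = (fun a => z' a - c' a • pt R) + (fun a => c' a • pt R) := by
    funext a; simp
  have e3 : (mt (2 ^ r) (fun a => ε a • pt R) z + mt (2 ^ r) (fun a => ε' a • pt R') z') -
      (mt (2 ^ r) (fun a => ε a • pt R) (fun a => c a • pt R') +
        mt (2 ^ r) (fun a => ε' a • pt R') (fun a => c' a • pt R)) =
      mt (2 ^ r) (fun a => ε a • pt R) (fun a => z a - c a • pt R') +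
        mt (2 ^ r) (fun a => ε' a • pt R') (fun a => z' a - c' a • pt R) := by
    conv_lhs => rw [e1, e2]
    rw [mt_add_right_two, mt_add_right_two]
    abel
  rw [e3]
  exact Submodule.add_mem _
    (mt_mem_CmL r _ _ (fun a => Submodule.smul_mem _ _ h.U) h1)
    (mt_mem_CmL r _ _ (fun a => Submodule.smul_mem _ _ h.U') h2)

/-- the leftover lies in the hat window of `R` -/
theorem left_mem (r : ℕ) {P P' A R R' : Fin (k + 1) → Ix d → KK}
    (h : Blks P P' A R R') (ε ε' c c' : Fin L → KK)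
    (h3 : ((∀ a, c a = 0) ∧ ∀ a, c' a = 0) ∨ ∀ i, B (R i) (R' i) = 0) :
    mt (2 ^ r) (fun a => ε a • pt R) (fun a => c a • pt R') +
        mt (2 ^ r) (fun a => ε' a • pt R') (fun a => c' a • pt R) ∈
      HmL L R (qv (2 ^ r) R) (UU P R) (UU (qv (2 ^ r) P) (qv (2 ^ r) R)) := by
  rcases h3 with ⟨h1, h2⟩ | h3
  · have e1 : (fun a => c a • pt R' : Fin L → Ten KK d (k + 1)) = fun _ => 0 := by
      funext a; rw [h1 a, zero_smul]
    have e2 : (fun a => c' a • pt R : Fin L → Ten KK d (k + 1)) = fun _ => 0 := by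
      funext a; rw [h2 a, zero_smul]
    have e3 : ∀ x : Fin L → Ten KK d (k + 1), mt (2 ^ r) x (fun _ => 0) = 0 := by
      intro x
      funext a b
      show outer (x a) (qt (2 ^ r) 0) + outer 0 (qt (2 ^ r) (x b)) = 0
      rw [qt_zero_two, outer_zero_left, outer_zero_right, add_zero]
    rw [e1, e2, e3, e3, add_zero]
    exact Submodule.zero_mem _
  · have hU := pt_mem_UU h h3
    refine Submodule.add_mem _ (mt_pt_mem_HmL r P R R' ε c hU) ?_
    rw [mtk_comm]
    exact mt_pt_mem_HmL r P R R' c' ε' hU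

end one

end Crest.Agent.R042.Pair57
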