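import Crest.Agent.R042.Param_377

/-! Row 42 / S0059: final parameters, part 2 (label level, sample, container). -/

set_option autoImplicit false

namespace Crest.Agent.R042.Param377

open Filter Topology Real Crest.Agent.R042.Growth377

variable {q n c a : ℕ}

/-- the gain `(1 + 1/n)^(kp/3 - 1)` beats polynomials. -/
theorem gam_big (hn : 1 ≤ n) (C : ℝ) (j : ℕ) {ε : ℝ} (hε : 0 < ε) :
    ∀ᶠ k : ℕ in atTop, C * (k : ℝ) ^ j ≤ ε * (1 + 1 / (n : ℝ)) ^ (k / 3 - 1) := by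
  have hn' : (0 : ℝ) < n := by exact_mod_cast hn
  have hb : (1 : ℝ) < 1 + 1 / (n : ℝ) := by
    have : 0 < 1 / (n : ℝ) := by positivity
    linarith
  have hε' : 0 < ε / (1 + 1 / (n : ℝ)) := by positivity
  filter_upwards [poly_le_div C j 3 (by norm_num) hb hε', eventually_ge_atTop 3] with k hk hk3
  refine hk.trans (le_of_eq ?_)
  have h1 : 1 ≤ k / 3 := (Nat.one_le_div_iff (by norm_num)).2 hk3
  have h2 : (1 + 1 / (n : ℝ)) ^ (k / 3) = (1 + 1 / (n : ℝ)) ^ (k / 3 - 1) * (1 + 1 / (n : ℝ)) := by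
    rw [← pow_succ]; congr 1; omega
  rw [h2]
  field_simp

/-- LIN numbers: `C k^j A ≤ ε n^(k - k/3) (n+1)^(k/3 - i)`. -/
theorem AA_gain (hq : 2 ≤ q) (hn : 1 ≤ n) (C : ℝ) (hC : 0 ≤ C) (j i : ℕ) {ε : ℝ} (hε : 0 < ε) :
    ∀ᶠ k : ℕ in atTop, C * (k : ℝ) ^ j * AA q n c a k ≤
      ε * ((n : ℝ) ^ (k - k / 3) * ((n : ℝ) + 1) ^ (k / 3 - i)) := by
  obtain ⟨D, hD, h⟩ := AA_le (n := n) (c := c) (a := a) hq
  filter_upwards [gain (C * D) (j + 4) 3 i n (by norm_num) hn hε, eventually_ge_atTop 1]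
    with k hk hk1
  refine le_trans ?_ hk
  calc C * (k : ℝ) ^ j * AA q n c a k ≤ C * (k : ℝ) ^ j * (D * (k : ℝ) ^ 4 * (n : ℝ) ^ k) :=
        mul_le_mul_of_nonneg_left (h k hk1) (by positivity)
    _ = C * D * (k : ℝ) ^ (j + 4) * (n : ℝ) ^ k := by ring

/-- `Q` beats `C k^j b^k`, `b < (n+1)^(2c)`. -/
theorem Qc_big (hq : 2 ≤ q) (C : ℝ) (j : ℕ) {b : ℝ} (hb0 : 0 < b) (hb : b < ((n : ℝ) + 1) ^ (2 * c))
    {ε : ℝ} (hε : 0 < ε) : ∀ᶠ k : ℕ in atTop, C * (k : ℝ) ^ j * b ^ k ≤ ε * Qc q n c k := by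
  filter_upwards [poly_pow_le_pow C j (2 * c) hb0 hb hε] with k hk
  refine hk.trans (mul_le_mul_of_nonneg_left ?_ hε.le)
  exact_mod_cast Qc_ge (n := n) (c := c) hq k

/-- 8-genericity (592): `N^8 |KK|^7 / |KK|^(2 d) ≤ ε`. -/
theorem generic (hq : 2 ≤ q) (hn : 1 ≤ n) (hc : 1 ≤ c) (d : ℕ) (hd : 72 ≤ d) {ε : ℝ} (hε : 0 < ε) :
    ∀ᶠ k : ℕ in atTop, (NT q n c k : ℝ) ^ 8 *
      ((Kc q n c k : ℝ) ^ 7 / (Kc q n c k : ℝ) ^ (2 * d)) ≤ ε := by
  filter_upwards [Kc_large (q := q) (n := n) (c := c) hq hn hc (1 / ε)] with k hk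
  have hX : (1 : ℝ) ≤ Kc q n c k := by exact_mod_cast Kc_pos (n := n) (c := c) hq k
  have hNT : (NT q n c k : ℝ) = (Kc q n c k : ℝ) ^ 17 := by unfold NT; push_cast; rfl
  rw [hNT]
  set X : ℝ := (Kc q n c k : ℝ)
  have hX0 : 0 < X := by linarith
  rw [← mul_div_assoc, div_le_iff₀ (by positivity)]
  have h1 : X ^ 144 ≤ X ^ (2 * d) := pow_le_pow_right₀ hX (by omega)
  have h2 : 1 ≤ ε * X := by
    rw [div_le_iff₀ hε] at hk
    linarith
  calc (X ^ 17) ^ 8 * X ^ 7 = 1 * X ^ 143 := by ring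
    _ ≤ (ε * X) * X ^ 143 := by gcongr
    _ = ε * X ^ 144 := by ring
    _ ≤ ε * X ^ (2 * d) := by gcongr

/-- 831's sample hypothesis: `C ≤ ρ^4 N`. -/
theorem sample_num (hq : 2 ≤ q) (hn : 1 ≤ n) (hc : 1 ≤ c) (C : ℝ) :
    ∀ᶠ k : ℕ in atTop, C ≤ ((Kc q n c k : ℝ)⁻¹) ^ 4 * NT q n c k := by
  filter_upwards [Kc_large (q := q) (n := n) (c := c) hq hn hc C] with k hk
  have hX : (1 : ℝ) ≤ Kc q n c k := by exact_mod_cast Kc_pos (n := n) (c := c) hq k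
  have hNT : (NT q n c k : ℝ) = (Kc q n c k : ℝ) ^ 17 := by unfold NT; push_cast; rfl
  rw [hNT]
  set X : ℝ := (Kc q n c k : ℝ)
  have hX0 : 0 < X := by linarith
  have h1 : X⁻¹ ^ 4 * X ^ 17 = X ^ 13 := by field_simp
  rw [h1]
  calc C ≤ X := hk
    _ = X ^ 1 := (pow_one X).symm
    _ ≤ X ^ 13 := pow_le_pow_right₀ hX (by norm_num)

/-- 380's `rich_frac`: `|G| (2 log N + log |G| + t) ≤ L`, `|G| = a`. -/
theorem rich_num (hq : 2 ≤ q) (hn : 1 ≤ n) (hc : 1 ≤ c) (ha : 1 ≤ a) (t : ℝ) :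
    ∀ᶠ k : ℕ in atTop,
      (a : ℝ) * (2 * log (NT q n c k : ℝ) + log (a : ℝ) + t) ≤ LL q n c a k := by
  filter_upwards [Kc_large (q := q) (n := n) (c := c) hq hn hc (exp (log a + t))] with k hk
  refine le_trans ?_ (LL_ge (q := q) (n := n) (c := c) (a := a) k)
  have hX : (1 : ℝ) ≤ Kc q n c k := by exact_mod_cast Kc_pos (n := n) (c := c) hq k
  have hNT : log (NT q n c k : ℝ) = 17 * log (Kc q n c k : ℝ) := by
    unfold NT; push_cast; rw [Real.log_pow]; norm_num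
  rw [hNT]
  have h1 : log a + t ≤ log (Kc q n c k : ℝ) := by
    rw [← Real.log_exp (log (a : ℝ) + t)]
    exact Real.log_le_log (Real.exp_pos _) hk
  have h2 : 0 ≤ log (Kc q n c k : ℝ) := Real.log_nonneg hX
  have ha' : (0 : ℝ) ≤ a := by positivity
  calc (a : ℝ) * (2 * (17 * log (Kc q n c k : ℝ)) + log (a : ℝ) + t)
      ≤ a * (4000 * log (Kc q n c k : ℝ)) := by
        refine mul_le_mul_of_nonneg_left ?_ ha'
        linarith
    _ = _ := by ring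

/-- 755's two-end density: `C q a^(-(L/50)) ≤ |KK|^(-30)` in the form
`C * |KK|^30 ≤ a ^ m` for every `m ≥ L / 100`. -/
theorem twoend_num (hq : 2 ≤ q) (hn : 1 ≤ n) (hc : 1 ≤ c) (ha : 3 ≤ a) (C : ℝ) :
    ∀ᶠ k : ℕ in atTop, ∀ m : ℕ, (LL q n c a k : ℝ) ≤ 100 * m →
      C * (Kc q n c k : ℝ) ^ 30 ≤ (a : ℝ) ^ m := by
  filter_upwards [Kc_large (q := q) (n := n) (c := c) hq hn hc C] with k hk
  intro m hm
  have hX : (1 : ℝ) ≤ Kc q n c k := by exact_mod_cast Kc_pos (n := n) (c := c) hq k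
  have hL := LL_ge (q := q) (n := n) (c := c) (a := a) k
  set X : ℝ := (Kc q n c k : ℝ)
  have hX0 : 0 < X := by linarith
  have ha' : (3 : ℝ) ≤ a := by exact_mod_cast ha
  have ha0 : (0 : ℝ) < a := by linarith
  have h2 : 0 ≤ log X := Real.log_nonneg hX
  have h3 : 1 ≤ log (a : ℝ) := by
    rw [← Real.log_exp 1]
    refine Real.log_le_log (Real.exp_pos _) ?_
    have := Real.exp_one_lt_d9
    linarith
  have h4 : 31 * log X ≤ m * log a := by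
    have h5 : (40 : ℝ) * a * log X ≤ m := by
      have := hL.trans hm
      linarith
    have h6 : (31 : ℝ) * log X ≤ 40 * a * log X := by
      refine mul_le_mul_of_nonneg_right ?_ h2
      linarith
    have h7 : (0 : ℝ) ≤ m := by positivity
    nlinarith
  calc C * X ^ 30 ≤ X * X ^ 30 := by gcongr
    _ = X ^ 31 := by ring
    _ ≤ (a : ℝ) ^ m := by
        rw [← Real.exp_log (pow_pos hX0 31), ← Real.exp_log (pow_pos ha0 m), Real.exp_le_exp,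
          Real.log_pow, Real.log_pow]
        exact_mod_cast h4

/-- size of `ns`. -/
theorem ns_ge (q n c a k : ℕ) :
    ((q : ℝ) ^ AA q n c a k * Kc q n c k) ^ (41 / 10 : ℝ) ≤ ns q n c a k := Nat.le_ceil _

theorem one_le_qA (hq : 2 ≤ q) (k : ℕ) : 1 ≤ (q : ℝ) ^ AA q n c a k * Kc q n c k := by
  have hX : (1 : ℝ) ≤ Kc q n c k := by exact_mod_cast Kc_pos (n := n) (c := c) hq k
  have h1 : (1 : ℝ) ≤ (q : ℝ) ^ AA q n c a k :=
    one_le_pow₀ (by exact_mod_cast (by omega : 1 ≤ q))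
  nlinarith

theorem ns_le (hq : 2 ≤ q) (k : ℕ) :
    (ns q n c a k : ℝ) ≤ 2 * ((q : ℝ) ^ AA q n c a k * Kc q n c k) ^ (41 / 10 : ℝ) := by
  have h1 := one_le_qA (n := n) (c := c) (a := a) hq k
  have h2 : 1 ≤ ((q : ℝ) ^ AA q n c a k * Kc q n c k) ^ (41 / 10 : ℝ) :=
    Real.one_le_rpow h1 (by norm_num)
  have h3 := (Nat.ceil_lt_add_one (by linarith :
    (0:ℝ) ≤ ((q : ℝ) ^ AA q n c a k * Kc q n c k) ^ (41 / 10 : ℝ))).le
  unfold ns
  linarith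

/-- (N7): `n_s → ∞`. -/
theorem ns_large (hq : 2 ≤ q) (hn : 1 ≤ n) (hc : 1 ≤ c) (C : ℝ) :
    ∀ᶠ k : ℕ in atTop, C ≤ ns q n c a k := by
  filter_upwards [Kc_large (q := q) (n := n) (c := c) hq hn hc C] with k hk
  refine le_trans ?_ (ns_ge q n c a k)
  have h1 := one_le_qA (n := n) (c := c) (a := a) hq k
  have hX : (1 : ℝ) ≤ Kc q n c k := by exact_mod_cast Kc_pos (n := n) (c := c) hq k
  have h2 : (1 : ℝ) ≤ (q : ℝ) ^ AA q n c a k :=
    one_le_pow₀ (by exact_mod_cast (by omega : 1 ≤ q))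
  calc C ≤ Kc q n c k := hk
    _ ≤ (q : ℝ) ^ AA q n c a k * Kc q n c k := by nlinarith
    _ = ((q : ℝ) ^ AA q n c a k * Kc q n c k) ^ (1 : ℝ) := (Real.rpow_one _).symm
    _ ≤ _ := Real.rpow_le_rpow_of_exponent_le h1 (by norm_num)

/-- (N5): the budget `8 log ((n_s / δ) |Δ|) ≤ 42 A log q`, `|Δ| ≤ q^A`. -/
theorem budget (hq : 2 ≤ q) (hn : 2 ≤ n) (ha : 1 ≤ a) {δ : ℝ} (hδ : 0 < δ) :
    ∀ᶠ k : ℕ in atTop, ∀ D : ℕ, 0 < D → D ≤ q ^ AA q n c a k →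
      8 * log ((ns q n c a k : ℝ) / δ * D) ≤ 42 * AA q n c a k * log q := by
  obtain ⟨C, hC, hlog⟩ := log_Kc_le (n := n) (c := c) hq
  have hl := logq_pos hq
  filter_upwards [AA_big (c := c) hq hn ha (33 * C + 8 * |log (2 / δ)|) 2
    (by positivity : 0 < 12 / 10 * log (q : ℝ)), eventually_ge_atTop 1] with k hk hk1
  intro D hD hDq
  have h1 := one_le_qA (n := n) (c := c) (a := a) hq k
  have h2 := ns_le (n := n) (c := c) (a := a) hq k
  have hX : (1 : ℝ) ≤ Kc q n c k := by exact_mod_cast Kc_pos (n := n) (c := c) hq k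
  have hX0 : (0 : ℝ) < Kc q n c k := by linarith
  have hq0 : (0 : ℝ) < q := by exact_mod_cast (by omega : 0 < q)
  have hns : (0 : ℝ) < ns q n c a k := by
    have := ns_ge q n c a k
    have h2 : 1 ≤ ((q : ℝ) ^ AA q n c a k * Kc q n c k) ^ (41 / 10 : ℝ) :=
      Real.one_le_rpow h1 (by norm_num)
    linarith
  have hD' : (0 : ℝ) < D := by exact_mod_cast hD
  have h3 : log ((ns q n c a k : ℝ) / δ * D) = log (ns q n c a k) - log δ + log D := by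
    rw [Real.log_mul (by positivity) hD'.ne', Real.log_div hns.ne' hδ.ne']
  have h4 : log (ns q n c a k : ℝ) ≤ log 2 + 41 / 10 * (AA q n c a k * log q +
      log (Kc q n c k : ℝ)) := by
    have h5 := Real.log_le_log hns h2
    rw [Real.log_mul (by norm_num) (by positivity), Real.log_rpow (by positivity),
      Real.log_mul (by positivity) hX0.ne', Real.log_pow] at h5
    exact h5
  have h5 : log (D : ℝ) ≤ AA q n c a k * log q := by
    rw [← Real.log_pow]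
    exact Real.log_le_log hD' (by exact_mod_cast hDq)
  have h6 : log 2 - log δ = log (2 / δ) := by
    rw [Real.log_div (by norm_num) hδ.ne']
  have h7 := hlog k hk1
  have hk2 : (1 : ℝ) ≤ (k : ℝ) ^ 2 := one_le_pow₀ (by exact_mod_cast hk1)
  have h8 : log (2 / δ) ≤ |log (2 / δ)| * (k : ℝ) ^ 2 := by
    have := le_abs_self (log (2 / δ))
    have h0 := abs_nonneg (log (2 / δ))
    nlinarith
  have h9 : 0 ≤ log (Kc q n c k : ℝ) := Real.log_nonneg hX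
  rw [h3]
  have h10 : 8 * (log (ns q n c a k : ℝ) - log δ + log D) ≤
      8 * log (2 / δ) + 408 / 10 * (AA q n c a k * log q) + 328 / 10 * log (Kc q n c k : ℝ) := by
    linarith
  refine h10.trans ?_
  have h11 : 328 / 10 * log (Kc q n c k : ℝ) ≤ 33 * C * (k : ℝ) ^ 2 := by
    have : 33 * log (Kc q n c k : ℝ) ≤ 33 * (C * (k : ℝ) ^ 2) := by linarith
    linarith
  nlinarith

/-- (N6): the container density, `c₀ = 1/(8 q^(4A))`, `M₀ = |KK|^(-4)/32`, `d = 1/(4K)`. -/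
theorem kappa_num (hq : 2 ≤ q) (hn : 1 ≤ n) (hc : 1 ≤ c) {κ : ℝ} (hκ : 0 < κ) :
    ∀ᶠ k : ℕ in atTop, (ns q n c a k : ℝ) ^ (-(99 / 100) : ℝ) ≤
      κ * (((Kc q n c k : ℝ)⁻¹) ^ 4 * ((q : ℝ) ^ (4 * AA q n c a k))⁻¹) := by
  filter_upwards [Kc_large (q := q) (n := n) (c := c) hq hn hc ((1 / κ) ^ (1000 / 59 : ℝ))]
    with k hk
  have h1 := one_le_qA (n := n) (c := c) (a := a) hq k
  have hX : (1 : ℝ) ≤ Kc q n c k := by exact_mod_cast Kc_pos (n := n) (c := c) hq k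
  have h2 := ns_ge q n c a k
  have hqA : (1 : ℝ) ≤ (q : ℝ) ^ AA q n c a k :=
    one_le_pow₀ (by exact_mod_cast (by omega : 1 ≤ q))
  set X : ℝ := (Kc q n c k : ℝ) with hXd
  set B : ℝ := (q : ℝ) ^ AA q n c a k with hB
  have hX0 : 0 < X := by linarith
  have hB0 : 0 < B := by linarith
  have hY : 0 < B * X := by positivity
  have h3 : (ns q n c a k : ℝ) ^ (-(99 / 100) : ℝ) ≤ ((B * X) ^ (41 / 10 : ℝ)) ^ (-(99 / 100) : ℝ) :=
    Real.rpow_le_rpow_of_nonpos (by positivity) h2 (by norm_num)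
  refine h3.trans ?_
  rw [← Real.rpow_mul hY.le]
  have h4 : (41 / 10 : ℝ) * (-(99 / 100)) = -4 + (-(59 / 1000)) := by norm_num
  rw [h4, Real.rpow_add hY]
  have h5 : (B * X) ^ (-4 : ℝ) = X⁻¹ ^ 4 * ((q : ℝ) ^ (4 * AA q n c a k))⁻¹ := by
    rw [show (-4 : ℝ) = -((4 : ℕ) : ℝ) by norm_num, Real.rpow_neg hY.le, Real.rpow_natCast,
      mul_pow, mul_inv, inv_pow, mul_comm]
    congr 2
    rw [hB, ← pow_mul, mul_comm]
  rw [h5, mul_comm]
  refine mul_le_mul_of_nonneg_right ?_ (by positivity)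
  have h6 : (1 / κ) ≤ (B * X) ^ (59 / 1000 : ℝ) := by
    have h7 : (1 / κ) ^ (1000 / 59 : ℝ) ≤ B * X := by
      calc _ ≤ X := hk
        _ ≤ B * X := by nlinarith
    have h8 := Real.rpow_le_rpow (by positivity) h7 (by norm_num : (0 : ℝ) ≤ 59 / 1000)
    rw [← Real.rpow_mul (by positivity)] at h8
    norm_num at h8
    simpa using h8
  rw [Real.rpow_neg hY.le]
  rw [div_le_iff₀ hκ] at h6
  rw [inv_le_iff_one_le_mul₀ (by positivity)]
  linarith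

/-- existence: one `k` (odd, divisible by three, arbitrarily large) for any eventual property. -/
theorem exists_k {P : ℕ → Prop} (h : ∀ᶠ k : ℕ in atTop, P k) (k₀ : ℕ) :
    ∃ k, k₀ ≤ k ∧ Odd k ∧ k % 3 = 0 ∧ P k := by
  obtain ⟨k₁, h1⟩ := eventually_atTop.1 h
  refine ⟨6 * (k₀ + k₁) + 3, by omega, ⟨3 * (k₀ + k₁) + 1, by ring⟩, by omega, h1 _ (by omega)⟩

end Crest.Agent.R042.Param377
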