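import Mathlib

/-!
# Row 42 / S0059, plan B: the label-level numbers (PARAM-B, part L)

`X = card KK → ∞`; everything else (`q = card k0`, `u` with `card U = X ^ u`, the degree `Dg` of the
gadget graph, `d`, `η`) is fixed.  `n = X ^ n1` vertices, density bound `M = X ^ m1`,
greedy step `δ = X ^ (-1/4)`, `J ≤ X ^ (1/3)`, `N ≈ log_q X / 4` comparators for the special part.
-/

set_option autoImplicit false

namespace Crest.Agent.R042.ParamBL763

open Filter Real Topology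

/-- a power beats a constant times a smaller power -/
theorem ev_rpow (c : ℝ) {a b : ℝ} (hab : a < b) : ∀ᶠ X : ℝ in atTop, c * X ^ a ≤ X ^ b := by
  have h1 : Tendsto (fun X : ℝ => X ^ (b - a)) atTop atTop := tendsto_rpow_atTop (by linarith)
  filter_upwards [h1.eventually_ge_atTop c, eventually_gt_atTop 0] with X h2 h3
  have h4 : X ^ b = X ^ (b - a) * X ^ a := by rw [← rpow_add h3]; congr 1; ring
  rw [h4]
  exact mul_le_mul_of_nonneg_right h2 (rpow_nonneg h3.le _)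

/-- natural powers -/
theorem ev_pow (c : ℝ) {a b : ℕ} (hab : a < b) : ∀ᶠ X : ℝ in atTop, c * X ^ a ≤ X ^ b := by
  have h := ev_rpow c (a := (a : ℝ)) (b := (b : ℝ)) (by exact_mod_cast hab)
  filter_upwards [h] with X hX
  simpa [rpow_natCast] using hX

/-- a power beats a constant times a power of the logarithm -/
theorem ev_log (c : ℝ) (k : ℕ) {b : ℝ} (hb : 0 < b) :
    ∀ᶠ X : ℝ in atTop, c * (log X) ^ k ≤ X ^ b := by
  have h1 : (fun X : ℝ => (log X) ^ k) =o[atTop] fun X : ℝ => X ^ b := by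
    have := isLittleO_log_rpow_rpow_atTop (s := b) (k : ℝ) hb
    simpa [rpow_natCast] using this
  have hc : 0 < 1 / (|c| + 1) := by positivity
  filter_upwards [h1.def hc, eventually_gt_atTop 1] with X h2 h3
  have h4 : 0 ≤ log X := log_nonneg h3.le
  rw [norm_of_nonneg (pow_nonneg h4 k), norm_of_nonneg (rpow_nonneg (by linarith) b)] at h2
  have h5 : (|c| + 1) * (log X) ^ k ≤ X ^ b := by
    have := mul_le_mul_of_nonneg_left h2 (show 0 ≤ |c| + 1 by positivity)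
    refine this.trans (le_of_eq ?_)
    field_simp
  have h6 : c * (log X) ^ k ≤ (|c| + 1) * (log X) ^ k :=
    mul_le_mul_of_nonneg_right (by linarith [le_abs_self c]) (pow_nonneg h4 k)
  linarith

/-- **budget** (`hD` of 375): `16 (n/d) |Δ| (ratio) ≤ X ^ m1` -/
theorem ev_budget (d : ℝ) (n1 u Dg m1 : ℕ) (hm : n1 + u + 2 * Dg * u < m1) :
    ∀ᶠ X : ℝ in atTop, ∀ n Dl ra : ℝ, 0 ≤ n → 0 ≤ Dl → 0 ≤ ra → n ≤ 2 * X ^ n1 → Dl ≤ X ^ u →
      ra ≤ X ^ (2 * Dg * u) → 0 < d → 16 * (n / d * Dl) * ra ≤ X ^ m1 := by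
  filter_upwards [ev_pow (32 / d) hm, eventually_gt_atTop 0] with X h1 h0
  intro n Dl ra hn hDl hra h2 h3 h4 hd
  have e1 : 16 * (n / d * Dl) * ra ≤ 16 * ((2 * X ^ n1) / d * X ^ u) * X ^ (2 * Dg * u) := by
    gcongr
  refine e1.trans (le_trans (le_of_eq ?_) h1)
  rw [pow_add, pow_add]
  ring

/-- **moment number**: `M * (2 * (C * (δ ^ h + U ^ (2h+2) * δ ^ m))) < (ε / 2) ^ (b + 1)` for
`M ≤ X ^ m1`, `U ≤ X ^ u`, `δ ≤ X ^ (-1/4)`; `h`, `m` are chosen from `m1`, `u` only -/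
theorem ev_mom (m1 u h m b C : ℕ) (hh : 4 * m1 < h) (hm : 4 * (m1 + (2 * h + 2) * u) < m)
    {ε : ℝ} (hε : 0 < ε) :
    ∀ᶠ X : ℝ in atTop, ∀ M U δ : ℝ, 0 ≤ M → 0 ≤ U → 0 ≤ δ → M ≤ X ^ m1 → U ≤ X ^ u →
      δ ≤ X ^ (-(1 / 4) : ℝ) →
      M * (2 * ((C : ℝ) * (δ ^ h + U ^ (2 * h + 2) * δ ^ m))) < ε := by
  have e1 := ev_rpow (4 * (C : ℝ) + 1) (a := (m1 : ℝ) - h / 4) (b := 0) (by
    have : (4 * (m1 : ℝ)) < h := by exact_mod_cast hh
    linarith)
  -- a stronger version: the power tends to zero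
  have t1 : Tendsto (fun X : ℝ => X ^ ((m1 : ℝ) - h / 4)) atTop (𝓝 0) := by
    have h1 : (m1 : ℝ) - h / 4 = -((h : ℝ) / 4 - m1) := by ring
    rw [h1]
    refine tendsto_rpow_neg_atTop ?_
    have : (4 * (m1 : ℝ)) < h := by exact_mod_cast hh
    linarith
  have t2 : Tendsto (fun X : ℝ => X ^ ((m1 : ℝ) + (2 * h + 2) * u - m / 4)) atTop (𝓝 0) := by
    have h1 : (m1 : ℝ) + (2 * h + 2) * u - m / 4 = -((m : ℝ) / 4 - (m1 + (2 * h + 2) * u)) := by
      ring
    rw [h1]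
    refine tendsto_rpow_neg_atTop ?_
    have : (4 * ((m1 : ℝ) + (2 * h + 2) * u)) < m := by exact_mod_cast hm
    linarith
  have hpos : 0 < ε / (4 * C + 1) := by positivity
  have s1 := t1.eventually_lt_const hpos
  have s2 := t2.eventually_lt_const hpos
  filter_upwards [s1, s2, eventually_gt_atTop 0] with X h1 h2 h0
  intro M U δ hM hU hδ hM' hU' hδ'
  have hδh : δ ^ h ≤ X ^ (-((h : ℝ) / 4)) := by
    have := pow_le_pow_left₀ hδ hδ' h
    refine this.trans (le_of_eq ?_)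
    rw [← rpow_natCast, ← rpow_mul h0.le]
    congr 1; ring
  have hδm : δ ^ m ≤ X ^ (-((m : ℝ) / 4)) := by
    have := pow_le_pow_left₀ hδ hδ' m
    refine this.trans (le_of_eq ?_)
    rw [← rpow_natCast, ← rpow_mul h0.le]
    congr 1; ring
  have hUU : U ^ (2 * h + 2) ≤ X ^ ((2 * h + 2) * u : ℝ) := by
    have := pow_le_pow_left₀ hU hU' (2 * h + 2)
    refine this.trans (le_of_eq ?_)
    rw [← pow_mul, ← rpow_natCast]
    congr 1; push_cast; ring
  have hMM : M ≤ X ^ (m1 : ℝ) := by rwa [rpow_natCast]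
  have f1 : M * δ ^ h ≤ X ^ ((m1 : ℝ) - h / 4) := by
    have : X ^ ((m1 : ℝ) - h / 4) = X ^ (m1 : ℝ) * X ^ (-((h : ℝ) / 4)) := by
      rw [← rpow_add h0]; congr 1
    rw [this]
    exact mul_le_mul hMM hδh (pow_nonneg hδ h) (rpow_nonneg h0.le _)
  have f2 : M * (U ^ (2 * h + 2) * δ ^ m) ≤ X ^ ((m1 : ℝ) + (2 * h + 2) * u - m / 4) := by
    have : X ^ ((m1 : ℝ) + (2 * h + 2) * u - m / 4) =
        X ^ (m1 : ℝ) * (X ^ ((2 * h + 2) * u : ℝ) * X ^ (-((m : ℝ) / 4))) := by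
      rw [← rpow_add h0, ← rpow_add h0]; congr 1; ring
    rw [this]
    refine mul_le_mul hMM ?_ (by positivity) (rpow_nonneg h0.le _)
    exact mul_le_mul hUU hδm (pow_nonneg hδ m) (rpow_nonneg h0.le _)
  have hC : (0 : ℝ) ≤ C := Nat.cast_nonneg C
  have e3 : M * (2 * ((C : ℝ) * (δ ^ h + U ^ (2 * h + 2) * δ ^ m))) =
      2 * C * (M * δ ^ h + M * (U ^ (2 * h + 2) * δ ^ m)) := by ring
  rw [e3]
  have e4 : M * δ ^ h + M * (U ^ (2 * h + 2) * δ ^ m) ≤ 2 * (ε / (4 * C + 1)) := by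
    linarith
  have e5 : 2 * (C : ℝ) * (M * δ ^ h + M * (U ^ (2 * h + 2) * δ ^ m)) ≤
      2 * C * (2 * (ε / (4 * C + 1))) := mul_le_mul_of_nonneg_left e4 (by positivity)
  refine lt_of_le_of_lt e5 ?_
  have h6 : 2 * (C : ℝ) * (2 * (ε / (4 * C + 1))) = ε * (4 * C / (4 * C + 1)) := by
    field_simp; ring
  rw [h6]
  have h7 : 4 * (C : ℝ) / (4 * C + 1) < 1 := by
    rw [div_lt_one (by positivity)]; linarith
  nlinarith

/-- **SD number**: with `N` comparators, `q ^ (2N) ≤ X` and `M * 2 ^ N * K₀ ^ (-(η N / 2)) < η / 2`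
for the constant `K₀ = exp (8 log q (m1 + 2) / η) * ..`. -/
theorem ev_sd (q m1 : ℕ) (hq : 2 ≤ q) {η : ℝ} (hη : 0 < η) :
    ∃ K₀ : ℝ, 1 ≤ K₀ ∧ ∀ᶠ X : ℝ in atTop, ∃ N : ℕ, 0 < N ∧ (q : ℝ) ^ (2 * N) ≤ X ∧
      ∀ M : ℝ, 0 ≤ M → M ≤ X ^ m1 → M * 2 ^ N * K₀ ^ (-(η * N / 2)) < η / 2 := by
  have hq1 : (1 : ℝ) < q := by exact_mod_cast (by omega : 1 < q)
  have hlq : 0 < log q := log_pos hq1
  set c : ℝ := 4 * log q * (m1 + 1) + log 2 + 1 with hc
  have hcpos : 0 < c := by positivity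
  refine ⟨exp (2 * c / η), one_le_exp (by positivity), ?_⟩
  have hlogt : Tendsto (fun X : ℝ => log X) atTop atTop := tendsto_log_atTop
  have hNt : Tendsto (fun X : ℝ => log X / (2 * log q)) atTop atTop :=
    hlogt.atTop_div_const (by positivity)
  have hexp : Tendsto (fun X : ℝ => exp (-(log X / (4 * log q)))) atTop (𝓝 0) := by
    refine tendsto_exp_neg_atTop_nhds_zero.comp ?_
    exact hlogt.atTop_div_const (by positivity)
  filter_upwards [hNt.eventually_ge_atTop 2, eventually_gt_atTop 1,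
    hexp.eventually_lt_const (show 0 < η / 2 by positivity)] with X h1 h2 h3
  have h0 : 0 < X := by linarith
  set y : ℝ := log X / (2 * log q) with hy
  refine ⟨⌊y⌋₊, Nat.floor_pos.2 (by linarith), ?_, ?_⟩
  · -- q ^ (2N) ≤ X
    have hN : ((⌊y⌋₊ : ℕ) : ℝ) ≤ y := Nat.floor_le (by linarith)
    have e1 : (q : ℝ) ^ (2 * ⌊y⌋₊) = exp (log q * (2 * (⌊y⌋₊ : ℕ))) := by
      rw [← rpow_natCast, rpow_def_of_pos (by linarith)]
      push_cast; rfl
    rw [e1]
    have e2 : log q * (2 * ((⌊y⌋₊ : ℕ) : ℝ)) ≤ log X := by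
      have : log q * (2 * ((⌊y⌋₊ : ℕ) : ℝ)) ≤ log q * (2 * y) := by gcongr
      refine this.trans (le_of_eq ?_)
      rw [hy]; field_simp
    calc exp (log q * (2 * (⌊y⌋₊ : ℕ))) ≤ exp (log X) := exp_le_exp.2 e2
      _ = X := exp_log h0
  · intro M hM hM'
    set N : ℕ := ⌊y⌋₊ with hN
    have hNl : y / 2 ≤ (N : ℝ) := by
      have := Nat.lt_floor_add_one y
      rw [← hN] at this
      linarith
    have hK : exp (2 * c / η) ^ (-(η * N / 2)) = exp (-(c * N)) := by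
      rw [← exp_mul]
      congr 1
      field_simp
    rw [hK]
    have h2N : (2 : ℝ) ^ N = exp (log 2 * N) := by
      rw [← rpow_natCast, rpow_def_of_pos (by norm_num)]
    have hXm : X ^ m1 = exp (log X * m1) := by
      rw [← rpow_natCast, rpow_def_of_pos h0]
    have hlX : log X ≤ 4 * log q * N := by
      have : log X = 2 * log q * y := by rw [hy]; field_simp
      rw [this]
      nlinarith
    have step : M * 2 ^ N * exp (-(c * N)) ≤ exp (-(log X / (4 * log q))) := by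
      have e1 : M * 2 ^ N * exp (-(c * N)) ≤
          exp (log X * m1) * exp (log 2 * N) * exp (-(c * N)) := by
        rw [h2N, ← hXm]
        gcongr
      refine e1.trans ?_
      rw [← exp_add, ← exp_add]
      refine exp_le_exp.2 ?_
      have hm1 : (0 : ℝ) ≤ m1 := Nat.cast_nonneg _
      have e2 : log X * m1 ≤ 4 * log q * N * m1 := mul_le_mul_of_nonneg_right hlX hm1
      have e3 : log X / (4 * log q) ≤ N := by
        rw [div_le_iff₀ (by positivity)]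
        linarith
      have hN0 : (0 : ℝ) ≤ N := Nat.cast_nonneg _
      have e4 : 0 ≤ 4 * log q * (N : ℝ) := by positivity
      rw [hc]
      nlinarith
    exact lt_of_le_of_lt step h3

/-- **greedy**: `J` steps with `δ = X ^ (-1/4)`, `θ = c X ^ (-4)`: `log (1/θ) ≤ δ J`, `J ≤ X ^ (1/3)` -/
theorem ev_greedy {c : ℝ} (hc : 0 < c) :
    ∀ᶠ X : ℝ in atTop, ∃ J : ℕ, log (1 / (c * X ^ (-4 : ℝ))) ≤ X ^ (-(1 / 4) : ℝ) * J ∧
      (J : ℝ) ≤ X ^ ((1 : ℝ) / 3) := by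
  have h1 := ev_log (c := 2 * (4 + |log (1 / c)|)) 1 (b := (1 : ℝ) / 3 - 1 / 4) (by norm_num)
  have h2 := ev_rpow 2 (a := 0) (b := (1 : ℝ) / 3) (by norm_num)
  filter_upwards [h1, h2, eventually_gt_atTop (exp 1)] with X h1 h2 h3
  have h0 : 0 < X := (exp_pos 1).trans h3
  have hl1 : 1 ≤ log X := by
    rw [le_log_iff_exp_le h0]; exact h3.le
  set v : ℝ := log (1 / (c * X ^ (-4 : ℝ))) with hv
  have hvle : v ≤ (4 + |log (1 / c)|) * log X := by
    have e1 : v = log (1 / c) + 4 * log X := by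
      rw [hv, one_div, log_inv, log_mul hc.ne' (rpow_pos_of_pos h0 _).ne', log_rpow h0, one_div,
        log_inv]
      ring
    rw [e1]
    have := le_abs_self (log (1 / c))
    have h5 : log (1 / c) ≤ |log (1 / c)| * log X := by
      refine this.trans ?_
      nlinarith [abs_nonneg (log (1 / c))]
    linarith
  refine ⟨⌈(4 + |log (1 / c)|) * log X * X ^ ((1 : ℝ) / 4)⌉₊, ?_, ?_⟩
  · have hce := Nat.le_ceil ((4 + |log (1 / c)|) * log X * X ^ ((1 : ℝ) / 4))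
    have h6 : X ^ (-(1 / 4) : ℝ) * ((4 + |log (1 / c)|) * log X * X ^ ((1 : ℝ) / 4)) =
        (4 + |log (1 / c)|) * log X := by
      have : X ^ (-(1 / 4) : ℝ) * X ^ ((1 : ℝ) / 4) = 1 := by
        rw [← rpow_add h0]; norm_num
      calc _ = (4 + |log (1 / c)|) * log X * (X ^ (-(1 / 4) : ℝ) * X ^ ((1 : ℝ) / 4)) := by ring
        _ = _ := by rw [this, mul_one]
    exact hvle.trans ((le_of_eq h6.symm).trans
      (mul_le_mul_of_nonneg_left hce (rpow_nonneg h0.le _)))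
  · have hlt := Nat.ceil_lt_add_one (show 0 ≤ (4 + |log (1 / c)|) * log X * X ^ ((1 : ℝ) / 4) by
      positivity)
    have h7 : (4 + |log (1 / c)|) * log X * X ^ ((1 : ℝ) / 4) ≤ X ^ ((1 : ℝ) / 3) / 2 := by
      have e1 : X ^ ((1 : ℝ) / 3) = X ^ ((1 : ℝ) / 3 - 1 / 4) * X ^ ((1 : ℝ) / 4) := by
        rw [← rpow_add h0]; congr 1; ring
      rw [e1]
      have e2 : (4 + |log (1 / c)|) * log X ≤ X ^ ((1 : ℝ) / 3 - 1 / 4) / 2 := by
        rw [pow_one] at h1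
        linarith
      calc _ ≤ (X ^ ((1 : ℝ) / 3 - 1 / 4) / 2) * X ^ ((1 : ℝ) / 4) :=
            mul_le_mul_of_nonneg_right e2 (rpow_nonneg h0.le _)
        _ = _ := by ring
    have h8 : (1 : ℝ) ≤ X ^ ((1 : ℝ) / 3) / 2 := by
      rw [rpow_zero, mul_one] at h2
      linarith
    refine hlt.le.trans ((add_le_add h7 h8).trans (le_of_eq ?_))
    ring

/-- **data**: `log₂` of the number of data is at most `X ^ (1/2)` -/
theorem ev_data (u : ℕ) (c : ℝ) : ∀ᶠ X : ℝ in atTop, ∀ J : ℕ, (J : ℝ) ≤ X ^ ((1 : ℝ) / 3) →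
      c + c * log X + J * (1 + u * (log X / log 2)) ≤ X ^ ((1 : ℝ) / 2) := by
  have h1 := ev_log (c := 4 * |c|) 1 (b := (1 : ℝ) / 2) (by norm_num)
  have h1' := ev_log (c := 4 * |c|) 0 (b := (1 : ℝ) / 2) (by norm_num)
  have h2 := ev_log (c := 4) 0 (b := (1 : ℝ) / 6) (by norm_num)
  have h3 := ev_log (c := 4 * (u / log 2)) 1 (b := (1 : ℝ) / 6) (by norm_num)
  filter_upwards [h1, h1', h2, h3, eventually_gt_atTop 1] with X h1 h1' h2 h3 h0
  intro J hJ
  have hX : 0 < X := by linarith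
  have hl : 0 ≤ log X := log_nonneg h0.le
  rw [pow_one] at h1 h3
  rw [pow_zero, mul_one] at h1' h2
  have e1 : X ^ ((1 : ℝ) / 2) = X ^ ((1 : ℝ) / 3) * X ^ ((1 : ℝ) / 6) := by
    rw [← rpow_add hX]; congr 1; norm_num
  have hp : 0 ≤ X ^ ((1 : ℝ) / 3) := rpow_nonneg hX.le _
  have e2 : (J : ℝ) * (1 + u * (log X / log 2)) ≤ X ^ ((1 : ℝ) / 2) / 2 := by
    have e3 : 1 + u * (log X / log 2) ≤ X ^ ((1 : ℝ) / 6) / 2 := by
      have : (u : ℝ) * (log X / log 2) = (u / log 2) * log X := by ring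
      rw [this]; linarith
    have e4 : 0 ≤ 1 + (u : ℝ) * (log X / log 2) := by
      have : 0 < log 2 := log_pos (by norm_num)
      positivity
    calc (J : ℝ) * (1 + u * (log X / log 2)) ≤ X ^ ((1 : ℝ) / 3) * (X ^ ((1 : ℝ) / 6) / 2) :=
          mul_le_mul hJ e3 e4 hp
      _ = X ^ ((1 : ℝ) / 2) / 2 := by rw [e1]; ring
  have e5 : c ≤ |c| := le_abs_self c
  have e6 : c * log X ≤ |c| * log X := mul_le_mul_of_nonneg_right e5 hl
  linarith

end Crest.Agent.R042.ParamBL763
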