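import Crest.Agent.R042.TLevP_333

/-!
# Row 42 / S0059, PLAN B: numbers of the type level, the sample and the container (part T)

Variable `Q → ∞` (`Q = 2 ^ e`, `card KK = Q ^ 2`, `ρ = (Q ^ 2)⁻¹`, `N = Q ^ 34`).
-/

set_option autoImplicit false

namespace Crest.Agent.R042.ParamB766

open Filter Topology

/-- powers of `Q` -/
theorem pow_big (C : ℝ) {a b : ℕ} (hab : a < b) :
    ∀ᶠ Q : ℕ in atTop, C * (Q : ℝ) ^ a ≤ (Q : ℝ) ^ b := by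
  obtain ⟨Q0, hQ0⟩ := exists_nat_ge C
  filter_upwards [eventually_ge_atTop (max Q0 1)] with Q hQ
  have h1 : (1 : ℝ) ≤ Q := by exact_mod_cast (le_max_right _ _).trans hQ
  have h2 : C ≤ Q := hQ0.trans (by exact_mod_cast (le_max_left _ _).trans hQ)
  calc C * (Q : ℝ) ^ a ≤ Q * (Q : ℝ) ^ a := mul_le_mul_of_nonneg_right h2 (by positivity)
    _ = (Q : ℝ) ^ (a + 1) := by ring
    _ ≤ (Q : ℝ) ^ b := pow_le_pow_right₀ h1 hab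

/-- constants -/
theorem const_le (C : ℝ) {b : ℕ} (hb : 0 < b) : ∀ᶠ Q : ℕ in atTop, C ≤ (Q : ℝ) ^ b := by
  have := pow_big C (a := 0) hb
  simpa using this

/-- natural constants -/
theorem nat_le (C : ℕ) {b : ℕ} (hb : 0 < b) : ∀ᶠ Q : ℕ in atTop, C ≤ Q ^ b := by
  filter_upwards [const_le (C : ℝ) hb] with Q hQ
  exact_mod_cast hQ

/-- natural form of `pow_big` -/
theorem nat_pow_big (C : ℕ) {a b : ℕ} (hab : a < b) :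
    ∀ᶠ Q : ℕ in atTop, C * Q ^ a ≤ Q ^ b := by
  filter_upwards [pow_big (C : ℝ) hab] with Q hQ
  exact_mod_cast hQ

/-- small quotients -/
theorem div_small (C : ℝ) {a b : ℕ} (hab : a < b) {ε : ℝ} (hε : 0 < ε) :
    ∀ᶠ Q : ℕ in atTop, C * (Q : ℝ) ^ a / (Q : ℝ) ^ b ≤ ε := by
  filter_upwards [pow_big (C / ε) hab, eventually_ge_atTop 1] with Q hQ h1
  have h0 : (0 : ℝ) < (Q : ℝ) ^ b := by
    have : (0 : ℝ) < Q := by exact_mod_cast h1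
    positivity
  rw [div_le_iff₀ h0]
  have h2 : C * (Q : ℝ) ^ a = ε * (C / ε * (Q : ℝ) ^ a) := by field_simp
  rw [h2]
  exact mul_le_mul_of_nonneg_left hQ hε.le

/-- `card σ + 1 ≤ 2 ^ B`, `B = b * Q ^ 8`, in factored form. -/
theorem card_sigma (c a u b : ℕ) (hb : 0 < b) : ∀ᶠ Q : ℕ in atTop, ∀ s : ℕ,
    s ≤ Q ^ 68 * (c * Q ^ a) * (c * Q ^ u) ^ Q → s + 1 ≤ 2 ^ (b * Q ^ 8) := by
  filter_upwards [nat_le (c + 68 + a + c + u + 1) (b := 1) one_pos, eventually_ge_atTop 2]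
    with Q hQ h2 s hs
  rw [pow_one] at hQ
  have hQ2 : Q ≤ 2 ^ Q := Nat.lt_two_pow_self.le
  have hc : c ≤ 2 ^ c := Nat.lt_two_pow_self.le
  have e1 : Q ^ 68 ≤ 2 ^ (Q * 68) := by
    rw [pow_mul]; exact Nat.pow_le_pow_left hQ2 _
  have e2 : c * Q ^ a ≤ 2 ^ (c + Q * a) := by
    rw [pow_add, pow_mul]; exact Nat.mul_le_mul hc (Nat.pow_le_pow_left hQ2 _)
  have e3 : (c * Q ^ u) ^ Q ≤ 2 ^ ((c + Q * u) * Q) := by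
    rw [pow_mul]
    refine Nat.pow_le_pow_left ?_ _
    rw [pow_add, pow_mul]; exact Nat.mul_le_mul hc (Nat.pow_le_pow_left hQ2 _)
  have e4 : s ≤ 2 ^ (Q * 68 + (c + Q * a) + (c + Q * u) * Q) := by
    rw [pow_add, pow_add]
    exact hs.trans (Nat.mul_le_mul (Nat.mul_le_mul e1 e2) e3)
  have e5 : s + 1 ≤ 2 ^ (Q * 68 + (c + Q * a) + (c + Q * u) * Q + 1) := by
    rw [pow_succ]
    have : 1 ≤ 2 ^ (Q * 68 + (c + Q * a) + (c + Q * u) * Q) := Nat.one_le_two_pow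
    omega
  refine e5.trans (Nat.pow_le_pow_right (by norm_num) ?_)
  have h3 : Q * 68 + (c + Q * a) + (c + Q * u) * Q + 1 ≤
      (c + 68 + a + c + u + 1) * (Q * Q) := by
    nlinarith [Nat.mul_le_mul h2 h2, Nat.zero_le c, Nat.zero_le a, Nat.zero_le u,
      Nat.mul_le_mul_left c (Nat.mul_le_mul h2 h2), Nat.mul_le_mul_left a h2,
      mul_nonneg (Nat.zero_le c) (Nat.zero_le Q)]
  calc _ ≤ (c + 68 + a + c + u + 1) * (Q * Q) := h3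
    _ ≤ Q * (Q * Q) := Nat.mul_le_mul_right _ hQ
    _ = Q ^ 3 := by ring
    _ ≤ Q ^ 8 := Nat.pow_le_pow_right (by omega) (by norm_num)
    _ ≤ b * Q ^ 8 := Nat.le_mul_of_pos_left _ hb

/-- **the numbers of Theorem T and of `card_bad_le`** (`I = ` the sample, `card I = Q ^ 34`,
`ρ = (Q ^ 2)⁻¹`, `card σ ≤ Q ^ 68 * (c * Q ^ a) * (c * Q ^ u) ^ Q`, every law with marginals
`m ≤ M / card I`, `θ ≤ Q ^ (-102)`). -/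
theorem tpart (M η : ℝ) (hM : 1 ≤ M) (hη0 : 0 < η) (hη : 6656 * M * η ≤ 1) (c a u : ℕ) :
    ∀ᶠ Q : ℕ in atTop, ∀ ρ : ℝ, ρ = ((Q : ℝ) ^ 2)⁻¹ → ∃ ℓ r : ℕ,
      1 ≤ η * ℓ * ρ ^ 4 ∧ 1024 ≤ η * (η * ℓ * ρ ^ 4) ^ 2 ∧
      12 * η * ((Q ^ 34 : ℕ) : ℝ) ≤ r ∧
      10000 * ((Q ^ 34 : ℕ) : ℝ) ^ 2 ≤ r * (η * ℓ * ρ ^ 4) ^ 2 ∧
      (∀ s : ℕ, s ≤ Q ^ 68 * (c * Q ^ a) * (c * Q ^ u) ^ Q → 16 * (s + 1) ^ ℓ ≤ 2 ^ r) ∧
      (∀ θ : ℝ, 0 ≤ θ → θ * (Q : ℝ) ^ 102 ≤ 1 → ℓ * θ * (η * ℓ * ρ ^ 4) ^ 2 ≤ 1) ∧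
      (∀ m : ℝ, m * ((Q ^ 34 : ℕ) : ℝ) ≤ M →
        4 * ℓ * m ≤ η * ρ ^ 4 ∧ 256 * (ℓ + r) * m ≤ 1) ∧ (ℓ : ℝ) ≤ ((Q ^ 34 : ℕ) : ℝ) := by
  obtain ⟨b, hb⟩ : ∃ b : ℕ, b = ⌈52 * M⌉₊ := ⟨_, rfl⟩
  have hb1 : 52 * M ≤ b := by rw [hb]; exact Nat.le_ceil _
  have hb0 : 0 < b := by
    have : (0 : ℝ) < b := by linarith
    exact_mod_cast this
  filter_upwards [card_sigma c a u b hb0, pow_big (100 * (b : ℝ) ^ 2 / η ^ 5) (a := 16) (b := 18)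
    (by norm_num), eventually_ge_atTop 1] with Q h1 h2 hQ1 ρ hρ
  have hQ : (1 : ℝ) ≤ Q := by exact_mod_cast hQ1
  have hQ0 : (0 : ℝ) < Q := by linarith
  have hρ0 : 0 < ρ := by rw [hρ]; positivity
  have hρ1 : ρ ≤ 1 := by
    rw [hρ]; exact inv_le_one_of_one_le₀ (one_le_pow₀ hQ)
  have hρ4 : ρ ^ 4 * (Q : ℝ) ^ 8 = 1 := by
    rw [hρ]; field_simp
  have hη5 : 0 < η ^ 5 := by positivity
  obtain ⟨ℓ, r, p1, p2, p3, p4, p5, p6, p7, p8, p9⟩ := TLev333.params M η ρ (b * Q ^ 8) (Q ^ 34)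
    hM hη0 hη hρ0 hρ1 (Nat.mul_pos hb0 (Nat.pow_pos (by omega)))
    (by
      push_cast
      have : (b : ℝ) * (Q : ℝ) ^ 8 * ρ ^ 4 = b := by
        rw [mul_assoc, mul_comm ((Q : ℝ) ^ 8), hρ4, mul_one]
      rw [this]; exact hb1)
    (by
      push_cast
      have e1 : (Q : ℝ) ^ 34 * (η ^ 5 * ρ ^ 8) = η ^ 5 * (Q : ℝ) ^ 18 := by
        have : (Q : ℝ) ^ 34 * ρ ^ 8 = (Q : ℝ) ^ 18 := by
          calc (Q : ℝ) ^ 34 * ρ ^ 8 = (Q : ℝ) ^ 18 * (ρ ^ 4 * (Q : ℝ) ^ 8) ^ 2 := by ring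
            _ = _ := by rw [hρ4]; ring
        calc (Q : ℝ) ^ 34 * (η ^ 5 * ρ ^ 8) = η ^ 5 * ((Q : ℝ) ^ 34 * ρ ^ 8) := by ring
          _ = _ := by rw [this]
      rw [e1]
      have e2 : 100 * ((b : ℝ) * (Q : ℝ) ^ 8) ^ 2 =
          η ^ 5 * (100 * (b : ℝ) ^ 2 / η ^ 5 * (Q : ℝ) ^ 16) := by
        field_simp
      rw [e2]
      exact mul_le_mul_of_nonneg_left h2 hη5.le)
  have hN0 : (0 : ℝ) < ((Q ^ 34 : ℕ) : ℝ) := by push_cast; positivity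
  refine ⟨ℓ, r, p1, p2, p3, p4, ?_, ?_, ?_, by exact_mod_cast p6⟩
  · intro s hs
    exact (Nat.mul_le_mul_left 16 (Nat.pow_le_pow_left (h1 s hs) ℓ)).trans p5
  · intro θ hθ0 hθ
    have hE0 : 0 ≤ η * ℓ * ρ ^ 4 := by positivity
    have hl : (ℓ : ℝ) ≤ (Q : ℝ) ^ 34 := by
      have : (ℓ : ℝ) ≤ ((Q ^ 34 : ℕ) : ℝ) := by exact_mod_cast p6
      simpa using this
    have hE : η * ℓ * ρ ^ 4 ≤ (Q : ℝ) ^ 34 := by
      have := p7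
      push_cast at this
      exact this
    calc ℓ * θ * (η * ℓ * ρ ^ 4) ^ 2 ≤ (Q : ℝ) ^ 34 * θ * ((Q : ℝ) ^ 34) ^ 2 := by gcongr
      _ = θ * (Q : ℝ) ^ 102 := by ring
      _ ≤ 1 := hθ
  · intro m hm
    have hm' : m ≤ M / ((Q ^ 34 : ℕ) : ℝ) := by rw [le_div_iff₀ hN0]; exact hm
    constructor
    · calc 4 * (ℓ : ℝ) * m ≤ 4 * ℓ * (M / ((Q ^ 34 : ℕ) : ℝ)) :=
            mul_le_mul_of_nonneg_left hm' (by positivity)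
        _ ≤ _ := p8
    · calc 256 * ((ℓ : ℝ) + r) * m ≤ 256 * (ℓ + r) * (M / ((Q ^ 34 : ℕ) : ℝ)) :=
            mul_le_mul_of_nonneg_left hm' (by positivity)
        _ ≤ 1 := p9

/-- `m`-genericity (592 / 44, `LI m`): `N ^ m * (|KK| ^ (m-1) / |KK| ^ (2 d)) ≤ ε`. -/
theorem generic (m d : ℕ) (hm : 1 ≤ m) (hd : 9 * m ≤ d) {ε : ℝ} (hε : 0 < ε) :
    ∀ᶠ Q : ℕ in atTop, ∀ X : ℝ, X = (Q : ℝ) ^ 2 →
      ((Q ^ 34 : ℕ) : ℝ) ^ m * (X ^ (m - 1) / X ^ (2 * d)) ≤ ε := by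
  filter_upwards [div_small 1 (a := 34 * m + 2 * (m - 1)) (b := 4 * d) (by omega) hε]
    with Q h1 X hX
  rw [one_mul] at h1
  refine le_trans (le_of_eq ?_) h1
  rw [hX]
  push_cast
  rw [← pow_mul, ← pow_mul, ← pow_mul, pow_add, mul_div_assoc]
  congr 3
  ring

/-- `C ≤ ρ ^ 4 * N` (831 / 592: events of the sample for `Γ`). -/
theorem sample_num (C : ℝ) : ∀ᶠ Q : ℕ in atTop, ∀ ρ : ℝ, ρ = ((Q : ℝ) ^ 2)⁻¹ →
    C ≤ ρ ^ 4 * ((Q ^ 34 : ℕ) : ℝ) ∧ C ≤ ρ * ((Q ^ 34 : ℕ) : ℝ) ∧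
      C ≤ ρ ^ 2 * ((Q ^ 34 : ℕ) : ℝ) := by
  filter_upwards [const_le C (b := 26) (by norm_num), eventually_ge_atTop 1] with Q h1 hQ ρ hρ
  have hQ' : (1 : ℝ) ≤ Q := by exact_mod_cast hQ
  have hQ0 : (0 : ℝ) < Q := by linarith
  push_cast
  have e4 : ρ ^ 4 * (Q : ℝ) ^ 34 = (Q : ℝ) ^ 26 := by rw [hρ]; field_simp
  have e1 : ρ * (Q : ℝ) ^ 34 = (Q : ℝ) ^ 32 := by rw [hρ]; field_simp
  have e2 : ρ ^ 2 * (Q : ℝ) ^ 34 = (Q : ℝ) ^ 30 := by rw [hρ]; field_simp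
  rw [e4, e1, e2]
  exact ⟨h1, h1.trans (pow_le_pow_right₀ hQ' (by norm_num)),
    h1.trans (pow_le_pow_right₀ hQ' (by norm_num))⟩

/-- `ρ ≤ ρ₀`. -/
theorem rho_small {ρ0 : ℝ} (h : 0 < ρ0) : ∀ᶠ Q : ℕ in atTop, ((Q : ℝ) ^ 2)⁻¹ ≤ ρ0 := by
  filter_upwards [div_small 1 (a := 0) (b := 2) (by norm_num) h] with Q h1
  simpa using h1

/-- the densities of the one-end dead sets: `β + C * Q / |KK| + C / |KK| ≤ β + ε`. -/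
theorem dead_num (C : ℝ) {ε : ℝ} (hε : 0 < ε) : ∀ᶠ Q : ℕ in atTop, ∀ X : ℝ, X = (Q : ℝ) ^ 2 →
    (Q : ℝ) * (C / X) ≤ ε ∧ C / X ≤ ε ∧ C / Q ≤ ε := by
  filter_upwards [div_small C (a := 1) (b := 2) (by norm_num) hε,
    div_small C (a := 0) (b := 2) (by norm_num) hε,
    div_small C (a := 0) (b := 1) (by norm_num) hε] with Q h1 h2 h3 X hX
  rw [hX]
  refine ⟨?_, by simpa using h2, by simpa using h3⟩
  calc (Q : ℝ) * (C / (Q : ℝ) ^ 2) = C * (Q : ℝ) ^ 1 / (Q : ℝ) ^ 2 := by ring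
    _ ≤ ε := h1

/-- the two-end dead sets: `θ := Q * (C * X ^ b / X ^ (2 d))`, `54 + b ≤ 2 d`. -/
theorem dead2_num (C : ℝ) (b d : ℕ) (hd : 52 + b < 2 * d) : ∀ᶠ Q : ℕ in atTop,
    ∀ X : ℝ, X = (Q : ℝ) ^ 2 →
      (Q : ℝ) * (C * X ^ b / X ^ (2 * d)) * (Q : ℝ) ^ 102 ≤ 1 := by
  filter_upwards [div_small C (a := 103 + 2 * b) (b := 4 * d) (by omega) one_pos] with Q h1 X hX
  refine le_trans (le_of_eq ?_) h1
  rw [hX, ← pow_mul, ← pow_mul]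
  have e : (2 : ℕ) * (2 * d) = 4 * d := by ring
  rw [e]
  ring

/-- class / container sizes: `n = Q ^ s`. -/
theorem sizes (K n0 s : ℕ) (hs : 34 < s) : ∀ᶠ Q : ℕ in atTop,
    64 * K ≤ Q ^ 34 ∧ 16 * K * Q ^ 34 ≤ Q ^ s ∧ n0 ≤ Q ^ s ∧ 2 ≤ Q ^ 34 := by
  filter_upwards [nat_le (64 * K) (b := 34) (by norm_num), nat_pow_big (16 * K) hs,
    nat_le n0 (b := s) (by omega), nat_le 2 (b := 34) (by norm_num)] with Q h1 h2 h3 h4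
  exact ⟨h1, h2, h3, h4⟩

/-- `n ^ (-99/100) ≤ κ * Q ^ (-m)` for `n = Q ^ s`, `100 * m < 99 * s`. -/
theorem kappa_num {κ : ℝ} (hκ : 0 < κ) (m s : ℕ) (h : 100 * m < 99 * s) :
    ∀ᶠ Q : ℕ in atTop, ((Q ^ s : ℕ) : ℝ) ^ (-(99 : ℝ) / 100) ≤ κ * ((Q : ℝ) ^ m)⁻¹ := by
  have hε : 0 < κ ^ 100 := pow_pos hκ 100
  filter_upwards [div_small 1 (a := 100 * m) (b := 99 * s) h hε, eventually_ge_atTop 1] with Q h1 hQ
  have hQ' : (1 : ℝ) ≤ Q := by exact_mod_cast hQ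
  have hQ0 : (0 : ℝ) < Q := by linarith
  have hn0 : (0 : ℝ) < ((Q ^ s : ℕ) : ℝ) := by push_cast; positivity
  have hl : 0 ≤ ((Q ^ s : ℕ) : ℝ) ^ (-(99 : ℝ) / 100) := (Real.rpow_pos_of_pos hn0 _).le
  have hr : 0 ≤ κ * ((Q : ℝ) ^ m)⁻¹ := by positivity
  rw [← pow_le_pow_iff_left₀ hl hr (n := 100) (by norm_num)]
  have e1 : (((Q ^ s : ℕ) : ℝ) ^ (-(99 : ℝ) / 100)) ^ 100 = ((Q : ℝ) ^ (99 * s))⁻¹ := by
    rw [← Real.rpow_natCast, ← Real.rpow_mul hn0.le]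
    have e2 : (-(99 : ℝ) / 100) * ((100 : ℕ) : ℝ) = -((99 : ℕ) : ℝ) := by norm_num
    rw [e2, Real.rpow_neg hn0.le, Real.rpow_natCast]
    push_cast
    rw [← pow_mul, mul_comm s 99]
  have e3 : (κ * ((Q : ℝ) ^ m)⁻¹) ^ 100 = κ ^ 100 * ((Q : ℝ) ^ (100 * m))⁻¹ := by
    rw [mul_pow, inv_pow, ← pow_mul, mul_comm m 100]
  rw [e1, e3]
  rw [one_mul, div_le_iff₀ (by positivity)] at h1
  rw [inv_le_iff_one_le_mul₀ (by positivity)]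
  have h4 : (0 : ℝ) < (Q : ℝ) ^ (100 * m) := by positivity
  calc (1 : ℝ) = (Q : ℝ) ^ (100 * m) * ((Q : ℝ) ^ (100 * m))⁻¹ := (mul_inv_cancel₀ h4.ne').symm
    _ ≤ (κ ^ 100 * (Q : ℝ) ^ (99 * s)) * ((Q : ℝ) ^ (100 * m))⁻¹ :=
        mul_le_mul_of_nonneg_right h1 (by positivity)
    _ = _ := by ring

/-- transfer from `X → ∞` (763's part L) to `X = Q ^ 2`. -/
theorem transfer {p : ℝ → Prop} (h : ∀ᶠ X : ℝ in atTop, p X) :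
    ∀ᶠ Q : ℕ in atTop, p ((Q : ℝ) ^ 2) := by
  have h1 : Tendsto (fun Q : ℕ => ((Q : ℝ)) ^ 2) atTop atTop :=
    (tendsto_pow_atTop (by norm_num)).comp tendsto_natCast_atTop_atTop
  exact h1.eventually h

/-- `J ≤ X ^ (1/3)` gives `J ≤ Q` and bounds the number of data. -/
theorem J_le {Q J : ℕ} (hQ : 1 ≤ Q) (hJ : (J : ℝ) ≤ ((Q : ℝ) ^ 2) ^ ((1 : ℝ) / 3)) : J ≤ Q := by
  have h1 : (1 : ℝ) ≤ Q := by exact_mod_cast hQ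
  have h2 : ((Q : ℝ) ^ 2) ^ ((1 : ℝ) / 3) ≤ Q := by
    rw [← Real.rpow_natCast, ← Real.rpow_mul (by positivity)]
    calc (Q : ℝ) ^ (((2 : ℕ) : ℝ) * (1 / 3)) ≤ (Q : ℝ) ^ (1 : ℝ) :=
          Real.rpow_le_rpow_of_exponent_le h1 (by norm_num)
      _ = Q := Real.rpow_one _
  exact_mod_cast hJ.trans h2

/-- number of data lists. -/
theorem data_le {Q J v c u : ℕ} (hJ : J ≤ Q) (hv : v ≤ c * Q ^ u) (h1 : 1 ≤ c * Q ^ u) :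
    v ^ J ≤ (c * Q ^ u) ^ Q :=
  (Nat.pow_le_pow_left hv J).trans (Nat.pow_le_pow_right h1 hJ)

/-- any eventual property holds for some `Q = (2 ^ s) ^ t`, `t ≥ t₀`. -/
theorem exists_pow (s t0 : ℕ) (hs : 1 ≤ s) {p : ℕ → Prop} (h : ∀ᶠ Q : ℕ in atTop, p Q) :
    ∃ t, t0 ≤ t ∧ 1 ≤ t ∧ p (2 ^ (s * t)) := by
  have h1 : Tendsto (fun t : ℕ => 2 ^ (s * t)) atTop atTop := by
    refine tendsto_atTop_mono (fun t => ?_) tendsto_id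
    calc id t = t := rfl
      _ ≤ s * t := Nat.le_mul_of_pos_left _ hs
      _ ≤ 2 ^ (s * t) := Nat.lt_two_pow_self.le
  obtain ⟨t, ht1, ht2, ht3⟩ := ((h1.eventually h).and
    ((eventually_ge_atTop t0).and (eventually_ge_atTop 1))).exists
  exact ⟨t, ht2, ht3, ht1⟩

end Crest.Agent.R042.ParamB766
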