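import Crest.Agent.R042.ParamB_766

/-! Row 42 / S0059, PLAN B: numbers of the dead sets (`TData`): choice of `L` and the sum of the
one-end densities, in 592's / 763's letters `card KK = q ^ (2 j)`, `2 ^ e = q ^ j`. -/

set_option autoImplicit false

namespace Crest.Agent.R042.ParamB766

open Filter Topology

/-- choice of `L` for the one-end richness (763: `card_not_rich_le`). -/
theorem exists_L (a L0 : ℕ) {ε : ℝ} (hε : 0 < ε) :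
    ∃ (L : ℕ) (t : ℝ), 0 < L ∧ L0 ≤ L ∧ (a : ℝ) * (Real.log a + t) ≤ L ∧ Real.exp (-t) ≤ ε := by
  refine ⟨max (max L0 1) ⌈(a : ℝ) * (Real.log a + -Real.log ε)⌉₊, -Real.log ε, ?_, ?_, ?_, ?_⟩
  · exact lt_of_lt_of_le one_pos ((le_max_right _ _).trans (le_max_left _ _))
  · exact (le_max_left _ _).trans (le_max_left _ _)
  · refine (Nat.le_ceil _).trans ?_
    exact_mod_cast le_max_right _ _
  · rw [neg_neg, Real.exp_log hε]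

/-- form with the power: `2 a (1 - 1/a) ^ L ≤ ε`. -/
theorem exists_L' (a L0 : ℕ) (ha : 1 ≤ a) {ε : ℝ} (hε : 0 < ε) :
    ∃ L : ℕ, 0 < L ∧ L0 ≤ L ∧ 2 * (a : ℝ) * (1 - 1 / (a : ℝ)) ^ L ≤ ε := by
  have ha' : (1 : ℝ) ≤ a := by exact_mod_cast ha
  have h0 : (0 : ℝ) ≤ 1 - 1 / (a : ℝ) := by
    have : 1 / (a : ℝ) ≤ 1 := by rw [div_le_one (by linarith)]; exact ha'
    linarith
  have h1 : 1 - 1 / (a : ℝ) < 1 := by
    have : 0 < 1 / (a : ℝ) := by positivity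
    linarith
  have ht : Tendsto (fun L : ℕ => 2 * (a : ℝ) * (1 - 1 / (a : ℝ)) ^ L) atTop (𝓝 0) := by
    simpa using (tendsto_pow_atTop_nhds_zero_of_lt_one h0 h1).const_mul (2 * (a : ℝ))
  obtain ⟨L, hL1, hL2⟩ := ((ht.eventually (gt_mem_nhds hε)).and
    (eventually_ge_atTop (max L0 1))).exists
  exact ⟨L, lt_of_lt_of_le one_pos ((le_max_right _ _).trans hL2), (le_max_left _ _).trans hL2,
    hL1.le⟩

theorem tendsto_qpow (q : ℕ) (hq : 2 ≤ q) : Tendsto (fun j : ℕ => q ^ j) atTop atTop :=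
  tendsto_pow_atTop_atTop_of_one_lt (by omega)

/-- transfer to `Q = q ^ j`. -/
theorem transfer_j (q : ℕ) (hq : 2 ≤ q) {p : ℕ → Prop} (h : ∀ᶠ Q : ℕ in atTop, p Q) :
    ∀ᶠ j : ℕ in atTop, p (q ^ j) := (tendsto_qpow q hq).eventually h

/-- **sum of the one-end densities**: `β' + C J / |KK| + C' / |KK| + C'' / Q ≤ η ^ 2` as soon as
`β' ≤ η ^ 2 / 2` (`β'` = isolation constant part + richness). -/
theorem dead_sum (q : ℕ) (hq : 2 ≤ q) {η β' : ℝ} (hη : 0 < η) (hβ : β' ≤ η ^ 2 / 2)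
    (C C' C'' : ℝ) : ∀ᶠ j : ℕ in atTop,
      β' + ((q ^ j : ℕ) : ℝ) * (C / (q : ℝ) ^ (2 * j)) + C' / (q : ℝ) ^ (2 * j) +
        C'' / ((q ^ j : ℕ) : ℝ) ≤ η ^ 2 := by
  have hη2 : 0 < η ^ 2 / 6 := by positivity
  filter_upwards [transfer_j q hq (dead_num C hη2), transfer_j q hq (dead_num C' hη2),
    transfer_j q hq (dead_num C'' hη2)] with j h1 h2 h3
  have e : (q : ℝ) ^ (2 * j) = ((q ^ j : ℕ) : ℝ) ^ 2 := by
    push_cast; rw [← pow_mul]; congr 1; ring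
  have a1 := (h1 _ e).1
  have a2 := (h2 _ e).2.1
  have a3 := (h3 _ e).2.2
  linarith

/-- each term separately, with a factor `J ≤ q ^ j`. -/
theorem dead_terms (q : ℕ) (hq : 2 ≤ q) (C : ℝ) (hC : 0 ≤ C) {ε : ℝ} (hε : 0 < ε) :
    ∀ᶠ j : ℕ in atTop, ∀ J : ℕ, J ≤ q ^ j →
      (J : ℝ) * (C / (q : ℝ) ^ (2 * j)) ≤ ε ∧ (J : ℝ) * C / (q : ℝ) ^ (2 * j) ≤ ε ∧
        C / (q : ℝ) ^ (2 * j) ≤ ε ∧ C / (q : ℝ) ^ j ≤ ε := by
  filter_upwards [transfer_j q hq (dead_num C hε)] with j h1 J hJ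
  have e : (q : ℝ) ^ (2 * j) = ((q ^ j : ℕ) : ℝ) ^ 2 := by
    push_cast; rw [← pow_mul]; congr 1; ring
  obtain ⟨a1, a2, a3⟩ := h1 _ e
  have hJ' : (J : ℝ) ≤ ((q ^ j : ℕ) : ℝ) := by exact_mod_cast hJ
  have hq0 : (0 : ℝ) < q := by exact_mod_cast (by omega : 0 < q)
  have h4 : (J : ℝ) * (C / (q : ℝ) ^ (2 * j)) ≤ ε :=
    (mul_le_mul_of_nonneg_right hJ' (by positivity)).trans a1
  refine ⟨h4, ?_, a2, ?_⟩
  · rw [mul_div_assoc]; exact h4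
  · push_cast at a3
    exact a3

/-- container: `n := q ^ (j s)`, cross kind `κ ≤ d * M`, `M = 225/256 (ρ^4/64) c₀`, in the letters
`X = q ^ (2 j)`: `(X ^ s) ^ (-99/100) ≤ κ * (X ^ m)⁻¹`. -/
theorem kappa_j (q : ℕ) (hq : 2 ≤ q) {κ : ℝ} (hκ : 0 < κ) (m s : ℕ) (h : 100 * m < 99 * s) :
    ∀ᶠ j : ℕ in atTop, (((q ^ (2 * j)) ^ s : ℕ) : ℝ) ^ (-(99 : ℝ) / 100) ≤
      κ * ((((q ^ (2 * j) : ℕ) : ℝ)) ^ m)⁻¹ := by
  filter_upwards [transfer_j q hq (kappa_num hκ (2 * m) (2 * s) (by omega))] with j hj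
  have e1 : (q ^ (2 * j)) ^ s = (q ^ j) ^ (2 * s) := by
    rw [← pow_mul, ← pow_mul]; congr 1; ring
  have e2 : (((q ^ (2 * j) : ℕ) : ℝ)) ^ m = ((q ^ j : ℕ) : ℝ) ^ (2 * m) := by
    push_cast; rw [← pow_mul, ← pow_mul]; congr 1; ring
  rw [e1, e2]
  exact hj

/-- container sizes in the letters `X = q ^ (2 j)`, `N = X ^ 17`, `n = X ^ s`. -/
theorem sizes_j (q : ℕ) (hq : 2 ≤ q) (K n0 s : ℕ) (hs : 17 < s) : ∀ᶠ j : ℕ in atTop,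
    64 * K ≤ (q ^ (2 * j)) ^ 17 ∧ 16 * K * (q ^ (2 * j)) ^ 17 ≤ (q ^ (2 * j)) ^ s ∧
      n0 ≤ (q ^ (2 * j)) ^ s ∧ 2 ≤ (q ^ (2 * j)) ^ 17 := by
  filter_upwards [transfer_j q hq (sizes K n0 (2 * s) (by omega))] with j hj
  have e1 : ∀ m : ℕ, (q ^ (2 * j)) ^ m = (q ^ j) ^ (2 * m) := by
    intro m
    rw [← pow_mul, ← pow_mul]; congr 1; ring
  rw [e1 17, e1 s]
  exact hj

/-- budget: `16 * (n / δ * D) * F ≤ X ^ m1` for `n = X ^ s`, `D ≤ X ^ u`, `F ≤ X ^ g`,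
`s + u + g < m1`. -/
theorem budget_j (q : ℕ) (hq : 2 ≤ q) {δ : ℝ} (hδ : 0 < δ) (s u g m1 : ℕ)
    (h : s + u + g < m1) : ∀ᶠ j : ℕ in atTop, ∀ D F : ℝ, 0 ≤ D → 0 ≤ F →
      D ≤ (((q ^ (2 * j) : ℕ) : ℝ)) ^ u → F ≤ (((q ^ (2 * j) : ℕ) : ℝ)) ^ g →
      16 * ((((q ^ (2 * j)) ^ s : ℕ) : ℝ) / δ * D) * F ≤ (((q ^ (2 * j) : ℕ) : ℝ)) ^ m1 := by
  filter_upwards [transfer_j q hq (pow_big (16 / δ) (a := 2 * (s + u + g)) (b := 2 * m1)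
    (by omega))] with j hj D F hD hF h1 h2
  have e2 : ∀ m : ℕ, (((q ^ (2 * j) : ℕ) : ℝ)) ^ m = ((q ^ j : ℕ) : ℝ) ^ (2 * m) := by
    intro m
    push_cast; rw [← pow_mul, ← pow_mul]; congr 1; ring
  have hX : (0 : ℝ) ≤ (((q ^ (2 * j) : ℕ) : ℝ)) := by positivity
  calc 16 * ((((q ^ (2 * j)) ^ s : ℕ) : ℝ) / δ * D) * F
      ≤ 16 * ((((q ^ (2 * j)) ^ s : ℕ) : ℝ) / δ * (((q ^ (2 * j) : ℕ) : ℝ)) ^ u) *
          (((q ^ (2 * j) : ℕ) : ℝ)) ^ g := by gcongr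
    _ = 16 / δ * (((q ^ (2 * j) : ℕ) : ℝ)) ^ (s + u + g) := by
        push_cast; rw [pow_add, pow_add]; ring
    _ = 16 / δ * ((q ^ j : ℕ) : ℝ) ^ (2 * (s + u + g)) := by rw [e2]
    _ ≤ ((q ^ j : ℕ) : ℝ) ^ (2 * m1) := hj
    _ = _ := (e2 m1).symm

end Crest.Agent.R042.ParamB766
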