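import Crest.Agent.R042.ParamB_766
import Crest.Agent.R042.ExtF_377

/-! Row 42 / S0059, PLAN B: the field `KK` with `card KK = Q ^ 2`, `Q = 2 ^ e = (card k0) ^ t`, and any
eventual property of `Q`. -/

set_option autoImplicit false

namespace Crest.Agent.R042.ParamB766

open Filter Topology

theorem exists_field (k0 : Type) [Field k0] [Fintype k0] [CharP k0 2] {p : ℕ → Prop}
    (h : ∀ᶠ Q : ℕ in atTop, p Q) (t0 : ℕ) :
    ∃ (e t : ℕ) (KK : Type) (_ : Field KK) (_ : Fintype KK) (_ : DecidableEq KK)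
      (_ : Algebra k0 KK) (_ : FiniteDimensional k0 KK), CharP KK 2 ∧ t0 ≤ t ∧ 1 ≤ t ∧ 1 ≤ e ∧
        Module.finrank k0 KK = 2 * t ∧ Fintype.card KK = (2 ^ e) ^ 2 ∧
        2 ^ e = Fintype.card k0 ^ t ∧ p (2 ^ e) := by
  obtain ⟨s, _, hs⟩ := FiniteField.card k0 2
  obtain ⟨t, ht0, ht1, hp⟩ := exists_pow s t0 s.2 h
  obtain ⟨KK, i1, i2, i3, i4, i5, hc, hf, hcard⟩ := ExtF377.exists_ext k0 (2 * t) (by omega)
  refine ⟨s * t, t, KK, i1, i2, i3, i4, i5, hc, ht0, ht1, ?_, hf, ?_, ?_, hp⟩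
  · exact Nat.mul_pos s.2 ht1
  · rw [hcard, hs, ← pow_mul, ← pow_mul]
    congr 1; ring
  · rw [hs, ← pow_mul]

end Crest.Agent.R042.ParamB766
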