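import Crest.Agent.R042.Growth_377

/-! Row 42 / S0059: the final choice of parameters (helper775, r42_doc 11a, 11b).  Everything is a
function of `k = kp`; all inequalities hold for large `k`. -/

set_option autoImplicit false

namespace Crest.Agent.R042.Param377

open Filter Topology Real Crest.Agent.R042.Growth377

/-- exponent `e`, `Q = q ^ e` (odd). -/
noncomputable def ee (q n c k : ℕ) : ℕ := 2 * ⌈(c : ℝ) * k * log (n + 1) / log q⌉₊ + 1
/-- `Q` -/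
noncomputable def Qc (q n c k : ℕ) : ℕ := q ^ ee q n c k
/-- `|KK| = Q ^ kp` -/
noncomputable def Kc (q n c k : ℕ) : ℕ := Qc q n c k ^ k
/-- number of coordinates `L` (`a = |K|`). -/
noncomputable def LL (q n c a k : ℕ) : ℕ := ⌈(4000 : ℝ) * a * log (Kc q n c k)⌉₊
/-- window dimension `A = L e kp n^kp`. -/
noncomputable def AA (q n c a k : ℕ) : ℕ := LL q n c a k * ee q n c k * k * n ^ k
/-- number of types. -/
noncomputable def NT (q n c k : ℕ) : ℕ := Kc q n c k ^ 17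
/-- number of sampled vertices. -/
noncomputable def ns (q n c a k : ℕ) : ℕ :=
  ⌈((q : ℝ) ^ AA q n c a k * Kc q n c k) ^ (41 / 10 : ℝ)⌉₊
/-- `r` -/
noncomputable def rr (q n c k : ℕ) (η : ℝ) : ℕ := ⌈12 * η * NT q n c k⌉₊
/-- `ℓ` -/
noncomputable def ll (q n c k : ℕ) (η : ℝ) : ℕ := ⌈200 * √(NT q n c k : ℝ) / η ^ 2 * (Kc q n c k : ℝ) ^ 4⌉₊

section basic

variable {q n c a : ℕ}

theorem ee_odd (q n c k : ℕ) : Odd (ee q n c k) := ⟨_, rfl⟩

theorem ee_pos (q n c k : ℕ) : 0 < ee q n c k := Nat.succ_pos _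

theorem logq_pos (hq : 2 ≤ q) : 0 < log (q : ℝ) := by
  apply Real.log_pos
  exact_mod_cast (by omega : 1 < q)

theorem Qc_pos (hq : 2 ≤ q) (k : ℕ) : 0 < Qc q n c k := by
  unfold Qc; positivity

theorem Kc_pos (hq : 2 ≤ q) (k : ℕ) : 0 < Kc q n c k := by
  unfold Kc; exact pow_pos (Qc_pos hq k) k

/-- `(n+1)^(2ck) ≤ Q`. -/
theorem Qc_ge (hq : 2 ≤ q) (k : ℕ) : (n + 1) ^ (2 * c * k) ≤ Qc q n c k := by
  have hl := logq_pos hq
  have h1 : (c : ℝ) * k * log (n + 1) / log q ≤ ⌈(c : ℝ) * k * log (n + 1) / log q⌉₊ :=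
    Nat.le_ceil _
  rw [div_le_iff₀ hl] at h1
  have h2 : (2 * c * k : ℝ) * log (n + 1) ≤ (ee q n c k : ℝ) * log q := by
    unfold ee
    push_cast
    nlinarith
  have h3 : ((n : ℝ) + 1) ^ (2 * c * k) ≤ (q : ℝ) ^ ee q n c k := by
    have hn : (0 : ℝ) < (n : ℝ) + 1 := by positivity
    have hq' : (0 : ℝ) < q := by exact_mod_cast (by omega : 0 < q)
    rw [← Real.exp_log (pow_pos hn _), ← Real.exp_log (pow_pos hq' _), Real.exp_le_exp,
      Real.log_pow, Real.log_pow]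
    push_cast
    exact h2
  unfold Qc
  exact_mod_cast h3

/-- `(n+1)^(2ck²) ≤ |KK|`. -/
theorem Kc_ge (hq : 2 ≤ q) (k : ℕ) : (n + 1) ^ (2 * c * k * k) ≤ Kc q n c k := by
  unfold Kc
  rw [pow_mul]
  exact Nat.pow_le_pow_left (Qc_ge hq k) k

/-- `|KK|` grows faster than every `C k^j b^k`. -/
theorem Kc_big (hq : 2 ≤ q) (hn : 1 ≤ n) (hc : 1 ≤ c) (C : ℝ) (j : ℕ) (b : ℝ) {ε : ℝ}
    (hε : 0 < ε) : ∀ᶠ k : ℕ in atTop, C * (k : ℝ) ^ j * b ^ k ≤ ε * Kc q n c k := by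
  have h1 : (1 : ℝ) < (n : ℝ) + 1 := by
    have : (1 : ℝ) ≤ n := by exact_mod_cast hn
    linarith
  filter_upwards [poly_pow_le_sq C j (2 * c) (by omega) b h1 hε] with k hk
  refine hk.trans (mul_le_mul_of_nonneg_left ?_ hε.le)
  have := Kc_ge (n := n) (c := c) hq k
  exact_mod_cast this

theorem Kc_large (hq : 2 ≤ q) (hn : 1 ≤ n) (hc : 1 ≤ c) (C : ℝ) :
    ∀ᶠ k : ℕ in atTop, C ≤ Kc q n c k := by
  filter_upwards [Kc_big hq hn hc C 0 1 one_pos] with k hk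
  simpa using hk

theorem sqrt_large (hq : 2 ≤ q) (hn : 1 ≤ n) (hc : 1 ≤ c) (C : ℝ) :
    ∀ᶠ k : ℕ in atTop, C ≤ √(Kc q n c k : ℝ) := by
  filter_upwards [Kc_large hq hn hc (C ^ 2)] with k hk
  exact Real.le_sqrt_of_sq_le hk

/-- `e ≤ C k`. -/
theorem ee_le (hq : 2 ≤ q) : ∃ C : ℝ, 0 < C ∧ ∀ k : ℕ, 1 ≤ k → (ee q n c k : ℝ) ≤ C * k := by
  have hl := logq_pos hq
  have hn : 0 ≤ log ((n : ℝ) + 1) := Real.log_nonneg (by
    have : (0 : ℝ) ≤ n := by positivity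
    linarith)
  refine ⟨2 * (c * log (n + 1) / log q) + 3, by positivity, ?_⟩
  intro k hk
  have hk' : (1 : ℝ) ≤ k := by exact_mod_cast hk
  have h0 : 0 ≤ (c : ℝ) * k * log (n + 1) / log q := by positivity
  have h1 := Nat.ceil_lt_add_one h0
  have h2 : (c : ℝ) * k * log (n + 1) / log q = c * log (n + 1) / log q * k := by ring
  unfold ee
  push_cast
  have h3 : 0 ≤ (c : ℝ) * log (n + 1) / log q := by positivity
  nlinarith

theorem log_Kc (hq : 2 ≤ q) (k : ℕ) :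
    log (Kc q n c k : ℝ) = ee q n c k * k * log q := by
  unfold Kc Qc
  push_cast
  rw [Real.log_pow, Real.log_pow]
  ring

/-- `log |KK| ≤ C k²`. -/
theorem log_Kc_le (hq : 2 ≤ q) : ∃ C : ℝ, 0 < C ∧ ∀ k : ℕ, 1 ≤ k →
    log (Kc q n c k : ℝ) ≤ C * (k : ℝ) ^ 2 := by
  obtain ⟨C, hC, h⟩ := ee_le (n := n) (c := c) hq
  have hl := logq_pos hq
  refine ⟨C * log q, by positivity, ?_⟩
  intro k hk
  rw [log_Kc hq]
  have h1 := h k hk
  have hk' : (0 : ℝ) ≤ k := by positivity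
  calc (ee q n c k : ℝ) * k * log q ≤ (C * k) * k * log q := by gcongr
    _ = C * log q * (k : ℝ) ^ 2 := by ring

theorem log_Kc_pos (hq : 2 ≤ q) {k : ℕ} (hk : 1 ≤ k) : 0 < log (Kc q n c k : ℝ) := by
  rw [log_Kc hq]
  have h1 := logq_pos hq
  have h2 : (0 : ℝ) < ee q n c k := by exact_mod_cast ee_pos q n c k
  have h3 : (0 : ℝ) < k := by exact_mod_cast hk
  positivity

theorem LL_ge (k : ℕ) : (4000 : ℝ) * a * log (Kc q n c k) ≤ LL q n c a k := Nat.le_ceil _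

theorem LL_pos (hq : 2 ≤ q) (ha : 1 ≤ a) {k : ℕ} (hk : 1 ≤ k) : 0 < LL q n c a k := by
  unfold LL
  rw [Nat.ceil_pos]
  have h1 := log_Kc_pos (n := n) (c := c) hq hk
  have h2 : (0 : ℝ) < a := by exact_mod_cast ha
  positivity

/-- `L ≤ C k²`. -/
theorem LL_le (hq : 2 ≤ q) : ∃ C : ℝ, 0 < C ∧ ∀ k : ℕ, 1 ≤ k →
    (LL q n c a k : ℝ) ≤ C * (k : ℝ) ^ 2 := by
  obtain ⟨C, hC, h⟩ := log_Kc_le (n := n) (c := c) hq
  refine ⟨4000 * a * C + 1, by positivity, ?_⟩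
  intro k hk
  have h0 : 0 ≤ (4000 : ℝ) * a * log (Kc q n c k) := by
    have := (log_Kc_pos (n := n) (c := c) hq hk).le
    positivity
  have h1 := (Nat.ceil_lt_add_one h0).le
  have h2 := h k hk
  have hk' : (1 : ℝ) ≤ (k : ℝ) ^ 2 := one_le_pow₀ (by exact_mod_cast hk)
  unfold LL
  calc _ ≤ (4000 : ℝ) * a * log (Kc q n c k) + 1 := h1
    _ ≤ 4000 * a * (C * (k : ℝ) ^ 2) + 1 * (k : ℝ) ^ 2 := by
        have : (4000 : ℝ) * a * log (Kc q n c k) ≤ 4000 * a * (C * (k : ℝ) ^ 2) :=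
          mul_le_mul_of_nonneg_left h2 (by positivity)
        linarith
    _ = _ := by ring

theorem AA_ge (hq : 2 ≤ q) (ha : 1 ≤ a) {k : ℕ} (hk : 1 ≤ k) : n ^ k ≤ AA q n c a k := by
  unfold AA
  have h1 := LL_pos (n := n) (c := c) hq ha hk
  have h2 := ee_pos q n c k
  have h3 : 1 ≤ LL q n c a k * ee q n c k * k :=
    Nat.one_le_iff_ne_zero.2 (by positivity)
  calc n ^ k = 1 * n ^ k := (one_mul _).symm
    _ ≤ _ := Nat.mul_le_mul_right _ h3

/-- `A ≤ C k⁴ n^k`. -/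
theorem AA_le (hq : 2 ≤ q) : ∃ C : ℝ, 0 < C ∧ ∀ k : ℕ, 1 ≤ k →
    (AA q n c a k : ℝ) ≤ C * (k : ℝ) ^ 4 * (n : ℝ) ^ k := by
  obtain ⟨C, hC, h⟩ := ee_le (n := n) (c := c) hq
  obtain ⟨D, hD, h'⟩ := LL_le (n := n) (c := c) (a := a) hq
  refine ⟨D * C, by positivity, ?_⟩
  intro k hk
  have h1 := h k hk
  have h2 := h' k hk
  unfold AA
  push_cast
  calc (LL q n c a k : ℝ) * ee q n c k * k * (n : ℝ) ^ k
      ≤ (D * (k : ℝ) ^ 2) * (C * k) * k * (n : ℝ) ^ k := by gcongr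
    _ = D * C * (k : ℝ) ^ 4 * (n : ℝ) ^ k := by ring

/-- `A` tends to infinity fast: `C k^j ≤ ε A` (`n ≥ 2`). -/
theorem AA_big (hq : 2 ≤ q) (hn : 2 ≤ n) (ha : 1 ≤ a) (C : ℝ) (j : ℕ) {ε : ℝ} (hε : 0 < ε) :
    ∀ᶠ k : ℕ in atTop, C * (k : ℝ) ^ j ≤ ε * AA q n c a k := by
  have h1 : (1 : ℝ) < n := by exact_mod_cast (by omega : 1 < n)
  filter_upwards [poly_le C j h1 hε, eventually_ge_atTop 1] with k hk hk1
  refine hk.trans (mul_le_mul_of_nonneg_left ?_ hε.le)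
  exact_mod_cast AA_ge (n := n) (c := c) (a := a) hq ha hk1

end basic

section TLevel

variable {q n c : ℕ}

/-- the basic estimates for `ℓ`. -/
theorem ll_bounds (hq : 2 ≤ q) (k : ℕ) {η : ℝ} (hη : 0 < η) (hη1 : η ≤ 1) :
    200 * (Kc q n c k : ℝ) ^ 12 * √(Kc q n c k : ℝ) / η ^ 2 ≤ ll q n c k η ∧
      (ll q n c k η : ℝ) ≤ 201 * (Kc q n c k : ℝ) ^ 12 * √(Kc q n c k : ℝ) / η ^ 2 := by
  have hX : (1 : ℝ) ≤ Kc q n c k := by exact_mod_cast Kc_pos (n := n) (c := c) hq k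
  set X : ℝ := (Kc q n c k : ℝ) with hXd
  have hX0 : 0 ≤ X := by linarith
  have hs : (1 : ℝ) ≤ √X := Real.one_le_sqrt.2 hX
  have h1 : √(NT q n c k : ℝ) = X ^ 8 * √X := by
    unfold NT
    push_cast
    rw [← hXd, show X ^ 17 = (X ^ 8) ^ 2 * X by ring, Real.sqrt_mul (by positivity),
      Real.sqrt_sq (by positivity)]
  have h2 : 200 * √(NT q n c k : ℝ) / η ^ 2 * X ^ 4 = 200 * X ^ 12 * √X / η ^ 2 := by
    rw [h1]; ring
  unfold ll
  rw [← hXd, h2]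
  refine ⟨Nat.le_ceil _, ?_⟩
  have h3 : 0 ≤ 200 * X ^ 12 * √X / η ^ 2 := by positivity
  refine (Nat.ceil_lt_add_one h3).le.trans ?_
  have h4 : 1 ≤ X ^ 12 * √X / η ^ 2 := by
    rw [le_div_iff₀ (by positivity)]
    have e1 : η ^ 2 ≤ 1 := pow_le_one₀ hη.le hη1
    have e2 : 1 ≤ X ^ 12 := one_le_pow₀ hX
    nlinarith
  have h5 : 201 * X ^ 12 * √X / η ^ 2 = 200 * X ^ 12 * √X / η ^ 2 + X ^ 12 * √X / η ^ 2 := by
    ring
  rw [h5]
  linarith

set_option maxHeartbeats 2000000 in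
/-- **T-level numbers** (333: `card_bad_le`, `theoremT`), with `m = M / N`. -/
theorem tlevel (hq : 2 ≤ q) (hn : 1 ≤ n) (hc : 1 ≤ c) {η : ℝ} (hη : 0 < η) (hη1 : η ≤ 1 / 4096)
    (M : ℝ) (hM : 0 < M) (hηM : 4096 * M * η ≤ 1) (w : ℕ) :
    ∀ᶠ k : ℕ in atTop,
      1 ≤ η * ll q n c k η * ((Kc q n c k : ℝ)⁻¹) ^ 4 ∧
      1024 ≤ η * (η * ll q n c k η * ((Kc q n c k : ℝ)⁻¹) ^ 4) ^ 2 ∧
      12 * η * NT q n c k ≤ rr q n c k η ∧
      10000 * (NT q n c k : ℝ) ^ 2 ≤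
        rr q n c k η * (η * ll q n c k η * ((Kc q n c k : ℝ)⁻¹) ^ 4) ^ 2 ∧
      4 + w ^ (8 * k) * ll q n c k η ≤ rr q n c k η ∧
      ll q n c k η * ((Kc q n c k : ℝ)⁻¹) ^ 30 *
        (η * ll q n c k η * ((Kc q n c k : ℝ)⁻¹) ^ 4) ^ 2 ≤ 1 ∧
      4 * ll q n c k η * (M / NT q n c k) ≤ η * ((Kc q n c k : ℝ)⁻¹) ^ 4 ∧
      256 * ((ll q n c k η : ℝ) + rr q n c k η) * (M / NT q n c k) ≤ 1 := by
  have hη' : η ≤ 1 := by linarith
  filter_upwards [sqrt_large (q := q) (n := n) (c := c) hq hn hc (10 ^ 8 / η ^ 4),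
    sqrt_large (q := q) (n := n) (c := c) hq hn hc (804 * M / η ^ 3),
    Kc_big (q := q) (n := n) (c := c) hq hn hc 1 0 ((w : ℝ) ^ 8) one_pos,
    Kc_large (q := q) (n := n) (c := c) hq hn hc (10 ^ 8 / η ^ 4)] with k h1 h2 h3 h4
  obtain ⟨hl1, hl2⟩ := ll_bounds (n := n) (c := c) hq k hη hη'
  have hX : (1 : ℝ) ≤ Kc q n c k := by exact_mod_cast Kc_pos (n := n) (c := c) hq k
  have hNT : (NT q n c k : ℝ) = (Kc q n c k : ℝ) ^ 17 := by unfold NT; push_cast; rfl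
  have hr1 : 12 * η * NT q n c k ≤ rr q n c k η := Nat.le_ceil _
  have hr2 : (rr q n c k η : ℝ) ≤ 12 * η * NT q n c k + 1 :=
    (Nat.ceil_lt_add_one (by positivity)).le
  rw [hNT] at hr1 hr2 ⊢
  set X : ℝ := (Kc q n c k : ℝ) with hXd
  set ℓ : ℝ := (ll q n c k η : ℝ) with hℓ
  set r : ℝ := (rr q n c k η : ℝ) with hr
  set s : ℝ := √X with hs
  have hX0 : 0 < X := by linarith
  have hs1 : 1 ≤ s := Real.one_le_sqrt.2 hX
  have hs0 : 0 < s := by linarith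
  have hss : s * s = X := Real.mul_self_sqrt hX0.le
  have hη2 : 0 < η ^ 2 := by positivity
  -- the size of E
  set E : ℝ := η * ℓ * X⁻¹ ^ 4 with hE
  have hE1 : 200 * X ^ 8 * s / η ≤ E := by
    have : 200 * X ^ 8 * s / η = η * (200 * X ^ 12 * s / η ^ 2) * X⁻¹ ^ 4 := by
      field_simp
    rw [this, hE]
    gcongr
  have hE2 : E ≤ 201 * X ^ 8 * s / η := by
    have : 201 * X ^ 8 * s / η = η * (201 * X ^ 12 * s / η ^ 2) * X⁻¹ ^ 4 := by
      field_simp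
    rw [this, hE]
    gcongr
  have hX8 : 1 ≤ X ^ 8 := one_le_pow₀ hX
  have hXs : 1 ≤ X ^ 8 * s := by nlinarith
  have hη0' : 1 ≤ 1 / η := by rw [le_div_iff₀ hη]; linarith
  have hE3 : 200 ≤ E := by
    refine le_trans ?_ hE1
    rw [le_div_iff₀ hη]
    nlinarith
  have hEpos : 0 < E := by linarith
  have hEsq : 40000 * X ^ 17 / η ^ 2 ≤ E ^ 2 := by
    have e1 : (200 * X ^ 8 * s / η) ^ 2 = 40000 * X ^ 17 / η ^ 2 := by
      rw [div_pow, mul_pow, mul_pow, sq s, hss]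
      ring
    rw [← e1]
    exact pow_le_pow_left₀ (by positivity) hE1 2
  have hEsq2 : E ^ 2 ≤ 40401 * X ^ 17 / η ^ 2 := by
    have e1 : (201 * X ^ 8 * s / η) ^ 2 = 40401 * X ^ 17 / η ^ 2 := by
      rw [div_pow, mul_pow, mul_pow, sq s, hss]
      ring
    rw [← e1]
    exact pow_le_pow_left₀ hEpos.le hE2 2
  have hX17 : 1 ≤ X ^ 17 := one_le_pow₀ hX
  -- `ℓ ≤ η X^16`
  have hlη : ℓ ≤ η * X ^ 16 := by
    refine hl2.trans ?_
    rw [div_le_iff₀ hη2]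
    have e1 : 10 ^ 8 / η ^ 4 ≤ X := h4
    rw [div_le_iff₀ (by positivity)] at e1
    have e2 : s ≤ X := by nlinarith
    have e3 : η ^ 4 ≤ η ^ 3 := by
      have : η ^ 4 = η ^ 3 * η := by ring
      rw [this]
      have h0 : 0 ≤ η ^ 3 := by positivity
      nlinarith
    have e4 : 10 ^ 8 ≤ X * η ^ 3 := e1.trans (mul_le_mul_of_nonneg_left e3 hX0.le)
    have hX12 : 0 ≤ X ^ 12 := by positivity
    have hX3 : X ≤ X ^ 3 := by
      calc X = X ^ 1 := (pow_one X).symm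
        _ ≤ X ^ 3 := pow_le_pow_right₀ hX (by norm_num)
    calc 201 * X ^ 12 * s ≤ 201 * X ^ 12 * X := by gcongr
      _ ≤ (X * η ^ 3) * X ^ 12 * X := by
          have : (201 : ℝ) ≤ X * η ^ 3 := by linarith
          calc 201 * X ^ 12 * X = 201 * (X ^ 12 * X) := by ring
            _ ≤ (X * η ^ 3) * (X ^ 12 * X) := by gcongr
            _ = _ := by ring
      _ = η ^ 3 * X ^ 14 := by ring
      _ ≤ η ^ 3 * X ^ 16 := by
          refine mul_le_mul_of_nonneg_left (pow_le_pow_right₀ hX (by norm_num)) (by positivity)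
      _ = η * X ^ 16 * η ^ 2 := by ring
  have hX16 : X ^ 16 ≤ X ^ 17 := pow_le_pow_right₀ hX (by norm_num)
  refine ⟨by linarith, ?_, hr1, ?_, ?_, ?_, ?_, ?_⟩
  · -- 1024
    calc (1024 : ℝ) ≤ 40000 := by norm_num
      _ ≤ η * (40000 * X ^ 17 / η ^ 2) := by
          have : η * (40000 * X ^ 17 / η ^ 2) = 40000 * X ^ 17 / η := by field_simp
          rw [this, le_div_iff₀ hη]
          nlinarith
      _ ≤ η * E ^ 2 := by gcongr
  · -- 10000 N^2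
    calc 10000 * (X ^ 17) ^ 2 ≤ (12 * η * X ^ 17) * (40000 * X ^ 17 / η ^ 2) := by
          have : (12 * η * X ^ 17) * (40000 * X ^ 17 / η ^ 2) = 480000 * (X ^ 17) ^ 2 / η := by
            field_simp
            ring
          rw [this, le_div_iff₀ hη]
          have : 0 ≤ (X ^ 17) ^ 2 := by positivity
          nlinarith
      _ ≤ r * E ^ 2 := by gcongr
  · -- (N3)
    have e0 : ((4 + w ^ (8 * k) * ll q n c k η : ℕ) : ℝ) ≤ (rr q n c k η : ℝ) := by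
      push_cast
      rw [← hℓ, ← hr]
      refine le_trans ?_ hr1
      have e1 : ((w : ℝ)) ^ (8 * k) ≤ X := by
        have := h3
        rw [pow_zero, mul_one, one_mul, one_mul] at this
        rw [pow_mul]
        exact this
      have e2 : (w : ℝ) ^ (8 * k) * ℓ ≤ X * (η * X ^ 16) := by
        have : 0 ≤ ℓ := by positivity
        exact mul_le_mul e1 hlη this hX0.le
      have e3 : 4 ≤ η * X ^ 17 := by
        have e1 : 10 ^ 8 / η ^ 4 ≤ X := h4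
        rw [div_le_iff₀ (by positivity)] at e1
        have e3 : η ^ 4 ≤ η := by
          calc η ^ 4 ≤ η ^ 1 := pow_le_pow_of_le_one hη.le hη' (by norm_num)
            _ = η := pow_one η
        have : X ≤ X ^ 17 := by
          calc X = X ^ 1 := (pow_one X).symm
            _ ≤ X ^ 17 := pow_le_pow_right₀ hX (by norm_num)
        calc (4 : ℝ) ≤ X * η ^ 4 := by linarith
          _ ≤ X ^ 17 * η := by gcongr
          _ = _ := by ring
      have e4 : X * (η * X ^ 16) = η * X ^ 17 := by ring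
      have e5 : 12 * η * X ^ 17 = 12 * (η * X ^ 17) := by ring
      rw [e5]
      linarith
    exact_mod_cast e0
  · -- (N4)
    have e1 : 10 ^ 8 / η ^ 4 ≤ s := h1
    have e2 : ℓ * X⁻¹ ^ 30 * E ^ 2 ≤
        (201 * X ^ 12 * s / η ^ 2) * X⁻¹ ^ 30 * (40401 * X ^ 17 / η ^ 2) := by gcongr
    refine e2.trans ?_
    have e3 : (201 * X ^ 12 * s / η ^ 2) * X⁻¹ ^ 30 * (40401 * X ^ 17 / η ^ 2) =
        8120601 / η ^ 4 * s / X := by
      field_simp
      ring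
    rw [e3, div_le_one hX0, ← hss]
    refine mul_le_mul_of_nonneg_right ?_ hs0.le
    refine le_trans ?_ e1
    gcongr
    norm_num
  · -- (N2)
    have e1 : 804 * M / η ^ 3 ≤ s := h2
    rw [div_le_iff₀ (by positivity)] at e1
    have e2 : 4 * ℓ * (M / X ^ 17) ≤ 4 * (201 * X ^ 12 * s / η ^ 2) * (M / X ^ 17) := by gcongr
    refine e2.trans ?_
    have e3 : 4 * (201 * X ^ 12 * s / η ^ 2) * (M / X ^ 17) = 804 * M * s / (η ^ 2 * X ^ 5) := by
      field_simp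
      ring
    rw [e3, div_le_iff₀ (by positivity), inv_pow]
    have e4 : η * (X ^ 4)⁻¹ * (η ^ 2 * X ^ 5) = η ^ 3 * X := by
      field_simp
    rw [e4, ← hss]
    nlinarith
  · -- 256
    have e1 : ℓ + r ≤ 14 * η * X ^ 17 := by
      have e2 : η * X ^ 16 ≤ η * X ^ 17 := by gcongr
      have e3 : 1 ≤ η * X ^ 17 := by
        have e1 : 10 ^ 8 / η ^ 4 ≤ X := h4
        rw [div_le_iff₀ (by positivity)] at e1
        have e3 : η ^ 4 ≤ η := by
          calc η ^ 4 ≤ η ^ 1 := pow_le_pow_of_le_one hη.le hη' (by norm_num)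
            _ = η := pow_one η
        have : X ≤ X ^ 17 := by
          calc X = X ^ 1 := (pow_one X).symm
            _ ≤ X ^ 17 := pow_le_pow_right₀ hX (by norm_num)
        calc (1 : ℝ) ≤ X * η ^ 4 := by linarith
          _ ≤ X ^ 17 * η := by gcongr
          _ = _ := by ring
      linarith
    calc 256 * (ℓ + r) * (M / X ^ 17) ≤ 256 * (14 * η * X ^ 17) * (M / X ^ 17) := by gcongr
      _ = 3584 * M * η := by field_simp; ring
      _ ≤ 1 := by nlinarith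

end TLevel

end Crest.Agent.R042.Param377
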