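import Crest.Agent.R042.Fam_543
import Crest.Agent.R042.DigitSZ_853

/-!
# Schwartz-Zippel on the Segre-Frobenius points of the frozen family (row 42 / S0059)

* `sz_N` : a `KK`-functional of the tensors which does not vanish on the product tensors with
  factors in `N` vanishes at `Φ b` for at most a fraction `1/(Q-1)` of the `b ∈ N`, `b none = 1`;
* `T_span` : the tensors killed by the contractions with `B (p k) ·` in all blocks are spanned by
  the product tensors with factors in the common kernel.
-/

set_option autoImplicit false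
set_option linter.unusedSectionVars false

namespace Crest.Agent.R042.PhiSZ543

open Finset Crest.Agent.R042.Fam543

section BD

open MvPolynomial

variable {KK : Type*} [Field KK] {V : Type*} [Fintype V] {k : ℕ}

/-- block degrees -/
def BD (D : Fin k → ℕ) (h : MvPolynomial (V × Fin k) KK) : Prop :=
  ∀ m ∈ h.support, ∀ i, ∑ v, m (v, i) ≤ D i

theorem BD.mono {D D' : Fin k → ℕ} {f : MvPolynomial (V × Fin k) KK} (h : BD D f)
    (hD : ∀ i, D i ≤ D' i) : BD D' f := fun m hm i => (h m hm i).trans (hD i)

theorem BD.add {D : Fin k → ℕ} {f g : MvPolynomial (V × Fin k) KK} (h : BD D f) (h' : BD D g) :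
    BD D (f + g) := by
  classical
  intro m hm
  rcases mem_union.1 (MvPolynomial.support_add hm) with h1 | h1
  · exact h m h1
  · exact h' m h1

theorem BD_zero (D : Fin k → ℕ) : BD D (0 : MvPolynomial (V × Fin k) KK) := by
  intro m hm
  simp at hm

theorem BD.sum {D : Fin k → ℕ} {ι : Type*} (s : Finset ι) (f : ι → MvPolynomial (V × Fin k) KK)
    (h : ∀ a ∈ s, BD D (f a)) : BD D (∑ a ∈ s, f a) := by
  classical
  induction s using Finset.induction_on with
  | empty => rw [Finset.sum_empty]; exact BD_zero D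
  | insert a s ha ih =>
    rw [Finset.sum_insert ha]
    exact (h a (mem_insert_self a s)).add (ih fun b hb => h b (mem_insert_of_mem hb))

theorem BD.mul {D D' : Fin k → ℕ} {f g : MvPolynomial (V × Fin k) KK} (h : BD D f)
    (h' : BD D' g) : BD (fun i => D i + D' i) (f * g) := by
  classical
  intro m hm i
  obtain ⟨a, ha, b, hb, rfl⟩ := Finset.mem_add.1 (MvPolynomial.support_mul f g hm)
  simp only [Finsupp.add_apply, sum_add_distrib]
  exact add_le_add (h a ha i) (h' b hb i)

theorem BD_C (D : Fin k → ℕ) (a : KK) : BD D (C a : MvPolynomial (V × Fin k) KK) := by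
  classical
  intro m hm i
  rw [mem_support_iff, coeff_C] at hm
  by_cases h : 0 = m
  · subst h; simp
  · rw [if_neg h] at hm; exact absurd rfl hm

theorem BD_X (v : V) (i : Fin k) :
    BD (fun j => if j = i then 1 else 0) (X (v, i) : MvPolynomial (V × Fin k) KK) := by
  classical
  intro m hm j
  rw [mem_support_iff, coeff_X] at hm
  by_cases h : Finsupp.single (v, i) 1 = m
  · subst h
    dsimp only
    by_cases hj : j = i
    · subst hj
      rw [if_pos rfl, Finset.sum_eq_single v]
      · simp
      · intro v' _ hv'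
        rw [Finsupp.single_apply, if_neg]
        intro h'; exact hv' (Prod.mk.inj h').1.symm
      · intro h'; exact absurd (mem_univ _) h'
    · rw [if_neg hj]
      refine le_of_eq (Finset.sum_eq_zero fun v' _ => ?_)
      rw [Finsupp.single_apply, if_neg]
      intro h'; exact hj (Prod.mk.inj h').2.symm
  · rw [if_neg h] at hm; exact absurd rfl hm

theorem BD.prod {ι : Type*} (s : Finset ι) (D : ι → Fin k → ℕ)
    (f : ι → MvPolynomial (V × Fin k) KK) (h : ∀ a ∈ s, BD (D a) (f a)) :
    BD (fun i => ∑ a ∈ s, D a i) (∏ a ∈ s, f a) := by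
  classical
  induction s using Finset.induction_on with
  | empty =>
    rw [Finset.prod_empty, ← C_1]
    exact BD_C _ _
  | insert a s ha ih =>
    rw [Finset.prod_insert ha]
    have := (h a (mem_insert_self a s)).mul (ih fun b hb => h b (mem_insert_of_mem hb))
    refine this.mono fun i => ?_
    rw [Finset.sum_insert ha]

variable {A : Type*} [Fintype A] [DecidableEq A]

/-- the polynomial of a functional of the tensors -/
noncomputable def pol (Q : ℕ) (c : (Fin k → A) → KK) (b0 : A → KK) (e : V → A → KK) :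
    MvPolynomial (V × Fin k) KK :=
  ∑ al : Fin k → A, C (c al) *
    ∏ i : Fin k, (C ((b0 (al i)) ^ (Q ^ (i : ℕ))) +
      ∑ v, C ((e v (al i)) ^ (Q ^ (i : ℕ))) * X (v, i))

theorem BD_pol (Q : ℕ) (c : (Fin k → A) → KK) (b0 : A → KK) (e : V → A → KK) :
    BD (fun _ => 1) (pol Q c b0 e) := by
  classical
  refine BD.sum _ _ fun al _ => ?_
  have h1 := BD.prod (univ : Finset (Fin k)) (fun i j => if j = i then 1 else 0)
    (fun i : Fin k => (C ((b0 (al i)) ^ (Q ^ (i : ℕ))) +
      ∑ v, C ((e v (al i)) ^ (Q ^ (i : ℕ))) * X (v, i) : MvPolynomial (V × Fin k) KK))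
    (fun i _ => ((BD_C _ _).add (BD.sum _ _ fun v _ => by
      have := (BD_C (V := V) (fun _ : Fin k => 0) ((e v (al i)) ^ (Q ^ (i : ℕ)))).mul (BD_X v i)
      refine this.mono fun j => ?_
      simp)))
  have h2 := (BD_C (V := V) (fun _ : Fin k => 0) (c al)).mul h1
  refine h2.mono fun j => ?_
  simp

theorem eval_pol (Q : ℕ) (c : (Fin k → A) → KK) (b0 : A → KK) (e : V → A → KK)
    (y : V × Fin k → KK) :
    eval y (pol Q c b0 e) = ∑ al : Fin k → A, c al *
      ∏ i : Fin k, ((b0 (al i)) ^ (Q ^ (i : ℕ)) +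
        ∑ v, (e v (al i)) ^ (Q ^ (i : ℕ)) * y (v, i)) := by
  unfold pol
  rw [map_sum]
  refine Finset.sum_congr rfl fun al _ => ?_
  rw [map_mul, eval_C, map_prod]
  congr 1
  refine Finset.prod_congr rfl fun i _ => ?_
  rw [map_add, eval_C, map_sum]
  congr 1
  refine Finset.sum_congr rfl fun v _ => ?_
  rw [map_mul, eval_C, eval_X]

theorem eval_pol_pow [CharP KK 2] (e' : ℕ) (c : (Fin k → A) → KK) (b0 : A → KK)
    (e : V → A → KK) (x : Fin k → V → KK) :
    eval (fun p : V × Fin k => x p.2 p.1 ^ ((2 ^ e') ^ (p.2 : ℕ))) (pol (2 ^ e') c b0 e) =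
      ∑ al : Fin k → A, c al *
        ∏ i : Fin k, (b0 (al i) + ∑ v, x i v * e v (al i)) ^ ((2 ^ e') ^ (i : ℕ)) := by
  rw [eval_pol]
  refine Finset.sum_congr rfl fun al _ => ?_
  congr 1
  refine Finset.prod_congr rfl fun i _ => ?_
  rw [← pow_mul, add_pow_char_pow, sum_pow_char_pow]
  congr 1
  refine Finset.sum_congr rfl fun v _ => ?_
  rw [mul_pow, mul_comm, ← pow_mul]

/-- digit Schwartz-Zippel for the functionals of the tensors, in coordinates -/
theorem sz_blocks [CharP KK 2] [Fintype KK] [DecidableEq KK] [DecidableEq V] (e' : ℕ)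
    (he : 0 < e') (hcard : Fintype.card KK = (2 ^ e') ^ k)
    (c : (Fin k → A) → KK) (b0 : A → KK) (e : V → A → KK)
    (hne : ∃ x : Fin k → V → KK, ∑ al : Fin k → A, c al *
        ∏ i : Fin k, (b0 (al i) + ∑ v, x i v * e v (al i)) ^ ((2 ^ e') ^ (i : ℕ)) ≠ 0) :
    (univ.filter fun x : V → KK => ∑ al : Fin k → A, c al *
        ∏ i : Fin k, (b0 (al i) + ∑ v, x v * e v (al i)) ^ ((2 ^ e') ^ (i : ℕ)) = 0).card *
          (2 ^ e' - 1) ≤ Fintype.card KK ^ Fintype.card V := by
  obtain ⟨x, hx⟩ := hne
  have hQ : 1 < 2 ^ e' := Nat.one_lt_two_pow (by omega)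
  have hp : pol (2 ^ e') c b0 e ≠ 0 := by
    intro h
    apply hx
    rw [← eval_pol_pow, h, map_zero]
  have h1 := DigitSZ_853.digit_sz (Q := 2 ^ e') (D := 1) hQ hcard (pol (2 ^ e') c b0 e) hp
    (BD_pol _ _ _ _)
  rw [one_mul] at h1
  refine le_trans (le_of_eq ?_) h1
  congr 2
  ext y
  simp only [mem_filter, mem_univ, true_and]
  rw [← eval_pol_pow e' c b0 e (fun _ => y)]

end BD

section N

variable {KK : Type} [Field KK] {d kp : ℕ}

/-- product tensor of independent factors -/
def PhiV (Q : ℕ) (h : Fin kp → Ix d → KK) : U0 KK d kp := fun al => ∏ i, (h i (al i)) ^ (Q ^ (i : ℕ))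

theorem Phi_eq (Q : ℕ) (b : Ix d → KK) : (Phi Q b : U0 KK d kp) = PhiV Q (fun _ => b) := rfl

theorem apply_eq_sum (W : U0 KK d kp →ₗ[KK] KK) (t : U0 KK d kp) :
    W t = ∑ al, W (Pi.single al 1) * t al := by
  have h : t = ∑ al, t al • (Pi.single al (1 : KK) : U0 KK d kp) := by
    funext be
    rw [Finset.sum_apply]
    simp [Pi.single_apply]
  conv_lhs => rw [h]
  rw [map_sum]
  refine sum_congr rfl fun al _ => ?_
  rw [map_smul, smul_eq_mul, mul_comm]

variable [CharP KK 2]

theorem PhiV_update_add (e' : ℕ) (h : Fin kp → Ix d → KK) (i : Fin kp) (x y : Ix d → KK) (a : KK) :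
    PhiV (2 ^ e') (Function.update h i (x + a • y)) = PhiV (2 ^ e') (Function.update h i x) +
      (a ^ ((2 ^ e') ^ (i : ℕ))) • PhiV (2 ^ e') (Function.update h i y) := by
  classical
  funext al
  simp only [PhiV, Pi.add_apply, Pi.smul_apply, smul_eq_mul]
  rw [← mul_prod_erase univ _ (mem_univ i), ← mul_prod_erase univ _ (mem_univ i),
    ← mul_prod_erase univ (fun i' => (Function.update h i y i' (al i')) ^ _) (mem_univ i)]
  simp only [Function.update_self]
  have h1 : ∀ z : Ix d → KK, ∏ i' ∈ univ.erase i, (Function.update h i z i' (al i')) ^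
      ((2 ^ e') ^ (i' : ℕ)) = ∏ i' ∈ univ.erase i, (h i' (al i')) ^ ((2 ^ e') ^ (i' : ℕ)) := by
    intro z
    refine prod_congr rfl fun i' hi' => ?_
    rw [Function.update_of_ne (ne_of_mem_erase hi')]
  rw [h1, h1, h1]
  simp only [Pi.add_apply, Pi.smul_apply, smul_eq_mul]
  rw [← pow_mul, add_pow_char_pow, mul_pow]
  ring

/-- reduction to normalised factors -/
theorem exists_norm (e' : ℕ) (N : Submodule KK (Ix d → KK)) {b0 : Ix d → KK} (hb0 : b0 ∈ N)
    (hb1 : b0 none = 1) (W : U0 KK d kp →ₗ[KK] KK)
    (hW : ∀ h : Fin kp → Ix d → KK, (∀ i, h i ∈ N) → (∀ i, h i none = 1) →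
      W (PhiV (2 ^ e') h) = 0) :
    ∀ h : Fin kp → Ix d → KK, (∀ i, h i ∈ N) → W (PhiV (2 ^ e') h) = 0 := by
  classical
  have key : ∀ s : Finset (Fin kp), ∀ h : Fin kp → Ix d → KK, (∀ i, h i ∈ N) →
      (∀ i, i ∉ s → h i none = 1) → W (PhiV (2 ^ e') h) = 0 := by
    intro s
    induction s using Finset.induction_on with
    | empty => intro h h1 h2; exact hW h h1 fun i => h2 i (notMem_empty i)
    | insert i s hi ih =>
      intro h h1 h2
      set a : KK := h i none - 1 with ha
      set x : Ix d → KK := h i - a • b0 with hx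
      have hxN : x ∈ N := N.sub_mem (h1 i) (N.smul_mem a hb0)
      have hx1 : x none = 1 := by
        simp only [hx, Pi.sub_apply, Pi.smul_apply, smul_eq_mul, hb1, ha]; ring
      have hh : h = Function.update h i (x + a • b0) := by
        have : x + a • b0 = h i := by rw [hx]; abel
        rw [this, Function.update_eq_self]
      rw [hh, PhiV_update_add, map_add, map_smul]
      have e1 : W (PhiV (2 ^ e') (Function.update h i x)) = 0 := by
        refine ih _ (fun i' => ?_) (fun i' hi' => ?_)
        · by_cases h' : i' = i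
          · subst h'; rw [Function.update_self]; exact hxN
          · rw [Function.update_of_ne h']; exact h1 i'
        · by_cases h' : i' = i
          · subst h'; rw [Function.update_self]; exact hx1
          · rw [Function.update_of_ne h']; exact h2 i' (by simp [h', hi'])
      have e2 : W (PhiV (2 ^ e') (Function.update h i b0)) = 0 := by
        refine ih _ (fun i' => ?_) (fun i' hi' => ?_)
        · by_cases h' : i' = i
          · subst h'; rw [Function.update_self]; exact hb0
          · rw [Function.update_of_ne h']; exact h1 i'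
        · by_cases h' : i' = i
          · subst h'; rw [Function.update_self]; exact hb1
          · rw [Function.update_of_ne h']; exact h2 i' (by simp [h', hi'])
      rw [e1, e2, smul_zero, add_zero]
  intro h h1
  exact key univ h h1 fun i hi => absurd (mem_univ i) hi

variable [Fintype KK] [DecidableEq KK]

open Classical in
/-- **Schwartz-Zippel** on the normalised points of a subspace `N` -/
theorem sz_N (e' : ℕ) (he : 0 < e') (hcard : Fintype.card KK = (2 ^ e') ^ kp)
    (N : Submodule KK (Ix d → KK)) {b0 : Ix d → KK} (hb0 : b0 ∈ N) (hb1 : b0 none = 1)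
    (W : U0 KK d kp →ₗ[KK] KK)
    (hW : ∃ h : Fin kp → Ix d → KK, (∀ i, h i ∈ N) ∧ W (PhiV (2 ^ e') h) ≠ 0) :
    (univ.filter fun b : Ix d → KK => (b ∈ N ∧ b none = 1) ∧ W (Phi (2 ^ e') b) = 0).card *
      (2 ^ e' - 1) ≤ (univ.filter fun b : Ix d → KK => b ∈ N ∧ b none = 1).card := by
  obtain ⟨h, hh1, hh2, hh3⟩ : ∃ h : Fin kp → Ix d → KK, (∀ i, h i ∈ N) ∧ (∀ i, h i none = 1) ∧
      W (PhiV (2 ^ e') h) ≠ 0 := by
    by_contra hcon
    push Not at hcon
    obtain ⟨h, h1, h2⟩ := hW
    exact h2 (exists_norm e' N hb0 hb1 W hcon h h1)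
  -- the linear part
  let H0 : Submodule KK (Ix d → KK) := N ⊓ LinearMap.ker (LinearMap.proj (R := KK) none)
  have memH0 : ∀ x : Ix d → KK, x ∈ H0 ↔ x ∈ N ∧ x none = 0 := by
    intro x
    simp [H0, LinearMap.mem_ker]
  let bs := Module.finBasis KK H0
  let e : Fin (Module.finrank KK H0) → Ix d → KK := fun v => (bs v : Ix d → KK)
  let f : (Fin (Module.finrank KK H0) → KK) → (Ix d → KK) := fun x =>
    b0 + ((bs.equivFun.symm x : H0) : Ix d → KK)
  have hf : ∀ x, f x = fun j => b0 j + ∑ v, x v * e v j := by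
    intro x
    funext j
    simp only [f, Pi.add_apply, e]
    congr 1
    rw [Module.Basis.equivFun_symm_apply]
    rw [Submodule.coe_sum, Finset.sum_apply]
    rfl
  have hfinj : Function.Injective f := by
    intro x y hxy
    have : ((bs.equivFun.symm x : H0) : Ix d → KK) = ((bs.equivFun.symm y : H0) : Ix d → KK) :=
      add_left_cancel hxy
    exact bs.equivFun.symm.injective (Subtype.ext this)
  have hfN : ∀ x, f x ∈ N ∧ f x none = 1 := by
    intro x
    have h0 := (memH0 _).1 (bs.equivFun.symm x : H0).2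
    refine ⟨N.add_mem hb0 h0.1, ?_⟩
    show b0 none + _ = 1
    rw [h0.2, hb1, add_zero]
  have hfsurj : ∀ b : Ix d → KK, b ∈ N → b none = 1 → ∃ x, f x = b := by
    intro b hb hb'
    have h0 : b - b0 ∈ H0 := (memH0 _).2 ⟨N.sub_mem hb hb0, by
      rw [Pi.sub_apply, hb', hb1, sub_self]⟩
    refine ⟨bs.equivFun ⟨b - b0, h0⟩, ?_⟩
    simp only [f, LinearEquiv.symm_apply_apply]
    abel
  -- the value
  have hval : ∀ x : Fin kp → Fin (Module.finrank KK H0) → KK,
      W (PhiV (2 ^ e') fun i => f (x i)) = ∑ al : Fin kp → Ix d, W (Pi.single al 1) *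
        ∏ i : Fin kp, (b0 (al i) + ∑ v, x i v * e v (al i)) ^ ((2 ^ e') ^ (i : ℕ)) := by
    intro x
    rw [apply_eq_sum]
    refine sum_congr rfl fun al _ => ?_
    congr 1
    simp only [PhiV]
    exact prod_congr rfl fun i _ => by rw [hf]
  have hne : ∃ x : Fin kp → Fin (Module.finrank KK H0) → KK,
      ∑ al : Fin kp → Ix d, W (Pi.single al 1) *
        ∏ i : Fin kp, (b0 (al i) + ∑ v, x i v * e v (al i)) ^ ((2 ^ e') ^ (i : ℕ)) ≠ 0 := by
    choose x hx using fun i => hfsurj (h i) (hh1 i) (hh2 i)
    refine ⟨x, ?_⟩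
    rw [← hval]
    simpa [hx] using hh3
  have h1 := sz_blocks e' he hcard (fun al => W (Pi.single al 1)) b0 e hne
  have hc1 : (univ.filter fun b : Ix d → KK => b ∈ N ∧ b none = 1).card =
      Fintype.card KK ^ Module.finrank KK H0 := by
    have : (univ.filter fun b : Ix d → KK => b ∈ N ∧ b none = 1) = univ.image f := by
      ext b
      simp only [mem_filter, mem_univ, true_and, mem_image]
      constructor
      · rintro ⟨h1, h2⟩; exact hfsurj b h1 h2
      · rintro ⟨x, rfl⟩; exact hfN x
    rw [this, card_image_of_injective _ hfinj, card_univ, Fintype.card_fun, Fintype.card_fin]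
  have hc2 : (univ.filter fun b : Ix d → KK => (b ∈ N ∧ b none = 1) ∧
      W (Phi (2 ^ e') b) = 0).card = (univ.filter fun x : Fin (Module.finrank KK H0) → KK =>
        ∑ al : Fin kp → Ix d, W (Pi.single al 1) *
        ∏ i : Fin kp, (b0 (al i) + ∑ v, x v * e v (al i)) ^ ((2 ^ e') ^ (i : ℕ)) = 0).card := by
    symm
    refine card_bij (fun x _ => f x) ?_ (fun x _ y _ hxy => hfinj hxy) ?_
    · intro x hx
      have hx' := (mem_filter.1 hx).2
      rw [mem_filter]
      refine ⟨mem_univ _, hfN x, ?_⟩
      have := hval (fun _ => x)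
      rw [Phi_eq, this]
      exact hx'
    · intro b hb
      obtain ⟨_, ⟨h1, h2⟩, h3⟩ := mem_filter.1 hb
      obtain ⟨x, rfl⟩ := hfsurj b h1 h2
      refine ⟨x, mem_filter.2 ⟨mem_univ _, ?_⟩, rfl⟩
      have := hval (fun _ => x)
      rw [← this]
      exact h3
  rw [hc1, hc2]
  rw [Fintype.card_fin] at h1
  exact h1

end N

section span

theorem sum_update {A B : Type*} [Fintype A] [DecidableEq A] [Fintype B]
    {M : Type*} [AddCommMonoid M] (i : A) (F : (A → B) → M) :
    ∑ be : A → B, ∑ j : B, F (Function.update be i j) =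
      Fintype.card B • ∑ be : A → B, F be := by
  classical
  rw [← Fintype.sum_prod_type' (f := fun (be : A → B) (j : B) => F (Function.update be i j))]
  rw [← Equiv.sum_comp (⟨fun p : (A → B) × B => (Function.update p.1 i p.2, p.1 i),
    fun p => (Function.update p.1 i p.2, p.1 i), fun p => by simp, fun p => by simp⟩ :
      (A → B) × B ≃ (A → B) × B)]
  simp only [Equiv.coe_fn_mk, Function.update_idem, Function.update_eq_self]
  rw [Fintype.sum_prod_type]
  simp [Finset.smul_sum]

variable {KK : Type} [Field KK] [CharP KK 2] {d kp : ℕ}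

theorem card_Ix (d : ℕ) : ((Fintype.card (Ix d) : ℕ) : KK) = 1 := by
  have : Fintype.card (Ix d) = d * 2 + 1 := by
    rw [Fintype.card_option, Fintype.card_prod, Fintype.card_fin, Fintype.card_bool]
  rw [this]
  push_cast
  rw [CharTwo.two_eq_zero, mul_zero, zero_add]

/-- a contraction that vanishes kills every sum that does not see the block `i` -/
theorem sum_contr_zero (Q : ℕ) {h : Ix d → KK} {i : Fin kp} {t : U0 KK d kp}
    (ht : contr Q h i t = 0) (G : (Fin kp → Ix d) → KK)
    (hG : ∀ be j, G (Function.update be i j) = G be) :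
    ∑ be, G be * ((h (sw (be i))) ^ (Q ^ (i : ℕ)) * t be) = 0 := by
  have h1 := sum_update i (fun be => G be * ((h (sw (be i))) ^ (Q ^ (i : ℕ)) * t be))
  rw [nsmul_eq_mul, card_Ix, one_mul] at h1
  rw [← h1]
  refine sum_eq_zero fun be _ => ?_
  have h2 : ∀ j, G (Function.update be i j) *
      ((h (sw (Function.update be i j i))) ^ (Q ^ (i : ℕ)) * t (Function.update be i j)) =
      G be * ((h (sw j)) ^ (Q ^ (i : ℕ)) * t (Function.update be i j)) := by
    intro j
    rw [hG, Function.update_self]
  rw [sum_congr rfl fun j _ => h2 j, ← mul_sum]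
  have h3 : contr Q h i t be = 0 := by rw [ht]; rfl
  have h4 : ∑ j, (h (sw j)) ^ (Q ^ (i : ℕ)) * t (Function.update be i j) = 0 := h3
  rw [h4, mul_zero]

variable {κ : Type*} [Fintype κ]

/-- the projection matrix -/
def pm (p g : κ → Ix d → KK) (b : Ix d) : Ix d → KK :=
  fun a => (if a = b then 1 else 0) + ∑ k, p k (sw b) * g k a

/-- **the common kernel of the contractions is spanned by product tensors** -/
theorem T_span (e' : ℕ) (p g : κ → Ix d → KK) {t : U0 KK d kp}
    (ht : ∀ k, t ∈ T1 (2 ^ e') (p k)) :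
    t = ∑ be, t be • (PhiV (2 ^ e') fun i => pm p g (be i)) := by
  have key : ∀ s : Finset (Fin kp), ∀ al : Fin kp → Ix d,
      ∑ be, (∏ i, if i ∈ s then (pm p g (be i) (al i)) ^ ((2 ^ e') ^ (i : ℕ))
        else (if al i = be i then 1 else 0)) * t be = t al := by
    intro s
    induction s using Finset.induction_on with
    | empty =>
      intro al
      simp only [notMem_empty, if_false]
      rw [sum_eq_single al]
      · simp
      · intro be _ hbe
        obtain ⟨i, hi⟩ := Function.ne_iff.1 hbe
        rw [prod_eq_zero (mem_univ i), zero_mul]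
        rw [if_neg (Ne.symm hi)]
      · intro h; exact absurd (mem_univ _) h
    | insert i s hi ih =>
      intro al
      rw [← ih al]
      -- split off the factor `i`
      let M : (Fin kp → Ix d) → Fin kp → KK := fun be i' =>
        if i' ∈ s then (pm p g (be i') (al i')) ^ ((2 ^ e') ^ (i' : ℕ))
          else (if al i' = be i' then 1 else 0)
      let G : (Fin kp → Ix d) → KK := fun be => ∏ i' ∈ univ.erase i, M be i'
      have hG : ∀ be j, G (Function.update be i j) = G be := by
        intro be j
        refine prod_congr rfl fun i' hi' => ?_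
        simp only [M]
        rw [Function.update_of_ne (ne_of_mem_erase hi')]
      have hM : ∀ be, ∏ i', M be i' = (if al i = be i then 1 else 0) * G be := by
        intro be
        rw [← mul_prod_erase univ _ (mem_univ i)]
        congr 1
        simp only [M]
        rw [if_neg hi]
      have hM' : ∀ be : Fin kp → Ix d,
          (∏ i', if i' ∈ insert i s then (pm p g (be i') (al i')) ^ ((2 ^ e') ^ (i' : ℕ))
            else (if al i' = be i' then 1 else 0)) =
          (pm p g (be i) (al i)) ^ ((2 ^ e') ^ (i : ℕ)) * G be := by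
        intro be
        rw [← mul_prod_erase univ _ (mem_univ i)]
        rw [if_pos (mem_insert_self i s)]
        congr 1
        refine prod_congr rfl fun i' hi' => ?_
        simp only [M]
        have hne := ne_of_mem_erase hi'
        by_cases h' : i' ∈ s
        · rw [if_pos (mem_insert_of_mem h'), if_pos h']
        · rw [if_neg h', if_neg]
          rw [mem_insert]; tauto
      have hpm : ∀ be : Fin kp → Ix d, (pm p g (be i) (al i)) ^ ((2 ^ e') ^ (i : ℕ)) =
          (if al i = be i then 1 else 0) +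
            ∑ k, (g k (al i)) ^ ((2 ^ e') ^ (i : ℕ)) * (p k (sw (be i))) ^ ((2 ^ e') ^ (i : ℕ)) := by
        intro be
        unfold pm
        have hpos : 2 ^ (e' * (i : ℕ)) ≠ 0 := pow_ne_zero _ two_ne_zero
        rw [← pow_mul, add_pow_char_pow, sum_pow_char_pow]
        congr 1
        · by_cases h' : al i = be i
          · rw [if_pos h', one_pow]
          · rw [if_neg h', zero_pow hpos]
        · exact sum_congr rfl fun k _ => by rw [mul_pow, mul_comm]
      have hL : ∀ be : Fin kp → Ix d,
          (∏ i', if i' ∈ insert i s then (pm p g (be i') (al i')) ^ ((2 ^ e') ^ (i' : ℕ))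
            else (if al i' = be i' then 1 else 0)) * t be =
          (∏ i', M be i') * t be + ∑ k, (g k (al i)) ^ ((2 ^ e') ^ (i : ℕ)) *
            (G be * ((p k (sw (be i))) ^ ((2 ^ e') ^ (i : ℕ)) * t be)) := by
        intro be
        rw [hM', hM, hpm, add_mul, add_mul, sum_mul, sum_mul]
        congr 1
        exact sum_congr rfl fun k _ => by ring
      rw [sum_congr rfl fun be _ => hL be, sum_add_distrib, sum_comm]
      rw [sum_eq_zero (f := fun k => ∑ be, (g k (al i)) ^ ((2 ^ e') ^ (i : ℕ)) *
            (G be * ((p k (sw (be i))) ^ ((2 ^ e') ^ (i : ℕ)) * t be))), add_zero]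
      intro k _
      rw [← mul_sum, sum_contr_zero (2 ^ e') (mem_T1.1 (ht k) i) G hG, mul_zero]
  funext al
  rw [Finset.sum_apply]
  rw [← key univ al]
  refine sum_congr rfl fun be _ => ?_
  simp only [mem_univ, if_true, Pi.smul_apply, smul_eq_mul, PhiV]
  rw [mul_comm]

/-- a functional that does not vanish on the common kernel does not vanish on a product tensor -/
theorem exists_PhiV (e' : ℕ) (p g : κ → Ix d → KK) {t : U0 KK d kp}
    (ht : ∀ k, t ∈ T1 (2 ^ e') (p k)) (W : U0 KK d kp →ₗ[KK] KK) (hW : W t ≠ 0) :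
    ∃ be : Fin kp → Ix d, W (PhiV (2 ^ e') fun i => pm p g (be i)) ≠ 0 := by
  by_contra hcon
  push Not at hcon
  apply hW
  rw [T_span e' p g ht, map_sum]
  refine sum_eq_zero fun be _ => ?_
  rw [map_smul, hcon be, smul_zero]

/-- orthonormal case: `pm` maps to the common kernel -/
theorem B_pm [DecidableEq κ] (p g : κ → Ix d → KK)
    (hg : ∀ k k', B (p k) (g k') = if k = k' then 1 else 0) (b : Ix d) (k : κ) : B (p k) (pm p g b) = 0 := by
  have h1 : pm p g b = (Pi.single b 1 : Ix d → KK) + ∑ k', p k' (sw b) • g k' := by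
    funext a
    simp [pm, Pi.single_apply, Finset.sum_apply]
  have h2 : ∀ y z : Ix d → KK, B (p k) (y + z) = B (p k) y + B (p k) z := by
    intro y z
    rw [B_comm, B_add_left, B_comm y, B_comm z]
  have h3 : ∀ s : Finset κ, B (p k) (∑ k' ∈ s, p k' (sw b) • g k') =
      ∑ k' ∈ s, p k' (sw b) * B (p k) (g k') := by
    intro s
    induction s using Finset.induction_on with
    | empty => simp [B]
    | insert a s ha ih =>
      rw [sum_insert ha, sum_insert ha, h2, ih, B_comm, B_smul_left, B_comm]
  rw [h1, h2, h3]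
  have h4 : B (p k) (Pi.single b 1) = p k (sw b) := by
    unfold B
    rw [sum_eq_single b]
    · simp
    · intro j _ hj; simp [hj]
    · intro h; exact absurd (mem_univ _) h
  rw [h4]
  simp only [hg, mul_ite, mul_one, mul_zero]
  rw [sum_ite_eq univ k, if_pos (mem_univ k)]
  exact CharTwo.add_self_eq_zero _

end span

end Crest.Agent.R042.PhiSZ543
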