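import Crest.Agent.R042.GadB_44
import Crest.Agent.R042.Dim_755
import Crest.Agent.R042.Inst_592

/-! Row 42 / S0059: the same-type gadget plumbed into 375's `ssp_gadget` / `ssp_gadgetB`
(helper220): label maps `pr`, their fibre sizes `kf`, and the closed budget lines. -/

set_option autoImplicit false
set_option linter.unusedSectionVars false

namespace Crest.Agent.R042.Plumb220

open Finset Crest.Agent.R042.RowWin543 Crest.Agent.R042.Fam543 Crest.Agent.R042.Inst592 Crest.Agent.R042.Gadget220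
  Crest.Agent.R042.Dim755
open scoped Classical

variable {k0 KK : Type} [Field k0] [Field KK] [Algebra k0 KK] [CharP KK 2] [Fintype k0] [Fintype KK]
variable {d L kp r : ℕ}

/-- dimension of every window -/
noncomputable def AA (k0 KK : Type) [Field k0] [Field KK] [Algebra k0 KK] (d L kp : ℕ) : ℕ :=
  L * (Module.finrank k0 KK * (2 * d - 1) ^ kp)

/-- what the consumers need of the gadget labels -/
structure Out {K : Set k0} (e : ℕ) (x : Fin r → Om KK K d L) (Γ : SimpleGraph (Fin r)) (Dg : ℕ)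
    [Fintype (Label k0 KK d kp L)]
    (pr : Fin r → Label k0 KK d kp L → Label k0 KK d kp L) (kf : Fin r → ℕ) : Prop where
  fib : ∀ i y, (univ.filter fun y' => pr i y' = pr i y).card = kf i
  comp : ∀ i j, Γ.Adj i j → ∀ f g, Rel K (2 ^ e) kp (x i).1 (x j).1 (pr i f) (pr j g)
  pos : ∀ i, 0 < kf i
  le : ∀ i, kf i ≤ Fintype.card k0 ^ (Dg * AA k0 KK d L kp)

noncomputable local instance instACG {W : Type} [AddCommGroup W] [Module k0 W] :
    AddCommGroup (SymForm k0 W) :=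
  Submodule.addCommGroup (M := W →ₗ[k0] W →ₗ[k0] k0) (R := k0) (SymForm k0 W)

theorem out_of {K : Set k0} (e : ℕ) (x : Fin r → Om KK K d L) (Γ : SimpleGraph (Fin r))
    [DecidableRel Γ.Adj] {Dg : ℕ} [Fintype (Label k0 KK d kp L)]
    (hperp : ∀ i j, Γ.Adj i j → Perp (x i).1 (x j).1)
    (hdeg : ∀ i, (univ.filter fun j => Γ.Adj i j).card ≤ Dg)
    (hh : Fin r → Label k0 KK d kp L) (ρ : Fin r → (Label k0 KK d kp L →ₗ[k0] Label k0 KK d kp L))
    (h2 : ∀ i j, Γ.Adj i j → ∀ f g, Rel K (2 ^ e) kp (x i).1 (x j).1 (hh i + ρ i f) (hh j + ρ j g))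
    (h3 : ∀ i, Module.finrank k0 (LinearMap.ker (ρ i)) ≤
        ∑ j ∈ univ.filter (fun j => Γ.Adj i j), Module.finrank k0 (UPQ (2 ^ e) kp (x i).1 (x j).1)) :
    Out e x Γ Dg (fun i f => hh i + ρ i f) (fun i => Nat.card (LinearMap.ker (ρ i))) := by
  have hfin : Finite (Label k0 KK d kp L) := Finite.of_fintype _
  refine ⟨fun i y => ?_, h2, fun i => ?_, fun i => ?_⟩
  · rw [← card_fibre_eq (hh i) (ρ i) y, Nat.card_eq_fintype_card, Fintype.card_subtype]
  · exact Nat.card_pos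
  · have hk : Nat.card (LinearMap.ker (ρ i)) = Fintype.card k0 ^ Module.finrank k0 (LinearMap.ker (ρ i)) := by
      rw [Module.natCard_eq_pow_finrank (K := k0), Nat.card_eq_fintype_card]
    rw [hk]
    refine Nat.pow_le_pow_right Fintype.card_pos ((h3 i).trans ?_)
    have hw : ∀ j ∈ univ.filter (fun j => Γ.Adj i j),
        Module.finrank k0 (UPQ (2 ^ e) kp (x i).1 (x j).1) = AA k0 KK d L kp := by
      intro j hj
      rw [mem_filter] at hj
      exact finrank_UPQ_om e (x i) (x j) (ne_of_perp (x i) (x j) (hperp i j hj.2))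
    rw [sum_congr rfl hw, sum_const, smul_eq_mul]
    exact Nat.mul_le_mul_right _ (hdeg i)

/-- **plan B** (and any `kp ≥ 2` with independent neighbourhoods) -/
theorem plumbB {K : Set k0} (hK : Alph K) (e : ℕ) (hkp : 2 ≤ kp) (hL : 0 < L)
    (x : Fin r → Om KK K d L) (Γ : SimpleGraph (Fin r)) [DecidableRel Γ.Adj] {Dg : ℕ}
    [Fintype (Label k0 KK d kp L)]
    (hperp : ∀ i j, Γ.Adj i j → Perp (x i).1 (x j).1)
    (hdeg : ∀ i, (univ.filter fun j => Γ.Adj i j).card ≤ Dg)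
    (hch : ∀ i j k, Γ.Adj i j → Γ.Adj i k → j ≠ k → ¬ Perp (x j).1 (x k).1)
    (hli : ∀ i, LinearIndependent KK (fun j : {j // Γ.Adj i j} => (x j).1.b)) :
    ∃ (pr : Fin r → Label k0 KK d kp L → Label k0 KK d kp L) (kf : Fin r → ℕ),
      Out e x Γ Dg pr kf := by
  obtain ⟨hh, ρ, -, h2, h3⟩ := GadB44.exists_gadB (kp := kp) hK e hkp hL (fun i => (x i).1)
    (fun i => (x i).2) Γ hperp hch hli
  exact ⟨_, _, out_of e x Γ hperp hdeg hh ρ h2 h3⟩

/-- **plan A**: degree at most `kp` -/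
theorem plumbA {K : Set k0} (hK : Alph K) (e : ℕ) (hL : 0 < L)
    (x : Fin r → Om KK K d L) (hb : Function.Injective fun i => (x i).1.b)
    (Γ : SimpleGraph (Fin r)) [DecidableRel Γ.Adj] {Dg : ℕ}
    [Fintype (Label k0 KK d kp L)]
    (hperp : ∀ i j, Γ.Adj i j → Perp (x i).1 (x j).1)
    (hdeg : ∀ i, (univ.filter fun j => Γ.Adj i j).card ≤ Dg) (hkp : Dg ≤ kp)
    (hch : ∀ i j k, Γ.Adj i j → Γ.Adj i k → j ≠ k → ¬ Perp (x j).1 (x k).1) :
    ∃ (pr : Fin r → Label k0 KK d kp L → Label k0 KK d kp L) (kf : Fin r → ℕ),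
      Out e x Γ Dg pr kf := by
  obtain ⟨hh, ρ, -, h2, h3⟩ := exists_gad (kp := kp) hK e hL (fun i => (x i).1)
    (fun i => (x i).2) hb Γ hperp hch (fun i => (hdeg i).trans hkp)
  exact ⟨_, _, out_of e x Γ hperp hdeg hh ρ h2 h3⟩

section budget

variable {K : Set k0} {e : ℕ} {x : Fin r → Om KK K d L} {Γ : SimpleGraph (Fin r)} {Dg : ℕ}
  [Fintype (Label k0 KK d kp L)] {pr : Fin r → Label k0 KK d kp L → Label k0 KK d kp L}
  {kf : Fin r → ℕ}

theorem mul_le (H : Out e x Γ Dg pr kf) (i j : Fin r) :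
    ((kf i * kf j : ℕ) : ℝ) ≤ (Fintype.card k0 : ℝ) ^ (2 * Dg * AA k0 KK d L kp) := by
  have h : kf i * kf j ≤ Fintype.card k0 ^ (2 * Dg * AA k0 KK d L kp) := by
    calc kf i * kf j ≤ Fintype.card k0 ^ (Dg * AA k0 KK d L kp) *
          Fintype.card k0 ^ (Dg * AA k0 KK d L kp) := Nat.mul_le_mul (H.le i) (H.le j)
      _ = _ := by rw [← pow_add]; congr 1; ring
  exact_mod_cast h

theorem ratio (_ : Out e x Γ Dg pr kf) (i j : Fin r) :
    (Fintype.card (Label k0 KK d kp L × Label k0 KK d kp L) : ℝ) * ((kf i * kf j : ℕ) : ℝ) /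
      Fintype.card (Label k0 KK d kp L × Label k0 KK d kp L) = ((kf i * kf j : ℕ) : ℝ) := by
  have : Nonempty (Label k0 KK d kp L) := ⟨0⟩
  have h : (0 : ℝ) < Fintype.card (Label k0 KK d kp L × Label k0 KK d kp L) := by
    exact_mod_cast Fintype.card_pos
  field_simp

/-- plan B: the density budget `hD` -/
theorem hD_of (H : Out e x Γ Dg pr kf) {c D : ℝ} (hc : 0 ≤ c)
    (hD : c * (Fintype.card k0 : ℝ) ^ (2 * Dg * AA k0 KK d L kp) ≤ D) (i j : Fin r) :
    c * ((Fintype.card (Label k0 KK d kp L × Label k0 KK d kp L) : ℝ) * ((kf i * kf j : ℕ) : ℝ) /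
      Fintype.card (Label k0 KK d kp L × Label k0 KK d kp L)) ≤ D := by
  rw [ratio H]
  exact (mul_le_mul_of_nonneg_left (mul_le H i j) hc).trans hD

/-- plan A: the entropy budget `hbb` -/
theorem hbb_of (H : Out e x Γ Dg pr kf) {b b' : ℝ}
    (hb : b + 2 * Dg * AA k0 KK d L kp * Real.log (Fintype.card k0) ≤ b') (i j : Fin r) :
    b + Real.log ((Fintype.card (Label k0 KK d kp L × Label k0 KK d kp L) : ℝ) *
      ((kf i * kf j : ℕ) : ℝ) / Fintype.card (Label k0 KK d kp L × Label k0 KK d kp L)) ≤ b' := by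
  rw [ratio H]
  have h1 : Real.log ((kf i * kf j : ℕ) : ℝ) ≤
      Real.log ((Fintype.card k0 : ℝ) ^ (2 * Dg * AA k0 KK d L kp)) := by
    refine Real.log_le_log ?_ (mul_le H i j)
    exact_mod_cast Nat.mul_pos (H.pos i) (H.pos j)
  rw [Real.log_pow] at h1
  push_cast at h1 ⊢
  linarith

end budget

end Crest.Agent.R042.Plumb220
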