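import Crest.Agent.R042.Fam_543
import Crest.Agent.R042.PreRow_927

/-!
# Row 42, same-type gadget for the frozen family (helper927)

Labels of a type `P` with prescribed windows at `≤ kp` pairwise non-perpendicular types exist.
-/

set_option autoImplicit false
set_option linter.unusedSectionVars false

namespace Crest.Agent.R042.PreRow927

open Finset Crest.Agent.R042.RowWin543 Crest.Agent.R042.Fam543

section con

variable {KK I : Type} [Field KK] [Fintype I] [DecidableEq I] {kp : ℕ}

/-- contraction with a product functional (any finite index type). -/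
def conI (coef : Fin kp → I → KK) : ((Fin kp → I) → KK) →ₗ[KK] KK where
  toFun t := ∑ al, (∏ i, coef i (al i)) * t al
  map_add' s t := by simp [mul_add, Finset.sum_add_distrib]
  map_smul' c t := by
    simp only [Pi.smul_apply, smul_eq_mul, RingHom.id_apply, Finset.mul_sum]
    exact Finset.sum_congr rfl fun al _ => by ring

theorem conI_apply (coef : Fin kp → I → KK) (t : (Fin kp → I) → KK) :
    conI coef t = ∑ al, (∏ i, coef i (al i)) * t al := rfl

/-- value on a product tensor -/
theorem conI_prod (coef v : Fin kp → I → KK) :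
    conI coef (fun al => ∏ i, v i (al i)) = ∏ i, ∑ a, coef i a * v i a := by
  rw [conI_apply, Finset.prod_univ_sum, Fintype.piFinset_univ]
  exact Finset.sum_congr rfl fun al _ => Finset.prod_mul_distrib.symm

/-- if all the partial sums of `t` in the block `i0` against `coef i0` vanish, so does `conI`. -/
theorem conI_eq_zero (coef : Fin kp → I → KK) (i0 : Fin kp) (t : (Fin kp → I) → KK)
    (h : ∀ al : Fin kp → I, ∑ j, coef i0 j * t (Function.update al i0 j) = 0) :
    conI coef t = 0 := by
  classical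
  rw [conI_apply, ← (Equiv.funSplitAt i0 I).symm.sum_comp, Fintype.sum_prod_type, Finset.sum_comm]
  refine Finset.sum_eq_zero fun g _ => ?_
  by_cases hI : Nonempty I
  · obtain ⟨o⟩ := hI
    have key : ∀ j, (Equiv.funSplitAt i0 I).symm (j, g)
        = Function.update ((Equiv.funSplitAt i0 I).symm (o, g)) i0 j := by
      intro j
      funext i
      by_cases hi : i = i0
      · subst hi
        simp [Equiv.funSplitAt, Equiv.piSplitAt]
      · simp [Equiv.funSplitAt, Equiv.piSplitAt, hi, Function.update_of_ne]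
    have h2 : ∀ j, (∏ i, coef i ((Equiv.funSplitAt i0 I).symm (j, g) i))
        = coef i0 j * ∏ i ∈ univ.erase i0, coef i ((Equiv.funSplitAt i0 I).symm (o, g) i) := by
      intro j
      rw [← mul_prod_erase univ _ (mem_univ i0)]
      congr 1
      · simp [Equiv.funSplitAt, Equiv.piSplitAt]
      · refine prod_congr rfl fun i hi => ?_
        rw [key j, Function.update_of_ne (ne_of_mem_erase hi)]
    have h3 := h ((Equiv.funSplitAt i0 I).symm (o, g))
    calc ∑ j, (∏ i, coef i ((Equiv.funSplitAt i0 I).symm (j, g) i)) *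
          t ((Equiv.funSplitAt i0 I).symm (j, g))
        = (∏ i ∈ univ.erase i0, coef i ((Equiv.funSplitAt i0 I).symm (o, g) i)) *
          ∑ j, coef i0 j * t (Function.update ((Equiv.funSplitAt i0 I).symm (o, g)) i0 j) := by
          rw [mul_sum]
          refine sum_congr rfl fun j _ => ?_
          rw [h2 j, key j]; ring
      _ = 0 := by rw [h3, mul_zero]
  · rw [not_nonempty_iff] at hI
    exact Finset.sum_eq_zero fun j _ => (hI.false j).elim

end con

variable {k0 KK : Type} [Field k0] [Field KK] [Algebra k0 KK] [CharP KK 2]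

/-- a combination of the `u_{R j}` that is perpendicular to `R i0` is trivial. -/
theorem comb_eq_zero (e : ℕ) {d kp L n : ℕ} {K : Set k0} (hK : Alph K) (hL : 0 < L)
    (R : Fin n → Ty k0 KK d L) (hV : ∀ j, Valid K (R j))
    (hb : Function.Injective fun j => (R j).b)
    (hnp : ∀ i j, i ≠ j → ¬ Perp (R i) (R j)) (hn : n ≤ kp) (i0 : Fin n)
    (c : Fin n → k0)
    (hc : ∑ j, c j • uvec (2 ^ e) kp (R j) ∈ UP (2 ^ e) kp (R i0)) : c = 0 := by
  classical
  funext j0
  show c j0 = 0
  have hkp : 0 < kp := lt_of_lt_of_le i0.pos hn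
  let z0 : Fin kp := ⟨0, hkp⟩
  -- separating coordinates
  have hsep : ∀ j, j ≠ j0 → ∃ a, (R j).b a ≠ (R j0).b a := by
    intro j hj
    by_contra h
    push Not at h
    exact hj (hb (funext h))
  have hcard : Fintype.card {j : Fin n // j ≠ j0} ≤ Fintype.card {i : Fin kp // i ≠ z0} := by
    rw [Fintype.card_subtype_compl, Fintype.card_subtype_compl, Fintype.card_fin,
      Fintype.card_fin]
    simp only [Fintype.card_unique]
    omega
  obtain ⟨em⟩ : Nonempty ({j : Fin n // j ≠ j0} ↪ {i : Fin kp // i ≠ z0}) :=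
    Function.Embedding.nonempty_of_card_le hcard
  choose a ha using hsep
  let sep : Fin kp → {j : Fin n // j ≠ j0} → Prop := fun i j => (em j : Fin kp) = i
  let coef : Fin kp → Ix d → KK := fun i x =>
    if i = z0 then ((R i0).b (sw x)) ^ ((2 ^ e) ^ (i : ℕ))
    else if h : ∃ j : {j : Fin n // j ≠ j0}, (em j : Fin kp) = i then
      (if x = a h.choose.1 h.choose.2 then 1 else 0)
        - ((R h.choose.1).b (a h.choose.1 h.choose.2)) ^ ((2 ^ e) ^ (i : ℕ)) *
          (if x = none then 1 else 0)
    else (if x = none then 1 else 0)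
  have hval : ∀ i, i ≠ z0 → ∀ j', ∑ x, coef i x * ((R j').b x) ^ ((2 ^ e) ^ (i : ℕ)) =
      if h : ∃ j : {j : Fin n // j ≠ j0}, (em j : Fin kp) = i then
        ((R j').b (a h.choose.1 h.choose.2)) ^ ((2 ^ e) ^ (i : ℕ))
          - ((R h.choose.1).b (a h.choose.1 h.choose.2)) ^ ((2 ^ e) ^ (i : ℕ))
      else 1 := by
    intro i hi j'
    by_cases h : ∃ j : {j : Fin n // j ≠ j0}, (em j : Fin kp) = i
    · simp only [coef, if_neg hi, dif_pos h]
      simp only [sub_mul, Finset.sum_sub_distrib]
      congr 1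
      · simp
      · have : ∀ x, ((R h.choose.1).b (a h.choose.1 h.choose.2)) ^ ((2 ^ e) ^ (i : ℕ)) *
            (if x = none then (1 : KK) else 0) * ((R j').b x) ^ ((2 ^ e) ^ (i : ℕ)) =
            if x = none then ((R h.choose.1).b (a h.choose.1 h.choose.2)) ^ ((2 ^ e) ^ (i : ℕ)) *
              ((R j').b x) ^ ((2 ^ e) ^ (i : ℕ)) else 0 := by
          intro x; split_ifs <;> ring
        simp only [this]
        rw [Finset.sum_ite_eq' Finset.univ none]
        simp [(hV j').b0]
    · simp only [coef, if_neg hi, dif_neg h]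
      simp [(hV j').b0]
  have hz : ∀ j', ∑ x, coef z0 x * ((R j').b x) ^ ((2 ^ e) ^ (z0 : ℕ)) =
      B (R i0).b (R j').b := by
    intro j'
    simp only [coef, if_true]
    simp [B, z0]
  have hPhi : ∀ j', conI coef (Fam543.Phi (2 ^ e) (R j').b) =
      ∏ i, ∑ x, coef i x * ((R j').b x) ^ ((2 ^ e) ^ (i : ℕ)) := by
    intro j'
    exact conI_prod coef (fun i x => ((R j').b x) ^ ((2 ^ e) ^ (i : ℕ)))
  have hkill : ∀ j, j ≠ j0 → conI coef (Fam543.Phi (2 ^ e) (R j).b) = 0 := by
    intro j hj
    rw [hPhi]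
    apply Finset.prod_eq_zero (Finset.mem_univ ((em ⟨j, hj⟩ : {i : Fin kp // i ≠ z0}) : Fin kp))
    rw [hval _ (em ⟨j, hj⟩).2]
    have h : ∃ j' : {j : Fin n // j ≠ j0}, (em j' : Fin kp) = (em ⟨j, hj⟩ : Fin kp) :=
      ⟨⟨j, hj⟩, rfl⟩
    rw [dif_pos h]
    have hch : h.choose = ⟨j, hj⟩ := em.injective (Subtype.ext h.choose_spec)
    have h1 : R j = R (h.choose).1 := by rw [hch]
    rw [sub_eq_zero]
    generalize_proofs p1
    rw [h1]
  have hnz : conI coef (Fam543.Phi (2 ^ e) (R j0).b) ≠ 0 := by
    rw [hPhi, Finset.prod_ne_zero_iff]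
    intro i _
    by_cases hi : i = z0
    · subst hi
      rw [hz]
      by_cases hij : i0 = j0
      · rw [hij]; exact (hV j0).aniso
      · exact hnp i0 j0 hij
    · rw [hval i hi]
      by_cases h : ∃ j : {j : Fin n // j ≠ j0}, (em j : Fin kp) = i
      · rw [dif_pos h]
        intro h0
        rw [sub_eq_zero, ← pow_mul] at h0
        have h2 : ((R j0).b (a h.choose.1 h.choose.2)) = ((R h.choose.1).b
            (a h.choose.1 h.choose.2)) := by
          have hinj := iterateFrobenius_inj KK 2 (e * (i : ℕ))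
          apply hinj
          simpa [iterateFrobenius_def, pow_mul] using h0
        exact ha h.choose.1 h.choose.2 h2.symm
      · rw [dif_neg h]; exact one_ne_zero
  -- the membership gives zero contraction
  have hmem : ∀ l, conI coef ((∑ j, c j • uvec (2 ^ e) kp (R j)) l) = 0 := by
    intro l
    apply conI_eq_zero coef z0
    intro al
    have h1 := (mem_T1.1 (hc l)) z0
    have h2 := congrFun h1 al
    have h3 : ∑ j, ((R i0).b (sw j)) ^ ((2 ^ e) ^ (z0 : ℕ)) *
        ((∑ j, c j • uvec (2 ^ e) kp (R j)) l) (Function.update al z0 j) = 0 := h2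
    simpa [coef] using h3
  have h4 := hmem ⟨0, hL⟩
  have h5 : (∑ j, c j • uvec (2 ^ e) kp (R j)) ⟨0, hL⟩ =
      ∑ j, (algebraMap k0 KK (c j) * (algebraMap k0 KK ((R j).E ⟨0, hL⟩) * (R j).lam)) •
        (Fam543.Phi (2 ^ e) (R j).b : U0 KK d kp) := by
    rw [Finset.sum_apply]
    refine Finset.sum_congr rfl fun j _ => ?_
    funext al
    have h9 : ∀ (x y : KK), c j • (x * y) = (algebraMap k0 KK (c j) * x) * y := by
      intro x y
      rw [Algebra.smul_def, mul_assoc]
    show c j • (((algebraMap k0 KK ((R j).E ⟨0, hL⟩) * (R j).lam)) *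
      (Fam543.Phi (2 ^ e) (R j).b : U0 KK d kp) al) = _ * (Fam543.Phi (2 ^ e) (R j).b : U0 KK d kp) al
    rw [h9]
  rw [h5, map_sum, Finset.sum_eq_single j0] at h4
  · rw [map_smul, smul_eq_mul] at h4
    have h6 := (mul_eq_zero.1 h4).resolve_right hnz
    have hE : algebraMap k0 KK ((R j0).E ⟨0, hL⟩) ≠ 0 := by
      rw [Ne, map_eq_zero]; exact hK.ne_zero ((hV j0).E _)
    have hlam : (R j0).lam ≠ 0 := by
      intro h0
      have := (hV j0).lam
      rw [h0, map_zero] at this
      exact zero_ne_one this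
    have h7 := (mul_eq_zero.1 h6).resolve_right (mul_ne_zero hE hlam)
    exact (map_eq_zero _).1 h7
  · intro j _ hj
    rw [map_smul, hkill j hj, smul_zero]
  · intro h; exact absurd (Finset.mem_univ j0) h

/-- **labels with prescribed windows exist** -/
theorem exists_label (e : ℕ) {d kp L n : ℕ} {K : Set k0} (hK : Alph K) (hL : 0 < L)
    (P : Ty k0 KK d L) (R : Fin n → Ty k0 KK d L) (hV : ∀ j, Valid K (R j))
    (hb : Function.Injective fun j => (R j).b)
    (hnp : ∀ i j, i ≠ j → ¬ Perp (R i) (R j)) (hn : n ≤ kp)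
    (β : Fin n → (U KK d kp L →ₗ[k0] k0)) :
    ∃ f : Label k0 KK d kp L, ∀ i, ∀ x ∈ UPQ (2 ^ e) kp P (R i),
      f.1 (uvec (2 ^ e) kp (R i)) x = β i x := by
  classical
  have hu : LinearIndependent k0 (fun j => uvec (2 ^ e) kp (R j)) := by
    rw [Fintype.linearIndependent_iff]
    intro c hc i
    have := comb_eq_zero e hK hL R hV hb hnp hn i c (by rw [hc]; exact Submodule.zero_mem _)
    exact congrFun this i
  have hd : ∀ i, Disjoint (UPQ (2 ^ e) kp P (R i))
      (Submodule.span k0 (Set.range fun j => uvec (2 ^ e) kp (R j))) := by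
    intro i
    rw [Submodule.disjoint_def]
    intro x hx hxs
    obtain ⟨c, rfl⟩ := (Submodule.mem_span_range_iff_exists_fun k0).1 hxs
    have := comb_eq_zero e hK hL R hV hb hnp hn i c (Submodule.mem_inf.1 hx).2
    simp [this]
  obtain ⟨f, hf, hfi⟩ := exists_symm_rows (fun j => uvec (2 ^ e) kp (R j))
    (fun i => UPQ (2 ^ e) kp P (R i)) hu hd (fun i => (β i).comp (Submodule.subtype _))
  exact ⟨⟨f, hf⟩, fun i x hx => hfi i x hx⟩

end Crest.Agent.R042.PreRow927
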