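import Crest.Agent.R042.Step_477

/-!
# Row 42, plan B: extraction of a pattern from a relation, union bound (helper477)
-/

namespace Crest.Agent.R042.Prob477

open Finset Function Rel477 Seq477 Step477
open scoped Classical

noncomputable section

variable {F W Ω : Type*} [Field F] [AddCommGroup W] [Module F W] [Fintype Ω]

/-- the pair indices in `Fin (2n)` -/
def idx {n : ℕ} (r : Fin n) : Bool → Fin (2 * n)
  | false => ⟨2 * r, by have := r.2; omega⟩
  | true => ⟨2 * r + 1, by have := r.2; omega⟩

/-- `F`-patterns -/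
abbrev Pat (F : Type*) (n b : ℕ) : Type _ :=
  (Fin n → Bool → Fin b) × (Bool → Bool → F) × (Bool → Bool → F) ×
    (Fin n → Bool → Fin b → Bool → F) × (Fin n → Bool → Fin b × Bool → F)

/-- coordinates revealed before step `r` -/
def Out {n b : ℕ} (κ : Fin n → Bool → Fin b) (r : Fin n) : Finset (Fin b) :=
  univ.filter (fun i => ∀ t, r ≤ t → ∀ j, i ≠ κ t j)

/-- the part of the character which is determined before step `r` -/
def Zf {n b : ℕ} (u : Ω → Bool → W) (p : Pat F n b) (T : Finset (Fin b))
    (θ : ↥(T ×ˢ (univ : Finset Bool)) → W) (S : Bool → W) (r : Fin n) (ω : Fin b → Ω) (j : Bool) :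
    W :=
  ∑ i ∈ Out p.1 r, ∑ j', p.2.2.2.1 r j i j' • u (ω i) j' + ∑ d, p.2.2.2.2 r j d.1 • θ d +
    ∑ j', p.2.2.1 j j' • S j'

lemma Zf_update {n b : ℕ} (u : Ω → Bool → W) (p : Pat F n b) (T : Finset (Fin b))
    (θ : ↥(T ×ˢ (univ : Finset Bool)) → W) (S : Bool → W) (r t : Fin n) (h : r ≤ t) (i : Bool)
    (ω : Fin b → Ω) (x : Ω) : Zf u p T θ S r (update ω (p.1 t i) x) = Zf u p T θ S r ω := by
  funext j
  unfold Zf
  congr 2
  refine Finset.sum_congr rfl fun k hk => ?_
  simp only [Out, Finset.mem_filter, Finset.mem_univ, true_and] at hk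
  rw [update_of_ne (hk t h i)]

/-- injectivity of the pair positions -/
def Inj {n b : ℕ} (κ : Fin n → Bool → Fin b) : Prop :=
  (∀ r t, r < t → ∀ i j, κ t i ≠ κ r j) ∧ (∀ r, κ r false ≠ κ r true)

/-- event of a pattern -/
def Ev {n b : ℕ} (u : Ω → Bool → W) (D : Ω → Bool → Submodule F W) (p : Pat F n b)
    (T : Finset (Fin b)) (θ : ↥(T ×ˢ (univ : Finset Bool)) → W) (S : Bool → W) (ω : Fin b → Ω) :
    Prop :=
  Inj p.1 ∧ ∀ r, ((∀ j, ch u p.2.1 (Zf u p T θ S r ω) (ω (p.1 r false)) (ω (p.1 r true)) j ∈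
    D (ω (p.1 r true)) j) ∧ ¬ Triv F (u (ω (p.1 r true)))
    (ch u p.2.1 (Zf u p T θ S r ω) (ω (p.1 r false)) (ω (p.1 r true))))

variable {τ : Ω → ℝ} {u : Ω → Bool → W} {D : Ω → Bool → Submodule F W} {δ : ℝ}

lemma Law.nonneg_delta (H : Law τ u D δ) : 0 ≤ δ :=
  (pr_nonneg H.nonneg _).trans (H.t1 0 (fun _ => 1) (by
    intro h; have := congrFun h true; simp at this))

theorem ev_bound {n b : ℕ} (H : Law τ u D δ) (p : Pat F n b) (T : Finset (Fin b))
    (θ : ↥(T ×ˢ (univ : Finset Bool)) → W) (S : Bool → W) :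
    Ex τ (fun ω => ind (Ev u D p T θ S ω)) ≤ (2 * δ) ^ n := by
  have hδ := Law.nonneg_delta H
  by_cases hp : Inj p.1
  · have := pattern_bound H hδ n p.1 hp.1 hp.2 p.2.1 (fun r ω => Zf u p T θ S r ω)
      (fun r t h i ω x => by convert Zf_update u p T θ S r t h i ω x)
    refine le_trans (Ex_mono H.nonneg fun ω => ind_mono ?_) this
    intro h
    exact h.2
  · have : (fun ω => ind (Ev u D p T θ S ω)) = fun _ => (0:ℝ) := by
      funext ω
      exact ind_false fun h => hp h.1
    rw [this]
    unfold Ex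
    simp only [mul_zero, Finset.sum_const_zero]
    positivity

/-- the coefficient identity: all the combinatorics of the totals trick -/
theorem extract {n b : ℕ} (T : Finset (Fin b)) (ω : Fin b → Ω) (e : Fin b → Bool → W)
    (c a a' : Fin b × Bool → Fin b × Bool → F)
    (he : ∀ p : Fin b × Bool, p.1 ∉ T → e p.1 p.2 =
      ∑ l ∈ (T ×ˢ (univ : Finset Bool))ᶜ, c p l • u (ω l.1) l.2 +
      ∑ l ∈ T ×ˢ (univ : Finset Bool), (a p l • e l.1 l.2 + a' p l • u (ω l.1) l.2))
    (hc : ∀ p : Fin b × Bool, p.1 ∉ T → ∀ k : Fin b × Bool, k.1 ∉ T →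
      c p k + c k p = ∑ l ∈ T ×ˢ (univ : Finset Bool), (a k l * a' p l + a' k l * a p l))
    (v : Fin (2 * n) → Fin b) (hv : Injective v) (hvT : ∀ s, v s ∉ T)
    (G C₀ : Bool → Bool → F)
    (hG : ∀ s t, s < t → ∀ j j', c (v s, j) (v t, j') = G j j')
    (hC : ∀ s, ∀ j j', c (v s, j) (v s, j') = C₀ j j')
    (ha : ∀ s t, ∀ j, ∀ l ∈ T ×ˢ (univ : Finset Bool), a (v s, j) l = a (v t, j) l)
    (ha' : ∀ s t, ∀ j, ∀ l ∈ T ×ˢ (univ : Finset Bool), a' (v s, j) l = a' (v t, j) l) :
    ∃ (p : Pat F n b) (θ : ↥(T ×ˢ (univ : Finset Bool)) → W) (S : Bool → W),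
      Inj p.1 ∧ (∀ r j, p.1 r j = v (idx r j)) ∧
      ∀ r, ch u p.2.1 (Zf u p T θ S r ω) (ω (p.1 r false)) (ω (p.1 r true)) = e (p.1 r true) := by
  set M : Bool → Bool → F := fun j i => C₀ j i - G j i with hM
  set κ : Fin n → Bool → Fin b := fun r j => v (idx r j) with hκ
  set β : Fin n → Bool → Fin b → Bool → F := fun r j i j' =>
    if i ∈ T then a' (v (idx r true), j) (i, j') else c (v (idx r true), j) (i, j') with hβ
  set A : Fin n → Bool → Fin b → Bool → F := fun r j i j' =>
    if i ∈ Set.range v then β r j i j' - G j j' else β r j i j' with hA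
  refine ⟨(κ, M, G, A, fun r j d => a (v (idx r true), j) d),
    fun d => e d.1.1 d.1.2, fun j => ∑ t, u (ω (v t)) j, ⟨?_, ?_⟩, fun r j => rfl, ?_⟩
  · intro r t hrt i j h
    have := hv h
    have h1 : (idx t i : Fin (2*n)).1 = (idx r j).1 := by rw [this]
    have h2 : (r : ℕ) < t := hrt
    cases i <;> cases j <;> simp only [idx] at h1 <;> omega
  · intro r h
    have := hv h
    have h1 : (idx r false : Fin (2*n)).1 = (idx r true).1 := by rw [this]
    simp only [idx] at h1; omega
  · intro r
    funext j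
    have hs := he (v (idx r true), j) (hvT _)
    simp only at hs ⊢
    rw [show e (κ r true) j = e (v (idx r true)) j from rfl, hs]
    -- left side
    unfold ch Zf
    simp only
    -- split off θ
    have hθ : ∑ d : ↥(T ×ˢ (univ : Finset Bool)), a (v (idx r true), j) d.1 • e d.1.1 d.1.2
        = ∑ l ∈ T ×ˢ (univ : Finset Bool), a (v (idx r true), j) l • e l.1 l.2 :=
      Finset.sum_coe_sort (T ×ˢ (univ : Finset Bool))
        (fun l => a (v (idx r true), j) l • e l.1 l.2)
    -- the u-part of the right side as a full sum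
    have hu : ∑ l ∈ (T ×ˢ (univ : Finset Bool))ᶜ, c (v (idx r true), j) l • u (ω l.1) l.2 +
        ∑ l ∈ T ×ˢ (univ : Finset Bool), a' (v (idx r true), j) l • u (ω l.1) l.2
        = ∑ i, ∑ j', β r j i j' • u (ω i) j' := by
      rw [← Fintype.sum_prod_type' (f := fun i j' => β r j i j' • u (ω i) j')]
      rw [← Finset.sum_compl_add_sum (T ×ˢ (univ : Finset Bool))]
      congr 1
      · refine Finset.sum_congr rfl fun l hl => ?_
        have : l.1 ∉ T := by simpa using hl
        simp [hβ, this]
      · refine Finset.sum_congr rfl fun l hl => ?_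
        have : l.1 ∈ T := by simpa using hl
        simp [hβ, this]
    -- splitting of sums over Fin b
    have hsplit : ∀ g : Fin b → W, ∑ i, g i = ∑ i ∈ univ.filter (fun i => i ∉ Set.range v), g i +
        ∑ t, g (v t) := by
      intro g
      rw [← Finset.sum_filter_add_sum_filter_not univ (fun i => i ∉ Set.range v) g]
      congr 1
      rw [← Finset.sum_image (s := (univ : Finset (Fin (2*n)))) (g := v) (f := g)
        (fun x _ y _ h => hv h)]
      refine Finset.sum_congr ?_ fun _ _ => rfl
      ext i; simp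
    have hout : ∀ g : Fin b → W, ∑ i ∈ Out κ r, g i =
        ∑ i ∈ univ.filter (fun i => i ∉ Set.range v), g i +
        ∑ t : Fin (2 * n), if (t : ℕ) < 2 * r then g (v t) else 0 := by
      intro g
      have h1 : ∑ i ∈ Out κ r, g i = ∑ i, if i ∈ Out κ r then g i else 0 := by
        rw [Finset.sum_ite_mem, Finset.univ_inter]
      rw [h1, hsplit]
      congr 1
      · refine Finset.sum_congr rfl fun i hi => ?_
        rw [if_pos]
        simp only [Out, Finset.mem_filter, Finset.mem_univ, true_and] at hi ⊢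
        intro t _ j' h
        exact hi ⟨_, h.symm⟩
      · refine Finset.sum_congr rfl fun t _ => ?_
        by_cases ht : (t : ℕ) < 2 * r
        · rw [if_pos ht, if_pos]
          simp only [Out, Finset.mem_filter, Finset.mem_univ, true_and]
          intro t' htt' j' h
          have := hv h
          have h1 : (t : ℕ) = (idx t' j').1 := by rw [this]
          have h2 : (r : ℕ) ≤ t' := htt'
          cases j' <;> simp only [idx] at h1 <;> omega
        · rw [if_neg ht, if_neg]
          simp only [Out, Finset.mem_filter, Finset.mem_univ, true_and, not_forall]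
          have ht2 := t.2
          rcases Nat.even_or_odd' (t : ℕ) with ⟨k, hk | hk⟩
          · refine ⟨⟨k, by omega⟩, ?_, false, ?_⟩
            · show (r : ℕ) ≤ k; omega
            · simp only [hκ, idx, ne_eq, not_not]
              congr 1; ext; simp [hk]
          · refine ⟨⟨k, by omega⟩, ?_, true, ?_⟩
            · show (r : ℕ) ≤ k; omega
            · simp only [hκ, idx, ne_eq, not_not]
              congr 1; ext; simp [hk]
    -- pointwise coefficient identity on the range
    have hcoef : ∀ (t : Fin (2 * n)) (j' : Bool), β r j (v t) j' =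
        (if (t : ℕ) < 2 * r then A r j (v t) j' else 0) + G j j' +
        (if t = idx r false then M j j' + M j' j else 0) +
        (if t = idx r true then M j j' else 0) := by
      intro t j'
      have hβt : β r j (v t) j' = c (v (idx r true), j) (v t, j') := by
        simp [hβ, hvT t]
      have hAt : A r j (v t) j' = c (v (idx r true), j) (v t, j') - G j j' := by
        simp only [hA, Set.mem_range_self, if_true, hβt]
      rw [hAt, hβt]
      have hT : (idx r true : Fin (2*n)).1 = 2 * r + 1 := rfl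
      have hF : (idx r false : Fin (2*n)).1 = 2 * r := rfl
      rcases lt_trichotomy (t : ℕ) (2 * r) with h | h | h
      · have h1 : t ≠ idx r false := fun h' => by rw [h'] at h; simp [hF] at h
        have h2 : t ≠ idx r true := fun h' => by rw [h'] at h; simp [hT] at h
        rw [if_pos h, if_neg h1, if_neg h2]; ring
      · have h1 : t = idx r false := Fin.ext (by rw [hF]; exact h)
        have h2 : t ≠ idx r true := fun h' => by rw [h'] at h; simp [hT] at h
        rw [if_neg (by omega), if_pos h1, if_neg h2, h1]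
        have e1 := hc (v (idx r true), j) (hvT _) (v (idx r false), j') (hvT _)
        have e2 := hc (v (idx r true), j) (hvT _) (v (idx r true), j') (hvT _)
        have e3 : c (v (idx r false), j') (v (idx r true), j) = G j' j :=
          hG _ _ (by show (idx r false : Fin (2*n)).1 < (idx r true).1; rw [hF, hT]; omega) _ _
        rw [e3] at e1
        rw [hC, hC] at e2
        have e4 : ∑ l ∈ T ×ˢ (univ : Finset Bool), (a (v (idx r false), j') l *
            a' (v (idx r true), j) l + a' (v (idx r false), j') l * a (v (idx r true), j) l)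
            = ∑ l ∈ T ×ˢ (univ : Finset Bool), (a (v (idx r true), j') l *
            a' (v (idx r true), j) l + a' (v (idx r true), j') l * a (v (idx r true), j) l) := by
          refine Finset.sum_congr rfl fun l hl => ?_
          rw [ha (idx r false) (idx r true) j' l hl, ha' (idx r false) (idx r true) j' l hl]
        rw [e4, ← e2] at e1
        simp only [hM]
        linear_combination e1
      · by_cases h' : (t : ℕ) = 2 * r + 1
        · have h2 : t = idx r true := Fin.ext (by rw [hT]; exact h')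
          have h1 : t ≠ idx r false := fun h'' => by rw [h''] at h'; simp [hF] at h'
          rw [if_neg (by omega), if_neg h1, if_pos h2, h2, hC]
          simp only [hM]; ring
        · have h1 : t ≠ idx r false := fun h'' => by rw [h''] at h; simp [hF] at h
          have h2 : t ≠ idx r true := fun h'' => by rw [h''] at h'; simp [hT] at h'
          rw [if_neg (by omega), if_neg h1, if_neg h2]
          rw [hG (idx r true) t (by show (idx r true : Fin (2*n)).1 < t; rw [hT]; omega)]
          ring
    rw [Finset.sum_add_distrib, hθ]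
    have key : ∑ i, ∑ j', β r j i j' • u (ω i) j' =
        ∑ i ∈ Out κ r, ∑ j', A r j i j' • u (ω i) j' + ∑ j', G j j' • ∑ t, u (ω (v t)) j' +
        (∑ i, (M j i + M i j) • u (ω (κ r false)) i + ∑ i, M j i • u (ω (κ r true)) i) := by
      rw [hsplit, hout]
      have h1 : ∑ i ∈ univ.filter (fun i => i ∉ Set.range v), ∑ j', β r j i j' • u (ω i) j'
          = ∑ i ∈ univ.filter (fun i => i ∉ Set.range v), ∑ j', A r j i j' • u (ω i) j' := by
        refine Finset.sum_congr rfl fun i hi => Finset.sum_congr rfl fun j' _ => ?_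
        have : i ∉ Set.range v := by simpa using hi
        simp only [hA, if_neg this]
      rw [h1]
      have h2 : ∑ t, ∑ j', β r j (v t) j' • u (ω (v t)) j' =
          ∑ t : Fin (2 * n), ((if (t : ℕ) < 2 * r then ∑ j', A r j (v t) j' • u (ω (v t)) j' else 0)
            + ∑ j', G j j' • u (ω (v t)) j'
            + (if t = idx r false then ∑ j', (M j j' + M j' j) • u (ω (v t)) j' else 0)
            + (if t = idx r true then ∑ j', M j j' • u (ω (v t)) j' else 0)) := by
        refine Finset.sum_congr rfl fun t _ => ?_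
        have : ∀ j', β r j (v t) j' • u (ω (v t)) j' =
            (if (t : ℕ) < 2 * r then A r j (v t) j' • u (ω (v t)) j' else 0)
            + G j j' • u (ω (v t)) j'
            + (if t = idx r false then (M j j' + M j' j) • u (ω (v t)) j' else 0)
            + (if t = idx r true then M j j' • u (ω (v t)) j' else 0) := by
          intro j'
          rw [hcoef t j']
          simp only [add_smul, ite_smul, zero_smul]
        simp only [this, Finset.sum_add_distrib]
        congr 1
        · congr 1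
          · congr 1
            split_ifs <;> simp
          · split_ifs <;> simp
        · split_ifs <;> simp
      rw [h2]
      simp only [Finset.sum_add_distrib]
      rw [Finset.sum_ite_eq' univ (idx r false), Finset.sum_ite_eq' univ (idx r true)]
      simp only [Finset.mem_univ, if_true]
      have h3 : ∑ j', G j j' • ∑ t, u (ω (v t)) j' = ∑ t, ∑ j', G j j' • u (ω (v t)) j' := by
        rw [Finset.sum_comm]
        exact Finset.sum_congr rfl fun j' _ => Finset.smul_sum
      rw [h3]
      simp only [hκ]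
      abel
    have hu' := hu
    rw [key] at hu'
    have goal' : ∑ l ∈ (T ×ˢ (univ : Finset Bool))ᶜ, c (v (idx r true), j) l • u (ω l.1) l.2 +
        (∑ l ∈ T ×ˢ (univ : Finset Bool), a (v (idx r true), j) l • e l.1 l.2 +
          ∑ l ∈ T ×ˢ (univ : Finset Bool), a' (v (idx r true), j) l • u (ω l.1) l.2) =
        ∑ l ∈ T ×ˢ (univ : Finset Bool), a (v (idx r true), j) l • e l.1 l.2 +
        (∑ l ∈ (T ×ˢ (univ : Finset Bool))ᶜ, c (v (idx r true), j) l • u (ω l.1) l.2 +
          ∑ l ∈ T ×ˢ (univ : Finset Bool), a' (v (idx r true), j) l • u (ω l.1) l.2) := by abel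
    rw [goal', hu']
    abel

/-- dependent blocks -/
def Dep (F : Type*) {W Ω : Type*} [Field F] [AddCommGroup W] [Module F W]
    (u : Ω → Bool → W) {b : ℕ} (ω : Fin b → Ω) : Finset (Fin b) :=
  univ.filter (fun k => ∃ α : Bool → F, α ≠ 0 ∧
    ∑ j, α j • u (ω k) j ∈ Submodule.span F {w | ∃ l < k, ∃ j, w = u (ω l) j})

theorem exists_ev [Fintype F] {n h b b₁ : ℕ}
    (hb : EHN (Fintype.card (Bool → Bool → F)) (Fintype.card F ^ (8 + 8 * h) * (2 * n)) + h ≤ b₁)
    (ω : Fin b → Ω) (e : Fin b → Bool → W) (hval : ∀ k j, e k j ∈ D (ω k) j)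
    (hrel : IsRel F (fun p : Fin b × Bool => u (ω p.1) p.2) (fun p => e p.1 p.2))
    (hdep : (Dep F u ω).card < h)
    (hLI : LinearIndependent F (fun p : {p : Fin b × Bool // p.1 ∉ Dep F u ω} => u (ω p.1.1) p.1.2))
    (hnt : b₁ ≤ (univ.filter (fun k => ¬ Triv F (u (ω k)) (e k))).card) :
    ∃ (p : Pat F n b) (θ : ↥((Dep F u ω) ×ˢ (univ : Finset Bool)) → W) (S : Bool → W),
      Ev u D p (Dep F u ω) θ S ω := by
  set T := Dep F u ω with hT
  have hLI' : LinearIndependent F (fun i : {i : Fin b × Bool // i ∉ T ×ˢ (univ : Finset Bool)} =>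
      (fun p : Fin b × Bool => u (ω p.1) p.2) i) := by
    have := hLI.comp (fun i : {i : Fin b × Bool // i ∉ T ×ˢ (univ : Finset Bool)} =>
      (⟨i.1, by simpa using i.2⟩ : {p : Fin b × Bool // p.1 ∉ T})) (by
        intro x y hxy
        have := congrArg Subtype.val hxy
        exact Subtype.ext this)
    exact this
  obtain ⟨c, a, a', he, hc⟩ := structure' hrel (T ×ˢ (univ : Finset Bool)) hLI'
  have he' : ∀ p : Fin b × Bool, p.1 ∉ T → e p.1 p.2 =
      ∑ l ∈ (T ×ˢ (univ : Finset Bool))ᶜ, c p l • u (ω l.1) l.2 +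
      ∑ l ∈ T ×ˢ (univ : Finset Bool), (a p l • e l.1 l.2 + a' p l • u (ω l.1) l.2) := by
    intro p hp
    exact he p (by simpa using hp)
  have hc' : ∀ p : Fin b × Bool, p.1 ∉ T → ∀ k : Fin b × Bool, k.1 ∉ T →
      c p k + c k p = ∑ l ∈ T ×ˢ (univ : Finset Bool), (a k l * a' p l + a' k l * a p l) := by
    intro p hp k hk
    exact hc p (by simpa using hp) k (by simpa using hk)
  -- end-homogeneous sequence
  set J := (univ.filter (fun k => ¬ Triv F (u (ω k)) (e k))) \ T with hJ
  have hJc : EHN (Fintype.card (Bool → Bool → F)) (Fintype.card F ^ (8 + 8 * h) * (2 * n)) ≤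
      J.card := by
    have h1 : (univ.filter (fun k => ¬ Triv F (u (ω k)) (e k))).card - T.card ≤ J.card := by
      rw [hJ]
      convert Finset.le_card_sdiff T (univ.filter (fun k => ¬ Triv F (u (ω k)) (e k)))
    omega
  obtain ⟨v, g, hv, hvJ, hcol⟩ := exists_endhom _ le_rfl
    (fun k l : Fin b => fun j j' => c (k, j) (l, j')) _ J hJc
  -- vertex colours
  let K₂ := (Bool → Bool → F) × (Bool → Bool → F) ×
    (Bool → ↥(T ×ˢ (univ : Finset Bool)) → F) × (Bool → ↥(T ×ˢ (univ : Finset Bool)) → F)
  let vc : Fin (Fintype.card F ^ (8 + 8 * h) * (2 * n)) → K₂ := fun s =>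
    (g s, fun j j' => c (v s, j) (v s, j'), fun j l => a (v s, j) l.1, fun j l => a' (v s, j) l.1)
  have hK₂ : Fintype.card K₂ ≤ Fintype.card F ^ (8 + 8 * h) := by
    have h1 : Fintype.card K₂ = (Fintype.card F ^ 2) ^ 2 * ((Fintype.card F ^ 2) ^ 2 *
        ((Fintype.card F ^ (T.card * 2)) ^ 2 * (Fintype.card F ^ (T.card * 2)) ^ 2)) := by
      have hc2 : Fintype.card ↥(T ×ˢ (univ : Finset Bool)) = T.card * 2 := by
        rw [Fintype.card_coe, Finset.card_product]; simp
      simp only [K₂, Fintype.card_prod, Fintype.card_fun, Fintype.card_bool, hc2]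
    rw [h1, ← pow_mul, ← pow_mul, ← pow_add, ← pow_add, ← pow_add]
    exact Nat.pow_le_pow_right Fintype.card_pos (by omega)
  have hcard : (Finset.univ : Finset K₂).card * (2 * n) ≤
      (Finset.univ : Finset (Fin (Fintype.card F ^ (8 + 8 * h) * (2 * n)))).card := by
    rw [Finset.card_univ, Finset.card_univ, Fintype.card_fin]
    exact Nat.mul_le_mul_right _ hK₂
  obtain ⟨y, -, hy⟩ := Finset.exists_le_card_fiber_of_mul_le_card_of_maps_to
    (s := (Finset.univ : Finset (Fin (Fintype.card F ^ (8 + 8 * h) * (2 * n)))))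
    (t := (Finset.univ : Finset K₂)) (f := vc) (fun _ _ => Finset.mem_univ _)
    Finset.univ_nonempty hcard
  set emb := Finset.orderEmbOfCardLe _ hy with hemb
  have hmem : ∀ s, vc (emb s) = y := by
    intro s
    have := Finset.orderEmbOfCardLe_mem _ hy s
    simpa using this
  have hvT : ∀ s, v (emb s) ∉ T := by
    intro s
    have := hvJ (emb s)
    rw [hJ, Finset.mem_sdiff] at this
    exact this.2
  obtain ⟨p, θ, S, hinj, hp1, hch⟩ := extract (n := n) (u := u) T ω e c a a' he' hc'
    (fun s => v (emb s)) (fun s t hst => emb.injective (hv hst)) hvT y.1 y.2.1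
    (by
      intro s t hst j j'
      have h1 := congrFun (congrFun (hcol (emb s) (emb t) (emb.strictMono hst)) j) j'
      have h2 : g (emb s) = y.1 := congrArg Prod.fst (hmem s)
      rw [h2] at h1
      exact h1)
    (by
      intro s j j'
      have h2 : (vc (emb s)).2.1 = y.2.1 := by rw [hmem s]
      exact congrFun (congrFun h2 j) j')
    (by
      intro s t j l hl
      have h2 : (vc (emb s)).2.2.1 = (vc (emb t)).2.2.1 := by rw [hmem s, hmem t]
      exact congrFun (congrFun h2 j) ⟨l, hl⟩)
    (by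
      intro s t j l hl
      have h2 : (vc (emb s)).2.2.2 = (vc (emb t)).2.2.2 := by rw [hmem s, hmem t]
      exact congrFun (congrFun h2 j) ⟨l, hl⟩)
  refine ⟨p, θ, S, hinj, fun r => ?_⟩
  rw [hch r]
  refine ⟨fun j => hval _ j, ?_⟩
  have := hvJ (emb (idx r true))
  rw [hJ, Finset.mem_sdiff, Finset.mem_filter] at this
  rw [hp1 r true]
  exact this.1.2

theorem main_bound [Fintype F] [Fintype W] (H : Law τ u D δ) {n h b b₁ : ℕ}
    (hb : EHN (Fintype.card (Bool → Bool → F)) (Fintype.card F ^ (8 + 8 * h) * (2 * n)) + h ≤ b₁)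
    (hLI : ∀ ω : Fin b → Ω, LinearIndependent F
      (fun p : {p : Fin b × Bool // p.1 ∉ Dep F u ω} => u (ω p.1.1) p.1.2)) :
    Ex τ (fun ω : Fin b → Ω => ind ((Dep F u ω).card < h ∧ ∃ e : Fin b → Bool → W,
      (∀ k j, e k j ∈ D (ω k) j) ∧
      IsRel F (fun p : Fin b × Bool => u (ω p.1) p.2) (fun p => e p.1 p.2) ∧
      b₁ ≤ (univ.filter (fun k => ¬ Triv F (u (ω k)) (e k))).card)) ≤
    (2 ^ b * Fintype.card (Pat F n b) : ℕ) * (Fintype.card W : ℝ) ^ (2 * h + 2) * (2 * δ) ^ n := by
  have hδ := Law.nonneg_delta H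
  have h1 : ∀ ω : Fin b → Ω, ind ((Dep F u ω).card < h ∧ ∃ e : Fin b → Bool → W,
      (∀ k j, e k j ∈ D (ω k) j) ∧
      IsRel F (fun p : Fin b × Bool => u (ω p.1) p.2) (fun p => e p.1 p.2) ∧
      b₁ ≤ (univ.filter (fun k => ¬ Triv F (u (ω k)) (e k))).card) ≤
      ∑ T ∈ (univ : Finset (Finset (Fin b))).filter (fun T => T.card < h),
        ∑ p : Pat F n b, ∑ θ : ↥(T ×ˢ (univ : Finset Bool)) → W, ∑ S : Bool → W,
          ind (Ev u D p T θ S ω) := by
    intro ω
    by_cases hω : ((Dep F u ω).card < h ∧ ∃ e : Fin b → Bool → W,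
      (∀ k j, e k j ∈ D (ω k) j) ∧
      IsRel F (fun p : Fin b × Bool => u (ω p.1) p.2) (fun p => e p.1 p.2) ∧
      b₁ ≤ (univ.filter (fun k => ¬ Triv F (u (ω k)) (e k))).card)
    · rw [ind_true hω]
      obtain ⟨hd, e, hval, hrel, hnt⟩ := hω
      obtain ⟨p, θ, S, hev⟩ := exists_ev (n := n) hb ω e hval hrel hd (hLI ω) hnt
      have hn : ∀ (T : Finset (Fin b)) (p : Pat F n b) (θ : ↥(T ×ˢ (univ : Finset Bool)) → W)
        (S : Bool → W), 0 ≤ ind (Ev u D p T θ S ω) := fun _ _ _ _ => ind_nonneg _
      calc (1:ℝ) = ind (Ev u D p (Dep F u ω) θ S ω) := (ind_true hev).symm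
        _ ≤ ∑ S : Bool → W, ind (Ev u D p (Dep F u ω) θ S ω) :=
          Finset.single_le_sum (f := fun S => ind (Ev u D p (Dep F u ω) θ S ω))
            (fun S _ => hn _ _ _ _) (Finset.mem_univ S)
        _ ≤ ∑ θ, ∑ S : Bool → W, ind (Ev u D p (Dep F u ω) θ S ω) :=
          Finset.single_le_sum (f := fun θ => ∑ S : Bool → W, ind (Ev u D p (Dep F u ω) θ S ω))
            (fun θ _ => Finset.sum_nonneg fun S _ => hn _ _ _ _) (Finset.mem_univ θ)
        _ ≤ ∑ p : Pat F n b, ∑ θ, ∑ S : Bool → W, ind (Ev u D p (Dep F u ω) θ S ω) :=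
          Finset.single_le_sum
            (f := fun p : Pat F n b => ∑ θ, ∑ S : Bool → W, ind (Ev u D p (Dep F u ω) θ S ω))
            (fun p _ => Finset.sum_nonneg fun θ _ => Finset.sum_nonneg fun S _ => hn _ _ _ _)
            (Finset.mem_univ p)
        _ ≤ _ :=
          Finset.single_le_sum
            (f := fun T => ∑ p : Pat F n b, ∑ θ : ↥(T ×ˢ (univ : Finset Bool)) → W,
              ∑ S : Bool → W, ind (Ev u D p T θ S ω))
            (fun T _ => Finset.sum_nonneg fun p _ => Finset.sum_nonneg fun θ _ =>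
              Finset.sum_nonneg fun S _ => hn _ _ _ _)
            (by simpa using hd)
    · rw [ind_false hω]
      exact Finset.sum_nonneg fun T _ => Finset.sum_nonneg fun p _ => Finset.sum_nonneg fun θ _ =>
        Finset.sum_nonneg fun S _ => ind_nonneg _
  refine le_trans (Ex_mono H.nonneg h1) ?_
  rw [Ex_sum]
  have hW : (1:ℝ) ≤ (Fintype.card W : ℝ) := by
    have : 0 < Fintype.card W := Fintype.card_pos
    exact_mod_cast this
  have h2 : ∀ T ∈ (univ : Finset (Finset (Fin b))).filter (fun T => T.card < h),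
      Ex τ (fun ω => ∑ p : Pat F n b, ∑ θ : ↥(T ×ˢ (univ : Finset Bool)) → W, ∑ S : Bool → W,
          ind (Ev u D p T θ S ω)) ≤
      (Fintype.card (Pat F n b) : ℝ) * ((Fintype.card W : ℝ) ^ (2 * h + 2) * (2 * δ) ^ n) := by
    intro T hT
    have hT' : T.card < h := by simpa using hT
    rw [Ex_sum]
    have h3 : ∀ p ∈ (univ : Finset (Pat F n b)),
        Ex τ (fun ω => ∑ θ : ↥(T ×ˢ (univ : Finset Bool)) → W, ∑ S : Bool → W,
          ind (Ev u D p T θ S ω)) ≤ (Fintype.card W : ℝ) ^ (2 * h + 2) * (2 * δ) ^ n := by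
      intro p _
      rw [Ex_sum]
      have h4 : ∀ θ ∈ (univ : Finset (↥(T ×ˢ (univ : Finset Bool)) → W)),
          Ex τ (fun ω => ∑ S : Bool → W, ind (Ev u D p T θ S ω)) ≤
          (Fintype.card W : ℝ) ^ 2 * (2 * δ) ^ n := by
        intro θ _
        rw [Ex_sum]
        refine (Finset.sum_le_sum fun S _ => ev_bound H p T θ S).trans ?_
        rw [Finset.sum_const, Finset.card_univ, nsmul_eq_mul]
        have : Fintype.card (Bool → W) = Fintype.card W ^ 2 := by simp
        rw [this]; push_cast; exact le_rfl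
      refine (Finset.sum_le_sum h4).trans ?_
      rw [Finset.sum_const, Finset.card_univ, nsmul_eq_mul]
      have : Fintype.card (↥(T ×ˢ (univ : Finset Bool)) → W) = Fintype.card W ^ (T.card * 2) := by
        rw [Fintype.card_fun, Fintype.card_coe, Finset.card_product]; simp
      rw [this]; push_cast
      rw [← mul_assoc, ← pow_add]
      refine mul_le_mul_of_nonneg_right (pow_le_pow_right₀ hW (by omega)) (by positivity)
    refine (Finset.sum_le_sum h3).trans ?_
    rw [Finset.sum_const, Finset.card_univ, nsmul_eq_mul]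
  refine (Finset.sum_le_sum h2).trans ?_
  rw [Finset.sum_const, nsmul_eq_mul]
  have h5 : (((univ : Finset (Finset (Fin b))).filter (fun T => T.card < h)).card : ℝ) ≤ 2 ^ b := by
    have : ((univ : Finset (Finset (Fin b))).filter (fun T => T.card < h)).card ≤ 2 ^ b := by
      refine (Finset.card_filter_le _ _).trans ?_
      rw [Finset.card_univ, Fintype.card_finset, Fintype.card_fin]
    exact_mod_cast this
  have h6 : (0:ℝ) ≤ (Fintype.card (Pat F n b) : ℝ) * ((Fintype.card W : ℝ) ^ (2 * h + 2) *
      (2 * δ) ^ n) := by positivity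
  refine (mul_le_mul_of_nonneg_right h5 h6).trans ?_
  push_cast
  ring_nf
  exact le_rfl

end

end Crest.Agent.R042.Prob477
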