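import Crest.Agent.R042.TLevE_333

/-! # Quasi-randomness of the perp graph of the sample, from Theorem T (helper664)

The trivial system of pieces: one index, nothing dead. -/

set_option autoImplicit false

namespace Crest.Agent.R042.Quasi664

open Finset Function Crest.Agent.R042.TLev333
open scoped Classical

set_option linter.unusedSectionVars false
set_option linter.unusedVariables false

variable {I Ω : Type*} [Fintype Ω]

/-- the trivial system: pieces = indices, nothing dead. -/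
noncomputable def triv [DecidableEq I] (perp : Ω → Ω → Prop) (ρ η : ℝ) (hρ0 : 0 < ρ) (hρ1 : ρ ≤ 1)
    (hη0 : 0 < η) (hη1 : η ≤ 1) : Sys I Ω I where
  perp := perp
  idx i := {i}
  dead _ _ _ := False
  dead2 _ _ _ _ := False
  a := 1
  ρ := ρ
  η := η
  θ := 0
  θ0 := le_rfl
  a1 := le_rfl
  a2 := by norm_num
  ρ0 := hρ0
  ρ1 := hρ1
  η0 := hη0
  η1 := hη1
  card_idx := fun i => card_singleton i
  loc := fun _ _ _ _ => rfl
  loc2 := fun _ _ _ _ => rfl
  dead_le := by
    intro s x _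
    simp only [and_false, filter_false, card_empty, Nat.cast_zero]
    positivity
  dead2_le := by
    intro s x _ Q
    simp

variable [Fintype I] [DecidableEq I]

/-- the conclusion of Theorem T (total mass of the perpendicular pairs) for one-index systems -/
theorem quasi_of (perp : Ω → Ω → Prop) (ρ : ℝ) (x : I → Ω) (m : ℝ)
    (hT : ∀ τ τ' : I → ℝ, (∀ s, 0 ≤ τ s) → ∑ s, τ s = 1 → (∀ i, τ i ≤ m) →
      (∀ s, 0 ≤ τ' s) → ∑ s, τ' s = 1 → (∀ i, τ' i ≤ m) →
      ρ / 32 ≤ ∑ s, ∑ s', (if perp (x s) (x s') then τ s * τ' s' else 0))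
    (A B : Finset I) (hA : 1 ≤ m * A.card) (hB : 1 ≤ m * B.card) :
    1 / 32 * ρ * A.card * B.card ≤
      (((A ×ˢ B).filter fun p => perp (x p.1) (x p.2)).card : ℝ) := by
  have hA0 : (0 : ℝ) < A.card := by
    rcases Nat.eq_zero_or_pos A.card with h | h
    · rw [h] at hA; norm_num at hA
    · exact_mod_cast h
  have hB0 : (0 : ℝ) < B.card := by
    rcases Nat.eq_zero_or_pos B.card with h | h
    · rw [h] at hB; norm_num at hB
    · exact_mod_cast h
  have hu : ∀ C : Finset I, (0 : ℝ) < C.card → 1 ≤ m * C.card →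
      (∀ s, 0 ≤ (if s ∈ C then (C.card : ℝ)⁻¹ else 0)) ∧
      ∑ s, (if s ∈ C then (C.card : ℝ)⁻¹ else 0) = 1 ∧
      ∀ s, (if s ∈ C then (C.card : ℝ)⁻¹ else 0) ≤ m := by
    intro C hC h1
    have hm : (C.card : ℝ)⁻¹ ≤ m := by
      rw [inv_le_iff_one_le_mul₀ hC]
      exact h1
    refine ⟨fun s => by split_ifs <;> positivity, ?_, fun s => ?_⟩
    · rw [sum_ite_mem, univ_inter, sum_const, nsmul_eq_mul, mul_inv_cancel₀ hC.ne']
    · split_ifs
      · exact hm
      · exact (inv_pos.mpr hC).le.trans hm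
  obtain ⟨a1, a2, a3⟩ := hu A hA0 hA
  obtain ⟨b1, b2, b3⟩ := hu B hB0 hB
  have h := hT _ _ a1 a2 a3 b1 b2 b3
  have e : ∑ s : I, ∑ s' : I, (if perp (x s) (x s') then
      (if s ∈ A then (A.card : ℝ)⁻¹ else 0) * (if s' ∈ B then (B.card : ℝ)⁻¹ else 0) else 0) =
      (((A ×ˢ B).filter fun p => perp (x p.1) (x p.2)).card : ℝ) *
        ((A.card : ℝ)⁻¹ * (B.card : ℝ)⁻¹) := by
    rw [← nsmul_eq_mul, ← sum_const, ← sum_product', sum_filter, ← sum_filter_add_sum_filter_not
      (univ ×ˢ univ) (fun p : I × I => p ∈ A ×ˢ B)]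
    have z : ∑ p ∈ (univ ×ˢ univ : Finset (I × I)).filter (fun p => ¬ p ∈ A ×ˢ B),
        (if perp (x p.1) (x p.2) then (if p.1 ∈ A then (A.card : ℝ)⁻¹ else 0) *
          (if p.2 ∈ B then (B.card : ℝ)⁻¹ else 0) else 0) = 0 := by
      refine sum_eq_zero fun p hp => ?_
      have hp := (mem_filter.mp hp).2
      rw [mem_product, not_and_or] at hp
      rcases hp with hp | hp <;> simp [hp]
    rw [z, add_zero]
    have y : (univ ×ˢ univ : Finset (I × I)).filter (fun p => p ∈ A ×ˢ B) = A ×ˢ B := by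
      ext p; simp
    rw [y]
    refine sum_congr rfl fun p hp => ?_
    rw [mem_product] at hp
    simp [hp.1, hp.2]
  rw [e] at h
  have h2 : ρ / 32 * (A.card * B.card) ≤
      (((A ×ˢ B).filter fun p => perp (x p.1) (x p.2)).card : ℝ) *
        ((A.card : ℝ)⁻¹ * (B.card : ℝ)⁻¹) * (A.card * B.card) :=
    mul_le_mul_of_nonneg_right h (by positivity)
  have h3 : (((A ×ˢ B).filter fun p => perp (x p.1) (x p.2)).card : ℝ) *
        ((A.card : ℝ)⁻¹ * (B.card : ℝ)⁻¹) * (A.card * B.card) =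
      (((A ×ˢ B).filter fun p => perp (x p.1) (x p.2)).card : ℝ) := by
    field_simp
  rw [h3] at h2
  calc _ = ρ / 32 * (A.card * B.card) := by ring
    _ ≤ _ := h2

end Crest.Agent.R042.Quasi664
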