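import Mathlib
import Crest.Agent.R042.Conn_353
import Crest.Agent.R042.Menger_353

/-! Row 42, S0058, sec 04: LEMMA RC (rooted clique minors), relative to an ambient vertex set `W`. -/

set_option autoImplicit false
set_option linter.unusedSectionVars false

namespace Crest.Agent.R042.RC157

open Finset Crest.Agent.R042.Conn353 Crest.Agent.R042.Menger353

variable {V : Type*} [DecidableEq V]

/-- hypotheses (i), (ii), (iii) of Lemma RC, in `G[W]`. -/
structure Hyp (G : SimpleGraph V) (W : Finset V) {s k : ℕ} (z : Fin s → V)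
    (A : Fin k → Finset V) : Prop where
  zinj : Function.Injective z
  zW : ∀ i, z i ∈ W
  AW : ∀ i, A i ⊆ W
  Ane : ∀ i, (A i).Nonempty
  Adis : ∀ i j, i ≠ j → Disjoint (A i) (A j)
  h1 : ∀ i, Conn G (A i) ∨ ∀ v ∈ A i, ∃ j, z j ∈ A i ∧ Reach G (A i) v (z j)
  h2 : ∀ i j, i ≠ j → ((∃ a, z a ∈ A i) ∧ (∃ b, z b ∈ A j)) ∨ ∃ u ∈ A i, ∃ v ∈ A j, G.Adj u v
  h3 : ∀ P Q, Sep G W P Q → (∀ i, z i ∈ P) → (∃ i, Disjoint P (A i)) → s ≤ (P ∩ Q).card

/-- a `K_s` model of `G[W]` rooted at `z`. -/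
def Rooted (G : SimpleGraph V) (W : Finset V) {s : ℕ} (z : Fin s → V) : Prop :=
  ∃ B : Fin s → Finset V, (∀ i, z i ∈ B i) ∧ (∀ i, B i ⊆ W) ∧ (∀ i, Conn G (B i)) ∧
    (∀ i j, i ≠ j → Disjoint (B i) (B j)) ∧
    (∀ i j, i ≠ j → ∃ u ∈ B i, ∃ v ∈ B j, G.Adj u v)

lemma Rooted.mono_graph {G H : SimpleGraph V} {W : Finset V} {s : ℕ} {z : Fin s → V}
    (hGH : ∀ x y, G.Adj x y → H.Adj x y) (h : Rooted G W z) : Rooted H W z := by
  obtain ⟨B, h1, h2, h3, h4, h5⟩ := h
  refine ⟨B, h1, h2, fun i => (h3 i).mono_graph hGH, h4, fun i j hij => ?_⟩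
  obtain ⟨u, hu, v, hv, ha⟩ := h5 i j hij
  exact ⟨u, hu, v, hv, hGH _ _ ha⟩

section step1

variable {G : SimpleGraph V} {W : Finset V} {s k : ℕ} {z : Fin s → V} {A : Fin k → Finset V}

/-- NOTE (N) -/
lemma noteN (h : Hyp G W z A) {P Q : Finset V} (hS : Sep G W P Q) (hz : ∀ i, z i ∈ P)
    {i : Fin k} (hi : Disjoint P (A i)) {j : Fin k} (hj : Disjoint (P ∩ Q) (A j)) :
    Disjoint P (A j) := by
  -- `A j ∩ Q` is nonempty
  have hne : ∃ v ∈ A j, v ∈ Q := by
    by_contra hcon
    push Not at hcon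
    have hAiQ : ∀ x ∈ A i, x ∈ Q ∧ x ∉ P := by
      intro x hx
      have hxP : x ∉ P := fun hP => (Finset.disjoint_left.1 hi) hP hx
      have hxW := h.AW i hx
      rw [← hS.union, Finset.mem_union] at hxW
      exact ⟨hxW.resolve_left hxP, hxP⟩
    have hij : i ≠ j := by
      rintro rfl
      obtain ⟨x, hx⟩ := h.Ane i
      exact hcon x hx (hAiQ x hx).1
    rcases h.h2 i j hij with ⟨⟨a, ha⟩, _⟩ | ⟨u, hu, v, hv, hadj⟩
    · exact (hAiQ _ ha).2 (hz a)
    · have hvW := h.AW j hv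
      rw [← hS.union, Finset.mem_union] at hvW
      have hvP := hvW.resolve_right (hcon v hv)
      exact hS.nadj v hvP (hcon v hv) u (hAiQ u hu).1 (hAiQ u hu).2 hadj.symm
  obtain ⟨v, hvA, hvQ⟩ := hne
  have hvP : v ∉ P := fun hP =>
    Finset.disjoint_left.1 hj (Finset.mem_inter.2 ⟨hP, hvQ⟩) hvA
  -- everything reachable from `v` inside `A j` is outside `P`
  have key : ∀ w, Reach G (A j) v w → w ∉ P ∧ w ∈ A j := by
    intro w hw
    induction hw with
    | refl => exact ⟨hvP, hvA⟩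
    | tail hbc hc ih =>
      rename_i b c
      refine ⟨fun hcP => ?_, hc.2⟩
      have hcQ : c ∉ Q := fun hQ =>
        Finset.disjoint_left.1 hj (Finset.mem_inter.2 ⟨hcP, hQ⟩) hc.2
      have hbW := h.AW j ih.2
      rw [← hS.union, Finset.mem_union] at hbW
      exact hS.nadj c hcP hcQ b (hbW.resolve_left ih.1) ih.1 hc.1.symm
  rw [Finset.disjoint_left]
  intro p hpP hpA
  rcases h.h1 j with hc | hc
  · exact (key p (hc.reach hvA hpA)).1 hpP
  · obtain ⟨a, ha, hr⟩ := hc v hvA
    exact (key _ hr).1 (hz a)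

lemma inter_ne (h : Hyp G W z A) {P Q : Finset V} (hS : Sep G W P Q) (hz : ∀ i, z i ∈ P)
    {i : Fin k} (hi : Disjoint P (A i)) (j : Fin k) : (A j ∩ Q).Nonempty := by
  by_cases hj : Disjoint (P ∩ Q) (A j)
  · have := noteN h hS hz hi hj
    obtain ⟨x, hx⟩ := h.Ane j
    refine ⟨x, Finset.mem_inter.2 ⟨hx, ?_⟩⟩
    have hxW := h.AW j hx
    rw [← hS.union, Finset.mem_union] at hxW
    exact hxW.resolve_left (fun hP => Finset.disjoint_left.1 this hP hx)
  · rw [Finset.not_disjoint_iff] at hj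
    obtain ⟨x, hx, hxA⟩ := hj
    exact ⟨x, Finset.mem_inter.2 ⟨hxA, (Finset.mem_inter.1 hx).2⟩⟩

/-- the hypotheses pass to the right side of a separation of order `s`. -/
lemma hyp_right (h : Hyp G W z A) {P Q : Finset V} (hS : Sep G W P Q) (hz : ∀ i, z i ∈ P)
    {i : Fin k} (hi : Disjoint P (A i)) {z' : Fin s → V} (hz' : Function.Injective z')
    (hz'PQ : ∀ i, z' i ∈ P ∩ Q) (hcard : (P ∩ Q).card = s) :
    Hyp G Q z' (fun j => A j ∩ Q) := by
  have himg : ∀ x ∈ P ∩ Q, ∃ i, z' i = x := by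
    have h1 : Finset.univ.image z' ⊆ P ∩ Q := by
      intro x hx
      obtain ⟨i, _, rfl⟩ := Finset.mem_image.1 hx
      exact hz'PQ i
    have h2 : Finset.univ.image z' = P ∩ Q := by
      refine Finset.eq_of_subset_of_card_le h1 ?_
      rw [Finset.card_image_of_injective _ hz', hcard]
      simp
    intro x hx
    rw [← h2] at hx
    obtain ⟨i, _, hi⟩ := Finset.mem_image.1 hx
    exact ⟨i, hi⟩
  refine ⟨hz', fun i => (Finset.mem_inter.1 (hz'PQ i)).2, fun i => Finset.inter_subset_right,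
    fun j => inter_ne h hS hz hi j, ?_, ?_, ?_, ?_⟩
  · intro a b hab
    exact (h.Adis a b hab).mono Finset.inter_subset_left Finset.inter_subset_left
  · intro j
    by_cases hP : Disjoint P (A j)
    · have hAQ : A j ∩ Q = A j := by
        refine Finset.inter_eq_left.2 ?_
        intro x hx
        have hxW := h.AW j hx
        rw [← hS.union, Finset.mem_union] at hxW
        exact hxW.resolve_left (fun hP' => Finset.disjoint_left.1 hP hP' hx)
      left
      show Conn G (A j ∩ Q)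
      rw [hAQ]
      rcases h.h1 j with hc | hc
      · exact hc
      · exfalso
        obtain ⟨x, hx⟩ := h.Ane j
        obtain ⟨a, ha, _⟩ := hc x hx
        exact Finset.disjoint_left.1 hP (hz a) ha
    · right
      intro v hv
      rw [Finset.mem_inter] at hv
      have hreach : ∃ p ∈ P, Reach G (A j) v p := by
        rcases h.h1 j with hc | hc
        · rw [Finset.not_disjoint_iff] at hP
          obtain ⟨p, hp, hpA⟩ := hP
          exact ⟨p, hp, hc.reach hv.1 hpA⟩
        · obtain ⟨a, ha, hr⟩ := hc v hv.1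
          exact ⟨z a, hz a, hr⟩
      obtain ⟨p, hp, hr⟩ := hreach
      have key : ∃ w, w ∈ P ∩ Q ∧ w ∈ A j ∩ Q ∧ Reach G (A j ∩ Q) v w := by
        clear hP
        revert hv
        refine Relation.ReflTransGen.head_induction_on (motive := fun v _ =>
          v ∈ A j ∧ v ∈ Q → ∃ w, w ∈ P ∩ Q ∧ w ∈ A j ∩ Q ∧ Reach G (A j ∩ Q) v w) hr ?_ ?_
        · intro hv
          exact ⟨p, Finset.mem_inter.2 ⟨hp, hv.2⟩, Finset.mem_inter.2 hv, Reach.refl _⟩
        · intro a c hac _ ih hv
          by_cases haP : a ∈ P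
          · exact ⟨a, Finset.mem_inter.2 ⟨haP, hv.2⟩, Finset.mem_inter.2 hv, Reach.refl _⟩
          · have hcW := h.AW j hac.2
            rw [← hS.union, Finset.mem_union] at hcW
            have hcQ : c ∈ Q := by
              by_contra hcQ
              exact hS.nadj c (hcW.resolve_right hcQ) hcQ a hv.2 haP hac.1.symm
            obtain ⟨w, hw1, hw2, hw3⟩ := ih ⟨hac.2, hcQ⟩
            exact ⟨w, hw1, hw2,
              (Reach.single hac.1 (Finset.mem_inter.2 ⟨hac.2, hcQ⟩)).trans hw3⟩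
      obtain ⟨w, hw1, hw2, hw3⟩ := key
      obtain ⟨a, rfl⟩ := himg w hw1
      exact ⟨a, hw2, hw3⟩
  · intro a b hab
    have aux : ∀ a b : Fin k, a ≠ b → Disjoint (P ∩ Q) (A a) →
        ∃ u ∈ A a ∩ Q, ∃ v ∈ A b ∩ Q, G.Adj u v := by
      intro a b hab ha
      have haP := noteN h hS hz hi ha
      have haQ : ∀ x ∈ A a, x ∈ Q ∧ x ∉ P := by
        intro x hx
        have hxP : x ∉ P := fun hP => (Finset.disjoint_left.1 haP) hP hx
        have hxW := h.AW a hx
        rw [← hS.union, Finset.mem_union] at hxW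
        exact ⟨hxW.resolve_left hxP, hxP⟩
      rcases h.h2 a b hab with ⟨⟨c, hc⟩, _⟩ | ⟨u, hu, v, hv, hadj⟩
      · exact absurd (hz c) (haQ _ hc).2
      · refine ⟨u, Finset.mem_inter.2 ⟨hu, (haQ u hu).1⟩, v, Finset.mem_inter.2 ⟨hv, ?_⟩, hadj⟩
        by_contra hvQ
        have hvW := h.AW b hv
        rw [← hS.union, Finset.mem_union] at hvW
        exact hS.nadj v (hvW.resolve_right hvQ) hvQ u (haQ u hu).1 (haQ u hu).2 hadj.symm
    by_cases ha : Disjoint (P ∩ Q) (A a)
    · exact Or.inr (aux a b hab ha)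
    by_cases hb : Disjoint (P ∩ Q) (A b)
    · obtain ⟨u, hu, v, hv, hadj⟩ := aux b a hab.symm hb
      exact Or.inr ⟨v, hv, u, hu, hadj.symm⟩
    left
    rw [Finset.not_disjoint_iff] at ha hb
    obtain ⟨x, hx, hxA⟩ := ha
    obtain ⟨y, hy, hyA⟩ := hb
    obtain ⟨c, rfl⟩ := himg x hx
    obtain ⟨d, rfl⟩ := himg y hy
    exact ⟨⟨c, Finset.mem_inter.2 ⟨hxA, (Finset.mem_inter.1 hx).2⟩⟩,
      ⟨d, Finset.mem_inter.2 ⟨hyA, (Finset.mem_inter.1 hy).2⟩⟩⟩
  · intro P2 Q2 hS2 hz2 ⟨j, hj⟩
    have hP2Q : P2 ⊆ Q := hS2.left_sub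
    have hQ2Q : Q2 ⊆ Q := hS2.right_sub
    have hPQP2 : P ∩ Q ⊆ P2 := by
      intro x hx
      obtain ⟨a, rfl⟩ := himg x hx
      exact hz2 a
    have hS3 : Sep G W (P ∪ P2) Q2 := by
      refine ⟨?_, ?_⟩
      · rw [Finset.union_assoc, hS2.union, hS.union]
      · intro a ha haQ2 b hb hbP hadj
        rw [Finset.mem_union, not_or] at hbP
        rcases Finset.mem_union.1 ha with ha' | ha'
        · by_cases haP2 : a ∈ P2
          · exact hS2.nadj a haP2 haQ2 b hb hbP.2 hadj
          · have haQ : a ∉ Q := fun hQ => haP2 (hPQP2 (Finset.mem_inter.2 ⟨ha', hQ⟩))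
            exact hS.nadj a ha' haQ b (hQ2Q hb) hbP.1 hadj
        · exact hS2.nadj a ha' haQ2 b hb hbP.2 hadj
    have hAj2 : Disjoint P2 (A j) := by
      rw [Finset.disjoint_left] at hj ⊢
      intro x hx hxA
      exact hj hx (Finset.mem_inter.2 ⟨hxA, hP2Q hx⟩)
    have hAjP : Disjoint P (A j) := noteN h hS hz hi (hAj2.mono_left hPQP2)
    have := h.h3 (P ∪ P2) Q2 hS3 (fun i => Finset.mem_union_left _ (hz i))
      ⟨j, by rw [Finset.disjoint_union_left]; exact ⟨hAjP, hAj2⟩⟩
    have heq : (P ∪ P2) ∩ Q2 ⊆ P2 ∩ Q2 := by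
      intro x hx
      rw [Finset.mem_inter, Finset.mem_union] at hx
      rw [Finset.mem_inter]
      refine ⟨?_, hx.2⟩
      rcases hx.1 with h' | h'
      · exact hPQP2 (Finset.mem_inter.2 ⟨h', hQ2Q hx.2⟩)
      · exact h'
    exact this.trans (Finset.card_le_card heq)

/-- step (1). -/
lemma step1 (h : Hyp G W z A)
    (ih : ∀ (W' : Finset V), W'.card < W.card → ∀ (G' : SimpleGraph V) (z' : Fin s → V)
      (A' : Fin k → Finset V), Hyp G' W' z' A' → Rooted G' W' z')
    {P Q : Finset V} (hS : Sep G W P Q) (hz : ∀ i, z i ∈ P)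
    {i : Fin k} (hi : Disjoint P (A i)) (hcard : (P ∩ Q).card = s)
    {x : V} (hxP : x ∈ P) (hxQ : x ∉ Q) : Rooted G W z := by
  have hPW := hS.left_sub
  have hQW := hS.right_sub
  have hZP : Finset.univ.image z ⊆ P := by
    intro y hy
    obtain ⟨a, _, rfl⟩ := Finset.mem_image.1 hy
    exact hz a
  rcases menger_sep (G := G) (W := P) (A := Finset.univ.image z) (B := P ∩ Q) hZP
    Finset.inter_subset_left s with ⟨L, hL, hLc⟩ | ⟨P1, P2, hS1, hZ1, hB2, hlt⟩
  · -- linkage
    have hZc : (Finset.univ.image z).card = s := by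
      rw [Finset.card_image_of_injective _ h.zinj]; simp
    have hst : verts L ∩ Finset.univ.image z = Finset.univ.image z := by
      refine Finset.eq_of_subset_of_card_le Finset.inter_subset_right ?_
      rw [hL.verts_inter_card_left, hLc, hZc]
    have hmem : ∀ a, z a ∈ verts L ∩ Finset.univ.image z := by
      intro a
      rw [hst]
      exact Finset.mem_image_of_mem _ (Finset.mem_univ a)
    obtain ⟨f, g, hf, hdis, hall, hgsurj, hginj⟩ := hL.family
    have hz'inj : Function.Injective (fun a => g (z a)) := by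
      intro a b hab
      exact h.zinj (hginj _ (hmem a) _ (hmem b) hab)
    have hz'PQ : ∀ a, g (z a) ∈ P ∩ Q := fun a => (hf _ (hmem a)).2.2.2.2.1
    have hH := hyp_right h hS hz hi hz'inj hz'PQ hcard
    have hlt : Q.card < W.card := by
      refine Finset.card_lt_card ⟨hQW, fun hWQ => hxQ (hWQ (hPW hxP))⟩
    obtain ⟨B, hB1, hB2, hB3, hB4, hB5⟩ := ih Q hlt G _ _ hH
    refine ⟨fun a => B a ∪ (f (z a)).toFinset, ?_, ?_, ?_, ?_, ?_⟩
    · intro a
      exact Finset.mem_union_right _ (List.mem_toFinset.2 (hf _ (hmem a)).2.2.2.2.2.1)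
    · intro a y hy
      rcases Finset.mem_union.1 hy with hy | hy
      · exact hQW (hB2 a hy)
      · exact hPW ((hf _ (hmem a)).2.1.sub y (List.mem_toFinset.1 hy))
    · intro a
      exact (hB3 a).union (hf _ (hmem a)).2.1.conn (hB1 a)
        (List.mem_toFinset.2 (hf _ (hmem a)).2.2.2.2.2.2.1)
    · intro a b hab
      have hzab : z a ≠ z b := fun h' => hab (h.zinj h')
      have aux : ∀ a b, a ≠ b → ∀ y ∈ B a, y ∉ f (z b) := by
        intro a b hab y hy hyf
        have hyP : y ∈ P := (hf _ (hmem b)).2.1.sub y hyf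
        have hyQ : y ∈ Q := hB2 a hy
        have := (hf _ (hmem b)).2.2.2.2.2.2.2.2 y hyf (Finset.mem_inter.2 ⟨hyP, hyQ⟩)
        subst this
        exact Finset.disjoint_left.1 (hB4 a b hab) hy (hB1 b)
      rw [Finset.disjoint_left]
      intro y hy hy'
      rcases Finset.mem_union.1 hy with hy | hy <;> rcases Finset.mem_union.1 hy' with hy' | hy'
      · exact Finset.disjoint_left.1 (hB4 a b hab) hy hy'
      · exact aux a b hab y hy (List.mem_toFinset.1 hy')
      · exact aux b a hab.symm y hy' (List.mem_toFinset.1 hy)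
      · exact hdis _ (hmem a) _ (hmem b) hzab y (List.mem_toFinset.1 hy) (List.mem_toFinset.1 hy')
    · intro a b hab
      obtain ⟨u, hu, v, hv, hadj⟩ := hB5 a b hab
      exact ⟨u, Finset.mem_union_left _ hu, v, Finset.mem_union_left _ hv, hadj⟩
  · -- separation: contradiction with (iii)
    exfalso
    have hP1P := hS1.left_sub
    have hP2P := hS1.right_sub
    have hS3 : Sep G W P1 (P2 ∪ Q) := by
      refine ⟨?_, ?_⟩
      · rw [← Finset.union_assoc, hS1.union, hS.union]
      · intro a ha haQ b hb hbP1 hadj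
        rw [Finset.mem_union, not_or] at haQ
        by_cases hb2 : b ∈ P2
        · exact hS1.nadj a ha haQ.1 b hb2 hbP1 hadj
        · have hbQ : b ∈ Q := (Finset.mem_union.1 hb).resolve_left hb2
          have hbP : b ∉ P := fun hbP => hb2 (hB2 (Finset.mem_inter.2 ⟨hbP, hbQ⟩))
          exact hS.nadj a (hP1P ha) haQ.2 b hbQ hbP hadj
    have := h.h3 P1 (P2 ∪ Q) hS3 (fun a => hZ1 (Finset.mem_image_of_mem _ (Finset.mem_univ a)))
      ⟨i, hi.mono_left hP1P⟩
    have heq : P1 ∩ (P2 ∪ Q) ⊆ P1 ∩ P2 := by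
      intro y hy
      rw [Finset.mem_inter, Finset.mem_union] at hy
      rw [Finset.mem_inter]
      refine ⟨hy.1, ?_⟩
      rcases hy.2 with h' | h'
      · exact h'
      · exact hB2 (Finset.mem_inter.2 ⟨hP1P hy.1, h'⟩)
    have := this.trans (Finset.card_le_card heq)
    omega

end step1

/-! ### contraction of an edge inside a fixed vertex type -/

section contraction

variable {G : SimpleGraph V} {W : Finset V} {s k : ℕ} {z : Fin s → V} {A : Fin k → Finset V}
  {u v : V}

/-- `v` is merged into `u`. -/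
def cm (u v x : V) : V := if x = v then u else x

lemma cm_self : cm u v v = u := by simp [cm]

lemma cm_of_ne {x : V} (h : x ≠ v) : cm u v x = x := by simp [cm, h]

/-- the graph `G/uv`, the new vertex is `u`, the vertex `v` becomes isolated. -/
def contr (G : SimpleGraph V) (u v : V) : SimpleGraph V where
  Adj x y := x ≠ y ∧ x ≠ v ∧ y ≠ v ∧ (G.Adj x y ∨ (x = u ∧ G.Adj v y) ∨ (y = u ∧ G.Adj x v))
  symm := ⟨by
    rintro x y ⟨h1, h2, h3, h4⟩
    refine ⟨h1.symm, h3, h2, ?_⟩
    rcases h4 with h | ⟨h, h'⟩ | ⟨h, h'⟩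
    · exact Or.inl h.symm
    · exact Or.inr (Or.inr ⟨h, h'.symm⟩)
    · exact Or.inr (Or.inl ⟨h, h'.symm⟩)⟩
  loopless := ⟨fun x h => h.1 rfl⟩

lemma contr_of_adj (huv : u ≠ v) {x y : V} (h : G.Adj x y) :
    cm u v x = cm u v y ∨ (contr G u v).Adj (cm u v x) (cm u v y) := by
  by_cases hx : x = v
  · subst hx
    have hy : y ≠ x := h.ne'
    rw [cm_self, cm_of_ne hy]
    by_cases huy : u = y
    · exact Or.inl huy
    · exact Or.inr ⟨huy, huv, hy, Or.inr (Or.inl ⟨rfl, h⟩)⟩
  · by_cases hy : y = v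
    · subst hy
      rw [cm_self, cm_of_ne hx]
      by_cases hxu : x = u
      · exact Or.inl hxu
      · exact Or.inr ⟨hxu, hx, huv, Or.inr (Or.inr ⟨rfl, h⟩)⟩
    · rw [cm_of_ne hx, cm_of_ne hy]
      exact Or.inr ⟨h.ne, hx, hy, Or.inl h⟩

lemma reach_contr (huv : u ≠ v) {S : Finset V} {x y : V} (h : Reach G S x y) :
    Reach (contr G u v) (S.image (cm u v)) (cm u v x) (cm u v y) := by
  induction h with
  | refl => exact Reach.refl _
  | tail _ hc ih =>
    rcases contr_of_adj huv hc.1 with he | ha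
    · rw [← he]; exact ih
    · exact ih.step ha (Finset.mem_image_of_mem _ hc.2)

lemma reach_lift (huv : G.Adj u v) {S S' : Finset V} (hSS' : S ⊆ S') (hv : u ∈ S → v ∈ S')
    {x y : V} (h : Reach (contr G u v) S x y) (hx : x ∈ S) : Reach G S' x y := by
  induction h with
  | refl => exact Reach.refl _
  | tail hb hc ih =>
    rename_i b c
    have hbS : b ∈ S := Reach.mem hb hx
    obtain ⟨⟨_, _, _, h4⟩, hcS⟩ := hc
    rcases h4 with h | ⟨rfl, h'⟩ | ⟨rfl, h'⟩
    · exact ih.step h (hSS' hcS)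
    · exact (ih.step huv (hv hbS)).step h' (hSS' hcS)
    · exact (ih.step h' (hv hcS)).step huv.symm (hSS' hcS)

lemma conn_lift (huv : G.Adj u v) {W S : Finset V} (hu : u ∈ W) (hvW : v ∈ W)
    (hS : S ⊆ W.erase v) (h : Conn (contr G u v) S) :
    Conn G (W.filter (fun x => cm u v x ∈ S)) := by
  have hne : u ≠ v := huv.ne
  have hSS' : S ⊆ W.filter (fun x => cm u v x ∈ S) := by
    intro x hx
    have hx' := Finset.mem_erase.1 (hS hx)
    rw [Finset.mem_filter, cm_of_ne hx'.1]
    exact ⟨hx'.2, hx⟩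
  have hv' : u ∈ S → v ∈ W.filter (fun x => cm u v x ∈ S) := by
    intro huS
    rw [Finset.mem_filter, cm_self]
    exact ⟨hvW, huS⟩
  obtain ⟨x0, hx0⟩ := h.nonempty
  refine conn_of_reach (hSS' hx0) ?_
  intro y hy
  rw [Finset.mem_filter] at hy
  by_cases hyv : y = v
  · subst hyv
    rw [cm_self] at hy
    exact (reach_lift huv hSS' hv' (h.reach hx0 hy.2) hx0).step huv (hv' hy.2)
  · rw [cm_of_ne hyv] at hy
    exact reach_lift huv hSS' hv' (h.reach hx0 hy.2) hx0

lemma sep_lift (huv : G.Adj u v) (hu : u ∈ W) {P Q : Finset V}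
    (hS : Sep (contr G u v) (W.erase v) P Q) :
    Sep G W (W.filter (fun x => cm u v x ∈ P)) (W.filter (fun x => cm u v x ∈ Q)) := by
  have hne : u ≠ v := huv.ne
  refine ⟨?_, ?_⟩
  · ext x
    rw [Finset.mem_union, Finset.mem_filter, Finset.mem_filter]
    constructor
    · rintro (h | h) <;> exact h.1
    · intro hx
      have : cm u v x ∈ W.erase v := by
        by_cases hxv : x = v
        · rw [hxv, cm_self]; exact Finset.mem_erase.2 ⟨hne, hu⟩
        · rw [cm_of_ne hxv]; exact Finset.mem_erase.2 ⟨hxv, hx⟩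
      rw [← hS.union, Finset.mem_union] at this
      rcases this with h | h
      · exact Or.inl ⟨hx, h⟩
      · exact Or.inr ⟨hx, h⟩
  · intro a ha haQ b hb hbP hadj
    rw [Finset.mem_filter] at ha haQ hb hbP
    have haQ' : cm u v a ∉ Q := fun h => haQ ⟨ha.1, h⟩
    have hbP' : cm u v b ∉ P := fun h => hbP ⟨hb.1, h⟩
    rcases contr_of_adj hne hadj with he | hadj'
    · exact haQ' (he ▸ hb.2)
    · exact hS.nadj _ ha.2 haQ' _ hb.2 hbP' hadj'

lemma hyp_contr (h : Hyp G W z A) (huv : G.Adj u v) (hu : u ∈ W) (hvW : v ∈ W)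
    (hvz : ∀ a, z a ≠ v) (hAA : ∀ i j, u ∈ A i → v ∈ A j → i = j)
    (hstar : ∀ P Q, Sep G W P Q → (∀ i, z i ∈ P) → (∃ i, Disjoint P (A i)) →
      (P ∩ Q).card ≤ s → ∀ x ∈ P, ∃ a, z a = x) :
    Hyp (contr G u v) (W.erase v) z (fun i => (A i).image (cm u v)) := by
  have hne : u ≠ v := huv.ne
  have hcz : ∀ a, cm u v (z a) = z a := fun a => cm_of_ne (hvz a)
  have hinj : ∀ i j x y, x ∈ A i → y ∈ A j → cm u v x = cm u v y → i = j := by
    intro i j x y hx hy hxy
    by_contra hij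
    have hxy' : x ≠ y := by
      rintro rfl
      exact Finset.disjoint_left.1 (h.Adis i j hij) hx hy
    by_cases hxv : x = v
    · subst hxv
      rw [cm_self, cm_of_ne hxy'.symm] at hxy
      subst hxy
      exact hij (hAA j i hy hx).symm
    · by_cases hyv : y = v
      · subst hyv
        rw [cm_self, cm_of_ne hxv] at hxy
        subst hxy
        exact hij (hAA i j hx hy)
      · rw [cm_of_ne hxv, cm_of_ne hyv] at hxy
        exact hxy' hxy
  refine ⟨h.zinj, fun i => Finset.mem_erase.2 ⟨hvz i, h.zW i⟩, ?_, ?_, ?_, ?_, ?_, ?_⟩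
  · intro i x hx
    obtain ⟨y, hy, rfl⟩ := Finset.mem_image.1 hx
    by_cases hyv : y = v
    · rw [hyv, cm_self]; exact Finset.mem_erase.2 ⟨hne, hu⟩
    · rw [cm_of_ne hyv]; exact Finset.mem_erase.2 ⟨hyv, h.AW i hy⟩
  · intro i
    exact (h.Ane i).image _
  · intro i j hij
    rw [Finset.disjoint_left]
    intro x hx hx'
    obtain ⟨y, hy, rfl⟩ := Finset.mem_image.1 hx
    obtain ⟨y', hy', he⟩ := Finset.mem_image.1 hx'
    exact hij (hinj i j y y' hy hy' he.symm)
  · intro i
    rcases h.h1 i with hc | hc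
    · left
      obtain ⟨x0, hx0⟩ := h.Ane i
      refine conn_of_reach (Finset.mem_image_of_mem (cm u v) hx0) ?_
      intro y hy
      obtain ⟨y', hy', rfl⟩ := Finset.mem_image.1 hy
      exact reach_contr hne (hc.reach hx0 hy')
    · right
      intro y hy
      obtain ⟨y', hy', rfl⟩ := Finset.mem_image.1 hy
      obtain ⟨a, ha, hr⟩ := hc y' hy'
      refine ⟨a, ?_, ?_⟩
      · have := Finset.mem_image_of_mem (cm u v) ha
        rwa [hcz] at this
      · have := reach_contr hne hr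
        rwa [hcz] at this
  · intro i j hij
    rcases h.h2 i j hij with ⟨⟨a, ha⟩, ⟨b, hb⟩⟩ | ⟨x, hx, y, hy, hadj⟩
    · left
      refine ⟨⟨a, ?_⟩, ⟨b, ?_⟩⟩
      · have := Finset.mem_image_of_mem (cm u v) ha
        rwa [hcz] at this
      · have := Finset.mem_image_of_mem (cm u v) hb
        rwa [hcz] at this
    · right
      refine ⟨cm u v x, Finset.mem_image_of_mem _ hx, cm u v y, Finset.mem_image_of_mem _ hy, ?_⟩
      rcases contr_of_adj hne hadj with he | ha
      · exact absurd (hinj i j x y hx hy he) hij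
      · exact ha
  · intro P' Q' hS' hz' ⟨i, hi⟩
    by_contra hlt
    push Not at hlt
    have hS := sep_lift huv hu hS'
    set P := W.filter (fun x => cm u v x ∈ P') with hP
    set Q := W.filter (fun x => cm u v x ∈ Q') with hQ
    have hzP : ∀ a, z a ∈ P := by
      intro a
      rw [hP, Finset.mem_filter, hcz]
      exact ⟨h.zW a, hz' a⟩
    have hdis : Disjoint P (A i) := by
      rw [Finset.disjoint_left]
      intro x hx hxA
      rw [hP, Finset.mem_filter] at hx
      exact Finset.disjoint_left.1 hi hx.2 (Finset.mem_image_of_mem _ hxA)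
    have hsub : P ∩ Q ⊆ insert v (P' ∩ Q') := by
      intro x hx
      rw [Finset.mem_inter, hP, hQ, Finset.mem_filter, Finset.mem_filter] at hx
      by_cases hxv : x = v
      · rw [hxv]; exact Finset.mem_insert_self _ _
      · rw [cm_of_ne hxv] at hx
        exact Finset.mem_insert_of_mem (Finset.mem_inter.2 ⟨hx.1.2, hx.2.2⟩)
    by_cases huP : u ∈ P'
    · have hvP : v ∈ P := by
        rw [hP, Finset.mem_filter, cm_self]
        exact ⟨hvW, huP⟩
      have hcard : (P ∩ Q).card ≤ s := by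
        have h1 := Finset.card_le_card hsub
        have h2 := Finset.card_insert_le v (P' ∩ Q')
        omega
      obtain ⟨a, ha⟩ := hstar P Q hS hzP ⟨i, hdis⟩ hcard v hvP
      exact hvz a ha
    · have hsub' : P ∩ Q ⊆ P' ∩ Q' := by
        intro x hx
        rcases Finset.mem_insert.1 (hsub hx) with rfl | h'
        · exfalso
          rw [Finset.mem_inter, hP, Finset.mem_filter, cm_self] at hx
          exact huP hx.1.2
        · exact h'
      have h1 := h.h3 P Q hS hzP ⟨i, hdis⟩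
      have h2 := Finset.card_le_card hsub'
      omega

/-- a rooted model of `G/uv` lifts. -/
lemma rooted_lift (huv : G.Adj u v) (hu : u ∈ W) (hvW : v ∈ W) (hvz : ∀ a, z a ≠ v)
    (hzW : ∀ a, z a ∈ W) (h : Rooted (contr G u v) (W.erase v) z) : Rooted G W z := by
  obtain ⟨B, h1, h2, h3, h4, h5⟩ := h
  refine ⟨fun i => W.filter (fun x => cm u v x ∈ B i), ?_, ?_, ?_, ?_, ?_⟩
  · intro i
    rw [Finset.mem_filter, cm_of_ne (hvz i)]
    exact ⟨hzW i, h1 i⟩
  · intro i
    exact Finset.filter_subset _ _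
  · intro i
    exact conn_lift huv hu hvW (h2 i) (h3 i)
  · intro i j hij
    rw [Finset.disjoint_left]
    intro x hx hx'
    rw [Finset.mem_filter] at hx hx'
    exact Finset.disjoint_left.1 (h4 i j hij) hx.2 hx'.2
  · intro i j hij
    obtain ⟨x, hx, y, hy, ⟨_, hxv, hyv, h4⟩⟩ := h5 i j hij
    have hxW := (Finset.mem_erase.1 (h2 i hx)).2
    have hyW := (Finset.mem_erase.1 (h2 j hy)).2
    have hx' : x ∈ W.filter (fun x => cm u v x ∈ B i) := by
      rw [Finset.mem_filter, cm_of_ne hxv]; exact ⟨hxW, hx⟩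
    have hy' : y ∈ W.filter (fun x => cm u v x ∈ B j) := by
      rw [Finset.mem_filter, cm_of_ne hyv]; exact ⟨hyW, hy⟩
    rcases h4 with h | ⟨rfl, h'⟩ | ⟨rfl, h'⟩
    · exact ⟨x, hx', y, hy', h⟩
    · refine ⟨v, ?_, y, hy', h'⟩
      rw [Finset.mem_filter, cm_self]; exact ⟨hvW, hx⟩
    · refine ⟨x, hx', v, ?_, h'⟩
      rw [Finset.mem_filter, cm_self]; exact ⟨hvW, hy⟩

end contraction

/-! ### deletion of the edges inside the roots -/

section deletion

variable {G : SimpleGraph V} {W : Finset V} {s k : ℕ} {z : Fin s → V} {A : Fin k → Finset V}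

/-- `G` without the edges with both ends among the roots. -/
def del (G : SimpleGraph V) {s : ℕ} (z : Fin s → V) : SimpleGraph V where
  Adj x y := G.Adj x y ∧ ¬ ((∃ a, z a = x) ∧ (∃ b, z b = y))
  symm := ⟨fun _ _ h => ⟨h.1.symm, fun h' => h.2 ⟨h'.2, h'.1⟩⟩⟩
  loopless := ⟨fun _ h => h.1.ne rfl⟩

lemma hyp_del (h : Hyp G W z A) : Hyp (del G z) W z A := by
  refine ⟨h.zinj, h.zW, h.AW, h.Ane, h.Adis, ?_, ?_, ?_⟩
  · intro i
    have key : ∀ x y, Reach G (A i) x y → x ∈ A i → (∃ a, z a = y) →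
        ∃ j, z j ∈ A i ∧ Reach (del G z) (A i) x (z j) := by
      intro x y hr
      refine Relation.ReflTransGen.head_induction_on (motive := fun x _ =>
          x ∈ A i → (∃ a, z a = y) → ∃ j, z j ∈ A i ∧ Reach (del G z) (A i) x (z j)) hr ?_ ?_
      · rintro hy ⟨a, rfl⟩
        exact ⟨a, hy, Reach.refl _⟩
      · intro b c hbc _ ih hb hy
        by_cases hbz : ∃ a, z a = b
        · obtain ⟨a, rfl⟩ := hbz
          exact ⟨a, hb, Reach.refl _⟩
        · obtain ⟨j, hj, hr'⟩ := ih hbc.2 hy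
          exact ⟨j, hj, (Reach.single (G := del G z) ⟨hbc.1, fun h' => hbz h'.1⟩ hbc.2).trans hr'⟩
    by_cases hm : ∃ a, z a ∈ A i
    · obtain ⟨a, ha⟩ := hm
      right
      intro x hx
      rcases h.h1 i with hc | hc
      · exact key x (z a) (hc.reach hx ha) hx ⟨a, rfl⟩
      · obtain ⟨b, hb, hr⟩ := hc x hx
        exact key x (z b) hr hx ⟨b, rfl⟩
    · push Not at hm
      left
      rcases h.h1 i with hc | hc
      · obtain ⟨x0, hx0⟩ := h.Ane i
        refine conn_of_reach hx0 ?_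
        intro y hy
        have hr := hc.reach hx0 hy
        have key2 : ∀ y, Reach G (A i) x0 y → Reach (del G z) (A i) x0 y := by
          intro y hr
          induction hr with
          | refl => exact Reach.refl _
          | tail _ hc ih =>
            refine ih.step (w := _) ⟨hc.1, fun h' => ?_⟩ hc.2
            obtain ⟨_, ⟨b, hb⟩⟩ := h'
            exact hm b (hb ▸ hc.2)
        exact key2 y hr
      · obtain ⟨x0, hx0⟩ := h.Ane i
        obtain ⟨a, ha, _⟩ := hc x0 hx0
        exact absurd ha (hm a)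
  · intro i j hij
    rcases h.h2 i j hij with hz | ⟨x, hx, y, hy, hadj⟩
    · exact Or.inl hz
    · by_cases hxy : (∃ a, z a = x) ∧ (∃ b, z b = y)
      · obtain ⟨⟨a, rfl⟩, ⟨b, rfl⟩⟩ := hxy
        exact Or.inl ⟨⟨a, hx⟩, ⟨b, hy⟩⟩
      · exact Or.inr ⟨x, hx, y, hy, hadj, hxy⟩
  · intro P Q hS hz hi
    refine h.h3 P Q ⟨hS.union, ?_⟩ hz hi
    intro a ha haQ b hb hbP hadj
    refine hS.nadj a ha haQ b hb hbP ⟨hadj, ?_⟩
    rintro ⟨_, ⟨c, rfl⟩⟩
    exact hbP (hz c)

end deletion

/-! ### the end: Hall -/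

section final

variable {G : SimpleGraph V} {W : Finset V} {s k : ℕ} {z : Fin s → V} {A : Fin k → Finset V}

lemma final (h : Hyp G W z A) (hk : 2 * s ≤ k) (hZZ : ∀ a b, ¬ G.Adj (z a) (z b))
    (hedge : ∀ u ∈ W, ∀ v ∈ W, G.Adj u v → ∃ i j, i ≠ j ∧ u ∈ A i ∧ v ∈ A j) :
    Rooted G W z := by
  classical
  -- no edges inside the `A i`
  have hno : ∀ i, ∀ x ∈ A i, ∀ y ∈ A i, ¬ G.Adj x y := by
    intro i x hx y hy hadj
    obtain ⟨a, b, hab, ha, hb⟩ := hedge x (h.AW i hx) y (h.AW i hy) hadj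
    have h1 : a = i := by
      by_contra hne
      exact Finset.disjoint_left.1 (h.Adis a i hne) ha hx
    have h2 : b = i := by
      by_contra hne
      exact Finset.disjoint_left.1 (h.Adis b i hne) hb hy
    exact hab (h1.trans h2.symm)
  have hreach : ∀ i, ∀ x ∈ A i, ∀ y, Reach G (A i) x y → y = x := by
    intro i x hx y hr
    induction hr with
    | refl => rfl
    | tail hb hc ih =>
      rw [ih] at hc
      exact absurd hc.1 (hno i x hx _ hc.2)
  -- `A i` misses the roots: a single vertex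
  have hsingle : ∀ i, (∀ a, z a ∉ A i) → ∃ x, A i = {x} := by
    intro i hi
    rcases h.h1 i with hc | hc
    · obtain ⟨x, hx⟩ := h.Ane i
      refine ⟨x, ?_⟩
      ext y
      rw [Finset.mem_singleton]
      exact ⟨fun hy => hreach i x hx y (hc.reach hx hy), fun hy => hy ▸ hx⟩
    · obtain ⟨x, hx⟩ := h.Ane i
      obtain ⟨a, ha, _⟩ := hc x hx
      exact absurd ha (hi a)
  -- a vertex of `A i` outside the roots: `A i` misses the roots
  have hmiss : ∀ i, ∀ x ∈ A i, (∀ a, z a ≠ x) → ∀ a, z a ∉ A i := by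
    intro i x hx hxz a ha
    rcases h.h1 i with hc | hc
    · exact hxz a (hreach i x hx _ (hc.reach hx ha))
    · obtain ⟨b, _, hr⟩ := hc x hx
      exact hxz b (hreach i x hx _ hr)
  set W1 : Finset V := W.filter (fun x => (∀ a, z a ≠ x) ∧ ∃ i, A i = {x}) with hW1
  have hW1c : s ≤ W1.card := by
    -- indices meeting the roots
    have hI : (Finset.univ.filter (fun i : Fin k => ∃ a, z a ∈ A i)).card ≤ s := by
      have hex : ∀ i : Fin k, ∃ a : Option (Fin s), (∃ a, z a ∈ A i) → ∃ b, a = some b ∧ z b ∈ A i := by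
        intro i
        by_cases hi : ∃ a, z a ∈ A i
        · obtain ⟨a, ha⟩ := hi
          exact ⟨some a, fun _ => ⟨a, rfl, ha⟩⟩
        · exact ⟨none, fun h' => absurd h' hi⟩
      choose f hf using hex
      have : (Finset.univ.filter (fun i : Fin k => ∃ a, z a ∈ A i)).card ≤
          (Finset.univ.image (some : Fin s → Option (Fin s))).card := by
        refine Finset.card_le_card_of_injOn f ?_ ?_
        · intro i hi
          rw [Finset.mem_coe, Finset.mem_filter] at hi
          obtain ⟨b, hb, _⟩ := hf i hi.2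
          rw [hb]
          exact Finset.mem_coe.2 (Finset.mem_image_of_mem _ (Finset.mem_univ _))
        · intro i hi j hj hij
          rw [Finset.mem_coe, Finset.mem_filter] at hi hj
          obtain ⟨b, hb, hbi⟩ := hf i hi.2
          obtain ⟨c, hc, hcj⟩ := hf j hj.2
          rw [hb, hc] at hij
          have hbc : b = c := Option.some.inj hij
          subst hbc
          by_contra hne
          exact Finset.disjoint_left.1 (h.Adis i j hne) hbi hcj
      refine this.trans ?_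
      rw [Finset.card_image_of_injective _ (Option.some_injective _)]
      simp
    have hI' : s ≤ (Finset.univ.filter (fun i : Fin k => ¬ ∃ a, z a ∈ A i)).card := by
      have := Finset.card_filter_add_card_filter_not (s := (Finset.univ : Finset (Fin k)))
        (fun i : Fin k => ∃ a, z a ∈ A i)
      rw [Finset.card_univ, Fintype.card_fin] at this
      omega
    refine hI'.trans ?_
    have hex : ∀ i : Fin k, ∃ x, x ∈ A i := fun i => h.Ane i
    choose f hf using hex
    refine Finset.card_le_card_of_injOn f ?_ ?_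
    · intro i hi
      rw [Finset.mem_coe, Finset.mem_filter] at hi
      have hi2 := hi.2
      push Not at hi2
      obtain ⟨x, hx⟩ := hsingle i hi2
      have hfi := hf i
      rw [hx, Finset.mem_singleton] at hfi
      rw [Finset.mem_coe, hW1, Finset.mem_filter]
      refine ⟨h.AW i (hf i), ?_, i, ?_⟩
      · intro a ha
        exact hi2 a (ha ▸ hf i)
      · rw [hfi, hx]
    · intro i _ j _ hij
      by_contra hne
      exact Finset.disjoint_left.1 (h.Adis i j hne) (hf i) (hij ▸ hf j)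
  -- Hall
  set N : Fin s → Finset V := fun a => W1.filter (fun x => G.Adj (z a) x) with hN
  have hall : ∀ S : Finset (Fin s), S.card ≤ (S.biUnion N).card := by
    intro S
    by_contra hlt
    push Not at hlt
    set Z : Finset V := Finset.univ.image z with hZ
    have hZc : Z.card = s := by
      rw [hZ, Finset.card_image_of_injective _ h.zinj]; simp
    have hZW : Z ⊆ W := by
      intro x hx
      obtain ⟨a, _, rfl⟩ := Finset.mem_image.1 hx
      exact h.zW a
    have hNW1 : S.biUnion N ⊆ W1 := by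
      intro x hx
      obtain ⟨a, _, hx⟩ := Finset.mem_biUnion.1 hx
      exact (Finset.mem_filter.1 hx).1
    have hW1W : W1 ⊆ W := Finset.filter_subset _ _
    have hW1Z : ∀ x ∈ W1, x ∉ Z := by
      intro x hx hxZ
      obtain ⟨a, _, ha⟩ := Finset.mem_image.1 hxZ
      exact (Finset.mem_filter.1 hx).2.1 a ha
    have hSZ : S.image z ⊆ Z := Finset.image_subset_image (Finset.subset_univ _)
    have hSep : Sep G W (Z ∪ S.biUnion N) (W \ S.image z) := by
      refine ⟨?_, ?_⟩
      · ext x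
        rw [Finset.mem_union, Finset.mem_union, Finset.mem_sdiff]
        constructor
        · rintro ((hx | hx) | hx)
          · exact hZW hx
          · exact hW1W (hNW1 hx)
          · exact hx.1
        · intro hx
          by_cases hxS : x ∈ S.image z
          · exact Or.inl (Or.inl (hSZ hxS))
          · exact Or.inr ⟨hx, hxS⟩
      · intro a ha haQ b hb hbP hadj
        have haW : a ∈ W := by
          rcases Finset.mem_union.1 ha with h' | h'
          · exact hZW h'
          · exact hW1W (hNW1 h')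
        have haS : a ∈ S.image z := by
          by_contra hcon
          exact haQ (Finset.mem_sdiff.2 ⟨haW, hcon⟩)
        obtain ⟨c, hc, rfl⟩ := Finset.mem_image.1 haS
        have hbW := (Finset.mem_sdiff.1 hb).1
        rw [Finset.mem_union, not_or] at hbP
        apply hbP.2
        refine Finset.mem_biUnion.2 ⟨c, hc, ?_⟩
        rw [hN]
        simp only [Finset.mem_filter]
        refine ⟨?_, hadj⟩
        have hbz : ∀ a, z a ≠ b := by
          intro a ha'
          exact hbP.1 (ha' ▸ Finset.mem_image_of_mem _ (Finset.mem_univ a))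
        obtain ⟨i, j, _, _, hbj⟩ := hedge _ haW b hbW hadj
        obtain ⟨x, hx⟩ := hsingle j (hmiss j b hbj hbz)
        have hxb : x = b := by
          rw [hx, Finset.mem_singleton] at hbj
          exact hbj.symm
        rw [hW1, Finset.mem_filter]
        exact ⟨hbW, hbz, j, by rw [hx, hxb]⟩
    have hcardlt : ((Z ∪ S.biUnion N) ∩ (W \ S.image z)).card < s := by
      have hsub : (Z ∪ S.biUnion N) ∩ (W \ S.image z) ⊆ (Z \ S.image z) ∪ S.biUnion N := by
        intro x hx
        rw [Finset.mem_inter, Finset.mem_union, Finset.mem_sdiff] at hx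
        rw [Finset.mem_union, Finset.mem_sdiff]
        rcases hx.1 with h' | h'
        · exact Or.inl ⟨h', hx.2.2⟩
        · exact Or.inr h'
      have h1 := Finset.card_le_card hsub
      have h2 := Finset.card_union_le (Z \ S.image z) (S.biUnion N)
      have h3 : (Z \ S.image z).card = s - S.card := by
        rw [Finset.card_sdiff_of_subset hSZ, hZc, Finset.card_image_of_injective _ h.zinj]
      have h4 : S.card ≤ s := by
        have := Finset.card_le_univ S
        rwa [Fintype.card_fin] at this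
      omega
    -- a vertex of `W1` outside the neighbourhood
    obtain ⟨x, hx1, hx2⟩ : ∃ x ∈ W1, x ∉ S.biUnion N := by
      by_contra hcon
      push Not at hcon
      have := Finset.card_le_card hcon
      have h4 : S.card ≤ s := by
        have := Finset.card_le_univ S
        rwa [Fintype.card_fin] at this
      omega
    obtain ⟨i, hi⟩ := (Finset.mem_filter.1 hx1).2.2
    have := h.h3 _ _ hSep (fun a => Finset.mem_union_left _
      (Finset.mem_image_of_mem _ (Finset.mem_univ a))) ⟨i, by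
        rw [hi, Finset.disjoint_singleton_right, Finset.mem_union, not_or]
        exact ⟨hW1Z x hx1, hx2⟩⟩
    omega
  obtain ⟨f, hfinj, hf⟩ := (Finset.all_card_le_biUnion_card_iff_exists_injective N).1 hall
  have hfW1 : ∀ a, f a ∈ W1 ∧ G.Adj (z a) (f a) := by
    intro a
    have := hf a
    rw [hN] at this
    exact Finset.mem_filter.1 this
  refine ⟨fun a => {z a, f a}, ?_, ?_, ?_, ?_, ?_⟩
  · intro a; simp
  · intro a x hx
    rw [Finset.mem_insert, Finset.mem_singleton] at hx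
    rcases hx with rfl | rfl
    · exact h.zW a
    · exact (Finset.mem_filter.1 (hfW1 a).1).1
  · intro a
    have := (conn_singleton (G := G) (f a)).insert_adj (Finset.mem_singleton_self _)
      (hfW1 a).2.symm
    exact this
  · intro a b hab
    rw [Finset.disjoint_left]
    intro x hx hx'
    rw [Finset.mem_insert, Finset.mem_singleton] at hx hx'
    rcases hx with rfl | rfl <;> rcases hx' with hx' | hx'
    · exact hab (h.zinj hx')
    · exact (Finset.mem_filter.1 (hfW1 b).1).2.1 a hx'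
    · exact (Finset.mem_filter.1 (hfW1 a).1).2.1 b hx'.symm
    · exact hab (hfinj hx')
  · intro a b hab
    obtain ⟨i, hi⟩ := (Finset.mem_filter.1 (hfW1 a).1).2.2
    obtain ⟨j, hj⟩ := (Finset.mem_filter.1 (hfW1 b).1).2.2
    have hij : i ≠ j := by
      rintro rfl
      rw [hi] at hj
      exact hab (hfinj (Finset.singleton_injective hj))
    refine ⟨f a, by simp, f b, by simp, ?_⟩
    rcases h.h2 i j hij with ⟨⟨c, hc⟩, _⟩ | ⟨x, hx, y, hy, hadj⟩
    · rw [hi, Finset.mem_singleton] at hc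
      exact absurd hc ((Finset.mem_filter.1 (hfW1 a).1).2.1 c)
    · rw [hi, Finset.mem_singleton] at hx
      rw [hj, Finset.mem_singleton] at hy
      rw [hx, hy] at hadj
      exact hadj

end final

/-- LEMMA RC, structure form. -/
theorem rooted_of_hyp {s k : ℕ} (hk : 2 * s ≤ k) : ∀ (n : ℕ) (W : Finset V), W.card = n →
    ∀ (G : SimpleGraph V) (z : Fin s → V) (A : Fin k → Finset V), Hyp G W z A → Rooted G W z := by
  intro n
  induction n using Nat.strong_induction_on with
  | _ n IH =>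
  intro W hWn G z A h
  subst hWn
  have ih : ∀ (W' : Finset V), W'.card < W.card → ∀ (G' : SimpleGraph V) (z' : Fin s → V)
      (A' : Fin k → Finset V), Hyp G' W' z' A' → Rooted G' W' z' :=
    fun W' hW' G' z' A' h' => IH W'.card hW' W' rfl G' z' A' h'
  have h0 := hyp_del h
  refine Rooted.mono_graph (G := del G z) (fun x y hxy => hxy.1) ?_
  by_cases hc : ∃ P Q, Sep (del G z) W P Q ∧ (∀ i, z i ∈ P) ∧ (∃ i, Disjoint P (A i)) ∧
      (P ∩ Q).card = s ∧ ∃ x ∈ P, x ∉ Q
  · obtain ⟨P, Q, hS, hz, ⟨i, hi⟩, hcard, x, hxP, hxQ⟩ := hc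
    exact step1 h0 ih hS hz hi hcard hxP hxQ
  · have hstar : ∀ P Q, Sep (del G z) W P Q → (∀ i, z i ∈ P) → (∃ i, Disjoint P (A i)) →
      (P ∩ Q).card ≤ s → ∀ x ∈ P, ∃ a, z a = x := by
      intro P Q hS hz hi hle x hx
      have hge := h0.h3 P Q hS hz hi
      have hPQ : P ⊆ Q := by
        intro y hy
        by_contra hyQ
        exact hc ⟨P, Q, hS, hz, hi, le_antisymm hle hge, y, hy, hyQ⟩
      have hPc : P.card ≤ s := by
        rw [Finset.inter_eq_left.2 hPQ] at hle
        exact hle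
      have hZP : Finset.univ.image z ⊆ P := by
        intro y hy
        obtain ⟨a, _, rfl⟩ := Finset.mem_image.1 hy
        exact hz a
      have hZeq : Finset.univ.image z = P := by
        refine Finset.eq_of_subset_of_card_le hZP ?_
        rw [Finset.card_image_of_injective _ h.zinj]
        simpa using hPc
      rw [← hZeq] at hx
      obtain ⟨a, _, ha⟩ := Finset.mem_image.1 hx
      exact ⟨a, ha⟩
    by_cases he : ∃ u ∈ W, ∃ v ∈ W, (del G z).Adj u v ∧ ¬ ∃ i j, i ≠ j ∧ u ∈ A i ∧ v ∈ A j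
    · have main : ∀ u ∈ W, ∀ v ∈ W, (del G z).Adj u v →
          (¬ ∃ i j, i ≠ j ∧ u ∈ A i ∧ v ∈ A j) → (∀ a, z a ≠ v) → Rooted (del G z) W z := by
        intro u hu v hv hadj hno hvz
        have hAA : ∀ i j, u ∈ A i → v ∈ A j → i = j := by
          intro i j hi hj
          by_contra hij
          exact hno ⟨i, j, hij, hi, hj⟩
        have hH := hyp_contr h0 hadj hu hv hvz hAA hstar
        have hlt : (W.erase v).card < W.card := Finset.card_erase_lt_of_mem hv
        exact rooted_lift hadj hu hv hvz h.zW (ih _ hlt _ _ _ hH)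
      obtain ⟨u, hu, v, hv, hadj, hno⟩ := he
      by_cases hvz : ∀ a, z a ≠ v
      · exact main u hu v hv hadj hno hvz
      · push Not at hvz
        refine main v hv u hu hadj.symm ?_ ?_
        · rintro ⟨i, j, hij, hi, hj⟩
          exact hno ⟨j, i, hij.symm, hj, hi⟩
        · intro a ha
          exact hadj.2 ⟨⟨a, ha⟩, hvz⟩
    · push Not at he
      refine final h0 hk ?_ ?_
      · intro a b hab
        exact hab.2 ⟨⟨a, rfl⟩, ⟨b, rfl⟩⟩
      · intro u hu v hv hadj
        exact he u hu v hv hadj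

/-- LEMMA RC (sec 04). -/
theorem rc {s k : ℕ} (hk : 2 * s ≤ k) (G : SimpleGraph V) (W : Finset V)
    (z : Fin s → V) (hz : Function.Injective z) (hzW : ∀ i, z i ∈ W)
    (A : Fin k → Finset V) (hAW : ∀ i, A i ⊆ W) (hAne : ∀ i, (A i).Nonempty)
    (hAd : ∀ i j, i ≠ j → Disjoint (A i) (A j))
    (h1 : ∀ i, Conn G (A i) ∨ ∀ v ∈ A i, ∃ j, z j ∈ A i ∧ Reach G (A i) v (z j))
    (h2 : ∀ i j, i ≠ j → ((∃ a, z a ∈ A i) ∧ (∃ b, z b ∈ A j)) ∨
      ∃ u ∈ A i, ∃ v ∈ A j, G.Adj u v)
    (h3 : ∀ P Q, Sep G W P Q → (∀ i, z i ∈ P) → (∃ i, Disjoint P (A i)) → s ≤ (P ∩ Q).card) :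
    ∃ B : Fin s → Finset V, (∀ i, z i ∈ B i) ∧ (∀ i, B i ⊆ W) ∧ (∀ i, Conn G (B i)) ∧
      (∀ i j, i ≠ j → Disjoint (B i) (B j)) ∧
      (∀ i j, i ≠ j → ∃ u ∈ B i, ∃ v ∈ B j, G.Adj u v) :=
  rooted_of_hyp hk W.card W rfl G z A ⟨hz, hzW, hAW, hAne, hAd, h1, h2, h3⟩

/-- LEMMA RC (sec 04), roots = a finite set `Z`, branch sets indexed by the root (form of 335). -/
theorem rooted_clique (G : SimpleGraph V) (W Z : Finset V) (hZW : Z ⊆ W) {k : ℕ}
    (A : Fin k → Finset V) (hAW : ∀ i, A i ⊆ W) (hne : ∀ i, (A i).Nonempty)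
    (hdisj : ∀ i j, i ≠ j → Disjoint (A i) (A j)) (hk : 2 * Z.card ≤ k)
    (h1 : ∀ i, Conn G (A i) ∨ ∀ x ∈ A i, ∃ y ∈ A i, y ∈ Z ∧ Reach G (A i) x y)
    (h2 : ∀ i j, i ≠ j → ((∃ x ∈ A i, x ∈ Z) ∧ ∃ y ∈ A j, y ∈ Z) ∨
      ∃ x ∈ A i, ∃ y ∈ A j, G.Adj x y)
    (h3 : ∀ P Q, Sep G W P Q → Z ⊆ P → (P ∩ Q).card < Z.card → ∀ i, (P ∩ A i).Nonempty) :
    ∃ B : V → Finset V, (∀ z ∈ Z, z ∈ B z ∧ B z ⊆ W ∧ Conn G (B z)) ∧
      (∀ z ∈ Z, ∀ z' ∈ Z, z ≠ z' → Disjoint (B z) (B z')) ∧
      (∀ z ∈ Z, ∀ z' ∈ Z, z ≠ z' → ∃ x ∈ B z, ∃ y ∈ B z', G.Adj x y) := by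
  classical
  obtain ⟨e⟩ : Nonempty (Fin Z.card ≃ Z) := ⟨Z.equivFin.symm⟩
  set z : Fin Z.card → V := fun i => (e i : V) with hz
  have hzinj : Function.Injective z := fun i j hij => e.injective (Subtype.ext hij)
  have hzZ : ∀ i, z i ∈ Z := fun i => (e i).2
  have hsurj : ∀ x ∈ Z, ∃ i, z i = x := fun x hx => ⟨e.symm ⟨x, hx⟩, by simp [hz]⟩
  have h1' : ∀ i, Conn G (A i) ∨ ∀ v ∈ A i, ∃ j, z j ∈ A i ∧ Reach G (A i) v (z j) := by
    intro i
    rcases h1 i with h | h
    · exact Or.inl h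
    · right
      intro v hv
      obtain ⟨y, hy, hyZ, hr⟩ := h v hv
      obtain ⟨j, rfl⟩ := hsurj y hyZ
      exact ⟨j, hy, hr⟩
  have h2' : ∀ i j, i ≠ j → ((∃ a, z a ∈ A i) ∧ (∃ b, z b ∈ A j)) ∨
      ∃ u ∈ A i, ∃ v ∈ A j, G.Adj u v := by
    intro i j hij
    rcases h2 i j hij with ⟨⟨x, hx, hxZ⟩, ⟨y, hy, hyZ⟩⟩ | h
    · obtain ⟨a, rfl⟩ := hsurj x hxZ
      obtain ⟨b, rfl⟩ := hsurj y hyZ
      exact Or.inl ⟨⟨a, hx⟩, ⟨b, hy⟩⟩
    · exact Or.inr h
  have h3' : ∀ P Q, Sep G W P Q → (∀ i, z i ∈ P) → (∃ i, Disjoint P (A i)) →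
      Z.card ≤ (P ∩ Q).card := by
    intro P Q hS hzP ⟨i, hi⟩
    by_contra hlt
    push Not at hlt
    obtain ⟨x, hx⟩ := h3 P Q hS (fun x hx => by
      obtain ⟨j, rfl⟩ := hsurj x hx
      exact hzP j) hlt i
    exact Finset.disjoint_left.1 hi (Finset.mem_inter.1 hx).1 (Finset.mem_inter.1 hx).2
  obtain ⟨B, hB1, hB2, hB3, hB4, hB5⟩ := rc (s := Z.card) hk G W z hzinj (fun i => hZW (hzZ i)) A
    hAW hne hdisj h1' h2' h3'
  have hidx : ∀ x : V, ∃ i : Option (Fin Z.card), x ∈ Z → ∃ j, i = some j ∧ z j = x := by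
    intro x
    by_cases hx : x ∈ Z
    · obtain ⟨j, hj⟩ := hsurj x hx
      exact ⟨some j, fun _ => ⟨j, rfl, hj⟩⟩
    · exact ⟨none, fun h => absurd h hx⟩
  choose idx hidx using hidx
  have hBz : ∀ j, (fun x => (idx x).elim ∅ B) (z j) = B j := by
    intro j
    obtain ⟨i, hi, hij⟩ := hidx (z j) (hzZ j)
    have : i = j := hzinj hij
    subst this
    simp [hi]
  refine ⟨fun x => (idx x).elim ∅ B, ?_, ?_, ?_⟩
  · intro x hx
    obtain ⟨j, rfl⟩ := hsurj x hx
    rw [hBz j]
    exact ⟨hB1 j, hB2 j, hB3 j⟩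
  · intro x hx y hy hxy
    obtain ⟨i, rfl⟩ := hsurj x hx
    obtain ⟨j, rfl⟩ := hsurj y hy
    rw [hBz i, hBz j]
    exact hB4 i j (fun h => hxy (by rw [h]))
  · intro x hx y hy hxy
    obtain ⟨i, rfl⟩ := hsurj x hx
    obtain ⟨j, rfl⟩ := hsurj y hy
    rw [hBz i, hBz j]
    exact hB5 i j (fun h => hxy (by rw [h]))

end Crest.Agent.R042.RC157
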