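import Mathlib
import Crest.Agent.R042.Conn_353
import Crest.Agent.R042.Menger_353

/-! Row 42, S0058, sec 04: LEMMA RC (rooted clique minors). -/

set_option autoImplicit false
set_option linter.unusedSectionVars false

namespace Crest.Agent.R042.RC299

open Finset
open Crest.Agent.R042.Conn353 Crest.Agent.R042.Menger353

variable {V : Type*} [DecidableEq V] {ι : Type*}

/-- `f z`, `z ∈ Z`, is a clique model of `G[W]` rooted at `Z`. -/
structure Rooted (G : SimpleGraph V) (W Z : Finset V) (f : V → Finset V) : Prop where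
  root : ∀ z ∈ Z, z ∈ f z
  sub : ∀ z ∈ Z, f z ⊆ W
  conn : ∀ z ∈ Z, Conn G (f z)
  disj : ∀ z ∈ Z, ∀ z' ∈ Z, z ≠ z' → ∀ x ∈ f z, x ∉ f z'
  adj : ∀ z ∈ Z, ∀ z' ∈ Z, z ≠ z' → ∃ x ∈ f z, ∃ y ∈ f z', G.Adj x y

/-- hypotheses of the rooted clique lemma. -/
structure Hyp (G : SimpleGraph V) (W Z : Finset V) (I : Finset ι) (A : ι → Finset V) : Prop where
  subZ : Z ⊆ W
  sub : ∀ i ∈ I, A i ⊆ W
  ne : ∀ i ∈ I, (A i).Nonempty
  disj : ∀ i ∈ I, ∀ j ∈ I, i ≠ j → ∀ x ∈ A i, x ∉ A j
  comp : ∀ i ∈ I, Conn G (A i) ∨ ∀ x ∈ A i, ∃ z ∈ A i, z ∈ Z ∧ Reach G (A i) x z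
  adj : ∀ i ∈ I, ∀ j ∈ I, i ≠ j → ((∃ x ∈ A i, x ∈ Z) ∧ (∃ x ∈ A j, x ∈ Z)) ∨
    ∃ x ∈ A i, ∃ y ∈ A j, G.Adj x y
  sep : ∀ P Q, Sep G W P Q → Z ⊆ P → (P ∩ Q).card < Z.card → ∀ i ∈ I, ∃ x ∈ A i, x ∈ P

/-! ### contraction of the vertex `v` into `u` -/

/-- the map of the contraction. -/
def cmap (u v : V) (x : V) : V := if x = v then u else x

/-- the contracted graph (on the same vertex type). -/
def cgraph (G : SimpleGraph V) (u v : V) : SimpleGraph V :=
  SimpleGraph.fromRel (fun x y => ∃ x' y', cmap u v x' = x ∧ cmap u v y' = y ∧ G.Adj x' y')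

variable {G : SimpleGraph V} {u v : V}

lemma cmap_self : cmap u v v = u := by simp [cmap]

lemma cmap_of_ne {x : V} (h : x ≠ v) : cmap u v x = x := by simp [cmap, h]

lemma cgraph_adj {x y : V} : (cgraph G u v).Adj x y ↔
    x ≠ y ∧ ∃ x' y', cmap u v x' = x ∧ cmap u v y' = y ∧ G.Adj x' y' := by
  unfold cgraph
  rw [SimpleGraph.fromRel_adj]
  constructor
  · rintro ⟨h, ⟨x', y', h1, h2, h3⟩ | ⟨x', y', h1, h2, h3⟩⟩
    · exact ⟨h, x', y', h1, h2, h3⟩
    · exact ⟨h, y', x', h2, h1, h3.symm⟩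
  · rintro ⟨h, h'⟩
    exact ⟨h, Or.inl h'⟩

lemma cgraph_of_adj {x y : V} (h : G.Adj x y) (hne : cmap u v x ≠ cmap u v y) :
    (cgraph G u v).Adj (cmap u v x) (cmap u v y) :=
  cgraph_adj.2 ⟨hne, x, y, rfl, rfl, h⟩

lemma reach_image {S : Finset V} {x y : V} (h : Reach G S x y) :
    Reach (cgraph G u v) (S.image (cmap u v)) (cmap u v x) (cmap u v y) := by
  induction h with
  | refl => exact Reach.refl _
  | tail h1 h2 ih =>
    rename_i b c
    by_cases hbc : cmap u v b = cmap u v c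
    · rw [← hbc]; exact ih
    · exact ih.step (cgraph_of_adj h2.1 hbc) (Finset.mem_image_of_mem _ h2.2)

lemma conn_image {S : Finset V} (h : Conn G S) :
    Conn (cgraph G u v) (S.image (cmap u v)) := by
  obtain ⟨x, hx⟩ := h.nonempty
  refine conn_of_reach (Finset.mem_image_of_mem _ hx) ?_
  intro y hy
  obtain ⟨y', hy', rfl⟩ := Finset.mem_image.1 hy
  exact reach_image (h.reach hx hy')

/-- the lift of a vertex set of the contracted graph. -/
def lift (u v : V) (S : Finset V) : Finset V := if u ∈ S then insert v S else S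

lemma mem_lift {S : Finset V} (hv : v ∉ S) {x : V} : x ∈ lift u v S ↔ cmap u v x ∈ S := by
  unfold lift cmap
  by_cases hu : u ∈ S
  · by_cases hx : x = v
    · simp [hu, hx]
    · simp [hu, hx]
  · by_cases hx : x = v
    · simp [hu, hx, hv]
    · simp [hu, hx]

lemma reach_lift {S : Finset V} (hv : v ∉ S) (huv : G.Adj u v) {x y : V}
    (h : Reach (cgraph G u v) S x y) (hx : x ∈ S) : Reach G (lift u v S) x y := by
  have key : ∀ z z' : V, z ∈ S → cmap u v z' = z → Reach G (lift u v S) z z' ∧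
      Reach G (lift u v S) z' z := by
    intro z z' hz hz'
    by_cases h1 : z' = v
    · subst h1
      rw [cmap_self] at hz'
      subst hz'
      refine ⟨Reach.single huv ?_, Reach.single huv.symm ?_⟩
      · rw [mem_lift hv, cmap_self]; exact hz
      · rw [mem_lift hv, cmap_of_ne huv.ne]; exact hz
    · rw [cmap_of_ne h1] at hz'
      subst hz'
      exact ⟨Reach.refl _, Reach.refl _⟩
  induction h with
  | refl => exact Reach.refl _
  | tail h1 h2 ih =>
    rename_i b c
    have hb : b ∈ S := Reach.mem h1 hx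
    obtain ⟨hbc, b', c', h3, h4, h5⟩ := cgraph_adj.1 h2.1
    refine ih.trans (((key b b' hb h3).1.trans (Reach.single h5 ?_)).trans (key c c' h2.2 h4).2)
    rw [mem_lift hv, h4]
    exact h2.2

lemma conn_lift {S : Finset V} (hv : v ∉ S) (huv : G.Adj u v) (h : Conn (cgraph G u v) S) :
    Conn G (lift u v S) := by
  obtain ⟨x, hx⟩ := h.nonempty
  have hxv : ∀ y ∈ S, y ≠ v := fun y hy h => hv (h ▸ hy)
  have hx' : x ∈ lift u v S := by rw [mem_lift hv, cmap_of_ne (hxv x hx)]; exact hx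
  refine conn_of_reach hx' ?_
  intro y hy
  by_cases hyv : y = v
  · subst hyv
    rw [mem_lift hv, cmap_self] at hy
    refine (reach_lift hv huv (h.reach hx hy) hx).step huv ?_
    rw [mem_lift hv, cmap_self]; exact hy
  · rw [mem_lift hv, cmap_of_ne hyv] at hy
    exact reach_lift hv huv (h.reach hx hy) hx


/-! ### crossing a separation -/

lemma reach_sep {W A B S : Finset V} (h : Sep G W A B) (hS : S ⊆ W) {x y : V}
    (hr : Reach G S x y) (hxS : x ∈ S) (hxB : x ∈ B) (hyA : y ∈ A) :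
    ∃ z ∈ S ∩ B, z ∈ A ∩ B ∧ Reach G (S ∩ B) x z := by
  induction hr using Relation.ReflTransGen.head_induction_on with
  | refl => exact ⟨y, Finset.mem_inter.2 ⟨hxS, hxB⟩, Finset.mem_inter.2 ⟨hyA, hxB⟩, Reach.refl _⟩
  | head h1 h2 ih =>
    rename_i a c
    by_cases haA : a ∈ A
    · exact ⟨a, Finset.mem_inter.2 ⟨hxS, hxB⟩, Finset.mem_inter.2 ⟨haA, hxB⟩, Reach.refl _⟩
    · have hcB : c ∈ B := by
        by_contra hcB
        have hcA : c ∈ A := by
          have := hS h1.2
          rw [← h.union, Finset.mem_union] at this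
          exact this.resolve_right hcB
        exact h.nadj c hcA hcB a hxB haA h1.1.symm
      obtain ⟨z, hz1, hz2, hz3⟩ := ih h1.2 hcB
      exact ⟨z, hz1, hz2, (Reach.single h1.1 (Finset.mem_inter.2 ⟨h1.2, hcB⟩)).trans hz3⟩

/-! ### step (1): a separation of order exactly `|Z|` -/

section step1

variable {W Z : Finset V} {I : Finset ι} {A : ι → Finset V}

lemma Hyp.to_Z (H : Hyp G W Z I A) {j : ι} (hj : j ∈ I) {x : V} (hx : x ∈ A j) {y : V}
    (hy : y ∈ A j) : Reach G (A j) x y ∨ ∃ z ∈ A j, z ∈ Z ∧ Reach G (A j) x z := by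
  rcases H.comp j hj with h | h
  · exact Or.inl (h.reach hx hy)
  · exact Or.inr (h x hx)

/-- the key fact: a part which meets both sides meets the middle. -/
lemma Hyp.cross (H : Hyp G W Z I A) {P Q : Finset V} (hs : Sep G W P Q) (hZ : Z ⊆ P) {j : ι}
    (hj : j ∈ I) {x : V} (hx : x ∈ A j) (hxQ : x ∈ Q) (hm : ∃ y ∈ A j, y ∈ P) :
    ∃ z ∈ A j ∩ Q, z ∈ P ∩ Q ∧ Reach G (A j ∩ Q) x z := by
  obtain ⟨y, hy, hyP⟩ := hm
  rcases H.to_Z hj hx hy with h | ⟨z, hz, hzZ, h⟩
  · exact reach_sep hs (H.sub j hj) h hx hxQ hyP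
  · exact reach_sep hs (H.sub j hj) h hx hxQ (hZ hzZ)

lemma Hyp.restrict (H : Hyp G W Z I A) {P Q : Finset V} (hs : Sep G W P Q) (hZ : Z ⊆ P)
    (hcard : (P ∩ Q).card = Z.card) {i : ι} (hi : i ∈ I) (hiP : ∀ x ∈ A i, x ∉ P) :
    Hyp G Q (P ∩ Q) I (fun j => A j ∩ Q) := by
  have hsub : ∀ j ∈ I, ∀ x ∈ A j, x ∈ P ∨ x ∈ Q := by
    intro j hj x hx
    have := H.sub j hj hx
    rwa [← hs.union, Finset.mem_union] at this
  have hne : ∀ j ∈ I, ∃ x ∈ A j, x ∈ Q := by
    intro j hj
    by_contra hno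
    push Not at hno
    have hji : j ≠ i := by
      rintro rfl
      obtain ⟨x, hx⟩ := H.ne j hj
      rcases hsub j hj x hx with h | h
      · exact hiP x hx h
      · exact hno x hx h
    rcases H.adj j hj i hi hji with ⟨_, x, hx, hxZ⟩ | ⟨x, hx, y, hy, hxy⟩
    · exact hiP x hx (hZ hxZ)
    · have hxQ := hno x hx
      have hxP := (hsub j hj x hx).resolve_right hxQ
      have hyP := hiP y hy
      have hyQ := (hsub i hi y hy).resolve_left hyP
      exact hs.nadj x hxP hxQ y hyQ hyP hxy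
  -- NOTE (N)
  have hN : ∀ j ∈ I, (∀ x ∈ A j, x ∉ P ∩ Q) → ∀ x ∈ A j, x ∉ P ∧ x ∈ Q := by
    intro j hj hmiss
    have hnoP : ∀ x ∈ A j, x ∉ P := by
      intro x hx hxP
      obtain ⟨y, hy, hyQ⟩ := hne j hj
      obtain ⟨z, hz1, hz2, _⟩ := H.cross hs hZ hj hy hyQ ⟨x, hx, hxP⟩
      exact hmiss z (Finset.mem_inter.1 hz1).1 hz2
    intro x hx
    exact ⟨hnoP x hx, (hsub j hj x hx).resolve_left (hnoP x hx)⟩
  have hadj1 : ∀ j ∈ I, ∀ l ∈ I, j ≠ l → (∀ x ∈ A j, x ∉ P ∩ Q) →
      ∃ x ∈ A j ∩ Q, ∃ y ∈ A l ∩ Q, G.Adj x y := by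
    intro j hj l hl hjl hmiss
    rcases H.adj j hj l hl hjl with ⟨⟨x, hx, hxZ⟩, _⟩ | ⟨x, hx, y, hy, hxy⟩
    · exact absurd (hZ hxZ) (hN j hj hmiss x hx).1
    · obtain ⟨hxP, hxQ⟩ := hN j hj hmiss x hx
      refine ⟨x, Finset.mem_inter.2 ⟨hx, hxQ⟩, y, Finset.mem_inter.2 ⟨hy, ?_⟩, hxy⟩
      by_contra hyQ
      have hyP := (hsub l hl y hy).resolve_right hyQ
      exact hs.nadj y hyP hyQ x hxQ hxP hxy.symm
  refine ⟨Finset.inter_subset_right, fun j _ => Finset.inter_subset_right, ?_, ?_, ?_, ?_, ?_⟩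
  · intro j hj
    obtain ⟨x, hx, hxQ⟩ := hne j hj
    exact ⟨x, Finset.mem_inter.2 ⟨hx, hxQ⟩⟩
  · intro j hj l hl hjl x hx hx'
    exact H.disj j hj l hl hjl x (Finset.mem_inter.1 hx).1 (Finset.mem_inter.1 hx').1
  · intro j hj
    by_cases hm : ∃ y ∈ A j, y ∈ P
    · right
      intro x hx
      rw [Finset.mem_inter] at hx
      obtain ⟨z, hz1, hz2, hz3⟩ := H.cross hs hZ hj hx.1 hx.2 hm
      exact ⟨z, hz1, hz2, hz3⟩
    · push Not at hm
      left
      have hAQ : A j ∩ Q = A j := by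
        rw [Finset.inter_eq_left]
        intro x hx
        exact (hsub j hj x hx).resolve_left (hm x hx)
      rw [hAQ]
      rcases H.comp j hj with h | h
      · exact h
      · obtain ⟨x, hx⟩ := H.ne j hj
        obtain ⟨z, hz, hzZ, _⟩ := h x hx
        exact absurd (hZ hzZ) (hm z hz)
  · intro j hj l hl hjl
    by_cases h1 : ∀ x ∈ A j, x ∉ P ∩ Q
    · exact Or.inr (hadj1 j hj l hl hjl h1)
    by_cases h2 : ∀ x ∈ A l, x ∉ P ∩ Q
    · obtain ⟨x, hx, y, hy, hxy⟩ := hadj1 l hl j hj (Ne.symm hjl) h2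
      exact Or.inr ⟨y, hy, x, hx, hxy.symm⟩
    · push Not at h1 h2
      obtain ⟨x, hx, hx'⟩ := h1
      obtain ⟨y, hy, hy'⟩ := h2
      exact Or.inl ⟨⟨x, Finset.mem_inter.2 ⟨hx, (Finset.mem_inter.1 hx').2⟩, hx'⟩,
        ⟨y, Finset.mem_inter.2 ⟨hy, (Finset.mem_inter.1 hy').2⟩, hy'⟩⟩
  · intro P' Q' hs' hP' hlt j hj
    by_contra hno
    push Not at hno
    have hmiss : ∀ x ∈ A j, x ∉ P ∩ Q := by
      intro x hx hx'
      exact hno x (Finset.mem_inter.2 ⟨hx, (Finset.mem_inter.1 hx').2⟩) (hP' hx')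
    have hsep : Sep G W (P ∪ P') Q' := by
      refine ⟨?_, ?_⟩
      · rw [Finset.union_assoc, hs'.union, hs.union]
      · intro a ha haQ b hb hbP hab
        rw [Finset.mem_union] at ha
        rw [Finset.mem_union, not_or] at hbP
        by_cases haP' : a ∈ P'
        · exact hs'.nadj a haP' haQ b hb hbP.2 hab
        · have haP := ha.resolve_right haP'
          have haQ : a ∉ Q := fun h => haP' (hP' (Finset.mem_inter.2 ⟨haP, h⟩))
          exact hs.nadj a haP haQ b (hs'.right_sub hb) hbP.1 hab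
    have hint : (P ∪ P') ∩ Q' = P' ∩ Q' := by
      ext x
      simp only [Finset.mem_inter, Finset.mem_union]
      constructor
      · rintro ⟨h | h, h'⟩
        · exact ⟨hP' (Finset.mem_inter.2 ⟨h, hs'.right_sub h'⟩), h'⟩
        · exact ⟨h, h'⟩
      · rintro ⟨h, h'⟩
        exact ⟨Or.inr h, h'⟩
    obtain ⟨x, hx, hx'⟩ := H.sep (P ∪ P') Q' hsep (hZ.trans Finset.subset_union_left)
      (by rw [hint, ← hcard]; exact hlt) j hj
    obtain ⟨h1, h2⟩ := hN j hj hmiss x hx
    rcases Finset.mem_union.1 hx' with h | h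
    · exact h1 h
    · exact hno x (Finset.mem_inter.2 ⟨hx, h2⟩) h

/-- gluing the rooted model of the right side with a linkage of the left side. -/
lemma glue {P Q : Finset V} (hs : Sep G W P Q)
    {L : Finset (List V)} (hL : Linkage G P Z (P ∩ Q) L) (hLZ : L.card = Z.card)
    {f : V → Finset V} (hf : Rooted G Q (P ∩ Q) f) : ∃ f', Rooted G W Z f' := by
  obtain ⟨p, g, h1, h2, h3, h4, h5⟩ := hL.family
  have hvz : verts L ∩ Z = Z := by
    apply Finset.eq_of_subset_of_card_le Finset.inter_subset_right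
    rw [hL.verts_inter_card_left, hLZ]
  rw [hvz] at h1 h2 h3 h4 h5
  have hpP : ∀ z ∈ Z, ∀ x ∈ p z, x ∈ P := fun z hz x hx => (h1 z hz).2.1.sub x hx
  have hg : ∀ z ∈ Z, g z ∈ P ∩ Q := fun z hz => (h1 z hz).2.2.2.2.1
  have hpg : ∀ z ∈ Z, ∀ x ∈ p z, x ∈ Q → x = g z := by
    intro z hz x hx hxQ
    exact (h1 z hz).2.2.2.2.2.2.2.2 x hx (Finset.mem_inter.2 ⟨hpP z hz x hx, hxQ⟩)
  refine ⟨fun z => (p z).toFinset ∪ f (g z), ?_, ?_, ?_, ?_, ?_⟩
  · intro z hz
    exact Finset.mem_union_left _ (List.mem_toFinset.2 (h1 z hz).2.2.2.2.2.1)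
  · intro z hz
    apply Finset.union_subset
    · intro x hx
      exact hs.left_sub (hpP z hz x (List.mem_toFinset.1 hx))
    · exact (hf.sub _ (hg z hz)).trans hs.right_sub
  · intro z hz
    exact (h1 z hz).2.1.conn.union (hf.conn _ (hg z hz))
      (List.mem_toFinset.2 (h1 z hz).2.2.2.2.2.2.1) (hf.root _ (hg z hz))
  · intro z hz z' hz' hne x hx hx'
    have hgne : g z ≠ g z' := fun h => hne (h5 z hz z' hz' h)
    rcases Finset.mem_union.1 hx with hx | hx <;> rcases Finset.mem_union.1 hx' with hx' | hx'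
    · exact h2 z hz z' hz' hne x (List.mem_toFinset.1 hx) (List.mem_toFinset.1 hx')
    · have h6 := hpg z hz x (List.mem_toFinset.1 hx) (hf.sub _ (hg z' hz') hx')
      subst h6
      exact hf.disj _ (hg z hz) _ (hg z' hz') hgne _ (hf.root _ (hg z hz)) hx'
    · have h6 := hpg z' hz' x (List.mem_toFinset.1 hx') (hf.sub _ (hg z hz) hx)
      subst h6
      exact hf.disj _ (hg z hz) _ (hg z' hz') hgne _ hx (hf.root _ (hg z' hz'))
    · exact hf.disj _ (hg z hz) _ (hg z' hz') hgne x hx hx'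
  · intro z hz z' hz' hne
    have hgne : g z ≠ g z' := fun h => hne (h5 z hz z' hz' h)
    obtain ⟨x, hx, y, hy, hxy⟩ := hf.adj _ (hg z hz) _ (hg z' hz') hgne
    exact ⟨x, Finset.mem_union_right _ hx, y, Finset.mem_union_right _ hy, hxy⟩

/-- step (1). -/
lemma Hyp.step1 (H : Hyp G W Z I A) {P Q : Finset V} (hs : Sep G W P Q) (hZ : Z ⊆ P)
    {i : ι} (hi : i ∈ I) (hiP : ∀ x ∈ A i, x ∉ P)
    (IH : ∃ f, Rooted G Q (P ∩ Q) f) : ∃ f, Rooted G W Z f := by
  obtain ⟨f, hf⟩ := IH
  rcases menger_sep (G := G) hZ (Finset.inter_subset_left (s₁ := P) (s₂ := Q)) Z.card with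
    ⟨L, hL, hLc⟩ | ⟨P', Q', hs', h1, h2, h3⟩
  · exact glue hs hL hLc hf
  · exfalso
    have hsep : Sep G W P' (Q' ∪ Q) := by
      refine ⟨?_, ?_⟩
      · rw [← Finset.union_assoc, hs'.union, hs.union]
      · intro a ha haQ b hb hbP hab
        rw [Finset.mem_union, not_or] at haQ
        rcases Finset.mem_union.1 hb with hb | hb
        · exact hs'.nadj a ha haQ.1 b hb hbP hab
        · by_cases hbP2 : b ∈ P
          · exact hs'.nadj a ha haQ.1 b (h2 (Finset.mem_inter.2 ⟨hbP2, hb⟩)) hbP hab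
          · exact hs.nadj a (hs'.left_sub ha) haQ.2 b hb hbP2 hab
    have hint : P' ∩ (Q' ∪ Q) = P' ∩ Q' := by
      ext x
      simp only [Finset.mem_inter, Finset.mem_union]
      constructor
      · rintro ⟨h, h' | h'⟩
        · exact ⟨h, h'⟩
        · exact ⟨h, h2 (Finset.mem_inter.2 ⟨hs'.left_sub h, h'⟩)⟩
      · rintro ⟨h, h'⟩
        exact ⟨h, Or.inl h'⟩
    obtain ⟨x, hx, hx'⟩ := H.sep P' (Q' ∪ Q) hsep h1 (by rw [hint]; exact h3) i hi
    exact hiP x hx (hs'.left_sub hx')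

end step1

/-! ### step (2): contraction of an edge -/

section step2

variable {W Z : Finset V} {I : Finset ι} {A : ι → Finset V}

/-- `(*)`: the tight separations. -/
def Star (G : SimpleGraph V) (W Z : Finset V) (I : Finset ι) (A : ι → Finset V) : Prop :=
  ∀ P Q, Sep G W P Q → Z ⊆ P → (P ∩ Q).card ≤ Z.card → ∀ i ∈ I, (∀ x ∈ A i, x ∉ P) → P = Z

lemma Hyp.contract (H : Hyp G W Z I A) (hstar : Star G W Z I A) (hu : u ∈ W) (hv : v ∈ W)
    (hvZ : v ∉ Z) (huv : G.Adj u v)
    (hA : ∀ i ∈ I, ∀ j ∈ I, u ∈ A i → v ∈ A j → i = j) :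
    Hyp (cgraph G u v) (W.erase v) Z I (fun i => (A i).image (cmap u v)) := by
  have hne := huv.ne
  have hZv : ∀ z ∈ Z, cmap u v z = z := fun z hz => cmap_of_ne (fun h => hvZ (h ▸ hz))
  have hdisj : ∀ i ∈ I, ∀ j ∈ I, i ≠ j → ∀ x ∈ A i, ∀ y ∈ A j, cmap u v x ≠ cmap u v y := by
    intro i hi j hj hij x hx y hy heq
    unfold cmap at heq
    by_cases h1 : x = v
    · by_cases h2 : y = v
      · subst h1 h2
        exact H.disj i hi j hj hij _ hx hy
      · rw [if_pos h1, if_neg h2] at heq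
        subst h1 heq
        exact hij (hA j hj i hi hy hx).symm
    · by_cases h2 : y = v
      · rw [if_neg h1, if_pos h2] at heq
        subst h2 heq
        exact hij (hA i hi j hj hx hy)
      · rw [if_neg h1, if_neg h2] at heq
        subst heq
        exact H.disj i hi j hj hij _ hx hy
  refine ⟨?_, ?_, ?_, ?_, ?_, ?_, ?_⟩
  · intro z hz
    exact Finset.mem_erase.2 ⟨fun h => hvZ (h ▸ hz), H.subZ hz⟩
  · intro i hi x hx
    obtain ⟨y, hy, rfl⟩ := Finset.mem_image.1 hx
    unfold cmap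
    split
    · exact Finset.mem_erase.2 ⟨hne, hu⟩
    · rename_i h
      exact Finset.mem_erase.2 ⟨h, H.sub i hi hy⟩
  · intro i hi
    exact (H.ne i hi).image _
  · intro i hi j hj hij x hx hx'
    obtain ⟨y, hy, rfl⟩ := Finset.mem_image.1 hx
    obtain ⟨y', hy', h⟩ := Finset.mem_image.1 hx'
    exact hdisj i hi j hj hij y hy y' hy' h.symm
  · intro i hi
    rcases H.comp i hi with h | h
    · exact Or.inl (conn_image h)
    · right
      intro x hx
      obtain ⟨y, hy, rfl⟩ := Finset.mem_image.1 hx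
      obtain ⟨z, hz, hzZ, hr⟩ := h y hy
      refine ⟨z, ?_, hzZ, ?_⟩
      · rw [← hZv z hzZ]; exact Finset.mem_image_of_mem _ hz
      · have := reach_image (u := u) (v := v) hr
        rwa [hZv z hzZ] at this
  · intro i hi j hj hij
    rcases H.adj i hi j hj hij with ⟨⟨x, hx, hxZ⟩, ⟨y, hy, hyZ⟩⟩ | ⟨x, hx, y, hy, hxy⟩
    · left
      refine ⟨⟨x, ?_, hxZ⟩, ⟨y, ?_, hyZ⟩⟩
      · rw [← hZv x hxZ]; exact Finset.mem_image_of_mem _ hx
      · rw [← hZv y hyZ]; exact Finset.mem_image_of_mem _ hy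
    · right
      exact ⟨_, Finset.mem_image_of_mem _ hx, _, Finset.mem_image_of_mem _ hy,
        cgraph_of_adj hxy (hdisj i hi j hj hij x hx y hy)⟩
  · intro P Q hs hZP hlt i hi
    by_contra hno
    push Not at hno
    have hvP : v ∉ P := fun h => (Finset.mem_erase.1 (hs.left_sub h)).1 rfl
    have hvQ : v ∉ Q := fun h => (Finset.mem_erase.1 (hs.right_sub h)).1 rfl
    have hsub : ∀ S : Finset V, S ⊆ W.erase v → lift u v S ⊆ W := by
      intro S hS x hx
      by_cases hxv : x = v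
      · rw [hxv]; exact hv
      · rw [mem_lift (fun h => (Finset.mem_erase.1 (hS h)).1 rfl), cmap_of_ne hxv] at hx
        exact (Finset.mem_erase.1 (hS hx)).2
    have hsep : Sep G W (lift u v P) (lift u v Q) := by
      refine ⟨?_, ?_⟩
      · apply Finset.Subset.antisymm
        · exact Finset.union_subset (hsub P hs.left_sub) (hsub Q hs.right_sub)
        · intro x hx
          rw [Finset.mem_union, mem_lift hvP, mem_lift hvQ, ← Finset.mem_union, hs.union]
          unfold cmap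
          split
          · exact Finset.mem_erase.2 ⟨hne, hu⟩
          · rename_i h
            exact Finset.mem_erase.2 ⟨h, hx⟩
      · intro a ha haQ b hb hbP hab
        rw [mem_lift hvP] at ha hbP
        rw [mem_lift hvQ] at haQ hb
        refine hs.nadj _ ha haQ _ hb hbP (cgraph_of_adj hab ?_)
        intro h
        rw [h] at ha
        exact hbP ha
    have hcap : lift u v P ∩ lift u v Q ⊆ insert v (P ∩ Q) := by
      intro x hx
      rw [Finset.mem_inter, mem_lift hvP, mem_lift hvQ] at hx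
      by_cases hxv : x = v
      · exact Finset.mem_insert.2 (Or.inl hxv)
      · rw [cmap_of_ne hxv] at hx
        exact Finset.mem_insert_of_mem (Finset.mem_inter.2 hx)
    have hZP' : Z ⊆ lift u v P := by
      intro z hz
      rw [mem_lift hvP, hZv z hz]
      exact hZP hz
    have hiP : ∀ x ∈ A i, x ∉ lift u v P := by
      intro x hx hx'
      rw [mem_lift hvP] at hx'
      exact hno _ (Finset.mem_image_of_mem _ hx) hx'
    have hle : (lift u v P ∩ lift u v Q).card ≤ Z.card :=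
      ((Finset.card_le_card hcap).trans (Finset.card_insert_le _ _)).trans hlt
    have hPZ := hstar _ _ hsep hZP' hle i hi hiP
    have hvl : v ∉ lift u v P := by rw [hPZ]; exact hvZ
    have hcap2 : lift u v P ∩ lift u v Q ⊆ P ∩ Q := by
      intro x hx
      rcases Finset.mem_insert.1 (hcap hx) with h | h
      · rw [h] at hx
        exact absurd (Finset.mem_inter.1 hx).1 hvl
      · exact h
    obtain ⟨x, hx, hx'⟩ := H.sep _ _ hsep hZP' (lt_of_le_of_lt (Finset.card_le_card hcap2) hlt) i hi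
    exact hiP x hx hx'

lemma Rooted.lift {f : V → Finset V} (hf : Rooted (cgraph G u v) (W.erase v) Z f) (hv : v ∈ W)
    (hvZ : v ∉ Z) (huv : G.Adj u v) : Rooted G W Z (fun z => RC299.lift u v (f z)) := by
  have hZv : ∀ z ∈ Z, cmap u v z = z := fun z hz => cmap_of_ne (fun h => hvZ (h ▸ hz))
  have hvf : ∀ z ∈ Z, v ∉ f z := fun z hz h => (Finset.mem_erase.1 (hf.sub z hz h)).1 rfl
  refine ⟨?_, ?_, ?_, ?_, ?_⟩
  · intro z hz
    rw [mem_lift (hvf z hz), hZv z hz]
    exact hf.root z hz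
  · intro z hz x hx
    rw [mem_lift (hvf z hz)] at hx
    by_cases hxv : x = v
    · rw [hxv]; exact hv
    · rw [cmap_of_ne hxv] at hx
      exact (Finset.mem_erase.1 (hf.sub z hz hx)).2
  · intro z hz
    exact conn_lift (hvf z hz) huv (hf.conn z hz)
  · intro z hz z' hz' hne x hx hx'
    rw [mem_lift (hvf z hz)] at hx
    rw [mem_lift (hvf z' hz')] at hx'
    exact hf.disj z hz z' hz' hne _ hx hx'
  · intro z hz z' hz' hne
    obtain ⟨x, hx, y, hy, hxy⟩ := hf.adj z hz z' hz' hne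
    obtain ⟨_, x', y', h1, h2, h3⟩ := cgraph_adj.1 hxy
    refine ⟨x', ?_, y', ?_, h3⟩
    · rw [mem_lift (hvf z hz), h1]; exact hx
    · rw [mem_lift (hvf z' hz'), h2]; exact hy

end step2

/-! ### the end: Hall -/

section hall

variable {W Z : Finset V} {I : Finset ι} {A : ι → Finset V}

/-- when every edge which is not inside `Z` joins two different parts, the model exists. -/
lemma Hyp.hall (H : Hyp G W Z I A) (hcard : 2 * Z.card ≤ I.card)
    (hE : ∀ x ∈ W, ∀ y ∈ W, G.Adj x y → y ∉ Z → ∃ i ∈ I, ∃ j ∈ I, i ≠ j ∧ x ∈ A i ∧ y ∈ A j) :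
    ∃ f, Rooted G W Z f := by
  classical
  -- a part containing a vertex outside `Z` is a singleton
  have hsing : ∀ j ∈ I, ∀ w ∈ A j, w ∉ Z → ∀ x ∈ A j, x = w := by
    have hiso : ∀ j ∈ I, ∀ w ∈ A j, w ∉ Z → ∀ x ∈ A j, ¬ G.Adj x w := by
      intro j hj w hw hwZ x hx hadj
      obtain ⟨i, hi, i', hi', hne, h1, h2⟩ := hE x (H.sub j hj hx) w (H.sub j hj hw) hadj hwZ
      have e1 : i = j := by
        by_contra h
        exact H.disj i hi j hj h x h1 hx
      have e2 : i' = j := by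
        by_contra h
        exact H.disj i' hi' j hj h w h2 hw
      exact hne (e1.trans e2.symm)
    have hreach : ∀ j ∈ I, ∀ w ∈ A j, w ∉ Z → ∀ x, Reach G (A j) w x → x = w := by
      intro j hj w hw hwZ x hx
      induction hx with
      | refl => rfl
      | tail h1 h2 ih =>
        rw [ih] at h2
        exact absurd h2.1.symm (hiso j hj w hw hwZ _ h2.2)
    intro j hj w hw hwZ x hx
    rcases H.comp j hj with h | h
    · exact hreach j hj w hw hwZ x (h.reach hw hx)
    · obtain ⟨z, hz, hzZ, hr⟩ := h w hw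
      have := hreach j hj w hw hwZ z hr
      exact absurd (this ▸ hzZ) hwZ
  -- parts missing `Z`
  obtain ⟨I0, hI0⟩ : ∃ I0 : Finset ι, I0 = I.filter (fun i => ∀ x ∈ A i, x ∉ Z) := ⟨_, rfl⟩
  have hI0mem : ∀ i, i ∈ I0 ↔ i ∈ I ∧ ∀ x ∈ A i, x ∉ Z := fun i => by
    rw [hI0, Finset.mem_filter]
  have hI0card : Z.card ≤ I0.card := by
    have h1 : (I.filter (fun i => ¬ ∀ x ∈ A i, x ∉ Z)).card ≤ Z.card := by
      refine Finset.card_le_card_of_forall_subsingleton (fun i z => z ∈ A i) ?_ ?_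
      · intro i hi
        have := (Finset.mem_filter.1 hi).2
        push Not at this
        obtain ⟨x, hx, hxZ⟩ := this
        exact ⟨x, hxZ, hx⟩
      · intro z _ i hi j hj
        by_contra hne
        exact H.disj i (Finset.mem_filter.1 hi.1).1 j (Finset.mem_filter.1 hj.1).1 hne z hi.2 hj.2
    have h2 := Finset.card_filter_add_card_filter_not (s := I) (fun i => ∀ x ∈ A i, x ∉ Z)
    rw [← hI0] at h2
    omega
  obtain ⟨m, hm, hmt⟩ : ∃ m : {z // z ∈ Z} → V, Function.Injective m ∧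
      ∀ z, m z ∈ (W.filter (fun w => w ∉ Z ∧ G.Adj z.1 w)) := by
    rw [← Finset.all_card_le_biUnion_card_iff_exists_injective
      (fun z : {z // z ∈ Z} => W.filter (fun w => w ∉ Z ∧ G.Adj z.1 w))]
    intro S
    by_contra hlt
    push Not at hlt
    set N := S.biUnion (fun z : {z // z ∈ Z} => W.filter (fun w => w ∉ Z ∧ G.Adj z.1 w)) with hN
    have hNmem : ∀ w, w ∈ N ↔ ∃ z ∈ S, w ∈ W ∧ w ∉ Z ∧ G.Adj z.1 w := by
      intro w
      rw [hN, Finset.mem_biUnion]
      simp only [Finset.mem_filter]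
    set S' := S.image Subtype.val with hS'
    have hS'card : S'.card = S.card := Finset.card_image_of_injective _ Subtype.val_injective
    have hS'Z : S' ⊆ Z := by
      intro x hx
      obtain ⟨z, _, rfl⟩ := Finset.mem_image.1 hx
      exact z.2
    have hNW : N ⊆ W := fun w hw => by
      obtain ⟨_, _, h, _⟩ := (hNmem w).1 hw
      exact h
    have hsep : Sep G W (Z ∪ N) (W \ S') := by
      refine ⟨?_, ?_⟩
      · ext x
        simp only [Finset.mem_union, Finset.mem_sdiff]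
        constructor
        · rintro ((h | h) | h)
          · exact H.subZ h
          · exact hNW h
          · exact h.1
        · intro h
          by_cases hx : x ∈ S'
          · exact Or.inl (Or.inl (hS'Z hx))
          · exact Or.inr ⟨h, hx⟩
      · intro a ha haQ b hb hbP hab
        rw [Finset.mem_sdiff] at hb haQ
        rw [Finset.mem_union, not_or] at hbP
        have haW : a ∈ W := by
          rcases Finset.mem_union.1 ha with h | h
          · exact H.subZ h
          · exact hNW h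
        have haS : a ∈ S' := by
          by_contra h
          exact haQ ⟨haW, h⟩
        obtain ⟨z, hz, rfl⟩ := Finset.mem_image.1 haS
        exact hbP.2 ((hNmem b).2 ⟨z, hz, hb.1, hbP.1, hab⟩)
    have hcap : (Z ∪ N) ∩ (W \ S') ⊆ (Z \ S') ∪ N := by
      intro x hx
      simp only [Finset.mem_inter, Finset.mem_union, Finset.mem_sdiff] at hx ⊢
      rcases hx.1 with h | h
      · exact Or.inl ⟨h, hx.2.2⟩
      · exact Or.inr h
    have hSZ : S'.card ≤ Z.card := Finset.card_le_card hS'Z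
    have hlt2 : ((Z ∪ N) ∩ (W \ S')).card < Z.card := by
      have h1 := Finset.card_le_card hcap
      have h2 := Finset.card_union_le (Z \ S') N
      have h3 := Finset.card_sdiff_of_subset hS'Z
      omega
    have h4 := H.sep _ _ hsep Finset.subset_union_left hlt2
    have h5 : I0.card ≤ N.card := by
      refine Finset.card_le_card_of_forall_subsingleton (fun i w => w ∈ A i) ?_ ?_
      · intro i hi
        obtain ⟨h6, h7⟩ := (hI0mem i).1 hi
        obtain ⟨x, hx, hx'⟩ := h4 i h6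
        exact ⟨x, (Finset.mem_union.1 hx').resolve_left (h7 x hx), hx⟩
      · intro w _ i hi j hj
        by_contra hne
        exact H.disj i ((hI0mem i).1 hi.1).1 j ((hI0mem j).1 hj.1).1 hne w hi.2 hj.2
    omega
  have hmW : ∀ z, m z ∈ W := fun z => (Finset.mem_filter.1 (hmt z)).1
  have hmZ : ∀ z, m z ∉ Z := fun z => (Finset.mem_filter.1 (hmt z)).2.1
  have hma : ∀ z, G.Adj z.1 (m z) := fun z => (Finset.mem_filter.1 (hmt z)).2.2
  have hmA : ∀ z, ∃ j ∈ I, m z ∈ A j := by
    intro z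
    obtain ⟨i, _, j, hj, _, _, h⟩ := hE z.1 (H.subZ z.2) (m z) (hmW z) (hma z) (hmZ z)
    exact ⟨j, hj, h⟩
  have hf : ∀ z, ∃ S : Finset V, ∀ h : z ∈ Z, S = {z, m ⟨z, h⟩} := by
    intro z
    by_cases h : z ∈ Z
    · exact ⟨{z, m ⟨z, h⟩}, fun _ => rfl⟩
    · exact ⟨∅, fun h' => absurd h' h⟩
  choose f hf using hf
  refine ⟨f, ?_, ?_, ?_, ?_, ?_⟩
  · intro z hz
    rw [hf z hz]; exact Finset.mem_insert_self _ _
  · intro z hz x hx
    rw [hf z hz, Finset.mem_insert, Finset.mem_singleton] at hx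
    rcases hx with rfl | rfl
    · exact H.subZ hz
    · exact hmW _
  · intro z hz
    rw [hf z hz, Finset.pair_comm]
    exact (conn_singleton (m ⟨z, hz⟩)).insert_adj (x := m ⟨z, hz⟩) (Finset.mem_singleton_self _)
      (hma ⟨z, hz⟩).symm |> fun h => by simpa [Finset.pair_comm] using h
  · intro z hz z' hz' hne x hx hx'
    rw [hf z hz, Finset.mem_insert, Finset.mem_singleton] at hx
    rw [hf z' hz', Finset.mem_insert, Finset.mem_singleton] at hx'
    rcases hx with rfl | rfl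
    · rcases hx' with h | h
      · exact hne h
      · exact hmZ ⟨z', hz'⟩ (h ▸ hz)
    · rcases hx' with h | h
      · exact hmZ ⟨z, hz⟩ (h ▸ hz')
      · have := congrArg Subtype.val (hm h)
        exact hne this
  · intro z hz z' hz' hne
    obtain ⟨i, hi, hi'⟩ := hmA ⟨z, hz⟩
    obtain ⟨j, hj, hj'⟩ := hmA ⟨z', hz'⟩
    have hij : i ≠ j := by
      rintro rfl
      have h := hsing i hi _ hj' (hmZ _) _ hi'
      exact hne (congrArg Subtype.val (hm h))
    rcases H.adj i hi j hj hij with ⟨⟨x, hx, hxZ⟩, _⟩ | ⟨x, hx, y, hy, hxy⟩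
    · have := hsing i hi _ hi' (hmZ _) x hx
      exact absurd (this ▸ hxZ) (hmZ _)
    · have hx' := hsing i hi _ hi' (hmZ _) x hx
      have hy' := hsing j hj _ hj' (hmZ _) y hy
      refine ⟨x, ?_, y, ?_, hxy⟩
      · rw [hf z hz, hx']; simp
      · rw [hf z' hz', hy']; simp

end hall

/-- LEMMA RC (rooted clique). -/
theorem rooted_clique (I : Finset ι) : ∀ (n : ℕ) (G : SimpleGraph V) (W Z : Finset V)
    (A : ι → Finset V), W.card = n → Hyp G W Z I A → 2 * Z.card ≤ I.card →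
    ∃ f, Rooted G W Z f := by
  intro n
  induction n using Nat.strong_induction_on with
  | _ n ih =>
    intro G W Z A hW H hcard
    by_cases hstar : Star G W Z I A
    swap
    · -- step (1)
      unfold Star at hstar
      push Not at hstar
      obtain ⟨P, Q, hs, hZP, hle, i, hi, hiP, hPZ⟩ := hstar
      have hceq : (P ∩ Q).card = Z.card := by
        refine le_antisymm hle ?_
        by_contra hlt
        push Not at hlt
        obtain ⟨x, hx, hx'⟩ := H.sep P Q hs hZP hlt i hi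
        exact hiP x hx hx'
      have hQW : Q.card < W.card := by
        apply Finset.card_lt_card
        rw [Finset.ssubset_iff_subset_ne]
        refine ⟨hs.right_sub, ?_⟩
        intro heq
        apply hPZ
        have hPQ : P ∩ Q = P := by
          rw [Finset.inter_eq_left, heq]
          exact hs.left_sub
        rw [hPQ] at hceq
        exact (Finset.eq_of_subset_of_card_le hZP hceq.le).symm
      have H' := H.restrict hs hZP hceq hi hiP
      exact H.step1 hs hZP hi hiP (ih Q.card (by omega) G Q (P ∩ Q) _ rfl H' (by omega))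
    by_cases hE : ∀ x ∈ W, ∀ y ∈ W, G.Adj x y → y ∉ Z →
        ∃ i ∈ I, ∃ j ∈ I, i ≠ j ∧ x ∈ A i ∧ y ∈ A j
    · exact H.hall hcard hE
    · push Not at hE
      obtain ⟨u, hu, v, hv, huv, hvZ, hno⟩ := hE
      have hA : ∀ i ∈ I, ∀ j ∈ I, u ∈ A i → v ∈ A j → i = j := by
        intro i hi j hj h1 h2
        by_contra hne
        exact hno i hi j hj hne h1 h2
      have H' := H.contract hstar hu hv hvZ huv hA
      obtain ⟨f, hf⟩ := ih (W.erase v).card (by
        rw [Finset.card_erase_of_mem hv]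
        have := Finset.card_pos.2 ⟨v, hv⟩
        omega) _ _ Z _ rfl H' hcard
      exact ⟨_, hf.lift hv hvZ huv⟩

end Crest.Agent.R042.RC299
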