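import Mathlib
import Crest.Agent.R042.Menger_353

/-! Row 42, sec 04 of r42_doc: LEMMA RC (rooted clique minors, Robertson-Seymour). -/

set_option autoImplicit false
set_option linter.unusedSectionVars false

namespace Crest.Agent.R042.RC775

open Finset Crest.Agent.R042.Conn353 Crest.Agent.R042.Menger353

variable {V : Type*} [DecidableEq V] {ι : Type*} [Fintype ι] [DecidableEq ι]

/-- rooted clique model for the root set `Z`. -/
def Model (G : SimpleGraph V) (W Z : Finset V) : Prop :=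
  ∃ B : V → Finset V, (∀ z ∈ Z, z ∈ B z ∧ B z ⊆ W ∧ Conn G (B z)) ∧
    ∀ z ∈ Z, ∀ z' ∈ Z, z ≠ z' → Disjoint (B z) (B z') ∧ ∃ x ∈ B z, ∃ y ∈ B z', G.Adj x y

/-- the hypotheses of Lemma RC. -/
structure Hyp (s : ℕ) (G : SimpleGraph V) (W Z : Finset V) (A : ι → Finset V) : Prop where
  zW : Z ⊆ W
  zs : Z.card = s
  aW : ∀ i, A i ⊆ W
  ane : ∀ i, (A i).Nonempty
  adis : ∀ i j, i ≠ j → Disjoint (A i) (A j)
  h1 : ∀ i, Conn G (A i) ∨ ∀ x ∈ A i, ∃ z ∈ Z, Reach G (A i) x z
  h2 : ∀ i j, i ≠ j → ((∃ z ∈ Z, z ∈ A i) ∧ ∃ z ∈ Z, z ∈ A j) ∨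
    ∃ x ∈ A i, ∃ y ∈ A j, G.Adj x y
  h3 : ∀ P Q, Sep G W P Q → Z ⊆ P → (P ∩ Q).card < s → ∀ i, (P ∩ A i).Nonempty

variable {s : ℕ} {G : SimpleGraph V} {W Z P Q S : Finset V} {A : ι → Finset V}

lemma stay (h : Sep G W P Q) (hSW : S ⊆ W) (hS : ∀ v ∈ S, v ∈ P → v ∉ Q) {x y : V}
    (hr : Reach G S x y) (hxQ : x ∈ Q) (hxP : x ∉ P) : y ∈ Q ∧ y ∉ P := by
  induction hr with
  | refl => exact ⟨hxQ, hxP⟩
  | tail h0 h2 ih =>
    rename_i b c
    have hcW : c ∈ P ∪ Q := by rw [h.union]; exact hSW h2.2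
    have hcP : c ∉ P := by
      intro hcP
      exact h.nadj c hcP (hS c h2.2 hcP) b ih.1 ih.2 h2.1.symm
    rcases Finset.mem_union.1 hcW with h3 | h3
    · exact absurd h3 hcP
    · exact ⟨h3, hcP⟩

lemma hit (h : Sep G W P Q) (hSW : S ⊆ W) {x y : V} (hxS : x ∈ S) (hxQ : x ∈ Q)
    (hr : Reach G S x y) (hy : y ∈ P) :
    ∃ z ∈ P ∩ Q, z ∈ S ∧ Reach G (S ∩ Q) x z := by
  have key : (Reach G (S ∩ Q) x y ∧ y ∈ Q ∧ y ∈ S) ∨
      ∃ z ∈ P ∩ Q, z ∈ S ∧ Reach G (S ∩ Q) x z := by
    clear hy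
    induction hr with
    | refl => exact Or.inl ⟨Reach.refl _, hxQ, hxS⟩
    | tail h0 h2 ih =>
      rename_i b c
      rcases ih with ⟨h3, h4, h5⟩ | h3
      · by_cases hcQ : c ∈ Q
        · exact Or.inl ⟨h3.step h2.1 (Finset.mem_inter.2 ⟨h2.2, hcQ⟩), hcQ, h2.2⟩
        · right
          have hcP : c ∈ P := by
            have : c ∈ P ∪ Q := by rw [h.union]; exact hSW h2.2
            rcases Finset.mem_union.1 this with h6 | h6
            · exact h6
            · exact absurd h6 hcQ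
          have hbP : b ∈ P := by
            by_contra hbP
            exact h.nadj c hcP hcQ b h4 hbP h2.1.symm
          exact ⟨b, Finset.mem_inter.2 ⟨hbP, h4⟩, h5, h3⟩
      · exact Or.inr h3
  rcases key with ⟨h3, h4, h5⟩ | h3
  · exact ⟨y, Finset.mem_inter.2 ⟨hy, h4⟩, h5, h3⟩
  · exact h3

/-! ### removing the edges inside `Z` -/

/-- `G` without the edges inside `Z`. -/
def strip (G : SimpleGraph V) (Z : Finset V) : SimpleGraph V where
  Adj x y := G.Adj x y ∧ ¬ (x ∈ Z ∧ y ∈ Z)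
  symm := ⟨fun _ _ h => ⟨h.1.symm, fun h' => h.2 ⟨h'.2, h'.1⟩⟩⟩
  loopless := ⟨fun x h => G.loopless.irrefl x h.1⟩

lemma strip_reach {x y : V} (hr : Reach G S x y) :
    Reach (strip G Z) S x y ∨ ∃ z ∈ Z, Reach (strip G Z) S x z := by
  induction hr with
  | refl => exact Or.inl (Reach.refl _)
  | tail h0 h2 ih =>
    rename_i b c
    rcases ih with h3 | h3
    · by_cases hbc : b ∈ Z ∧ c ∈ Z
      · exact Or.inr ⟨b, hbc.1, h3⟩
      · exact Or.inl (h3.step ⟨h2.1, hbc⟩ h2.2)
    · exact Or.inr h3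

lemma Hyp.strip (H : Hyp s G W Z A) : Hyp s (strip G Z) W Z A := by
  refine ⟨H.zW, H.zs, H.aW, H.ane, H.adis, ?_, ?_, ?_⟩
  · intro i
    rcases H.h1 i with h | h
    · by_cases hz : ∃ z ∈ Z, z ∈ A i
      · right
        obtain ⟨z, hz, hzi⟩ := hz
        intro x hx
        rcases strip_reach (Z := Z) (h.reach hx hzi) with h3 | h3
        · exact ⟨z, hz, h3⟩
        · exact h3
      · left
        rw [conn_iff]
        refine ⟨H.ane i, fun x hx y hy => ?_⟩
        rcases strip_reach (Z := Z) (h.reach hx hy) with h3 | ⟨z, hz', h3⟩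
        · exact h3
        · exact absurd ⟨z, hz', h3.mem hx⟩ hz
    · right
      intro x hx
      obtain ⟨z, hz, h3⟩ := h x hx
      rcases strip_reach (Z := Z) h3 with h4 | h4
      · exact ⟨z, hz, h4⟩
      · exact h4
  · intro i j hij
    rcases H.h2 i j hij with h | ⟨x, hx, y, hy, h⟩
    · exact Or.inl h
    · by_cases hxy : x ∈ Z ∧ y ∈ Z
      · exact Or.inl ⟨⟨x, hxy.1, hx⟩, ⟨y, hxy.2, hy⟩⟩
      · exact Or.inr ⟨x, hx, y, hy, h, hxy⟩
  · intro P Q hS hZ hc i
    refine H.h3 P Q ⟨hS.union, ?_⟩ hZ hc i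
    intro a ha ha' b hb hb' hadj
    exact hS.nadj a ha ha' b hb hb' ⟨hadj, fun h => hb' (hZ h.2)⟩

lemma Model.mono_graph {H : SimpleGraph V} (hGH : ∀ x y, G.Adj x y → H.Adj x y)
    (h : Model G W Z) : Model H W Z := by
  obtain ⟨B, h1, h2⟩ := h
  refine ⟨B, fun z hz => ⟨(h1 z hz).1, (h1 z hz).2.1, (h1 z hz).2.2.mono_graph hGH⟩, ?_⟩
  intro z hz z' hz' hne
  obtain ⟨h3, x, hx, y, hy, h4⟩ := h2 z hz z' hz' hne
  exact ⟨h3, x, hx, y, hy, hGH _ _ h4⟩

/-! ### restriction to one side of a separation of order `s` -/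

section restrict

variable (H : Hyp s G W Z A) (hS : Sep G W P Q) (hZP : Z ⊆ P) (hc : (P ∩ Q).card = s)
  {i0 : ι} (hi0 : ∀ x ∈ A i0, x ∉ P)

include H hS hZP hi0

lemma meetsQ (j : ι) : ∃ x ∈ A j, x ∈ Q := by
  by_contra hcon
  push Not at hcon
  by_cases hj : j = i0
  · subst hj
    obtain ⟨x, hx⟩ := H.ane j
    have : x ∈ P ∪ Q := by rw [hS.union]; exact H.aW j hx
    rcases Finset.mem_union.1 this with h | h
    · exact hi0 x hx h
    · exact hcon x hx h
  · rcases H.h2 j i0 hj with ⟨_, z, hz, hz'⟩ | ⟨x, hx, y, hy, hadj⟩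
    · exact hi0 z hz' (hZP hz)
    · have hxP : x ∈ P := by
        have : x ∈ P ∪ Q := by rw [hS.union]; exact H.aW j hx
        rcases Finset.mem_union.1 this with h | h
        · exact h
        · exact absurd h (hcon x hx)
      have hyQ : y ∈ Q := by
        have : y ∈ P ∪ Q := by rw [hS.union]; exact H.aW i0 hy
        rcases Finset.mem_union.1 this with h | h
        · exact absurd h (hi0 y hy)
        · exact h
      exact hS.nadj x hxP (hcon x hx) y hyQ (hi0 y hy) hadj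

lemma noteN (j : ι) (hj : ∀ x ∈ A j, x ∈ P → x ∉ Q) : ∀ x ∈ A j, x ∈ Q ∧ x ∉ P := by
  obtain ⟨x, hx, hxQ⟩ := meetsQ H hS hZP hi0 j
  have hxP : x ∉ P := fun h => hj x hx h hxQ
  intro y hy
  rcases H.h1 j with h | h
  · exact stay hS (H.aW j) hj (h.reach hx hy) hxQ hxP
  · obtain ⟨z, hz, hr⟩ := h x hx
    exact absurd (hZP hz) (stay hS (H.aW j) hj hr hxQ hxP).2

include hc

lemma hyp_restrict : Hyp s G Q (P ∩ Q) (fun j => A j ∩ Q) := by
  have hnm : ∀ j, (¬ ∃ z ∈ P ∩ Q, z ∈ A j ∩ Q) → ∀ x ∈ A j, x ∈ Q ∧ x ∉ P := by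
    intro j hj
    refine noteN H hS hZP hi0 j ?_
    intro x hx hxP hxQ
    exact hj ⟨x, Finset.mem_inter.2 ⟨hxP, hxQ⟩, Finset.mem_inter.2 ⟨hx, hxQ⟩⟩
  have hedge : ∀ j l, j ≠ l → (¬ ∃ z ∈ P ∩ Q, z ∈ A j ∩ Q) →
      ∃ x ∈ A j ∩ Q, ∃ y ∈ A l ∩ Q, G.Adj x y := by
    intro j l hjl hj
    have h1 := hnm j hj
    rcases H.h2 j l hjl with ⟨⟨z, hz, hz'⟩, _⟩ | ⟨x, hx, y, hy, hadj⟩
    · exact absurd (hZP hz) (h1 z hz').2
    · refine ⟨x, Finset.mem_inter.2 ⟨hx, (h1 x hx).1⟩, y, Finset.mem_inter.2 ⟨hy, ?_⟩, hadj⟩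
      by_contra hyQ
      have hyP : y ∈ P := by
        have : y ∈ P ∪ Q := by rw [hS.union]; exact H.aW l hy
        rcases Finset.mem_union.1 this with h | h
        · exact h
        · exact absurd h hyQ
      exact hS.nadj y hyP hyQ x (h1 x hx).1 (h1 x hx).2 hadj.symm
  refine ⟨Finset.inter_subset_right, hc, fun _ => Finset.inter_subset_right, ?_, ?_, ?_, ?_, ?_⟩
  · intro j
    obtain ⟨x, hx, hxQ⟩ := meetsQ H hS hZP hi0 j
    exact ⟨x, Finset.mem_inter.2 ⟨hx, hxQ⟩⟩
  · intro i j hij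
    exact (H.adis i j hij).mono Finset.inter_subset_left Finset.inter_subset_left
  · intro j
    by_cases hj : ∃ z ∈ P ∩ Q, z ∈ A j ∩ Q
    · right
      obtain ⟨z, hz, hzj⟩ := hj
      intro x hx
      rw [Finset.mem_inter] at hx hz hzj
      have : ∃ z ∈ P ∩ Q, z ∈ A j ∧ Reach G (A j ∩ Q) x z := by
        rcases H.h1 j with h | h
        · exact hit hS (H.aW j) hx.1 hx.2 (h.reach hx.1 hzj.1) hz.1
        · obtain ⟨z', hz', hr⟩ := h x hx.1
          exact hit hS (H.aW j) hx.1 hx.2 hr (hZP hz')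
      obtain ⟨z', h1, _, h2⟩ := this
      exact ⟨z', h1, h2⟩
    · left
      have h1 := hnm j hj
      have heq : A j ∩ Q = A j := by
        rw [Finset.inter_eq_left]
        exact fun x hx => (h1 x hx).1
      rw [heq]
      rcases H.h1 j with h | h
      · exact h
      · obtain ⟨x, hx⟩ := H.ane j
        obtain ⟨z, hz, hr⟩ := h x hx
        exact absurd (hZP hz) (h1 z (hr.mem hx)).2
  · intro j l hjl
    by_cases hj : ∃ z ∈ P ∩ Q, z ∈ A j ∩ Q
    · by_cases hl : ∃ z ∈ P ∩ Q, z ∈ A l ∩ Q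
      · exact Or.inl ⟨hj, hl⟩
      · obtain ⟨x, hx, y, hy, hadj⟩ := hedge l j hjl.symm hl
        exact Or.inr ⟨y, hy, x, hx, hadj.symm⟩
    · exact Or.inr (hedge j l hjl hj)
  · intro P2 Q2 hS2 hZ2 hc2 j
    by_contra hcon
    rw [Finset.not_nonempty_iff_eq_empty] at hcon
    have hP2 : ∀ x ∈ A j, x ∈ Q → x ∉ P2 := by
      intro x hx hxQ hxP
      have : x ∈ P2 ∩ (A j ∩ Q) := by simp [hx, hxQ, hxP]
      rw [hcon] at this
      simp at this
    have hN := noteN H hS hZP hi0 j (by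
      intro x hx hxP hxQ
      exact hP2 x hx hxQ (hZ2 (Finset.mem_inter.2 ⟨hxP, hxQ⟩)))
    have hsub : P2 ⊆ Q := hS2.left_sub
    have hsub' : Q2 ⊆ Q := hS2.right_sub
    have h3 := H.h3 (P ∪ P2) Q2 ⟨?_, ?_⟩ (hZP.trans Finset.subset_union_left) ?_ j
    · obtain ⟨x, hx⟩ := h3
      rw [Finset.mem_inter, Finset.mem_union] at hx
      rcases hx.1 with h | h
      · exact (hN x hx.2).2 h
      · exact hP2 x hx.2 (hN x hx.2).1 h
    · rw [Finset.union_assoc, hS2.union, hS.union]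
    · intro a ha ha' b hb hb' hadj
      rw [Finset.mem_union] at ha hb'
      push Not at hb'
      by_cases haP2 : a ∈ P2
      · exact hS2.nadj a haP2 ha' b hb hb'.2 hadj
      · have haP : a ∈ P := ha.resolve_right haP2
        have haQ : a ∉ Q := fun h => haP2 (hZ2 (Finset.mem_inter.2 ⟨haP, h⟩))
        exact hS.nadj a haP haQ b (hsub' hb) hb'.1 hadj
    · refine lt_of_le_of_lt (Finset.card_le_card ?_) hc2
      intro x hx
      rw [Finset.mem_inter, Finset.mem_union] at hx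
      rw [Finset.mem_inter]
      refine ⟨?_, hx.2⟩
      rcases hx.1 with h | h
      · exact hZ2 (Finset.mem_inter.2 ⟨h, hsub' hx.2⟩)
      · exact h

lemma model_lift (hM : Model G Q (P ∩ Q)) : Model G W Z := by
  classical
  have hPW : P ⊆ W := hS.left_sub
  have hQW : Q ⊆ W := hS.right_sub
  rcases menger_sep (G := G) (W := P) (A := Z) (B := P ∩ Q) hZP Finset.inter_subset_left s with
    ⟨L, hL, hLc⟩ | ⟨P1, Q1, h1, h2, h3, h4⟩
  · have hcard := hL.verts_inter_card_left
    have hZv : verts L ∩ Z = Z := by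
      refine Finset.eq_of_subset_of_card_le Finset.inter_subset_right ?_
      rw [hcard, hLc, H.zs]
    obtain ⟨f, g, hf, hdis, _, _, hginj⟩ := hL.family
    rw [hZv] at hf hdis hginj
    obtain ⟨B, hB1, hB2⟩ := hM
    have hfP : ∀ z ∈ Z, ∀ x ∈ f z, x ∈ P := fun z hz x hx => (hf z hz).2.1.sub x hx
    have hgZ : ∀ z ∈ Z, g z ∈ P ∩ Q := fun z hz => (hf z hz).2.2.2.2.1
    refine ⟨fun z => (f z).toFinset ∪ B (g z), ?_, ?_⟩
    · intro z hz
      obtain ⟨_, h5, _, _, h6, h7, h8, _, _⟩ := hf z hz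
      obtain ⟨h9, h10, h11⟩ := hB1 (g z) h6
      refine ⟨Finset.mem_union_left _ (List.mem_toFinset.2 h7), ?_, ?_⟩
      · refine Finset.union_subset ?_ (h10.trans hQW)
        intro x hx
        exact hPW (hfP z hz x (List.mem_toFinset.1 hx))
      · exact (IsPath.conn h5).union h11 (List.mem_toFinset.2 h8) h9
    · intro z hz z' hz' hne
      have hgne : g z ≠ g z' := fun h => hne (hginj z hz z' hz' h)
      obtain ⟨h5, x, hx, y, hy, hadj⟩ := hB2 (g z) (hgZ z hz) (g z') (hgZ z' hz') hgne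
      have hcross : ∀ a ∈ Z, ∀ b ∈ Z, a ≠ b → ∀ x ∈ f a, x ∉ B (g b) := by
        intro a ha b hb hab x hx hxB
        have hxQ : x ∈ Q := (hB1 (g b) (hgZ b hb)).2.1 hxB
        have hxg : x = g a := (hf a ha).2.2.2.2.2.2.2.2 x hx
          (Finset.mem_inter.2 ⟨hfP a ha x hx, hxQ⟩)
        have hgab : g a ≠ g b := fun h => hab (hginj a ha b hb h)
        have h6 := (hB2 (g a) (hgZ a ha) (g b) (hgZ b hb) hgab).1
        rw [hxg] at hxB
        exact Finset.disjoint_left.1 h6 (hB1 (g a) (hgZ a ha)).1 hxB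
      refine ⟨?_, x, Finset.mem_union_right _ hx, y, Finset.mem_union_right _ hy, hadj⟩
      rw [Finset.disjoint_left]
      intro v hv hv'
      rw [Finset.mem_union, List.mem_toFinset] at hv hv'
      rcases hv with hv | hv <;> rcases hv' with hv' | hv'
      · exact hdis z hz z' hz' hne v hv hv'
      · exact hcross z hz z' hz' hne v hv hv'
      · exact hcross z' hz' z hz hne.symm v hv' hv
      · exact Finset.disjoint_left.1 h5 hv hv'
  · exfalso
    have h5 := H.h3 P1 (Q1 ∪ Q) ⟨?_, ?_⟩ h2 ?_ i0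
    · obtain ⟨x, hx⟩ := h5
      rw [Finset.mem_inter] at hx
      exact hi0 x hx.2 (h1.left_sub hx.1)
    · rw [← Finset.union_assoc, h1.union, hS.union]
    · intro a ha ha' b hb hb' hadj
      rw [Finset.mem_union] at ha' hb
      push Not at ha'
      by_cases hbQ1 : b ∈ Q1
      · exact h1.nadj a ha ha'.1 b hbQ1 hb' hadj
      · have hbQ : b ∈ Q := hb.resolve_left hbQ1
        have hbP : b ∉ P := fun h => hbQ1 (h3 (Finset.mem_inter.2 ⟨h, hbQ⟩))
        exact hS.nadj a (h1.left_sub ha) ha'.2 b hbQ hbP hadj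
    · refine lt_of_le_of_lt (Finset.card_le_card ?_) h4
      intro x hx
      rw [Finset.mem_inter, Finset.mem_union] at hx
      rw [Finset.mem_inter]
      refine ⟨hx.1, ?_⟩
      rcases hx.2 with h | h
      · exact h
      · exact h3 (Finset.mem_inter.2 ⟨h1.left_sub hx.1, h⟩)

end restrict

/-! ### contraction -/

/-- the contraction map. -/
def cm (u v x : V) : V := if x = v then u else x

lemma cm_v (u v : V) : cm u v v = u := by simp [cm]

lemma cm_ne {u v x : V} (h : x ≠ v) : cm u v x = x := by simp [cm, h]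

lemma cm_eq_cases {u v x y : V} (h : cm u v x = cm u v y) :
    x = y ∨ (x = u ∧ y = v) ∨ (x = v ∧ y = u) := by
  unfold cm at h
  split_ifs at h with h1 h2 h2
  · left; rw [h1, h2]
  · right; right; exact ⟨h1, h.symm⟩
  · right; left; exact ⟨h, h2⟩
  · left; exact h

/-- contraction of `v` into `u`. -/
def contr (G : SimpleGraph V) (u v : V) : SimpleGraph V where
  Adj x y := x ≠ y ∧ ∃ x0 y0, cm u v x0 = x ∧ cm u v y0 = y ∧ G.Adj x0 y0
  symm := ⟨fun _ _ ⟨h, x0, y0, h1, h2, h3⟩ => ⟨h.symm, y0, x0, h2, h1, h3.symm⟩⟩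
  loopless := ⟨fun _ h => h.1 rfl⟩

lemma contr_adj {u v x y : V} (h : G.Adj x y) (hne : cm u v x ≠ cm u v y) :
    (contr G u v).Adj (cm u v x) (cm u v y) := ⟨hne, x, y, rfl, rfl, h⟩

lemma contr_reach {u v x y : V} (hr : Reach G S x y) :
    Reach (contr G u v) (S.image (cm u v)) (cm u v x) (cm u v y) := by
  induction hr with
  | refl => exact Reach.refl _
  | tail h0 h2 ih =>
    rename_i b c
    by_cases h : cm u v b = cm u v c
    · rw [← h]; exact ih
    · exact ih.step (contr_adj h2.1 h) (Finset.mem_image_of_mem _ h2.2)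

section contract

variable {u v : V} (huv : G.Adj u v) (hu : u ∈ W) (hv : v ∈ W)

include huv hu in
lemma cm_mem {x : V} (hx : x ∈ W) : cm u v x ∈ W.erase v := by
  rw [Finset.mem_erase]
  by_cases h : x = v
  · rw [h, cm_v]; exact ⟨huv.ne, hu⟩
  · rw [cm_ne h]; exact ⟨h, hx⟩

include hv in
lemma mem_of_cm {x : V} (hx : cm u v x ∈ W) : x ∈ W := by
  by_cases h : x = v
  · rw [h]; exact hv
  · rwa [cm_ne h] at hx

include huv hu hv

lemma fib {T : Finset V} {x y : V} (hy : y ∈ T) (h : cm u v x = cm u v y) : Reach G T x y := by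
  rcases cm_eq_cases h with rfl | ⟨rfl, rfl⟩ | ⟨rfl, rfl⟩
  · exact Reach.refl _
  · exact Reach.single huv hy
  · exact Reach.single huv.symm hy

lemma model_contract (hvZ : v ∉ Z) (hM : Model (contr G u v) (W.erase v) Z) : Model G W Z := by
  classical
  obtain ⟨B, hB1, hB2⟩ := hM
  have hne : ∀ z ∈ Z, z ≠ v := fun z hz h => hvZ (h ▸ hz)
  have hmem : ∀ z ∈ Z, ∀ x, x ∈ W.filter (fun x => cm u v x ∈ B z) ↔ cm u v x ∈ B z := by
    intro z hz x
    rw [Finset.mem_filter]
    refine ⟨fun h => h.2, fun h => ⟨?_, h⟩⟩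
    exact mem_of_cm hv (Finset.mem_of_mem_erase ((hB1 z hz).2.1 h))
  refine ⟨fun z => W.filter (fun x => cm u v x ∈ B z), ?_, ?_⟩
  · intro z hz
    obtain ⟨h1, h2, h3⟩ := hB1 z hz
    have hz' : z ∈ W.filter (fun x => cm u v x ∈ B z) := by
      rw [hmem z hz, cm_ne (hne z hz)]; exact h1
    refine ⟨hz', Finset.filter_subset _ _, conn_of_reach hz' ?_⟩
    intro x hx
    rw [hmem z hz] at hx
    have hr := h3.reach h1 hx
    have key : ∀ b, Reach (contr G u v) (B z) z b → b ∈ B z → ∀ y, cm u v y = b →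
        Reach G (W.filter (fun x => cm u v x ∈ B z)) z y := by
      intro b hb
      induction hb with
      | refl =>
        intro _ y hy
        refine fib huv hu hv ?_ ?_
        · rw [hmem z hz, hy]; exact h1
        · rw [cm_ne (hne z hz), hy]
      | tail h4 h5 ih =>
        rename_i b c
        intro _ y hy
        obtain ⟨_, b0, c0, h6, h7, h8⟩ := h5.1
        have hbB : b ∈ B z := Reach.mem h4 h1
        have h9 := ih hbB b0 h6
        have hc0 : c0 ∈ W.filter (fun x => cm u v x ∈ B z) := by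
          rw [hmem z hz, h7]; exact h5.2
        refine (h9.step h8 hc0).trans ?_
        refine fib huv hu hv ?_ ?_
        · rw [hmem z hz, hy]; exact h5.2
        · rw [h7, hy]
    exact key _ hr hx x rfl
  · intro z hz z' hz' hzz
    obtain ⟨h1, x, hx, y, hy, h2⟩ := hB2 z hz z' hz' hzz
    constructor
    · rw [Finset.disjoint_left]
      intro a ha ha'
      rw [hmem z hz] at ha
      rw [hmem z' hz'] at ha'
      exact Finset.disjoint_left.1 h1 ha ha'
    · obtain ⟨_, x0, y0, h3, h4, h5⟩ := h2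
      refine ⟨x0, ?_, y0, ?_, h5⟩
      · rw [hmem z hz, h3]; exact hx
      · rw [hmem z' hz', h4]; exact hy

lemma hyp_contract (H : Hyp s G W Z A) (hvZ : v ∉ Z)
    (hno : ∀ i j, i ≠ j → u ∈ A i → v ∉ A j)
    (hstar : ∀ P Q, Sep G W P Q → Z ⊆ P → (P ∩ Q).card = s → (∃ i, ∀ x ∈ A i, x ∉ P) → P ⊆ Q) :
    Hyp s (contr G u v) (W.erase v) Z (fun i => (A i).image (cm u v)) := by
  classical
  have hne : ∀ z ∈ Z, z ≠ v := fun z hz h => hvZ (h ▸ hz)
  have hcz : ∀ z ∈ Z, cm u v z = z := fun z hz => cm_ne (hne z hz)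
  have hdis : ∀ i j, i ≠ j → Disjoint ((A i).image (cm u v)) ((A j).image (cm u v)) := by
    intro i j hij
    rw [Finset.disjoint_left]
    intro x hx hx'
    obtain ⟨a, ha, rfl⟩ := Finset.mem_image.1 hx
    obtain ⟨b, hb, hab⟩ := Finset.mem_image.1 hx'
    rcases cm_eq_cases hab with rfl | ⟨rfl, rfl⟩ | ⟨rfl, rfl⟩
    · exact Finset.disjoint_left.1 (H.adis i j hij) ha hb
    · exact hno j i hij.symm hb ha
    · exact hno i j hij ha hb
  refine ⟨?_, H.zs, ?_, ?_, hdis, ?_, ?_, ?_⟩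
  · intro z hz
    rw [Finset.mem_erase]
    exact ⟨hne z hz, H.zW hz⟩
  · intro i x hx
    obtain ⟨a, ha, rfl⟩ := Finset.mem_image.1 hx
    exact cm_mem huv hu (H.aW i ha)
  · intro i
    exact (H.ane i).image _
  · intro i
    rcases H.h1 i with h | h
    · left
      rw [conn_iff]
      refine ⟨(H.ane i).image _, ?_⟩
      intro x hx y hy
      obtain ⟨a, ha, rfl⟩ := Finset.mem_image.1 hx
      obtain ⟨b, hb, rfl⟩ := Finset.mem_image.1 hy
      exact contr_reach (h.reach ha hb)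
    · right
      intro x hx
      obtain ⟨a, ha, rfl⟩ := Finset.mem_image.1 hx
      obtain ⟨z, hz, hr⟩ := h a ha
      refine ⟨z, hz, ?_⟩
      have := contr_reach (u := u) (v := v) hr
      rwa [hcz z hz] at this
  · intro i j hij
    rcases H.h2 i j hij with ⟨⟨z, hz, hz1⟩, ⟨z', hz', hz2⟩⟩ | ⟨x, hx, y, hy, h⟩
    · exact Or.inl ⟨⟨z, hz, Finset.mem_image.2 ⟨z, hz1, hcz z hz⟩⟩,
        ⟨z', hz', Finset.mem_image.2 ⟨z', hz2, hcz z' hz'⟩⟩⟩
    · refine Or.inr ⟨cm u v x, Finset.mem_image_of_mem _ hx, cm u v y,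
        Finset.mem_image_of_mem _ hy, contr_adj h ?_⟩
      intro heq
      exact Finset.disjoint_left.1 (hdis i j hij) (Finset.mem_image_of_mem _ hx)
        (heq ▸ Finset.mem_image_of_mem _ hy)
  · intro P' Q' hS hZ hc i
    by_contra hcon
    rw [Finset.not_nonempty_iff_eq_empty] at hcon
    set P := W.filter (fun x => cm u v x ∈ P') with hP
    set Q := W.filter (fun x => cm u v x ∈ Q') with hQ
    have hSep : Sep G W P Q := by
      refine ⟨?_, ?_⟩
      · ext x
        simp only [hP, hQ, Finset.mem_union, Finset.mem_filter]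
        constructor
        · rintro (h | h)
          · exact h.1
          · exact h.1
        · intro hx
          have : cm u v x ∈ P' ∪ Q' := by rw [hS.union]; exact cm_mem huv hu hx
          rcases Finset.mem_union.1 this with h | h
          · exact Or.inl ⟨hx, h⟩
          · exact Or.inr ⟨hx, h⟩
      · intro a ha ha' b hb hb' hadj
        simp only [hP, hQ, Finset.mem_filter, not_and] at ha ha' hb hb'
        have h1 := ha' ha.1
        have h2 := hb' hb.1
        refine hS.nadj _ ha.2 h1 _ hb.2 h2 (contr_adj hadj ?_)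
        intro heq
        rw [heq] at h1
        exact h1 hb.2
    have hZP : Z ⊆ P := by
      intro z hz
      rw [hP, Finset.mem_filter, hcz z hz]
      exact ⟨H.zW hz, hZ hz⟩
    have hmiss : ∀ x ∈ A i, x ∉ P := by
      intro x hx hxP
      rw [hP, Finset.mem_filter] at hxP
      have : cm u v x ∈ P' ∩ (A i).image (cm u v) :=
        Finset.mem_inter.2 ⟨hxP.2, Finset.mem_image_of_mem _ hx⟩
      rw [hcon] at this
      simp at this
    have hsub : P ∩ Q ⊆ insert v (P' ∩ Q') := by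
      intro x hx
      rw [Finset.mem_inter, hP, hQ, Finset.mem_filter, Finset.mem_filter] at hx
      by_cases h : x = v
      · rw [h]; exact Finset.mem_insert_self _ _
      · rw [cm_ne h] at hx
        exact Finset.mem_insert_of_mem (Finset.mem_inter.2 ⟨hx.1.2, hx.2.2⟩)
    have hle : (P ∩ Q).card ≤ s := by
      refine (Finset.card_le_card hsub).trans ((Finset.card_insert_le _ _).trans ?_)
      omega
    rcases lt_or_eq_of_le hle with hlt | heq
    · obtain ⟨x, hx⟩ := H.h3 P Q hSep hZP hlt i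
      rw [Finset.mem_inter] at hx
      exact hmiss x hx.2 hx.1
    · have hPQ := hstar P Q hSep hZP heq ⟨i, hmiss⟩
      have hPs : P.card = s := by
        rw [Finset.inter_eq_left.2 hPQ] at heq
        exact heq
      have hZe : Z = P := Finset.eq_of_subset_of_card_le hZP (by rw [hPs, H.zs])
      have hvP : v ∈ P ∩ Q := by
        by_contra hvn
        have : P ∩ Q ⊆ P' ∩ Q' := by
          intro x hx
          rcases Finset.mem_insert.1 (hsub hx) with h | h
          · rw [h] at hx; exact absurd hx hvn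
          · exact h
        have := Finset.card_le_card this
        omega
      exact hvZ (hZe ▸ (Finset.mem_inter.1 hvP).1)

end contract

/-! ### the final case -/

lemma final (H : Hyp s G W Z A) (hk : 2 * s ≤ Fintype.card ι)
    (hE : ∀ x ∈ W, ∀ y ∈ W, G.Adj x y → ∃ i j, i ≠ j ∧ x ∈ A i ∧ y ∈ A j) : Model G W Z := by
  classical
  have huniq : ∀ i j x, x ∈ A i → x ∈ A j → i = j := by
    intro i j x h1 h2
    by_contra h
    exact Finset.disjoint_left.1 (H.adis i j h) h1 h2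
  have hreach : ∀ i x y, x ∈ A i → Reach G (A i) x y → x = y := by
    intro i x y hx hr
    induction hr with
    | refl => rfl
    | tail h0 h2 ih =>
      rename_i b c
      subst ih
      obtain ⟨i', j', hne, h3, h4⟩ := hE x (H.aW i hx) c (H.aW i h2.2) h2.1
      have e1 := huniq i i' x hx h3
      have e2 := huniq i j' c h2.2 h4
      exact absurd (e1.symm.trans e2) hne
  have hsing : ∀ i, (∀ x ∈ A i, x ∉ Z) → ∀ x ∈ A i, ∀ y ∈ A i, x = y := by
    intro i hi x hx y hy
    rcases H.h1 i with h | h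
    · exact hreach i x y hx (h.reach hx hy)
    · obtain ⟨z, hz, hr⟩ := h x hx
      exact absurd hz (hi z (hr.mem hx))
  have hinZ : ∀ i, (¬ ∀ x ∈ A i, x ∉ Z) → ∀ x ∈ A i, x ∈ Z := by
    intro i hi x hx
    push Not at hi
    obtain ⟨z, hz, hzZ⟩ := hi
    rcases H.h1 i with h | h
    · rw [hreach i x z hx (h.reach hx hz)]; exact hzZ
    · obtain ⟨z', hz', hr⟩ := h x hx
      rw [hreach i x z' hx hr]; exact hz'
  choose v hv using fun i => H.ane i
  set I0 : Finset ι := Finset.univ.filter (fun i => ∀ x ∈ A i, x ∉ Z) with hI0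
  have hI0c : s ≤ I0.card := by
    have h1 : (Finset.univ \ I0).card ≤ Z.card := by
      refine Finset.card_le_card_of_injOn v ?_ ?_
      · intro i hi
        rw [Finset.mem_coe, Finset.mem_sdiff, hI0, Finset.mem_filter] at hi
        refine hinZ i ?_ (v i) (hv i)
        intro h
        exact hi.2 ⟨Finset.mem_univ _, h⟩
      · intro i _ j _ hij
        exact huniq i j (v i) (hv i) (hij ▸ hv j)
    rw [Finset.card_sdiff_of_subset (Finset.subset_univ _), Finset.card_univ, H.zs] at h1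
    omega
  have hI0m : ∀ i, i ∈ I0 ↔ ∀ x ∈ A i, x ∉ Z := by
    intro i; rw [hI0, Finset.mem_filter]; simp
  -- Hall
  let t : {z // z ∈ Z} → Finset ι := fun z => I0.filter (fun i => G.Adj z.1 (v i))
  have hHall : ∀ S : Finset {z // z ∈ Z}, S.card ≤ (S.biUnion t).card := by
    intro S
    by_contra hlt
    push Not at hlt
    set S' : Finset V := S.image Subtype.val with hS'
    have hS'c : S'.card = S.card := Finset.card_image_of_injective _ Subtype.val_injective
    have hS'Z : S' ⊆ Z := by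
      intro x hx
      obtain ⟨z, _, rfl⟩ := Finset.mem_image.1 hx
      exact z.2
    set N : Finset V := (S.biUnion t).image v with hN
    have hNW : N ⊆ W := by
      intro x hx
      obtain ⟨i, _, rfl⟩ := Finset.mem_image.1 hx
      exact H.aW i (hv i)
    have hbI : S.biUnion t ⊆ I0 := by
      intro i hi
      obtain ⟨z, _, hz⟩ := Finset.mem_biUnion.1 hi
      exact (Finset.mem_filter.1 hz).1
    have hSs : S'.card ≤ s := by rw [← H.zs]; exact Finset.card_le_card hS'Z
    obtain ⟨i, hi, hin⟩ : ∃ i ∈ I0, i ∉ S.biUnion t := by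
      by_contra hcon
      push Not at hcon
      have := Finset.card_le_card (show I0 ⊆ S.biUnion t from hcon)
      omega
    have hsep : Sep G W (Z ∪ N) (W \ S') := by
      refine ⟨?_, ?_⟩
      · ext x
        simp only [Finset.mem_union, Finset.mem_sdiff]
        constructor
        · rintro ((h | h) | h)
          · exact H.zW h
          · exact hNW h
          · exact h.1
        · intro hx
          by_cases h : x ∈ S'
          · exact Or.inl (Or.inl (hS'Z h))
          · exact Or.inr ⟨hx, h⟩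
      · intro a ha ha' b hb hb' hadj
        rw [Finset.mem_sdiff] at ha' hb
        rw [Finset.mem_union] at ha hb'
        push Not at hb'
        have haW : a ∈ W := by
          rcases ha with h | h
          · exact H.zW h
          · exact hNW h
        have haS : a ∈ S' := by
          by_contra h
          exact ha' ⟨haW, h⟩
        obtain ⟨z, hzS, rfl⟩ := Finset.mem_image.1 haS
        obtain ⟨i', j, _, _, hbj⟩ := hE z.1 haW b hb.1 hadj
        have hj : j ∈ I0 := by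
          rw [hI0m]
          by_contra h
          exact hb'.1 (hinZ j h b hbj)
        have hbv : b = v j := hsing j ((hI0m j).1 hj) b hbj (v j) (hv j)
        apply hb'.2
        rw [hN, hbv]
        refine Finset.mem_image_of_mem _ (Finset.mem_biUnion.2 ⟨z, hzS, ?_⟩)
        exact Finset.mem_filter.2 ⟨hj, hbv ▸ hadj⟩
    have hcard : ((Z ∪ N) ∩ (W \ S')).card < s := by
      have h1 : (Z ∪ N) ∩ (W \ S') ⊆ (Z \ S') ∪ N := by
        intro x hx
        simp only [Finset.mem_inter, Finset.mem_union, Finset.mem_sdiff] at hx ⊢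
        rcases hx.1 with h | h
        · exact Or.inl ⟨h, hx.2.2⟩
        · exact Or.inr h
      have h2 : (Z \ S').card = s - S'.card := by
        rw [Finset.card_sdiff_of_subset hS'Z, H.zs]
      have h3 : N.card ≤ (S.biUnion t).card := Finset.card_image_le
      have h4 := (Finset.card_le_card h1).trans (Finset.card_union_le _ _)
      omega
    obtain ⟨x, hx⟩ := H.h3 _ _ hsep Finset.subset_union_left hcard i
    rw [Finset.mem_inter, Finset.mem_union] at hx
    rcases hx.1 with h | h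
    · exact (hI0m i).1 hi x hx.2 h
    · obtain ⟨j, hj, rfl⟩ := Finset.mem_image.1 h
      have := huniq i j (v j) hx.2 (hv j)
      rw [this] at hin
      exact hin hj
  obtain ⟨f, hfinj, hft⟩ := (Finset.all_card_le_biUnion_card_iff_exists_injective t).1 hHall
  have hfI : ∀ z, f z ∈ I0 := fun z => (Finset.mem_filter.1 (hft z)).1
  have hfA : ∀ z, G.Adj z.1 (v (f z)) := fun z => (Finset.mem_filter.1 (hft z)).2
  refine ⟨fun z => if h : z ∈ Z then {z, v (f ⟨z, h⟩)} else ∅, ?_, ?_⟩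
  · intro z hz
    simp only [hz, dif_pos]
    refine ⟨by simp, ?_, ?_⟩
    · intro x hx
      rw [Finset.mem_insert, Finset.mem_singleton] at hx
      rcases hx with rfl | rfl
      · exact H.zW hz
      · exact H.aW _ (hv _)
    · exact (conn_singleton (G := G) (v (f ⟨z, hz⟩))).insert_adj
        (Finset.mem_singleton_self _) (hfA ⟨z, hz⟩).symm
  · intro z hz z' hz' hne
    simp only [hz, hz', dif_pos]
    have hfne : f ⟨z, hz⟩ ≠ f ⟨z', hz'⟩ := by
      intro h
      exact hne (congrArg Subtype.val (hfinj h))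
    have hvZ : ∀ z, v (f z) ∉ Z := fun z => (hI0m (f z)).1 (hfI z) _ (hv _)
    constructor
    · rw [Finset.disjoint_left]
      intro x hx hx'
      rw [Finset.mem_insert, Finset.mem_singleton] at hx hx'
      rcases hx with rfl | rfl <;> rcases hx' with h | h
      · exact hne h
      · exact hvZ _ (h ▸ hz)
      · exact hvZ _ (h ▸ hz')
      · exact hfne (huniq _ _ _ (hv _) (h ▸ hv _))
    · rcases H.h2 _ _ hfne with ⟨⟨a, ha, ha'⟩, _⟩ | ⟨x, hx, y, hy, hadj⟩
      · exact absurd ha ((hI0m _).1 (hfI ⟨z, hz⟩) a ha')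
      · refine ⟨v (f ⟨z, hz⟩), by simp, v (f ⟨z', hz'⟩), by simp, ?_⟩
        rw [hsing _ ((hI0m _).1 (hfI ⟨z, hz⟩)) (v (f ⟨z, hz⟩)) (hv _) x hx,
          hsing _ ((hI0m _).1 (hfI ⟨z', hz'⟩)) (v (f ⟨z', hz'⟩)) (hv _) y hy]
        exact hadj

/-! ### the lemma -/

theorem rc_aux (s : ℕ) (hk : 2 * s ≤ Fintype.card ι) : ∀ (n : ℕ) (G : SimpleGraph V)
    (W Z : Finset V) (A : ι → Finset V), W.card ≤ n → Hyp s G W Z A → Model G W Z := by
  intro n
  induction n with
  | zero =>
    intro G W Z A hn H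
    have hW : W = ∅ := by rwa [Nat.le_zero, Finset.card_eq_zero] at hn
    have hZ : Z = ∅ := by
      rw [← Finset.subset_empty, ← hW]; exact H.zW
    exact ⟨fun _ => ∅, by simp [hZ], by simp [hZ]⟩
  | succ n ih =>
    intro G0 W Z A hn H0
    have H := H0.strip
    refine Model.mono_graph (G := strip G0 Z) (fun x y h => h.1) ?_
    have hZZ : ∀ x ∈ Z, ∀ y ∈ Z, ¬ (strip G0 Z).Adj x y := fun x hx y hy h => h.2 ⟨hx, hy⟩
    generalize strip G0 Z = G at H hZZ ⊢
    by_cases hcase1 : ∃ P Q, Sep G W P Q ∧ Z ⊆ P ∧ (P ∩ Q).card = s ∧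
        (∃ i, ∀ x ∈ A i, x ∉ P) ∧ ¬ P ⊆ Q
    · obtain ⟨P, Q, hS, hZP, hc, ⟨i0, hi0⟩, hPQ⟩ := hcase1
      refine model_lift H hS hZP hc hi0 (ih G Q (P ∩ Q) _ ?_ (hyp_restrict H hS hZP hc hi0))
      have : Q ⊂ W := by
        refine (Finset.ssubset_iff_subset_ne).2 ⟨hS.right_sub, ?_⟩
        intro h
        apply hPQ
        rw [h]
        exact hS.left_sub
      have := Finset.card_lt_card this
      omega
    · have hstar : ∀ P Q, Sep G W P Q → Z ⊆ P → (P ∩ Q).card = s →
          (∃ i, ∀ x ∈ A i, x ∉ P) → P ⊆ Q := by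
        intro P Q h1 h2 h3 h4
        by_contra h5
        exact hcase1 ⟨P, Q, h1, h2, h3, h4, h5⟩
      by_cases hE : ∀ x ∈ W, ∀ y ∈ W, G.Adj x y → ∃ i j, i ≠ j ∧ x ∈ A i ∧ y ∈ A j
      · exact final H hk hE
      · push Not at hE
        obtain ⟨x, hx, y, hy, hadj, hno⟩ := hE
        have key : ∀ u v, u ∈ W → v ∈ W → G.Adj u v → v ∉ Z →
            (∀ i j, i ≠ j → u ∈ A i → v ∉ A j) → Model G W Z := by
          intro u v hu hv huv hvZ hno'
          refine model_contract huv hu hv hvZ (ih _ _ _ _ ?_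
            (hyp_contract huv hu hv H hvZ hno' hstar))
          rw [Finset.card_erase_of_mem hv]
          omega
        by_cases hyZ : y ∈ Z
        · have hxZ : x ∉ Z := fun h => hZZ x h y hyZ hadj
          refine key y x hy hx hadj.symm hxZ ?_
          intro i j hij h1 h2
          exact hno j i hij.symm h2 h1
        · exact key x y hx hy hadj hyZ hno

/-- LEMMA RC. -/
theorem rooted_clique_set (s : ℕ) (hk : 2 * s ≤ Fintype.card ι) (G : SimpleGraph V)
    (W Z : Finset V) (A : ι → Finset V) (H : Hyp s G W Z A) : Model G W Z :=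
  rc_aux s hk _ G W Z A le_rfl H

/-- LEMMA RC, indexed form. -/
theorem rooted_clique (s k : ℕ) (hk : 2 * s ≤ k) (G : SimpleGraph V) (W : Finset V)
    (z : Fin s → V) (hz : Function.Injective z) (hzW : ∀ i, z i ∈ W)
    (A : Fin k → Finset V) (hAW : ∀ i, A i ⊆ W) (hAne : ∀ i, (A i).Nonempty)
    (hAdis : ∀ i j, i ≠ j → Disjoint (A i) (A j))
    (h1 : ∀ i, Conn G (A i) ∨ ∀ x ∈ A i, ∃ j, Reach G (A i) x (z j))
    (h2 : ∀ i j, i ≠ j → ((∃ l, z l ∈ A i) ∧ ∃ l, z l ∈ A j) ∨ ∃ x ∈ A i, ∃ y ∈ A j, G.Adj x y)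
    (h3 : ∀ P Q, Sep G W P Q → (∀ j, z j ∈ P) → (P ∩ Q).card < s → ∀ i, (P ∩ A i).Nonempty) :
    ∃ B : Fin s → Finset V, (∀ j, z j ∈ B j ∧ B j ⊆ W ∧ Conn G (B j)) ∧
      (∀ i j, i ≠ j → Disjoint (B i) (B j)) ∧
      ∀ i j, i ≠ j → ∃ x ∈ B i, ∃ y ∈ B j, G.Adj x y := by
  classical
  have hmem : ∀ x, x ∈ Finset.univ.image z ↔ ∃ j, z j = x := by
    intro x; simp
  have hM := rooted_clique_set (ι := Fin k) s (by simpa using hk) G W (Finset.univ.image z) A
    ⟨by
      intro x hx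
      obtain ⟨j, rfl⟩ := (hmem x).1 hx
      exact hzW j, by
      rw [Finset.card_image_of_injective _ hz]; simp, hAW, hAne, hAdis, by
      intro i
      rcases h1 i with h | h
      · exact Or.inl h
      · right
        intro x hx
        obtain ⟨j, hj⟩ := h x hx
        exact ⟨z j, (hmem _).2 ⟨j, rfl⟩, hj⟩, by
      intro i j hij
      rcases h2 i j hij with ⟨⟨l, hl⟩, ⟨l', hl'⟩⟩ | h
      · exact Or.inl ⟨⟨z l, (hmem _).2 ⟨l, rfl⟩, hl⟩, ⟨z l', (hmem _).2 ⟨l', rfl⟩, hl'⟩⟩
      · exact Or.inr h, by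
      intro P Q hS hZ hc i
      exact h3 P Q hS (fun j => hZ ((hmem _).2 ⟨j, rfl⟩)) hc i⟩
  obtain ⟨B, hB1, hB2⟩ := hM
  refine ⟨fun j => B (z j), fun j => hB1 (z j) ((hmem _).2 ⟨j, rfl⟩), ?_, ?_⟩
  · intro i j hij
    exact (hB2 (z i) ((hmem _).2 ⟨i, rfl⟩) (z j) ((hmem _).2 ⟨j, rfl⟩)
      (fun h => hij (hz h))).1
  · intro i j hij
    exact (hB2 (z i) ((hmem _).2 ⟨i, rfl⟩) (z j) ((hmem _).2 ⟨j, rfl⟩)
      (fun h => hij (hz h))).2

end Crest.Agent.R042.RC775
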