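import Mathlib

/-! Row 42, sec 01 (Reed-Seymour): a connected graph in which all non-cut vertices are pairwise at
even distance is bipartite. -/

set_option autoImplicit false
set_option linter.unusedSectionVars false

namespace Crest.Agent.R042.RS803

open SimpleGraph

variable {U : Type*} {H : SimpleGraph U}

/-- every walk from `x` to `z` passes through `u`. -/
def Thr (H : SimpleGraph U) (x u z : U) : Prop := ∀ p : H.Walk x z, u ∈ p.support

lemma Thr.dist (hH : H.Connected) {x u z : U} (h : Thr H x u z) :
    H.dist x z = H.dist x u + H.dist u z := by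
  classical
  refine le_antisymm hH.dist_triangle ?_
  obtain ⟨p, hp⟩ := hH.exists_walk_length_eq_dist x z
  have hu := h p
  have h1 := p.take_spec hu
  have h2 : (p.takeUntil u hu).length + (p.dropUntil u hu).length = p.length := by
    rw [← Walk.length_append, h1]
  have h3 := SimpleGraph.dist_le (p.takeUntil u hu)
  have h4 := SimpleGraph.dist_le (p.dropUntil u hu)
  omega

/-- vertices on a geodesic. -/
lemma geod_dist (hH : H.Connected) {x z : U} (p : H.Walk x z) (hp : p.length = H.dist x z)
    {u : U} (hu : u ∈ p.support) : H.dist x z = H.dist x u + H.dist u z := by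
  classical
  refine le_antisymm hH.dist_triangle ?_
  have h1 := p.take_spec hu
  have h2 : (p.takeUntil u hu).length + (p.dropUntil u hu).length = p.length := by
    rw [← Walk.length_append, h1]
  have h3 := SimpleGraph.dist_le (p.takeUntil u hu)
  have h4 := SimpleGraph.dist_le (p.dropUntil u hu)
  omega

/-- two vertices on a geodesic at the same distance from the start are equal. -/
lemma geod_inj (hH : H.Connected) {x z : U} (p : H.Walk x z) (hp : p.length = H.dist x z)
    {u v : U} (hu : u ∈ p.support) (hv : v ∈ p.support) (huv : H.dist x u = H.dist x v) :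
    u = v := by
  classical
  -- v lies before or after u
  have h1 := p.take_spec hu
  have hlen : (p.takeUntil u hu).length + (p.dropUntil u hu).length = p.length := by
    rw [← Walk.length_append, h1]
  have h3 := SimpleGraph.dist_le (p.takeUntil u hu)
  have h4 := SimpleGraph.dist_le (p.dropUntil u hu)
  have h5 : H.dist x z ≤ H.dist x u + H.dist u z := hH.dist_triangle
  have e1 : (p.takeUntil u hu).length = H.dist x u := by omega
  have e2 : (p.dropUntil u hu).length = H.dist u z := by omega
  rw [← h1, Walk.mem_support_append_iff] at hv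
  rcases hv with hv | hv
  · have h6 := geod_dist hH _ e1 hv
    have h7 : H.dist v u = 0 := by omega
    exact ((hH.dist_eq_zero_iff).1 h7).symm
  · have h6 := geod_dist hH _ e2 hv
    have h8 : H.dist x z ≤ H.dist x v + H.dist v z := hH.dist_triangle
    have h7 : H.dist u v = 0 := by omega
    exact (hH.dist_eq_zero_iff).1 h7

/-- the farthest vertex among those beyond `u` is a non-cut vertex. -/
lemma exists_beyond [Finite U] (hH : H.Connected) (x u : U) :
    ∃ c, Thr H x u c ∧ ∀ z, z ≠ c → ∃ p : H.Walk x z, c ∉ p.support := by
  classical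
  have hfin : {z | Thr H x u z}.Finite := Set.toFinite _
  have hne : {z | Thr H x u z}.Nonempty := ⟨u, fun p => Walk.end_mem_support p⟩
  obtain ⟨c, hc, hmax⟩ := hfin.exists_maximalFor (fun z => H.dist x z) _ hne
  refine ⟨c, hc, ?_⟩
  intro z hz
  by_cases hzu : Thr H x u z
  · obtain ⟨p, hp⟩ := hH.exists_walk_length_eq_dist x z
    refine ⟨p, fun hcp => ?_⟩
    have h1 := geod_dist hH p hp hcp
    have h2 : H.dist x z ≤ H.dist x c := by
      by_contra hcon
      push Not at hcon
      exact absurd (hmax hzu (le_of_lt hcon)) (not_le.2 hcon)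
    have h3 : H.dist c z = 0 := by omega
    exact hz ((hH.dist_eq_zero_iff).1 h3).symm
  · unfold Thr at hzu
    push Not at hzu
    obtain ⟨p, hp⟩ := hzu
    refine ⟨p, fun hcp => hp ?_⟩
    have := hc (p.takeUntil c hcp)
    exact Walk.support_takeUntil_subset_support _ _ this

/-- if all non-cut vertices are in `T` and all distances in `T` are even then `H` is bipartite. -/
theorem bip [Finite U] [Nontrivial U] (hH : H.Connected) (T : Set U)
    (hT : ∀ r c : U, r ≠ c → (∀ z, z ≠ c → ∃ p : H.Walk r z, c ∉ p.support) → c ∈ T)
    (heven : ∀ c ∈ T, ∀ c' ∈ T, Even (H.dist c c')) :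
    ∃ r, ∀ u v, H.Adj u v → (Even (H.dist r u) ↔ ¬ Even (H.dist r v)) := by
  classical
  obtain ⟨x0⟩ := hH.nonempty
  -- a first non-cut vertex
  obtain ⟨r, hr1, hr2⟩ := exists_beyond hH x0 (Classical.choose (exists_ne x0))
  have hx0 : Classical.choose (exists_ne x0) ≠ x0 := Classical.choose_spec (exists_ne x0)
  have hrx0 : x0 ≠ r := by
    rintro rfl
    have := hr1 Walk.nil
    simp only [Walk.support_nil, List.mem_cons, List.not_mem_nil, or_false] at this
    exact hx0 this
  have hrT : r ∈ T := hT x0 r hrx0 hr2
  refine ⟨r, ?_⟩
  -- it suffices that adjacent vertices are not at the same distance from r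
  have key : ∀ u v, H.Adj u v → H.dist r u ≠ H.dist r v := by
    intro u v huv hd
    have hur : u ≠ r := by
      rintro rfl
      rw [SimpleGraph.dist_self] at hd
      exact huv.ne ((hH.dist_eq_zero_iff).1 hd.symm)
    have hvr : v ≠ r := by
      rintro rfl
      rw [SimpleGraph.dist_self] at hd
      exact huv.ne ((hH.dist_eq_zero_iff).1 hd).symm
    obtain ⟨cu, hcu1, hcu2⟩ := exists_beyond hH r u
    obtain ⟨cv, hcv1, hcv2⟩ := exists_beyond hH r v
    have hrcu : r ≠ cu := by
      rintro rfl
      have := hcu1 Walk.nil
      simp only [Walk.support_nil, List.mem_cons, List.not_mem_nil, or_false] at this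
      exact hur this
    have hrcv : r ≠ cv := by
      rintro rfl
      have := hcv1 Walk.nil
      simp only [Walk.support_nil, List.mem_cons, List.not_mem_nil, or_false] at this
      exact hvr this
    have hcuT := hT r cu hrcu hcu2
    have hcvT := hT r cv hrcv hcv2
    -- a walk from r to cv avoiding u
    have avu : ∃ p : H.Walk r cv, u ∉ p.support := by
      obtain ⟨p, hp⟩ := hH.exists_walk_length_eq_dist r cv
      refine ⟨p, fun h => ?_⟩
      exact huv.ne (geod_inj hH p hp h (hcv1 p) hd)
    -- a walk from r to u avoiding v
    have avv : ∃ p : H.Walk r u, v ∉ p.support := by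
      obtain ⟨p, hp⟩ := hH.exists_walk_length_eq_dist r u
      refine ⟨p, fun h => ?_⟩
      exact huv.ne (geod_inj hH p hp (Walk.end_mem_support p) h hd)
    have t1 : Thr H cv u cu := by
      intro p
      by_contra hup
      obtain ⟨q, hq⟩ := avu
      have := hcu1 (q.append p)
      rw [Walk.mem_support_append_iff] at this
      tauto
    have t2 : Thr H u v cv := by
      intro p
      by_contra hvp
      obtain ⟨q, hq⟩ := avv
      have := hcv1 (q.append p)
      rw [Walk.mem_support_append_iff] at this
      tauto
    have e1 := hcu1.dist hH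
    have e2 := hcv1.dist hH
    have e3 := t1.dist hH
    have e4 := t2.dist hH
    have e5 : H.dist u v = 1 := SimpleGraph.dist_eq_one_iff_adj.2 huv
    have c1 := H.dist_comm (u := cv) (v := u)
    have d1 := heven r hrT cu hcuT
    have d2 := heven r hrT cv hcvT
    have d3 := heven cv hcvT cu hcuT
    rw [Nat.even_iff] at d1 d2 d3
    omega
  intro u v huv
  have h1 := key u v huv
  have h2 : H.dist r u ≤ H.dist r v + H.dist v u := hH.dist_triangle
  have h3 : H.dist r v ≤ H.dist r u + H.dist u v := hH.dist_triangle
  have e5 : H.dist u v = 1 := SimpleGraph.dist_eq_one_iff_adj.2 huv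
  have e6 : H.dist v u = 1 := SimpleGraph.dist_eq_one_iff_adj.2 huv.symm
  rw [Nat.even_iff, Nat.even_iff]
  omega

end Crest.Agent.R042.RS803
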