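import Crest.Prelude.Def_CliqueMinor
import Crest.Agent.R042.Conn_353
import Crest.Agent.R042.RSBip_803

/-! Row 42, sec 01: Reed-Seymour weighted stable set. -/

set_option autoImplicit false
set_option linter.unusedSectionVars false

namespace Crest.Agent.R042.RS803

open Finset Crest.Agent.R042.Conn353
open Crest.CombinatoricsR.GraphMinor

variable {V : Type*} [DecidableEq V] {G : SimpleGraph V} {w : V → ℝ}

/-- stable set. -/
def Stab (G : SimpleGraph V) (S : Finset V) : Prop := ∀ u ∈ S, ∀ v ∈ S, ¬ G.Adj u v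

/-- there is an edge between `X` and `Y`. -/
def Touch (G : SimpleGraph V) (X Y : Finset V) : Prop := ∃ x ∈ X, ∃ y ∈ Y, G.Adj x y

/-- nice set. -/
def Nice (G : SimpleGraph V) (w : V → ℝ) (X : Finset V) : Prop :=
  Conn G X ∧ ∃ S ⊆ X, Stab G S ∧ ∑ v ∈ X, w v ≤ 2 * ∑ v ∈ S, w v

lemma Touch.symm {X Y : Finset V} (h : Touch G X Y) : Touch G Y X := by
  obtain ⟨x, hx, y, hy, hxy⟩ := h
  exact ⟨y, hy, x, hx, hxy.symm⟩

lemma Touch.mono {X Y X' Y' : Finset V} (hX : X ⊆ X') (hY : Y ⊆ Y') (h : Touch G X Y) :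
    Touch G X' Y' := by
  obtain ⟨x, hx, y, hy, hxy⟩ := h
  exact ⟨x, hX hx, y, hY hy, hxy⟩

lemma Conn.union_touch {X Y : Finset V} (hX : Conn G X) (hY : Conn G Y) (h : Touch G X Y) :
    Conn G (X ∪ Y) := by
  obtain ⟨x, hx, y, hy, hxy⟩ := h
  exact hX.union_adj hY hx hy hxy

/-- splitting a set in its two parity classes. -/
lemma half (hw : ∀ v, 0 ≤ w v) (Q : Finset V) (d : V → ℕ)
    (hd : ∀ x ∈ Q, ∀ y ∈ Q, G.Adj x y → (Even (d x) ↔ ¬ Even (d y))) :
    Stab G (Q.filter fun x => Even (d x)) ∧ Stab G (Q.filter fun x => ¬ Even (d x)) ∧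
    (∑ v ∈ Q, w v ≤ 2 * ∑ v ∈ Q.filter (fun x => Even (d x)), w v ∨
     ∑ v ∈ Q, w v ≤ 2 * ∑ v ∈ Q.filter (fun x => ¬ Even (d x)), w v) := by
  refine ⟨?_, ?_, ?_⟩
  · intro u hu v hv huv
    rw [mem_filter] at hu hv
    have := hd u hu.1 v hv.1 huv
    tauto
  · intro u hu v hv huv
    rw [mem_filter] at hu hv
    have := hd u hu.1 v hv.1 huv
    tauto
  · have h := Finset.sum_filter_add_sum_filter_not Q (fun x => Even (d x)) w
    rcases le_total (∑ v ∈ Q.filter (fun x => Even (d x)), w v)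
      (∑ v ∈ Q.filter (fun x => ¬ Even (d x)), w v) with h1 | h1
    · right; linarith
    · left; linarith

/-- enlarging a nice set. -/
lemma ext_nice {Y Q E : Finset V} (hY : Nice G w Y) (hQ : Conn G Q) (hYQ : Touch G Y Q)
    (hdisj : Disjoint Y Q) (hE : E ⊆ Q) (hEs : Stab G E) (hEw : ∑ v ∈ Q, w v ≤ 2 * ∑ v ∈ E, w v)
    (hYE : ¬ Touch G Y E) : Nice G w (Y ∪ Q) := by
  obtain ⟨hYc, S, hSY, hSs, hSw⟩ := hY
  refine ⟨Conn.union_touch hYc hQ hYQ, S ∪ E, union_subset_union hSY hE, ?_, ?_⟩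
  · intro u hu v hv huv
    rcases mem_union.1 hu with hu | hu <;> rcases mem_union.1 hv with hv | hv
    · exact hSs u hu v hv huv
    · exact hYE ⟨u, hSY hu, v, hv, huv⟩
    · exact hYE ⟨v, hSY hv, u, hu, huv.symm⟩
    · exact hEs u hu v hv huv
  · rw [sum_union hdisj, sum_union (hdisj.mono hSY hE)]
    linarith

/-- a walk in an induced graph avoiding `c` gives reachability. -/
lemma reach_of_walk {X : Finset V} {c : V} :
    ∀ {a b : (X : Set V)} (p : (G.induce (X : Set V)).Walk a b),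
      (∀ z ∈ p.support, (z : V) ≠ c) → Reach G (X.erase c) a.1 b.1 := by
  intro a b p
  induction p with
  | nil => intro _; exact Reach.refl _
  | cons h p ih =>
    rename_i x y z
    intro hc
    have h1 : (y : V) ≠ c := hc y (by simp)
    refine (Reach.single (by simpa using h) (mem_erase.2 ⟨h1, y.2⟩)).trans
      (ih fun z hz => hc z (by simp [hz]))

/-- STEP: a nice subset of `C` touching all the members of `J`. -/
theorem step (hw : ∀ v, 0 ≤ w v) (C : Finset V) (hC : Conn G C) (J : Set (Finset V))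
    (hnice : ∀ Y ∈ J, Nice G w Y) (hdisj : ∀ Y ∈ J, Disjoint Y C) (htouch : ∀ Y ∈ J, Touch G Y C)
    (hmax : ∀ Y ∈ J, ∀ Q ⊆ C, Q.Nonempty → ¬ Nice G w (Y ∪ Q)) :
    ∃ X ⊆ C, Nice G w X ∧ ∀ Y ∈ J, Touch G Y X := by
  classical
  -- a minimal connected subset touching every member of J
  have hne : (C.powerset.filter fun X => Conn G X ∧ ∀ Y ∈ J, Touch G Y X).Nonempty :=
    ⟨C, by rw [mem_filter, mem_powerset]; exact ⟨Subset.refl _, hC, htouch⟩⟩
  obtain ⟨X, hX, hmin⟩ := Finset.exists_min_image _ (fun X => X.card) hne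
  rw [mem_filter, mem_powerset] at hX
  obtain ⟨hXC, hXc, hXt⟩ := hX
  refine ⟨X, hXC, ?_, hXt⟩
  obtain ⟨x0, hx0⟩ := hXc.nonempty
  by_cases hcard : X = {x0}
  · refine ⟨hXc, X, Subset.refl _, ?_, ?_⟩
    · intro u hu v hv huv
      rw [hcard, mem_singleton] at hu hv
      rw [hu, hv] at huv
      exact huv.ne rfl
    · have : 0 ≤ ∑ v ∈ X, w v := sum_nonneg fun v _ => hw v
      linarith
  · -- at least two vertices
    have hconn : (G.induce (X : Set V)).Connected := hXc
    have : Finite (X : Set V) := Set.toFinite _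
    have hnt : Nontrivial (X : Set V) := by
      have : ∃ y ∈ X, y ≠ x0 := by
        by_contra hcon
        push Not at hcon
        apply hcard
        ext z
        rw [mem_singleton]
        exact ⟨fun hz => hcon z hz, fun hz => by rw [hz]; exact hx0⟩
      obtain ⟨y, hy, hyx⟩ := this
      exact ⟨⟨⟨y, hy⟩, ⟨x0, hx0⟩, fun h => hyx (congrArg Subtype.val h)⟩⟩
    set H := G.induce (X : Set V) with hH
    let T : Set (X : Set V) := {c | ∃ Y ∈ J, ∀ x ∈ X, (∃ y ∈ Y, G.Adj y x) → x = c.1}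
    have hT : ∀ r c : (X : Set V), r ≠ c → (∀ z, z ≠ c → ∃ p : H.Walk r z, c ∉ p.support) →
        c ∈ T := by
      intro r c hrc hav
      by_contra hcT
      have hconn' : Conn G (X.erase c.1) := by
        have hrmem : r.1 ∈ X.erase c.1 :=
          mem_erase.2 ⟨fun h => hrc (Subtype.ext h), r.2⟩
        refine conn_of_reach hrmem ?_
        intro z hz
        rw [mem_erase] at hz
        obtain ⟨p, hp⟩ := hav ⟨z, hz.2⟩ (fun h => hz.1 (congrArg Subtype.val h))
        refine reach_of_walk p ?_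
        intro y hy hyc
        apply hp
        have : y = c := Subtype.ext hyc
        rwa [this] at hy
      have ht : ∀ Y ∈ J, Touch G Y (X.erase c.1) := by
        intro Y hY
        by_contra hcon
        apply hcT
        refine ⟨Y, hY, ?_⟩
        rintro x hx ⟨y, hy, hyx⟩
        by_contra hxc
        exact hcon ⟨y, hy, x, mem_erase.2 ⟨hxc, hx⟩, hyx⟩
      have := hmin (X.erase c.1) (by
        rw [mem_filter, mem_powerset]
        exact ⟨(erase_subset _ _).trans hXC, hconn', ht⟩)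
      rw [card_erase_of_mem c.2] at this
      have hpos : 0 < X.card := card_pos.2 ⟨c.1, c.2⟩
      omega
    have heven : ∀ c ∈ T, ∀ c' ∈ T, Even (H.dist c c') := by
      intro c hc c' hc'
      by_contra hodd
      obtain ⟨Y, hY, hYc⟩ := hc
      obtain ⟨Y', hY', hYc'⟩ := hc'
      obtain ⟨p, hp⟩ := hconn.exists_walk_length_eq_dist c c'
      let d : V → ℕ := fun x => if hx : x ∈ X then H.dist c ⟨x, hx⟩ else 0
      have hdX : ∀ x (hx : x ∈ X), d x = H.dist c ⟨x, hx⟩ := by
        intro x hx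
        simp only [d]
        rw [dif_pos hx]
      let Q : Finset V := (p.support.map Subtype.val).toFinset
      have hQmem : ∀ x, x ∈ Q ↔ ∃ hx : x ∈ X, (⟨x, hx⟩ : (X : Set V)) ∈ p.support := by
        intro x
        simp only [Q, List.mem_toFinset, List.mem_map]
        constructor
        · rintro ⟨y, hy, rfl⟩
          exact ⟨y.2, hy⟩
        · rintro ⟨hx, h⟩
          exact ⟨_, h, rfl⟩
      have hQX : Q ⊆ X := fun x hx => ((hQmem x).1 hx).1
      have hQC : Q ⊆ C := hQX.trans hXC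
      have hcQ : c.1 ∈ Q := (hQmem _).2 ⟨c.2, p.start_mem_support⟩
      have hcQ' : c'.1 ∈ Q := (hQmem _).2 ⟨c'.2, p.end_mem_support⟩
      have hQconn : Conn G Q := by
        have h1 : ∀ z ∈ Q, Reach G Q c.1 z := by
          intro z hz
          obtain ⟨hzX, hz'⟩ := (hQmem z).1 hz
          -- walk from c to z inside the support
          have h2 : ∀ {a b : (X : Set V)} (q : H.Walk a b), (∀ y ∈ q.support, (y : V) ∈ Q) →
              Reach G Q a.1 b.1 := by
            intro a b q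
            induction q with
            | nil => intro _; exact Reach.refl _
            | cons h q ih =>
              rename_i x y z
              intro hc
              exact (Reach.single (by simpa [hH] using h) (hc y (by simp))).trans
                (ih fun z hz => hc z (by simp [hz]))
          refine h2 (p.takeUntil ⟨z, hzX⟩ hz') ?_
          intro y hy
          exact (hQmem _).2 ⟨y.2, SimpleGraph.Walk.support_takeUntil_subset_support _ _ hy⟩
        exact conn_of_reach hcQ h1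
      have hpar : ∀ x ∈ Q, ∀ y ∈ Q, G.Adj x y → (Even (d x) ↔ ¬ Even (d y)) := by
        intro x hx y hy hxy
        obtain ⟨hxX, hx'⟩ := (hQmem x).1 hx
        obtain ⟨hyX, hy'⟩ := (hQmem y).1 hy
        rw [hdX x hxX, hdX y hyX]
        have hadj : H.Adj ⟨x, hxX⟩ ⟨y, hyX⟩ := by simpa [hH] using hxy
        have hne : H.dist c ⟨x, hxX⟩ ≠ H.dist c ⟨y, hyX⟩ := by
          intro h
          have := geod_inj hconn p hp hx' hy' h
          exact hxy.ne (congrArg Subtype.val this)
        have h2 : H.dist c ⟨x, hxX⟩ ≤ H.dist c ⟨y, hyX⟩ + H.dist ⟨y, hyX⟩ ⟨x, hxX⟩ :=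
          hconn.dist_triangle
        have h3 : H.dist c ⟨y, hyX⟩ ≤ H.dist c ⟨x, hxX⟩ + H.dist ⟨x, hxX⟩ ⟨y, hyX⟩ :=
          hconn.dist_triangle
        have e5 : H.dist ⟨x, hxX⟩ ⟨y, hyX⟩ = 1 := SimpleGraph.dist_eq_one_iff_adj.2 hadj
        have e6 : H.dist ⟨y, hyX⟩ ⟨x, hxX⟩ = 1 := SimpleGraph.dist_eq_one_iff_adj.2 hadj.symm
        rw [Nat.even_iff, Nat.even_iff]
        omega
      obtain ⟨hs0, hs1, h2⟩ := half hw Q d hpar
      -- the part Y touches Q exactly in c
      have touchQ : ∀ (Y : Finset V) (c : (X : Set V)), Y ∈ J → c.1 ∈ Q →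
          (∀ x ∈ X, (∃ y ∈ Y, G.Adj y x) → x = c.1) → Touch G Y Q := by
        intro Y c hY hcQ hYc
        obtain ⟨y, hy, x, hx, hyx⟩ := hXt Y hY
        have := hYc x hx ⟨y, hy, hyx⟩
        exact ⟨y, hy, x, by rw [this]; exact hcQ, hyx⟩
      rcases h2 with h2 | h2
      · -- E = even class, misses c'
        refine hmax Y' hY' Q hQC ⟨_, hcQ⟩ (ext_nice (hnice Y' hY') hQconn
          (touchQ Y' c' hY' hcQ' hYc') ((hdisj Y' hY').mono_right hQC) (filter_subset _ _) hs0 h2 ?_)
        rintro ⟨y, hy, x, hx, hyx⟩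
        rw [mem_filter] at hx
        have hxX := hQX hx.1
        have := hYc' x hxX ⟨y, hy, hyx⟩
        subst this
        apply hodd
        have h3 := hx.2
        rw [hdX _ hxX] at h3
        exact h3
      · refine hmax Y hY Q hQC ⟨_, hcQ⟩ (ext_nice (hnice Y hY) hQconn
          (touchQ Y c hY hcQ hYc) ((hdisj Y hY).mono_right hQC) (filter_subset _ _) hs1 h2 ?_)
        rintro ⟨y, hy, x, hx, hyx⟩
        rw [mem_filter] at hx
        have hxX := hQX hx.1
        have := hYc x hxX ⟨y, hy, hyx⟩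
        subst this
        apply hx.2
        rw [hdX _ hxX]
        have : (⟨c.1, hxX⟩ : (X : Set V)) = c := rfl
        rw [this, SimpleGraph.dist_self]
        exact ⟨0, rfl⟩
    obtain ⟨r, hr⟩ := bip hconn T hT heven
    let d : V → ℕ := fun x => if hx : x ∈ X then H.dist r ⟨x, hx⟩ else 0
    have hdX : ∀ x (hx : x ∈ X), d x = H.dist r ⟨x, hx⟩ := by
      intro x hx
      simp only [d]
      rw [dif_pos hx]
    obtain ⟨hs0, hs1, h2⟩ := half (G := G) hw X d (by
      intro x hx y hy hxy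
      rw [hdX x hx, hdX y hy]
      exact hr _ _ (by simpa [hH] using hxy))
    rcases h2 with h2 | h2
    · exact ⟨hXc, _, filter_subset _ _, hs0, h2⟩
    · exact ⟨hXc, _, filter_subset _ _, hs1, h2⟩

end Crest.Agent.R042.RS803
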