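import Crest.Prelude.Def_CliqueMinor
import Crest.Agent.R042.Conn_353
import Crest.Agent.R042.RS_803

/-! Row 42, sec 01: Reed-Seymour, the main induction. -/

set_option autoImplicit false
set_option linter.unusedSectionVars false

namespace Crest.Agent.R042.RS803

open Finset Crest.Agent.R042.Conn353
open Crest.CombinatoricsR.GraphMinor

variable {V : Type*} [DecidableEq V] {G : SimpleGraph V} {w : V → ℝ}

/-- the component of `v` in `G[D]`. -/
lemma exists_comp (D : Finset V) {v : V} (hv : v ∈ D) :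
    ∃ C ⊆ D, v ∈ C ∧ Conn G C ∧ ∀ C' ⊆ D, Conn G C' → (∃ x ∈ C', x ∈ C) → C' ⊆ C := by
  classical
  let C := D.filter fun x => Reach G D v x
  have hmem : ∀ x, x ∈ C ↔ x ∈ D ∧ Reach G D v x := fun x => by simp [C]
  have hvC : v ∈ C := (hmem v).2 ⟨hv, Reach.refl _⟩
  refine ⟨C, filter_subset _ _, hvC, ?_, ?_⟩
  · refine conn_of_reach hvC ?_
    intro x hx
    have h := ((hmem x).1 hx).2
    -- all intermediate vertices are in C
    have : ∀ {a b : V}, Reach G D a b → Reach G D v a → Reach G C a b := by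
      intro a b hab
      induction hab with
      | refl => intro _; exact Reach.refl _
      | tail h1 h2 ih =>
        intro hva
        refine (ih hva).step h2.1 ((hmem _).2 ⟨h2.2, ?_⟩)
        exact (hva.trans h1).step h2.1 h2.2
    exact this h (Reach.refl _)
  · rintro C' hC'D hC' ⟨x, hx, hxC⟩
    intro y hy
    refine (hmem y).2 ⟨hC'D hy, ((hmem x).1 hxC).2.trans ((hC'.reach hx hy).mono hC'D)⟩

/-- a maximal nice subset of `C` above a given one. -/
lemma exists_max_nice {X0 C : Finset V} (hX0 : X0 ⊆ C) (hn : Nice G w X0) :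
    ∃ X, X0 ⊆ X ∧ X ⊆ C ∧ Nice G w X ∧ ∀ Y ⊆ C, Nice G w Y → X ⊆ Y → Y = X := by
  classical
  have hne : (C.powerset.filter fun X => Nice G w X ∧ X0 ⊆ X).Nonempty :=
    ⟨X0, by rw [mem_filter, mem_powerset]; exact ⟨hX0, hn, Subset.refl _⟩⟩
  obtain ⟨X, hX, hmax⟩ := Finset.exists_max_image _ (fun X => X.card) hne
  rw [mem_filter, mem_powerset] at hX
  refine ⟨X, hX.2.2, hX.1, hX.2.1, ?_⟩
  intro Y hYC hY hXY
  have := hmax Y (by
    rw [mem_filter, mem_powerset]
    exact ⟨hYC, hY, hX.2.2.trans hXY⟩)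
  exact (Finset.eq_of_subset_of_card_le hXY this).symm

/-- few pairwise touching connected sets. -/
lemma card_lt_of_touch {W : Finset V} {h : ℕ}
    (hmin : ∀ B : Fin (h + 1) → Finset V, (∀ i, B i ⊆ W) → ¬ IsCliqueMinorModel G B)
    (C : Finset V) (hC : Conn G C) (hCW : C ⊆ W) (J : Finset (Finset V))
    (hJ : ∀ Y ∈ J, Conn G Y ∧ Y ⊆ W ∧ Disjoint Y C ∧ Touch G Y C)
    (hJd : ∀ Y ∈ J, ∀ Z ∈ J, Y ≠ Z → Disjoint Y Z) (hJt : ∀ Y ∈ J, ∀ Z ∈ J, Y ≠ Z → Touch G Y Z) :
    J.card < h := by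
  by_contra hcon
  push Not at hcon
  -- an injection Fin h → J
  obtain ⟨J', hJ'J, hJ'⟩ := Finset.exists_subset_card_eq hcon
  let e := (Finset.equivFinOfCardEq hJ').symm
  let f : Fin h → Finset V := fun i => (e i).1
  have hfJ : ∀ i, f i ∈ J := fun i => hJ'J (e i).2
  have hfi : ∀ i j, i ≠ j → f i ≠ f j := by
    intro i j hij h
    exact hij (e.injective (Subtype.ext h))
  refine hmin (Fin.cons C f) ?_ ⟨?_, ?_, ?_, ?_⟩
  · intro i
    refine Fin.cases ?_ (fun i => ?_) i
    · simpa using hCW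
    · simpa using (hJ _ (hfJ i)).2.1
  · intro i
    refine Fin.cases ?_ (fun i => ?_) i
    · simpa using hC.nonempty
    · simpa using (hJ _ (hfJ i)).1.nonempty
  · intro i j
    refine Fin.cases ?_ (fun i => ?_) i <;> refine Fin.cases ?_ (fun j => ?_) j
    · intro h; exact absurd rfl h
    · intro _
      simpa using (hJ _ (hfJ j)).2.2.1.symm
    · intro _
      simpa using (hJ _ (hfJ i)).2.2.1
    · intro hij
      have : i ≠ j := fun h => hij (by rw [h])
      simpa using hJd _ (hfJ i) _ (hfJ j) (hfi i j this)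
  · intro i
    refine Fin.cases ?_ (fun i => ?_) i
    · exact hC
    · exact (hJ _ (hfJ i)).1
  · intro i j
    refine Fin.cases ?_ (fun i => ?_) i <;> refine Fin.cases ?_ (fun j => ?_) j
    · intro h; exact absurd rfl h
    · intro _
      exact (hJ _ (hfJ j)).2.2.2.symm
    · intro _
      exact (hJ _ (hfJ i)).2.2.2
    · intro hij
      have : i ≠ j := fun h => hij (by rw [h])
      exact hJt _ (hfJ i) _ (hfJ j) (hfi i j this)

/-- the main induction. -/
theorem main {W : Finset V} {h : ℕ}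
    (hmin : ∀ B : Fin (h + 1) → Finset V, (∀ i, B i ⊆ W) → ¬ IsCliqueMinorModel G B)
    (hw : ∀ v, 0 ≤ w v) :
    ∀ (n : ℕ) (D : Finset V) (P : Finset (Finset V × Fin h)), D.card ≤ n → D ⊆ W →
      (∀ X ∈ P, Nice G w X.1 ∧ Disjoint X.1 D ∧ X.1 ⊆ W) →
      (∀ C ⊆ D, Conn G C → ∀ X ∈ P, ∀ Y ∈ P, Touch G X.1 C → Touch G Y.1 C → X.1 ≠ Y.1 →
        Touch G X.1 Y.1) →
      (∀ X ∈ P, ∀ Y ∈ P, X ≠ Y → Disjoint X.1 Y.1) →
      (∀ X ∈ P, ∀ Q ⊆ D, Q.Nonempty → ¬ Nice G w (X.1 ∪ Q)) →
      ∃ T : Fin h → Finset V, (∀ q, T q ⊆ D ∧ Stab G (T q)) ∧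
        (∀ q, ∀ X ∈ P, X.2 = q → ¬ Touch G X.1 (T q)) ∧
        ∑ v ∈ D, w v ≤ 2 * ∑ q, ∑ v ∈ T q, w v := by
  classical
  intro n
  induction n with
  | zero =>
    intro D P hD _ _ _ _ _
    have hD0 : D = ∅ := card_eq_zero.1 (Nat.le_zero.1 hD)
    refine ⟨fun _ => ∅, fun q => ⟨empty_subset _, fun u hu => absurd hu (notMem_empty _)⟩, ?_, ?_⟩
    · rintro q X _ _ ⟨x, _, y, hy, _⟩
      exact absurd hy (notMem_empty _)
    · rw [hD0]; simp
  | succ n ih =>
    intro D P hD hDW hP1 hP2 hP3 hP4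
    rcases D.eq_empty_or_nonempty with hD0 | ⟨v0, hv0⟩
    · refine ⟨fun _ => ∅, fun q => ⟨empty_subset _, fun u hu => absurd hu (notMem_empty _)⟩,
        ?_, ?_⟩
      · rintro q X _ _ ⟨x, _, y, hy, _⟩
        exact absurd hy (notMem_empty _)
      · rw [hD0]; simp
    · obtain ⟨C, hCD, hv0C, hCc, hCmax⟩ := exists_comp (G := G) D hv0
      set J := P.filter fun X => Touch G X.1 C with hJ
      have hJmem : ∀ X, X ∈ J ↔ X ∈ P ∧ Touch G X.1 C := fun X => by rw [hJ, mem_filter]
      set J1 := J.image Prod.fst with hJ1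
      have hJ1mem : ∀ Y ∈ J1, ∃ X ∈ P, Touch G X.1 C ∧ X.1 = Y := by
        intro Y hY
        rw [hJ1, mem_image] at hY
        obtain ⟨X, hX, rfl⟩ := hY
        exact ⟨X, ((hJmem X).1 hX).1, ((hJmem X).1 hX).2, rfl⟩
      have hcard1 : J1.card = J.card := by
        rw [hJ1]
        refine card_image_of_injOn ?_
        intro X hX Y hY hXY
        by_contra hne
        have hXP := ((hJmem X).1 (by simpa using hX)).1
        have hYP := ((hJmem Y).1 (by simpa using hY)).1
        have hd := hP3 X hXP Y hYP hne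
        have hXY' : X.1 = Y.1 := hXY
        rw [hXY', disjoint_self, bot_eq_empty] at hd
        have := (hP1 Y hYP).1.1.nonempty
        rw [hd] at this
        exact absurd this not_nonempty_empty
      have hJlt : J.card < h := by
        rw [← hcard1]
        refine card_lt_of_touch hmin C hCc (hCD.trans hDW) J1 ?_ ?_ ?_
        · intro Y hY
          obtain ⟨X, hX, hXt, rfl⟩ := hJ1mem Y hY
          exact ⟨(hP1 X hX).1.1, (hP1 X hX).2.2, (hP1 X hX).2.1.mono_right hCD, hXt⟩
        · intro Y hY Z hZ hYZ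
          obtain ⟨X, hX, hXt, rfl⟩ := hJ1mem Y hY
          obtain ⟨X', hX', hXt', rfl⟩ := hJ1mem Z hZ
          exact hP3 X hX X' hX' (fun h => hYZ (by rw [h]))
        · intro Y hY Z hZ hYZ
          obtain ⟨X, hX, hXt, rfl⟩ := hJ1mem Y hY
          obtain ⟨X', hX', hXt', rfl⟩ := hJ1mem Z hZ
          exact hP2 C hCD hCc X hX X' hX' hXt hXt' hYZ
      -- a free colour
      obtain ⟨q0, hq0⟩ : ∃ q0 : Fin h, ∀ X ∈ J, X.2 ≠ q0 := by
        by_contra hcon
        push Not at hcon
        have : (univ : Finset (Fin h)) ⊆ J.image Prod.snd := by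
          intro q _
          obtain ⟨X, hX, hXq⟩ := hcon q
          exact mem_image.2 ⟨X, hX, hXq⟩
        have h1 := card_le_card this
        rw [card_univ, Fintype.card_fin] at h1
        have h2 := card_image_le (s := J) (f := Prod.snd)
        omega
      -- the new part
      obtain ⟨X0, hX0C, hX0n, hX0t⟩ := step hw C hCc {Y | Y ∈ J1}
        (fun Y hY => by
          obtain ⟨X, hX, _, rfl⟩ := hJ1mem Y hY
          exact (hP1 X hX).1)
        (fun Y hY => by
          obtain ⟨X, hX, _, rfl⟩ := hJ1mem Y hY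
          exact (hP1 X hX).2.1.mono_right hCD)
        (fun Y hY => by
          obtain ⟨X, hX, ht, rfl⟩ := hJ1mem Y hY
          exact ht)
        (fun Y hY Q hQ hQn => by
          obtain ⟨X, hX, _, rfl⟩ := hJ1mem Y hY
          exact hP4 X hX Q (hQ.trans hCD) hQn)
      obtain ⟨X, hX0X, hXC, hXn, hXmax⟩ := exists_max_nice hX0C hX0n
      have hXt : ∀ Y ∈ P, Touch G Y.1 C → Touch G Y.1 X := by
        intro Y hY ht
        refine (hX0t Y.1 ?_).mono (Subset.refl _) hX0X
        rw [Set.mem_ofPred_eq, hJ1]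
        exact mem_image.2 ⟨Y, (hJmem Y).2 ⟨hY, ht⟩, rfl⟩
      obtain ⟨hXc, S, hSX, hSs, hSw⟩ := id hXn
      have hXD : X ⊆ D := hXC.trans hCD
      obtain ⟨x0, hx0⟩ := hXc.nonempty
      have hcardD : (D \ X).card ≤ n := by
        have h1 := card_sdiff_add_card_eq_card hXD
        have h2 : 0 < X.card := card_pos.2 ⟨x0, hx0⟩
        omega
      have hXP : ∀ Y ∈ P, Disjoint Y.1 X := fun Y hY => (hP1 Y hY).2.1.mono_right hXD
      have ha' : ∀ Y ∈ insert (X, q0) P, Nice G w Y.1 ∧ Disjoint Y.1 (D \ X) ∧ Y.1 ⊆ W := by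
        intro Y hY
        rcases mem_insert.1 hY with rfl | hY
        · exact ⟨hXn, disjoint_sdiff, hXD.trans hDW⟩
        · exact ⟨(hP1 Y hY).1, (hP1 Y hY).2.1.mono_right sdiff_subset, (hP1 Y hY).2.2⟩
      have hb' : ∀ C' ⊆ D \ X, Conn G C' → ∀ Y ∈ insert (X, q0) P, ∀ Z ∈ insert (X, q0) P,
          Touch G Y.1 C' → Touch G Z.1 C' → Y.1 ≠ Z.1 → Touch G Y.1 Z.1 := by
        intro C' hC'D hC' Y hY Z hZ hYt hZt hYZ
        -- a connected set touching X is inside C
        have hsub : Touch G X C' → C' ⊆ C := by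
          intro ht
          have h1 : Conn G (X ∪ C') := Conn.union_touch hXc hC' ht
          have h2 : X ∪ C' ⊆ D := union_subset hXD (hC'D.trans sdiff_subset)
          exact subset_union_right.trans
            (hCmax _ h2 h1 ⟨x0, mem_union_left _ hx0, hXC hx0⟩)
        rcases mem_insert.1 hY with rfl | hY <;> rcases mem_insert.1 hZ with rfl | hZ
        · exact absurd rfl hYZ
        · exact (hXt Z hZ (hZt.mono (Subset.refl _) (hsub hYt))).symm
        · exact hXt Y hY (hYt.mono (Subset.refl _) (hsub hZt))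
        · exact hP2 C' (hC'D.trans sdiff_subset) hC' Y hY Z hZ hYt hZt hYZ
      have hc' : ∀ Y ∈ insert (X, q0) P, ∀ Z ∈ insert (X, q0) P, Y ≠ Z → Disjoint Y.1 Z.1 := by
        intro Y hY Z hZ hYZ
        rcases mem_insert.1 hY with rfl | hY <;> rcases mem_insert.1 hZ with rfl | hZ
        · exact absurd rfl hYZ
        · exact (hXP Z hZ).symm
        · exact hXP Y hY
        · exact hP3 Y hY Z hZ hYZ
      have hd' : ∀ Y ∈ insert (X, q0) P, ∀ Q ⊆ D \ X, Q.Nonempty → ¬ Nice G w (Y.1 ∪ Q) := by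
        intro Y hY Q hQ hQn hn
        rcases mem_insert.1 hY with rfl | hY
        · have h1 : X ∪ Q ⊆ D := union_subset hXD (hQ.trans sdiff_subset)
          have h2 : X ∪ Q ⊆ C := hCmax _ h1 hn.1 ⟨x0, mem_union_left _ hx0, hXC hx0⟩
          have h3 := hXmax (X ∪ Q) h2 hn subset_union_left
          obtain ⟨z, hz⟩ := hQn
          have h4 : z ∈ X := by rw [← h3]; exact mem_union_right _ hz
          exact (mem_sdiff.1 (hQ hz)).2 h4
        · exact hP4 Y hY Q (hQ.trans sdiff_subset) hQn hn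
      obtain ⟨T, hT1, hT2, hT3⟩ := ih (D \ X) (insert (X, q0) P) hcardD
        (sdiff_subset.trans hDW) ha' hb' hc' hd'
      · -- assemble
        refine ⟨fun q => if q = q0 then T q ∪ S else T q, ?_, ?_, ?_⟩
        · intro q
          by_cases hq : q = q0
          · simp only [if_pos hq]
            refine ⟨union_subset ((hT1 q).1.trans sdiff_subset) (hSX.trans hXD), ?_⟩
            have hno : ¬ Touch G X (T q) := hT2 q (X, q0) (mem_insert_self _ _) hq.symm
            intro u hu v hv huv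
            rcases mem_union.1 hu with hu | hu <;> rcases mem_union.1 hv with hv | hv
            · exact (hT1 q).2 u hu v hv huv
            · exact hno ⟨v, hSX hv, u, hu, huv.symm⟩
            · exact hno ⟨u, hSX hu, v, hv, huv⟩
            · exact hSs u hu v hv huv
          · simp only [if_neg hq]
            exact ⟨(hT1 q).1.trans sdiff_subset, (hT1 q).2⟩
        · intro q Y hY hYq
          by_cases hq : q = q0
          · simp only [if_pos hq]
            rintro ⟨y, hy, z, hz, hyz⟩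
            rcases mem_union.1 hz with hz | hz
            · exact hT2 q Y (mem_insert_of_mem hY) hYq ⟨y, hy, z, hz, hyz⟩
            · have : Touch G Y.1 C := ⟨y, hy, z, hXC (hSX hz), hyz⟩
              exact hq0 Y ((hJmem Y).2 ⟨hY, this⟩) (hYq.trans hq)
          · simp only [if_neg hq]
            exact hT2 q Y (mem_insert_of_mem hY) hYq
        · have h1 : ∑ v ∈ D, w v = ∑ v ∈ D \ X, w v + ∑ v ∈ X, w v :=
            (sum_sdiff hXD).symm
          have h2 : ∀ q, ∑ v ∈ (if q = q0 then T q ∪ S else T q), w v =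
              ∑ v ∈ T q, w v + if q = q0 then ∑ v ∈ S, w v else 0 := by
            intro q
            by_cases hq : q = q0
            · rw [if_pos hq, if_pos hq, sum_union]
              have : Disjoint (D \ X) X := sdiff_disjoint
              exact this.mono (hT1 q).1 hSX
            · rw [if_neg hq, if_neg hq, add_zero]
          have h3 : ∑ q, ∑ v ∈ (if q = q0 then T q ∪ S else T q), w v =
              ∑ q, ∑ v ∈ T q, w v + ∑ v ∈ S, w v := by
            rw [sum_congr rfl fun q _ => h2 q, sum_add_distrib]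
            simp
          rw [h1, h3]
          linarith

/-- REED-SEYMOUR: if `G[W]` has no `K_{h+1}` model, there is a stable set with `w(W) ≤ 2h w(S)`. -/
theorem stable (G : SimpleGraph V) (W : Finset V) (h : ℕ)
    (hmin : ∀ B : Fin (h + 1) → Finset V, (∀ i, B i ⊆ W) → ¬ IsCliqueMinorModel G B)
    (w : V → ℝ) (hw : ∀ v, 0 ≤ w v) :
    ∃ S ⊆ W, (∀ u ∈ S, ∀ v ∈ S, ¬ G.Adj u v) ∧ ∑ v ∈ W, w v ≤ 2 * h * ∑ v ∈ S, w v := by
  obtain ⟨T, hT1, _, hT3⟩ := main (w := w) hmin hw W.card W ∅ le_rfl (Subset.refl _)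
    (by simp) (by simp) (by simp) (by simp)
  rcases Nat.eq_zero_or_pos h with h0 | h0
  · subst h0
    refine ⟨∅, empty_subset _, by simp, ?_⟩
    simpa using hT3
  · have : Nonempty (Fin h) := ⟨⟨0, h0⟩⟩
    obtain ⟨q, _, hq⟩ := Finset.exists_max_image (univ : Finset (Fin h))
      (fun q => ∑ v ∈ T q, w v) univ_nonempty
    refine ⟨T q, (hT1 q).1, (hT1 q).2, ?_⟩
    have h1 : ∑ q', ∑ v ∈ T q', w v ≤ ∑ _q' : Fin h, ∑ v ∈ T q, w v :=
      sum_le_sum fun q' _ => hq q' (mem_univ _)
    rw [sum_const, card_univ, Fintype.card_fin, nsmul_eq_mul] at h1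
    nlinarith [hT3, h1]

end Crest.Agent.R042.RS803
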