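import Mathlib

/-!
# Row 42, label level: the relation lemma (algebraic part)

`Rel477.structure`: if `∑ f (u i) (e i) = 0` for all symmetric bilinear forms `f`, and the `u i`
(`i` outside `D`) are linearly independent, then the `e i` (`i` outside `D`) are combinations of
the `u`'s with an "antisymmetric up to `ε`" coefficient matrix, plus finitely many parameters.
-/

namespace Crest.Agent.R042.Rel477

open Finset

variable {F W : Type*} [Field F] [AddCommGroup W] [Module F W]

/-- the relation: killed by all symmetric bilinear forms -/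
def IsRel {ι : Type*} [Fintype ι] (F : Type*) {W : Type*} [Field F] [AddCommGroup W] [Module F W]
    (u e : ι → W) : Prop :=
  ∀ f : W →ₗ[F] W →ₗ[F] F, (∀ x y, f x y = f y x) → ∑ i, f (u i) (e i) = 0

lemma rel_dual {ι : Type*} [Fintype ι] {u e : ι → W} (h : IsRel F u e)
    (l : W →ₗ[F] F) : ∑ i, (l (u i) • e i + l (e i) • u i) = 0 := by
  classical
  rw [← Module.forall_dual_apply_eq_zero_iff F]
  intro g
  have := h (LinearMap.mk₂ F (fun x y => l x * g y + g x * l y)
    (by intro a b c; simp; ring) (by intro a b c; simp; ring)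
    (by intro a b c; simp; ring) (by intro a b c; simp; ring)) (by
      intro x y; simp; ring)
  simp only [LinearMap.mk₂_apply] at this
  rw [map_sum, ← this]
  refine Finset.sum_congr rfl fun i _ => ?_
  simp; ring

/-- structure of relations. `D` = indices with free parameters. -/
theorem structure' {ι : Type*} [Fintype ι] [DecidableEq ι] {u e : ι → W} (h : IsRel F u e)
    (D : Finset ι) (hli : LinearIndependent F (fun i : {i // i ∉ D} => u i)) :
    ∃ (c a a' : ι → ι → F),
      (∀ i, i ∉ D → e i = ∑ l ∈ Dᶜ, c i l • u l + ∑ l ∈ D, (a i l • e l + a' i l • u l)) ∧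
      (∀ i, i ∉ D → ∀ k, k ∉ D → c i k + c k i = ∑ l ∈ D, (a k l * a' i l + a' k l * a i l)) := by
  classical
  -- dual functionals
  have hex : ∀ i : {i // i ∉ D}, ∃ l : W →ₗ[F] F, ∀ k : {i // i ∉ D}, l (u k) = if k = i then 1 else 0 := by
    intro i
    obtain ⟨g, hg⟩ := (hli.repr).exists_extend
    refine ⟨(Finsupp.lapply i).comp g, fun k => ?_⟩
    have h1 : g (u k) = Finsupp.single k 1 := by
      have : u k ∈ Submodule.span F (Set.range (fun i : {i // i ∉ D} => u i)) :=
        Submodule.subset_span ⟨k, rfl⟩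
      have h2 := congrArg (fun t => t ⟨u k, this⟩) hg
      simp only [LinearMap.comp_apply, Submodule.subtype_apply] at h2
      rw [h2]
      exact hli.repr_eq_single k _ rfl
    simp only [LinearMap.comp_apply, h1, Finsupp.lapply_apply, Finsupp.single_apply]
  choose L hL using hex
  let L' : ι → W →ₗ[F] F := fun i => if h : i ∉ D then L ⟨i, h⟩ else 0
  have hL' : ∀ i, i ∉ D → ∀ k, k ∉ D → L' i (u k) = if k = i then 1 else 0 := by
    intro i hi k hk
    simp only [L', dif_pos hi]
    have := hL ⟨i, hi⟩ ⟨k, hk⟩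
    simpa [Subtype.mk.injEq] using this
  have key : ∀ i, i ∉ D → e i = ∑ l ∈ Dᶜ, (-(L' i (e l))) • u l
      + ∑ l ∈ D, ((-(L' i (u l))) • e l + (-(L' i (e l))) • u l) := by
    intro i hi
    have h0 := rel_dual h (L' i)
    rw [← Finset.sum_compl_add_sum D] at h0
    have h1 : ∑ l ∈ Dᶜ, (L' i (u l) • e l + L' i (e l) • u l)
        = e i + ∑ l ∈ Dᶜ, L' i (e l) • u l := by
      rw [Finset.sum_add_distrib]
      congr 1
      rw [Finset.sum_eq_single i]
      · rw [hL' i hi i hi]; simp
      · intro b hb hbi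
        rw [hL' i hi b (by simpa using hb), if_neg hbi, zero_smul]
      · intro hn; exact absurd (by simpa using hi) hn
    rw [h1] at h0
    have h2 : e i = -(∑ l ∈ Dᶜ, L' i (e l) • u l)
        - ∑ l ∈ D, (L' i (u l) • e l + L' i (e l) • u l) := by
      have : e i + ∑ l ∈ Dᶜ, L' i (e l) • u l
        + ∑ l ∈ D, (L' i (u l) • e l + L' i (e l) • u l) = 0 := h0
      rw [← sub_eq_zero]
      rw [← this]; abel
    rw [h2]
    simp only [neg_smul, Finset.sum_add_distrib, Finset.sum_neg_distrib]
    abel
  refine ⟨fun i l => -(L' i (e l)), fun i l => -(L' i (u l)), fun i l => -(L' i (e l)),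
    key, ?_⟩
  intro i hi k hk
  have h3 := congrArg (L' i) (key k hk)
  simp only [map_add, map_sum, map_smul, smul_eq_mul] at h3
  have h4 : ∑ l ∈ Dᶜ, -(L' k (e l)) * L' i (u l) = -(L' k (e i)) := by
    rw [Finset.sum_eq_single i]
    · rw [hL' i hi i hi]; simp
    · intro b hb hbi
      rw [hL' i hi b (by simpa using hb), if_neg hbi, mul_zero]
    · intro hn; exact absurd (by simpa using hi) hn
  rw [h4] at h3
  -- h3 : L' i (e k) = -(L' k (e i)) + Σ_D (−L' k(u l) * L' i (e l) + −L' k(e l) * L' i (u l))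
  show -(L' i (e k)) + -(L' k (e i)) = _
  rw [h3]
  have h5 : ∑ l ∈ D, (-(L' k (u l)) * -(L' i (e l)) + -(L' k (e l)) * -(L' i (u l)))
      = - ∑ l ∈ D, (-(L' k (u l)) * L' i (e l) + -(L' k (e l)) * L' i (u l)) := by
    rw [← Finset.sum_neg_distrib]
    exact Finset.sum_congr rfl fun l _ => by ring
  rw [h5]
  ring

end Crest.Agent.R042.Rel477
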