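import Mathlib
import Crest.Agent.R042.Crit_374
import Crest.Agent.R042.Mader_375
import Crest.Agent.R042.WovenStmt_671

/-! Row 42, S0058: from hardness to the `rest` clause of THEOREM W / W'. -/

set_option autoImplicit false
set_option linter.unusedSectionVars false

namespace Crest.Agent.R042.Rest671

open Finset Crest.Agent.R042.Conn353 Crest.Agent.R042.Menger353 Crest.Agent.R042.Link870
  Crest.Agent.R042.Mader375 Crest.Agent.R042.Crit374

variable {V : Type*} [DecidableEq V]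

/-- a set which is hard for lists of size `k'` contains the piece `J'` used in THEOREM W (f). -/
theorem rest_of_hard {G : SimpleGraph V} {R : Finset V} {a q k' M : ℕ}
    (hIH : ∀ W, W ⊆ R → ¬ Model G W (2 * a) → Choos G W q) (hk : q + 2 * a ≤ k')
    (hM : M + 2 * a ≤ k' + 1) (hard : ¬ Choos G R k') :
    ∃ J' Z', J' ⊆ R ∧ Z' ⊆ J' ∧ Z'.card ≤ 2 * a ∧
      (∀ A B, Sep G J' A B → (A ∩ B).card ≤ a → A \ B ⊆ Z' ∨ B \ A ⊆ Z') ∧
      M ≤ (J' \ Z').card ∧ Model G (J' \ Z') (2 * a) := by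
  obtain ⟨S, Z, hS, hc⟩ := exists_crit hard a
  refine ⟨S, Z, hS, hc.sub, hc.card_le, fun A B h1 h2 => hc.sep h1 h2, ?_, ?_⟩
  · have := hc.card_lt (by omega)
    omega
  · by_contra hno
    exact hc.hard ((hIH _ (Finset.sdiff_subset.trans hS) hno).mono_card (by omega))

/-- THEOREM W / W' with hardness: the only inputs are (C2) of `(H, Z)`, a hub `J` for every `X` and
the hardness of the rest after a minimal batch. -/
theorem woven_of_hard {V : Type} [DecidableEq V] {G : SimpleGraph V} {H Z : Finset V}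
    {a c κ θ k q : ℕ} (ha : 1 ≤ a) (hcrit : Crit G H Z k θ) (hac : a + c ≤ κ)
    (hθ : 2 * κ + 2 * a ≤ θ) {k' : ℕ} (hk : q + 2 * a ≤ k') (hk2 : 2 * κ + 2 * a ≤ k' + 1)
    (hIH : ∀ W, W ⊆ H → ¬ Model G W (2 * a) → Choos G W q)
    (hrest : ∀ X, X ⊆ H \ Z → X.card ≤ 2 * κ → ∃ J, J ⊆ (H \ Z) \ X ∧ 2 * κ ≤ J.card ∧
      (∀ Y, Y ⊆ J → Y.card ≤ 2 * κ → Linked G J Y) ∧
      ∀ U : Finset (List V), Linkage G H X J U → U.card = X.card →
        (∀ Q, Linkage G H X J Q → Q.card = U.card → (verts U).card ≤ (verts Q).card) →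
        ¬ Choos G (((H \ Z) \ J) \ verts U) k') :
    Asm220.Woven G H (H \ Z) a c := by
  refine WovenStmt671.wovenStmt G H Z a c κ θ ha hcrit.sub
    (fun A B h1 h2 => hcrit.sep h1 h2) hac hθ ?_
  intro X hX hXc
  obtain ⟨J, h1, h2, h3, h4⟩ := hrest X hX hXc
  refine ⟨J, h1, h2, h3, fun U hU hUX hUmin => ?_⟩
  refine rest_of_hard (k' := k') (q := q) ?_ hk hk2 (h4 U hU hUX hUmin)
  intro W hW
  exact hIH W (hW.trans (Finset.sdiff_subset.trans (Finset.sdiff_subset.trans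
    Finset.sdiff_subset)))

end Crest.Agent.R042.Rest671
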