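import Mathlib

/-!
# Windows from row independence (row 42, S0059, label level)

`U` is a vector space over a field `F`, `C` (the rows) and `C'` (the columns) are disjoint subspaces.
If the rows `u j ∈ C` are linearly independent then the windows `f (u j) · |_{C'}` of a symmetric
bilinear form `f` can be prescribed arbitrarily; `f` may moreover be taken zero on `C × C` and on
`C' × C'`.  Hence (finite case) for a uniform symmetric form the windows are jointly uniform and
independent.
-/

set_option autoImplicit false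

namespace Crest.Agent.R042.RowWin543

variable {F U : Type*} [Field F] [AddCommGroup U] [Module F U]

/-- symmetric bilinear forms on `U` -/
def SymForm (F U : Type*) [Field F] [AddCommGroup U] [Module F U] :
    Submodule F (U →ₗ[F] U →ₗ[F] F) where
  carrier := {f | ∀ x y, f x y = f y x}
  add_mem' := by
    intro f g hf hg x y
    have h1 : f x y = f y x := hf x y
    have h2 : g x y = g y x := hg x y
    simp [h1, h2]
  zero_mem' := by intro x y; simp
  smul_mem' := by
    intro c f hf x y
    have h1 : f x y = f y x := hf x y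
    simp [h1]

theorem mem_symForm (f : U →ₗ[F] U →ₗ[F] F) : f ∈ SymForm F U ↔ ∀ x y, f x y = f y x := Iff.rfl

/-- a functional on `C'` extends to `U` by zero on `C` -/
theorem exists_ext (C C' : Submodule F U) (hd : Disjoint C C') (φ : C' →ₗ[F] F) :
    ∃ ψ : U →ₗ[F] F, (∀ x ∈ C, ψ x = 0) ∧ ∀ z : C', ψ z = φ z := by
  classical
  -- pass to the quotient by `C`
  let p : C' →ₗ[F] U ⧸ C := C.mkQ.comp C'.subtype
  have hp : Function.Injective p := by
    rw [← LinearMap.ker_eq_bot, LinearMap.ker_eq_bot']
    intro z hz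
    have h1 : (z : U) ∈ C := by
      have : C.mkQ (z : U) = 0 := hz
      rwa [Submodule.mkQ_apply, Submodule.Quotient.mk_eq_zero] at this
    have h2 := Submodule.disjoint_def.1 hd (z : U) h1 z.2
    exact Subtype.ext h2
  obtain ⟨g, hg⟩ := LinearMap.exists_leftInverse_of_injective p (LinearMap.ker_eq_bot.2 hp)
  refine ⟨(φ.comp g).comp C.mkQ, ?_, ?_⟩
  · intro x hx
    have : C.mkQ x = 0 := by
      rw [Submodule.mkQ_apply, Submodule.Quotient.mk_eq_zero]; exact hx
    simp [this]
  · intro z
    have h3 : g (p z) = z := by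
      have := LinearMap.congr_fun hg z
      simpa using this
    have h4 : C.mkQ (z : U) = p z := rfl
    rw [LinearMap.comp_apply, LinearMap.comp_apply, h4, h3]

/-- **rows independent ⇒ windows arbitrary** -/
theorem rows_surj (C C' : Submodule F U) (hd : Disjoint C C') {ι : Type*} [Fintype ι]
    (u : ι → U) (huC : ∀ i, u i ∈ C) (hu : LinearIndependent F u) (φ : ι → (C' →ₗ[F] F)) :
    ∃ f ∈ SymForm F U, (∀ j, ∀ z : C', f (u j) z = φ j z) ∧
      (∀ x ∈ C, ∀ y ∈ C, f x y = 0) ∧ (∀ x ∈ C', ∀ y ∈ C', f x y = 0) := by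
  classical
  -- dual functionals of the rows, zero on `C'`
  have hl : ∀ j, ∃ l : U →ₗ[F] F, (∀ z ∈ C', l z = 0) ∧ ∀ k, l (u k) = if k = j then 1 else 0 := by
    intro j
    -- functional on `C`
    let u' : ι → C := fun i => ⟨u i, huC i⟩
    have hu' : LinearIndependent F u' := by
      have : (C.subtype ∘ u') = u := rfl
      exact LinearIndependent.of_comp C.subtype (by rw [this]; exact hu)
    obtain ⟨m, hm⟩ : ∃ m : C →ₗ[F] F, ∀ k, m (u' k) = if k = j then 1 else 0 := by
      obtain ⟨g, hg⟩ := LinearMap.exists_extend (p := Submodule.span F (Set.range u'))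
        ((Finsupp.lapply j : (ι →₀ F) →ₗ[F] F).comp hu'.repr)
      refine ⟨g, fun k => ?_⟩
      have hk : u' k ∈ Submodule.span F (Set.range u') := Submodule.subset_span ⟨k, rfl⟩
      have h5 : g (u' k) = ((Finsupp.lapply j : (ι →₀ F) →ₗ[F] F).comp hu'.repr) ⟨u' k, hk⟩ := by
        rw [← hg]; rfl
      rw [h5, LinearMap.comp_apply, hu'.repr_eq_single k ⟨u' k, hk⟩ rfl]
      simp [Finsupp.single_apply]
    obtain ⟨l, hl1, hl2⟩ := exists_ext C' C hd.symm m
    exact ⟨l, hl1, fun k => by rw [← hm k]; exact hl2 (u' k)⟩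
  choose l hl1 hl2 using hl
  have hp : ∀ j, ∃ ψ : U →ₗ[F] F, (∀ x ∈ C, ψ x = 0) ∧ ∀ z : C', ψ z = φ j z :=
    fun j => exists_ext C C' hd (φ j)
  choose ψ hψ1 hψ2 using hp
  let f : U →ₗ[F] U →ₗ[F] F :=
    ∑ j, ((LinearMap.lsmul F (U →ₗ[F] F)).flip (ψ j)).comp (l j) +
      ∑ j, ((LinearMap.lsmul F (U →ₗ[F] F)).flip (l j)).comp (ψ j)
  have hf : ∀ x y, f x y = ∑ j, l j x * ψ j y + ∑ j, ψ j x * l j y := by
    intro x y
    simp [f, LinearMap.sum_apply, LinearMap.add_apply]
  refine ⟨f, ?_, ?_, ?_, ?_⟩
  · intro x y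
    rw [hf, hf, add_comm]
    congr 1
    · exact Finset.sum_congr rfl fun j _ => mul_comm _ _
    · exact Finset.sum_congr rfl fun j _ => mul_comm _ _
  · intro j z
    rw [hf]
    have h1 : ∑ i, l i (u j) * ψ i z = φ j z := by
      rw [Finset.sum_eq_single j]
      · rw [hl2, if_pos rfl, one_mul, hψ2]
      · intro i _ hij
        rw [hl2, if_neg (Ne.symm hij), zero_mul]
      · intro h; exact absurd (Finset.mem_univ j) h
    have h2 : ∑ i, ψ i (u j) * l i z = 0 := by
      apply Finset.sum_eq_zero
      intro i _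
      rw [hψ1 i (u j) (huC j), zero_mul]
    rw [h1, h2, add_zero]
  · intro x hx y hy
    rw [hf]
    have h1 : ∑ i, l i x * ψ i y = 0 :=
      Finset.sum_eq_zero fun i _ => by rw [hψ1 i y hy, mul_zero]
    have h2 : ∑ i, ψ i x * l i y = 0 :=
      Finset.sum_eq_zero fun i _ => by rw [hψ1 i x hx, zero_mul]
    rw [h1, h2, add_zero]
  · intro x hx y hy
    rw [hf]
    have h1 : ∑ i, l i x * ψ i y = 0 :=
      Finset.sum_eq_zero fun i _ => by rw [hl1 i x hx, zero_mul]
    have h2 : ∑ i, ψ i x * l i y = 0 :=
      Finset.sum_eq_zero fun i _ => by rw [hl1 i y hy, mul_zero]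
    rw [h1, h2, add_zero]

/-- fibres of a surjective additive map of finite groups -/
theorem card_fibre {A B : Type*} [AddCommGroup A] [AddCommGroup B] [Fintype A] [Fintype B]
    [DecidableEq B] (φ : A →+ B) (hφ : Function.Surjective φ) (b : B) :
    (Finset.univ.filter fun a => φ a = b).card * Fintype.card B = Fintype.card A := by
  classical
  have h1 : ∀ b b' : B, (Finset.univ.filter fun a => φ a = b).card =
      (Finset.univ.filter fun a => φ a = b').card := by
    intro b b'
    obtain ⟨c, hc⟩ := hφ (b' - b)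
    refine Finset.card_bij (fun a _ => a + c) ?_ ?_ ?_
    · intro a ha
      simp only [Finset.mem_filter, Finset.mem_univ, true_and] at ha ⊢
      rw [map_add, ha, hc]; abel
    · intro a _ a' _ h; exact add_right_cancel h
    · intro a ha
      simp only [Finset.mem_filter, Finset.mem_univ, true_and] at ha
      refine ⟨a - c, ?_, by abel⟩
      simp only [Finset.mem_filter, Finset.mem_univ, true_and]
      rw [map_sub, ha, hc]; abel
  have h2 : (Finset.univ : Finset A).card =
      ∑ b : B, (Finset.univ.filter fun a => φ a = b).card :=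
    Finset.card_eq_sum_card_fiberwise fun a _ => Finset.mem_univ (φ a)
  rw [← Finset.card_univ (α := A), h2, Finset.sum_congr rfl fun b' _ => h1 b' b,
    Finset.sum_const, smul_eq_mul, mul_comm, Finset.card_univ]

end Crest.Agent.R042.RowWin543
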