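import Mathlib
import Crest.Prelude.Def_WellSignedMatrix

/-! Row 42 / S0060: the linear algebra layer (L1)-(L4) (helper693). -/

set_option autoImplicit false

namespace Crest.Agent.R042.S60Lin

open Matrix Finset
open Crest.CombinatoricsR.SpectralGraph

variable {V : Type*} [Fintype V] [DecidableEq V]

/-- spectral data in coordinates -/
theorem spec {M : Matrix V V ℝ} (hM : M.IsHermitian) :
    ∃ u : V → V → ℝ, (∀ i j, u i ⬝ᵥ u j = if i = j then 1 else 0) ∧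
      (∀ i, M *ᵥ u i = hM.eigenvalues i • u i) ∧
      (∀ z : V → ℝ, z = ∑ i, (u i ⬝ᵥ z) • u i) := by
  refine ⟨fun i => (hM.eigenvectorBasis i).ofLp, ?_, ?_, ?_⟩
  · intro i j
    have h := (orthonormal_iff_ite.mp hM.eigenvectorBasis.orthonormal) j i
    rw [EuclideanSpace.inner_eq_star_dotProduct] at h
    simp only [star_trivial] at h
    rw [h]
    by_cases hij : i = j
    · simp [hij]
    · rw [if_neg hij, if_neg (fun h => hij h.symm)]
  · intro i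
    exact hM.mulVec_eigenvectorBasis i
  · intro z
    have h := hM.eigenvectorBasis.sum_repr' (WithLp.toLp 2 z)
    have h2 := congrArg WithLp.ofLp h
    rw [WithLp.ofLp_sum] at h2
    refine h2.symm.trans ?_
    refine Finset.sum_congr rfl fun i _ => ?_
    rw [WithLp.ofLp_smul, EuclideanSpace.inner_eq_star_dotProduct]
    simp only [star_trivial]
    rw [dotProduct_comm]

/-- the quadratic form in the eigenbasis -/
theorem quad_eq {M : Matrix V V ℝ} (lam : V → ℝ) (u : V → V → ℝ)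
    (hu : ∀ i j, u i ⬝ᵥ u j = if i = j then 1 else 0)
    (hMu : ∀ i, M *ᵥ u i = lam i • u i)
    (hz : ∀ z : V → ℝ, z = ∑ i, (u i ⬝ᵥ z) • u i) (z : V → ℝ) :
    z ⬝ᵥ M *ᵥ z = ∑ i, lam i * (u i ⬝ᵥ z) ^ 2 := by
  have h1 : M *ᵥ z = ∑ i, ((u i ⬝ᵥ z) * lam i) • u i := by
    conv_lhs => rw [hz z]
    rw [Matrix.mulVec_sum]
    refine Finset.sum_congr rfl fun i _ => ?_
    rw [Matrix.mulVec_smul, hMu, smul_smul]
  rw [h1, dotProduct_sum]
  refine Finset.sum_congr rfl fun i _ => ?_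
  rw [dotProduct_smul, dotProduct_comm z (u i), smul_eq_mul]
  ring

theorem norm_eq (u : V → V → ℝ)
    (hz : ∀ z : V → ℝ, z = ∑ i, (u i ⬝ᵥ z) • u i) (z : V → ℝ) :
    z ⬝ᵥ z = ∑ i, (u i ⬝ᵥ z) ^ 2 := by
  have h1 : z ⬝ᵥ z = z ⬝ᵥ ∑ i, (u i ⬝ᵥ z) • u i := by
    conv_lhs => rw [hz z]
    rw [← hz z]
  rw [h1, dotProduct_sum]
  refine Finset.sum_congr rfl fun i _ => ?_
  rw [dotProduct_smul, dotProduct_comm z (u i), smul_eq_mul]
  ring

/-- (L1) one negative eigenvalue, nonpositive off-diagonal entries: the bottom eigenvector. -/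
theorem exists_bottom {M : Matrix V V ℝ} (hM : M.IsSymm) (hoff : ∀ u v, u ≠ v → M u v ≤ 0)
    (hneg : negEigenvalueCount M = 1) :
    ∃ b : V → ℝ, (∀ v, 0 ≤ b v) ∧ ∀ z : V → ℝ, 0 ≤ z ⬝ᵥ M *ᵥ z + (b ⬝ᵥ z) ^ 2 := by
  classical
  have hH : M.IsHermitian := by
    rw [Matrix.IsHermitian, Matrix.conjTranspose_eq_transpose_of_trivial]; exact hM
  unfold negEigenvalueCount at hneg
  rw [dif_pos hH] at hneg
  obtain ⟨i0, hi0⟩ := Finset.card_eq_one.mp hneg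
  obtain ⟨u, hu, hMu, hz⟩ := spec hH
  set lam := hH.eigenvalues with hlam
  have hl0 : lam i0 < 0 := by
    have : i0 ∈ (Finset.univ.filter fun i => hH.eigenvalues i < 0) := by
      rw [hi0]; exact Finset.mem_singleton_self _
    exact (Finset.mem_filter.mp this).2
  have hl1 : ∀ i, i ≠ i0 → 0 ≤ lam i := by
    intro i hi
    by_contra hcon
    push Not at hcon
    have : i ∈ (Finset.univ.filter fun i => hH.eigenvalues i < 0) :=
      Finset.mem_filter.mpr ⟨Finset.mem_univ _, hcon⟩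
    rw [hi0] at this
    exact hi (Finset.mem_singleton.mp this)
  have hq := quad_eq lam u hu hMu hz
  -- y = |u i0|
  set x := u i0 with hx
  set y : V → ℝ := fun v => |x v| with hy
  have hyy : y ⬝ᵥ y = 1 := by
    have h1 : y ⬝ᵥ y = x ⬝ᵥ x := by
      simp only [dotProduct, hy]
      refine Finset.sum_congr rfl fun v _ => ?_
      exact abs_mul_abs_self _
    rw [h1, hx, hu, if_pos rfl]
  have hxq : x ⬝ᵥ M *ᵥ x = lam i0 := by
    rw [hx, hMu, dotProduct_smul, hu, if_pos rfl, smul_eq_mul, mul_one]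
  have hyq : y ⬝ᵥ M *ᵥ y ≤ lam i0 := by
    rw [← hxq]
    simp only [dotProduct, Matrix.mulVec, Finset.mul_sum]
    refine Finset.sum_le_sum fun v _ => Finset.sum_le_sum fun w _ => ?_
    by_cases hvw : v = w
    · subst hvw
      simp only [hy]
      have : |x v| * (M v v * |x v|) = M v v * (|x v| * |x v|) := by ring
      rw [this, abs_mul_abs_self]
      apply le_of_eq; ring
    · have h1 := hoff v w hvw
      simp only [hy]
      have h2 : x v * x w ≤ |x v| * |x w| := by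
        rw [← abs_mul]; exact le_abs_self _
      nlinarith
  have hsum : ∑ i, (u i ⬝ᵥ y) ^ 2 = 1 := by rw [← norm_eq u hz, hyy]
  have hzero : ∀ i, i ≠ i0 → (u i ⬝ᵥ y) = 0 := by
    have h1 : ∑ i, lam i * (u i ⬝ᵥ y) ^ 2 ≤ lam i0 := by rw [← hq]; exact hyq
    have h2 : lam i0 * (u i0 ⬝ᵥ y) ^ 2 ≤ ∑ i, lam i * (u i ⬝ᵥ y) ^ 2 := by
      rw [← Finset.add_sum_erase _ _ (Finset.mem_univ i0)]
      have : 0 ≤ ∑ i ∈ Finset.univ.erase i0, lam i * (u i ⬝ᵥ y) ^ 2 :=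
        Finset.sum_nonneg fun i hi =>
          mul_nonneg (hl1 i (Finset.ne_of_mem_erase hi)) (sq_nonneg _)
      linarith
    have h3 : 1 ≤ (u i0 ⬝ᵥ y) ^ 2 := by nlinarith
    intro i hi
    have h4 : (u i ⬝ᵥ y) ^ 2 + (u i0 ⬝ᵥ y) ^ 2 ≤ 1 := by
      rw [← hsum, ← Finset.add_sum_erase _ _ (Finset.mem_univ i0)]
      have := Finset.single_le_sum (f := fun i => (u i ⬝ᵥ y) ^ 2) (s := Finset.univ.erase i0)
        (fun i _ => sq_nonneg _) (Finset.mem_erase.mpr ⟨hi, Finset.mem_univ i⟩)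
      linarith
    have h5 : (u i ⬝ᵥ y) ^ 2 ≤ 0 := by linarith
    exact pow_eq_zero_iff (two_ne_zero) |>.mp (le_antisymm h5 (sq_nonneg _))
  have hy0 : y = (u i0 ⬝ᵥ y) • u i0 := by
    conv_lhs => rw [hz y]
    rw [← Finset.add_sum_erase _ _ (Finset.mem_univ i0), Finset.sum_eq_zero, add_zero]
    intro i hi
    rw [hzero i (Finset.ne_of_mem_erase hi), zero_smul]
  have hc2 : (u i0 ⬝ᵥ y) ^ 2 = 1 := by
    rw [← hsum, ← Finset.add_sum_erase _ _ (Finset.mem_univ i0), Finset.sum_eq_zero, add_zero]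
    intro i hi
    rw [hzero i (Finset.ne_of_mem_erase hi)]; ring
  refine ⟨fun v => Real.sqrt (-lam i0) * y v, fun v => mul_nonneg (Real.sqrt_nonneg _) (abs_nonneg _),
    fun z => ?_⟩
  have h1 : (fun v => Real.sqrt (-lam i0) * y v) = Real.sqrt (-lam i0) • y := rfl
  rw [h1, smul_dotProduct, smul_eq_mul, mul_pow, Real.sq_sqrt (by linarith), hq]
  have h2 : (y ⬝ᵥ z) ^ 2 = (u i0 ⬝ᵥ z) ^ 2 := by
    rw [hy0, smul_dotProduct, smul_eq_mul, mul_pow, hc2, one_mul]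
  rw [h2, ← Finset.add_sum_erase _ _ (Finset.mem_univ i0)]
  have : 0 ≤ ∑ i ∈ Finset.univ.erase i0, lam i * (u i ⬝ᵥ z) ^ 2 :=
    Finset.sum_nonneg fun i hi =>
      mul_nonneg (hl1 i (Finset.ne_of_mem_erase hi)) (sq_nonneg _)
  nlinarith

/-- symmetry of the bilinear form -/
theorem bil_comm {M : Matrix V V ℝ} (hM : M.IsSymm) (x y : V → ℝ) :
    x ⬝ᵥ M *ᵥ y = y ⬝ᵥ M *ᵥ x := by
  rw [Matrix.dotProduct_mulVec, ← Matrix.mulVec_transpose, hM.eq, dotProduct_comm]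

/-- (L1') reversed Cauchy-Schwarz -/
theorem rcs_of_bottom {M : Matrix V V ℝ} (hM : M.IsSymm) (b : V → ℝ)
    (hb : ∀ z : V → ℝ, 0 ≤ z ⬝ᵥ M *ᵥ z + (b ⬝ᵥ z) ^ 2) (x y : V → ℝ)
    (hx : x ⬝ᵥ M *ᵥ x < 0) (hy : y ⬝ᵥ M *ᵥ y < 0) :
    (x ⬝ᵥ M *ᵥ x) * (y ⬝ᵥ M *ᵥ y) ≤ (x ⬝ᵥ M *ᵥ y) ^ 2 := by
  set α := b ⬝ᵥ x with hα
  set β := b ⬝ᵥ y with hβ
  have h0 := hb (β • x - α • y)
  have hcomm := bil_comm hM y x
  have e1 : (β • x - α • y) ⬝ᵥ M *ᵥ (β • x - α • y) =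
      β ^ 2 * (x ⬝ᵥ M *ᵥ x) + α ^ 2 * (y ⬝ᵥ M *ᵥ y) - 2 * (α * β * (x ⬝ᵥ M *ᵥ y)) := by
    rw [Matrix.mulVec_sub, Matrix.mulVec_smul, Matrix.mulVec_smul]
    simp only [sub_dotProduct, dotProduct_sub, smul_dotProduct, dotProduct_smul, smul_eq_mul]
    rw [hcomm]; ring
  have e2 : b ⬝ᵥ (β • x - α • y) = 0 := by
    rw [dotProduct_sub, dotProduct_smul, dotProduct_smul, smul_eq_mul, smul_eq_mul, ← hα, ← hβ]
    ring
  rw [e1, e2] at h0
  have hα2 : 0 < α ^ 2 := by have := hb x; rw [← hα] at this; linarith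
  have hβ2 : 0 < β ^ 2 := by have := hb y; rw [← hβ] at this; linarith
  set X := x ⬝ᵥ M *ᵥ x
  set Y := y ⬝ᵥ M *ᵥ y
  set B := x ⬝ᵥ M *ᵥ y
  have h1 : β ^ 2 * (-X) + α ^ 2 * (-Y) ≤ -(2 * (α * β * B)) := by linarith
  have h2 : 0 ≤ β ^ 2 * (-X) + α ^ 2 * (-Y) := by nlinarith
  have h3 : (β ^ 2 * (-X) + α ^ 2 * (-Y)) ^ 2 ≤ (-(2 * (α * β * B))) ^ 2 :=
    pow_le_pow_left₀ h2 h1 2
  have h4 : 4 * (β ^ 2 * (-X)) * (α ^ 2 * (-Y)) ≤ (β ^ 2 * (-X) + α ^ 2 * (-Y)) ^ 2 := by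
    nlinarith [sq_nonneg (β ^ 2 * (-X) - α ^ 2 * (-Y))]
  have h5 : (α ^ 2 * β ^ 2) * (X * Y) ≤ (α ^ 2 * β ^ 2) * B ^ 2 := by
    nlinarith
  exact le_of_mul_le_mul_left h5 (mul_pos hα2 hβ2)

/-- (L2) rank from corank -/
theorem rank_add_corank (M : Matrix V V ℝ) : M.rank + corank M = Fintype.card V := by
  have h := LinearMap.finrank_range_add_finrank_ker M.mulVecLin
  rw [Module.finrank_fintype_fun_eq_card] at h
  exact h

theorem rank_le_of_corank {m : ℕ} (M : Matrix (Fin m) (Fin m) ℝ)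
    (h : ¬ ((corank M : ℝ) + 1 < (m : ℝ) / 2)) : (M.rank : ℝ) ≤ (m : ℝ) / 2 + 1 := by
  have h1 := rank_add_corank M
  rw [Fintype.card_fin] at h1
  have h2 : (M.rank : ℝ) + (corank M : ℝ) = m := by exact_mod_cast h1
  push Not at h
  linarith

/-- (L3) few bad vectors: the abstract form (RCS as hypothesis). -/
theorem few_bad_rcs {M : Matrix V V ℝ}
    (hrcs : ∀ x y : V → ℝ, x ⬝ᵥ M *ᵥ x < 0 → y ⬝ᵥ M *ᵥ y < 0 →
      (x ⬝ᵥ M *ᵥ x) * (y ⬝ᵥ M *ᵥ y) ≤ (x ⬝ᵥ M *ᵥ y) ^ 2)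
    {I Y : Type*} [Fintype I] [DecidableEq I] [Fintype Y] (Yv : I → V → ℝ) (R P δ : ℝ)
    (h1 : ∀ i, Yv i ⬝ᵥ M *ᵥ Yv i = 1)
    (hoff : ∀ i j, i ≠ j → Yv i ⬝ᵥ M *ᵥ Yv j ≤ 0)
    (hrow : ∀ i, ∑ j ∈ univ.erase i, -(Yv i ⬝ᵥ M *ᵥ Yv j) ≤ R)
    (c : Y → I → ℝ) (hδ : 0 < δ)
    (hq : ∀ y, (∑ i, c y i • Yv i) ⬝ᵥ M *ᵥ (∑ i, c y i • Yv i) ≤ -δ)
    (hP : ∀ i, ∑ y, |c y i| ≤ P) :
    δ * (Fintype.card Y : ℝ) ^ 2 ≤ P ^ 2 * (1 + R) * (Fintype.card I : ℝ) := by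
  classical
  set g : Y → V → ℝ := fun y => ∑ i, c y i • Yv i with hg
  have hB : ∀ y w, g y ⬝ᵥ M *ᵥ g w = ∑ i, ∑ j, c y i * c w j * (Yv i ⬝ᵥ M *ᵥ Yv j) := by
    intro y w
    simp only [hg]
    rw [Matrix.mulVec_sum, sum_dotProduct]
    refine Finset.sum_congr rfl fun i _ => ?_
    rw [dotProduct_sum]
    refine Finset.sum_congr rfl fun j _ => ?_
    rw [Matrix.mulVec_smul, smul_dotProduct, dotProduct_smul, smul_eq_mul, smul_eq_mul]
    ring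
  have hlow : ∀ y w, δ ≤ |g y ⬝ᵥ M *ᵥ g w| := by
    intro y w
    have hy := hq y
    have hw := hq w
    have h2 := hrcs (g y) (g w) (by simp only [hg]; linarith) (by simp only [hg]; linarith)
    have h3 : δ ^ 2 ≤ (g y ⬝ᵥ M *ᵥ g w) ^ 2 := by
      refine le_trans ?_ h2
      simp only [hg]
      nlinarith
    have h4 := sq_le_sq.mp h3
    rwa [abs_of_pos hδ] at h4
  have hrow' : ∀ i, ∑ j, |Yv i ⬝ᵥ M *ᵥ Yv j| ≤ 1 + R := by
    intro i
    rw [← Finset.add_sum_erase _ _ (Finset.mem_univ i), h1 i, abs_one]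
    have : ∑ j ∈ univ.erase i, |Yv i ⬝ᵥ M *ᵥ Yv j| = ∑ j ∈ univ.erase i, -(Yv i ⬝ᵥ M *ᵥ Yv j) :=
      Finset.sum_congr rfl fun j hj =>
        abs_of_nonpos (hoff i j (Finset.ne_of_mem_erase hj).symm)
    rw [this]
    linarith [hrow i]
  have hPi : ∀ i : I, 0 ≤ ∑ y, |c y i| := fun i => Finset.sum_nonneg fun y _ => abs_nonneg _
  calc δ * (Fintype.card Y : ℝ) ^ 2 = ∑ y : Y, ∑ w : Y, δ := by
        simp only [Finset.sum_const, Finset.card_univ, nsmul_eq_mul]; ring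
    _ ≤ ∑ y : Y, ∑ w : Y, |g y ⬝ᵥ M *ᵥ g w| :=
        Finset.sum_le_sum fun y _ => Finset.sum_le_sum fun w _ => hlow y w
    _ ≤ ∑ y : Y, ∑ w : Y, ∑ i, ∑ j, |c y i| * |c w j| * |Yv i ⬝ᵥ M *ᵥ Yv j| := by
        refine Finset.sum_le_sum fun y _ => Finset.sum_le_sum fun w _ => ?_
        rw [hB]
        refine (Finset.abs_sum_le_sum_abs _ _).trans ?_
        refine Finset.sum_le_sum fun i _ => ?_
        refine (Finset.abs_sum_le_sum_abs _ _).trans ?_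
        refine Finset.sum_le_sum fun j _ => ?_
        rw [abs_mul, abs_mul]
    _ = ∑ i, ∑ j, (∑ y, |c y i|) * (∑ w, |c w j|) * |Yv i ⬝ᵥ M *ᵥ Yv j| := by
        have e1 : ∀ y : Y, ∑ w : Y, ∑ i, ∑ j, |c y i| * |c w j| * |Yv i ⬝ᵥ M *ᵥ Yv j|
            = ∑ i, ∑ j, |c y i| * (∑ w, |c w j|) * |Yv i ⬝ᵥ M *ᵥ Yv j| := by
          intro y
          rw [Finset.sum_comm]
          refine Finset.sum_congr rfl fun i _ => ?_
          rw [Finset.sum_comm]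
          refine Finset.sum_congr rfl fun j _ => ?_
          rw [Finset.mul_sum, Finset.sum_mul]
        simp only [e1]
        rw [Finset.sum_comm]
        refine Finset.sum_congr rfl fun i _ => ?_
        rw [Finset.sum_comm]
        refine Finset.sum_congr rfl fun j _ => ?_
        rw [Finset.sum_mul, Finset.sum_mul]
    _ ≤ ∑ i, ∑ j, P * P * |Yv i ⬝ᵥ M *ᵥ Yv j| := by
        refine Finset.sum_le_sum fun i _ => Finset.sum_le_sum fun j _ => ?_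
        refine mul_le_mul_of_nonneg_right ?_ (abs_nonneg _)
        exact mul_le_mul (hP i) (hP j) (hPi j) ((hPi i).trans (hP i))
    _ = ∑ i, P * P * ∑ j, |Yv i ⬝ᵥ M *ᵥ Yv j| := by
        refine Finset.sum_congr rfl fun i _ => ?_
        rw [Finset.mul_sum]
    _ ≤ ∑ i : I, P * P * (1 + R) := by
        refine Finset.sum_le_sum fun i _ => ?_
        exact mul_le_mul_of_nonneg_left (hrow' i) (mul_self_nonneg P)
    _ = P ^ 2 * (1 + R) * (Fintype.card I : ℝ) := by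
        simp only [Finset.sum_const, Finset.card_univ, nsmul_eq_mul]; ring

theorem few_bad {M : Matrix V V ℝ} (hM : M.IsSymm) (b : V → ℝ)
    (hb : ∀ z : V → ℝ, 0 ≤ z ⬝ᵥ M *ᵥ z + (b ⬝ᵥ z) ^ 2)
    {I Y : Type*} [Fintype I] [DecidableEq I] [Fintype Y] (Yv : I → V → ℝ) (R P δ : ℝ)
    (h1 : ∀ i, Yv i ⬝ᵥ M *ᵥ Yv i = 1)
    (hoff : ∀ i j, i ≠ j → Yv i ⬝ᵥ M *ᵥ Yv j ≤ 0)
    (hrow : ∀ i, ∑ j ∈ univ.erase i, -(Yv i ⬝ᵥ M *ᵥ Yv j) ≤ R)
    (c : Y → I → ℝ) (hδ : 0 < δ)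
    (hq : ∀ y, (∑ i, c y i • Yv i) ⬝ᵥ M *ᵥ (∑ i, c y i • Yv i) ≤ -δ)
    (hP : ∀ i, ∑ y, |c y i| ≤ P) :
    δ * (Fintype.card Y : ℝ) ^ 2 ≤ P ^ 2 * (1 + R) * (Fintype.card I : ℝ) :=
  few_bad_rcs (fun x y hx hy => rcs_of_bottom hM b hb x y hx hy) Yv R P δ h1 hoff hrow c hδ hq hP

/-- (L4a) trace² ≤ rank · HS² -/
theorem trace_sq_le {T : Type*} [Fintype T] [DecidableEq T] {G : Matrix T T ℝ}
    (hG : G.IsHermitian) : (G.trace) ^ 2 ≤ (G.rank : ℝ) * ∑ i, ∑ j, (G i j) ^ 2 := by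
  classical
  obtain ⟨u, hu, hMu, hz⟩ := spec hG
  have hGs : ∀ i j, G i j = G j i := fun i j => by
    have := hG.apply j i
    simpa using this
  have h1 : ∑ i, ∑ j, (G i j) ^ 2 = ∑ k, hG.eigenvalues k ^ 2 := by
    have e1 : ∀ i, ∑ j, (G i j) ^ 2 = ∑ k, hG.eigenvalues k ^ 2 * (u k i) ^ 2 := by
      intro i
      have e2 : ∑ j, (G i j) ^ 2 = (fun j => G i j) ⬝ᵥ (fun j => G i j) := by
        simp only [dotProduct, pow_two]
      rw [e2, norm_eq u hz]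
      refine Finset.sum_congr rfl fun k _ => ?_
      have e3 : u k ⬝ᵥ (fun j => G i j) = (G *ᵥ u k) i := by
        rw [dotProduct_comm]; rfl
      rw [e3, hMu]
      simp only [Pi.smul_apply, smul_eq_mul]
      ring
    simp only [e1]
    rw [Finset.sum_comm]
    refine Finset.sum_congr rfl fun k _ => ?_
    rw [← Finset.mul_sum]
    have e4 : ∑ i, (u k i) ^ 2 = u k ⬝ᵥ u k := by simp only [dotProduct, pow_two]
    rw [e4, hu, if_pos rfl, mul_one]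
  have h2 : G.trace = ∑ k, hG.eigenvalues k := by
    have := hG.trace_eq_sum_eigenvalues
    simpa using this
  have h3 : G.rank = (Finset.univ.filter fun k => hG.eigenvalues k ≠ 0).card := by
    rw [hG.rank_eq_card_non_zero_eigs, Fintype.card_subtype]
  rw [h1, h2, h3]
  have h4 : ∑ k, hG.eigenvalues k
      = ∑ k ∈ Finset.univ.filter (fun k => hG.eigenvalues k ≠ 0), hG.eigenvalues k := by
    rw [Finset.sum_filter]
    refine Finset.sum_congr rfl fun k _ => ?_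
    by_cases h : hG.eigenvalues k = 0
    · simp [h]
    · simp [h]
  rw [h4]
  refine (sq_sum_le_card_mul_sum_sq).trans ?_
  refine mul_le_mul_of_nonneg_left ?_ (Nat.cast_nonneg _)
  exact Finset.sum_le_sum_of_subset_of_nonneg (Finset.filter_subset _ _) fun k _ _ => sq_nonneg _

/-- (L4) unit vectors: card² ≤ rank M · Σ Σ B². -/
theorem card_sq_le_rank {M : Matrix V V ℝ} (hM : M.IsSymm) {T : Type*} [Fintype T]
    (w : T → V → ℝ) (h1 : ∀ i, w i ⬝ᵥ M *ᵥ w i = 1) :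
    (Fintype.card T : ℝ) ^ 2 ≤ (M.rank : ℝ) * ∑ i, ∑ j, (w i ⬝ᵥ M *ᵥ w j) ^ 2 := by
  classical
  set A : Matrix T V ℝ := Matrix.of w with hA
  set G : Matrix T T ℝ := A * (M * Aᵀ) with hGdef
  have hGe : ∀ i j, G i j = w i ⬝ᵥ M *ᵥ w j := by
    intro i j
    rw [hGdef, Matrix.mul_apply]
    simp only [dotProduct, hA, Matrix.of_apply]
    refine Finset.sum_congr rfl fun v _ => ?_
    congr 1
  have hG : G.IsHermitian := by
    ext i j
    rw [Matrix.conjTranspose_apply, star_trivial, hGe, hGe, bil_comm hM]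
  have h2 := trace_sq_le hG
  have h3 : G.trace = (Fintype.card T : ℝ) := by
    simp only [Matrix.trace, Matrix.diag, hGe, h1, Finset.sum_const, Finset.card_univ, nsmul_eq_mul,
      mul_one]
  have h4 : G.rank ≤ M.rank := by
    rw [hGdef]
    exact (Matrix.rank_mul_le_right _ _).trans (Matrix.rank_mul_le_left _ _)
  rw [h3] at h2
  refine h2.trans ?_
  simp only [hGe]
  exact mul_le_mul_of_nonneg_right (by exact_mod_cast h4)
    (Finset.sum_nonneg fun i _ => Finset.sum_nonneg fun j _ => sq_nonneg _)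

end Crest.Agent.R042.S60Lin
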