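import Mathlib
import Crest.Agent.R042.S60Lin_693

/-! Row 42, S0060, Lemma A (helper840): two completely joined supports never both carry a
non-positive non-negative vector. -/

set_option autoImplicit false

namespace Crest.Agent.R042.S60A840

open Matrix Finset

variable {V : Type*} [Fintype V] [DecidableEq V]

/-- a vector of non-positive form, orthogonal to `b`, is in the kernel -/
theorem ker_of_nonpos {M : Matrix V V ℝ} (hM : M.IsSymm) (b : V → ℝ)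
    (hb : ∀ z : V → ℝ, 0 ≤ z ⬝ᵥ M *ᵥ z + (b ⬝ᵥ z) ^ 2)
    (x : V → ℝ) (hx : x ⬝ᵥ M *ᵥ x ≤ 0) (hbx : b ⬝ᵥ x = 0) : M *ᵥ x = 0 := by
  -- for every z and s : 0 ≤ q (x + s z) + (b·(x+s z))^2
  have key : ∀ z : V → ℝ, z ⬝ᵥ M *ᵥ x = 0 := by
    intro z
    have hq : ∀ s : ℝ, 0 ≤ s ^ 2 * (z ⬝ᵥ M *ᵥ z + (b ⬝ᵥ z) ^ 2) + 2 * s * (z ⬝ᵥ M *ᵥ x) := by
      intro s
      have h := hb (x + s • z)
      have e1 : (x + s • z) ⬝ᵥ M *ᵥ (x + s • z)
          = x ⬝ᵥ M *ᵥ x + 2 * s * (z ⬝ᵥ M *ᵥ x) + s ^ 2 * (z ⬝ᵥ M *ᵥ z) := by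
        rw [Matrix.mulVec_add, Matrix.mulVec_smul, dotProduct_add, add_dotProduct, add_dotProduct,
          smul_dotProduct, smul_dotProduct, dotProduct_smul, dotProduct_smul,
          S60Lin.bil_comm hM x z]
        simp only [smul_eq_mul]
        ring
      have e2 : b ⬝ᵥ (x + s • z) = s * (b ⬝ᵥ z) := by
        rw [dotProduct_add, hbx, dotProduct_smul, smul_eq_mul, zero_add]
      rw [e1, e2] at h
      nlinarith [h, hx]
    set A := z ⬝ᵥ M *ᵥ z + (b ⬝ᵥ z) ^ 2 with hA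
    set B := z ⬝ᵥ M *ᵥ x with hB
    have hA0 : 0 ≤ A := hb z
    by_contra hne
    have h1 := hq (-B / (A + 1))
    have hA1 : 0 < A + 1 := by linarith
    have h2 : (-B / (A + 1)) ^ 2 * A + 2 * (-B / (A + 1)) * B
        = -(B ^ 2 * (A + 2)) / (A + 1) ^ 2 := by
      field_simp
      ring
    rw [h2] at h1
    have h3 : 0 < B ^ 2 * (A + 2) / (A + 1) ^ 2 := by
      have : 0 < B ^ 2 := by positivity
      positivity
    rw [neg_div] at h1
    linarith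
  funext v
  have h := key (Pi.single v 1)
  rw [single_dotProduct, one_mul] at h
  simpa using h

/-- LEMMA A, general form. -/
theorem lemmaA {M : Matrix V V ℝ} (hM : M.IsSymm) (H : SimpleGraph V) (hH : H.CliqueFree 3)
    (hneg : ∀ u v, u ≠ v → M u v ≤ 0) (hzero : ∀ u v, u ≠ v → (M u v = 0 ↔ H.Adj u v))
    (b : V → ℝ) (hb0 : ∀ v, 0 ≤ b v)
    (hb : ∀ z : V → ℝ, 0 ≤ z ⬝ᵥ M *ᵥ z + (b ⬝ᵥ z) ^ 2)
    (Y Z : Finset V) (y z : V → ℝ)
    (hy : ∀ v ∈ Y, 0 < y v) (hy0 : ∀ v, v ∉ Y → y v = 0)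
    (hz : ∀ v ∈ Z, 0 < z v) (hz0 : ∀ v, v ∉ Z → z v = 0)
    (hYne : Y.Nonempty) (hZne : Z.Nonempty)
    (hj : ∀ a ∈ Y, ∀ c ∈ Z, H.Adj a c)
    (tw1 : ∃ v, v ∉ Y ∧ v ∉ Z ∧ ∀ a ∈ Y, H.Adj v a)
    (tw2 : ∃ v v', v ∉ Y ∧ v' ∉ Y ∧ H.Adj v v')
    (tw3 : ∃ v v', v ∉ Z ∧ v' ∉ Z ∧ H.Adj v v')
    (hqy : y ⬝ᵥ M *ᵥ y ≤ 0) (hqz : z ⬝ᵥ M *ᵥ z ≤ 0) : False := by
  classical
  have tri : ∀ a c d, H.Adj a c → H.Adj a d → H.Adj c d → False := by
    intro a c d h1 h2 h3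
    exact hH {a, c, d} (SimpleGraph.is3Clique_triple_iff.2 ⟨h1, h2, h3⟩)
  -- the value of M x at a point
  have hMy : ∀ v, (M *ᵥ y) v = ∑ a ∈ Y, M v a * y a := by
    intro v
    rw [Matrix.mulVec, dotProduct]
    symm
    apply Finset.sum_subset (Finset.subset_univ _)
    intro a _ ha
    rw [hy0 a ha, mul_zero]
  have hMz : ∀ v, (M *ᵥ z) v = ∑ a ∈ Z, M v a * z a := by
    intro v
    rw [Matrix.mulVec, dotProduct]
    symm
    apply Finset.sum_subset (Finset.subset_univ _)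
    intro a _ ha
    rw [hz0 a ha, mul_zero]
  -- a zero value outside the support forces full adjacency
  have full : ∀ (S : Finset V) (s : V → ℝ), (∀ v ∈ S, 0 < s v) → ∀ v, v ∉ S →
      ∑ a ∈ S, M v a * s a = 0 → ∀ a ∈ S, H.Adj v a := by
    intro S s hs v hv h0 a ha
    have hle : ∀ i ∈ S, M v i * s i ≤ 0 := by
      intro i hi
      have hne : v ≠ i := by rintro rfl; exact hv hi
      exact mul_nonpos_of_nonpos_of_nonneg (hneg v i hne) (hs i hi).le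
    have h1 := (Finset.sum_eq_zero_iff_of_nonpos hle).1 h0 a ha
    have hne : v ≠ a := by rintro rfl; exact hv ha
    have h2 : M v a = 0 := by
      rcases mul_eq_zero.1 h1 with h | h
      · exact h
      · exact absurd h (hs a ha).ne'
    exact (hzero v a hne).1 h2
  have zero : ∀ (S : Finset V) (s : V → ℝ), ∀ v, v ∉ S → (∀ a ∈ S, H.Adj v a) →
      ∑ a ∈ S, M v a * s a = 0 := by
    intro S s v hv h
    apply Finset.sum_eq_zero
    intro a ha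
    have hne : v ≠ a := by rintro rfl; exact hv ha
    rw [(hzero v a hne).2 (h a ha), zero_mul]
  -- orthogonality
  have hcross : y ⬝ᵥ M *ᵥ z = 0 := by
    rw [dotProduct]
    apply Finset.sum_eq_zero
    intro v _
    by_cases hv : v ∈ Y
    · have hvZ : v ∉ Z := fun h => H.loopless.irrefl v (hj v hv v h)
      rw [hMz, zero Z z v hvZ (fun a ha => hj v hv a ha), mul_zero]
    · rw [hy0 v hv, zero_mul]
  have hcross2 : z ⬝ᵥ M *ᵥ y = 0 := by rw [S60Lin.bil_comm hM]; exact hcross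
  have hby : 0 ≤ b ⬝ᵥ y := by
    apply Finset.sum_nonneg
    intro v _
    by_cases hv : v ∈ Y
    · exact mul_nonneg (hb0 v) (hy v hv).le
    · rw [hy0 v hv, mul_zero]
  have hbz : 0 ≤ b ⬝ᵥ z := by
    apply Finset.sum_nonneg
    intro v _
    by_cases hv : v ∈ Z
    · exact mul_nonneg (hb0 v) (hz v hv).le
    · rw [hz0 v hv, mul_zero]
  -- kernel alone
  have alone : ∀ (S : Finset V) (s : V → ℝ), (∀ v ∈ S, 0 < s v) → S.Nonempty →
      (∀ v, (M *ᵥ s) v = ∑ a ∈ S, M v a * s a) → M *ᵥ s = 0 →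
      (∃ v v', v ∉ S ∧ v' ∉ S ∧ H.Adj v v') → False := by
    intro S s hs hne hMs h0 ⟨v, v', hv, hv', hadj⟩
    obtain ⟨a, ha⟩ := hne
    have h1 : H.Adj v a := full S s hs v hv (by rw [← hMs, h0]; rfl) a ha
    have h2 : H.Adj v' a := full S s hs v' hv' (by rw [← hMs, h0]; rfl) a ha
    exact tri v v' a hadj h1 h2
  rcases hby.eq_or_lt with h | hbypos
  · exact alone Y y hy hYne hMy (ker_of_nonpos hM b hb y hqy h.symm) tw2
  rcases hbz.eq_or_lt with h | hbzpos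
  · exact alone Z z hz hZne hMz (ker_of_nonpos hM b hb z hqz h.symm) tw3
  -- both positive
  set al := b ⬝ᵥ z with hal
  set be := b ⬝ᵥ y with hbe
  have hx : (al • y - be • z) ⬝ᵥ M *ᵥ (al • y - be • z) ≤ 0 := by
    have e1 : (al • y - be • z) ⬝ᵥ M *ᵥ (al • y - be • z)
        = al ^ 2 * (y ⬝ᵥ M *ᵥ y) + be ^ 2 * (z ⬝ᵥ M *ᵥ z) := by
      rw [Matrix.mulVec_sub, Matrix.mulVec_smul, Matrix.mulVec_smul, dotProduct_sub,
        sub_dotProduct, sub_dotProduct, smul_dotProduct, smul_dotProduct, smul_dotProduct,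
        smul_dotProduct, dotProduct_smul, dotProduct_smul, dotProduct_smul, dotProduct_smul,
        hcross, hcross2]
      simp only [smul_eq_mul]
      ring
    rw [e1]
    have h1 : al ^ 2 * (y ⬝ᵥ M *ᵥ y) ≤ 0 := mul_nonpos_of_nonneg_of_nonpos (sq_nonneg _) hqy
    have h2 : be ^ 2 * (z ⬝ᵥ M *ᵥ z) ≤ 0 := mul_nonpos_of_nonneg_of_nonpos (sq_nonneg _) hqz
    linarith
  have hbx : b ⬝ᵥ (al • y - be • z) = 0 := by
    rw [dotProduct_sub, dotProduct_smul, dotProduct_smul, smul_eq_mul, smul_eq_mul, ← hal, ← hbe]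
    ring
  have hker := ker_of_nonpos hM b hb _ hx hbx
  obtain ⟨v, hvY, hvZ, hv⟩ := tw1
  have h1 : (M *ᵥ (al • y - be • z)) v = 0 := by rw [hker]; rfl
  rw [Matrix.mulVec_sub, Matrix.mulVec_smul, Matrix.mulVec_smul, Pi.sub_apply, Pi.smul_apply,
    Pi.smul_apply, hMy, hMz, zero Y y v hvY hv] at h1
  simp only [smul_eq_mul, mul_zero, zero_sub, neg_eq_zero, mul_eq_zero] at h1
  rcases h1 with h1 | h1
  · exact absurd h1 hbypos.ne'
  · obtain ⟨a, ha⟩ := hYne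
    obtain ⟨c, hc⟩ := hZne
    have h2 := full Z z hz v hvZ h1 c hc
    exact tri v a c (hv a ha) h2 (hj a ha c hc)

/-- the blow-up of `F` with classes of size `L` -/
def blow {W : Type*} (F : SimpleGraph W) (L : ℕ) : SimpleGraph (W × Fin L) where
  Adj u v := F.Adj u.1 v.1
  symm := ⟨fun _ _ h => SimpleGraph.Adj.symm h⟩
  loopless := ⟨fun u h => F.loopless.irrefl u.1 h⟩

/-- a twin off a set of at most two vertices -/
theorem exists_twin {W : Type*} [DecidableEq W] {L : ℕ} (hL : 3 ≤ L) (S : Finset (W × Fin L))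
    (hS : S.card ≤ 2) (i : W) : ∃ a : Fin L, (i, a) ∉ S := by
  classical
  by_contra h
  push Not at h
  have h1 : (Finset.univ.image (fun a : Fin L => (i, a))) ⊆ S := by
    intro x hx
    rw [Finset.mem_image] at hx
    obtain ⟨a, _, rfl⟩ := hx
    exact h a
  have h2 := Finset.card_le_card h1
  rw [Finset.card_image_of_injective _ (fun a b hab => (Prod.mk.inj hab).2), Finset.card_univ,
    Fintype.card_fin] at h2
  omega

/-- LEMMA A for the blow-up: no twin hypotheses. -/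
theorem lemmaA_blow {W : Type*} [Fintype W] [DecidableEq W] (F : SimpleGraph W)
    (hF : F.CliqueFree 3) {L : ℕ} (hL : 3 ≤ L)
    {M : Matrix (W × Fin L) (W × Fin L) ℝ} (hM : M.IsSymm)
    (hneg : ∀ u v, u ≠ v → M u v ≤ 0) (hzero : ∀ u v, u ≠ v → (M u v = 0 ↔ F.Adj u.1 v.1))
    (b : W × Fin L → ℝ) (hb0 : ∀ v, 0 ≤ b v)
    (hb : ∀ z : W × Fin L → ℝ, 0 ≤ z ⬝ᵥ M *ᵥ z + (b ⬝ᵥ z) ^ 2)
    (Y Z : Finset (W × Fin L)) (y z : W × Fin L → ℝ)
    (hy : ∀ v ∈ Y, 0 < y v) (hy0 : ∀ v, v ∉ Y → y v = 0)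
    (hz : ∀ v ∈ Z, 0 < z v) (hz0 : ∀ v, v ∉ Z → z v = 0)
    (hYne : Y.Nonempty) (hZne : Z.Nonempty) (hYc : Y.card ≤ 2) (hZc : Z.card ≤ 2)
    (hj : ∀ a ∈ Y, ∀ c ∈ Z, F.Adj a.1 c.1)
    (hqy : y ⬝ᵥ M *ᵥ y ≤ 0) (hqz : z ⬝ᵥ M *ᵥ z ≤ 0) : False := by
  classical
  have hH : (blow F L).CliqueFree 3 := by
    intro s hs
    rw [SimpleGraph.is3Clique_iff] at hs
    obtain ⟨a, c, d, h1, h2, h3, _⟩ := hs
    exact hF {a.1, c.1, d.1} (SimpleGraph.is3Clique_triple_iff.2 ⟨h1, h2, h3⟩)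
  obtain ⟨y0, hy0m⟩ := hYne
  obtain ⟨z0, hz0m⟩ := hZne
  obtain ⟨a1, ha1⟩ := exists_twin hL Z hZc z0.1
  obtain ⟨a2, ha2⟩ := exists_twin hL Y hYc y0.1
  obtain ⟨a3, ha3⟩ := exists_twin hL Y hYc z0.1
  obtain ⟨a4, ha4⟩ := exists_twin hL Z hZc y0.1
  have hadj := hj y0 hy0m z0 hz0m
  refine lemmaA hM (blow F L) hH hneg hzero b hb0 hb Y Z y z hy hy0 hz hz0 ⟨y0, hy0m⟩ ⟨z0, hz0m⟩
    hj ⟨(z0.1, a1), ?_, ha1, ?_⟩ ⟨(y0.1, a2), (z0.1, a3), ha2, ha3, hadj⟩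
    ⟨(y0.1, a4), (z0.1, a1), ha4, ha1, hadj⟩ hqy hqz
  · intro hmem
    exact F.loopless.irrefl z0.1 (hj _ hmem z0 hz0m)
  · intro a ha
    exact (hj a ha z0 hz0m).symm

end Crest.Agent.R042.S60A840
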