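import Mathlib

/-! Row 42, S0060, Lemma B (helper840): the class matrix of a Lorentzian system is bounded off a
small set of types. -/

set_option autoImplicit false

namespace Crest.Agent.R042.S60B840

open Finset

variable {T : Type*} [Fintype T] [DecidableEq T]
variable {E : Type*} [NormedAddCommGroup E] [InnerProductSpace ℝ E]

open scoped InnerProductSpace

theorem le_of_sq_le_sq' {x y : ℝ} (h : x ^ 2 ≤ y ^ 2) (hy : 0 ≤ y) : x ≤ y :=
  abs_le_of_sq_le_sq' h hy |>.2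

/-- walks give distance bounds -/
theorem walk_dist {V : Type*} (G : SimpleGraph V) (f : V → E) (c : ℝ)
    (h : ∀ u v, G.Adj u v → ‖f u - f v‖ ≤ c) :
    ∀ {u v : V} (p : G.Walk u v), ‖f u - f v‖ ≤ p.length * c := by
  intro u v p
  induction p with
  | nil => simp
  | @cons a b d hab q ih =>
    have h1 := h _ _ hab
    have h2 : f a - f d = (f a - f b) + (f b - f d) := by abel
    rw [h2]
    calc ‖(f a - f b) + (f b - f d)‖ ≤ ‖f a - f b‖ + ‖f b - f d‖ := norm_add_le _ _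
      _ ≤ c + q.length * c := add_le_add h1 ih
      _ = _ := by
        rw [SimpleGraph.Walk.length_cons]; push_cast; ring

/-- the graph of the relation `adj` restricted to `U` -/
def resG (adj : T → T → Prop) (hsymm : ∀ t s, adj t s → adj s t) (U : Finset T) : SimpleGraph T where
  Adj t s := adj t s ∧ t ∈ U ∧ s ∈ U ∧ t ≠ s
  symm := ⟨fun t s h => ⟨hsymm _ _ h.1, h.2.2.1, h.2.1, h.2.2.2.symm⟩⟩
  loopless := ⟨by
    intro t h
    exact h.2.2.2 rfl⟩

/-- A big connected piece. -/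
theorem exists_component (adj : T → T → Prop) (hsymm : ∀ t s, adj t s → adj s t)
    (hirr : ∀ t, ¬ adj t t)
    (wt : T → ℝ) (w : ℝ) (hw : 0 < w) (hwt : ∀ t, 0 ≤ wt t)
    (hbip : ∀ A B : Finset T, Disjoint A B → w ≤ ∑ t ∈ A, wt t → w ≤ ∑ t ∈ B, wt t →
      ∃ t ∈ A, ∃ s ∈ B, adj t s)
    (U : Finset T) (hU : 3 * w ≤ ∑ t ∈ U, wt t) :
    ∃ U0 : Finset T, U0 ⊆ U ∧ w ≤ ∑ t ∈ U0, wt t ∧
      ∀ u ∈ U0, ∀ v ∈ U0, (resG adj hsymm U).Reachable u v := by
  classical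
  set G := resG adj hsymm U with hG
  let comp : T → Finset T := fun u => U.filter (fun v => G.Reachable u v)
  -- closed sets
  let Cl : Finset T → Prop := fun C => C ⊆ U ∧ ∀ u ∈ C, ∀ v ∈ U, v ∉ C → ¬ adj u v
  have hcomp : ∀ u ∈ U, Cl (comp u) := by
    intro u hu
    refine ⟨filter_subset _ _, ?_⟩
    intro a ha v hv hvn hadj
    simp only [comp, mem_filter] at ha hvn
    apply hvn
    refine ⟨hv, ha.2.trans ?_⟩
    apply SimpleGraph.Adj.reachable
    refine ⟨hadj, ha.1, hv, ?_⟩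
    rintro rfl
    exact hirr _ hadj
  by_contra hno
  push Not at hno
  have hsmall : ∀ u ∈ U, ∑ t ∈ comp u, wt t < w := by
    intro u hu
    by_contra hge
    push Not at hge
    obtain ⟨a, ha, b, hb, hab⟩ := hno (comp u) (filter_subset _ _) hge
    simp only [comp, mem_filter] at ha hb
    exact hab (ha.2.symm.trans hb.2)
  -- maximal closed set of weight < w
  let S : Finset (Finset T) := U.powerset.filter (fun C => Cl C ∧ ∑ t ∈ C, wt t < w)
  have hS : S.Nonempty := by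
    refine ⟨∅, ?_⟩
    simp only [S, mem_filter, mem_powerset, empty_subset, sum_empty, true_and, Cl]
    refine ⟨?_, hw⟩
    intro u hu; simp at hu
  obtain ⟨C, hCS, hCmax⟩ := S.exists_max_image (fun C => C.card) hS
  simp only [S, mem_filter, mem_powerset] at hCS
  obtain ⟨hCU, hCcl, hCw⟩ := hCS
  have hne : ∃ u ∈ U, u ∉ C := by
    by_contra h
    push Not at h
    have : U ⊆ C := h
    have hle : ∑ t ∈ U, wt t ≤ ∑ t ∈ C, wt t :=
      sum_le_sum_of_subset_of_nonneg this (fun _ _ _ => hwt _)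
    linarith
  obtain ⟨u, hu, huC⟩ := hne
  -- C ∪ comp u is closed
  have hcl2 : Cl (C ∪ comp u) := by
    refine ⟨union_subset hCU (filter_subset _ _), ?_⟩
    intro a ha v hv hvn
    rw [mem_union] at ha
    rw [mem_union, not_or] at hvn
    rcases ha with ha | ha
    · exact hCcl.2 a ha v hv hvn.1
    · exact (hcomp u hu).2 a ha v hv hvn.2
  have hu_comp : u ∈ comp u := by
    simp only [comp, mem_filter]
    exact ⟨hu, SimpleGraph.Reachable.refl _⟩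
  have hcard : C.card < (C ∪ comp u).card := by
    apply card_lt_card
    refine ⟨subset_union_left, ?_⟩
    intro h
    exact huC (h (mem_union_right _ hu_comp))
  have hbig : w ≤ ∑ t ∈ C ∪ comp u, wt t := by
    by_contra hlt
    push Not at hlt
    have hmem : C ∪ comp u ∈ S := by
      simp only [S, mem_filter, mem_powerset]
      exact ⟨hcl2.1, hcl2, hlt⟩
    have := hCmax _ hmem
    omega
  have hle2 : ∑ t ∈ C ∪ comp u, wt t < 2 * w := by
    have h1 : ∑ t ∈ C ∪ comp u, wt t ≤ ∑ t ∈ C, wt t + ∑ t ∈ comp u, wt t := by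
      have := sum_union_inter (s₁ := C) (s₂ := comp u) (f := wt)
      have h0 : 0 ≤ ∑ t ∈ C ∩ comp u, wt t := sum_nonneg (fun _ _ => hwt _)
      linarith
    have := hsmall u hu
    linarith
  have hrest : w ≤ ∑ t ∈ U \ (C ∪ comp u), wt t := by
    have := sum_sdiff (s₁ := C ∪ comp u) (s₂ := U) (f := wt) hcl2.1
    linarith
  obtain ⟨a, ha, b, hb, hab⟩ := hbip (C ∪ comp u) (U \ (C ∪ comp u)) disjoint_sdiff hbig hrest
  rw [mem_sdiff] at hb
  exact hcl2.2 a ha b hb.1 hb.2 hab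

/-- initial segment -/
theorem exists_top (be wt : T → ℝ) (w : ℝ) (hw : 0 < w) (hwt : ∀ t, 0 ≤ wt t)
    (hwt2 : ∀ t, wt t ≤ 2 * w) (htot : 3 * w ≤ ∑ t, wt t) :
    ∃ U : Finset T, U.Nonempty ∧ 3 * w ≤ ∑ t ∈ U, wt t ∧ ∑ t ∈ U, wt t ≤ 5 * w ∧
      ∀ t ∈ U, ∀ s, s ∉ U → be s ≤ be t := by
  classical
  let S : Finset (Finset T) := (univ : Finset (Finset T)).filter
    (fun C => 3 * w ≤ ∑ t ∈ C, wt t ∧ ∀ t ∈ C, ∀ s, s ∉ C → be s ≤ be t)
  have hS : S.Nonempty := by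
    refine ⟨univ, ?_⟩
    simp only [S, mem_filter, mem_univ, true_and]
    refine ⟨htot, ?_⟩
    intro t _ s hs
    exact (hs trivial).elim
  obtain ⟨U, hUS, hUmin⟩ := S.exists_min_image (fun C => C.card) hS
  simp only [S, mem_filter, mem_univ, true_and] at hUS
  have hne : U.Nonempty := by
    rcases U.eq_empty_or_nonempty with h | h
    · rw [h] at hUS; simp at hUS; linarith [hUS]
    · exact h
  refine ⟨U, hne, hUS.1, ?_, hUS.2⟩
  obtain ⟨t0, ht0, hmin⟩ := U.exists_min_image be hne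
  by_contra hgt
  push Not at hgt
  have hsum : ∑ t ∈ U.erase t0, wt t + wt t0 = ∑ t ∈ U, wt t := sum_erase_add _ _ ht0
  have h2 := hwt2 t0
  have hmem : U.erase t0 ∈ S := by
    simp only [S, mem_filter, mem_univ, true_and]
    refine ⟨by linarith, ?_⟩
    intro t ht s hs
    rw [mem_erase] at ht
    by_cases hst : s = t0
    · rw [hst]; exact hmin t ht.2
    · have : s ∉ U := fun h => hs (mem_erase.2 ⟨hst, h⟩)
      exact hUS.2 t ht.2 s this
  have h3 := hUmin _ hmem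
  have h4 : (U.erase t0).card < U.card := card_erase_lt_of_mem ht0
  omega

/-- LEMMA B, class form. -/
theorem lemmaB (n : T → T → ℝ) (be : T → ℝ) (adj : T → T → Prop) (wt : T → ℝ) (w : ℝ)
    (hn : ∀ t s, 0 ≤ n t s) (hbe : ∀ t, 0 ≤ be t)
    (r : T → E)
    (hdiag : ∀ t, n t t ≤ 1 + be t ^ 2 - ‖r t‖ ^ 2)
    (hoff : ∀ t s, t ≠ s → n t s = be t * be s - ⟪r t, r s⟫_ℝ)
    (hsymm : ∀ t s, adj t s → adj s t) (hirr : ∀ t, ¬ adj t t)
    (hadj : ∀ t s, adj t s → n t s = 0)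
    (hw : 0 < w) (hwt : ∀ t, 0 ≤ wt t) (hwt2 : ∀ t, wt t ≤ 2 * w)
    (hbip : ∀ A B : Finset T, Disjoint A B → w ≤ ∑ t ∈ A, wt t → w ≤ ∑ t ∈ B, wt t →
      ∃ t ∈ A, ∃ s ∈ B, adj t s) :
    ∃ T' : Finset T, ∑ t ∈ T'ᶜ, wt t ≤ 6 * w ∧
      ∀ t ∈ T', ∀ s ∈ T', n t s ≤ ((Fintype.card T : ℝ) + 2) ^ 2 := by
  classical
  obtain ⟨k, hk⟩ : ∃ k : ℝ, k = (Fintype.card T : ℝ) := ⟨_, rfl⟩
  have hk0 : (0 : ℝ) ≤ k := by rw [hk]; exact Nat.cast_nonneg _
  rw [← hk]
  -- norm bound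
  have hnorm : ∀ t, ‖r t‖ ^ 2 ≤ 1 + be t ^ 2 := by
    intro t
    have := hdiag t
    have := hn t t
    linarith
  have hinner : ∀ t s, adj t s → ⟪r t, r s⟫_ℝ = be t * be s := by
    intro t s h
    have hts : t ≠ s := by rintro rfl; exact hirr _ h
    have h1 := hoff t s hts
    have h2 := hadj t s h
    linarith
  -- upper bound of n in all cases
  have hup : ∀ t s, n t s ≤ 1 + be t * be s - ⟪r t, r s⟫_ℝ := by
    intro t s
    by_cases hts : t = s
    · subst hts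
      have := hdiag t
      rw [real_inner_self_eq_norm_sq]
      nlinarith [this]
    · rw [hoff t s hts]; linarith
  by_cases htot : 3 * w ≤ ∑ t, wt t
  swap
  · push Not at htot
    refine ⟨∅, ?_, by intro t ht; simp at ht⟩
    rw [compl_empty]; linarith
  obtain ⟨U, hUne, hU3, hU5, hUtop⟩ := exists_top be wt w hw hwt hwt2 htot
  obtain ⟨U0, hU0U, hU0w, hU0conn⟩ := exists_component adj hsymm hirr wt w hw hwt hbip U hU3
  obtain ⟨t0, ht0, hmin⟩ := U.exists_min_image be hUne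
  set bs := be t0 with hbs
  have hbs0 : 0 ≤ bs := hbe t0
  -- exceptional types
  let Ex : Finset T := univ.filter (fun t => t ∉ U ∧ ∀ u ∈ U0, ¬ adj t u)
  have hEx : ∑ t ∈ Ex, wt t ≤ w := by
    by_contra hgt
    push Not at hgt
    have hdis : Disjoint Ex U0 := by
      rw [disjoint_left]
      intro a ha hb
      simp only [Ex, mem_filter, mem_univ, true_and] at ha
      exact ha.1 (hU0U hb)
    obtain ⟨a, ha, b, hb, hab⟩ := hbip Ex U0 hdis hgt.le hU0w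
    simp only [Ex, mem_filter, mem_univ, true_and] at ha
    exact ha.2 b hb hab
  refine ⟨(U ∪ Ex)ᶜ, ?_, ?_⟩
  · rw [compl_compl]
    have := sum_union_inter (s₁ := U) (s₂ := Ex) (f := wt)
    have h0 : 0 ≤ ∑ t ∈ U ∩ Ex, wt t := sum_nonneg (fun _ _ => hwt _)
    linarith
  have hT' : ∀ t, t ∈ (U ∪ Ex)ᶜ → t ∉ U ∧ ∃ u ∈ U0, adj t u := by
    intro t ht
    rw [mem_compl, mem_union, not_or] at ht
    refine ⟨ht.1, ?_⟩
    by_contra hno
    push Not at hno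
    exact ht.2 (by simp only [Ex, mem_filter, mem_univ, true_and]; exact ⟨ht.1, hno⟩)
  intro t ht s hs
  obtain ⟨htU, u, hu, htu⟩ := hT' t ht
  obtain ⟨hsU, v, hv, hsv⟩ := hT' s hs
  have hbt : be t ≤ bs := hUtop t0 ht0 t htU
  have hbs' : be s ≤ bs := hUtop t0 ht0 s hsU
  rcases hbs0.eq_or_lt with hz | hpos
  · -- bs = 0
    have h1 : be t = 0 := le_antisymm (by linarith) (hbe t)
    have h2 : be s = 0 := le_antisymm (by linarith) (hbe s)
    have h3 := hup t s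
    have h4 := abs_real_inner_le_norm (r t) (r s)
    have h5 := hnorm t
    have h6 := hnorm s
    rw [h1] at h5 h3
    rw [h2] at h6
    have h7 : ‖r t‖ * ‖r s‖ ≤ 1 := by
      nlinarith [sq_nonneg (‖r t‖ - ‖r s‖), norm_nonneg (r t), norm_nonneg (r s)]
    have h8 := neg_abs_le (⟪r t, r s⟫_ℝ)
    nlinarith
  -- main case
  obtain ⟨rho, hrd⟩ : ∃ rho : T → E, ∀ x, rho x = (be x)⁻¹ • r x := ⟨_, fun _ => rfl⟩
  have hge : ∀ x ∈ U, bs ≤ be x := hmin
  have hposU : ∀ x ∈ U, 0 < be x := fun x hx => lt_of_lt_of_le hpos (hge x hx)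
  have hrho : ∀ x ∈ U, ‖rho x‖ ^ 2 ≤ 1 + 1 / bs ^ 2 := by
    intro x hx
    have hx0 := hposU x hx
    have h1 : ‖rho x‖ ^ 2 = ‖r x‖ ^ 2 / be x ^ 2 := by
      rw [hrd, norm_smul, norm_inv, Real.norm_eq_abs, abs_of_pos hx0, mul_pow, inv_pow]
      field_simp
    rw [h1, div_le_iff₀ (by positivity)]
    have h2 := hnorm x
    have h3 : bs ^ 2 ≤ be x ^ 2 := by
      have := hge x hx
      nlinarith
    have h4 : 1 ≤ 1 / bs ^ 2 * be x ^ 2 := by
      rw [one_div, ← div_eq_inv_mul, le_div_iff₀ (by positivity)]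
      linarith
    nlinarith
  have hrhoadj : ∀ x ∈ U, ∀ y ∈ U, adj x y → ⟪rho x, rho y⟫_ℝ = 1 := by
    intro x hx y hy h
    rw [hrd, hrd, real_inner_smul_left, real_inner_smul_right, hinner x y h]
    have := hposU x hx
    have := hposU y hy
    field_simp
  have hstep : ∀ x ∈ U, ∀ y ∈ U, adj x y → ‖rho x - rho y‖ ≤ Real.sqrt 2 / bs := by
    intro x hx y hy h
    have h1 : ‖rho x - rho y‖ ^ 2 = ‖rho x‖ ^ 2 - 2 * ⟪rho x, rho y⟫_ℝ + ‖rho y‖ ^ 2 :=
      norm_sub_sq_real _ _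
    rw [hrhoadj x hx y hy h] at h1
    have h2 := hrho x hx
    have h3 := hrho y hy
    have h4 : ‖rho x - rho y‖ ^ 2 ≤ (Real.sqrt 2 / bs) ^ 2 := by
      rw [div_pow, Real.sq_sqrt (by norm_num : (0:ℝ) ≤ 2)]
      have h5 : (2 : ℝ) / bs ^ 2 = 1 / bs ^ 2 + 1 / bs ^ 2 := by ring
      rw [h5]; linarith
    exact le_of_sq_le_sq' h4 (by positivity)
  have hD : ‖rho u - rho v‖ ≤ k * (Real.sqrt 2 / bs) := by
    have hreach := hU0conn u hu v hv
    obtain ⟨p, hp⟩ := hreach.exists_isPath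
    have h1 := walk_dist (resG adj hsymm U) rho (Real.sqrt 2 / bs)
      (fun a b hab => hstep a hab.2.1 b hab.2.2.1 hab.1) p
    have h2 : (p.length : ℝ) ≤ k := by
      rw [hk]
      exact_mod_cast (hp.length_lt).le
    calc ‖rho u - rho v‖ ≤ p.length * (Real.sqrt 2 / bs) := h1
      _ ≤ k * (Real.sqrt 2 / bs) := by
        apply mul_le_mul_of_nonneg_right h2 (by positivity)
  -- the s-vectors
  have hkey : ∀ (a c : T), a ∉ U → c ∈ U0 → adj a c → be a ≤ bs →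
      ⟪r a, rho c⟫_ℝ = be a ∧ ‖r a - be a • rho c‖ ^ 2 ≤ 2 := by
    intro a c ha hc hac hab
    have hcU := hU0U hc
    have hc0 := hposU c hcU
    have h1 : ⟪r a, rho c⟫_ℝ = be a := by
      rw [hrd, real_inner_smul_right, hinner a c hac]
      field_simp
    refine ⟨h1, ?_⟩
    rw [norm_sub_sq_real, real_inner_smul_right, h1, norm_smul, mul_pow, Real.norm_eq_abs, sq_abs]
    have h2 := hnorm a
    have h3 : ‖rho c‖ ^ 2 ≤ 1 + 1 / be c ^ 2 := by
      have h31 : ‖rho c‖ ^ 2 = ‖r c‖ ^ 2 / be c ^ 2 := by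
        rw [hrd, norm_smul, norm_inv, Real.norm_eq_abs, abs_of_pos hc0, mul_pow, inv_pow]
        field_simp
      rw [h31, div_le_iff₀ (by positivity)]
      have := hnorm c
      have h32 : (1 + 1 / be c ^ 2) * be c ^ 2 = be c ^ 2 + 1 := by field_simp
      linarith
    have h4 : be a ^ 2 * (1 / be c ^ 2) ≤ 1 := by
      rw [mul_one_div, div_le_one (by positivity)]
      have := hge c hcU
      have := hbe a
      nlinarith
    have h5 : be a ^ 2 * ‖rho c‖ ^ 2 ≤ be a ^ 2 * (1 + 1 / be c ^ 2) :=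
      mul_le_mul_of_nonneg_left h3 (sq_nonneg _)
    nlinarith
  obtain ⟨hru, hsu⟩ := hkey t u htU hu htu hbt
  obtain ⟨hrv, hsv2⟩ := hkey s v hsU hv hsv hbs'
  set st := r t - be t • rho u with hst
  set ss := r s - be s • rho v with hss
  have hrt : r t = be t • rho u + st := by rw [hst]; abel
  have hrs : r s = be s • rho v + ss := by rw [hss]; abel
  have e1 : ⟪rho v, ss⟫_ℝ = be s * (1 - ‖rho v‖ ^ 2) := by
    rw [hss, inner_sub_right, real_inner_smul_right, real_inner_comm, hrv,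
      real_inner_self_eq_norm_sq]
    ring
  have e2 : ⟪st, rho u⟫_ℝ = be t * (1 - ‖rho u‖ ^ 2) := by
    rw [hst, inner_sub_left, real_inner_smul_left, hru, real_inner_self_eq_norm_sq]
    ring
  have e3 : ⟪r t, r s⟫_ℝ = be t * be s * ⟪rho u, rho v⟫_ℝ
      + be t * (be s * (1 - ‖rho v‖ ^ 2) + ⟪rho u - rho v, ss⟫_ℝ)
      + be s * (be t * (1 - ‖rho u‖ ^ 2) + ⟪st, rho v - rho u⟫_ℝ) + ⟪st, ss⟫_ℝ := by
    have e4 : ⟪rho u, ss⟫_ℝ = be s * (1 - ‖rho v‖ ^ 2) + ⟪rho u - rho v, ss⟫_ℝ := by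
      rw [inner_sub_left, e1]; ring
    have e5 : ⟪st, rho v⟫_ℝ = be t * (1 - ‖rho u‖ ^ 2) + ⟪st, rho v - rho u⟫_ℝ := by
      rw [inner_sub_right, e2]; ring
    rw [← e4, ← e5]
    conv_lhs => rw [hrt, hrs]
    rw [inner_add_left, inner_add_right, inner_add_right, real_inner_smul_left,
      real_inner_smul_right, real_inner_smul_left, real_inner_smul_right]
    ring
  have e6 : ‖rho u - rho v‖ ^ 2 = ‖rho u‖ ^ 2 - 2 * ⟪rho u, rho v⟫_ℝ + ‖rho v‖ ^ 2 :=
    norm_sub_sq_real _ _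
  set D := ‖rho u - rho v‖ with hDdef
  have hD0 : 0 ≤ D := norm_nonneg _
  have hbt0 := hbe t
  have hbs0' := hbe s
  have hst2 : ‖st‖ ≤ Real.sqrt 2 := Real.le_sqrt_of_sq_le hsu
  have hss2 : ‖ss‖ ≤ Real.sqrt 2 := Real.le_sqrt_of_sq_le hsv2
  have hsq2 : Real.sqrt 2 * Real.sqrt 2 = 2 := Real.mul_self_sqrt (by norm_num)
  have hsq0 : 0 ≤ Real.sqrt 2 := Real.sqrt_nonneg _
  have f1 : -(⟪rho u - rho v, ss⟫_ℝ) ≤ D * Real.sqrt 2 := by
    have := abs_real_inner_le_norm (rho u - rho v) ss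
    have h2 := neg_abs_le (⟪rho u - rho v, ss⟫_ℝ)
    have h3 : ‖rho u - rho v‖ * ‖ss‖ ≤ D * Real.sqrt 2 := mul_le_mul_of_nonneg_left hss2 hD0
    linarith
  have f2 : -(⟪st, rho v - rho u⟫_ℝ) ≤ D * Real.sqrt 2 := by
    have := abs_real_inner_le_norm st (rho v - rho u)
    have h2 := neg_abs_le (⟪st, rho v - rho u⟫_ℝ)
    have h4 : ‖rho v - rho u‖ = D := norm_sub_rev _ _
    have h3 : ‖st‖ * ‖rho v - rho u‖ ≤ D * Real.sqrt 2 := by
      rw [h4, mul_comm]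
      exact mul_le_mul_of_nonneg_left hst2 hD0
    linarith
  have f3 : -(⟪st, ss⟫_ℝ) ≤ 2 := by
    have := abs_real_inner_le_norm st ss
    have h2 := neg_abs_le (⟪st, ss⟫_ℝ)
    have h3 : ‖st‖ * ‖ss‖ ≤ Real.sqrt 2 * Real.sqrt 2 :=
      mul_le_mul hst2 hss2 (norm_nonneg _) hsq0
    linarith
  have hbD : bs * D ≤ k * Real.sqrt 2 := by
    calc bs * D ≤ bs * (k * (Real.sqrt 2 / bs)) := mul_le_mul_of_nonneg_left hD hpos.le
      _ = k * Real.sqrt 2 := by field_simp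
  have hu2 := hrho u (hU0U hu)
  have hv2 := hrho v (hU0U hv)
  have g1 : be t * (-(⟪rho u - rho v, ss⟫_ℝ)) ≤ 2 * k := by
    calc be t * (-(⟪rho u - rho v, ss⟫_ℝ)) ≤ be t * (D * Real.sqrt 2) :=
          mul_le_mul_of_nonneg_left f1 hbt0
      _ ≤ bs * (D * Real.sqrt 2) := mul_le_mul_of_nonneg_right hbt (by positivity)
      _ = (bs * D) * Real.sqrt 2 := by ring
      _ ≤ (k * Real.sqrt 2) * Real.sqrt 2 := mul_le_mul_of_nonneg_right hbD hsq0
      _ = 2 * k := by rw [mul_assoc, hsq2]; ring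
  have g2 : be s * (-(⟪st, rho v - rho u⟫_ℝ)) ≤ 2 * k := by
    calc be s * (-(⟪st, rho v - rho u⟫_ℝ)) ≤ be s * (D * Real.sqrt 2) :=
          mul_le_mul_of_nonneg_left f2 hbs0'
      _ ≤ bs * (D * Real.sqrt 2) := mul_le_mul_of_nonneg_right hbs' (by positivity)
      _ = (bs * D) * Real.sqrt 2 := by ring
      _ ≤ (k * Real.sqrt 2) * Real.sqrt 2 := mul_le_mul_of_nonneg_right hbD hsq0
      _ = 2 * k := by rw [mul_assoc, hsq2]; ring
  have g3 : be t * be s * (‖rho u‖ ^ 2 / 2 + ‖rho v‖ ^ 2 / 2 + D ^ 2 / 2 - 1) ≤ 1 + k ^ 2 := by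
    have hq : ‖rho u‖ ^ 2 / 2 + ‖rho v‖ ^ 2 / 2 + D ^ 2 / 2 - 1 ≤ 1 / bs ^ 2 + D ^ 2 / 2 := by
      linarith
    have hbb0 : 0 ≤ be t * be s := mul_nonneg hbt0 hbs0'
    have hbb : be t * be s ≤ bs ^ 2 := by nlinarith
    have hbD2 : bs ^ 2 * D ^ 2 ≤ 2 * k ^ 2 := by
      have h1 : (bs * D) ^ 2 ≤ (k * Real.sqrt 2) ^ 2 := by
        apply pow_le_pow_left₀ (by positivity) hbD
      have h2 : (k * Real.sqrt 2) ^ 2 = 2 * k ^ 2 := by
        rw [mul_pow, Real.sq_sqrt (by norm_num)]; ring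
      nlinarith
    calc be t * be s * (‖rho u‖ ^ 2 / 2 + ‖rho v‖ ^ 2 / 2 + D ^ 2 / 2 - 1)
        ≤ be t * be s * (1 / bs ^ 2 + D ^ 2 / 2) := mul_le_mul_of_nonneg_left hq hbb0
      _ ≤ bs ^ 2 * (1 / bs ^ 2 + D ^ 2 / 2) :=
          mul_le_mul_of_nonneg_right hbb (by positivity)
      _ = 1 + bs ^ 2 * D ^ 2 / 2 := by field_simp
      _ ≤ 1 + k ^ 2 := by linarith
  have h0 := hup t s
  rw [e3] at h0
  have e7 : ⟪rho u, rho v⟫_ℝ = (‖rho u‖ ^ 2 + ‖rho v‖ ^ 2 - D ^ 2) / 2 := by linarith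
  rw [e7] at h0
  have hfin : n t s ≤ 1 + be t * be s * (‖rho u‖ ^ 2 / 2 + ‖rho v‖ ^ 2 / 2 + D ^ 2 / 2 - 1)
      + be t * (-(⟪rho u - rho v, ss⟫_ℝ)) + be s * (-(⟪st, rho v - rho u⟫_ℝ))
      + (-(⟪st, ss⟫_ℝ)) := by
    nlinarith [h0]
  nlinarith [hfin, g1, g2, g3, f3]

end Crest.Agent.R042.S60B840
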