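import Mathlib

/-! Row 42, S0060: blow-up and item form of the two-family pair property (HJB of 883). -/

set_option autoImplicit false

namespace Crest.Agent.R042.S60Bip427

open Finset

variable {N : ℕ}

/-- families of nonempty independent sets of size at most two, pairwise disjoint (883's `IsFam`) -/
def IsFam (F : SimpleGraph (Fin N)) (S : Finset (Finset (Fin N))) : Prop :=
  (∀ A ∈ S, A.Nonempty ∧ A.card ≤ 2 ∧ ∀ a ∈ A, ∀ b ∈ A, ¬ F.Adj a b) ∧
    ∀ A ∈ S, ∀ B ∈ S, A ≠ B → Disjoint A B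

/-- the two-family property of one graph -/
def JB (F : SimpleGraph (Fin N)) (K : ℕ) : Prop :=
  ∀ 𝒜 ℬ : Finset (Finset (Fin N)), IsFam F 𝒜 → IsFam F ℬ → N ≤ K * 𝒜.card → N ≤ K * ℬ.card →
    ∃ A ∈ 𝒜, ∃ B ∈ ℬ, ∀ a ∈ A, ∀ b ∈ B, F.Adj a b

variable {V : Type*} [Fintype V] [DecidableEq V]

/-- a maximal subfamily with disjoint class supports is large -/
theorem supports (cl : V → Fin N) (L : ℕ)
    (hL : ∀ i, (univ.filter (fun v => cl v = i)).card ≤ L) (𝒜 : Finset (Finset V))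
    (hA : ∀ A ∈ 𝒜, A.Nonempty ∧ A.card ≤ 2)
    (hd : ∀ A ∈ 𝒜, ∀ B ∈ 𝒜, A ≠ B → Disjoint A B) :
    ∃ ℱ ⊆ 𝒜, (∀ A ∈ ℱ, ∀ B ∈ ℱ, A ≠ B → Disjoint (A.image cl) (B.image cl)) ∧
      𝒜.card ≤ 2 * L * ℱ.card := by
  classical
  have hne : (𝒜.powerset.filter (fun ℱ => ∀ A ∈ ℱ, ∀ B ∈ ℱ, A ≠ B →
      Disjoint (A.image cl) (B.image cl))).Nonempty :=
    ⟨∅, by simp⟩
  obtain ⟨ℱ, hℱ, hmax⟩ := Finset.exists_max_image _ (fun ℱ => ℱ.card) hne
  rw [mem_filter, mem_powerset] at hℱ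
  refine ⟨ℱ, hℱ.1, hℱ.2, ?_⟩
  set U : Finset (Fin N) := ℱ.biUnion (fun A => A.image cl) with hU
  have hmeet : ∀ A ∈ 𝒜, ∃ v ∈ A, cl v ∈ U := by
    intro A hAm
    by_contra hcon
    push Not at hcon
    have hAF : A ∉ ℱ := by
      intro h
      obtain ⟨v, hv⟩ := (hA A hAm).1
      exact hcon v hv (mem_biUnion.2 ⟨A, h, mem_image_of_mem _ hv⟩)
    have hins : insert A ℱ ∈ 𝒜.powerset.filter (fun ℱ => ∀ A ∈ ℱ, ∀ B ∈ ℱ, A ≠ B →
      Disjoint (A.image cl) (B.image cl)) := by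
      rw [mem_filter, mem_powerset]
      refine ⟨insert_subset hAm hℱ.1, ?_⟩
      have key : ∀ B ∈ ℱ, Disjoint (A.image cl) (B.image cl) := by
        intro B hB
        rw [Finset.disjoint_left]
        intro i hi hi'
        obtain ⟨v, hv, rfl⟩ := mem_image.1 hi
        exact hcon v hv (mem_biUnion.2 ⟨B, hB, hi'⟩)
      intro B hB C hC hBC
      rcases mem_insert.1 hB with h1 | h1
      · rcases mem_insert.1 hC with h2 | h2
        · exact absurd (h1.trans h2.symm) hBC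
        · rw [h1]; exact key C h2
      · rcases mem_insert.1 hC with h2 | h2
        · rw [h2]; exact (key B h1).symm
        · exact hℱ.2 B h1 C h2 hBC
    have := hmax _ hins
    rw [card_insert_of_notMem hAF] at this
    omega
  rcases isEmpty_or_nonempty V with hV | hV
  · have : 𝒜 = ∅ := by
      rw [Finset.eq_empty_iff_forall_notMem]
      intro A hAm
      obtain ⟨v, _⟩ := (hA A hAm).1
      exact hV.elim v
    rw [this]; simp
  choose! f hf using hmeet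
  have h1 : 𝒜.card ≤ (univ.filter (fun v => cl v ∈ U)).card := by
    apply card_le_card_of_injOn f
    · intro A hAm
      simp only [coe_filter, mem_univ, true_and, Set.mem_ofPred_eq]
      exact (hf A hAm).2
    · intro A hAm B hBm hAB
      by_contra hne
      have := hd A hAm B hBm hne
      rw [Finset.disjoint_left] at this
      apply this (hf A hAm).1
      rw [hAB]
      exact (hf B hBm).1
  have h2 : (univ.filter (fun v => cl v ∈ U)).card ≤ U.card * L := by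
    have : univ.filter (fun v => cl v ∈ U) ⊆ U.biUnion (fun i => univ.filter (fun v => cl v = i)) := by
      intro v hv
      rw [mem_filter] at hv
      exact mem_biUnion.2 ⟨cl v, hv.2, by simp⟩
    exact (card_le_card this).trans (card_biUnion_le_card_mul _ _ _ (fun i _ => hL i))
  have h3 : U.card ≤ ℱ.card * 2 := by
    refine card_biUnion_le_card_mul _ _ _ (fun A hA' => ?_)
    exact card_image_le.trans (hA A (hℱ.1 hA')).2
  calc 𝒜.card ≤ U.card * L := h1.trans h2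
    _ ≤ (ℱ.card * 2) * L := Nat.mul_le_mul_right _ h3
    _ = 2 * L * ℱ.card := by ring

/-- BLOW-UP (two families). -/
theorem bip (F : SimpleGraph (Fin N)) (K : ℕ) (hJ : JB F K) (cl : V → Fin N) (L : ℕ) (hL0 : 0 < L)
    (hL : ∀ i, (univ.filter (fun v => cl v = i)).card ≤ L) (𝒜 ℬ : Finset (Finset V))
    (hA : ∀ A ∈ 𝒜, A.Nonempty ∧ A.card ≤ 2 ∧ ∀ a ∈ A, ∀ b ∈ A, ¬ F.Adj (cl a) (cl b))
    (hAd : ∀ A ∈ 𝒜, ∀ B ∈ 𝒜, A ≠ B → Disjoint A B)
    (hB : ∀ A ∈ ℬ, A.Nonempty ∧ A.card ≤ 2 ∧ ∀ a ∈ A, ∀ b ∈ A, ¬ F.Adj (cl a) (cl b))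
    (hBd : ∀ A ∈ ℬ, ∀ B ∈ ℬ, A ≠ B → Disjoint A B)
    (cA : 2 * (N * L) ≤ K * 𝒜.card) (cB : 2 * (N * L) ≤ K * ℬ.card) :
    ∃ A ∈ 𝒜, ∃ B ∈ ℬ, ∀ a ∈ A, ∀ b ∈ B, F.Adj (cl a) (cl b) := by
  classical
  have main : ∀ 𝒜 : Finset (Finset V),
      (∀ A ∈ 𝒜, A.Nonempty ∧ A.card ≤ 2 ∧ ∀ a ∈ A, ∀ b ∈ A, ¬ F.Adj (cl a) (cl b)) →
      (∀ A ∈ 𝒜, ∀ B ∈ 𝒜, A ≠ B → Disjoint A B) → 2 * (N * L) ≤ K * 𝒜.card →
      ∃ 𝒜' : Finset (Finset (Fin N)), IsFam F 𝒜' ∧ N ≤ K * 𝒜'.card ∧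
        ∀ S ∈ 𝒜', ∃ A ∈ 𝒜, A.image cl = S := by
    intro 𝒜 hA hAd cA
    obtain ⟨ℱ, hsub, hdis, hcard⟩ := supports cl L hL 𝒜 (fun A h => ⟨(hA A h).1, (hA A h).2.1⟩) hAd
    refine ⟨ℱ.image (fun A => A.image cl), ⟨?_, ?_⟩, ?_, ?_⟩
    · intro S hS
      obtain ⟨A, hAF, rfl⟩ := mem_image.1 hS
      obtain ⟨h1, h2, h3⟩ := hA A (hsub hAF)
      refine ⟨h1.image _, card_image_le.trans h2, ?_⟩
      intro a ha b hb
      obtain ⟨x, hx, rfl⟩ := mem_image.1 ha
      obtain ⟨y, hy, rfl⟩ := mem_image.1 hb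
      exact h3 x hx y hy
    · intro S hS T hT hST
      obtain ⟨A, hAF, rfl⟩ := mem_image.1 hS
      obtain ⟨B, hBF, rfl⟩ := mem_image.1 hT
      exact hdis A hAF B hBF (fun h => hST (by rw [h]))
    · have hinj : Set.InjOn (fun A : Finset V => A.image cl) (ℱ : Set (Finset V)) := by
        intro A hAF B hBF hAB
        by_contra hne
        have h := hdis A hAF B hBF hne
        have hAB' : A.image cl = B.image cl := hAB
        rw [hAB', disjoint_self] at h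
        exact ((hA B (hsub hBF)).1.image cl).ne_empty h
      rw [card_image_of_injOn hinj]
      have h4 : 2 * (N * L) ≤ K * (2 * L * ℱ.card) := cA.trans (Nat.mul_le_mul_left _ hcard)
      have h5 : 2 * L * N ≤ 2 * L * (K * ℱ.card) := by
        calc 2 * L * N = 2 * (N * L) := by ring
          _ ≤ K * (2 * L * ℱ.card) := h4
          _ = 2 * L * (K * ℱ.card) := by ring
      exact Nat.le_of_mul_le_mul_left h5 (by omega)
    · intro S hS
      obtain ⟨A, hAF, rfl⟩ := mem_image.1 hS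
      exact ⟨A, hsub hAF, rfl⟩
  obtain ⟨𝒜', fA, nA, sA⟩ := main 𝒜 hA hAd cA
  obtain ⟨ℬ', fB, nB, sB⟩ := main ℬ hB hBd cB
  obtain ⟨S, hS, T, hT, hST⟩ := hJ 𝒜' ℬ' fA fB nA nB
  obtain ⟨A, hAm, rfl⟩ := sA S hS
  obtain ⟨B, hBm, rfl⟩ := sB T hT
  exact ⟨A, hAm, B, hBm, fun a ha b hb =>
    hST _ (mem_image_of_mem _ ha) _ (mem_image_of_mem _ hb)⟩

/-- ITEM FORM. -/
theorem bip_items (F : SimpleGraph (Fin N)) (K : ℕ) (hJ : JB F K) (cl : V → Fin N) (L : ℕ)
    (hL0 : 0 < L) (hL : ∀ i, (univ.filter (fun v => cl v = i)).card ≤ L)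
    {Y : Type*} [DecidableEq Y] (supp : Y → Finset V)
    (hs : ∀ y, (supp y).Nonempty ∧ (supp y).card ≤ 2 ∧
      ∀ a ∈ supp y, ∀ b ∈ supp y, ¬ F.Adj (cl a) (cl b))
    (hd : ∀ y z, y ≠ z → Disjoint (supp y) (supp z)) (P Q : Finset Y)
    (cP : 2 * (N * L) ≤ K * P.card) (cQ : 2 * (N * L) ≤ K * Q.card) :
    ∃ y ∈ P, ∃ z ∈ Q, ∀ a ∈ supp y, ∀ b ∈ supp z, F.Adj (cl a) (cl b) := by
  classical
  have hinj : Function.Injective supp := by
    intro y z h
    by_contra hne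
    have h1 := hd y z hne
    rw [h, disjoint_self] at h1
    exact (hs z).1.ne_empty h1
  have h := bip F K hJ cl L hL0 hL (P.image supp) (Q.image supp)
    (by intro A hA; obtain ⟨y, _, rfl⟩ := mem_image.1 hA; exact hs y)
    (by
      intro A hA B hB hAB
      obtain ⟨y, _, rfl⟩ := mem_image.1 hA
      obtain ⟨z, _, rfl⟩ := mem_image.1 hB
      exact hd y z (fun h => hAB (by rw [h])))
    (by intro A hA; obtain ⟨y, _, rfl⟩ := mem_image.1 hA; exact hs y)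
    (by
      intro A hA B hB hAB
      obtain ⟨y, _, rfl⟩ := mem_image.1 hA
      obtain ⟨z, _, rfl⟩ := mem_image.1 hB
      exact hd y z (fun h => hAB (by rw [h])))
    (by rw [card_image_of_injective _ hinj]; exact cP)
    (by rw [card_image_of_injective _ hinj]; exact cQ)
  obtain ⟨A, hA, B, hB, hAB⟩ := h
  obtain ⟨y, hy, rfl⟩ := mem_image.1 hA
  obtain ⟨z, hz, rfl⟩ := mem_image.1 hB
  exact ⟨y, hy, z, hz, hAB⟩

/-- class support of an item -/
def typ (cl : V → Fin N) {Y : Type*} (supp : Y → Finset V) (y : Y) : Finset (Fin N) :=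
  (supp y).image cl

/-- completely joined types -/
def TAdj (F : SimpleGraph (Fin N)) (t s : Finset (Fin N)) : Prop := ∀ a ∈ t, ∀ b ∈ s, F.Adj a b

theorem TAdj.symm {F : SimpleGraph (Fin N)} {t s : Finset (Fin N)} (h : TAdj F t s) : TAdj F s t :=
  fun a ha b hb => (h b hb a ha).symm

omit [Fintype V] [DecidableEq V] in
theorem tadj_typ (F : SimpleGraph (Fin N)) (cl : V → Fin N) {Y : Type*} (supp : Y → Finset V)
    (y z : Y) : TAdj F (typ cl supp y) (typ cl supp z) ↔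
      ∀ a ∈ supp y, ∀ b ∈ supp z, F.Adj (cl a) (cl b) := by
  unfold TAdj typ
  simp only [mem_image, forall_exists_index, and_imp]
  constructor
  · intro h a ha b hb
    exact h _ a ha rfl _ b hb rfl
  · intro h _ a ha e _ b hb e'
    subst e; subst e'
    exact h a ha b hb

/-- TYPE FORM: two sets of types of total weight `≥ 2NL/K` contain two completely joined types. -/
theorem bip_types (F : SimpleGraph (Fin N)) (K : ℕ) (hJ : JB F K) (cl : V → Fin N) (L : ℕ)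
    (hL0 : 0 < L) (hL : ∀ i, (univ.filter (fun v => cl v = i)).card ≤ L)
    {Y : Type*} [Fintype Y] [DecidableEq Y] (supp : Y → Finset V)
    (hs : ∀ y, (supp y).Nonempty ∧ (supp y).card ≤ 2 ∧
      ∀ a ∈ supp y, ∀ b ∈ supp y, ¬ F.Adj (cl a) (cl b))
    (hd : ∀ y z, y ≠ z → Disjoint (supp y) (supp z)) (R : Finset Y)
    (P Q : Finset (Finset (Fin N)))
    (cP : 2 * (N * L) ≤ K * ∑ t ∈ P, (R.filter (fun y => typ cl supp y = t)).card)
    (cQ : 2 * (N * L) ≤ K * ∑ t ∈ Q, (R.filter (fun y => typ cl supp y = t)).card) :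
    ∃ t ∈ P, ∃ s ∈ Q, TAdj F t s ∧ (∃ y ∈ R, typ cl supp y = t) ∧
      (∃ z ∈ R, typ cl supp z = s) := by
  classical
  have hsum : ∀ P : Finset (Finset (Fin N)),
      ∑ t ∈ P, (R.filter (fun y => typ cl supp y = t)).card =
        (R.filter (fun y => typ cl supp y ∈ P)).card := by
    intro P
    rw [← card_biUnion]
    · congr 1
      ext y
      simp only [mem_biUnion, mem_filter]
      constructor
      · rintro ⟨t, ht, hy, rfl⟩
        exact ⟨hy, ht⟩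
      · rintro ⟨hy, ht⟩
        exact ⟨_, ht, hy, rfl⟩
    · intro t _ s _ hts
      show Disjoint (R.filter (fun y => typ cl supp y = t)) (R.filter (fun y => typ cl supp y = s))
      rw [Finset.disjoint_left]
      intro y hy hy'
      rw [mem_filter] at hy hy'
      exact hts (hy.2.symm.trans hy'.2)
  rw [hsum] at cP cQ
  obtain ⟨y, hy, z, hz, h⟩ := bip_items F K hJ cl L hL0 hL supp hs hd _ _ cP cQ
  rw [mem_filter] at hy hz
  exact ⟨_, hy.2, _, hz.2, (tadj_typ F cl supp y z).2 h, ⟨y, hy.1, rfl⟩, ⟨z, hz.1, rfl⟩⟩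

end Crest.Agent.R042.S60Bip427
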