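import Mathlib
import Crest.Agent.R042.S60Bip_427

/-! Row 42, S0060: blow-up, item form and type form of ONE KIND of the kinds property (HJK of 66). -/

set_option autoImplicit false

namespace Crest.Agent.R042.S60BipK427

open Finset
open Crest.Agent.R042.S60Bip427 (supports typ TAdj tadj_typ)

variable {N : ℕ}

/-- 66's `IsFamK` -/
def IsFamK (F : SimpleGraph (Fin N)) (kd : Fin N → Fin N → Bool) (c : Bool)
    (S : Finset (Finset (Fin N))) : Prop :=
  (∀ A ∈ S, A.Nonempty ∧ A.card ≤ 2 ∧ ∀ a ∈ A, ∀ b ∈ A, ¬ F.Adj a b ∧ (a ≠ b → kd a b = c)) ∧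
    ∀ A ∈ S, ∀ B ∈ S, A ≠ B → Disjoint A B

/-- the two-family property of one graph and one kind -/
def JBK (F : SimpleGraph (Fin N)) (kd : Fin N → Fin N → Bool) (c : Bool) (K : ℕ) : Prop :=
  ∀ 𝒜 ℬ : Finset (Finset (Fin N)), IsFamK F kd c 𝒜 → IsFamK F kd c ℬ → N ≤ K * 𝒜.card →
    N ≤ K * ℬ.card → ∃ A ∈ 𝒜, ∃ B ∈ ℬ, ∀ a ∈ A, ∀ b ∈ B, F.Adj a b

/-- an admissible member of kind `c` in the blow-up: a single vertex, a twin pair, a pair of kind `c` -/
def OkK (F : SimpleGraph (Fin N)) (kd : Fin N → Fin N → Bool) (c : Bool) {V : Type*}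
    (cl : V → Fin N) (A : Finset V) : Prop :=
  A.Nonempty ∧ A.card ≤ 2 ∧ ∀ a ∈ A, ∀ b ∈ A,
    ¬ F.Adj (cl a) (cl b) ∧ (cl a ≠ cl b → kd (cl a) (cl b) = c)

theorem okK_single (F : SimpleGraph (Fin N)) (kd : Fin N → Fin N → Bool) (c : Bool) {V : Type*}
    (cl : V → Fin N) (v : V) : OkK F kd c cl {v} := by
  refine ⟨singleton_nonempty v, by simp, ?_⟩
  intro a ha b hb
  rw [mem_singleton] at ha hb
  subst ha; subst hb
  exact ⟨F.loopless.irrefl _, fun h => absurd rfl h⟩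

theorem okK_pair (F : SimpleGraph (Fin N)) (kd : Fin N → Fin N → Bool)
    (hkd : ∀ a b, kd a b = kd b a) (c : Bool) {V : Type*} [DecidableEq V]
    (cl : V → Fin N) (u v : V) (h : ¬ F.Adj (cl u) (cl v))
    (hc : cl u = cl v ∨ kd (cl u) (cl v) = c) : OkK F kd c cl {u, v} := by
  refine ⟨⟨u, by simp⟩, card_le_two, ?_⟩
  intro a ha b hb
  rw [mem_insert, mem_singleton] at ha hb
  rcases ha with rfl | rfl <;> rcases hb with rfl | rfl
  · exact ⟨F.loopless.irrefl _, fun h => absurd rfl h⟩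
  · exact ⟨h, fun h' => hc.resolve_left h'⟩
  · exact ⟨fun h' => h h'.symm, fun h' => by
      rw [hkd]; exact hc.resolve_left (fun e => h' e.symm)⟩
  · exact ⟨F.loopless.irrefl _, fun h => absurd rfl h⟩

variable {V : Type*} [Fintype V] [DecidableEq V]

/-- BLOW-UP (two families). -/
theorem bip (F : SimpleGraph (Fin N)) (kd : Fin N → Fin N → Bool) (c : Bool)
    (K : ℕ) (hJ : JBK F kd c K) (cl : V → Fin N) (L : ℕ) (hL0 : 0 < L)
    (hL : ∀ i, (univ.filter (fun v => cl v = i)).card ≤ L) (𝒜 ℬ : Finset (Finset V))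
    (hA : ∀ A ∈ 𝒜, OkK F kd c cl A)
    (hAd : ∀ A ∈ 𝒜, ∀ B ∈ 𝒜, A ≠ B → Disjoint A B)
    (hB : ∀ A ∈ ℬ, OkK F kd c cl A)
    (hBd : ∀ A ∈ ℬ, ∀ B ∈ ℬ, A ≠ B → Disjoint A B)
    (cA : 2 * (N * L) ≤ K * 𝒜.card) (cB : 2 * (N * L) ≤ K * ℬ.card) :
    ∃ A ∈ 𝒜, ∃ B ∈ ℬ, ∀ a ∈ A, ∀ b ∈ B, F.Adj (cl a) (cl b) := by
  classical
  have main : ∀ 𝒜 : Finset (Finset V),
      (∀ A ∈ 𝒜, OkK F kd c cl A) →
      (∀ A ∈ 𝒜, ∀ B ∈ 𝒜, A ≠ B → Disjoint A B) → 2 * (N * L) ≤ K * 𝒜.card →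
      ∃ 𝒜' : Finset (Finset (Fin N)), IsFamK F kd c 𝒜' ∧ N ≤ K * 𝒜'.card ∧
        ∀ S ∈ 𝒜', ∃ A ∈ 𝒜, A.image cl = S := by
    intro 𝒜 hA hAd cA
    obtain ⟨ℱ, hsub, hdis, hcard⟩ := supports cl L hL 𝒜 (fun A h => ⟨(hA A h).1, (hA A h).2.1⟩) hAd
    refine ⟨ℱ.image (fun A => A.image cl), ⟨?_, ?_⟩, ?_, ?_⟩
    · intro S hS
      obtain ⟨A, hAF, rfl⟩ := mem_image.1 hS
      obtain ⟨h1, h2, h3⟩ := hA A (hsub hAF)
      refine ⟨h1.image _, card_image_le.trans h2, ?_⟩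
      intro a ha b hb
      obtain ⟨x, hx, rfl⟩ := mem_image.1 ha
      obtain ⟨y, hy, rfl⟩ := mem_image.1 hb
      exact h3 x hx y hy
    · intro S hS T hT hST
      obtain ⟨A, hAF, rfl⟩ := mem_image.1 hS
      obtain ⟨B, hBF, rfl⟩ := mem_image.1 hT
      exact hdis A hAF B hBF (fun h => hST (by rw [h]))
    · have hinj : Set.InjOn (fun A : Finset V => A.image cl) (ℱ : Set (Finset V)) := by
        intro A hAF B hBF hAB
        by_contra hne
        have h := hdis A hAF B hBF hne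
        have hAB' : A.image cl = B.image cl := hAB
        rw [hAB', disjoint_self] at h
        exact ((hA B (hsub hBF)).1.image cl).ne_empty h
      rw [card_image_of_injOn hinj]
      have h4 : 2 * (N * L) ≤ K * (2 * L * ℱ.card) := cA.trans (Nat.mul_le_mul_left _ hcard)
      have h5 : 2 * L * N ≤ 2 * L * (K * ℱ.card) := by
        calc 2 * L * N = 2 * (N * L) := by ring
          _ ≤ K * (2 * L * ℱ.card) := h4
          _ = 2 * L * (K * ℱ.card) := by ring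
      exact Nat.le_of_mul_le_mul_left h5 (by omega)
    · intro S hS
      obtain ⟨A, hAF, rfl⟩ := mem_image.1 hS
      exact ⟨A, hsub hAF, rfl⟩
  obtain ⟨𝒜', fA, nA, sA⟩ := main 𝒜 hA hAd cA
  obtain ⟨ℬ', fB, nB, sB⟩ := main ℬ hB hBd cB
  obtain ⟨S, hS, T, hT, hST⟩ := hJ 𝒜' ℬ' fA fB nA nB
  obtain ⟨A, hAm, rfl⟩ := sA S hS
  obtain ⟨B, hBm, rfl⟩ := sB T hT
  exact ⟨A, hAm, B, hBm, fun a ha b hb =>
    hST _ (mem_image_of_mem _ ha) _ (mem_image_of_mem _ hb)⟩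

/-- ITEM FORM. -/
theorem bip_items (F : SimpleGraph (Fin N)) (kd : Fin N → Fin N → Bool) (c : Bool)
    (K : ℕ) (hJ : JBK F kd c K) (cl : V → Fin N) (L : ℕ)
    (hL0 : 0 < L) (hL : ∀ i, (univ.filter (fun v => cl v = i)).card ≤ L)
    {Y : Type*} [DecidableEq Y] (supp : Y → Finset V)
    (hs : ∀ y, OkK F kd c cl (supp y))
    (hd : ∀ y z, y ≠ z → Disjoint (supp y) (supp z)) (P Q : Finset Y)
    (cP : 2 * (N * L) ≤ K * P.card) (cQ : 2 * (N * L) ≤ K * Q.card) :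
    ∃ y ∈ P, ∃ z ∈ Q, ∀ a ∈ supp y, ∀ b ∈ supp z, F.Adj (cl a) (cl b) := by
  classical
  have hinj : Function.Injective supp := by
    intro y z h
    by_contra hne
    have h1 := hd y z hne
    rw [h, disjoint_self] at h1
    exact (hs z).1.ne_empty h1
  have h := bip F kd c K hJ cl L hL0 hL (P.image supp) (Q.image supp)
    (by intro A hA; obtain ⟨y, _, rfl⟩ := mem_image.1 hA; exact hs y)
    (by
      intro A hA B hB hAB
      obtain ⟨y, _, rfl⟩ := mem_image.1 hA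
      obtain ⟨z, _, rfl⟩ := mem_image.1 hB
      exact hd y z (fun h => hAB (by rw [h])))
    (by intro A hA; obtain ⟨y, _, rfl⟩ := mem_image.1 hA; exact hs y)
    (by
      intro A hA B hB hAB
      obtain ⟨y, _, rfl⟩ := mem_image.1 hA
      obtain ⟨z, _, rfl⟩ := mem_image.1 hB
      exact hd y z (fun h => hAB (by rw [h])))
    (by rw [card_image_of_injective _ hinj]; exact cP)
    (by rw [card_image_of_injective _ hinj]; exact cQ)
  obtain ⟨A, hA, B, hB, hAB⟩ := h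
  obtain ⟨y, hy, rfl⟩ := mem_image.1 hA
  obtain ⟨z, hz, rfl⟩ := mem_image.1 hB
  exact ⟨y, hy, z, hz, hAB⟩

/-- TYPE FORM: two sets of types of total weight `≥ 2NL/K` contain two completely joined types. -/
theorem bip_types (F : SimpleGraph (Fin N)) (kd : Fin N → Fin N → Bool) (c : Bool)
    (K : ℕ) (hJ : JBK F kd c K) (cl : V → Fin N) (L : ℕ)
    (hL0 : 0 < L) (hL : ∀ i, (univ.filter (fun v => cl v = i)).card ≤ L)
    {Y : Type*} [Fintype Y] [DecidableEq Y] (supp : Y → Finset V)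
    (hs : ∀ y, OkK F kd c cl (supp y))
    (hd : ∀ y z, y ≠ z → Disjoint (supp y) (supp z)) (R : Finset Y)
    (P Q : Finset (Finset (Fin N)))
    (cP : 2 * (N * L) ≤ K * ∑ t ∈ P, (R.filter (fun y => typ cl supp y = t)).card)
    (cQ : 2 * (N * L) ≤ K * ∑ t ∈ Q, (R.filter (fun y => typ cl supp y = t)).card) :
    ∃ t ∈ P, ∃ s ∈ Q, TAdj F t s ∧ (∃ y ∈ R, typ cl supp y = t) ∧
      (∃ z ∈ R, typ cl supp z = s) := by
  classical
  have hsum : ∀ P : Finset (Finset (Fin N)),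
      ∑ t ∈ P, (R.filter (fun y => typ cl supp y = t)).card =
        (R.filter (fun y => typ cl supp y ∈ P)).card := by
    intro P
    rw [← card_biUnion]
    · congr 1
      ext y
      simp only [mem_biUnion, mem_filter]
      constructor
      · rintro ⟨t, ht, hy, rfl⟩
        exact ⟨hy, ht⟩
      · rintro ⟨hy, ht⟩
        exact ⟨_, ht, hy, rfl⟩
    · intro t _ s _ hts
      show Disjoint (R.filter (fun y => typ cl supp y = t)) (R.filter (fun y => typ cl supp y = s))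
      rw [Finset.disjoint_left]
      intro y hy hy'
      rw [mem_filter] at hy hy'
      exact hts (hy.2.symm.trans hy'.2)
  rw [hsum] at cP cQ
  obtain ⟨y, hy, z, hz, h⟩ := bip_items F kd c K hJ cl L hL0 hL supp hs hd _ _ cP cQ
  rw [mem_filter] at hy hz
  exact ⟨_, hy.2, _, hz.2, (tadj_typ F cl supp y z).2 h, ⟨y, hy.1, rfl⟩, ⟨z, hz.1, rfl⟩⟩

end Crest.Agent.R042.S60BipK427
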