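import Mathlib
import Crest.Agent.R042.S60Lin_693

/-! Row 42 / S0060: the abstract core (6a)+(6b)+(7) (helper693). -/

set_option autoImplicit false

namespace Crest.Agent.R042.S60Core

open Matrix Finset
open Crest.Agent.R042.S60Lin

section numeric

variable {I : Type*} [Fintype I] [DecidableEq I]

theorem mulVec_single_one (β : Matrix I I ℝ) (hs : ∀ i j, β i j = β j i) (i : I) :
    β *ᵥ (Pi.single i 1) = β i := by
  ext j
  rw [Matrix.mulVec_single_one]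
  exact hs j i

theorem dot_comm' (β : Matrix I I ℝ) (hs : ∀ i j, β i j = β j i) (x y : I → ℝ) :
    x ⬝ᵥ β *ᵥ y = (β *ᵥ x) ⬝ᵥ y := by
  have hM : β.IsSymm := by ext i j; exact hs j i
  rw [bil_comm hM, dotProduct_comm]

theorem dot_nonneg (x y : I → ℝ) (hx : ∀ i, 0 ≤ x i) (hy : ∀ i, 0 ≤ y i) : 0 ≤ x ⬝ᵥ y :=
  Finset.sum_nonneg fun i _ => mul_nonneg (hx i) (hy i)

theorem mulVec_nonneg' (β : Matrix I I ℝ) (h0 : ∀ i j, 0 ≤ β i j) (x : I → ℝ)
    (hx : ∀ i, 0 ≤ x i) (i : I) : 0 ≤ (β *ᵥ x) i :=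
  Finset.sum_nonneg fun j _ => mul_nonneg (h0 i j) (hx j)

/-- (6a), numeric: c = e_i + β e_i -/
theorem num6a (β : Matrix I I ℝ) (hs : ∀ i j, β i j = β j i) (h0 : ∀ i j, 0 ≤ β i j)
    (hd : ∀ i, β i i = 0) (i : I) :
    (Pi.single i 1 + β i) ⬝ᵥ (Pi.single i 1 + β i)
      - (Pi.single i 1 + β i) ⬝ᵥ β *ᵥ (Pi.single i 1 + β i) ≤ 1 - β i ⬝ᵥ β i := by
  set e : I → ℝ := Pi.single i 1 with he
  set a : I → ℝ := β i with ha
  have h1 : β *ᵥ e = a := mulVec_single_one β hs i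
  have hea : e ⬝ᵥ a = 0 := by rw [he, single_one_dotProduct]; exact hd i
  have hae : a ⬝ᵥ e = 0 := by rw [dotProduct_comm, hea]
  have hee : e ⬝ᵥ e = 1 := by rw [he, single_one_dotProduct, Pi.single_eq_same]
  have h2 : e ⬝ᵥ β *ᵥ a = a ⬝ᵥ a := by rw [dot_comm' β hs, h1]
  have h3 : 0 ≤ a ⬝ᵥ β *ᵥ a :=
    dot_nonneg _ _ (fun j => h0 i j) (mulVec_nonneg' β h0 a (fun j => h0 i j))
  rw [Matrix.mulVec_add, h1]
  simp only [add_dotProduct, dotProduct_add, hea, hae, hee, h2]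
  linarith

/-- (6b), numeric: c = e_i + β e_i + (β² e_i - t e_i) -/
theorem num6b (β : Matrix I I ℝ) (hs : ∀ i j, β i j = β j i) (h0 : ∀ i j, 0 ≤ β i j)
    (hd : ∀ i, β i i = 0) (i : I) (n : I → ℝ)
    (hn : n = β *ᵥ (β i) - (β i ⬝ᵥ β i) • Pi.single i 1) :
    (∀ j, 0 ≤ n j) ∧ (Pi.single i 1 + β i + n) ⬝ᵥ (Pi.single i 1 + β i + n)
      - (Pi.single i 1 + β i + n) ⬝ᵥ β *ᵥ (Pi.single i 1 + β i + n)
        ≤ 1 - β i ⬝ᵥ β i - n ⬝ᵥ n := by
  set e : I → ℝ := Pi.single i 1 with he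
  set a : I → ℝ := β i with ha
  set t : ℝ := a ⬝ᵥ a with ht
  have h1 : β *ᵥ e = a := mulVec_single_one β hs i
  have hea : e ⬝ᵥ a = 0 := by rw [he, single_one_dotProduct]; exact hd i
  have hae : a ⬝ᵥ e = 0 := by rw [dotProduct_comm, hea]
  have hee : e ⬝ᵥ e = 1 := by rw [he, single_one_dotProduct, Pi.single_eq_same]
  have ha0 : ∀ j, 0 ≤ a j := fun j => h0 i j
  have hβa : (β *ᵥ a) i = t := by
    rw [ht]; rfl
  have hn0 : ∀ j, 0 ≤ n j := by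
    intro j
    rw [hn]
    by_cases hj : j = i
    · subst hj
      simp only [Pi.sub_apply, Pi.smul_apply, he, Pi.single_eq_same, smul_eq_mul, mul_one, hβa]
      linarith
    · simp only [Pi.sub_apply, Pi.smul_apply, he, Pi.single_eq_of_ne hj, smul_eq_mul, mul_zero,
        sub_zero]
      exact mulVec_nonneg' β h0 a ha0 j
  have hne : n i = 0 := by
    rw [hn]
    simp only [Pi.sub_apply, Pi.smul_apply, he, Pi.single_eq_same, smul_eq_mul, mul_one, hβa]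
    linarith
  have hen : e ⬝ᵥ n = 0 := by rw [he, single_one_dotProduct]; exact hne
  have hne' : n ⬝ᵥ e = 0 := by rw [dotProduct_comm, hen]
  have hba : β *ᵥ a = n + t • e := by rw [hn]; simp
  refine ⟨hn0, ?_⟩
  have h2 : β *ᵥ (e + a + n) = a + (n + t • e) + β *ᵥ n := by
    rw [Matrix.mulVec_add, Matrix.mulVec_add, h1, hba]
  have h3 : e ⬝ᵥ β *ᵥ n = a ⬝ᵥ n := by rw [dot_comm' β hs, h1]
  have h4 : a ⬝ᵥ β *ᵥ n = n ⬝ᵥ n := by
    rw [dot_comm' β hs, hba, add_dotProduct, smul_dotProduct, hen, smul_zero, add_zero]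
  have h5 : 0 ≤ n ⬝ᵥ β *ᵥ n := dot_nonneg _ _ hn0 (mulVec_nonneg' β h0 n hn0)
  have h6 : 0 ≤ a ⬝ᵥ n := dot_nonneg _ _ ha0 hn0
  have h7 : n ⬝ᵥ a = a ⬝ᵥ n := dotProduct_comm _ _
  rw [h2]
  simp only [add_dotProduct, dotProduct_add, dotProduct_smul, smul_eq_mul, hea, hae, hee, hen,
    hne', h3, h4, h7]
  rw [← ht]
  nlinarith

/-- Σ N ≥ Σ t² - (1/4) Σ t. -/
theorem sumN (β : I → I → ℝ) (hs : ∀ i j, β i j = β j i) (h0 : ∀ i j, 0 ≤ β i j)
    (hle : ∀ i j, β i j ≤ 1 / 2) :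
    ∑ u, (∑ v, β u v ^ 2) ^ 2 - (1 / 4) * ∑ u, ∑ v, β u v ^ 2 ≤
      ∑ v, ∑ w ∈ univ.erase v, (∑ u, β v u * β u w) ^ 2 := by
  have h1 : ∀ v w, ∑ u, (β v u * β u w) ^ 2 ≤ (∑ u, β v u * β u w) ^ 2 := fun v w =>
    Finset.sum_sq_le_sq_sum_of_nonneg fun u _ => mul_nonneg (h0 v u) (h0 u w)
  have h2 : ∑ v, ∑ w ∈ univ.erase v, ∑ u, (β v u * β u w) ^ 2 ≤
      ∑ v, ∑ w ∈ univ.erase v, (∑ u, β v u * β u w) ^ 2 :=
    Finset.sum_le_sum fun v _ => Finset.sum_le_sum fun w _ => h1 v w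
  refine le_trans ?_ h2
  have h3 : ∀ v, ∑ w ∈ univ.erase v, ∑ u, (β v u * β u w) ^ 2
      = ∑ w, ∑ u, (β v u * β u w) ^ 2 - ∑ u, (β v u * β u v) ^ 2 := by
    intro v
    rw [← Finset.add_sum_erase univ _ (Finset.mem_univ v)]
    ring
  simp only [h3]
  rw [Finset.sum_sub_distrib]
  have h4 : ∑ v, ∑ w, ∑ u, (β v u * β u w) ^ 2 = ∑ u, (∑ v, β u v ^ 2) ^ 2 := by
    have e1 : ∀ v : I, ∑ w, ∑ u, (β v u * β u w) ^ 2 = ∑ u, ∑ w, (β v u * β u w) ^ 2 :=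
      fun v => Finset.sum_comm
    simp only [e1]
    rw [Finset.sum_comm]
    refine Finset.sum_congr rfl fun u _ => ?_
    rw [pow_two (∑ v, β u v ^ 2), Finset.sum_mul_sum]
    refine Finset.sum_congr rfl fun v _ => Finset.sum_congr rfl fun w _ => ?_
    rw [hs v u]; ring
  have h5 : ∑ v, ∑ u, (β v u * β u v) ^ 2 ≤ (1 / 4) * ∑ u, ∑ v, β u v ^ 2 := by
    rw [Finset.mul_sum]
    refine Finset.sum_le_sum fun v _ => ?_
    rw [Finset.mul_sum]
    refine Finset.sum_le_sum fun u _ => ?_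
    rw [hs u v]
    have a1 := h0 v u
    have a2 := hle v u
    have : β v u ^ 2 ≤ 1 / 4 := by nlinarith
    nlinarith [sq_nonneg (β v u)]
  rw [h4]
  linarith

/-- tangent line: Σ t ≤ (1.5/2.15) |R| -/
theorem sum_t (β : I → I → ℝ) (hs : ∀ i j, β i j = β j i) (h0 : ∀ i j, 0 ≤ β i j)
    (hle : ∀ i j, β i j ≤ 1 / 2) (S : Finset I) (hS : ∀ i, i ∉ S → ∀ j, β i j = 0)
    (ht : ∀ v ∈ S, ∑ w, β v w ^ 2 + ∑ w ∈ univ.erase v, (∑ u, β v u * β u w) ^ 2 ≤ 101 / 100) :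
    ∑ v, ∑ w, β v w ^ 2 ≤ (150 / 215) * (S.card : ℝ) := by
  have h1 := sumN β hs h0 hle
  have hz : ∀ v, v ∉ S → ∑ w, β v w ^ 2 = 0 := fun v hv =>
    Finset.sum_eq_zero fun w _ => by rw [hS v hv]; ring
  have hz2 : ∀ v, v ∉ S → ∑ w ∈ univ.erase v, (∑ u, β v u * β u w) ^ 2 = 0 := fun v hv =>
    Finset.sum_eq_zero fun w _ => by
      rw [Finset.sum_eq_zero (fun u _ => by rw [hS v hv]; ring)]; ring
  have e1 : ∑ v, ∑ w, β v w ^ 2 = ∑ v ∈ S, ∑ w, β v w ^ 2 :=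
    (Finset.sum_subset (Finset.subset_univ S) fun v _ hv => hz v hv).symm
  have e2 : ∑ v, ∑ w ∈ univ.erase v, (∑ u, β v u * β u w) ^ 2
      = ∑ v ∈ S, ∑ w ∈ univ.erase v, (∑ u, β v u * β u w) ^ 2 :=
    (Finset.sum_subset (Finset.subset_univ S) fun v _ hv => hz2 v hv).symm
  have e3 : ∑ v, (∑ w, β v w ^ 2) ^ 2 = ∑ v ∈ S, (∑ w, β v w ^ 2) ^ 2 :=
    (Finset.sum_subset (Finset.subset_univ S) fun v _ hv => by rw [hz v hv]; ring).symm
  have h2 : ∑ v ∈ S, ∑ w, β v w ^ 2 + ∑ v ∈ S, ∑ w ∈ univ.erase v, (∑ u, β v u * β u w) ^ 2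
      ≤ 101 / 100 * (S.card : ℝ) := by
    rw [← Finset.sum_add_distrib]
    refine (Finset.sum_le_sum ht).trans ?_
    rw [Finset.sum_const, nsmul_eq_mul]
    exact le_of_eq (by ring)
  have h3 : ∑ v ∈ S, (14 / 10 * (∑ w, β v w ^ 2) - 49 / 100) ≤ ∑ v ∈ S, (∑ w, β v w ^ 2) ^ 2 :=
    Finset.sum_le_sum fun v _ => by nlinarith [sq_nonneg ((∑ w, β v w ^ 2) - 7 / 10)]
  rw [Finset.sum_sub_distrib, ← Finset.mul_sum, Finset.sum_const, nsmul_eq_mul] at h3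
  rw [e1, e2, e3] at h1
  rw [e1]
  linarith

end numeric

section geom

variable {V I : Type*} [Fintype V] [DecidableEq V] [Fintype I] [DecidableEq I]

/-- minus the off-diagonal part of the Gram matrix -/
noncomputable def bet (M : Matrix V V ℝ) (Yv : I → V → ℝ) : Matrix I I ℝ :=
  Matrix.of fun i j => if i = j then 0 else -(Yv i ⬝ᵥ M *ᵥ Yv j)

theorem bet_self (M : Matrix V V ℝ) (Yv : I → V → ℝ) (i : I) : bet M Yv i i = 0 := by
  simp [bet]

theorem bet_ne (M : Matrix V V ℝ) (Yv : I → V → ℝ) {i j : I} (h : i ≠ j) :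
    bet M Yv i j = -(Yv i ⬝ᵥ M *ᵥ Yv j) := by
  simp [bet, h]

theorem bet_symm {M : Matrix V V ℝ} (hM : M.IsSymm) (Yv : I → V → ℝ) (i j : I) :
    bet M Yv i j = bet M Yv j i := by
  by_cases h : i = j
  · subst h; rfl
  · rw [bet_ne M Yv h, bet_ne M Yv (Ne.symm h), bil_comm hM]

theorem bet_nonneg {M : Matrix V V ℝ} (Yv : I → V → ℝ)
    (hoff : ∀ i j, i ≠ j → Yv i ⬝ᵥ M *ᵥ Yv j ≤ 0) (i j : I) : 0 ≤ bet M Yv i j := by
  by_cases h : i = j
  · subst h; rw [bet_self]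
  · rw [bet_ne M Yv h]; linarith [hoff i j h]

theorem q_comb {M : Matrix V V ℝ} (Yv : I → V → ℝ)
    (h1 : ∀ i, Yv i ⬝ᵥ M *ᵥ Yv i = 1) (c : I → ℝ) :
    (∑ i, c i • Yv i) ⬝ᵥ M *ᵥ (∑ i, c i • Yv i) = c ⬝ᵥ c - c ⬝ᵥ bet M Yv *ᵥ c := by
  have hB : (∑ i, c i • Yv i) ⬝ᵥ M *ᵥ (∑ i, c i • Yv i)
      = ∑ i, ∑ j, c i * c j * (Yv i ⬝ᵥ M *ᵥ Yv j) := by
    rw [Matrix.mulVec_sum, sum_dotProduct]
    refine Finset.sum_congr rfl fun i _ => ?_
    rw [dotProduct_sum]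
    refine Finset.sum_congr rfl fun j _ => ?_
    rw [Matrix.mulVec_smul, smul_dotProduct, dotProduct_smul, smul_eq_mul, smul_eq_mul]
    ring
  rw [hB]
  simp only [dotProduct, Matrix.mulVec]
  rw [← Finset.sum_sub_distrib]
  refine Finset.sum_congr rfl fun i _ => ?_
  rw [Finset.mul_sum]
  have e1 : ∀ j, c i * c j * (∑ v, Yv i v * ∑ v', M v v' * Yv j v')
      = (if i = j then c i * c j else 0) - c i * (bet M Yv i j * c j) := by
    intro j
    by_cases h : i = j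
    · subst h
      have := h1 i
      simp only [dotProduct, Matrix.mulVec] at this
      rw [this, bet_self, if_pos rfl]; ring
    · rw [bet_ne M Yv h, if_neg h]
      simp only [dotProduct, Matrix.mulVec]; ring
  simp only [e1]
  rw [Finset.sum_sub_distrib, Finset.sum_ite_eq, if_pos (Finset.mem_univ i)]

/-- the rank count (7), no bad items -/
theorem core0 {M : Matrix V V ℝ} (hM : M.IsSymm)
    (Yv fv : I → V → ℝ) (p : I → Prop) [DecidablePred p] (J : Finset I)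
    (h1 : ∀ i, Yv i ⬝ᵥ M *ᵥ Yv i = 1)
    (hoff : ∀ i j, i ≠ j → Yv i ⬝ᵥ M *ᵥ Yv j ≤ 0)
    (hf1 : ∀ i, p i → fv i ⬝ᵥ M *ᵥ fv i = 1)
    (hf0 : ∀ i, p i → fv i ⬝ᵥ M *ᵥ Yv i = 0)
    (hfY : ∀ i j, p i → i ≠ j → 3 * (fv i ⬝ᵥ M *ᵥ Yv j) ^ 2 ≤ (Yv i ⬝ᵥ M *ᵥ Yv j) ^ 2)
    (hff : ∀ i j, p i → p j → i ≠ j →
      9 * (fv i ⬝ᵥ M *ᵥ fv j) ^ 2 ≤ (Yv i ⬝ᵥ M *ᵥ Yv j) ^ 2)
    (ha : ∀ i ∈ J, ∑ j ∈ J, bet M Yv i j ^ 2 ≤ 101 / 100)
    (hC : ∑ i ∈ J.filter (fun i => ¬ p i), ∑ j ∈ J.filter (fun i => ¬ p i), bet M Yv i j ^ 2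
      ≤ (150 / 215) * ((J.filter (fun i => ¬ p i)).card : ℝ)) :
    (J.card : ℝ) + ((J.filter p).card : ℝ) ≤ (247 / 125) * (M.rank : ℝ) := by
  classical
  set β := bet M Yv with hβ
  set Jp := J.filter p with hJp
  set Jr := J.filter (fun i => ¬ p i) with hJr
  have hsymm : ∀ i j, β i j = β j i := bet_symm hM Yv
  -- the four blocks
  have hYY : ∀ i j, (Yv i ⬝ᵥ M *ᵥ Yv j) ^ 2 = (if i = j then 1 else 0) + β i j ^ 2 := by
    intro i j
    by_cases h : i = j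
    · subst h; rw [h1, if_pos rfl, hβ, bet_self]; ring
    · rw [if_neg h, hβ, bet_ne M Yv h]; ring
  have hfY' : ∀ i ∈ Jp, ∀ j, (fv i ⬝ᵥ M *ᵥ Yv j) ^ 2 ≤ β i j ^ 2 / 3 := by
    intro i hi j
    have hpi : p i := (Finset.mem_filter.mp hi).2
    by_cases h : i = j
    · subst h; rw [hf0 i hpi]; nlinarith [sq_nonneg (β i i)]
    · have := hfY i j hpi h
      rw [hβ, bet_ne M Yv h]; nlinarith
  have hff' : ∀ i ∈ Jp, ∀ j ∈ Jp,
      (fv i ⬝ᵥ M *ᵥ fv j) ^ 2 ≤ (if i = j then 1 else 0) + β i j ^ 2 / 9 := by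
    intro i hi j hj
    have hpi : p i := (Finset.mem_filter.mp hi).2
    have hpj : p j := (Finset.mem_filter.mp hj).2
    by_cases h : i = j
    · subst h; rw [hf1 i hpi, if_pos rfl]
      nlinarith [sq_nonneg (β i i)]
    · have := hff i j hpi hpj h
      rw [if_neg h, hβ, bet_ne M Yv h]; nlinarith
  let w : ({i // i ∈ J} ⊕ {i // i ∈ Jp}) → V → ℝ :=
    Sum.elim (fun i => Yv i.1) (fun i => fv i.1)
  have hw1 : ∀ i, w i ⬝ᵥ M *ᵥ w i = 1 := by
    rintro (i | i)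
    · exact h1 i.1
    · exact hf1 i.1 (Finset.mem_filter.mp i.2).2
  have hmain := card_sq_le_rank hM w hw1
  rw [Fintype.card_sum, Fintype.card_coe, Fintype.card_coe] at hmain
  have hsplit : ∑ i, ∑ j, (w i ⬝ᵥ M *ᵥ w j) ^ 2
      = (∑ i ∈ J, ∑ j ∈ J, (Yv i ⬝ᵥ M *ᵥ Yv j) ^ 2 + ∑ i ∈ Jp, ∑ j ∈ J, (fv i ⬝ᵥ M *ᵥ Yv j) ^ 2)
        + (∑ i ∈ J, ∑ j ∈ Jp, (Yv i ⬝ᵥ M *ᵥ fv j) ^ 2
          + ∑ i ∈ Jp, ∑ j ∈ Jp, (fv i ⬝ᵥ M *ᵥ fv j) ^ 2) := by
    simp only [Fintype.sum_sum_type, w, Sum.elim_inl, Sum.elim_inr, Finset.sum_add_distrib]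
    congr 1
    · congr 1
      · rw [← Finset.sum_coe_sort J]
        refine Finset.sum_congr rfl fun i _ => ?_
        rw [← Finset.sum_coe_sort J]
      · rw [← Finset.sum_coe_sort Jp]
        refine Finset.sum_congr rfl fun i _ => ?_
        rw [← Finset.sum_coe_sort J]
    · congr 1
      · rw [← Finset.sum_coe_sort J]
        refine Finset.sum_congr rfl fun i _ => ?_
        rw [← Finset.sum_coe_sort Jp]
      · rw [← Finset.sum_coe_sort Jp]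
        refine Finset.sum_congr rfl fun i _ => ?_
        rw [← Finset.sum_coe_sort Jp]
  have hind : ∀ S : Finset I, ∑ i ∈ S, ∑ j ∈ S, (if i = j then (1:ℝ) else 0) = S.card := by
    intro S
    have : ∀ i ∈ S, ∑ j ∈ S, (if i = j then (1:ℝ) else 0) = 1 := by
      intro i hi
      rw [Finset.sum_ite_eq, if_pos hi]
    rw [Finset.sum_congr rfl this, Finset.sum_const, nsmul_eq_mul, mul_one]
  have hJsplit : ∀ f : I → ℝ, ∑ i ∈ J, f i = ∑ i ∈ Jp, f i + ∑ i ∈ Jr, f i := fun f =>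
    (Finset.sum_filter_add_sum_filter_not J p f).symm
  have hcard : (J.card : ℝ) = (Jp.card : ℝ) + (Jr.card : ℝ) := by
    have := Finset.card_filter_add_card_filter_not (s := J) p
    rw [← this]; push_cast; rfl
  set A := ∑ i ∈ Jp, ∑ j ∈ Jp, β i j ^ 2 with hA
  set Bc := ∑ i ∈ Jp, ∑ j ∈ Jr, β i j ^ 2 with hBc
  set C := ∑ i ∈ Jr, ∑ j ∈ Jr, β i j ^ 2 with hCdef
  have hBc' : ∑ i ∈ Jr, ∑ j ∈ Jp, β i j ^ 2 = Bc := by
    rw [hBc, Finset.sum_comm]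
    refine Finset.sum_congr rfl fun i _ => Finset.sum_congr rfl fun j _ => ?_
    rw [hsymm]
  have hpJ : ∑ i ∈ Jp, ∑ j ∈ J, β i j ^ 2 = A + Bc := by
    have : ∀ i, ∑ j ∈ J, β i j ^ 2 = ∑ j ∈ Jp, β i j ^ 2 + ∑ j ∈ Jr, β i j ^ 2 :=
      fun i => hJsplit _
    simp only [this, Finset.sum_add_distrib]
    rfl
  have hrJ : ∑ i ∈ Jr, ∑ j ∈ J, β i j ^ 2 = Bc + C := by
    have : ∀ i, ∑ j ∈ J, β i j ^ 2 = ∑ j ∈ Jp, β i j ^ 2 + ∑ j ∈ Jr, β i j ^ 2 :=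
      fun i => hJsplit _
    simp only [this, Finset.sum_add_distrib]
    rw [hBc']
  have hJJ : ∑ i ∈ J, ∑ j ∈ J, β i j ^ 2 = A + 2 * Bc + C := by
    rw [hJsplit, hpJ, hrJ]; ring
  have b1 : ∑ i ∈ J, ∑ j ∈ J, (Yv i ⬝ᵥ M *ᵥ Yv j) ^ 2 = J.card + (A + 2 * Bc + C) := by
    simp only [hYY, Finset.sum_add_distrib]
    rw [hind, hJJ]
  have b3 : ∑ i ∈ Jp, ∑ j ∈ J, (fv i ⬝ᵥ M *ᵥ Yv j) ^ 2 ≤ (A + Bc) / 3 := by
    rw [← hpJ, Finset.sum_div]
    refine Finset.sum_le_sum fun i hi => ?_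
    rw [Finset.sum_div]
    exact Finset.sum_le_sum fun j _ => hfY' i hi j
  have b2 : ∑ i ∈ J, ∑ j ∈ Jp, (Yv i ⬝ᵥ M *ᵥ fv j) ^ 2 ≤ (A + Bc) / 3 := by
    refine le_trans (le_of_eq ?_) b3
    rw [Finset.sum_comm]
    refine Finset.sum_congr rfl fun i _ => Finset.sum_congr rfl fun j _ => ?_
    rw [bil_comm hM]
  have b4 : ∑ i ∈ Jp, ∑ j ∈ Jp, (fv i ⬝ᵥ M *ᵥ fv j) ^ 2 ≤ Jp.card + A / 9 := by
    have : ∑ i ∈ Jp, ∑ j ∈ Jp, (fv i ⬝ᵥ M *ᵥ fv j) ^ 2
        ≤ ∑ i ∈ Jp, ∑ j ∈ Jp, ((if i = j then (1:ℝ) else 0) + β i j ^ 2 / 9) :=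
      Finset.sum_le_sum fun i hi => Finset.sum_le_sum fun j hj => hff' i hi j hj
    refine this.trans (le_of_eq ?_)
    simp only [Finset.sum_add_distrib]
    rw [hind, hA, Finset.sum_div]
    congr 1
    refine Finset.sum_congr rfl fun i _ => ?_
    rw [Finset.sum_div]
  have c1 : A + Bc ≤ 101 / 100 * (Jp.card : ℝ) := by
    rw [← hpJ]
    refine (Finset.sum_le_sum fun i hi => ha i (Finset.mem_filter.mp hi).1).trans ?_
    rw [Finset.sum_const, nsmul_eq_mul]; exact le_of_eq (by ring)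
  have c2 : Bc + C ≤ 101 / 100 * (Jr.card : ℝ) := by
    rw [← hrJ]
    refine (Finset.sum_le_sum fun i hi => ha i (Finset.mem_filter.mp hi).1).trans ?_
    rw [Finset.sum_const, nsmul_eq_mul]; exact le_of_eq (by ring)
  have hHS : ∑ i, ∑ j, (w i ⬝ᵥ M *ᵥ w j) ^ 2
      ≤ (247 / 125) * ((J.card : ℝ) + (Jp.card : ℝ)) := by
    rw [hsplit, b1]
    have := (Nat.cast_nonneg Jp.card : (0:ℝ) ≤ _)
    have := (Nat.cast_nonneg Jr.card : (0:ℝ) ≤ _)
    rw [hcard]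
    linarith
  have hn : (0:ℝ) ≤ (J.card : ℝ) + (Jp.card : ℝ) := by positivity
  have hr : (0:ℝ) ≤ (M.rank : ℝ) := Nat.cast_nonneg _
  have hfin : ((J.card : ℝ) + (Jp.card : ℝ)) ^ 2
      ≤ (M.rank : ℝ) * ((247 / 125) * ((J.card : ℝ) + (Jp.card : ℝ))) := by
    have e : (((J.card + Jp.card : ℕ) : ℝ)) = (J.card : ℝ) + (Jp.card : ℝ) := by push_cast; rfl
    rw [e] at hmain
    exact hmain.trans (mul_le_mul_of_nonneg_left hHS hr)
  rcases hn.eq_or_lt with h0 | hpos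
  · rw [← h0]; positivity
  · have : ((J.card : ℝ) + (Jp.card : ℝ)) * ((J.card : ℝ) + (Jp.card : ℝ))
        ≤ ((247 / 125) * (M.rank : ℝ)) * ((J.card : ℝ) + (Jp.card : ℝ)) := by nlinarith
    exact le_of_mul_le_mul_right this hpos

/-- THE CORE: (6a)+(6b)+(7). -/
theorem core {M : Matrix V V ℝ} (hM : M.IsSymm) (b : V → ℝ)
    (hb : ∀ z : V → ℝ, 0 ≤ z ⬝ᵥ M *ᵥ z + (b ⬝ᵥ z) ^ 2)
    (Yv fv : I → V → ℝ) (p : I → Prop) [DecidablePred p]
    (h1 : ∀ i, Yv i ⬝ᵥ M *ᵥ Yv i = 1)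
    (hoff : ∀ i j, i ≠ j → Yv i ⬝ᵥ M *ᵥ Yv j ≤ 0)
    (hhalf : ∀ i j, i ≠ j → ¬ p i → ¬ p j → -(1 / 2) ≤ Yv i ⬝ᵥ M *ᵥ Yv j)
    (hf1 : ∀ i, p i → fv i ⬝ᵥ M *ᵥ fv i = 1)
    (hf0 : ∀ i, p i → fv i ⬝ᵥ M *ᵥ Yv i = 0)
    (hfY : ∀ i j, p i → i ≠ j → 3 * (fv i ⬝ᵥ M *ᵥ Yv j) ^ 2 ≤ (Yv i ⬝ᵥ M *ᵥ Yv j) ^ 2)
    (hff : ∀ i j, p i → p j → i ≠ j →
      9 * (fv i ⬝ᵥ M *ᵥ fv j) ^ 2 ≤ (Yv i ⬝ᵥ M *ᵥ Yv j) ^ 2)
    (R : ℝ) (hR : 0 ≤ R)
    (hrow : ∀ i, ∑ j ∈ univ.erase i, -(Yv i ⬝ᵥ M *ᵥ Yv j) ≤ R) :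
    (Fintype.card I : ℝ) + ((univ.filter p).card : ℝ) ≤ (247 / 125) * (M.rank : ℝ)
      + 40 * (1 + R + R ^ 2) * √(1 + R) * √(Fintype.card I : ℝ) := by
  classical
  set β := bet M Yv with hβ
  have hs : ∀ i j, β i j = β j i := bet_symm hM Yv
  have h0 : ∀ i j, 0 ≤ β i j := bet_nonneg Yv hoff
  have hd : ∀ i, β i i = 0 := bet_self M Yv
  have hrow' : ∀ i, ∑ j, β i j ≤ R := by
    intro i
    rw [← Finset.add_sum_erase _ _ (Finset.mem_univ i), hd, zero_add]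
    refine le_trans (le_of_eq ?_) (hrow i)
    exact Finset.sum_congr rfl fun j hj => bet_ne M Yv (Finset.ne_of_mem_erase hj).symm
  set β' : Matrix I I ℝ := Matrix.of fun i j => if ¬ p i ∧ ¬ p j then β i j else 0 with hβ'
  have e' : ∀ i j, β' i j = if ¬ p i ∧ ¬ p j then β i j else 0 := fun i j => rfl
  have hs' : ∀ i j, β' i j = β' j i := by
    intro i j
    rw [e', e']
    by_cases h : ¬ p i ∧ ¬ p j
    · rw [if_pos h, if_pos h.symm, hs]
    · rw [if_neg h, if_neg (fun h' => h h'.symm)]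
  have h0' : ∀ i j, 0 ≤ β' i j := by
    intro i j; rw [e']; split_ifs
    · exact h0 i j
    · exact le_refl _
  have hle' : ∀ i j, β' i j ≤ β i j := by
    intro i j; rw [e']; split_ifs
    · exact le_refl _
    · exact h0 i j
  have hd' : ∀ i, β' i i = 0 := fun i => le_antisymm ((hle' i i).trans (hd i).le) (h0' i i)
  have hhalf' : ∀ i j, ¬ p i → ¬ p j → β i j ≤ 1 / 2 := by
    intro i j hi hj
    by_cases h : i = j
    · subst h; rw [hd]; norm_num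
    · rw [hβ, bet_ne M Yv h]; linarith [hhalf i j h hi hj]
  set P : ℝ := 1 + R + R ^ 2 with hP
  have hP0 : 0 ≤ P := by positivity
  set nn : I → I → ℝ := fun i => β' *ᵥ (β' i) - (β' i ⬝ᵥ β' i) • Pi.single i 1 with hnn
  set Bada : Finset I := univ.filter (fun i => 101 / 100 < β i ⬝ᵥ β i) with hBada
  set Badb : Finset I := univ.filter (fun i => 101 / 100 < β' i ⬝ᵥ β' i + nn i ⬝ᵥ nn i)
    with hBadb
  have hsingle0 : ∀ y i : I, (0:ℝ) ≤ (Pi.single y 1 : I → ℝ) i := by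
    intro y i
    by_cases h : i = y
    · subst h; simp
    · rw [Pi.single_eq_of_ne h]
  have hsumsingle : ∀ i : I, ∑ y : I, (Pi.single y 1 : I → ℝ) i = 1 := by
    intro i
    rw [Finset.sum_eq_single i]
    · simp
    · intro y _ hy; exact Pi.single_eq_of_ne (Ne.symm hy) 1
    · intro h; exact absurd (Finset.mem_univ i) h
  have hrowc : ∀ i, ∑ y, β y i ≤ R := fun i => by
    refine le_trans (le_of_eq ?_) (hrow' i)
    exact Finset.sum_congr rfl fun y _ => hs y i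
  have hrowc' : ∀ i, ∑ y, β' y i ≤ R := fun i =>
    (Finset.sum_le_sum fun y _ => hle' y i).trans (hrowc i)
  have hrow2 : ∀ i, ∑ u, β' i u ≤ R := fun i =>
    (Finset.sum_le_sum fun y _ => hle' i y).trans (hrow' i)
  -- few bad (a)
  have hfa : (1 / 100) * (Bada.card : ℝ) ^ 2 ≤ P ^ 2 * (1 + R) * (Fintype.card I : ℝ) := by
    have := few_bad hM b hb (Y := {i // i ∈ Bada}) Yv R P (1 / 100) h1 hoff hrow
      (fun y => (Pi.single y.1 1 : I → ℝ) + β y.1) (by norm_num)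
      (fun y => by
        rw [q_comb Yv h1]
        have h2 := num6a β hs h0 hd y.1
        have h3 : 101 / 100 < β y.1 ⬝ᵥ β y.1 := (Finset.mem_filter.mp y.2).2
        refine h2.trans ?_
        linarith)
      (fun i => by
        have hnonneg : ∀ y : I, 0 ≤ ((Pi.single y 1 : I → ℝ) + β y) i := fun y =>
          add_nonneg (hsingle0 y i) (h0 y i)
        calc ∑ y : {i // i ∈ Bada}, |((Pi.single y.1 1 : I → ℝ) + β y.1) i|
            = ∑ y : {i // i ∈ Bada}, ((Pi.single y.1 1 : I → ℝ) + β y.1) i :=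
              Finset.sum_congr rfl fun y _ => abs_of_nonneg (hnonneg y.1)
          _ = ∑ y ∈ Bada, ((Pi.single y 1 : I → ℝ) + β y) i :=
              Finset.sum_coe_sort Bada (fun y => ((Pi.single y 1 : I → ℝ) + β y) i)
          _ ≤ ∑ y, ((Pi.single y 1 : I → ℝ) + β y) i :=
              Finset.sum_le_univ_sum_of_nonneg hnonneg
          _ = 1 + ∑ y, β y i := by
              simp only [Pi.add_apply, Finset.sum_add_distrib, hsumsingle]
          _ ≤ P := by have := hrowc i; have := sq_nonneg R; linarith)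
    rw [Fintype.card_coe] at this
    exact this
  -- few bad (b)
  have hnnle : ∀ y i, nn y i ≤ (β' *ᵥ (β' y)) i := by
    intro y i
    have h2 : 0 ≤ β' y ⬝ᵥ β' y := dot_nonneg _ _ (h0' y) (h0' y)
    have h3 := mul_nonneg h2 (hsingle0 y i)
    simp only [hnn, Pi.sub_apply, Pi.smul_apply, smul_eq_mul]
    linarith
  have hfb : (1 / 100) * (Badb.card : ℝ) ^ 2 ≤ P ^ 2 * (1 + R) * (Fintype.card I : ℝ) := by
    have := few_bad hM b hb (Y := {i // i ∈ Badb}) Yv R P (1 / 100) h1 hoff hrow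
      (fun y => (Pi.single y.1 1 : I → ℝ) + β' y.1 + nn y.1) (by norm_num)
      (fun y => by
        rw [q_comb Yv h1]
        obtain ⟨hn0, h2⟩ := num6b β' hs' h0' hd' y.1 (nn y.1) rfl
        have h3 : 101 / 100 < β' y.1 ⬝ᵥ β' y.1 + nn y.1 ⬝ᵥ nn y.1 := (Finset.mem_filter.mp y.2).2
        have hc0 : ∀ i, 0 ≤ ((Pi.single y.1 1 : I → ℝ) + β' y.1 + nn y.1) i := fun i =>
          add_nonneg (add_nonneg (hsingle0 y.1 i) (h0' y.1 i)) (hn0 i)
        have h4 : ((Pi.single y.1 1 : I → ℝ) + β' y.1 + nn y.1) ⬝ᵥ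
            β' *ᵥ ((Pi.single y.1 1 : I → ℝ) + β' y.1 + nn y.1)
            ≤ ((Pi.single y.1 1 : I → ℝ) + β' y.1 + nn y.1) ⬝ᵥ
            β *ᵥ ((Pi.single y.1 1 : I → ℝ) + β' y.1 + nn y.1) := by
          refine Finset.sum_le_sum fun i _ => mul_le_mul_of_nonneg_left ?_ (hc0 i)
          exact Finset.sum_le_sum fun j _ => mul_le_mul_of_nonneg_right (hle' i j) (hc0 j)
        linarith)
      (fun i => by
        have hn0 : ∀ y j, 0 ≤ nn y j := fun y => (num6b β' hs' h0' hd' y (nn y) rfl).1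
        have hnonneg : ∀ y : I, 0 ≤ ((Pi.single y 1 : I → ℝ) + β' y + nn y) i := fun y =>
          add_nonneg (add_nonneg (hsingle0 y i) (h0' y i)) (hn0 y i)
        have h5 : ∑ y, nn y i ≤ R ^ 2 := by
          calc ∑ y, nn y i ≤ ∑ y, (β' *ᵥ (β' y)) i := Finset.sum_le_sum fun y _ => hnnle y i
            _ = ∑ y, ∑ u, β' i u * β' y u := rfl
            _ = ∑ u, β' i u * ∑ y, β' y u := by
                rw [Finset.sum_comm]
                exact Finset.sum_congr rfl fun u _ => by rw [Finset.mul_sum]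
            _ ≤ ∑ u, β' i u * R := Finset.sum_le_sum fun u _ =>
                mul_le_mul_of_nonneg_left (hrowc' u) (h0' i u)
            _ = (∑ u, β' i u) * R := by rw [Finset.sum_mul]
            _ ≤ R * R := mul_le_mul_of_nonneg_right (hrow2 i) hR
            _ = R ^ 2 := by ring
        calc ∑ y : {i // i ∈ Badb}, |((Pi.single y.1 1 : I → ℝ) + β' y.1 + nn y.1) i|
            = ∑ y : {i // i ∈ Badb}, ((Pi.single y.1 1 : I → ℝ) + β' y.1 + nn y.1) i :=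
              Finset.sum_congr rfl fun y _ => abs_of_nonneg (hnonneg y.1)
          _ = ∑ y ∈ Badb, ((Pi.single y 1 : I → ℝ) + β' y + nn y) i :=
              Finset.sum_coe_sort Badb (fun y => ((Pi.single y 1 : I → ℝ) + β' y + nn y) i)
          _ ≤ ∑ y, ((Pi.single y 1 : I → ℝ) + β' y + nn y) i :=
              Finset.sum_le_univ_sum_of_nonneg hnonneg
          _ = 1 + ∑ y, β' y i + ∑ y, nn y i := by
              simp only [Pi.add_apply, Finset.sum_add_distrib, hsumsingle]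
          _ ≤ P := by have := hrowc' i; linarith)
    rw [Fintype.card_coe] at this
    exact this
  set D : ℝ := 10 * P * √(1 + R) * √(Fintype.card I : ℝ) with hD
  have hD0 : 0 ≤ D := by positivity
  have hD2 : D ^ 2 = 100 * (P ^ 2 * (1 + R) * (Fintype.card I : ℝ)) := by
    rw [hD, mul_pow, mul_pow, mul_pow, Real.sq_sqrt (by linarith), Real.sq_sqrt (Nat.cast_nonneg _)]
    ring
  have hA : (Bada.card : ℝ) ≤ D :=
    (sq_le_sq₀ (Nat.cast_nonneg _) hD0).mp (by rw [hD2]; linarith)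
  have hB : (Badb.card : ℝ) ≤ D :=
    (sq_le_sq₀ (Nat.cast_nonneg _) hD0).mp (by rw [hD2]; linarith)
  set J : Finset I := univ \ (Bada ∪ Badb) with hJ
  have hmemJ : ∀ i ∈ J, β i ⬝ᵥ β i ≤ 101 / 100 ∧ β' i ⬝ᵥ β' i + nn i ⬝ᵥ nn i ≤ 101 / 100 := by
    intro i hi
    have h2 := (Finset.mem_sdiff.mp hi).2
    rw [Finset.mem_union, not_or] at h2
    constructor
    · by_contra hcon
      push Not at hcon
      exact h2.1 (Finset.mem_filter.mpr ⟨Finset.mem_univ _, hcon⟩)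
    · by_contra hcon
      push Not at hcon
      exact h2.2 (Finset.mem_filter.mpr ⟨Finset.mem_univ _, hcon⟩)
  have hdotsq : ∀ x : I → ℝ, x ⬝ᵥ x = ∑ i, x i ^ 2 := fun x => by
    simp only [dotProduct, pow_two]
  have ha : ∀ i ∈ J, ∑ j ∈ J, β i j ^ 2 ≤ 101 / 100 := by
    intro i hi
    refine le_trans ?_ (hmemJ i hi).1
    rw [hdotsq]
    exact Finset.sum_le_univ_sum_of_nonneg fun j => sq_nonneg _
  set Jr := J.filter (fun i => ¬ p i) with hJr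
  set β2 : I → I → ℝ := fun i j => if i ∈ Jr ∧ j ∈ Jr then β i j else 0 with hβ2
  have h20 : ∀ i j, 0 ≤ β2 i j := by
    intro i j; simp only [hβ2]; split_ifs
    · exact h0 i j
    · exact le_refl _
  have h2le : ∀ i j, β2 i j ≤ β' i j := by
    intro i j; simp only [hβ2]
    by_cases h : i ∈ Jr ∧ j ∈ Jr
    · rw [if_pos h, e', if_pos ⟨(Finset.mem_filter.mp h.1).2, (Finset.mem_filter.mp h.2).2⟩]
    · rw [if_neg h]; exact h0' i j
  have h2s : ∀ i j, β2 i j = β2 j i := by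
    intro i j; simp only [hβ2]
    by_cases h : i ∈ Jr ∧ j ∈ Jr
    · rw [if_pos h, if_pos h.symm, hs]
    · rw [if_neg h, if_neg (fun h' => h h'.symm)]
  have h2half : ∀ i j, β2 i j ≤ 1 / 2 := by
    intro i j; simp only [hβ2]
    by_cases h : i ∈ Jr ∧ j ∈ Jr
    · rw [if_pos h]
      exact hhalf' i j (Finset.mem_filter.mp h.1).2 (Finset.mem_filter.mp h.2).2
    · rw [if_neg h]; norm_num
  have h2S : ∀ i, i ∉ Jr → ∀ j, β2 i j = 0 := by
    intro i hi j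
    simp only [hβ2]
    rw [if_neg (fun h => hi h.1)]
  have hC0 := sum_t β2 h2s h20 h2half Jr h2S (fun v hv => by
    have hvJ : v ∈ J := (Finset.mem_filter.mp hv).1
    refine le_trans ?_ (hmemJ v hvJ).2
    refine add_le_add ?_ ?_
    · rw [hdotsq]
      exact Finset.sum_le_sum fun w _ => pow_le_pow_left₀ (h20 v w) (h2le v w) 2
    · rw [hdotsq, ← Finset.add_sum_erase _ _ (Finset.mem_univ v)]
      refine le_trans ?_ (le_add_of_nonneg_left (sq_nonneg _))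
      refine Finset.sum_le_sum fun w hw => ?_
      have hwv : w ≠ v := Finset.ne_of_mem_erase hw
      refine pow_le_pow_left₀ (Finset.sum_nonneg fun u _ => mul_nonneg (h20 v u) (h20 u w)) ?_ 2
      have : nn v w = ∑ u, β' w u * β' v u := by
        simp only [hnn, Pi.sub_apply, Pi.smul_apply, smul_eq_mul, Pi.single_eq_of_ne hwv,
          mul_zero, sub_zero]
        rfl
      rw [this]
      refine Finset.sum_le_sum fun u _ => ?_
      rw [mul_comm, h2s u w]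
      exact mul_le_mul (h2le w u) (h2le v u) (h20 v u) (h0' w u))
  have hC : ∑ i ∈ Jr, ∑ j ∈ Jr, β i j ^ 2 ≤ (150 / 215) * (Jr.card : ℝ) := by
    refine le_trans (le_of_eq ?_) hC0
    rw [← Finset.sum_subset (Finset.subset_univ Jr)
      (fun v _ hv => Finset.sum_eq_zero fun w _ => by rw [h2S v hv]; ring)]
    refine Finset.sum_congr rfl fun i hi => ?_
    rw [← Finset.sum_subset (Finset.subset_univ Jr)
      (fun w _ hw => by rw [h2s, h2S w hw]; ring)]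
    refine Finset.sum_congr rfl fun j hj => ?_
    simp only [hβ2]
    rw [if_pos ⟨hi, hj⟩]
  have hfin := core0 hM Yv fv p J h1 hoff hf1 hf0 hfY hff ha hC
  have hcI : (Fintype.card I : ℝ) ≤ (J.card : ℝ) + (Bada.card : ℝ) + (Badb.card : ℝ) := by
    have h2 : (univ : Finset I) ⊆ J ∪ (Bada ∪ Badb) := by
      intro i _
      rw [hJ, Finset.sdiff_union_self_eq_union]
      exact Finset.mem_union_left _ (Finset.mem_univ i)
    have h3 := (Finset.card_le_card h2).trans ((Finset.card_union_le _ _).trans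
      (Nat.add_le_add_left (Finset.card_union_le _ _) _))
    rw [Finset.card_univ] at h3
    have : ((Fintype.card I : ℕ) : ℝ) ≤ ((J.card + (Bada.card + Badb.card) : ℕ) : ℝ) := by
      exact_mod_cast h3
    push_cast at this
    linarith
  have hcp : ((univ.filter p).card : ℝ) ≤ ((J.filter p).card : ℝ) + (Bada.card : ℝ)
      + (Badb.card : ℝ) := by
    have h2 : (univ.filter p : Finset I) ⊆ J.filter p ∪ (Bada ∪ Badb) := by
      intro i hi
      by_cases h : i ∈ Bada ∪ Badb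
      · exact Finset.mem_union_right _ h
      · exact Finset.mem_union_left _ (Finset.mem_filter.mpr
          ⟨Finset.mem_sdiff.mpr ⟨Finset.mem_univ _, h⟩, (Finset.mem_filter.mp hi).2⟩)
    have h3 := (Finset.card_le_card h2).trans ((Finset.card_union_le _ _).trans
      (Nat.add_le_add_left (Finset.card_union_le _ _) _))
    have : (((univ.filter p : Finset I).card : ℕ) : ℝ)
        ≤ (((J.filter p).card + (Bada.card + Badb.card) : ℕ) : ℝ) := by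
      exact_mod_cast h3
    push_cast at this
    linarith
  have hDe : 40 * P * √(1 + R) * √(Fintype.card I : ℝ) = 4 * D := by rw [hD]; ring
  rw [hDe]
  linarith

end geom

end Crest.Agent.R042.S60Core
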