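import Mathlib
import Crest.Agent.R042.S60Core_693

/-! Row 42 / S0060 from HJK (two kinds): good set, heavy matching (c), count (e) (helper693). -/

set_option autoImplicit false

namespace Crest.Agent.R042.S60CE

open Matrix Finset
open Crest.Agent.R042.S60Lin Crest.Agent.R042.S60Core

variable {V I : Type*} [Fintype V] [DecidableEq V] [Fintype I] [DecidableEq I]

/-- Σ N ≥ Σ t² - Σ β⁴. -/
theorem sumN4 (β : I → I → ℝ) (hs : ∀ i j, β i j = β j i) (h0 : ∀ i j, 0 ≤ β i j) :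
    ∑ u, (∑ v, β u v ^ 2) ^ 2 - ∑ u, ∑ v, β u v ^ 4 ≤
      ∑ v, ∑ w ∈ univ.erase v, (∑ u, β v u * β u w) ^ 2 := by
  have h1 : ∀ v w, ∑ u, (β v u * β u w) ^ 2 ≤ (∑ u, β v u * β u w) ^ 2 := fun v w =>
    Finset.sum_sq_le_sq_sum_of_nonneg fun u _ => mul_nonneg (h0 v u) (h0 u w)
  have h2 : ∑ v, ∑ w ∈ univ.erase v, ∑ u, (β v u * β u w) ^ 2 ≤
      ∑ v, ∑ w ∈ univ.erase v, (∑ u, β v u * β u w) ^ 2 :=
    Finset.sum_le_sum fun v _ => Finset.sum_le_sum fun w _ => h1 v w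
  refine le_trans ?_ h2
  have h3 : ∀ v, ∑ w ∈ univ.erase v, ∑ u, (β v u * β u w) ^ 2
      = ∑ w, ∑ u, (β v u * β u w) ^ 2 - ∑ u, (β v u * β u v) ^ 2 := by
    intro v
    rw [← Finset.add_sum_erase univ _ (Finset.mem_univ v)]
    ring
  simp only [h3]
  rw [Finset.sum_sub_distrib]
  have h4 : ∑ v, ∑ w, ∑ u, (β v u * β u w) ^ 2 = ∑ u, (∑ v, β u v ^ 2) ^ 2 := by
    have e1 : ∀ v : I, ∑ w, ∑ u, (β v u * β u w) ^ 2 = ∑ u, ∑ w, (β v u * β u w) ^ 2 :=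
      fun v => Finset.sum_comm
    simp only [e1]
    rw [Finset.sum_comm]
    refine Finset.sum_congr rfl fun u _ => ?_
    rw [pow_two (∑ v, β u v ^ 2), Finset.sum_mul_sum]
    refine Finset.sum_congr rfl fun v _ => Finset.sum_congr rfl fun w _ => ?_
    rw [hs v u]; ring
  have h5 : ∑ v, ∑ u, (β v u * β u v) ^ 2 = ∑ u, ∑ v, β u v ^ 4 := by
    refine Finset.sum_congr rfl fun v _ => Finset.sum_congr rfl fun u _ => ?_
    rw [hs u v]; ring
  rw [h4, h5]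

/-- GOOD SET: all but O(√|I|) items have t + N ≤ 1.001. -/
theorem good_set {M : Matrix V V ℝ} (hM : M.IsSymm) (b : V → ℝ)
    (hb : ∀ z : V → ℝ, 0 ≤ z ⬝ᵥ M *ᵥ z + (b ⬝ᵥ z) ^ 2)
    (Yv : I → V → ℝ)
    (h1 : ∀ i, Yv i ⬝ᵥ M *ᵥ Yv i = 1)
    (hoff : ∀ i j, i ≠ j → Yv i ⬝ᵥ M *ᵥ Yv j ≤ 0)
    (R : ℝ) (hR : 0 ≤ R)
    (hrow : ∀ i, ∑ j ∈ univ.erase i, -(Yv i ⬝ᵥ M *ᵥ Yv j) ≤ R) :
    ∃ J : Finset I, ((univ \ J).card : ℝ)
        ≤ 32 * (1 + R + R ^ 2) * √(1 + R) * √(Fintype.card I : ℝ) ∧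
      ∀ i ∈ J, ∑ j, bet M Yv i j ^ 2
        + ∑ w ∈ univ.erase i, (∑ u, bet M Yv i u * bet M Yv u w) ^ 2 ≤ 1001 / 1000 := by
  classical
  set β := bet M Yv with hβ
  have hs : ∀ i j, β i j = β j i := bet_symm hM Yv
  have h0 : ∀ i j, 0 ≤ β i j := bet_nonneg Yv hoff
  have hd : ∀ i, β i i = 0 := bet_self M Yv
  have hrow' : ∀ i, ∑ j, β i j ≤ R := by
    intro i
    rw [← Finset.add_sum_erase _ _ (Finset.mem_univ i), hd, zero_add]
    refine le_trans (le_of_eq ?_) (hrow i)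
    exact Finset.sum_congr rfl fun j hj => bet_ne M Yv (Finset.ne_of_mem_erase hj).symm
  set P : ℝ := 1 + R + R ^ 2 with hP
  have hP0 : 0 ≤ P := by positivity
  set nn : I → I → ℝ := fun i => β *ᵥ (β i) - (β i ⬝ᵥ β i) • Pi.single i 1 with hnn
  set Badb : Finset I := univ.filter (fun i => 1001 / 1000 < β i ⬝ᵥ β i + nn i ⬝ᵥ nn i)
    with hBadb
  have hsingle0 : ∀ y i : I, (0:ℝ) ≤ (Pi.single y 1 : I → ℝ) i := by
    intro y i
    by_cases h : i = y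
    · subst h; simp
    · rw [Pi.single_eq_of_ne h]
  have hsumsingle : ∀ i : I, ∑ y : I, (Pi.single y 1 : I → ℝ) i = 1 := by
    intro i
    rw [Finset.sum_eq_single i]
    · simp
    · intro y _ hy; exact Pi.single_eq_of_ne (Ne.symm hy) 1
    · intro h; exact absurd (Finset.mem_univ i) h
  have hrowc : ∀ i, ∑ y, β y i ≤ R := fun i => by
    refine le_trans (le_of_eq ?_) (hrow' i)
    exact Finset.sum_congr rfl fun y _ => hs y i
  have hnnle : ∀ y i, nn y i ≤ (β *ᵥ (β y)) i := by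
    intro y i
    have h2 : 0 ≤ β y ⬝ᵥ β y := dot_nonneg _ _ (h0 y) (h0 y)
    have h3 := mul_nonneg h2 (hsingle0 y i)
    simp only [hnn, Pi.sub_apply, Pi.smul_apply, smul_eq_mul]
    linarith
  have hfb : (1 / 1000) * (Badb.card : ℝ) ^ 2 ≤ P ^ 2 * (1 + R) * (Fintype.card I : ℝ) := by
    have := few_bad hM b hb (Y := {i // i ∈ Badb}) Yv R P (1 / 1000) h1 hoff hrow
      (fun y => (Pi.single y.1 1 : I → ℝ) + β y.1 + nn y.1) (by norm_num)
      (fun y => by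
        rw [q_comb Yv h1]
        obtain ⟨hn0, h2⟩ := num6b β hs h0 hd y.1 (nn y.1) rfl
        have h3 : 1001 / 1000 < β y.1 ⬝ᵥ β y.1 + nn y.1 ⬝ᵥ nn y.1 := (Finset.mem_filter.mp y.2).2
        refine h2.trans ?_
        linarith)
      (fun i => by
        have hn0 : ∀ y j, 0 ≤ nn y j := fun y => (num6b β hs h0 hd y (nn y) rfl).1
        have hnonneg : ∀ y : I, 0 ≤ ((Pi.single y 1 : I → ℝ) + β y + nn y) i := fun y =>
          add_nonneg (add_nonneg (hsingle0 y i) (h0 y i)) (hn0 y i)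
        have h5 : ∑ y, nn y i ≤ R ^ 2 := by
          calc ∑ y, nn y i ≤ ∑ y, (β *ᵥ (β y)) i := Finset.sum_le_sum fun y _ => hnnle y i
            _ = ∑ y, ∑ u, β i u * β y u := rfl
            _ = ∑ u, β i u * ∑ y, β y u := by
                rw [Finset.sum_comm]
                exact Finset.sum_congr rfl fun u _ => by rw [Finset.mul_sum]
            _ ≤ ∑ u, β i u * R := Finset.sum_le_sum fun u _ =>
                mul_le_mul_of_nonneg_left (hrowc u) (h0 i u)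
            _ = (∑ u, β i u) * R := by rw [Finset.sum_mul]
            _ ≤ R * R := mul_le_mul_of_nonneg_right (hrow' i) hR
            _ = R ^ 2 := by ring
        calc ∑ y : {i // i ∈ Badb}, |((Pi.single y.1 1 : I → ℝ) + β y.1 + nn y.1) i|
            = ∑ y : {i // i ∈ Badb}, ((Pi.single y.1 1 : I → ℝ) + β y.1 + nn y.1) i :=
              Finset.sum_congr rfl fun y _ => abs_of_nonneg (hnonneg y.1)
          _ = ∑ y ∈ Badb, ((Pi.single y 1 : I → ℝ) + β y + nn y) i :=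
              Finset.sum_coe_sort Badb (fun y => ((Pi.single y 1 : I → ℝ) + β y + nn y) i)
          _ ≤ ∑ y, ((Pi.single y 1 : I → ℝ) + β y + nn y) i :=
              Finset.sum_le_univ_sum_of_nonneg hnonneg
          _ = 1 + ∑ y, β y i + ∑ y, nn y i := by
              simp only [Pi.add_apply, Finset.sum_add_distrib, hsumsingle]
          _ ≤ P := by have := hrowc i; linarith)
    rw [Fintype.card_coe] at this
    exact this
  set D : ℝ := 32 * P * √(1 + R) * √(Fintype.card I : ℝ) with hD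
  have hD0 : 0 ≤ D := by positivity
  have hD2 : D ^ 2 = 1024 * (P ^ 2 * (1 + R) * (Fintype.card I : ℝ)) := by
    rw [hD, mul_pow, mul_pow, mul_pow, Real.sq_sqrt (by linarith), Real.sq_sqrt (Nat.cast_nonneg _)]
    ring
  have hB : (Badb.card : ℝ) ≤ D := by
    refine (sq_le_sq₀ (Nat.cast_nonneg _) hD0).mp ?_
    have h6 : 0 ≤ P ^ 2 * (1 + R) * (Fintype.card I : ℝ) := by positivity
    rw [hD2]; linarith
  refine ⟨univ \ Badb, ?_, ?_⟩
  · refine le_trans ?_ hB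
    have hsub : univ \ (univ \ Badb) ⊆ Badb := by
      intro i hi
      by_contra hcon
      exact (Finset.mem_sdiff.mp hi).2 (Finset.mem_sdiff.mpr ⟨Finset.mem_univ i, hcon⟩)
    exact_mod_cast Finset.card_le_card hsub
  · intro i hi
    have h2 : i ∉ Badb := (Finset.mem_sdiff.mp hi).2
    have h3 : β i ⬝ᵥ β i + nn i ⬝ᵥ nn i ≤ 1001 / 1000 := by
      by_contra hcon
      push Not at hcon
      exact h2 (Finset.mem_filter.mpr ⟨Finset.mem_univ _, hcon⟩)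
    have hdotsq : ∀ x : I → ℝ, x ⬝ᵥ x = ∑ i, x i ^ 2 := fun x => by
      simp only [dotProduct, pow_two]
    refine le_trans ?_ h3
    refine add_le_add (le_of_eq (hdotsq _).symm) ?_
    rw [hdotsq, ← Finset.add_sum_erase _ _ (Finset.mem_univ i)]
    refine le_trans ?_ (le_add_of_nonneg_left (sq_nonneg _))
    refine Finset.sum_le_sum fun w hw => ?_
    have hwv : w ≠ i := Finset.ne_of_mem_erase hw
    have : nn i w = ∑ u, β i u * β u w := by
      simp only [hnn, Pi.sub_apply, Pi.smul_apply, smul_eq_mul, Pi.single_eq_of_ne hwv,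
        mul_zero, sub_zero]
      change ∑ u, β w u * β i u = _
      refine Finset.sum_congr rfl fun u _ => ?_
      rw [hs w u]; ring
    rw [this]

/-- (c) HEAVY: if rank ≤ 0.501 |J| then at most 8 percent of J is light. -/
theorem heavy {M : Matrix V V ℝ} (hM : M.IsSymm)
    (Yv : I → V → ℝ)
    (h1 : ∀ i, Yv i ⬝ᵥ M *ᵥ Yv i = 1)
    (hoff : ∀ i j, i ≠ j → Yv i ⬝ᵥ M *ᵥ Yv j ≤ 0) (J : Finset I)
    (hJ : ∀ i ∈ J, ∑ j, bet M Yv i j ^ 2
        + ∑ w ∈ univ.erase i, (∑ u, bet M Yv i u * bet M Yv u w) ^ 2 ≤ 1001 / 1000)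
    (hrk : (M.rank : ℝ) ≤ 501 / 1000 * (J.card : ℝ)) (L : Finset I)
    (hL : ∀ u ∈ L, u ∈ J ∧ ∀ v ∈ J, bet M Yv u v < 9 / 10) :
    (L.card : ℝ) ≤ 8 / 100 * (J.card : ℝ) := by
  classical
  set β := bet M Yv with hβ
  have hs : ∀ i j, β i j = β j i := bet_symm hM Yv
  have h0 : ∀ i j, 0 ≤ β i j := bet_nonneg Yv hoff
  have hd : ∀ i, β i i = 0 := bet_self M Yv
  rcases Nat.eq_zero_or_pos J.card with hJ0 | hJpos
  · have hLe : L = ∅ := by
      rw [Finset.eq_empty_iff_forall_notMem]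
      intro u hu
      have := (hL u hu).1
      rw [Finset.card_eq_zero.mp hJ0] at this
      simp at this
    rw [hLe, hJ0]; simp
  have hJpos' : (0:ℝ) < J.card := by exact_mod_cast hJpos
  set β2 : I → I → ℝ := fun i j => if i ∈ J ∧ j ∈ J then β i j else 0 with hβ2
  have h20 : ∀ i j, 0 ≤ β2 i j := by
    intro i j; simp only [hβ2]; split_ifs
    · exact h0 i j
    · exact le_refl _
  have h2le : ∀ i j, β2 i j ≤ β i j := by
    intro i j; simp only [hβ2]; split_ifs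
    · exact le_refl _
    · exact h0 i j
  have h2s : ∀ i j, β2 i j = β2 j i := by
    intro i j; simp only [hβ2]
    by_cases h : i ∈ J ∧ j ∈ J
    · rw [if_pos h, if_pos h.symm, hs]
    · rw [if_neg h, if_neg (fun h' => h h'.symm)]
  have h2S : ∀ i, i ∉ J → ∀ j, β2 i j = 0 := by
    intro i hi j
    simp only [hβ2]
    rw [if_neg (fun h => hi h.1)]
  -- t, N, s4
  set t : I → ℝ := fun v => ∑ w, β2 v w ^ 2 with ht
  set s4 : I → ℝ := fun v => ∑ w, β2 v w ^ 4 with hs4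
  set NN : I → ℝ := fun v => ∑ w ∈ univ.erase v, (∑ u, β2 v u * β2 u w) ^ 2 with hNN
  have htN : ∀ v ∈ J, t v + NN v ≤ 1001 / 1000 := by
    intro v hv
    refine le_trans (add_le_add ?_ ?_) (hJ v hv)
    · exact Finset.sum_le_sum fun w _ => pow_le_pow_left₀ (h20 v w) (h2le v w) 2
    · refine Finset.sum_le_sum fun w _ => ?_
      refine pow_le_pow_left₀ (Finset.sum_nonneg fun u _ => mul_nonneg (h20 v u) (h20 u w)) ?_ 2
      exact Finset.sum_le_sum fun u _ => mul_le_mul (h2le v u) (h2le u w) (h20 u w) (h0 v u)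
  have ht0 : ∀ v, 0 ≤ t v := fun v => Finset.sum_nonneg fun w _ => sq_nonneg _
  have hNN0 : ∀ v, 0 ≤ NN v := fun v => Finset.sum_nonneg fun w _ => sq_nonneg _
  have htle : ∀ v ∈ J, t v ≤ 1001 / 1000 := fun v hv => by linarith [htN v hv, hNN0 v]
  have hout : ∀ v, v ∉ J → t v = 0 := fun v hv =>
    Finset.sum_eq_zero fun w _ => by rw [h2S v hv]; ring
  have hout4 : ∀ v, v ∉ J → s4 v = 0 := fun v hv =>
    Finset.sum_eq_zero fun w _ => by rw [h2S v hv]; ring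
  have houtN : ∀ v, v ∉ J → NN v = 0 := fun v hv =>
    Finset.sum_eq_zero fun w _ => by
      rw [Finset.sum_eq_zero (fun u _ => by rw [h2S v hv]; ring)]; ring
  have hmain := sumN4 β2 h2s h20
  have e1 : ∑ u, (∑ v, β2 u v ^ 2) ^ 2 = ∑ u ∈ J, t u ^ 2 :=
    (Finset.sum_subset (Finset.subset_univ J) fun v _ hv => by
      have := hout v hv
      simp only [ht] at this
      rw [this]; ring).symm
  have e2 : ∑ u, ∑ v, β2 u v ^ 4 = ∑ u ∈ J, s4 u :=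
    (Finset.sum_subset (Finset.subset_univ J) fun v _ hv => hout4 v hv).symm
  have e3 : ∑ v, ∑ w ∈ univ.erase v, (∑ u, β2 v u * β2 u w) ^ 2 = ∑ v ∈ J, NN v :=
    (Finset.sum_subset (Finset.subset_univ J) fun v _ hv => houtN v hv).symm
  rw [e1, e2, e3] at hmain
  have h3 : ∑ v ∈ J, t v + ∑ v ∈ J, NN v ≤ 1001 / 1000 * (J.card : ℝ) := by
    rw [← Finset.sum_add_distrib]
    refine (Finset.sum_le_sum htN).trans ?_
    rw [Finset.sum_const, nsmul_eq_mul]; exact le_of_eq (by ring)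
  have h4 : 2 * ∑ v ∈ J, t v - (J.card : ℝ) ≤ ∑ v ∈ J, t v ^ 2 := by
    have : ∑ v ∈ J, (2 * t v - 1) ≤ ∑ v ∈ J, t v ^ 2 :=
      Finset.sum_le_sum fun v _ => by nlinarith [sq_nonneg (t v - 1)]
    rw [Finset.sum_sub_distrib, ← Finset.mul_sum, Finset.sum_const, nsmul_eq_mul, mul_one] at this
    exact this
  -- rank lower bound
  have h5 : (499 / 501) * (J.card : ℝ) ≤ ∑ v ∈ J, t v := by
    have hr := card_sq_le_rank hM (T := {i // i ∈ J}) (fun i => Yv i.1) (fun i => h1 i.1)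
    rw [Fintype.card_coe] at hr
    have e4 : ∑ i : {i // i ∈ J}, ∑ j : {i // i ∈ J}, (Yv i.1 ⬝ᵥ M *ᵥ Yv j.1) ^ 2
        = (J.card : ℝ) + ∑ v ∈ J, t v := by
      rw [Finset.sum_coe_sort J (fun i => ∑ j : {i // i ∈ J}, (Yv i ⬝ᵥ M *ᵥ Yv j.1) ^ 2)]
      have e5 : ∀ i ∈ J, ∑ j : {i // i ∈ J}, (Yv i ⬝ᵥ M *ᵥ Yv j.1) ^ 2 = 1 + t i := by
        intro i hi
        rw [Finset.sum_coe_sort J (fun j => (Yv i ⬝ᵥ M *ᵥ Yv j) ^ 2)]
        have e6 : ∀ j ∈ J, (Yv i ⬝ᵥ M *ᵥ Yv j) ^ 2 = (if i = j then 1 else 0) + β2 i j ^ 2 := by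
          intro j hj
          have e7 : β2 i j = β i j := by
            simp only [hβ2]
            exact if_pos ⟨hi, hj⟩
          rw [e7]
          by_cases h : i = j
          · subst h; rw [h1, if_pos rfl, hβ, bet_self]; ring
          · rw [if_neg h, hβ, bet_ne M Yv h]; ring
        rw [Finset.sum_congr rfl e6, Finset.sum_add_distrib, Finset.sum_ite_eq, if_pos hi]
        congr 1
        refine Finset.sum_subset (Finset.subset_univ J) fun j _ hj => ?_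
        rw [h2s, h2S j hj]; ring
      rw [Finset.sum_congr rfl e5, Finset.sum_add_distrib, Finset.sum_const, nsmul_eq_mul, mul_one]
    rw [e4] at hr
    have h6 : 0 ≤ (J.card : ℝ) + ∑ v ∈ J, t v :=
      add_nonneg hJpos'.le (Finset.sum_nonneg fun v _ => ht0 v)
    have h7 : (J.card : ℝ) * (J.card : ℝ)
        ≤ (J.card : ℝ) * (501 / 1000 * ((J.card : ℝ) + ∑ v ∈ J, t v)) := by
      have := mul_le_mul_of_nonneg_right hrk h6
      nlinarith
    have h8 := le_of_mul_le_mul_left h7 hJpos'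
    linarith
  have h4le : ∀ v, s4 v ≤ t v * t v := by
    intro v
    have : s4 v = ∑ w, (β2 v w ^ 2) ^ 2 := Finset.sum_congr rfl fun w _ => by ring
    rw [this, ← pow_two]
    exact Finset.sum_sq_le_sq_sum_of_nonneg fun w _ => sq_nonneg _
  have hs4J : ∀ v ∈ J, s4 v ≤ 1002001 / 1000000 - (if v ∈ L then 191191 / 1000000 else 0) := by
    intro v hv
    by_cases hvL : v ∈ L
    · rw [if_pos hvL]
      have h9 : s4 v ≤ 81 / 100 * t v := by
        simp only [hs4, ht]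
        rw [Finset.mul_sum]
        refine Finset.sum_le_sum fun w _ => ?_
        by_cases hw : w ∈ J
        · have h10 := (hL v hvL).2 w hw
          have h11 : β2 v w < 9 / 10 := lt_of_le_of_lt (h2le v w) h10
          have h12 := h20 v w
          have h13 : β2 v w ^ 2 ≤ 81 / 100 := by nlinarith
          nlinarith [sq_nonneg (β2 v w)]
        · rw [h2s, h2S w hw]; norm_num
      have := htle v hv
      linarith
    · rw [if_neg hvL]
      have h14 := h4le v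
      have h15 := htle v hv
      have h16 := ht0 v
      nlinarith
  have h17 : ∑ v ∈ J, s4 v ≤ 1002001 / 1000000 * (J.card : ℝ) - 191191 / 1000000 * (L.card : ℝ) := by
    refine (Finset.sum_le_sum hs4J).trans (le_of_eq ?_)
    rw [Finset.sum_sub_distrib, Finset.sum_const, nsmul_eq_mul]
    have : ∑ v ∈ J, (if v ∈ L then (191191 / 1000000 : ℝ) else 0)
        = 191191 / 1000000 * (L.card : ℝ) := by
      rw [← Finset.sum_filter, Finset.sum_const, nsmul_eq_mul]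
      have : J.filter (fun v => v ∈ L) = L := by
        ext v
        rw [Finset.mem_filter]
        exact ⟨fun h => h.2, fun h => ⟨(hL v h).1, h⟩⟩
      rw [this]; ring
    rw [this]; ring
  linarith

/-- uniqueness of the heavy partner -/
theorem heavy_unique {M : Matrix V V ℝ}
    (Yv : I → V → ℝ) (u : I)
    (ht : ∑ j, bet M Yv u j ^ 2 ≤ 1001 / 1000) {v w : I}
    (hv : 9 / 10 ≤ bet M Yv u v) (hw : 9 / 10 ≤ bet M Yv u w) : v = w := by
  classical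
  by_contra hne
  have h1 : bet M Yv u v ^ 2 + bet M Yv u w ^ 2 ≤ ∑ j, bet M Yv u j ^ 2 := by
    rw [← Finset.add_sum_erase _ _ (Finset.mem_univ v)]
    have := Finset.single_le_sum (f := fun j => bet M Yv u j ^ 2) (s := Finset.univ.erase v)
      (fun j _ => sq_nonneg _) (Finset.mem_erase.mpr ⟨Ne.symm hne, Finset.mem_univ w⟩)
    linarith
  nlinarith

/-- (e0) the rank count on a set J of items with t ≤ 1.001. -/
theorem count0 {M : Matrix V V ℝ} (hM : M.IsSymm)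
    (Yv fv : I → V → ℝ) (p : I → Prop) [DecidablePred p] (J : Finset I)
    (h1 : ∀ i, Yv i ⬝ᵥ M *ᵥ Yv i = 1)
    (hf1 : ∀ i, p i → fv i ⬝ᵥ M *ᵥ fv i = 1)
    (hf0 : ∀ i, p i → fv i ⬝ᵥ M *ᵥ Yv i = 0)
    (hfY : ∀ i j, p i → i ≠ j → 19 * (fv i ⬝ᵥ M *ᵥ Yv j) ^ 2 ≤ (Yv i ⬝ᵥ M *ᵥ Yv j) ^ 2)
    (hff : ∀ i j, p i → p j → i ≠ j →
      361 * (fv i ⬝ᵥ M *ᵥ fv j) ^ 2 ≤ (Yv i ⬝ᵥ M *ᵥ Yv j) ^ 2)
    (ha : ∀ i ∈ J, ∑ j ∈ J, bet M Yv i j ^ 2 ≤ 1001 / 1000)
    (hbig : 19 / 100 * ((J.card : ℝ) + ((J.filter p).card : ℝ)) ≤ ((J.filter p).card : ℝ)) :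
    (J.card : ℝ) + ((J.filter p).card : ℝ) ≤ (1832 / 1000) * (M.rank : ℝ) := by
  classical
  set β := bet M Yv with hβ
  set Jp := J.filter p with hJp
  set Jr := J.filter (fun i => ¬ p i) with hJr
  have hsymm : ∀ i j, β i j = β j i := bet_symm hM Yv
  have hYY : ∀ i j, (Yv i ⬝ᵥ M *ᵥ Yv j) ^ 2 = (if i = j then 1 else 0) + β i j ^ 2 := by
    intro i j
    by_cases h : i = j
    · subst h; rw [h1, if_pos rfl, hβ, bet_self]; ring
    · rw [if_neg h, hβ, bet_ne M Yv h]; ring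
  have hfY' : ∀ i ∈ Jp, ∀ j, (fv i ⬝ᵥ M *ᵥ Yv j) ^ 2 ≤ β i j ^ 2 / 19 := by
    intro i hi j
    have hpi : p i := (Finset.mem_filter.mp hi).2
    by_cases h : i = j
    · subst h; rw [hf0 i hpi]; nlinarith [sq_nonneg (β i i)]
    · have := hfY i j hpi h
      rw [hβ, bet_ne M Yv h]; nlinarith
  have hff' : ∀ i ∈ Jp, ∀ j ∈ Jp,
      (fv i ⬝ᵥ M *ᵥ fv j) ^ 2 ≤ (if i = j then 1 else 0) + β i j ^ 2 / 361 := by
    intro i hi j hj
    have hpi : p i := (Finset.mem_filter.mp hi).2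
    have hpj : p j := (Finset.mem_filter.mp hj).2
    by_cases h : i = j
    · subst h; rw [hf1 i hpi, if_pos rfl]
      nlinarith [sq_nonneg (β i i)]
    · have := hff i j hpi hpj h
      rw [if_neg h, hβ, bet_ne M Yv h]; nlinarith
  let w : ({i // i ∈ J} ⊕ {i // i ∈ Jp}) → V → ℝ :=
    Sum.elim (fun i => Yv i.1) (fun i => fv i.1)
  have hw1 : ∀ i, w i ⬝ᵥ M *ᵥ w i = 1 := by
    rintro (i | i)
    · exact h1 i.1
    · exact hf1 i.1 (Finset.mem_filter.mp i.2).2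
  have hmain := card_sq_le_rank hM w hw1
  rw [Fintype.card_sum, Fintype.card_coe, Fintype.card_coe] at hmain
  have hsplit : ∑ i, ∑ j, (w i ⬝ᵥ M *ᵥ w j) ^ 2
      = (∑ i ∈ J, ∑ j ∈ J, (Yv i ⬝ᵥ M *ᵥ Yv j) ^ 2 + ∑ i ∈ Jp, ∑ j ∈ J, (fv i ⬝ᵥ M *ᵥ Yv j) ^ 2)
        + (∑ i ∈ J, ∑ j ∈ Jp, (Yv i ⬝ᵥ M *ᵥ fv j) ^ 2
          + ∑ i ∈ Jp, ∑ j ∈ Jp, (fv i ⬝ᵥ M *ᵥ fv j) ^ 2) := by
    simp only [Fintype.sum_sum_type, w, Sum.elim_inl, Sum.elim_inr, Finset.sum_add_distrib]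
    congr 1
    · congr 1
      · rw [← Finset.sum_coe_sort J]
        refine Finset.sum_congr rfl fun i _ => ?_
        rw [← Finset.sum_coe_sort J]
      · rw [← Finset.sum_coe_sort Jp]
        refine Finset.sum_congr rfl fun i _ => ?_
        rw [← Finset.sum_coe_sort J]
    · congr 1
      · rw [← Finset.sum_coe_sort J]
        refine Finset.sum_congr rfl fun i _ => ?_
        rw [← Finset.sum_coe_sort Jp]
      · rw [← Finset.sum_coe_sort Jp]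
        refine Finset.sum_congr rfl fun i _ => ?_
        rw [← Finset.sum_coe_sort Jp]
  have hind : ∀ S : Finset I, ∑ i ∈ S, ∑ j ∈ S, (if i = j then (1:ℝ) else 0) = S.card := by
    intro S
    have : ∀ i ∈ S, ∑ j ∈ S, (if i = j then (1:ℝ) else 0) = 1 := by
      intro i hi
      rw [Finset.sum_ite_eq, if_pos hi]
    rw [Finset.sum_congr rfl this, Finset.sum_const, nsmul_eq_mul, mul_one]
  have hJsplit : ∀ f : I → ℝ, ∑ i ∈ J, f i = ∑ i ∈ Jp, f i + ∑ i ∈ Jr, f i := fun f =>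
    (Finset.sum_filter_add_sum_filter_not J p f).symm
  have hcard : (J.card : ℝ) = (Jp.card : ℝ) + (Jr.card : ℝ) := by
    have := Finset.card_filter_add_card_filter_not (s := J) p
    rw [← this]; push_cast; rfl
  set A := ∑ i ∈ Jp, ∑ j ∈ Jp, β i j ^ 2 with hA
  set Bc := ∑ i ∈ Jp, ∑ j ∈ Jr, β i j ^ 2 with hBc
  set C := ∑ i ∈ Jr, ∑ j ∈ Jr, β i j ^ 2 with hCdef
  have hA0 : 0 ≤ A := Finset.sum_nonneg fun i _ => Finset.sum_nonneg fun j _ => sq_nonneg _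
  have hB0 : 0 ≤ Bc := Finset.sum_nonneg fun i _ => Finset.sum_nonneg fun j _ => sq_nonneg _
  have hC0 : 0 ≤ C := Finset.sum_nonneg fun i _ => Finset.sum_nonneg fun j _ => sq_nonneg _
  have hBc' : ∑ i ∈ Jr, ∑ j ∈ Jp, β i j ^ 2 = Bc := by
    rw [hBc, Finset.sum_comm]
    refine Finset.sum_congr rfl fun i _ => Finset.sum_congr rfl fun j _ => ?_
    rw [hsymm]
  have hpJ : ∑ i ∈ Jp, ∑ j ∈ J, β i j ^ 2 = A + Bc := by
    have : ∀ i, ∑ j ∈ J, β i j ^ 2 = ∑ j ∈ Jp, β i j ^ 2 + ∑ j ∈ Jr, β i j ^ 2 :=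
      fun i => hJsplit _
    simp only [this, Finset.sum_add_distrib]
    rfl
  have hrJ : ∑ i ∈ Jr, ∑ j ∈ J, β i j ^ 2 = Bc + C := by
    have : ∀ i, ∑ j ∈ J, β i j ^ 2 = ∑ j ∈ Jp, β i j ^ 2 + ∑ j ∈ Jr, β i j ^ 2 :=
      fun i => hJsplit _
    simp only [this, Finset.sum_add_distrib]
    rw [hBc']
  have hJJ : ∑ i ∈ J, ∑ j ∈ J, β i j ^ 2 = A + 2 * Bc + C := by
    rw [hJsplit, hpJ, hrJ]; ring
  have b1 : ∑ i ∈ J, ∑ j ∈ J, (Yv i ⬝ᵥ M *ᵥ Yv j) ^ 2 = J.card + (A + 2 * Bc + C) := by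
    simp only [hYY, Finset.sum_add_distrib]
    rw [hind, hJJ]
  have b3 : ∑ i ∈ Jp, ∑ j ∈ J, (fv i ⬝ᵥ M *ᵥ Yv j) ^ 2 ≤ (A + Bc) / 19 := by
    rw [← hpJ, Finset.sum_div]
    refine Finset.sum_le_sum fun i hi => ?_
    rw [Finset.sum_div]
    exact Finset.sum_le_sum fun j _ => hfY' i hi j
  have b2 : ∑ i ∈ J, ∑ j ∈ Jp, (Yv i ⬝ᵥ M *ᵥ fv j) ^ 2 ≤ (A + Bc) / 19 := by
    refine le_trans (le_of_eq ?_) b3
    rw [Finset.sum_comm]
    refine Finset.sum_congr rfl fun i _ => Finset.sum_congr rfl fun j _ => ?_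
    rw [bil_comm hM]
  have b4 : ∑ i ∈ Jp, ∑ j ∈ Jp, (fv i ⬝ᵥ M *ᵥ fv j) ^ 2 ≤ Jp.card + A / 361 := by
    have : ∑ i ∈ Jp, ∑ j ∈ Jp, (fv i ⬝ᵥ M *ᵥ fv j) ^ 2
        ≤ ∑ i ∈ Jp, ∑ j ∈ Jp, ((if i = j then (1:ℝ) else 0) + β i j ^ 2 / 361) :=
      Finset.sum_le_sum fun i hi => Finset.sum_le_sum fun j hj => hff' i hi j hj
    refine this.trans (le_of_eq ?_)
    simp only [Finset.sum_add_distrib]
    rw [hind, hA, Finset.sum_div]
    congr 1
    refine Finset.sum_congr rfl fun i _ => ?_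
    rw [Finset.sum_div]
  have c1 : A + Bc ≤ 1001 / 1000 * (Jp.card : ℝ) := by
    rw [← hpJ]
    refine (Finset.sum_le_sum fun i hi => ha i (Finset.mem_filter.mp hi).1).trans ?_
    rw [Finset.sum_const, nsmul_eq_mul]; exact le_of_eq (by ring)
  have c2 : Bc + C ≤ 1001 / 1000 * (Jr.card : ℝ) := by
    rw [← hrJ]
    refine (Finset.sum_le_sum fun i hi => ha i (Finset.mem_filter.mp hi).1).trans ?_
    rw [Finset.sum_const, nsmul_eq_mul]; exact le_of_eq (by ring)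
  have hHS : ∑ i, ∑ j, (w i ⬝ᵥ M *ᵥ w j) ^ 2
      ≤ (1832 / 1000) * ((J.card : ℝ) + (Jp.card : ℝ)) := by
    rw [hsplit, b1]
    have := (Nat.cast_nonneg Jp.card : (0:ℝ) ≤ _)
    have := (Nat.cast_nonneg Jr.card : (0:ℝ) ≤ _)
    rw [hcard] at hbig ⊢
    linarith
  have hn : (0:ℝ) ≤ (J.card : ℝ) + (Jp.card : ℝ) := by positivity
  have hr : (0:ℝ) ≤ (M.rank : ℝ) := Nat.cast_nonneg _
  have hfin : ((J.card : ℝ) + (Jp.card : ℝ)) ^ 2
      ≤ (M.rank : ℝ) * ((1832 / 1000) * ((J.card : ℝ) + (Jp.card : ℝ))) := by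
    have e : (((J.card + Jp.card : ℕ) : ℝ)) = (J.card : ℝ) + (Jp.card : ℝ) := by push_cast; rfl
    rw [e] at hmain
    exact hmain.trans (mul_le_mul_of_nonneg_left hHS hr)
  rcases hn.eq_or_lt with h0 | hpos
  · rw [← h0]; positivity
  · have : ((J.card : ℝ) + (Jp.card : ℝ)) * ((J.card : ℝ) + (Jp.card : ℝ))
        ≤ ((1832 / 1000) * (M.rank : ℝ)) * ((J.card : ℝ) + (Jp.card : ℝ)) := by nlinarith
    exact le_of_mul_le_mul_right this hpos

/-- (e) THE COUNT for a whole item system. -/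
theorem count {M : Matrix V V ℝ} (hM : M.IsSymm) (b : V → ℝ)
    (hb : ∀ z : V → ℝ, 0 ≤ z ⬝ᵥ M *ᵥ z + (b ⬝ᵥ z) ^ 2)
    (Yv fv : I → V → ℝ) (p : I → Prop) [DecidablePred p]
    (h1 : ∀ i, Yv i ⬝ᵥ M *ᵥ Yv i = 1)
    (hoff : ∀ i j, i ≠ j → Yv i ⬝ᵥ M *ᵥ Yv j ≤ 0)
    (hf1 : ∀ i, p i → fv i ⬝ᵥ M *ᵥ fv i = 1)
    (hf0 : ∀ i, p i → fv i ⬝ᵥ M *ᵥ Yv i = 0)
    (hfY : ∀ i j, p i → i ≠ j → 19 * (fv i ⬝ᵥ M *ᵥ Yv j) ^ 2 ≤ (Yv i ⬝ᵥ M *ᵥ Yv j) ^ 2)
    (hff : ∀ i j, p i → p j → i ≠ j →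
      361 * (fv i ⬝ᵥ M *ᵥ fv j) ^ 2 ≤ (Yv i ⬝ᵥ M *ᵥ Yv j) ^ 2)
    (R : ℝ) (hR : 0 ≤ R)
    (hrow : ∀ i, ∑ j ∈ univ.erase i, -(Yv i ⬝ᵥ M *ᵥ Yv j) ≤ R)
    (D : ℝ) (hD : 32 * (1 + R + R ^ 2) * √(1 + R) * √(Fintype.card I : ℝ) ≤ D)
    (hbig : 19 / 100 * ((Fintype.card I : ℝ) + ((univ.filter p).card : ℝ)) + D
      ≤ ((univ.filter p).card : ℝ)) :
    (Fintype.card I : ℝ) + ((univ.filter p).card : ℝ)
      ≤ (1832 / 1000) * (M.rank : ℝ) + 2 * D := by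
  classical
  obtain ⟨J, hJc, hJ⟩ := good_set hM b hb Yv h1 hoff R hR hrow
  have hJD : ((univ \ J).card : ℝ) ≤ D := hJc.trans hD
  have ha : ∀ i ∈ J, ∑ j ∈ J, bet M Yv i j ^ 2 ≤ 1001 / 1000 := by
    intro i hi
    have h2 := hJ i hi
    have h3 : ∑ j ∈ J, bet M Yv i j ^ 2 ≤ ∑ j, bet M Yv i j ^ 2 :=
      Finset.sum_le_univ_sum_of_nonneg fun j => sq_nonneg _
    have h4 : 0 ≤ ∑ w ∈ univ.erase i, (∑ u, bet M Yv i u * bet M Yv u w) ^ 2 :=
      Finset.sum_nonneg fun w _ => sq_nonneg _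
    linarith
  have hcI : (Fintype.card I : ℝ) = (J.card : ℝ) + ((univ \ J).card : ℝ) := by
    have h3 := Finset.card_sdiff_add_card_eq_card (Finset.subset_univ J)
    rw [Finset.card_univ] at h3
    rw [← h3]; push_cast; ring
  have hcp : ((univ.filter p).card : ℝ) ≤ ((J.filter p).card : ℝ) + ((univ \ J).card : ℝ) := by
    have h2 : (univ.filter p : Finset I) ⊆ J.filter p ∪ (univ \ J) := by
      intro i hi
      by_cases h : i ∈ J
      · exact Finset.mem_union_left _ (Finset.mem_filter.mpr ⟨h, (Finset.mem_filter.mp hi).2⟩)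
      · exact Finset.mem_union_right _ (Finset.mem_sdiff.mpr ⟨Finset.mem_univ _, h⟩)
    have h3 := (Finset.card_le_card h2).trans (Finset.card_union_le _ _)
    exact_mod_cast h3
  have hcp2 : ((J.filter p).card : ℝ) ≤ ((univ.filter p).card : ℝ) := by
    exact_mod_cast Finset.card_le_card (Finset.filter_subset_filter p (Finset.subset_univ J))
  have hu0 : (0:ℝ) ≤ ((univ \ J).card : ℝ) := Nat.cast_nonneg _
  have hfin := count0 hM Yv fv p J h1 hf1 hf0 hfY hff ha (by linarith)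
  linarith

end Crest.Agent.R042.S60CE
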