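import Mathlib
import Crest.Prelude.Def_WellSignedMatrix
import Crest.Agent.R042.S60Lin_693

/-! Row 42, S0060: final transport from the blow-up `Fin N × Fin L` to `Fin m`. -/

set_option autoImplicit false

namespace Crest.Agent.R042.S60End427

open Finset Matrix
open Crest.CombinatoricsR.SpectralGraph

/-- the rank bound on the blow-up -/
def Core (N : ℕ) (F : SimpleGraph (Fin N)) (L : ℕ) : Prop :=
  ∀ M : Matrix (Fin N × Fin L) (Fin N × Fin L) ℝ, M.IsSymm →
    (∀ u v, u ≠ v → M u v ≤ 0) → (∀ u v, u ≠ v → (M u v = 0 ↔ F.Adj u.1 v.1)) →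
    ∀ b : Fin N × Fin L → ℝ, (∀ v, 0 ≤ b v) →
      (∀ z : Fin N × Fin L → ℝ, 0 ≤ z ⬝ᵥ M *ᵥ z + (b ⬝ᵥ z) ^ 2) →
      ((N * L : ℕ) : ℝ) / 2 + 1 < (M.rank : ℝ)

theorem cliqueFree_comap {V W : Type*} (F : SimpleGraph W) (hF : F.CliqueFree 3) (f : V → W) :
    (F.comap f).CliqueFree 3 := by
  classical
  intro s hs
  rw [SimpleGraph.is3Clique_iff] at hs
  obtain ⟨a, b, c, hab, hac, hbc, rfl⟩ := hs
  exact hF {f a, f b, f c} (SimpleGraph.is3Clique_triple_iff.2 ⟨hab, hac, hbc⟩)

theorem card_le_of_colorable {m : ℕ} (G : SimpleGraph (Fin m)) (hG : Gᶜ.CliqueFree 3) (k : ℕ)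
    (h : G.Colorable k) : m ≤ 2 * k := by
  classical
  obtain ⟨C⟩ := h
  have h1 : (univ : Finset (Fin m)).card ≤ 2 * (univ : Finset (Fin k)).card := by
    have h2 := Finset.card_le_mul_card_image_of_maps_to (s := (univ : Finset (Fin m)))
      (t := (univ : Finset (Fin k))) (f := fun v => C v) (fun _ _ => mem_univ _) 2 ?_
    · exact h2
    · intro c _
      by_contra hcon
      push Not at hcon
      rw [Finset.two_lt_card] at hcon
      obtain ⟨x, hx, y, hy, z, hz, hxy, hxz, hyz⟩ := hcon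
      rw [mem_filter] at hx hy hz
      have key : ∀ u v : Fin m, C u = c → C v = c → u ≠ v → Gᶜ.Adj u v := by
        intro u v hu hv huv
        rw [SimpleGraph.compl_adj]
        refine ⟨huv, fun hadj => C.valid hadj (hu.trans hv.symm)⟩
      exact hG {x, y, z} (SimpleGraph.is3Clique_triple_iff.2
        ⟨key x y hx.2 hy.2 hxy, key x z hx.2 hz.2 hxz, key y z hy.2 hz.2 hyz⟩)
  simpa using h1

theorem quad_submatrix {m : ℕ} {W : Type*} [Fintype W] [DecidableEq W]
    (M : Matrix (Fin m) (Fin m) ℝ) (e : W ≃ Fin m) (z : W → ℝ) :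
    z ⬝ᵥ (M.submatrix e e) *ᵥ z = (z ∘ e.symm) ⬝ᵥ M *ᵥ (z ∘ e.symm) := by
  simp only [dotProduct, mulVec, submatrix_apply, Function.comp]
  rw [← Equiv.sum_comp e]
  refine Finset.sum_congr rfl fun i _ => ?_
  rw [← Equiv.sum_comp e]
  simp

/-- FINAL TRANSPORT. -/
theorem s60_of_core {N : ℕ} (hN : 0 < N) (F : SimpleGraph (Fin N)) (hF : F.CliqueFree 3)
    (L0 : ℕ) (hcore : ∀ L, L0 ≤ L → Core N F L) :
    ∀ m₀ : ℕ, ∃ m : ℕ, m₀ ≤ m ∧ ∃ G : SimpleGraph (Fin m),
      Gᶜ.CliqueFree 3 ∧
      (∀ M : Matrix (Fin m) (Fin m) ℝ, IsWellSigned G M → negEigenvalueCount M = 1 →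
        HasStrongArnoldProperty G M → (corank M : ℝ) + 1 < (m : ℝ) / 2) ∧
      (∀ k : ℕ, G.Colorable k → m ≤ 2 * k) := by
  classical
  intro m₀
  set L := max L0 m₀ with hL
  refine ⟨N * L, ?_, ?_⟩
  · calc m₀ ≤ L := le_max_right _ _
      _ = 1 * L := (one_mul _).symm
      _ ≤ N * L := Nat.mul_le_mul_right _ hN
  set e : Fin N × Fin L ≃ Fin (N * L) := finProdFinEquiv with he
  set H : SimpleGraph (Fin (N * L)) := F.comap (fun u => (e.symm u).1) with hH
  have hHf : H.CliqueFree 3 := cliqueFree_comap F hF _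
  refine ⟨Hᶜ, by rw [compl_compl]; exact hHf, ?_, ?_⟩
  · intro M hws hneg _
    obtain ⟨hsym, hnegs, hzeros⟩ := hws
    by_contra hcon
    have hrank := S60Lin.rank_le_of_corank M hcon
    have hoff : ∀ u v, u ≠ v → M u v ≤ 0 := by
      intro u v huv
      by_cases h : (Hᶜ).Adj u v
      · exact (hnegs u v h).le
      · exact (hzeros u v huv h).le
    obtain ⟨b, hb0, hb⟩ := S60Lin.exists_bottom hsym hoff hneg
    have hc := hcore L (le_max_left _ _) (M.submatrix e e) ?_ ?_ ?_ (b ∘ e)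
      (fun v => hb0 _) ?_
    · rw [Matrix.rank_submatrix] at hc
      linarith
    · exact hsym.submatrix e
    · intro u v huv
      exact hoff _ _ (fun h => huv (e.injective h))
    · intro u v huv
      have huv' : e u ≠ e v := fun h => huv (e.injective h)
      rw [submatrix_apply]
      constructor
      · intro h0
        by_contra hna
        have : (Hᶜ).Adj (e u) (e v) := by
          rw [SimpleGraph.compl_adj]
          refine ⟨huv', fun h => hna ?_⟩
          have h' : F.Adj (e.symm (e u)).1 (e.symm (e v)).1 := h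
          simpa using h'
        exact absurd h0 (hnegs _ _ this).ne
      · intro hadj
        refine hzeros _ _ huv' ?_
        rw [SimpleGraph.compl_adj]
        rintro ⟨_, h⟩
        apply h
        show F.Adj (e.symm (e u)).1 (e.symm (e v)).1
        simpa using hadj
    · intro z
      have h := hb (z ∘ e.symm)
      rw [quad_submatrix]
      have h2 : (b ∘ e) ⬝ᵥ z = b ⬝ᵥ (z ∘ e.symm) := by
        simp only [dotProduct, Function.comp]
        rw [← Equiv.sum_comp e]
        simp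
      rw [h2]
      exact h
  · intro k hk
    exact card_le_of_colorable _ (by rw [compl_compl]; exact hHf) k hk

end Crest.Agent.R042.S60End427
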