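import Mathlib
import Crest.Agent.R042.S60A_840

/-! Row 42, S0060, steps (0)-(2) (helper840): existence of the item system. -/

set_option autoImplicit false

namespace Crest.Agent.R042.S60Sys840

open Matrix Finset

/-- vertices of a set of pairs -/
def verts {V : Type*} [DecidableEq V] (P : Finset (V × V)) : Finset V :=
  P.biUnion (fun p => {p.1, p.2})

theorem mem_verts {V : Type*} [DecidableEq V] {P : Finset (V × V)} {v : V} :
    v ∈ verts P ↔ ∃ p ∈ P, v = p.1 ∨ v = p.2 := by
  simp [verts]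

/-- pairwise disjoint pairs of distinct vertices -/
def IsMatch {V : Type*} [DecidableEq V] (P : Finset (V × V)) : Prop :=
  (∀ p ∈ P, p.1 ≠ p.2) ∧
    ∀ p ∈ P, ∀ q ∈ P, p ≠ q → Disjoint ({p.1, p.2} : Finset V) {q.1, q.2}

theorem card_verts_le {V : Type*} [DecidableEq V] (P : Finset (V × V)) :
    (verts P).card ≤ 2 * P.card := by
  unfold verts
  calc (P.biUnion fun p => ({p.1, p.2} : Finset V)).card
      ≤ ∑ p ∈ P, ({p.1, p.2} : Finset V).card := card_biUnion_le
    _ ≤ ∑ _p ∈ P, 2 := sum_le_sum (fun p _ => card_le_two)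
    _ = 2 * P.card := by rw [sum_const, smul_eq_mul, mul_comm]

/-- a maximal matching for a symmetric relation inside `S` -/
theorem exists_maxMatch {V : Type*} [Fintype V] [DecidableEq V] (rel : V → V → Prop)
    (S : Finset V) :
    ∃ P : Finset (V × V), IsMatch P ∧ (∀ p ∈ P, p.1 ∈ S ∧ p.2 ∈ S ∧ rel p.1 p.2) ∧
      ∀ u ∈ S, ∀ v ∈ S, u ∉ verts P → v ∉ verts P → u ≠ v → ¬ rel u v := by
  classical
  let C : Finset (Finset (V × V)) := univ.filter
    (fun P => IsMatch P ∧ ∀ p ∈ P, p.1 ∈ S ∧ p.2 ∈ S ∧ rel p.1 p.2)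
  have hC : C.Nonempty := by
    refine ⟨∅, ?_⟩
    simp [C, IsMatch]
  obtain ⟨P, hP, hmax⟩ := C.exists_max_image (fun P => P.card) hC
  simp only [C, mem_filter, mem_univ, true_and] at hP
  refine ⟨P, hP.1, hP.2, ?_⟩
  intro u hu v hv huP hvP huv hrel
  have hnot : (u, v) ∉ P := fun h => huP (mem_verts.2 ⟨_, h, Or.inl rfl⟩)
  have hmem : insert (u, v) P ∈ C := by
    simp only [C, mem_filter, mem_univ, true_and]
    have hdis : ∀ q ∈ P, Disjoint ({u, v} : Finset V) {q.1, q.2} := by
      intro q hq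
      rw [disjoint_left]
      intro a ha hb
      rw [mem_insert, mem_singleton] at ha hb
      rcases ha with rfl | rfl
      · exact huP (mem_verts.2 ⟨q, hq, hb⟩)
      · exact hvP (mem_verts.2 ⟨q, hq, hb⟩)
    refine ⟨⟨?_, ?_⟩, ?_⟩
    · intro p hp
      rcases mem_insert.1 hp with rfl | hp
      · exact huv
      · exact hP.1.1 p hp
    · intro p hp q hq hpq
      rcases mem_insert.1 hp with rfl | hp'
      · rcases mem_insert.1 hq with rfl | hq'
        · exact absurd rfl hpq
        · exact hdis q hq'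
      · rcases mem_insert.1 hq with rfl | hq'
        · exact (hdis p hp').symm
        · exact hP.1.2 p hp' q hq' hpq
    · intro p hp
      rcases mem_insert.1 hp with rfl | hp
      · exact ⟨hu, hv, hrel⟩
      · exact hP.2 p hp
  have h1 := hmax _ hmem
  rw [card_insert_of_notMem hnot] at h1
  omega

variable {W : Type*} [Fintype W] [DecidableEq W]

/-- the scaled correlation -/
noncomputable def beta {V : Type*} (M : Matrix V V ℝ) (u v : V) : ℝ :=
  -M u v / (Real.sqrt (M u u) * Real.sqrt (M v v))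

theorem quad_pair {V : Type*} [Fintype V] [DecidableEq V] (M : Matrix V V ℝ) (hM : M.IsSymm)
    (u v : V) (huv : u ≠ v) (x y : ℝ) :
    (fun w => if w = u then x else if w = v then y else 0) ⬝ᵥ
      M *ᵥ (fun w => if w = u then x else if w = v then y else 0)
      = x ^ 2 * M u u + 2 * x * y * M u v + y ^ 2 * M v v := by
  have e : (fun w => if w = u then x else if w = v then y else 0)
      = x • (Pi.single u (1 : ℝ)) + y • (Pi.single v (1 : ℝ)) := by
    funext w
    by_cases h1 : w = u
    · subst h1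
      simp [huv]
    · by_cases h2 : w = v
      · subst h2
        simp [h1]
      · simp [h1, h2]
  rw [e, Matrix.mulVec_add, Matrix.mulVec_smul, Matrix.mulVec_smul, dotProduct_add,
    add_dotProduct, add_dotProduct]
  simp only [smul_dotProduct, dotProduct_smul, smul_eq_mul, Matrix.mulVec_single_one,
    single_dotProduct, one_mul, Matrix.col_apply]
  have hs : M v u = M u v := by
    have := congrFun (congrFun hM u) v
    rwa [Matrix.transpose_apply] at this
  rw [hs]
  ring

/-- STEPS (0)-(2): the item system. `w2` bounds every family of disjoint independent `≤ 2`-sets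
without a completely joined pair. -/
theorem exists_system (F : SimpleGraph W) (hF : F.CliqueFree 3) {L : ℕ} (hL : 3 ≤ L)
    {M : Matrix (W × Fin L) (W × Fin L) ℝ} (hM : M.IsSymm)
    (hneg : ∀ u v, u ≠ v → M u v ≤ 0) (hzero : ∀ u v, u ≠ v → (M u v = 0 ↔ F.Adj u.1 v.1))
    (b : W × Fin L → ℝ) (hb0 : ∀ v, 0 ≤ b v)
    (hb : ∀ z : W × Fin L → ℝ, 0 ≤ z ⬝ᵥ M *ᵥ z + (b ⬝ᵥ z) ^ 2)
    (w2 : ℕ)
    (hfam : ∀ 𝒜 : Finset (Finset (W × Fin L)),
      (∀ A ∈ 𝒜, A.Nonempty ∧ A.card ≤ 2 ∧ ∀ a ∈ A, ∀ c ∈ A, ¬ F.Adj a.1 c.1) →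
      (∀ A ∈ 𝒜, ∀ B ∈ 𝒜, A ≠ B → Disjoint A B) →
      (∀ A ∈ 𝒜, ∀ B ∈ 𝒜, A ≠ B → ∃ a ∈ A, ∃ c ∈ B, ¬ F.Adj a.1 c.1) → 𝒜.card ≤ w2) :
    ∃ (P : Finset ((W × Fin L) × (W × Fin L))) (R : Finset (W × Fin L)),
      IsMatch P ∧ (∀ p ∈ P, 0 < M p.1 p.1 ∧ 0 < M p.2 p.2 ∧ ¬ F.Adj p.1.1 p.2.1 ∧
        1 / 2 ≤ beta M p.1 p.2 ∧ beta M p.1 p.2 < 1) ∧
      Disjoint (verts P) R ∧ (∀ u ∈ R, 0 < M u u) ∧
      (∀ u ∈ R, ∀ v ∈ R, u ≠ v → beta M u v < 1 / 2) ∧
      Fintype.card (W × Fin L) ≤ 2 * P.card + R.card + 3 * w2 := by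
  classical
  -- (0) non-positive vertices
  let Z : Finset (W × Fin L) := univ.filter (fun u => M u u ≤ 0)
  let S : Finset (W × Fin L) := univ.filter (fun u => 0 < M u u)
  have hZadj : ∀ u ∈ Z, ∀ v ∈ Z, ¬ F.Adj u.1 v.1 := by
    intro u hu v hv hadj
    simp only [Z, mem_filter, mem_univ, true_and] at hu hv
    have hs : ∀ u : W × Fin L, (Pi.single u (1 : ℝ)) ⬝ᵥ M *ᵥ (Pi.single u (1 : ℝ)) = M u u := by
      intro u
      rw [Matrix.mulVec_single_one, single_dotProduct, one_mul, Matrix.col_apply]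
    refine S60A840.lemmaA_blow F hF hL hM hneg hzero b hb0 hb {u} {v}
      (Pi.single u 1) (Pi.single v 1) ?_ ?_ ?_ ?_ (singleton_nonempty _) (singleton_nonempty _)
      (by simp) (by simp) ?_ (by rw [hs]; exact hu) (by rw [hs]; exact hv)
    · intro w hw; rw [mem_singleton] at hw; subst hw; simp
    · intro w hw; rw [mem_singleton] at hw; simp [hw]
    · intro w hw; rw [mem_singleton] at hw; subst hw; simp
    · intro w hw; rw [mem_singleton] at hw; simp [hw]
    · intro a ha c hc
      rw [mem_singleton] at ha hc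
      subst ha; subst hc; exact hadj
  have hZ : Z.card ≤ w2 := by
    have h := hfam (Z.map ⟨fun u => ({u} : Finset (W × Fin L)), singleton_injective⟩) ?_ ?_ ?_
    · rwa [card_map] at h
    · intro A hA
      rw [mem_map] at hA
      obtain ⟨u, hu, rfl⟩ := hA
      refine ⟨singleton_nonempty _, by simp, ?_⟩
      intro a ha c hc
      simp only [Function.Embedding.coeFn_mk, mem_singleton] at ha hc
      subst ha; subst hc
      exact F.loopless.irrefl _
    · intro A hA B hB hAB
      rw [mem_map] at hA hB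
      obtain ⟨u, hu, rfl⟩ := hA
      obtain ⟨v, hv, rfl⟩ := hB
      simp only [Function.Embedding.coeFn_mk] at hAB ⊢
      rw [disjoint_singleton]
      rintro rfl; exact hAB rfl
    · intro A hA B hB _
      rw [mem_map] at hA hB
      obtain ⟨u, hu, rfl⟩ := hA
      obtain ⟨v, hv, rfl⟩ := hB
      exact ⟨u, by simp, v, by simp, hZadj u hu v hv⟩
  -- non-adjacency from positivity of beta
  have hnadj : ∀ u v, u ≠ v → 0 < beta M u v → ¬ F.Adj u.1 v.1 := by
    intro u v huv hpos hadj
    rw [beta, (hzero u v huv).2 hadj] at hpos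
    simp at hpos
  have hsym : ∀ u v, M u v = M v u := by
    intro u v
    have := congrFun (congrFun hM u) v
    rw [Matrix.transpose_apply] at this
    exact this.symm
  -- (1) pairs with beta ≥ 1
  obtain ⟨P1, hP1m, hP1, hP1max⟩ := exists_maxMatch (fun u v => 1 ≤ beta M u v) S
  have hpair : ∀ p ∈ P1, ∃ y : W × Fin L → ℝ, (∀ v ∈ ({p.1, p.2} : Finset (W × Fin L)), 0 < y v) ∧
      (∀ v, v ∉ ({p.1, p.2} : Finset (W × Fin L)) → y v = 0) ∧ y ⬝ᵥ M *ᵥ y ≤ 0 := by
    intro p hp
    obtain ⟨h1, h2, h3⟩ := hP1 p hp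
    simp only [S, mem_filter, mem_univ, true_and] at h1 h2
    have hne := hP1m.1 p hp
    have hs1 : 0 < Real.sqrt (M p.1 p.1) := Real.sqrt_pos.2 h1
    have hs2 : 0 < Real.sqrt (M p.2 p.2) := Real.sqrt_pos.2 h2
    refine ⟨fun w => if w = p.1 then (Real.sqrt (M p.1 p.1))⁻¹ else
      if w = p.2 then (Real.sqrt (M p.2 p.2))⁻¹ else 0, ?_, ?_, ?_⟩
    · intro v hv
      rw [mem_insert, mem_singleton] at hv
      by_cases h : v = p.1
      · simp only [h, if_true]; positivity
      · have h' : v = p.2 := by tauto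
        simp only [h, if_false, h', if_true]
        rw [if_neg (by rw [← h']; exact h)]
        positivity
    · intro v hv
      rw [mem_insert, mem_singleton, not_or] at hv
      simp [hv.1, hv.2]
    · rw [quad_pair M hM p.1 p.2 hne]
      have e1 : (Real.sqrt (M p.1 p.1))⁻¹ ^ 2 * M p.1 p.1 = 1 := by
        rw [inv_pow, Real.sq_sqrt h1.le]; field_simp
      have e2 : (Real.sqrt (M p.2 p.2))⁻¹ ^ 2 * M p.2 p.2 = 1 := by
        rw [inv_pow, Real.sq_sqrt h2.le]; field_simp
      have e3 : 2 * (Real.sqrt (M p.1 p.1))⁻¹ * (Real.sqrt (M p.2 p.2))⁻¹ * M p.1 p.2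
          = -2 * beta M p.1 p.2 := by
        rw [beta]; field_simp
      rw [e1, e2, e3]
      linarith
  have hP1card : P1.card ≤ w2 := by
    let f : (W × Fin L) × (W × Fin L) → Finset (W × Fin L) := fun p => {p.1, p.2}
    have hinj : Set.InjOn f (P1 : Set _) := by
      intro p hp q hq hpq
      by_contra hne
      have := hP1m.2 p hp q hq hne
      have h2 : f p = f q := hpq
      simp only [f] at h2
      rw [h2, disjoint_self] at this
      exact absurd this (insert_ne_empty _ _)
    have h := hfam (P1.image f) ?_ ?_ ?_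
    · rwa [card_image_of_injOn hinj] at h
    · intro A hA
      rw [mem_image] at hA
      obtain ⟨p, hp, rfl⟩ := hA
      refine ⟨insert_nonempty _ _, card_le_two, ?_⟩
      have h12 : ¬ F.Adj p.1.1 p.2.1 :=
        hnadj _ _ (hP1m.1 p hp) (lt_of_lt_of_le one_pos (hP1 p hp).2.2)
      intro a ha c hc
      simp only [f, mem_insert, mem_singleton] at ha hc
      rcases ha with rfl | rfl <;> rcases hc with rfl | rfl
      · exact F.loopless.irrefl _
      · exact h12
      · exact fun h => h12 h.symm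
      · exact F.loopless.irrefl _
    · intro A hA B hB hAB
      rw [mem_image] at hA hB
      obtain ⟨p, hp, rfl⟩ := hA
      obtain ⟨q, hq, rfl⟩ := hB
      exact hP1m.2 p hp q hq (by rintro rfl; exact hAB rfl)
    · intro A hA B hB hAB
      rw [mem_image] at hA hB
      obtain ⟨p, hp, rfl⟩ := hA
      obtain ⟨q, hq, rfl⟩ := hB
      by_contra hcon
      push Not at hcon
      obtain ⟨y, hy1, hy2, hy3⟩ := hpair p hp
      obtain ⟨z, hz1, hz2, hz3⟩ := hpair q hq
      exact S60A840.lemmaA_blow F hF hL hM hneg hzero b hb0 hb (f p) (f q) y z hy1 hy2 hz1 hz2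
        (insert_nonempty _ _) (insert_nonempty _ _) card_le_two card_le_two hcon hy3 hz3
  -- (2) pairs with beta ≥ 1/2
  obtain ⟨P2, hP2m, hP2, hP2max⟩ := exists_maxMatch (fun u v => 1 / 2 ≤ beta M u v) (S \ verts P1)
  refine ⟨P2, (S \ verts P1) \ verts P2, hP2m, ?_, ?_, ?_, ?_, ?_⟩
  · intro p hp
    obtain ⟨h1, h2, h3⟩ := hP2 p hp
    rw [mem_sdiff] at h1 h2
    have hne := hP2m.1 p hp
    have hlt := hP1max _ h1.1 _ h2.1 h1.2 h2.2 hne
    push Not at hlt
    have h1' := h1.1
    have h2' := h2.1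
    simp only [S, mem_filter, mem_univ, true_and] at h1' h2'
    exact ⟨h1', h2', hnadj _ _ hne (by linarith), h3, hlt⟩
  · exact disjoint_sdiff
  · intro u hu
    rw [mem_sdiff, mem_sdiff] at hu
    have := hu.1.1
    simp only [S, mem_filter, mem_univ, true_and] at this
    exact this
  · intro u hu v hv huv
    rw [mem_sdiff] at hu hv
    have := hP2max u hu.1 v hv.1 hu.2 hv.2 huv
    push Not at this
    exact this
  · have hcov : (univ : Finset (W × Fin L)) ⊆
        Z ∪ verts P1 ∪ verts P2 ∪ ((S \ verts P1) \ verts P2) := by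
      intro u _
      simp only [mem_union, mem_sdiff]
      by_cases h1 : M u u ≤ 0
      · left; left; left; simp [Z, h1]
      · by_cases h2 : u ∈ verts P1
        · left; left; right; exact h2
        · by_cases h3 : u ∈ verts P2
          · left; right; exact h3
          · right
            refine ⟨⟨?_, h2⟩, h3⟩
            simp only [S, mem_filter, mem_univ, true_and]
            exact not_le.1 h1
    have h1 := card_le_card hcov
    have h2 : (Z ∪ verts P1 ∪ verts P2 ∪ ((S \ verts P1) \ verts P2)).card ≤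
        Z.card + (verts P1).card + (verts P2).card + ((S \ verts P1) \ verts P2).card := by
      refine (card_union_le _ _).trans ?_
      refine Nat.add_le_add_right ?_ _
      refine (card_union_le _ _).trans ?_
      refine Nat.add_le_add_right ?_ _
      exact card_union_le _ _
    have h3 := card_verts_le P1
    have h4 := card_verts_le P2
    rw [card_univ] at h1
    omega

end Crest.Agent.R042.S60Sys840
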