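import Mathlib
import Crest.Agent.R042.S60Sys_840

/-! Row 42, S0060: pair geometry and the item system `M ∪ R` (helper427). -/

set_option autoImplicit false

namespace Crest.Agent.R042.S60Geom427

open Matrix Finset
open Crest.Agent.R042.S60Sys840 (verts mem_verts IsMatch exists_maxMatch card_verts_le beta)

variable {V : Type*} [Fintype V] [DecidableEq V]

/-- scaled coordinate vector -/
noncomputable def X (M : Matrix V V ℝ) (v : V) : V → ℝ := (1 / √(M v v)) • Pi.single v (1 : ℝ)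

theorem X_X (M : Matrix V V ℝ) (u v : V) :
    X M u ⬝ᵥ M *ᵥ X M v = (1 / √(M u u)) * (1 / √(M v v)) * M u v := by
  unfold X
  rw [Matrix.mulVec_smul, smul_dotProduct, dotProduct_smul, Matrix.mulVec_single_one,
    single_dotProduct, one_mul, Matrix.col_apply]
  simp only [smul_eq_mul]
  ring

theorem X_beta (M : Matrix V V ℝ) (u v : V) : X M u ⬝ᵥ M *ᵥ X M v = - beta M u v := by
  rw [X_X]
  unfold beta
  rw [neg_div, neg_neg, one_div, one_div, div_eq_mul_inv, mul_inv]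
  ring

theorem X_self (M : Matrix V V ℝ) (v : V) (h : 0 < M v v) : X M v ⬝ᵥ M *ᵥ X M v = 1 := by
  rw [X_X, one_div, ← mul_inv, Real.mul_self_sqrt h.le]
  exact inv_mul_cancel₀ h.ne'

theorem X_nonneg (M : Matrix V V ℝ) (v w : V) : 0 ≤ X M v w := by
  unfold X
  rw [Pi.smul_apply, smul_eq_mul]
  apply mul_nonneg (by positivity)
  by_cases h : w = v
  · subst h; simp
  · simp [h]

theorem X_off (M : Matrix V V ℝ) (hoff : ∀ u v, u ≠ v → M u v ≤ 0) (u v : V) (huv : u ≠ v) :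
    X M u ⬝ᵥ M *ᵥ X M v ≤ 0 := by
  rw [X_X]
  exact mul_nonpos_of_nonneg_of_nonpos (by positivity) (hoff u v huv)

theorem X_zero (M : Matrix V V ℝ) (u v : V) (h : M u v = 0) :
    X M u ⬝ᵥ M *ᵥ X M v = 0 := by
  rw [X_X, h, mul_zero]

theorem bil_sum (M : Matrix V V ℝ) (a c : ℝ) (A B : Finset V) :
    (a • ∑ u ∈ A, X M u) ⬝ᵥ M *ᵥ (c • ∑ v ∈ B, X M v) =
      a * c * ∑ u ∈ A, ∑ v ∈ B, X M u ⬝ᵥ M *ᵥ X M v := by
  rw [Matrix.mulVec_smul, smul_dotProduct, dotProduct_smul, sum_dotProduct]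
  simp only [Matrix.mulVec_sum, dotProduct_sum, smul_eq_mul]
  ring

/-- the items: pairs and remaining single vertices -/
abbrev It (J : Finset V) (P : Finset (V × V)) : Type _ :=
  {p : V × V // p ∈ P} ⊕ {v : V // v ∈ J ∧ v ∉ verts P}

/-- support -/
def supp {J : Finset V} {P : Finset (V × V)} : It J P → Finset V
  | Sum.inl p => {p.1.1, p.1.2}
  | Sum.inr v => {v.1}

/-- normalising constant -/
noncomputable def cst (M : Matrix V V ℝ) {J : Finset V} {P : Finset (V × V)} : It J P → ℝ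
  | Sum.inl p => 1 / √(2 - 2 * beta M p.1.1 p.1.2)
  | Sum.inr _ => 1

/-- unit item vectors -/
noncomputable def Yv (M : Matrix V V ℝ) {J : Finset V} {P : Finset (V × V)} (i : It J P) : V → ℝ :=
  cst M i • ∑ v ∈ supp i, X M v

/-- the antisymmetric vectors -/
noncomputable def fv (M : Matrix V V ℝ) {J : Finset V} {P : Finset (V × V)} : It J P → V → ℝ
  | Sum.inl p => (1 / √(2 + 2 * beta M p.1.1 p.1.2)) • (X M p.1.1 - X M p.1.2)
  | Sum.inr _ => 0

/-- the item is a pair -/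
def isP {J : Finset V} {P : Finset (V × V)} (i : It J P) : Prop := i.isLeft = true

instance {J : Finset V} {P : Finset (V × V)} : DecidablePred (isP (J := J) (P := P)) :=
  fun i => inferInstanceAs (Decidable (i.isLeft = true))

theorem cst_nonneg (M : Matrix V V ℝ) {J : Finset V} {P : Finset (V × V)} (i : It J P) :
    0 ≤ cst M i := by
  rcases i with p | v
  · exact div_nonneg zero_le_one (Real.sqrt_nonneg _)
  · exact zero_le_one

theorem supp_nonempty {J : Finset V} {P : Finset (V × V)} (i : It J P) : (supp i).Nonempty := by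
  rcases i with p | v
  · exact ⟨p.1.1, by simp [supp]⟩
  · exact ⟨v.1, by simp [supp]⟩

theorem supp_card {J : Finset V} {P : Finset (V × V)} (i : It J P) : (supp i).card ≤ 2 := by
  rcases i with p | v
  · exact card_le_two
  · simp [supp]

theorem supp_sub {J : Finset V} {P : Finset (V × V)} (hPJ : ∀ p ∈ P, p.1 ∈ J ∧ p.2 ∈ J)
    (i : It J P) : supp i ⊆ J := by
  rcases i with p | v
  · intro a ha
    simp only [supp, mem_insert, mem_singleton] at ha
    rcases ha with rfl | rfl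
    · exact (hPJ _ p.2).1
    · exact (hPJ _ p.2).2
  · intro a ha
    simp only [supp, mem_singleton] at ha
    subst ha
    exact v.2.1

theorem supp_disj {J : Finset V} {P : Finset (V × V)} (hP : IsMatch P) (i j : It J P)
    (hij : i ≠ j) : Disjoint (supp i) (supp j) := by
  rcases i with p | v <;> rcases j with q | w
  · exact hP.2 _ p.2 _ q.2 (fun h => hij (by rw [Subtype.ext h]))
  · rw [disjoint_left]
    intro a ha hb
    simp only [supp, mem_insert, mem_singleton] at ha hb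
    subst hb
    exact w.2.2 (mem_verts.2 ⟨_, p.2, ha⟩)
  · rw [disjoint_left]
    intro a ha hb
    simp only [supp, mem_insert, mem_singleton] at ha hb
    subst ha
    exact v.2.2 (mem_verts.2 ⟨_, q.2, hb⟩)
  · rw [disjoint_left]
    intro a ha hb
    simp only [supp, mem_singleton] at ha hb
    exact hij (by rw [Subtype.ext (ha.symm.trans hb)])

theorem Y_nonneg (M : Matrix V V ℝ) {J : Finset V} {P : Finset (V × V)} (i : It J P) (w : V) :
    0 ≤ Yv M i w := by
  unfold Yv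
  rw [Pi.smul_apply, smul_eq_mul, Finset.sum_apply]
  exact mul_nonneg (cst_nonneg M i) (sum_nonneg fun v _ => X_nonneg M v w)

theorem Y_off (M : Matrix V V ℝ) (hoff : ∀ u v, u ≠ v → M u v ≤ 0) {J : Finset V}
    {P : Finset (V × V)} (hP : IsMatch P) (i j : It J P) (hij : i ≠ j) :
    Yv M i ⬝ᵥ M *ᵥ Yv M j ≤ 0 := by
  unfold Yv
  rw [bil_sum]
  refine mul_nonpos_of_nonneg_of_nonpos (mul_nonneg (cst_nonneg M i) (cst_nonneg M j)) ?_
  refine sum_nonpos fun u hu => sum_nonpos fun v hv => X_off M hoff u v ?_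
  rintro rfl
  exact disjoint_left.1 (supp_disj hP i j hij) hu hv

theorem Y_zero (M : Matrix V V ℝ) {J : Finset V} {P : Finset (V × V)} (i j : It J P)
    (h : ∀ a ∈ supp i, ∀ b ∈ supp j, M a b = 0) : Yv M i ⬝ᵥ M *ᵥ Yv M j = 0 := by
  unfold Yv
  rw [bil_sum, sum_eq_zero, mul_zero]
  intro u hu
  exact sum_eq_zero fun v hv => X_zero M u v (h u hu v hv)

/-- the item form of a bilinear value -/
theorem Y_bil (M : Matrix V V ℝ) {J : Finset V} {P : Finset (V × V)} (i j : It J P) :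
    Yv M i ⬝ᵥ M *ᵥ Yv M j =
      cst M i * cst M j * ∑ u ∈ supp i, ∑ v ∈ supp j, X M u ⬝ᵥ M *ᵥ X M v := by
  unfold Yv
  rw [bil_sum]

theorem beta_comm (M : Matrix V V ℝ) (hM : M.IsSymm) (u v : V) : beta M u v = beta M v u := by
  have hs : M v u = M u v := by
    have := congrFun (congrFun hM u) v
    rwa [Matrix.transpose_apply] at this
  unfold beta
  rw [hs, mul_comm]

theorem pair_sum {M : Matrix V V ℝ} {J : Finset V} {P : Finset (V × V)} (hP : IsMatch P)
    (p : {p : V × V // p ∈ P}) (g : V → ℝ) :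
    ∑ v ∈ supp (J := J) (Sum.inl p), g v = g p.1.1 + g p.1.2 := by
  simp only [supp]
  rw [sum_pair (hP.1 _ p.2)]

theorem Y_self (M : Matrix V V ℝ) (hM : M.IsSymm) {J : Finset V}
    {P : Finset (V × V)} (hP : IsMatch P) (hPJ : ∀ p ∈ P, p.1 ∈ J ∧ p.2 ∈ J)
    (hpos : ∀ v ∈ J, 0 < M v v) (hb1 : ∀ p ∈ P, beta M p.1 p.2 < 1) (i : It J P) :
    Yv M i ⬝ᵥ M *ᵥ Yv M i = 1 := by
  rw [Y_bil]
  rcases i with p | v
  · rw [pair_sum (M := M) hP, pair_sum (M := M) hP, pair_sum (M := M) hP]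
    rw [X_self M _ (hpos _ (hPJ _ p.2).1), X_self M _ (hpos _ (hPJ _ p.2).2), X_beta, X_beta,
      beta_comm M hM p.1.2 p.1.1]
    simp only [cst]
    have h2 : 0 < 2 - 2 * beta M p.1.1 p.1.2 := by linarith [hb1 _ p.2]
    rw [one_div, ← mul_inv, Real.mul_self_sqrt h2.le]
    have h3 := inv_mul_cancel₀ h2.ne'
    linear_combination h3
  · simp only [supp, sum_singleton, cst]
    rw [X_self M _ (hpos _ v.2.1)]
    norm_num

theorem f_f (M : Matrix V V ℝ) (hM : M.IsSymm) {J : Finset V}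
    {P : Finset (V × V)} (hPJ : ∀ p ∈ P, p.1 ∈ J ∧ p.2 ∈ J)
    (hpos : ∀ v ∈ J, 0 < M v v) (hb9 : ∀ p ∈ P, 9 / 10 ≤ beta M p.1 p.2) (i : It J P)
    (hi : isP i) : fv M i ⬝ᵥ M *ᵥ fv M i = 1 := by
  rcases i with p | v
  · simp only [fv]
    rw [Matrix.mulVec_smul, smul_dotProduct, dotProduct_smul, Matrix.mulVec_sub, dotProduct_sub,
      sub_dotProduct, sub_dotProduct]
    rw [X_self M _ (hpos _ (hPJ _ p.2).1), X_self M _ (hpos _ (hPJ _ p.2).2), X_beta, X_beta,
      beta_comm M hM p.1.2 p.1.1]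
    have h2 : 0 < 2 + 2 * beta M p.1.1 p.1.2 := by linarith [hb9 _ p.2]
    simp only [smul_eq_mul]
    rw [← mul_assoc, one_div, ← mul_inv, Real.mul_self_sqrt h2.le]
    have h3 := inv_mul_cancel₀ h2.ne'
    linear_combination h3
  · simp [isP] at hi

theorem f_Y_self (M : Matrix V V ℝ) (hM : M.IsSymm) {J : Finset V}
    {P : Finset (V × V)} (hP : IsMatch P) (hPJ : ∀ p ∈ P, p.1 ∈ J ∧ p.2 ∈ J)
    (hpos : ∀ v ∈ J, 0 < M v v) (i : It J P)
    (hi : isP i) : fv M i ⬝ᵥ M *ᵥ Yv M i = 0 := by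
  rcases i with p | v
  · have e : Yv M (J := J) (Sum.inl p) = cst M (J := J) (Sum.inl p) • (X M p.1.1 + X M p.1.2) := by
      unfold Yv
      simp only [supp]
      rw [sum_pair (hP.1 _ p.2)]
    rw [e]
    simp only [fv]
    rw [Matrix.mulVec_smul, smul_dotProduct, dotProduct_smul, Matrix.mulVec_add, dotProduct_add,
      sub_dotProduct, sub_dotProduct]
    rw [X_self M _ (hpos _ (hPJ _ p.2).1), X_self M _ (hpos _ (hPJ _ p.2).2), X_beta, X_beta,
      beta_comm M hM p.1.2 p.1.1]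
    simp only [smul_eq_mul]
    ring
  · simp [isP] at hi

/-- key scalar inequality, one factor -/
theorem key1 (β s t : ℝ) (hβ : 9 / 10 ≤ β) (hβ1 : β < 1) (hst : 0 ≤ s * t) :
    19 * ((1 / √(2 + 2 * β)) * (s - t)) ^ 2 ≤ ((1 / √(2 - 2 * β)) * (s + t)) ^ 2 := by
  have h1 : 0 < 2 + 2 * β := by linarith
  have h2 : 0 < 2 - 2 * β := by linarith
  rw [mul_pow, mul_pow, div_pow, div_pow, Real.sq_sqrt h1.le, Real.sq_sqrt h2.le, one_pow]
  have h3 : (s - t) ^ 2 ≤ (s + t) ^ 2 := by nlinarith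
  have h4 : 19 * (1 / (2 + 2 * β)) ≤ 1 / (2 - 2 * β) := by
    rw [mul_one_div, div_le_div_iff₀ h1 h2]
    linarith
  calc 19 * (1 / (2 + 2 * β) * (s - t) ^ 2) = (19 * (1 / (2 + 2 * β))) * (s - t) ^ 2 := by ring
    _ ≤ (1 / (2 - 2 * β)) * (s - t) ^ 2 := mul_le_mul_of_nonneg_right h4 (sq_nonneg _)
    _ ≤ (1 / (2 - 2 * β)) * (s + t) ^ 2 := mul_le_mul_of_nonneg_left h3 (by positivity)

theorem f_Y (M : Matrix V V ℝ) (hoff : ∀ u v, u ≠ v → M u v ≤ 0) {J : Finset V}
    {P : Finset (V × V)} (hP : IsMatch P)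
    (hb9 : ∀ p ∈ P, 9 / 10 ≤ beta M p.1 p.2) (hb1 : ∀ p ∈ P, beta M p.1 p.2 < 1) (i j : It J P)
    (hi : isP i) (hij : i ≠ j) :
    19 * (fv M i ⬝ᵥ M *ᵥ Yv M j) ^ 2 ≤ (Yv M i ⬝ᵥ M *ᵥ Yv M j) ^ 2 := by
  rcases i with p | v
  · have e : Yv M (J := J) (Sum.inl p) =
        (1 / √(2 - 2 * beta M p.1.1 p.1.2)) • (X M p.1.1 + X M p.1.2) := by
      unfold Yv
      simp only [supp, cst]
      rw [sum_pair (hP.1 _ p.2)]
    have hs : ∀ a ∈ supp (J := J) (P := P) (Sum.inl p), X M a ⬝ᵥ M *ᵥ Yv M j ≤ 0 := by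
      intro a ha
      unfold Yv
      rw [Matrix.mulVec_smul, dotProduct_smul, Matrix.mulVec_sum, dotProduct_sum, smul_eq_mul]
      refine mul_nonpos_of_nonneg_of_nonpos (cst_nonneg M j) (sum_nonpos fun v hv => ?_)
      refine X_off M hoff a v ?_
      rintro rfl
      exact disjoint_left.1 (supp_disj hP _ j hij) ha hv
    have h1 := hs p.1.1 (by simp [supp])
    have h2 := hs p.1.2 (by simp [supp])
    rw [e]
    simp only [fv]
    rw [smul_dotProduct, sub_dotProduct, smul_dotProduct, add_dotProduct, smul_eq_mul, smul_eq_mul]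
    exact key1 _ _ _ (hb9 _ p.2) (hb1 _ p.2) (mul_nonneg_of_nonpos_of_nonpos h1 h2)
  · simp [isP] at hi

theorem f_f_off (M : Matrix V V ℝ) (hM : M.IsSymm) (hoff : ∀ u v, u ≠ v → M u v ≤ 0) {J : Finset V}
    {P : Finset (V × V)} (hP : IsMatch P)
    (hb9 : ∀ p ∈ P, 9 / 10 ≤ beta M p.1 p.2) (hb1 : ∀ p ∈ P, beta M p.1 p.2 < 1) (i j : It J P)
    (hi : isP i) (hj : isP j) (hij : i ≠ j) :
    361 * (fv M i ⬝ᵥ M *ᵥ fv M j) ^ 2 ≤ (Yv M i ⬝ᵥ M *ᵥ Yv M j) ^ 2 := by
  rcases i with p | v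
  · rcases j with q | w
    · have e : ∀ p : {p : V × V // p ∈ P}, Yv M (J := J) (Sum.inl p) =
          (1 / √(2 - 2 * beta M p.1.1 p.1.2)) • (X M p.1.1 + X M p.1.2) := by
        intro p
        unfold Yv
        simp only [supp, cst]
        rw [sum_pair (hP.1 _ p.2)]
      have hs : ∀ a ∈ supp (J := J) (P := P) (Sum.inl p), ∀ b ∈ supp (J := J) (P := P) (Sum.inl q),
          X M a ⬝ᵥ M *ᵥ X M b ≤ 0 := by
        intro a ha b hb
        refine X_off M hoff a b ?_
        rintro rfl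
        exact disjoint_left.1 (supp_disj hP _ _ hij) ha hb
      have h11 := hs p.1.1 (by simp [supp]) q.1.1 (by simp [supp])
      have h12 := hs p.1.1 (by simp [supp]) q.1.2 (by simp [supp])
      have h21 := hs p.1.2 (by simp [supp]) q.1.1 (by simp [supp])
      have h22 := hs p.1.2 (by simp [supp]) q.1.2 (by simp [supp])
      rw [e, e]
      simp only [fv]
      rw [Matrix.mulVec_smul, smul_dotProduct, dotProduct_smul, Matrix.mulVec_sub, dotProduct_sub,
        sub_dotProduct, sub_dotProduct, Matrix.mulVec_smul, smul_dotProduct, dotProduct_smul,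
        Matrix.mulVec_add, dotProduct_add, add_dotProduct, add_dotProduct]
      simp only [smul_eq_mul]
      set x11 := X M p.1.1 ⬝ᵥ M *ᵥ X M q.1.1
      set x12 := X M p.1.1 ⬝ᵥ M *ᵥ X M q.1.2
      set x21 := X M p.1.2 ⬝ᵥ M *ᵥ X M q.1.1
      set x22 := X M p.1.2 ⬝ᵥ M *ᵥ X M q.1.2
      have hp9 := hb9 _ p.2
      have hp1 := hb1 _ p.2
      have hq9 := hb9 _ q.2
      have hq1 := hb1 _ q.2
      have k1 : 0 < 2 + 2 * beta M p.1.1 p.1.2 := by linarith
      have k2 : 0 < 2 - 2 * beta M p.1.1 p.1.2 := by linarith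
      have k3 : 0 < 2 + 2 * beta M q.1.1 q.1.2 := by linarith
      have k4 : 0 < 2 - 2 * beta M q.1.1 q.1.2 := by linarith
      have e1 : (1 / √(2 + 2 * beta M p.1.1 p.1.2) * ((1 / √(2 + 2 * beta M q.1.1 q.1.2)) *
          (x11 - x21 - (x12 - x22)))) ^ 2 =
          (1 / (2 + 2 * beta M p.1.1 p.1.2)) * (1 / (2 + 2 * beta M q.1.1 q.1.2)) *
            (x11 - x21 - (x12 - x22)) ^ 2 := by
        rw [mul_pow, mul_pow, div_pow, div_pow, Real.sq_sqrt k1.le, Real.sq_sqrt k3.le, one_pow,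
          mul_assoc]
      have e2 : (1 / √(2 - 2 * beta M p.1.1 p.1.2) * (1 / √(2 - 2 * beta M q.1.1 q.1.2) *
          (x11 + x21 + (x12 + x22)))) ^ 2 =
          (1 / (2 - 2 * beta M p.1.1 p.1.2)) * (1 / (2 - 2 * beta M q.1.1 q.1.2)) *
            (x11 + x21 + (x12 + x22)) ^ 2 := by
        rw [mul_pow, mul_pow, div_pow, div_pow, Real.sq_sqrt k2.le, Real.sq_sqrt k4.le, one_pow,
          mul_assoc]
      have l1 : 19 * (1 / (2 + 2 * beta M p.1.1 p.1.2)) ≤ 1 / (2 - 2 * beta M p.1.1 p.1.2) := by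
        rw [mul_one_div, div_le_div_iff₀ k1 k2]
        linarith
      have l2 : 19 * (1 / (2 + 2 * beta M q.1.1 q.1.2)) ≤ 1 / (2 - 2 * beta M q.1.1 q.1.2) := by
        rw [mul_one_div, div_le_div_iff₀ k3 k4]
        linarith
      have l3 : (x11 - x21 - (x12 - x22)) ^ 2 ≤ (x11 + x21 + (x12 + x22)) ^ 2 := by
        have h := sq_le_sq' (a := x11 - x21 - (x12 - x22)) (b := -(x11 + x21 + (x12 + x22)))
          (by linarith) (by linarith)
        rwa [neg_sq] at h
      rw [e1, e2]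
      calc 361 * ((1 / (2 + 2 * beta M p.1.1 p.1.2)) * (1 / (2 + 2 * beta M q.1.1 q.1.2)) *
            (x11 - x21 - (x12 - x22)) ^ 2)
          = ((19 * (1 / (2 + 2 * beta M p.1.1 p.1.2))) * (19 * (1 / (2 + 2 * beta M q.1.1 q.1.2)))) *
            (x11 - x21 - (x12 - x22)) ^ 2 := by ring
        _ ≤ ((1 / (2 - 2 * beta M p.1.1 p.1.2)) * (1 / (2 - 2 * beta M q.1.1 q.1.2))) *
            (x11 - x21 - (x12 - x22)) ^ 2 := by
            apply mul_le_mul_of_nonneg_right _ (sq_nonneg _)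
            apply mul_le_mul l1 l2 (by positivity) (by positivity)
        _ ≤ ((1 / (2 - 2 * beta M p.1.1 p.1.2)) * (1 / (2 - 2 * beta M q.1.1 q.1.2))) *
            (x11 + x21 + (x12 + x22)) ^ 2 := by
            apply mul_le_mul_of_nonneg_left l3 (by positivity)
    · simp [isP] at hj
  · simp [isP] at hi

theorem card_verts (P : Finset (V × V)) (hP : IsMatch P) : (verts P).card = 2 * P.card := by
  unfold verts
  rw [card_biUnion (fun p hp q hq hpq => hP.2 p hp q hq hpq)]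
  rw [sum_congr rfl (fun p hp => card_pair (hP.1 p hp)), sum_const, smul_eq_mul, mul_comm]

/-- number of items and number of pair items -/
theorem card_It (J : Finset V) (P : Finset (V × V)) (hP : IsMatch P)
    (hPJ : ∀ p ∈ P, p.1 ∈ J ∧ p.2 ∈ J) :
    Fintype.card (It J P) + P.card = J.card := by
  classical
  have hsub : verts P ⊆ J := by
    intro v hv
    obtain ⟨p, hp, h⟩ := mem_verts.1 hv
    rcases h with rfl | rfl
    · exact (hPJ p hp).1
    · exact (hPJ p hp).2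
  have h1 : Fintype.card {v : V // v ∈ J ∧ v ∉ verts P} = (J \ verts P).card := by
    rw [Fintype.card_subtype]
    congr 1
    ext v
    simp
  have h2 : (J \ verts P).card + (verts P).card = J.card := card_sdiff_add_card_eq_card hsub
  rw [card_verts P hP] at h2
  rw [Fintype.card_sum, h1, Fintype.card_coe]
  omega

theorem card_isP (J : Finset V) (P : Finset (V × V)) :
    (univ.filter (isP (J := J) (P := P))).card = P.card := by
  classical
  have : univ.filter (isP (J := J) (P := P)) =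
      (univ : Finset {p : V × V // p ∈ P}).map ⟨Sum.inl, Sum.inl_injective⟩ := by
    ext i
    rcases i with p | v
    · simp [isP]
    · simp [isP]
  rw [this, card_map, card_univ, Fintype.card_coe]

open Classical in
/-- KIND CHOICE. -/
theorem exists_kind (J : Finset V) (hv : V → V → Prop) (hsymm : ∀ u v, hv u v → hv v u)
    (hirr : ∀ u, ¬ hv u u)
    (huniq : ∀ u ∈ J, ∀ v ∈ J, ∀ w ∈ J, hv u v → hv u w → v = w)
    (k : Bool → V → V → Prop) (hk : ∀ u v, k true u v ∨ k false u v)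
    (hks : ∀ c u v, k c u v → k c v u) :
    ∃ c, ∃ P : Finset (V × V), IsMatch P ∧
      (∀ p ∈ P, p.1 ∈ J ∧ p.2 ∈ J ∧ hv p.1 p.2 ∧ k c p.1 p.2) ∧
      (J.filter (fun u => ∃ v ∈ J, hv u v)).card ≤ 4 * P.card := by
  classical
  have step : ∀ c, ∃ P : Finset (V × V), IsMatch P ∧
      (∀ p ∈ P, p.1 ∈ J ∧ p.2 ∈ J ∧ hv p.1 p.2 ∧ k c p.1 p.2) ∧
      (J.filter (fun u => ∃ v ∈ J, hv u v ∧ k c u v)).card ≤ 2 * P.card := by
    intro c
    obtain ⟨P, hP, hPr, hmax⟩ := exists_maxMatch (fun u v => hv u v ∧ k c u v) J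
    refine ⟨P, hP, fun p hp => ⟨(hPr p hp).1, (hPr p hp).2.1, (hPr p hp).2.2.1, (hPr p hp).2.2.2⟩, ?_⟩
    refine (card_le_card ?_).trans (card_verts_le P)
    intro u hu
    rw [mem_filter] at hu
    obtain ⟨huJ, v, hvJ, huv, hkc⟩ := hu
    by_contra hnot
    by_cases hvP : v ∈ verts P
    · obtain ⟨p, hp, h⟩ := mem_verts.1 hvP
      rcases h with h | h
      · have := huniq v hvJ u huJ p.2 (hPr p hp).2.1 (hsymm _ _ huv) (by rw [h]; exact (hPr p hp).2.2.1)
        exact hnot (mem_verts.2 ⟨p, hp, Or.inr this⟩)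
      · have := huniq v hvJ u huJ p.1 (hPr p hp).1 (hsymm _ _ huv)
          (by rw [h]; exact hsymm _ _ (hPr p hp).2.2.1)
        exact hnot (mem_verts.2 ⟨p, hp, Or.inl this⟩)
    · refine hmax u huJ v hvJ hnot hvP ?_ ⟨huv, hkc⟩
      rintro rfl
      exact hirr _ huv
  obtain ⟨P1, h1, h1', c1⟩ := step true
  obtain ⟨P2, h2, h2', c2⟩ := step false
  have hcover : J.filter (fun u => ∃ v ∈ J, hv u v) ⊆
      J.filter (fun u => ∃ v ∈ J, hv u v ∧ k true u v) ∪
        J.filter (fun u => ∃ v ∈ J, hv u v ∧ k false u v) := by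
    intro u hu
    rw [mem_filter] at hu
    obtain ⟨huJ, v, hvJ, huv⟩ := hu
    rw [mem_union, mem_filter, mem_filter]
    rcases hk u v with h | h
    · exact Or.inl ⟨huJ, v, hvJ, huv, h⟩
    · exact Or.inr ⟨huJ, v, hvJ, huv, h⟩
  have hc := (card_le_card hcover).trans (card_union_le _ _)
  rcases le_total P1.card P2.card with h | h
  · exact ⟨false, P2, h2, h2', by omega⟩
  · exact ⟨true, P1, h1, h1', by omega⟩

end Crest.Agent.R042.S60Geom427
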