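import Mathlib
import Crest.Agent.R042.S60Geom_427
import Crest.Agent.R042.S60BipK_427

/-! Row 42, S0060: the items of `S60Geom_427` are admissible members of kind `c`. -/

set_option autoImplicit false

namespace Crest.Agent.R042.S60GeomK427

open Matrix Finset
open Crest.Agent.R042.S60Sys840 (verts mem_verts IsMatch beta)
open Crest.Agent.R042.S60Geom427
open Crest.Agent.R042.S60BipK427 (OkK JBK okK_single okK_pair)
open Crest.Agent.R042.S60Bip427 (typ TAdj tadj_typ)

variable {V : Type*} [Fintype V] [DecidableEq V] {N : ℕ}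

theorem Y_inr (M : Matrix V V ℝ) {J : Finset V} {P : Finset (V × V)}
    (v : {v : V // v ∈ J ∧ v ∉ verts P}) :
    Yv M (J := J) (P := P) (Sum.inr v) = X M v.1 := by
  unfold Yv
  simp [supp, cst]

omit [Fintype V] in
/-- items are admissible -/
theorem okK_item (F : SimpleGraph (Fin N)) (kd : Fin N → Fin N → Bool)
    (hkd : ∀ a b, kd a b = kd b a) (c : Bool) (cl : V → Fin N) {J : Finset V}
    {P : Finset (V × V)}
    (hPc : ∀ p ∈ P, ¬ F.Adj (cl p.1) (cl p.2) ∧ (cl p.1 = cl p.2 ∨ kd (cl p.1) (cl p.2) = c))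
    (i : It J P) : OkK F kd c cl (supp i) := by
  rcases i with p | v
  · exact okK_pair F kd hkd c cl _ _ (hPc _ p.2).1 (hPc _ p.2).2
  · exact okK_single F kd c cl v.1

/-- items of completely joined types are orthogonal -/
theorem Y_joined (F : SimpleGraph (Fin N)) (cl : V → Fin N) (M : Matrix V V ℝ)
    (hzero : ∀ u v, u ≠ v → (M u v = 0 ↔ F.Adj (cl u) (cl v))) {J : Finset V}
    {P : Finset (V × V)} (i j : It J P)
    (h : TAdj F (typ cl supp i) (typ cl supp j)) : Yv M i ⬝ᵥ M *ᵥ Yv M j = 0 := by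
  refine Y_zero M i j fun a ha b hb => ?_
  have hadj := (tadj_typ F cl supp i j).1 h a ha b hb
  refine (hzero a b ?_).2 hadj
  rintro rfl
  exact F.loopless.irrefl _ hadj

/-- the bipartite property for the items (785's `hbip`), for one kind -/
theorem hbip_items (F : SimpleGraph (Fin N)) (kd : Fin N → Fin N → Bool)
    (hkd : ∀ a b, kd a b = kd b a) (c : Bool) (K : ℕ) (hJ : JBK F kd c K) (cl : V → Fin N)
    (L : ℕ) (hL0 : 0 < L) (hL : ∀ i, (univ.filter (fun v => cl v = i)).card ≤ L)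
    {J : Finset V} {P : Finset (V × V)} (hP : IsMatch P)
    (hPc : ∀ p ∈ P, ¬ F.Adj (cl p.1) (cl p.2) ∧ (cl p.1 = cl p.2 ∨ kd (cl p.1) (cl p.2) = c))
    (w : ℕ) (hw : 2 * (N * L) ≤ K * w) (A B : Finset (It J P)) (hA : w ≤ A.card)
    (hB : w ≤ B.card) :
    ∃ i ∈ A, ∃ j ∈ B, TAdj F (typ cl supp i) (typ cl supp j) := by
  classical
  obtain ⟨i, hi, j, hj, h⟩ := S60BipK427.bip_items F kd c K hJ cl L hL0 hL
    (supp (J := J) (P := P)) (fun i => okK_item F kd hkd c cl hPc i)
    (fun i j hij => supp_disj hP i j hij) A B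
    (hw.trans (Nat.mul_le_mul_left _ hA)) (hw.trans (Nat.mul_le_mul_left _ hB))
  exact ⟨i, hi, j, hj, (tadj_typ F cl supp i j).2 h⟩

end Crest.Agent.R042.S60GeomK427
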