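import Mathlib
import Crest.Agent.R042.S60B_840

/-!
# S0060, leaf ROWS (helper785)

Application of Lemma B (840) to the items, and step (5) (Markov): after the removal of
`6 w + η |I|` items all row sums are bounded by a constant depending only on the number of types.
-/

namespace Crest.Agent.R042.S60Rows

open Finset Matrix

/-- Lemma B of 840 (#26223), as a statement over the finite type set `T`. -/
def LemB (T : Type) [Fintype T] [DecidableEq T] : Prop :=
  ∀ (n : T → T → ℝ) (be : T → ℝ) (adj : T → T → Prop) (wt : T → ℕ) (w : ℕ),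
    (∀ t s, n t s = n s t) → (∀ t s, 0 ≤ n t s) → (∀ t, 0 ≤ be t) →
    (∀ x : T → ℝ, 0 ≤ ∑ t, x t ^ 2 - ∑ t, ∑ s, n t s * (x t * x s) + (∑ t, be t * x t) ^ 2) →
    (∀ t s, adj t s → adj s t) → (∀ t s, adj t s → n t s = 0) →
    (∀ A B : Finset T, Disjoint A B → w ≤ ∑ t ∈ A, wt t → w ≤ ∑ t ∈ B, wt t →
      ∃ t ∈ A, ∃ s ∈ B, adj t s) →
    (∀ t, wt t ≤ 2 * w) →
    ∃ T' : Finset T, ∑ t ∈ T'ᶜ, wt t ≤ 6 * w ∧
      ∀ t ∈ T', ∀ s ∈ T', n t s ≤ ((Fintype.card T : ℝ) + 2) ^ 2

/-- Lemma B in the matrix form, from 840's Hilbert space form. -/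
theorem lemB_holds (T : Type) [Fintype T] [DecidableEq T] : LemB T := by
  intro n be adj wt w hns hn hbe hpsd hsym hadj hbip hwt2
  set R : Matrix T T ℝ := Matrix.of fun t s => (if t = s then 1 else 0) - n t s + be t * be s
    with hR
  have hRe : ∀ t s, R t s = (if t = s then 1 else 0) - n t s + be t * be s := fun t s => rfl
  have hRh : R.IsHermitian := by
    ext t s
    simp only [Matrix.conjTranspose_apply, hRe, star_trivial]
    rw [hns s t, mul_comm (be s)]
    simp only [eq_comm]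
  have hRp : R.PosSemidef := by
    refine .of_dotProduct_mulVec_nonneg hRh (fun x => ?_)
    have h := hpsd x
    have e : star x ⬝ᵥ R *ᵥ x
        = ∑ t, x t ^ 2 - ∑ t, ∑ s, n t s * (x t * x s) + (∑ t, be t * x t) ^ 2 := by
      simp only [dotProduct, mulVec, star_trivial, hRe, Pi.star_apply]
      rw [pow_two (∑ t, be t * x t), Finset.sum_mul_sum, ← Finset.sum_sub_distrib,
        ← Finset.sum_add_distrib]
      refine Finset.sum_congr rfl fun t _ => ?_
      rw [Finset.mul_sum]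
      have : ∀ s, x t * (((if t = s then 1 else 0) - n t s + be t * be s) * x s)
          = (if t = s then x t * x s else 0) - n t s * (x t * x s)
            + be t * x t * (be s * x s) := by
        intro s; split_ifs <;> ring
      simp only [this, Finset.sum_add_distrib, Finset.sum_sub_distrib, Finset.sum_ite_eq,
        Finset.mem_univ, if_true]
      ring
    rw [e]; exact h
  obtain ⟨m, v, hv⟩ := Matrix.posSemidef_iff_eq_sum_vecMulVec.mp hRp
  set r : T → EuclideanSpace ℝ (Fin m) := fun t => WithLp.toLp 2 (fun i => v i t) with hr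
  have hin : ∀ t s, inner ℝ (r t) (r s) = R t s := by
    intro t s
    rw [hv, Matrix.sum_apply]
    simp only [hr, PiLp.inner_apply, Matrix.vecMulVec_apply, Pi.star_apply, star_trivial]
    refine Finset.sum_congr rfl fun i _ => ?_
    simp [mul_comm]
  have hw : 0 < w := by
    rcases Nat.eq_zero_or_pos w with h0 | h0
    · exfalso
      obtain ⟨t, ht, _⟩ := hbip ∅ ∅ (Finset.disjoint_empty_left _) (by simp [h0]) (by simp [h0])
      exact absurd ht (Finset.notMem_empty _)
    · exact h0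
  obtain ⟨T', h1, h2⟩ := S60B840.lemmaB (E := EuclideanSpace ℝ (Fin m)) n be
    (fun t s => adj t s ∧ t ≠ s) (fun t => (wt t : ℝ)) (w : ℝ) hn hbe r
    (fun t => by
      have := hin t t
      rw [real_inner_self_eq_norm_sq, hRe, if_pos rfl] at this
      nlinarith [this])
    (fun t s hts => by
      have := hin t s
      rw [hRe, if_neg hts] at this
      linarith)
    (fun t s h => ⟨hsym t s h.1, h.2.symm⟩) (fun t h => h.2 rfl) (fun t s h => hadj t s h.1)
    (by exact_mod_cast hw) (fun t => Nat.cast_nonneg _) (fun t => by exact_mod_cast hwt2 t)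
    (fun A B hAB hA hB => by
      obtain ⟨t, ht, s, hs, hts⟩ := hbip A B hAB (by exact_mod_cast hA) (by exact_mod_cast hB)
      exact ⟨t, ht, s, hs, hts, fun h => Finset.disjoint_left.1 hAB ht (h ▸ hs)⟩)
  exact ⟨T', by exact_mod_cast h1, h2⟩

section
variable {V I T : Type} [Fintype V] [DecidableEq V] [Fintype I] [DecidableEq I]
  [Fintype T] [DecidableEq T]

/-- bilinear expansion -/
lemma bil_sum (M : Matrix V V ℝ) (Yv : I → V → ℝ) (c : I → ℝ) :
    (∑ i, c i • Yv i) ⬝ᵥ M *ᵥ (∑ i, c i • Yv i)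
      = ∑ i, ∑ j, c i * c j * (Yv i ⬝ᵥ M *ᵥ Yv j) := by
  rw [sum_dotProduct]
  refine Finset.sum_congr rfl fun i _ => ?_
  rw [Matrix.mulVec_sum, dotProduct_sum]
  refine Finset.sum_congr rfl fun j _ => ?_
  rw [Matrix.mulVec_smul, dotProduct_smul, smul_dotProduct]
  simp only [smul_eq_mul]
  ring

/-- splitting a sum over items according to the type -/
lemma sum_types (τ : I → T) (f : I → ℝ) :
    ∑ i, f i = ∑ t, ∑ i ∈ univ.filter (fun i => τ i = t), f i :=
  (Finset.sum_fiberwise univ τ f).symm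

theorem rows_of_lemB (hLB : LemB T) (M : Matrix V V ℝ) (hM : M.IsSymm) (b : V → ℝ)
    (hb : ∀ z : V → ℝ, 0 ≤ z ⬝ᵥ M *ᵥ z + (b ⬝ᵥ z) ^ 2) (hb0 : ∀ v, 0 ≤ b v)
    (Yv : I → V → ℝ) (hY0 : ∀ i v, 0 ≤ Yv i v)
    (h1 : ∀ i, Yv i ⬝ᵥ M *ᵥ Yv i = 1)
    (hoff : ∀ i j, i ≠ j → Yv i ⬝ᵥ M *ᵥ Yv j ≤ 0)
    (τ : I → T) (adj : T → T → Prop) (hsym : ∀ t s, adj t s → adj s t)
    (hadj : ∀ i j, adj (τ i) (τ j) → Yv i ⬝ᵥ M *ᵥ Yv j = 0) (w : ℕ)
    (hbip : ∀ A B : Finset I, Disjoint A B → w ≤ A.card → w ≤ B.card →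
      ∃ i ∈ A, ∃ j ∈ B, adj (τ i) (τ j))
    (η : ℝ) (hη : 0 < η) :
    ∃ J : Finset I, (((univ \ J).card : ℕ) : ℝ) ≤ 6 * w + η * Fintype.card I ∧
      ∀ i ∈ J, ∑ j ∈ J.erase i, -(Yv i ⬝ᵥ M *ᵥ Yv j)
        ≤ ((Fintype.card T : ℝ) + 2) ^ 2 * Fintype.card T / η := by
  classical
  set It : T → Finset I := fun t => univ.filter (fun i => τ i = t) with hIt
  have hItmem : ∀ t i, i ∈ It t ↔ τ i = t := fun t i => by simp [hIt]
  set N : T → ℝ := fun t => ((It t).card : ℝ) with hN
  have hN0 : ∀ t, 0 ≤ N t := fun t => Nat.cast_nonneg _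
  -- off-diagonal entries
  set β : I → I → ℝ := fun i j => if i = j then 0 else -(Yv i ⬝ᵥ M *ᵥ Yv j) with hβ
  have hβ0 : ∀ i j, 0 ≤ β i j := by
    intro i j
    simp only [hβ]
    split_ifs with h
    · exact le_rfl
    · have := hoff i j h; linarith
  have hBsymm : ∀ i j, Yv i ⬝ᵥ M *ᵥ Yv j = Yv j ⬝ᵥ M *ᵥ Yv i := by
    intro i j
    rw [dotProduct_mulVec, ← mulVec_transpose, hM.eq, dotProduct_comm]
  have hβs : ∀ i j, β i j = β j i := by
    intro i j
    simp only [hβ]
    by_cases h : i = j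
    · subst h; simp
    · rw [if_neg h, if_neg (Ne.symm h), hBsymm]
  have hBβ : ∀ i j, Yv i ⬝ᵥ M *ᵥ Yv j = (if i = j then 1 else 0) - β i j := by
    intro i j
    simp only [hβ]
    by_cases h : i = j
    · subst h; simp [h1]
    · simp [h]
  have hβadj : ∀ i j, adj (τ i) (τ j) → β i j = 0 := by
    intro i j h
    simp only [hβ]
    split_ifs
    · rfl
    · rw [hadj i j h, neg_zero]
  -- the type matrix
  set S : T → T → ℝ := fun t s => ∑ i ∈ It t, ∑ j ∈ It s, β i j with hS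
  have hS0 : ∀ t s, 0 ≤ S t s := fun t s =>
    Finset.sum_nonneg fun i _ => Finset.sum_nonneg fun j _ => hβ0 i j
  have hSs : ∀ t s, S t s = S s t := by
    intro t s
    simp only [hS]
    rw [Finset.sum_comm]
    exact Finset.sum_congr rfl fun i _ => Finset.sum_congr rfl fun j _ => hβs _ _
  set n : T → T → ℝ := fun t s => S t s / (√(N t) * √(N s)) with hn
  set be : T → ℝ := fun t => (∑ i ∈ It t, b ⬝ᵥ Yv i) / √(N t) with hbe
  have hbeY : ∀ i, 0 ≤ b ⬝ᵥ Yv i := fun i =>
    Finset.sum_nonneg fun v _ => mul_nonneg (hb0 v) (hY0 i v)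
  -- empty types
  have hemp : ∀ t, N t = 0 → It t = ∅ := by
    intro t ht
    have h0 : ((It t).card : ℝ) = 0 := ht
    have : (It t).card = 0 := by exact_mod_cast h0
    exact Finset.card_eq_zero.mp this
  have hnS : ∀ t s, S t s = n t s * (√(N t) * √(N s)) := by
    intro t s
    simp only [hn]
    by_cases ht : N t = 0
    · have : S t s = 0 := by simp [hS, hemp t ht]
      rw [this]; simp
    by_cases hs : N s = 0
    · have : S t s = 0 := by simp [hS, hemp s hs]
      rw [this]; simp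
    have h1 : √(N t) ≠ 0 := by
      rw [Real.sqrt_ne_zero']; exact lt_of_le_of_ne (hN0 t) (Ne.symm ht)
    have h2 : √(N s) ≠ 0 := by
      rw [Real.sqrt_ne_zero']; exact lt_of_le_of_ne (hN0 s) (Ne.symm hs)
    field_simp
  -- PSD
  have hpsd : ∀ x : T → ℝ,
      0 ≤ ∑ t, x t ^ 2 - ∑ t, ∑ s, n t s * (x t * x s) + (∑ t, be t * x t) ^ 2 := by
    intro x
    set c : I → ℝ := fun i => x (τ i) / √(N (τ i)) with hc
    have hz := hb (∑ i, c i • Yv i)
    rw [bil_sum] at hz
    have e1 : ∑ i, ∑ j, c i * c j * (Yv i ⬝ᵥ M *ᵥ Yv j)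
        = ∑ i, c i ^ 2 - ∑ i, ∑ j, c i * c j * β i j := by
      rw [← Finset.sum_sub_distrib]
      refine Finset.sum_congr rfl fun i _ => ?_
      have : ∀ j, c i * c j * (Yv i ⬝ᵥ M *ᵥ Yv j)
          = (if i = j then c i * c j else 0) - c i * c j * β i j := by
        intro j
        rw [hBβ]
        split_ifs <;> ring
      simp only [this, Finset.sum_sub_distrib, Finset.sum_ite_eq, Finset.mem_univ, if_true]
      ring
    have e2 : ∑ i, c i ^ 2 ≤ ∑ t, x t ^ 2 := by
      rw [sum_types τ]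
      refine Finset.sum_le_sum fun t _ => ?_
      have : ∀ i ∈ It t, c i ^ 2 = x t ^ 2 / N t := by
        intro i hi
        have : τ i = t := (hItmem t i).1 hi
        simp only [hc, this, div_pow, Real.sq_sqrt (hN0 t)]
      rw [Finset.sum_congr rfl this, Finset.sum_const, nsmul_eq_mul]
      by_cases ht : N t = 0
      · have h0 : ((It t).card : ℝ) = 0 := ht
        rw [h0, zero_mul]; positivity
      · have h0 : ((It t).card : ℝ) = N t := rfl
        rw [h0, mul_div_cancel₀ _ ht]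
    have e3 : ∑ i, ∑ j, c i * c j * β i j = ∑ t, ∑ s, n t s * (x t * x s) := by
      rw [sum_types τ]
      have : ∀ t, ∑ i ∈ It t, ∑ j, c i * c j * β i j
          = ∑ s, (x t / √(N t)) * (x s / √(N s)) * S t s := by
        intro t
        have h2 : ∀ i ∈ It t, ∑ j, c i * c j * β i j
            = ∑ s, ∑ j ∈ It s, (x t / √(N t)) * (x s / √(N s)) * β i j := by
          intro i hi
          rw [sum_types τ]
          refine Finset.sum_congr rfl fun s _ => ?_
          refine Finset.sum_congr rfl fun j hj => ?_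
          have hi' : τ i = t := (hItmem t i).1 hi
          have hj' : τ j = s := (hItmem s j).1 hj
          simp only [hc, hi', hj']
        rw [Finset.sum_congr rfl h2, Finset.sum_comm]
        refine Finset.sum_congr rfl fun s _ => ?_
        simp only [hS, Finset.mul_sum]
      refine Finset.sum_congr rfl fun t _ => ?_
      rw [this]
      refine Finset.sum_congr rfl fun s _ => ?_
      simp only [hn]
      ring
    have e4 : b ⬝ᵥ (∑ i, c i • Yv i) = ∑ t, be t * x t := by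
      rw [dotProduct_sum, sum_types τ]
      refine Finset.sum_congr rfl fun t _ => ?_
      have : ∀ i ∈ It t, b ⬝ᵥ (c i • Yv i) = (x t / √(N t)) * (b ⬝ᵥ Yv i) := by
        intro i hi
        have hi' : τ i = t := (hItmem t i).1 hi
        rw [dotProduct_smul, smul_eq_mul]
        simp only [hc, hi']
      rw [Finset.sum_congr rfl this, ← Finset.mul_sum]
      simp only [hbe]
      ring
    rw [e1, e3, e4] at hz
    linarith
  -- adjacency kills the entries
  have hnadj : ∀ t s, adj t s → n t s = 0 := by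
    intro t s h
    have : S t s = 0 := by
      refine Finset.sum_eq_zero fun i hi => Finset.sum_eq_zero fun j hj => ?_
      refine hβadj i j ?_
      rwa [(hItmem t i).1 hi, (hItmem s j).1 hj]
    simp [hn, this]
  set wt : T → ℕ := fun t => (It t).card with hwt
  have hIdisj : ∀ A : Finset T, ((A : Set T)).PairwiseDisjoint It := by
    intro A t _ s _ hts
    refine Finset.disjoint_left.2 fun i hi hj => hts ?_
    rw [← (hItmem t i).1 hi, ← (hItmem s i).1 hj]
  have hcardU : ∀ A : Finset T, (A.biUnion It).card = ∑ t ∈ A, wt t := fun A =>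
    Finset.card_biUnion (fun t ht s hs hts => hIdisj A ht hs hts)
  have hbipT : ∀ A B : Finset T, Disjoint A B → w ≤ ∑ t ∈ A, wt t → w ≤ ∑ t ∈ B, wt t →
      ∃ t ∈ A, ∃ s ∈ B, adj t s := by
    intro A B hAB hA hB
    have hd : Disjoint (A.biUnion It) (B.biUnion It) := by
      refine Finset.disjoint_left.2 fun i hi hj => ?_
      obtain ⟨t, ht, hit⟩ := Finset.mem_biUnion.1 hi
      obtain ⟨s, hs, his⟩ := Finset.mem_biUnion.1 hj
      have : t = s := by rw [← (hItmem t i).1 hit, ← (hItmem s i).1 his]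
      subst this
      exact Finset.disjoint_left.1 hAB ht hs
    obtain ⟨i, hi, j, hj, hij⟩ := hbip _ _ hd (by rw [hcardU]; exact hA) (by rw [hcardU]; exact hB)
    obtain ⟨t, ht, hit⟩ := Finset.mem_biUnion.1 hi
    obtain ⟨s, hs, hjs⟩ := Finset.mem_biUnion.1 hj
    refine ⟨t, ht, s, hs, ?_⟩
    rwa [(hItmem t i).1 hit, (hItmem s j).1 hjs] at hij
  have hwt2 : ∀ t, wt t ≤ 2 * w := by
    intro t
    by_contra hcon
    push Not at hcon
    have hcon' : w ≤ (It t).card := by simp only [hwt] at hcon; omega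
    obtain ⟨A, hA, hAc⟩ := Finset.exists_subset_card_eq hcon'
    have hB : w ≤ (It t \ A).card := by
      rw [Finset.card_sdiff_of_subset hA, hAc]
      simp only [hwt] at hcon; omega
    obtain ⟨i, hi, j, hj, hij⟩ := hbip A (It t \ A) Finset.disjoint_sdiff (by omega) hB
    have hi' : τ i = t := (hItmem t i).1 (hA hi)
    have hj' : τ j = t := (hItmem t j).1 (Finset.mem_sdiff.1 hj).1
    rw [hi', hj'] at hij
    have := hadj i i (by rw [hi']; exact hij)
    rw [h1] at this
    exact one_ne_zero this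
  obtain ⟨T', hT'w, hT'n⟩ := hLB n be adj wt w
    (fun t s => by simp only [hn]; rw [hSs t s, mul_comm (√(N t))])
    (fun t s => div_nonneg (hS0 t s) (mul_nonneg (Real.sqrt_nonneg _) (Real.sqrt_nonneg _)))
    (fun t => div_nonneg (Finset.sum_nonneg fun i _ => hbeY i) (Real.sqrt_nonneg _))
    hpsd hsym hnadj hbipT hwt2
  -- the items of the remaining types
  set κ : ℝ := (Fintype.card T : ℝ) with hκ
  have hκ0 : 0 ≤ κ := Nat.cast_nonneg _
  set J0 : Finset I := T'.biUnion It with hJ0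
  have hJ0mem : ∀ i, i ∈ J0 ↔ τ i ∈ T' := by
    intro i
    simp only [hJ0, Finset.mem_biUnion, hItmem]
    constructor
    · rintro ⟨t, ht, h⟩; rwa [h]
    · intro h; exact ⟨_, h, rfl⟩
  have hJ0c : (univ \ J0).card ≤ 6 * w := by
    have : univ \ J0 = T'ᶜ.biUnion It := by
      ext i
      simp only [Finset.mem_sdiff, Finset.mem_univ, true_and, hJ0mem, Finset.mem_biUnion, hItmem,
        Finset.mem_compl]
      constructor
      · intro h; exact ⟨_, h, rfl⟩
      · rintro ⟨t, ht, h⟩; rwa [h]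
    rw [this, hcardU]
    exact hT'w
  -- the total sum
  have htot : ∑ i ∈ J0, ∑ j ∈ J0, β i j ≤ (κ + 2) ^ 2 * κ * Fintype.card I := by
    have e1 : ∑ i ∈ J0, ∑ j ∈ J0, β i j = ∑ t ∈ T', ∑ s ∈ T', S t s := by
      rw [hJ0, Finset.sum_biUnion (hIdisj T')]
      refine Finset.sum_congr rfl fun t _ => ?_
      have : ∀ i ∈ It t, ∑ j ∈ T'.biUnion It, β i j = ∑ s ∈ T', ∑ j ∈ It s, β i j := by
        intro i _
        rw [Finset.sum_biUnion (hIdisj T')]
      rw [Finset.sum_congr rfl this, Finset.sum_comm]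
    have e2 : ∑ t ∈ T', ∑ s ∈ T', S t s ≤ (κ + 2) ^ 2 * (∑ t ∈ T', √(N t)) ^ 2 := by
      rw [pow_two (∑ t ∈ T', √(N t)), Finset.sum_mul_sum, Finset.mul_sum]
      refine Finset.sum_le_sum fun t ht => ?_
      rw [Finset.mul_sum]
      refine Finset.sum_le_sum fun s hs => ?_
      rw [hnS]
      exact mul_le_mul_of_nonneg_right (hT'n t ht s hs)
        (mul_nonneg (Real.sqrt_nonneg _) (Real.sqrt_nonneg _))
    have e3 : (∑ t ∈ T', √(N t)) ^ 2 ≤ κ * Fintype.card I := by
      have h1 : (∑ t ∈ T', √(N t)) ^ 2 ≤ (T'.card : ℝ) * ∑ t ∈ T', √(N t) ^ 2 :=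
        sq_sum_le_card_mul_sum_sq
      have h2 : ∑ t ∈ T', √(N t) ^ 2 ≤ Fintype.card I := by
        have : ∑ t ∈ T', √(N t) ^ 2 = ((J0.card : ℕ) : ℝ) := by
          rw [hJ0, hcardU]
          push_cast
          refine Finset.sum_congr rfl fun t _ => ?_
          rw [Real.sq_sqrt (hN0 t)]
        rw [this]
        exact_mod_cast Finset.card_le_univ _
      have h3 : (T'.card : ℝ) ≤ κ := by
        simp only [hκ]; exact_mod_cast Finset.card_le_univ _
      have h4 : (0 : ℝ) ≤ ∑ t ∈ T', √(N t) ^ 2 := Finset.sum_nonneg fun t _ => sq_nonneg _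
      calc (∑ t ∈ T', √(N t)) ^ 2 ≤ (T'.card : ℝ) * ∑ t ∈ T', √(N t) ^ 2 := h1
        _ ≤ κ * Fintype.card I := mul_le_mul h3 h2 h4 hκ0
    calc ∑ i ∈ J0, ∑ j ∈ J0, β i j = ∑ t ∈ T', ∑ s ∈ T', S t s := e1
      _ ≤ (κ + 2) ^ 2 * (∑ t ∈ T', √(N t)) ^ 2 := e2
      _ ≤ (κ + 2) ^ 2 * (κ * Fintype.card I) := by
          exact mul_le_mul_of_nonneg_left e3 (by positivity)
      _ = (κ + 2) ^ 2 * κ * Fintype.card I := by ring
  -- Markov
  set R0 : ℝ := (κ + 2) ^ 2 * κ / η with hR0
  set J : Finset I := J0.filter (fun i => ∑ j ∈ J0, β i j ≤ R0) with hJ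
  refine ⟨J, ?_, ?_⟩
  · have hbad : (((J0 \ J).card : ℕ) : ℝ) ≤ η * Fintype.card I := by
      rcases isEmpty_or_nonempty I with hI | hI
      · have : J0 \ J = ∅ := Finset.eq_empty_of_isEmpty _
        rw [this]; simp
      · have hκpos : 0 < κ := by
          have : Nonempty T := ⟨τ (Classical.arbitrary I)⟩
          simp only [hκ]
          exact_mod_cast Fintype.card_pos
        have hR0pos : 0 < R0 := by positivity
        have h1 : ((J0 \ J).card : ℝ) * R0 ≤ ∑ i ∈ J0 \ J, ∑ j ∈ J0, β i j := by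
          rw [← nsmul_eq_mul, ← Finset.sum_const]
          refine Finset.sum_le_sum fun i hi => ?_
          rw [Finset.mem_sdiff] at hi
          by_contra hcon
          push Not at hcon
          exact hi.2 (Finset.mem_filter.2 ⟨hi.1, hcon.le⟩)
        have h2 : ∑ i ∈ J0 \ J, ∑ j ∈ J0, β i j ≤ ∑ i ∈ J0, ∑ j ∈ J0, β i j :=
          Finset.sum_le_sum_of_subset_of_nonneg Finset.sdiff_subset
            (fun i _ _ => Finset.sum_nonneg fun j _ => hβ0 i j)
        have h3 : ((J0 \ J).card : ℝ) * R0 ≤ (η * Fintype.card I) * R0 := by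
          calc ((J0 \ J).card : ℝ) * R0 ≤ (κ + 2) ^ 2 * κ * Fintype.card I := by linarith
            _ = (η * Fintype.card I) * R0 := by
                rw [hR0]; field_simp
        exact le_of_mul_le_mul_right h3 hR0pos
    have hsub : univ \ J ⊆ (univ \ J0) ∪ (J0 \ J) := by
      intro i hi
      simp only [Finset.mem_sdiff, Finset.mem_univ, true_and, Finset.mem_union] at hi ⊢
      tauto
    have hc : (univ \ J).card ≤ (univ \ J0).card + (J0 \ J).card :=
      (Finset.card_le_card hsub).trans (Finset.card_union_le _ _)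
    have hc' : ((univ \ J).card : ℝ) ≤ ((univ \ J0).card : ℝ) + ((J0 \ J).card : ℝ) := by
      exact_mod_cast hc
    have h6 : ((univ \ J0).card : ℝ) ≤ 6 * w := by exact_mod_cast hJ0c
    linarith
  · intro i hi
    have hi' := Finset.mem_filter.1 hi
    have hJJ0 : J ⊆ J0 := Finset.filter_subset _ _
    calc ∑ j ∈ J.erase i, -(Yv i ⬝ᵥ M *ᵥ Yv j) = ∑ j ∈ J.erase i, β i j := by
          refine Finset.sum_congr rfl fun j hj => ?_
          simp only [hβ]
          rw [if_neg (Ne.symm (Finset.ne_of_mem_erase hj))]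
      _ ≤ ∑ j ∈ J0, β i j :=
          Finset.sum_le_sum_of_subset_of_nonneg
            ((Finset.erase_subset _ _).trans hJJ0) (fun j _ _ => hβ0 i j)
      _ ≤ R0 := hi'.2


/-- **ROWS**: application of Lemma B to the items and step (5). -/
theorem rows (M : Matrix V V ℝ) (hM : M.IsSymm) (b : V → ℝ)
    (hb : ∀ z : V → ℝ, 0 ≤ z ⬝ᵥ M *ᵥ z + (b ⬝ᵥ z) ^ 2) (hb0 : ∀ v, 0 ≤ b v)
    (Yv : I → V → ℝ) (hY0 : ∀ i v, 0 ≤ Yv i v)
    (h1 : ∀ i, Yv i ⬝ᵥ M *ᵥ Yv i = 1)
    (hoff : ∀ i j, i ≠ j → Yv i ⬝ᵥ M *ᵥ Yv j ≤ 0)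
    (τ : I → T) (adj : T → T → Prop) (hsym : ∀ t s, adj t s → adj s t)
    (hadj : ∀ i j, adj (τ i) (τ j) → Yv i ⬝ᵥ M *ᵥ Yv j = 0) (w : ℕ)
    (hbip : ∀ A B : Finset I, Disjoint A B → w ≤ A.card → w ≤ B.card →
      ∃ i ∈ A, ∃ j ∈ B, adj (τ i) (τ j))
    (η : ℝ) (hη : 0 < η) :
    ∃ J : Finset I, (((univ \ J).card : ℕ) : ℝ) ≤ 6 * w + η * Fintype.card I ∧
      ∀ i ∈ J, ∑ j ∈ J.erase i, -(Yv i ⬝ᵥ M *ᵥ Yv j)
        ≤ ((Fintype.card T : ℝ) + 2) ^ 2 * Fintype.card T / η :=
  rows_of_lemB (lemB_holds T) M hM b hb hb0 Yv hY0 h1 hoff τ adj hsym hadj w hbip η hη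

end

end Crest.Agent.R042.S60Rows
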