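import Mathlib
import Crest.Agent.R042.S60Rows_785
import Crest.Agent.R042.S60BipK_427

/-! Row 42, S0060: ROWS (785) applied to an item system in the blow-up with supports of one kind. -/

set_option autoImplicit false

namespace Crest.Agent.R042.S60Items822

open Finset Matrix
open Crest.Agent.R042.S60Bip427 (typ TAdj tadj_typ)
open Crest.Agent.R042.S60BipK427 (JBK OkK bip_items)

theorem fibre_le {N L : ℕ} (i : Fin N) :
    (univ.filter (fun v : Fin N × Fin L => v.1 = i)).card ≤ L := by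
  classical
  have h : (univ.filter (fun v : Fin N × Fin L => v.1 = i)) ⊆
      (univ : Finset (Fin L)).image (fun l => (i, l)) := by
    intro v hv
    rw [mem_filter] at hv
    exact mem_image.2 ⟨v.2, mem_univ _, by rw [← hv.2]⟩
  exact (card_le_card h).trans (card_image_le.trans (by simp))

/-- ROWS for an item system whose supports are admissible of kind `c`. -/
theorem rows_items {N L : ℕ} (F : SimpleGraph (Fin N)) (kd : Fin N → Fin N → Bool) (c : Bool)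
    (K : ℕ) (hJ : JBK F kd c K) (hL : 0 < L) (w : ℕ) (hw : 2 * (N * L) ≤ K * w)
    (M : Matrix (Fin N × Fin L) (Fin N × Fin L) ℝ) (hM : M.IsSymm) (b : Fin N × Fin L → ℝ)
    (hb : ∀ z : Fin N × Fin L → ℝ, 0 ≤ z ⬝ᵥ M *ᵥ z + (b ⬝ᵥ z) ^ 2) (hb0 : ∀ v, 0 ≤ b v)
    {I : Type} [Fintype I] [DecidableEq I] (Yv : I → Fin N × Fin L → ℝ)
    (hY0 : ∀ i v, 0 ≤ Yv i v) (h1 : ∀ i, Yv i ⬝ᵥ M *ᵥ Yv i = 1)
    (hoff : ∀ i j, i ≠ j → Yv i ⬝ᵥ M *ᵥ Yv j ≤ 0)
    (supp : I → Finset (Fin N × Fin L))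
    (hs : ∀ y, OkK F kd c (Prod.fst : Fin N × Fin L → Fin N) (supp y))
    (hd : ∀ y z, y ≠ z → Disjoint (supp y) (supp z))
    (hjoin : ∀ i j, (∀ a ∈ supp i, ∀ b ∈ supp j, F.Adj a.1 b.1) → Yv i ⬝ᵥ M *ᵥ Yv j = 0)
    (η : ℝ) (hη : 0 < η) :
    ∃ J : Finset I, (((univ \ J).card : ℕ) : ℝ) ≤ 6 * w + η * Fintype.card I ∧
      ∀ i ∈ J, ∑ j ∈ J.erase i, -(Yv i ⬝ᵥ M *ᵥ Yv j) ≤ ((2 : ℝ) ^ N + 2) ^ 2 * 2 ^ N / η := by
  classical
  have h := S60Rows.rows (V := Fin N × Fin L) (I := I) (T := Finset (Fin N)) M hM b hb hb0 Yv hY0 h1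
    hoff (typ Prod.fst supp) (TAdj F) (fun t s h => h.symm)
    (fun i j hij => hjoin i j ((tadj_typ F Prod.fst supp i j).1 hij)) w
    (fun A B _ hA hB => by
      obtain ⟨y, hy, z, hz, h⟩ := bip_items F kd c K hJ (Prod.fst : Fin N × Fin L → Fin N) L hL
        (fun i => fibre_le i) supp hs hd A B
        (hw.trans (Nat.mul_le_mul_left _ hA)) (hw.trans (Nat.mul_le_mul_left _ hB))
      exact ⟨y, hy, z, hz, (tadj_typ F Prod.fst supp y z).2 h⟩) η hη
  obtain ⟨J, hJ1, hJ2⟩ := h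
  refine ⟨J, hJ1, fun i hi => ?_⟩
  have := hJ2 i hi
  have hc : (Fintype.card (Finset (Fin N)) : ℝ) = 2 ^ N := by
    rw [Fintype.card_finset, Fintype.card_fin]; norm_num
  rw [hc] at this
  exact this

end Crest.Agent.R042.S60Items822
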