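import Mathlib
import Crest.Agent.R042.S60A_840
import Crest.Agent.R042.S60Sys_840
import Crest.Agent.R042.S60BipK_427

/-! Row 42, S0060 from HJK, step (a) (helper840): the positive vertices with all `beta < 1`. -/

set_option autoImplicit false

namespace Crest.Agent.R042.S60SysK840

open Matrix Finset
open Crest.Agent.R042.S60Sys840 (verts mem_verts IsMatch card_verts_le exists_maxMatch beta quad_pair)
open Crest.Agent.R042.S60BipK427 (JBK OkK okK_single okK_pair bip)

variable {N L : ℕ}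

theorem fibre_card (i : Fin N) :
    (univ.filter (fun v : Fin N × Fin L => v.1 = i)).card ≤ L := by
  have h : (univ.filter (fun v : Fin N × Fin L => v.1 = i)).card ≤ (univ : Finset (Fin L)).card := by
    apply card_le_card_of_injOn (fun v => v.2) (fun _ _ => by simp)
    intro u hu v hv huv
    simp only [coe_filter, mem_univ, true_and, Set.mem_ofPred_eq] at hu hv
    exact Prod.ext (hu.trans hv.symm) huv
  simpa using h

/-- a family of disjoint members of one kind without completely joined pair is small -/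
theorem fam_card (F : SimpleGraph (Fin N)) (kd : Fin N → Fin N → Bool) (c : Bool) (K : ℕ)
    (hJ : JBK F kd c K) (hL0 : 0 < L) (w : ℕ) (hw : 2 * (N * L) ≤ K * w)
    (𝒜 : Finset (Finset (Fin N × Fin L)))
    (hA : ∀ A ∈ 𝒜, OkK F kd c Prod.fst A)
    (hAd : ∀ A ∈ 𝒜, ∀ B ∈ 𝒜, A ≠ B → Disjoint A B)
    (hno : ∀ A ∈ 𝒜, ∀ B ∈ 𝒜, A ≠ B → ∃ a ∈ A, ∃ b ∈ B, ¬ F.Adj a.1 b.1) :
    𝒜.card ≤ 2 * w := by
  classical
  by_contra hcon
  push Not at hcon
  obtain ⟨𝒜1, hsub, hcard⟩ := exists_subset_card_eq (s := 𝒜) (n := w) (by omega)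
  have h2 : w ≤ (𝒜 \ 𝒜1).card := by
    have := card_sdiff_add_card_eq_card hsub
    omega
  obtain ⟨A, hA1, B, hB1, hAB⟩ := bip F kd c K hJ Prod.fst L hL0 fibre_card 𝒜1 (𝒜 \ 𝒜1)
    (fun A h => hA A (hsub h)) (fun A h B h' => hAd A (hsub h) B (hsub h'))
    (fun A h => hA A (mem_sdiff.1 h).1)
    (fun A h B h' => hAd A (mem_sdiff.1 h).1 B (mem_sdiff.1 h').1)
    (by rw [hcard]; exact hw)
    (hw.trans (Nat.mul_le_mul_left _ h2))
  have hne : A ≠ B := by
    rintro rfl
    exact (mem_sdiff.1 hB1).2 hA1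
  obtain ⟨a, ha, b, hb, hab⟩ := hno A (hsub hA1) B (mem_sdiff.1 hB1).1 hne
  exact hab (hAB a ha b hb)

/-- STEP (a): all but `10 w` vertices are positive with mutual `beta < 1`. -/
theorem exists_V1 (F : SimpleGraph (Fin N)) (hF : F.CliqueFree 3) (kd : Fin N → Fin N → Bool)
    (hkd : ∀ a b, kd a b = kd b a) (K : ℕ) (hJ : ∀ c, JBK F kd c K) (hL : 3 ≤ L)
    {M : Matrix (Fin N × Fin L) (Fin N × Fin L) ℝ} (hM : M.IsSymm)
    (hneg : ∀ u v, u ≠ v → M u v ≤ 0) (hzero : ∀ u v, u ≠ v → (M u v = 0 ↔ F.Adj u.1 v.1))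
    (b : Fin N × Fin L → ℝ) (hb0 : ∀ v, 0 ≤ b v)
    (hb : ∀ z : Fin N × Fin L → ℝ, 0 ≤ z ⬝ᵥ M *ᵥ z + (b ⬝ᵥ z) ^ 2)
    (w : ℕ) (hw : 2 * (N * L) ≤ K * w) :
    ∃ V1 : Finset (Fin N × Fin L), (∀ u ∈ V1, 0 < M u u) ∧
      (∀ u ∈ V1, ∀ v ∈ V1, u ≠ v → beta M u v < 1) ∧
      (univ \ V1).card ≤ 10 * w := by
  classical
  let Z : Finset (Fin N × Fin L) := univ.filter (fun u => M u u ≤ 0)
  let S : Finset (Fin N × Fin L) := univ.filter (fun u => 0 < M u u)
  have hZadj : ∀ u ∈ Z, ∀ v ∈ Z, ¬ F.Adj u.1 v.1 := by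
    intro u hu v hv hadj
    simp only [Z, mem_filter, mem_univ, true_and] at hu hv
    have hs : ∀ u : Fin N × Fin L,
        (Pi.single u (1 : ℝ)) ⬝ᵥ M *ᵥ (Pi.single u (1 : ℝ)) = M u u := by
      intro u
      rw [Matrix.mulVec_single_one, single_dotProduct, one_mul, Matrix.col_apply]
    refine S60A840.lemmaA_blow F hF hL hM hneg hzero b hb0 hb {u} {v}
      (Pi.single u 1) (Pi.single v 1) ?_ ?_ ?_ ?_ (singleton_nonempty _) (singleton_nonempty _)
      (by simp) (by simp) ?_ (by rw [hs]; exact hu) (by rw [hs]; exact hv)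
    · intro w hw; rw [mem_singleton] at hw; subst hw; simp
    · intro w hw; rw [mem_singleton] at hw; simp [hw]
    · intro w hw; rw [mem_singleton] at hw; subst hw; simp
    · intro w hw; rw [mem_singleton] at hw; simp [hw]
    · intro a ha c hc
      rw [mem_singleton] at ha hc
      subst ha; subst hc; exact hadj
  have hZ : Z.card ≤ 2 * w := by
    have h := fam_card F kd true K (hJ true) (by omega) w hw
      (Z.map ⟨fun u => ({u} : Finset (Fin N × Fin L)), singleton_injective⟩) ?_ ?_ ?_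
    · rwa [card_map] at h
    · intro A hA
      rw [mem_map] at hA
      obtain ⟨u, hu, rfl⟩ := hA
      exact okK_single F kd true Prod.fst u
    · intro A hA B hB hAB
      rw [mem_map] at hA hB
      obtain ⟨u, hu, rfl⟩ := hA
      obtain ⟨v, hv, rfl⟩ := hB
      simp only [Function.Embedding.coeFn_mk] at hAB ⊢
      rw [disjoint_singleton]
      rintro rfl; exact hAB rfl
    · intro A hA B hB _
      rw [mem_map] at hA hB
      obtain ⟨u, hu, rfl⟩ := hA
      obtain ⟨v, hv, rfl⟩ := hB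
      exact ⟨u, by simp, v, by simp, hZadj u hu v hv⟩
  have hnadj : ∀ u v, u ≠ v → 0 < beta M u v → ¬ F.Adj u.1 v.1 := by
    intro u v huv hpos hadj
    rw [beta, (hzero u v huv).2 hadj] at hpos
    simp at hpos
  obtain ⟨P1, hP1m, hP1, hP1max⟩ := exists_maxMatch (fun u v => 1 ≤ beta M u v) S
  have hpair : ∀ p ∈ P1, ∃ y : Fin N × Fin L → ℝ,
      (∀ v ∈ ({p.1, p.2} : Finset (Fin N × Fin L)), 0 < y v) ∧
      (∀ v, v ∉ ({p.1, p.2} : Finset (Fin N × Fin L)) → y v = 0) ∧ y ⬝ᵥ M *ᵥ y ≤ 0 := by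
    intro p hp
    obtain ⟨h1, h2, h3⟩ := hP1 p hp
    simp only [S, mem_filter, mem_univ, true_and] at h1 h2
    have hne := hP1m.1 p hp
    have hs1 : 0 < Real.sqrt (M p.1 p.1) := Real.sqrt_pos.2 h1
    have hs2 : 0 < Real.sqrt (M p.2 p.2) := Real.sqrt_pos.2 h2
    refine ⟨fun w => if w = p.1 then (Real.sqrt (M p.1 p.1))⁻¹ else
      if w = p.2 then (Real.sqrt (M p.2 p.2))⁻¹ else 0, ?_, ?_, ?_⟩
    · intro v hv
      rw [mem_insert, mem_singleton] at hv
      by_cases h : v = p.1
      · simp only [h, if_true]; positivity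
      · have h' : v = p.2 := by tauto
        simp only [h, if_false, h', if_true]
        rw [if_neg (by rw [← h']; exact h)]
        positivity
    · intro v hv
      rw [mem_insert, mem_singleton, not_or] at hv
      simp [hv.1, hv.2]
    · rw [quad_pair M hM p.1 p.2 hne]
      have e1 : (Real.sqrt (M p.1 p.1))⁻¹ ^ 2 * M p.1 p.1 = 1 := by
        rw [inv_pow, Real.sq_sqrt h1.le]; field_simp
      have e2 : (Real.sqrt (M p.2 p.2))⁻¹ ^ 2 * M p.2 p.2 = 1 := by
        rw [inv_pow, Real.sq_sqrt h2.le]; field_simp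
      have e3 : 2 * (Real.sqrt (M p.1 p.1))⁻¹ * (Real.sqrt (M p.2 p.2))⁻¹ * M p.1 p.2
          = -2 * beta M p.1 p.2 := by
        rw [beta]; field_simp
      rw [e1, e2, e3]
      linarith
  -- the pairs of one kind
  let f : (Fin N × Fin L) × (Fin N × Fin L) → Finset (Fin N × Fin L) := fun p => {p.1, p.2}
  have hinj : Set.InjOn f (P1 : Set _) := by
    intro p hp q hq hpq
    by_contra hne
    have := hP1m.2 p hp q hq hne
    have h2 : f p = f q := hpq
    simp only [f] at h2
    rw [h2, disjoint_self] at this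
    exact absurd this (insert_ne_empty _ _)
  have hkind : ∀ c : Bool, (P1.filter (fun p => kd p.1.1 p.2.1 = c)).card ≤ 2 * w := by
    intro c
    have hsub : P1.filter (fun p => kd p.1.1 p.2.1 = c) ⊆ P1 := filter_subset _ _
    have h := fam_card F kd c K (hJ c) (by omega) w hw
      ((P1.filter (fun p => kd p.1.1 p.2.1 = c)).image f) ?_ ?_ ?_
    · rwa [card_image_of_injOn (hinj.mono (by exact_mod_cast hsub))] at h
    · intro A hA
      rw [mem_image] at hA
      obtain ⟨p, hp, rfl⟩ := hA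
      rw [mem_filter] at hp
      exact okK_pair F kd hkd c Prod.fst p.1 p.2
        (hnadj _ _ (hP1m.1 p hp.1) (lt_of_lt_of_le one_pos (hP1 p hp.1).2.2)) (Or.inr hp.2)
    · intro A hA B hB hAB
      rw [mem_image] at hA hB
      obtain ⟨p, hp, rfl⟩ := hA
      obtain ⟨q, hq, rfl⟩ := hB
      exact hP1m.2 p (hsub hp) q (hsub hq) (by rintro rfl; exact hAB rfl)
    · intro A hA B hB hAB
      rw [mem_image] at hA hB
      obtain ⟨p, hp, rfl⟩ := hA
      obtain ⟨q, hq, rfl⟩ := hB
      by_contra hcon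
      push Not at hcon
      obtain ⟨y, hy1, hy2, hy3⟩ := hpair p (hsub hp)
      obtain ⟨z, hz1, hz2, hz3⟩ := hpair q (hsub hq)
      exact S60A840.lemmaA_blow F hF hL hM hneg hzero b hb0 hb (f p) (f q) y z hy1 hy2 hz1 hz2
        (insert_nonempty _ _) (insert_nonempty _ _) card_le_two card_le_two hcon hy3 hz3
  have hP1card : P1.card ≤ 4 * w := by
    have hcov : P1 ⊆ P1.filter (fun p => kd p.1.1 p.2.1 = true) ∪
        P1.filter (fun p => kd p.1.1 p.2.1 = false) := by
      intro p hp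
      rw [mem_union, mem_filter, mem_filter]
      cases h : kd p.1.1 p.2.1
      · right; exact ⟨hp, rfl⟩
      · left; exact ⟨hp, rfl⟩
    have h1 := (card_le_card hcov).trans (card_union_le _ _)
    have h2 := hkind true
    have h3 := hkind false
    omega
  refine ⟨S \ verts P1, ?_, ?_, ?_⟩
  · intro u hu
    rw [mem_sdiff] at hu
    have := hu.1
    simp only [S, mem_filter, mem_univ, true_and] at this
    exact this
  · intro u hu v hv huv
    rw [mem_sdiff] at hu hv
    have := hP1max u hu.1 v hv.1 hu.2 hv.2 huv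
    push Not at this
    exact this
  · have hcov : (univ \ (S \ verts P1) : Finset (Fin N × Fin L)) ⊆ Z ∪ verts P1 := by
      intro u hu
      rw [mem_sdiff, mem_sdiff] at hu
      rw [mem_union]
      by_cases h1 : M u u ≤ 0
      · left; simp [Z, h1]
      · right
        by_contra h2
        apply hu.2
        refine ⟨?_, h2⟩
        simp only [S, mem_filter, mem_univ, true_and]
        exact not_le.1 h1
    have h1 := (card_le_card hcov).trans (card_union_le _ _)
    have h3 := card_verts_le P1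
    omega

end Crest.Agent.R042.S60SysK840
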