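import Mathlib
import Crest.Agent.R042.S60Items_822
import Crest.Agent.R042.S60CE_693
import Crest.Agent.R042.S60GeomK_427
import Crest.Agent.R042.S60SysK_840
import Crest.Agent.R042.S60End_427
import Crest.Agent.R042.HJK_883

/-! Row 42, S0060: final assembly from `HJK` (route helper66 #27013). -/

set_option autoImplicit false
set_option linter.unusedVariables false

namespace Crest.Agent.R042.S60Fin822

open Finset Matrix
open Crest.Agent.R042.S60Sys840 (verts mem_verts IsMatch beta)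
open Crest.Agent.R042.S60Geom427 (X It supp Yv fv isP)
open Crest.Agent.R042.S60BipK427 (JBK OkK okK_single)
open Crest.Agent.R042.S60Core (bet bet_ne)

/-- sums over a subtype -/
theorem sum_erase_sub {I : Type*} [DecidableEq I] (J : Finset I) [inst : DecidableEq ↥J]
    (i : ↥J) (f : I → ℝ) :
    ∑ j ∈ @Finset.erase ↥J inst (univ : Finset ↥J) i, f j.1 = ∑ j ∈ J.erase i.1, f j := by
  have h1 := Finset.add_sum_erase (univ : Finset ↥J) (fun j => f j.1) (mem_univ i)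
  have h2 := Finset.add_sum_erase J f i.2
  have h3 : ∑ j : ↥J, f j.1 = ∑ j ∈ J, f j := Finset.sum_coe_sort J f
  linarith

variable {N L : ℕ}

/-- STAGE 1: single vertices, rows and good set. -/
theorem stage1 (F : SimpleGraph (Fin N)) (kd : Fin N → Fin N → Bool) (c : Bool)
    (K : ℕ) (hJ : JBK F kd c K) (hL : 0 < L) (w : ℕ) (hw : 2 * (N * L) ≤ K * w)
    {M : Matrix (Fin N × Fin L) (Fin N × Fin L) ℝ} (hM : M.IsSymm)
    (hneg : ∀ u v, u ≠ v → M u v ≤ 0) (hzero : ∀ u v, u ≠ v → (M u v = 0 ↔ F.Adj u.1 v.1))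
    (b : Fin N × Fin L → ℝ) (hb0 : ∀ v, 0 ≤ b v)
    (hb : ∀ z : Fin N × Fin L → ℝ, 0 ≤ z ⬝ᵥ M *ᵥ z + (b ⬝ᵥ z) ^ 2)
    (V1 : Finset (Fin N × Fin L)) (hpos : ∀ u ∈ V1, 0 < M u u)
    (η : ℝ) (hη : 0 < η) (R : ℝ) (hR : R = ((2 : ℝ) ^ N + 2) ^ 2 * 2 ^ N / η) :
    ∃ (V2 : Finset (Fin N × Fin L)) (G : Finset ↥V2), V2 ⊆ V1 ∧
      (V1.card : ℝ) ≤ V2.card + (6 * w + η * V1.card) ∧
      ((univ \ G).card : ℝ) ≤ 32 * (1 + R + R ^ 2) * √(1 + R) * √((V2.card : ℕ) : ℝ) ∧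
      ∀ i ∈ G, ∑ j, bet M (fun i : ↥V2 => X M i.1) i j ^ 2
        + ∑ w ∈ univ.erase i, (∑ u, bet M (fun i : ↥V2 => X M i.1) i u
          * bet M (fun i : ↥V2 => X M i.1) u w) ^ 2 ≤ 1001 / 1000 := by
  classical
  obtain ⟨J, hJ1, hJ2⟩ := S60Items822.rows_items F kd c K hJ hL w hw M hM b hb hb0
    (I := ↥V1) (fun i => X M i.1) (fun i v => S60Geom427.X_nonneg M i.1 v)
    (fun i => S60Geom427.X_self M i.1 (hpos i.1 i.2))
    (fun i j hij => S60Geom427.X_off M hneg i.1 j.1 (fun h => hij (Subtype.ext h)))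
    (fun i => {i.1}) (fun i => okK_single F kd c _ i.1)
    (fun i j hij => by
      rw [Finset.disjoint_singleton]
      exact fun h => hij (Subtype.ext h))
    (fun i j h => by
      have hadj : F.Adj i.1.1 j.1.1 := h i.1 (mem_singleton_self _) j.1 (mem_singleton_self _)
      refine S60Geom427.X_zero M i.1 j.1 ((hzero i.1 j.1 ?_).2 hadj)
      rintro h'
      rw [h'] at hadj
      exact F.loopless.irrefl _ hadj) η hη
  set V2 : Finset (Fin N × Fin L) := J.map ⟨Subtype.val, Subtype.val_injective⟩ with hV2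
  have hmem : ∀ v : Fin N × Fin L, v ∈ V2 ↔ ∃ h : v ∈ V1, (⟨v, h⟩ : ↥V1) ∈ J := by
    intro v
    rw [hV2, Finset.mem_map]
    constructor
    · rintro ⟨⟨a, ha⟩, h1, h2⟩
      simp only [Function.Embedding.coeFn_mk] at h2
      subst h2
      exact ⟨ha, h1⟩
    · rintro ⟨h, h'⟩
      exact ⟨⟨v, h⟩, h', rfl⟩
  have hsub : V2 ⊆ V1 := fun v hv => ((hmem v).1 hv).1
  have hcardV2 : V2.card = J.card := by rw [hV2, card_map]
  have hmap : ∀ f : Fin N × Fin L → ℝ, ∑ v ∈ V2, f v = ∑ j ∈ J, f j.1 := by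
    intro f
    rw [hV2, Finset.sum_map]; rfl
  have hrow : ∀ i : ↥V2, ∑ j ∈ univ.erase i,
      -((fun i : ↥V2 => X M i.1) i ⬝ᵥ M *ᵥ (fun i : ↥V2 => X M i.1) j) ≤ R := by
    intro i
    have hi := (hmem i.1).1 i.2
    have e1 : ∑ j ∈ univ.erase i, -((fun i : ↥V2 => X M i.1) i ⬝ᵥ M *ᵥ (fun i : ↥V2 => X M i.1) j)
        = ∑ v ∈ V2.erase i.1, -(X M i.1 ⬝ᵥ M *ᵥ X M v) :=
      sum_erase_sub V2 i (fun v => -(X M i.1 ⬝ᵥ M *ᵥ X M v))
    have e2 : ∑ v ∈ V2.erase i.1, -(X M i.1 ⬝ᵥ M *ᵥ X M v)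
        = ∑ j ∈ J.erase ⟨i.1, hi.1⟩, -(X M i.1 ⬝ᵥ M *ᵥ X M j.1) := by
      have h1 := Finset.add_sum_erase V2 (fun v => -(X M i.1 ⬝ᵥ M *ᵥ X M v)) i.2
      have h2 := Finset.add_sum_erase J (fun j => -(X M i.1 ⬝ᵥ M *ᵥ X M j.1)) hi.2
      have h3 : ∑ v ∈ V2, -(X M i.1 ⬝ᵥ M *ᵥ X M v)
          = ∑ j ∈ J, -(X M i.1 ⬝ᵥ M *ᵥ X M j.1) := hmap (fun v => -(X M i.1 ⬝ᵥ M *ᵥ X M v))
      linarith
    rw [e1, e2, hR]
    exact hJ2 ⟨i.1, hi.1⟩ hi.2
  have hR0 : 0 ≤ R := by rw [hR]; positivity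
  obtain ⟨G, hG1, hG2⟩ := S60CE.good_set hM b hb (fun i : ↥V2 => X M i.1)
    (fun i => S60Geom427.X_self M i.1 (hpos i.1 (hsub i.2)))
    (fun i j hij => S60Geom427.X_off M hneg i.1 j.1 (fun h => hij (Subtype.ext h))) R hR0 hrow
  refine ⟨V2, G, hsub, ?_, ?_, hG2⟩
  · have h1 : (univ \ J).card + J.card = Fintype.card ↥V1 := by
      rw [card_sdiff_add_card_eq_card (subset_univ _), card_univ]
    rw [Fintype.card_coe] at h1
    rw [Fintype.card_coe] at hJ1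
    have h2 : (((univ \ J).card : ℕ) : ℝ) + (J.card : ℝ) = (V1.card : ℝ) := by exact_mod_cast h1
    rw [hcardV2]
    linarith
  · rw [Fintype.card_coe] at hG1
    exact hG1

/-- HEAVY MATCHING and KIND CHOICE. -/
theorem heavy_pairs (F : SimpleGraph (Fin N)) (kd : Fin N → Fin N → Bool)
    (hkd : ∀ a b, kd a b = kd b a)
    {M : Matrix (Fin N × Fin L) (Fin N × Fin L) ℝ} (hM : M.IsSymm)
    (hneg : ∀ u v, u ≠ v → M u v ≤ 0) (hzero : ∀ u v, u ≠ v → (M u v = 0 ↔ F.Adj u.1 v.1))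
    (V2 : Finset (Fin N × Fin L)) (hpos : ∀ u ∈ V2, 0 < M u u) (G : Finset ↥V2)
    (hG : ∀ i ∈ G, ∑ j, bet M (fun i : ↥V2 => X M i.1) i j ^ 2
        + ∑ w ∈ univ.erase i, (∑ u, bet M (fun i : ↥V2 => X M i.1) i u
          * bet M (fun i : ↥V2 => X M i.1) u w) ^ 2 ≤ 1001 / 1000)
    (hrk : (M.rank : ℝ) ≤ 501 / 1000 * (G.card : ℝ)) :
    ∃ (c : Bool) (V3 : Finset (Fin N × Fin L)) (P : Finset ((Fin N × Fin L) × (Fin N × Fin L))),
      V3 ⊆ V2 ∧ V3.card = G.card ∧ IsMatch P ∧ (∀ p ∈ P, p.1 ∈ V3 ∧ p.2 ∈ V3) ∧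
      (∀ p ∈ P, 9 / 10 ≤ beta M p.1 p.2) ∧
      (∀ p ∈ P, ¬ F.Adj p.1.1 p.2.1 ∧ (p.1.1 = p.2.1 ∨ kd p.1.1 p.2.1 = c)) ∧
      92 / 100 * (G.card : ℝ) ≤ 4 * (P.card : ℝ) := by
  classical
  have h1 : ∀ i : ↥V2, (fun i : ↥V2 => X M i.1) i ⬝ᵥ M *ᵥ (fun i : ↥V2 => X M i.1) i = 1 :=
    fun i => S60Geom427.X_self M i.1 (hpos i.1 i.2)
  have hoff : ∀ i j : ↥V2, i ≠ j →
      (fun i : ↥V2 => X M i.1) i ⬝ᵥ M *ᵥ (fun i : ↥V2 => X M i.1) j ≤ 0 :=
    fun i j hij => S60Geom427.X_off M hneg i.1 j.1 (fun h => hij (Subtype.ext h))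
  have hbb : ∀ i j : ↥V2, i ≠ j → bet M (fun i : ↥V2 => X M i.1) i j = beta M i.1 j.1 := by
    intro i j hij
    rw [bet_ne M _ hij]
    show -(X M i.1 ⬝ᵥ M *ᵥ X M j.1) = _
    rw [S60Geom427.X_beta, neg_neg]
  set Lt : Finset ↥V2 := G.filter (fun u => ∀ v ∈ G, bet M (fun i : ↥V2 => X M i.1) u v < 9 / 10)
    with hLt
  have hheavy := S60CE.heavy hM (fun i : ↥V2 => X M i.1) h1 hoff G hG hrk Lt
    (fun u hu => mem_filter.1 hu)
  set V3 : Finset (Fin N × Fin L) := G.map ⟨Subtype.val, Subtype.val_injective⟩ with hV3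
  have hmem : ∀ v : Fin N × Fin L, v ∈ V3 ↔ ∃ h : v ∈ V2, (⟨v, h⟩ : ↥V2) ∈ G := by
    intro v
    rw [hV3, Finset.mem_map]
    constructor
    · rintro ⟨⟨a, ha⟩, h1, h2⟩
      simp only [Function.Embedding.coeFn_mk] at h2
      subst h2
      exact ⟨ha, h1⟩
    · rintro ⟨h, h'⟩
      exact ⟨⟨v, h⟩, h', rfl⟩
  have hsq : ∀ i ∈ G, ∑ j, bet M (fun i : ↥V2 => X M i.1) i j ^ 2 ≤ 1001 / 1000 := by
    intro i hi
    have h2 := hG i hi
    have h3 : 0 ≤ ∑ w ∈ univ.erase i, (∑ u, bet M (fun i : ↥V2 => X M i.1) i u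
          * bet M (fun i : ↥V2 => X M i.1) u w) ^ 2 := sum_nonneg fun _ _ => sq_nonneg _
    linarith
  obtain ⟨c, P, hP, hPmem, hPcard⟩ := S60Geom427.exists_kind V3
    (fun u v => u ≠ v ∧ 9 / 10 ≤ beta M u v)
    (fun u v h => ⟨h.1.symm, by rw [S60Geom427.beta_comm M hM]; exact h.2⟩)
    (fun u h => h.1 rfl)
    (fun u hu v hv w hw huv huw => by
      obtain ⟨hu2, huG⟩ := (hmem u).1 hu
      obtain ⟨hv2, hvG⟩ := (hmem v).1 hv
      obtain ⟨hw2, hwG⟩ := (hmem w).1 hw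
      have e := S60CE.heavy_unique (M := M) (fun i : ↥V2 => X M i.1) ⟨u, hu2⟩ (hsq _ huG)
        (v := ⟨v, hv2⟩) (w := ⟨w, hw2⟩)
        (by rw [hbb _ _ (fun h => huv.1 (congrArg Subtype.val h))]; exact huv.2)
        (by rw [hbb _ _ (fun h => huw.1 (congrArg Subtype.val h))]; exact huw.2)
      exact congrArg Subtype.val e)
    (fun c u v => u.1 = v.1 ∨ kd u.1 v.1 = c)
    (fun u v => by
      cases h : kd u.1 v.1
      · exact Or.inr (Or.inr rfl)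
      · exact Or.inl (Or.inr rfl))
    (fun c u v h => by
      rcases h with h | h
      · exact Or.inl h.symm
      · exact Or.inr (by rw [hkd]; exact h))
  refine ⟨c, V3, P, ?_, ?_, hP, fun p hp => ⟨(hPmem p hp).1, (hPmem p hp).2.1⟩,
    fun p hp => (hPmem p hp).2.2.1.2, ?_, ?_⟩
  · intro v hv
    exact ((hmem v).1 hv).1
  · rw [hV3, card_map]
  · intro p hp
    refine ⟨fun hadj => ?_, (hPmem p hp).2.2.2⟩
    have h0 := (hzero p.1 p.2 (hPmem p hp).2.2.1.1).2 hadj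
    have h9 := (hPmem p hp).2.2.1.2
    unfold beta at h9
    rw [h0] at h9
    norm_num at h9
  · have hsub : (G \ Lt).map ⟨Subtype.val, Subtype.val_injective⟩ ⊆
        V3.filter (fun u => ∃ v ∈ V3, u ≠ v ∧ 9 / 10 ≤ beta M u v) := by
      intro u hu
      obtain ⟨i, hi, rfl⟩ := Finset.mem_map.1 hu
      rw [mem_sdiff] at hi
      have hiG := hi.1
      have hex : ∃ v ∈ G, 9 / 10 ≤ bet M (fun i : ↥V2 => X M i.1) i v := by
        by_contra hcon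
        push Not at hcon
        exact hi.2 (mem_filter.2 ⟨hiG, hcon⟩)
      obtain ⟨v, hvG, hv⟩ := hex
      have hne : i ≠ v := by
        rintro rfl
        rw [S60Core.bet_self] at hv
        norm_num at hv
      refine mem_filter.2 ⟨(hmem _).2 ⟨i.2, hiG⟩, v.1, (hmem _).2 ⟨v.2, hvG⟩,
        fun h => hne (Subtype.ext h), ?_⟩
      rw [hbb _ _ hne] at hv
      exact hv
    have hc1 := card_le_card hsub
    rw [card_map] at hc1
    have hc2 : (G \ Lt).card + Lt.card = G.card :=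
      card_sdiff_add_card_eq_card (filter_subset _ _)
    have hc3 : (V3.filter (fun u => ∃ v ∈ V3, u ≠ v ∧ 9 / 10 ≤ beta M u v)).card ≤ 4 * P.card := by
      convert hPcard
    have hc4 : (G \ Lt).card ≤ 4 * P.card := hc1.trans hc3
    have hc5 : (((G \ Lt).card : ℕ) : ℝ) ≤ 4 * (P.card : ℝ) := by exact_mod_cast hc4
    have hc6 : (((G \ Lt).card : ℕ) : ℝ) + (Lt.card : ℝ) = (G.card : ℝ) := by exact_mod_cast hc2
    linarith

/-- STAGE 2: pairs and singles, rows and count. -/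
theorem stage2 (F : SimpleGraph (Fin N)) (kd : Fin N → Fin N → Bool)
    (hkd : ∀ a b, kd a b = kd b a) (c : Bool)
    (K : ℕ) (hJ : JBK F kd c K) (hL : 0 < L) (w : ℕ) (hw : 2 * (N * L) ≤ K * w)
    {M : Matrix (Fin N × Fin L) (Fin N × Fin L) ℝ} (hM : M.IsSymm)
    (hneg : ∀ u v, u ≠ v → M u v ≤ 0) (hzero : ∀ u v, u ≠ v → (M u v = 0 ↔ F.Adj u.1 v.1))
    (b : Fin N × Fin L → ℝ) (hb0 : ∀ v, 0 ≤ b v)
    (hb : ∀ z : Fin N × Fin L → ℝ, 0 ≤ z ⬝ᵥ M *ᵥ z + (b ⬝ᵥ z) ^ 2)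
    (V3 : Finset (Fin N × Fin L)) (P : Finset ((Fin N × Fin L) × (Fin N × Fin L)))
    (hpos : ∀ u ∈ V3, 0 < M u u) (hP : IsMatch P) (hPJ : ∀ p ∈ P, p.1 ∈ V3 ∧ p.2 ∈ V3)
    (hb9 : ∀ p ∈ P, 9 / 10 ≤ beta M p.1 p.2) (hb1 : ∀ p ∈ P, beta M p.1 p.2 < 1)
    (hPc : ∀ p ∈ P, ¬ F.Adj p.1.1 p.2.1 ∧ (p.1.1 = p.2.1 ∨ kd p.1.1 p.2.1 = c))
    (η : ℝ) (hη : 0 < η) (R : ℝ) (hR : R = ((2 : ℝ) ^ N + 2) ^ 2 * 2 ^ N / η)
    (D : ℝ) (hD : 32 * (1 + R + R ^ 2) * √(1 + R) * √((V3.card : ℕ) : ℝ) ≤ D)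
    (hbig : 19 / 100 * (V3.card : ℝ) + (6 * w + η * V3.card) + D ≤ (P.card : ℝ)) :
    (V3.card : ℝ) ≤ 1832 / 1000 * (M.rank : ℝ) + 2 * D + 2 * (6 * w + η * V3.card) := by
  classical
  have h1 : ∀ i : It V3 P, Yv M i ⬝ᵥ M *ᵥ Yv M i = 1 := S60Geom427.Y_self M hM hP hPJ hpos hb1
  have hoff : ∀ i j : It V3 P, i ≠ j → Yv M i ⬝ᵥ M *ᵥ Yv M j ≤ 0 := S60Geom427.Y_off M hneg hP
  obtain ⟨J, hJ1, hJ2⟩ := S60Items822.rows_items F kd c K hJ hL w hw M hM b hb hb0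
    (I := It V3 P) (fun i => Yv M i) (fun i v => S60Geom427.Y_nonneg M i v) h1 hoff
    (fun i => supp i) (fun i => S60GeomK427.okK_item F kd hkd c _ hPc i)
    (fun i j hij => S60Geom427.supp_disj hP i j hij)
    (fun i j h => S60GeomK427.Y_joined F Prod.fst M hzero i j
      ((S60Bip427.tadj_typ F Prod.fst supp i j).2 h)) η hη
  have hR0 : 0 ≤ R := by rw [hR]; positivity
  have hcI := S60Geom427.card_It V3 P hP hPJ
  have hcP := S60Geom427.card_isP V3 P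
  have hJle : J.card ≤ V3.card := by
    have := card_le_univ J
    omega
  have hrow : ∀ i : ↥J, ∑ j ∈ univ.erase i,
      -((fun i : ↥J => Yv M i.1) i ⬝ᵥ M *ᵥ (fun i : ↥J => Yv M i.1) j) ≤ R := by
    intro i
    have e1 : ∑ j ∈ univ.erase i, -((fun i : ↥J => Yv M i.1) i ⬝ᵥ M *ᵥ (fun i : ↥J => Yv M i.1) j)
        = ∑ v ∈ J.erase i.1, -(Yv M i.1 ⬝ᵥ M *ᵥ Yv M v) :=
      sum_erase_sub J i (fun v => -(Yv M i.1 ⬝ᵥ M *ᵥ Yv M v))
    rw [e1, hR]
    exact hJ2 i.1 i.2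
  -- number of pairs among the remaining items
  set q : ℕ := (univ.filter (fun i : ↥J => isP i.1)).card with hq
  have hq1 : q = (J.filter (fun i => isP i)).card := by
    have e : J.filter (fun i => isP i) =
        (univ.filter (fun i : ↥J => isP i.1)).map ⟨Subtype.val, Subtype.val_injective⟩ := by
      ext i
      simp only [mem_filter, Finset.mem_map, mem_univ, true_and, Function.Embedding.coeFn_mk]
      constructor
      · rintro ⟨h, h'⟩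
        exact ⟨⟨i, h⟩, h', rfl⟩
      · rintro ⟨a, h, rfl⟩
        exact ⟨a.2, h⟩
    rw [e, card_map]
  have hq2 : P.card ≤ q + (univ \ J).card := by
    rw [hq1, ← hcP]
    have hs : univ.filter (isP (J := V3) (P := P)) ⊆ J.filter (fun i => isP i) ∪ (univ \ J) := by
      intro i hi
      rw [mem_filter] at hi
      by_cases hiJ : i ∈ J
      · exact mem_union_left _ (mem_filter.2 ⟨hiJ, hi.2⟩)
      · exact mem_union_right _ (mem_sdiff.2 ⟨mem_univ _, hiJ⟩)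
    exact (card_le_card hs).trans (card_union_le _ _)
  have hq3 : q ≤ P.card := by
    rw [hq1, ← hcP]
    exact card_le_card (filter_subset_filter _ (subset_univ _))
  have hJ3 : (univ \ J).card + J.card = Fintype.card (It V3 P) := by
    rw [card_sdiff_add_card_eq_card (subset_univ _), card_univ]
  have hIle : (Fintype.card (It V3 P) : ℝ) ≤ V3.card := by
    have : Fintype.card (It V3 P) ≤ V3.card := by omega
    exact_mod_cast this
  have hE : (((univ \ J).card : ℕ) : ℝ) ≤ 6 * w + η * V3.card := by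
    refine hJ1.trans ?_
    have := mul_le_mul_of_nonneg_left hIle hη.le
    linarith
  have hJ3' : (((univ \ J).card : ℕ) : ℝ) + (J.card : ℝ) + (P.card : ℝ) = V3.card := by
    have : (univ \ J).card + J.card + P.card = V3.card := by omega
    exact_mod_cast this
  have hq2' : (P.card : ℝ) ≤ q + (((univ \ J).card : ℕ) : ℝ) := by exact_mod_cast hq2
  have hq3' : (q : ℝ) ≤ P.card := by exact_mod_cast hq3
  have hE0 : (0 : ℝ) ≤ (((univ \ J).card : ℕ) : ℝ) := Nat.cast_nonneg _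
  have hcJ : Fintype.card ↥J = J.card := Fintype.card_coe J
  have hcount := S60CE.count hM b hb (fun i : ↥J => Yv M i.1) (fun i : ↥J => fv M i.1)
    (fun i : ↥J => isP i.1) (fun i => h1 i.1)
    (fun i j hij => hoff i.1 j.1 (fun h => hij (Subtype.ext h)))
    (fun i hi => S60Geom427.f_f M hM hPJ hpos hb9 i.1 hi)
    (fun i hi => S60Geom427.f_Y_self M hM hP hPJ hpos i.1 hi)
    (fun i j hi hij => S60Geom427.f_Y M hneg hP hb9 hb1 i.1 j.1 hi
      (fun h => hij (Subtype.ext h)))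
    (fun i j hi hj hij => S60Geom427.f_f_off M hM hneg hP hb9 hb1 i.1 j.1 hi hj
      (fun h => hij (Subtype.ext h)))
    R hR0 hrow D
    (by
      refine le_trans ?_ hD
      rw [hcJ]
      have : √((J.card : ℕ) : ℝ) ≤ √((V3.card : ℕ) : ℝ) :=
        Real.sqrt_le_sqrt (by exact_mod_cast hJle)
      exact mul_le_mul_of_nonneg_left this (by positivity))
    (by
      rw [hcJ]
      show 19 / 100 * ((J.card : ℝ) + (q : ℝ)) + D ≤ (q : ℝ)
      linarith)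
  rw [hcJ] at hcount
  have hcount' : (J.card : ℝ) + (q : ℝ) ≤ 1832 / 1000 * (M.rank : ℝ) + 2 * D := hcount
  linarith

/-- THE CORE: `Core N F L` for all large `L` from the kinds property. -/
theorem core_of_jbk {N : ℕ} (hN : 0 < N) (F : SimpleGraph (Fin N)) (hF : F.CliqueFree 3)
    (kd : Fin N → Fin N → Bool) (hkd : ∀ a b, kd a b = kd b a)
    (hJ : ∀ c, JBK F kd c 100000) :
    ∃ L0 : ℕ, ∀ L, L0 ≤ L → S60End427.Core N F L := by
  classical
  set η : ℝ := 1 / 10000 with hη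
  have hη0 : 0 < η := by rw [hη]; norm_num
  set R : ℝ := ((2 : ℝ) ^ N + 2) ^ 2 * 2 ^ N / η with hR
  have hR0 : 0 ≤ R := by rw [hR]; positivity
  set C : ℝ := 32 * (1 + R + R ^ 2) * √(1 + R) with hC
  have hC0 : 0 ≤ C := by rw [hC]; positivity
  refine ⟨max 1000000 ⌈(10000 * C) ^ 2⌉₊, ?_⟩
  intro L hL
  have hL1 : 1000000 ≤ L := (le_max_left _ _).trans hL
  have hL2 : ⌈(10000 * C) ^ 2⌉₊ ≤ L := (le_max_right _ _).trans hL
  have hLm : L ≤ N * L := Nat.le_mul_of_pos_left L hN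
  set m : ℕ := N * L with hm
  have hm1 : (1000000 : ℝ) ≤ m := by exact_mod_cast hL1.trans hLm
  have hm2 : (10000 * C) ^ 2 ≤ (m : ℝ) := by
    have h1 : (10000 * C) ^ 2 ≤ (⌈(10000 * C) ^ 2⌉₊ : ℝ) := Nat.le_ceil _
    have h2 : (⌈(10000 * C) ^ 2⌉₊ : ℝ) ≤ m := by exact_mod_cast hL2.trans hLm
    linarith
  have hroot : ∀ k : ℕ, k ≤ m → C * √(k : ℝ) ≤ (m : ℝ) / 10000 := by
    intro k hk
    have h0 : (0 : ℝ) ≤ m := by linarith
    have h1 : 10000 * C ≤ √(m : ℝ) := Real.le_sqrt_of_sq_le hm2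
    have h2 : √(k : ℝ) ≤ √(m : ℝ) := Real.sqrt_le_sqrt (by exact_mod_cast hk)
    have h3 : √(m : ℝ) * √(m : ℝ) = m := Real.mul_self_sqrt h0
    have h4 : 0 ≤ √(m : ℝ) := Real.sqrt_nonneg _
    have h5 : C * √(k : ℝ) ≤ C * √(m : ℝ) := mul_le_mul_of_nonneg_left h2 hC0
    have h6 : 10000 * C * √(m : ℝ) ≤ √(m : ℝ) * √(m : ℝ) := mul_le_mul_of_nonneg_right h1 h4
    linarith
  intro M hM hneg hzero b hb0 hb
  by_contra hcon
  have hrank : (M.rank : ℝ) ≤ (m : ℝ) / 2 + 1 := not_lt.1 hcon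
  have hL0 : 0 < L := by omega
  set w : ℕ := 2 * m / 100000 + 1 with hw
  have hw1 : 2 * (N * L) ≤ 100000 * w := by
    rw [← hm, hw]
    omega
  have hw2 : (w : ℝ) ≤ 2 * m / 100000 + 1 := by
    have h : 100000 * w ≤ 2 * m + 100000 := by rw [hw]; omega
    have h' : (100000 : ℝ) * w ≤ 2 * m + 100000 := by exact_mod_cast h
    linarith
  obtain ⟨V1, hpos, hbeta, hV1⟩ := S60SysK840.exists_V1 F hF kd hkd 100000 hJ (by omega) hM hneg
    hzero b hb0 hb w hw1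
  have hcu : Fintype.card (Fin N × Fin L) = m := by
    rw [Fintype.card_prod, Fintype.card_fin, Fintype.card_fin]
  have hV1' : (m : ℝ) ≤ V1.card + 10 * w := by
    have h := card_sdiff_add_card_eq_card (subset_univ V1)
    rw [card_univ, hcu] at h
    have h' : m ≤ V1.card + 10 * w := by omega
    exact_mod_cast h'
  have hV1m : V1.card ≤ m := by
    have := card_le_univ V1
    rwa [hcu] at this
  obtain ⟨V2, G, hV21, hV2c, hGc, hG⟩ := stage1 F kd true 100000 (hJ true) hL0 w hw1 hM hneg hzero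
    b hb0 hb V1 hpos η hη0 R hR
  have hV2m : V2.card ≤ m := (card_le_card hV21).trans hV1m
  have hGc' : ((univ \ G).card : ℝ) ≤ (m : ℝ) / 10000 := hGc.trans (hroot _ hV2m)
  have hG1 : (((univ \ G).card : ℕ) : ℝ) + (G.card : ℝ) = V2.card := by
    have h := card_sdiff_add_card_eq_card (subset_univ G)
    rw [card_univ, Fintype.card_coe] at h
    exact_mod_cast h
  have hV1m' : (V1.card : ℝ) ≤ m := by exact_mod_cast hV1m
  have hGbig : (99948 / 100000 : ℝ) * m - 16 ≤ G.card := by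
    have h1 : η * (V1.card : ℝ) ≤ η * m := mul_le_mul_of_nonneg_left hV1m' hη0.le
    rw [hη] at h1 hV2c
    linarith
  have hrk : (M.rank : ℝ) ≤ 501 / 1000 * (G.card : ℝ) := by linarith
  obtain ⟨c, V3, P, hV32, hV3c, hP, hPJ, hb9, hPc, hPbig⟩ := heavy_pairs F kd hkd hM hneg hzero V2
    (fun u hu => hpos u (hV21 hu)) G hG hrk
  have hV3m : V3.card ≤ m := (card_le_card hV32).trans hV2m
  have hV3m' : (V3.card : ℝ) ≤ m := by exact_mod_cast hV3m
  have hV3G : (V3.card : ℝ) = G.card := by exact_mod_cast hV3c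
  have hfin := stage2 F kd hkd c 100000 (hJ c) hL0 w hw1 hM hneg hzero b hb0 hb V3 P
    (fun u hu => hpos u (hV21 (hV32 hu))) hP hPJ hb9
    (fun p hp => hbeta p.1 (hV21 (hV32 (hPJ p hp).1)) p.2 (hV21 (hV32 (hPJ p hp).2)) (hP.1 p hp))
    hPc η hη0 R hR ((m : ℝ) / 10000) (hroot _ hV3m)
    (by
      have h1 : η * (V3.card : ℝ) ≤ η * m := mul_le_mul_of_nonneg_left hV3m' hη0.le
      rw [hη] at h1 ⊢
      linarith)
  have h1 : η * (V3.card : ℝ) ≤ η * m := mul_le_mul_of_nonneg_left hV3m' hη0.le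
  rw [hη] at h1 hfin
  linarith

/-- S0060 (literal text) from `HJK 100000`. -/
theorem s60_of_hjk (h : S59Spine883.HJK 100000) :
    ∀ m₀ : ℕ, ∃ m : ℕ, m₀ ≤ m ∧ ∃ G : SimpleGraph (Fin m),
      Gᶜ.CliqueFree 3 ∧
      (∀ M : Matrix (Fin m) (Fin m) ℝ, Crest.CombinatoricsR.SpectralGraph.IsWellSigned G M →
        Crest.CombinatoricsR.SpectralGraph.negEigenvalueCount M = 1 →
        Crest.CombinatoricsR.SpectralGraph.HasStrongArnoldProperty G M →
        (Crest.CombinatoricsR.SpectralGraph.corank M : ℝ) + 1 < (m : ℝ) / 2) ∧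
      (∀ k : ℕ, G.Colorable k → m ≤ 2 * k) := by
  obtain ⟨N, hN, F, hF, kd, hkd, H⟩ := h
  obtain ⟨L0, hcore⟩ := core_of_jbk hN F hF kd hkd
    (fun c 𝒜 ℬ hA hB h1 h2 => H c 𝒜 ℬ hA hB h1 h2)
  exact S60End427.s60_of_core hN F hF L0 hcore

end Crest.Agent.R042.S60Fin822
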