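import Mathlib

/-!
Row 42, S0060, steps (3), (4), (4'), (5) (helper269).

`G` is the Gram matrix of the items (unit diagonal, non-positive off-diagonal entries), `τ` the type
map, `J a b` = the supports of the types `a`, `b` are completely joined, `P a b` = partially joined.
-/

set_option autoImplicit false
set_option linter.unusedSectionVars false

namespace Crest.Agent.R042.S60Four269

open Finset

section

variable {ι : Type*} [Fintype ι] [DecidableEq ι]

/-- the bilinear form with matrix `G` -/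
def QF (G : Matrix ι ι ℝ) (c d : ι → ℝ) : ℝ := ∑ x, ∑ y, c x * d y * G x y

/-- indicator function of a finset -/
def ind (A : Finset ι) : ι → ℝ := fun x => if x ∈ A then 1 else 0

lemma QF_ind (G : Matrix ι ι ℝ) (A B : Finset ι) :
    QF G (ind A) (ind B) = ∑ x ∈ A, ∑ y ∈ B, G x y := by
  unfold QF ind
  rw [← Finset.sum_subset (Finset.subset_univ A)]
  · refine Finset.sum_congr rfl fun x hx => ?_
    rw [← Finset.sum_subset (Finset.subset_univ B)]
    · refine Finset.sum_congr rfl fun y hy => ?_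
      simp [hx, hy]
    · intro y _ hy
      simp [hy]
  · intro x _ hx
    simp [hx]

/-- sum of the entries of `-G` over `A × B`, off the diagonal -/
def S (G : Matrix ι ι ℝ) (A B : Finset ι) : ℝ := ∑ x ∈ A, ∑ y ∈ B.erase x, (- G x y)

variable (G : Matrix ι ι ℝ) (hs : ∀ x y, G x y = G y x) (hd : ∀ x, G x x = 1)
  (ho : ∀ x y, x ≠ y → G x y ≤ 0)

include ho in
lemma S_nonneg (A B : Finset ι) : 0 ≤ S G A B := by
  unfold S
  refine Finset.sum_nonneg fun x _ => Finset.sum_nonneg fun y hy => ?_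
  have := ho x y (Finset.ne_of_mem_erase hy).symm
  linarith

include ho in
lemma S_mono {A A' B B' : Finset ι} (hA : A ⊆ A') (hB : B ⊆ B') : S G A B ≤ S G A' B' := by
  unfold S
  calc ∑ x ∈ A, ∑ y ∈ B.erase x, (- G x y) ≤ ∑ x ∈ A, ∑ y ∈ B'.erase x, (- G x y) := by
        refine Finset.sum_le_sum fun x _ => ?_
        refine Finset.sum_le_sum_of_subset_of_nonneg (Finset.erase_subset_erase _ hB) ?_
        intro y hy _
        have := ho x y (Finset.ne_of_mem_erase hy).symm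
        linarith
    _ ≤ _ := by
        refine Finset.sum_le_sum_of_subset_of_nonneg hA ?_
        intro x _ _
        refine Finset.sum_nonneg fun y hy => ?_
        have := ho x y (Finset.ne_of_mem_erase hy).symm
        linarith

lemma S_disj {A B : Finset ι} (h : Disjoint A B) : S G A B = - ∑ x ∈ A, ∑ y ∈ B, G x y := by
  unfold S
  rw [← Finset.sum_neg_distrib]
  refine Finset.sum_congr rfl fun x hx => ?_
  rw [Finset.erase_eq_of_notMem (Finset.disjoint_left.mp h hx), Finset.sum_neg_distrib]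

include hd in
lemma q_eq (A : Finset ι) : ∑ x ∈ A, ∑ y ∈ A, G x y = A.card - S G A A := by
  unfold S
  have : ∀ x ∈ A, ∑ y ∈ A, G x y = 1 - ∑ y ∈ A.erase x, (- G x y) := by
    intro x hx
    rw [← Finset.add_sum_erase _ _ hx, hd, Finset.sum_neg_distrib]
    ring
  rw [Finset.sum_congr rfl this, Finset.sum_sub_distrib]
  simp

include hs in
lemma S_symm {A B : Finset ι} (h : Disjoint A B) : S G A B = S G B A := by
  rw [S_disj G h, S_disj G h.symm, Finset.sum_comm]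
  congr 1
  refine Finset.sum_congr rfl fun x _ => Finset.sum_congr rfl fun y _ => hs _ _

include hs hd in
lemma q_union {A B : Finset ι} (h : Disjoint A B) :
    QF G (ind (A ∪ B)) (ind (A ∪ B)) = A.card + B.card - S G A A - S G B B - 2 * S G A B := by
  rw [QF_ind]
  rw [Finset.sum_union h]
  have e1 : ∑ x ∈ A, ∑ y ∈ A ∪ B, G x y = ∑ x ∈ A, ∑ y ∈ A, G x y + ∑ x ∈ A, ∑ y ∈ B, G x y := by
    rw [← Finset.sum_add_distrib]
    exact Finset.sum_congr rfl fun x _ => Finset.sum_union h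
  have e2 : ∑ x ∈ B, ∑ y ∈ A ∪ B, G x y = ∑ x ∈ B, ∑ y ∈ A, G x y + ∑ x ∈ B, ∑ y ∈ B, G x y := by
    rw [← Finset.sum_add_distrib]
    exact Finset.sum_congr rfl fun x _ => Finset.sum_union h
  rw [e1, e2, q_eq G hd A, q_eq G hd B]
  have h1 := S_disj G h
  have h2 := S_disj G h.symm
  have h3 := S_symm G hs h
  linarith

lemma cross_union {A B C D : Finset ι} (hAB : Disjoint A B) (hCD : Disjoint C D)
    (hAC : Disjoint A C) (hAD : Disjoint A D) (hBC : Disjoint B C) (hBD : Disjoint B D) :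
    QF G (ind (A ∪ B)) (ind (C ∪ D)) = - (S G A C + S G A D + S G B C + S G B D) := by
  rw [QF_ind, Finset.sum_union hAB]
  have e1 : ∑ x ∈ A, ∑ y ∈ C ∪ D, G x y = ∑ x ∈ A, ∑ y ∈ C, G x y + ∑ x ∈ A, ∑ y ∈ D, G x y := by
    rw [← Finset.sum_add_distrib]
    exact Finset.sum_congr rfl fun x _ => Finset.sum_union hCD
  have e2 : ∑ x ∈ B, ∑ y ∈ C ∪ D, G x y = ∑ x ∈ B, ∑ y ∈ C, G x y + ∑ x ∈ B, ∑ y ∈ D, G x y := by
    rw [← Finset.sum_add_distrib]
    exact Finset.sum_congr rfl fun x _ => Finset.sum_union hCD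
  rw [e1, e2, S_disj G hAC, S_disj G hAD, S_disj G hBC, S_disj G hBD]
  ring

end

variable {ι T : Type*} [Fintype ι] [DecidableEq ι] [Fintype T] [DecidableEq T]

/-- the items of type `a` -/
def fib (τ : ι → T) (a : T) : Finset ι := Finset.univ.filter fun x => τ x = a

omit [DecidableEq ι] [Fintype T] in
lemma mem_fib (τ : ι → T) (a : T) (x : ι) : x ∈ fib τ a ↔ τ x = a := by simp [fib]

omit [DecidableEq ι] [Fintype T] in
lemma fib_disj (τ : ι → T) {a b : T} (h : a ≠ b) : Disjoint (fib τ a) (fib τ b) := by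
  rw [Finset.disjoint_left]
  intro x hx hy
  rw [mem_fib] at hx hy
  exact h (hx.symm.trans hy)

/-- STEP (4) for the Q pairs. -/
theorem stepQ (τ : ι → T) (G : Matrix ι ι ℝ) (hs : ∀ x y, G x y = G y x) (hd : ∀ x, G x x = 1)
    (ho : ∀ x y, x ≠ y → G x y ≤ 0)
    (hR : ∀ c d, QF G c c < 0 → QF G d d < 0 → QF G c c * QF G d d ≤ (QF G c d) ^ 2)
    (J P : T → T → Prop)
    (hJ : ∀ x y, J (τ x) (τ y) → G x y = 0)
    (k1 : ℝ)
    (h1 : ∀ PP : Finset (ι × ι),
      (∀ p ∈ PP, p.1 ≠ p.2 ∧ ¬ J (τ p.1) (τ p.2) ∧ ¬ P (τ p.1) (τ p.2)) →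
      (∀ p ∈ PP, ∀ p' ∈ PP, p ≠ p' → p.1 ≠ p'.1 ∧ p.1 ≠ p'.2 ∧ p.2 ≠ p'.1 ∧ p.2 ≠ p'.2) →
      (∀ p ∈ PP, ∀ p' ∈ PP, p ≠ p' → ¬ (J (τ p.1) (τ p'.1) ∧ J (τ p.1) (τ p'.2) ∧
        J (τ p.2) (τ p'.1) ∧ J (τ p.2) (τ p'.2))) →
      (PP.card : ℝ) ≤ k1) :
    ∃ Z : Finset ι, (Z.card : ℝ) ≤ 2 * k1 ∧
      (∀ a b, a ≠ b → ¬ P a b →
        S G (fib τ a \ Z) (fib τ b \ Z) ≤ ((fib τ a).card + (fib τ b).card) / 2) ∧
      (∀ a, ¬ P a a → S G (fib τ a \ Z) (fib τ a \ Z) ≤ (fib τ a).card) := by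
  classical
  let valid : Finset (ι × ι) → Prop := fun PP =>
    (∀ p ∈ PP, p.1 ≠ p.2 ∧ ¬ J (τ p.1) (τ p.2) ∧ ¬ P (τ p.1) (τ p.2) ∧
      QF G (ind (fib τ (τ p.1) ∪ fib τ (τ p.2))) (ind (fib τ (τ p.1) ∪ fib τ (τ p.2))) < 0) ∧
    (∀ p ∈ PP, ∀ p' ∈ PP, p ≠ p' → p.1 ≠ p'.1 ∧ p.1 ≠ p'.2 ∧ p.2 ≠ p'.1 ∧ p.2 ≠ p'.2)
  obtain ⟨PP, hPPm, hmax⟩ := Finset.exists_max_image
    ((Finset.univ : Finset (Finset (ι × ι))).filter valid) (fun PP => PP.card)
    ⟨∅, by simp [valid]⟩
  have hPP : valid PP := (Finset.mem_filter.mp hPPm).2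
  have hcard : (PP.card : ℝ) ≤ k1 := by
    refine h1 PP (fun p hp => ⟨(hPP.1 p hp).1, (hPP.1 p hp).2.1, (hPP.1 p hp).2.2.1⟩) hPP.2 ?_
    intro p hp p' hp' _ hJJ
    have q1 := (hPP.1 p hp).2.2.2
    have q2 := (hPP.1 p' hp').2.2.2
    have h0 : QF G (ind (fib τ (τ p.1) ∪ fib τ (τ p.2)))
        (ind (fib τ (τ p'.1) ∪ fib τ (τ p'.2))) = 0 := by
      rw [QF_ind]
      refine Finset.sum_eq_zero fun x hx => Finset.sum_eq_zero fun y hy => hJ x y ?_
      rw [Finset.mem_union, mem_fib, mem_fib] at hx hy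
      rcases hx with hx | hx <;> rcases hy with hy | hy <;> rw [hx, hy]
      · exact hJJ.1
      · exact hJJ.2.1
      · exact hJJ.2.2.1
      · exact hJJ.2.2.2
    have h2 := hR _ _ q1 q2
    rw [h0] at h2
    nlinarith [mul_pos_of_neg_of_neg q1 q2]
  -- the removed set
  let Z : Finset ι := PP.image Prod.fst ∪ PP.image Prod.snd
  have hZcard : (Z.card : ℝ) ≤ 2 * k1 := by
    have a1 : Z.card ≤ PP.card + PP.card :=
      (Finset.card_union_le _ _).trans (Nat.add_le_add Finset.card_image_le Finset.card_image_le)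
    have a2 : (Z.card : ℝ) ≤ PP.card + PP.card := by exact_mod_cast a1
    linarith
  have hgood : ∀ x y, x ∉ Z → y ∉ Z → x ≠ y → ¬ J (τ x) (τ y) → ¬ P (τ x) (τ y) →
      0 ≤ QF G (ind (fib τ (τ x) ∪ fib τ (τ y))) (ind (fib τ (τ x) ∪ fib τ (τ y))) := by
    intro x y hx hy hxy hJxy hPxy
    by_contra hneg
    push Not at hneg
    have hx' : ∀ p ∈ PP, p.1 ≠ x ∧ p.2 ≠ x := by
      intro p hp
      constructor
      · intro h; exact hx (Finset.mem_union_left _ (Finset.mem_image.mpr ⟨p, hp, h⟩))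
      · intro h; exact hx (Finset.mem_union_right _ (Finset.mem_image.mpr ⟨p, hp, h⟩))
    have hy' : ∀ p ∈ PP, p.1 ≠ y ∧ p.2 ≠ y := by
      intro p hp
      constructor
      · intro h; exact hy (Finset.mem_union_left _ (Finset.mem_image.mpr ⟨p, hp, h⟩))
      · intro h; exact hy (Finset.mem_union_right _ (Finset.mem_image.mpr ⟨p, hp, h⟩))
    have hnot : (x, y) ∉ PP := fun h => (hx' _ h).1 rfl
    have hv : valid (insert (x, y) PP) := by
      refine ⟨?_, ?_⟩
      · intro p hp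
        rcases Finset.mem_insert.mp hp with rfl | hp
        · exact ⟨hxy, hJxy, hPxy, hneg⟩
        · exact hPP.1 p hp
      · intro p hp p' hp' hne
        rcases Finset.mem_insert.mp hp with rfl | hp <;>
          rcases Finset.mem_insert.mp hp' with rfl | hp'
        · exact absurd rfl hne
        · exact ⟨(hx' p' hp').1.symm, (hx' p' hp').2.symm, (hy' p' hp').1.symm,
            (hy' p' hp').2.symm⟩
        · exact ⟨(hx' p hp).1, (hy' p hp).1, (hx' p hp).2, (hy' p hp).2⟩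
        · exact hPP.2 p hp p' hp' hne
    have := hmax (insert (x, y) PP) (Finset.mem_filter.mpr ⟨Finset.mem_univ _, hv⟩)
    rw [Finset.card_insert_of_notMem hnot] at this
    omega
  refine ⟨Z, hZcard, ?_, ?_⟩
  · intro a b hab hPab
    have hrhs : (0 : ℝ) ≤ ((fib τ a).card + (fib τ b).card) / 2 := by positivity
    by_cases hJab : J a b
    · have : S G (fib τ a \ Z) (fib τ b \ Z) = 0 := by
        unfold S
        refine Finset.sum_eq_zero fun x hx => Finset.sum_eq_zero fun y hy => ?_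
        have hx1 := (mem_fib τ a x).mp (Finset.mem_sdiff.mp hx).1
        have hy1 := (mem_fib τ b y).mp (Finset.mem_sdiff.mp (Finset.mem_of_mem_erase hy)).1
        rw [hJ x y (by rw [hx1, hy1]; exact hJab)]
        simp
      rw [this]; exact hrhs
    · by_cases hex : (fib τ a \ Z).Nonempty ∧ (fib τ b \ Z).Nonempty
      · obtain ⟨⟨x, hx⟩, ⟨y, hy⟩⟩ := hex
        have hx1 := (mem_fib τ a x).mp (Finset.mem_sdiff.mp hx).1
        have hy1 := (mem_fib τ b y).mp (Finset.mem_sdiff.mp hy).1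
        have hxy : x ≠ y := by
          rintro rfl
          exact hab (hx1.symm.trans hy1)
        have hg := hgood x y (Finset.mem_sdiff.mp hx).2 (Finset.mem_sdiff.mp hy).2 hxy
          (by rw [hx1, hy1]; exact hJab) (by rw [hx1, hy1]; exact hPab)
        rw [hx1, hy1, q_union G hs hd (fib_disj τ hab)] at hg
        have n1 := S_nonneg G ho (fib τ a) (fib τ a)
        have n2 := S_nonneg G ho (fib τ b) (fib τ b)
        have m1 : S G (fib τ a \ Z) (fib τ b \ Z) ≤ S G (fib τ a) (fib τ b) :=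
          S_mono G ho Finset.sdiff_subset Finset.sdiff_subset
        linarith
      · have : S G (fib τ a \ Z) (fib τ b \ Z) = 0 := by
          rw [not_and_or, Finset.not_nonempty_iff_eq_empty, Finset.not_nonempty_iff_eq_empty] at hex
          unfold S
          rcases hex with h | h
          · rw [h]; simp
          · rw [h]; simp
        rw [this]; exact hrhs
  · intro a hPaa
    have hrhs : (0 : ℝ) ≤ (fib τ a).card := by positivity
    by_cases hex : ∃ x ∈ fib τ a \ Z, ∃ y ∈ fib τ a \ Z, x ≠ y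
    · obtain ⟨x, hx, y, hy, hxy⟩ := hex
      have hx1 := (mem_fib τ a x).mp (Finset.mem_sdiff.mp hx).1
      have hy1 := (mem_fib τ a y).mp (Finset.mem_sdiff.mp hy).1
      have hJaa : ¬ J a a := by
        intro h
        have := hJ x x (by rw [hx1]; exact h)
        rw [hd] at this
        norm_num at this
      have hg := hgood x y (Finset.mem_sdiff.mp hx).2 (Finset.mem_sdiff.mp hy).2 hxy
          (by rw [hx1, hy1]; exact hJaa) (by rw [hx1, hy1]; exact hPaa)
      rw [hx1, hy1, Finset.union_self, QF_ind, q_eq G hd] at hg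
      have m1 : S G (fib τ a \ Z) (fib τ a \ Z) ≤ S G (fib τ a) (fib τ a) :=
        S_mono G ho Finset.sdiff_subset Finset.sdiff_subset
      linarith
    · have : S G (fib τ a \ Z) (fib τ a \ Z) = 0 := by
        unfold S
        refine Finset.sum_eq_zero fun x hx => Finset.sum_eq_zero fun y hy => ?_
        exfalso
        exact hex ⟨x, hx, y, Finset.mem_of_mem_erase hy, (Finset.ne_of_mem_erase hy).symm⟩
      rw [this]; exact hrhs

/-- STEPS (4) and (4'). -/
theorem stepP (τ : ι → T) (G : Matrix ι ι ℝ) (hs : ∀ x y, G x y = G y x) (hd : ∀ x, G x x = 1)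
    (ho : ∀ x y, x ≠ y → G x y ≤ 0)
    (hR : ∀ c d, QF G c c < 0 → QF G d d < 0 → QF G c c * QF G d d ≤ (QF G c d) ^ 2)
    (J P : T → T → Prop) (hPs : ∀ a b, P a b → P b a)
    (hJ : ∀ x y, J (τ x) (τ y) → G x y = 0) (hPa : ∀ a, ¬ P a a)
    (k1 k2 : ℝ) (hk2 : 0 ≤ k2)
    (h1 : ∀ PP : Finset (ι × ι),
      (∀ p ∈ PP, p.1 ≠ p.2 ∧ ¬ J (τ p.1) (τ p.2) ∧ ¬ P (τ p.1) (τ p.2)) →
      (∀ p ∈ PP, ∀ p' ∈ PP, p ≠ p' → p.1 ≠ p'.1 ∧ p.1 ≠ p'.2 ∧ p.2 ≠ p'.1 ∧ p.2 ≠ p'.2) →
      (∀ p ∈ PP, ∀ p' ∈ PP, p ≠ p' → ¬ (J (τ p.1) (τ p'.1) ∧ J (τ p.1) (τ p'.2) ∧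
        J (τ p.2) (τ p'.1) ∧ J (τ p.2) (τ p'.2))) →
      (PP.card : ℝ) ≤ k1)
    (h2 : ∀ (a : T) (A : Finset ι), (∀ y ∈ A, P (τ y) a) → (A.card : ℝ) ≤ k2) :
    ∃ Z : Finset ι, (Z.card : ℝ) ≤ 2 * k1 + 2 * k2 ∧
      ∀ a b, S G (fib τ a \ Z) (fib τ b \ Z) ≤ Fintype.card ι := by
  classical
  obtain ⟨Z, hZ, hZ1, hZ2⟩ := stepQ τ G hs hd ho hR J P hJ k1 h1
  have hfc : ∀ a, ((fib τ a).card : ℝ) ≤ Fintype.card ι := by
    intro a
    exact_mod_cast Finset.card_le_univ _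
  have hnP : ∀ a b, ¬ P a b → S G (fib τ a \ Z) (fib τ b \ Z) ≤ Fintype.card ι := by
    intro a b hP
    by_cases hab : a = b
    · subst hab
      exact (hZ2 a hP).trans (hfc a)
    · have := hZ1 a b hab hP
      have := hfc a
      have := hfc b
      linarith
  by_cases hbig : ∃ a b, (Fintype.card ι : ℝ) < S G (fib τ a \ Z) (fib τ b \ Z)
  swap
  · push Not at hbig
    exact ⟨Z, by linarith, hbig⟩
  obtain ⟨a, b, hab⟩ := hbig
  have hPab : P a b := by
    by_contra h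
    exact absurd (hnP a b h) (not_le.mpr hab)
  have hne : a ≠ b := by
    rintro rfl
    exact hPa a hPab
  let Z2 : Finset ι := (Finset.univ.filter fun y => P (τ y) a) ∪
    (Finset.univ.filter fun y => P (τ y) b)
  have hZ2card : (Z2.card : ℝ) ≤ 2 * k2 := by
    have a1 := h2 a (Finset.univ.filter fun y => P (τ y) a) (fun y hy => (Finset.mem_filter.mp hy).2)
    have a2 := h2 b (Finset.univ.filter fun y => P (τ y) b) (fun y hy => (Finset.mem_filter.mp hy).2)
    have a3 : Z2.card ≤ (Finset.univ.filter fun y => P (τ y) a).card +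
      (Finset.univ.filter fun y => P (τ y) b).card := Finset.card_union_le _ _
    have a4 : (Z2.card : ℝ) ≤ (Finset.univ.filter fun y => P (τ y) a).card +
      (Finset.univ.filter fun y => P (τ y) b).card := by exact_mod_cast a3
    linarith
  refine ⟨Z ∪ Z2, ?_, ?_⟩
  · have a1 : ((Z ∪ Z2).card : ℝ) ≤ Z.card + Z2.card := by
      exact_mod_cast Finset.card_union_le _ _
    linarith
  intro c d
  by_contra hcon
  push Not at hcon
  have hmono : S G (fib τ c \ (Z ∪ Z2)) (fib τ d \ (Z ∪ Z2)) ≤ S G (fib τ c \ Z) (fib τ d \ Z) :=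
    S_mono G ho (Finset.sdiff_subset_sdiff (Finset.Subset.refl _) Finset.subset_union_left)
      (Finset.sdiff_subset_sdiff (Finset.Subset.refl _) Finset.subset_union_left)
  have hcd : (Fintype.card ι : ℝ) < S G (fib τ c \ Z) (fib τ d \ Z) := lt_of_lt_of_le hcon hmono
  have hPcd : P c d := by
    by_contra h
    exact absurd (hnP c d h) (not_le.mpr hcd)
  have hcdne : c ≠ d := by
    rintro rfl
    exact hPa c hPcd
  -- both fibres are nonempty outside of Z ∪ Z2
  have hnn : (0 : ℝ) ≤ Fintype.card ι := by positivity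
  have hcne : (fib τ c \ (Z ∪ Z2)).Nonempty := by
    by_contra h
    rw [Finset.not_nonempty_iff_eq_empty] at h
    rw [h] at hcon
    simp only [S, Finset.sum_empty] at hcon
    linarith
  have hdne : (fib τ d \ (Z ∪ Z2)).Nonempty := by
    by_contra h
    rw [Finset.not_nonempty_iff_eq_empty] at h
    rw [h] at hcon
    simp only [S, Finset.erase_empty, Finset.sum_empty, Finset.sum_const_zero] at hcon
    linarith
  obtain ⟨x, hx⟩ := hcne
  obtain ⟨y, hy⟩ := hdne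
  have hx1 := (mem_fib τ c x).mp (Finset.mem_sdiff.mp hx).1
  have hy1 := (mem_fib τ d y).mp (Finset.mem_sdiff.mp hy).1
  have hx2 : x ∉ Z2 := fun h => (Finset.mem_sdiff.mp hx).2 (Finset.mem_union_right _ h)
  have hy2 : y ∉ Z2 := fun h => (Finset.mem_sdiff.mp hy).2 (Finset.mem_union_right _ h)
  have hca : ¬ P c a := by
    intro h
    exact hx2 (Finset.mem_union_left _ (Finset.mem_filter.mpr ⟨Finset.mem_univ _, by rw [hx1]; exact h⟩))
  have hcb : ¬ P c b := by
    intro h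
    exact hx2 (Finset.mem_union_right _ (Finset.mem_filter.mpr ⟨Finset.mem_univ _, by rw [hx1]; exact h⟩))
  have hda : ¬ P d a := by
    intro h
    exact hy2 (Finset.mem_union_left _ (Finset.mem_filter.mpr ⟨Finset.mem_univ _, by rw [hy1]; exact h⟩))
  have hdb : ¬ P d b := by
    intro h
    exact hy2 (Finset.mem_union_right _ (Finset.mem_filter.mpr ⟨Finset.mem_univ _, by rw [hy1]; exact h⟩))
  have nca : a ≠ c := by
    rintro rfl
    exact hcb hPab
  have ncb : b ≠ c := by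
    rintro rfl
    exact hca (hPs _ _ hPab)
  have nda : a ≠ d := by
    rintro rfl
    exact hdb hPab
  have ndb : b ≠ d := by
    rintro rfl
    exact hda (hPs _ _ hPab)
  have pac : ¬ P a c := fun h => hca (hPs _ _ h)
  have pad : ¬ P a d := fun h => hda (hPs _ _ h)
  have pbc : ¬ P b c := fun h => hcb (hPs _ _ h)
  have pbd : ¬ P b d := fun h => hdb (hPs _ _ h)
  -- disjointness
  have dj : ∀ {u v : T}, u ≠ v → Disjoint (fib τ u \ Z) (fib τ v \ Z) := fun h =>
    (fib_disj τ h).mono Finset.sdiff_subset Finset.sdiff_subset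
  -- total number of items
  have htot : ((fib τ a).card : ℝ) + (fib τ b).card + (fib τ c).card + (fib τ d).card ≤
      Fintype.card ι := by
    have e : ((fib τ a ∪ fib τ b) ∪ (fib τ c ∪ fib τ d)).card =
        ((fib τ a).card + (fib τ b).card) + ((fib τ c).card + (fib τ d).card) := by
      rw [Finset.card_union_of_disjoint, Finset.card_union_of_disjoint (fib_disj τ hne),
        Finset.card_union_of_disjoint (fib_disj τ hcdne)]
      rw [Finset.disjoint_union_left, Finset.disjoint_union_right, Finset.disjoint_union_right]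
      exact ⟨⟨fib_disj τ nca, fib_disj τ nda⟩, ⟨fib_disj τ ncb, fib_disj τ ndb⟩⟩
    have l : ((fib τ a ∪ fib τ b) ∪ (fib τ c ∪ fib τ d)).card ≤ Fintype.card ι :=
      Finset.card_le_univ _
    rw [e] at l
    have : (((fib τ a).card + (fib τ b).card + ((fib τ c).card + (fib τ d).card) : ℕ) : ℝ) ≤
      (Fintype.card ι : ℝ) := by exact_mod_cast l
    push_cast at this
    linarith
  have hsub : ∀ u : T, ((fib τ u \ Z).card : ℝ) ≤ (fib τ u).card := by
    intro u
    exact_mod_cast Finset.card_le_card Finset.sdiff_subset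
  have q1 : QF G (ind ((fib τ a \ Z) ∪ (fib τ b \ Z))) (ind ((fib τ a \ Z) ∪ (fib τ b \ Z))) <
      - (Fintype.card ι : ℝ) := by
    rw [q_union G hs hd (dj hne)]
    have n1 := S_nonneg G ho (fib τ a \ Z) (fib τ a \ Z)
    have n2 := S_nonneg G ho (fib τ b \ Z) (fib τ b \ Z)
    have s1 := hsub a
    have s2 := hsub b
    have p1 : (0 : ℝ) ≤ (fib τ c).card := by positivity
    have p2 : (0 : ℝ) ≤ (fib τ d).card := by positivity
    linarith
  have q2 : QF G (ind ((fib τ c \ Z) ∪ (fib τ d \ Z))) (ind ((fib τ c \ Z) ∪ (fib τ d \ Z))) <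
      - (Fintype.card ι : ℝ) := by
    rw [q_union G hs hd (dj hcdne)]
    have n1 := S_nonneg G ho (fib τ c \ Z) (fib τ c \ Z)
    have n2 := S_nonneg G ho (fib τ d \ Z) (fib τ d \ Z)
    have s1 := hsub c
    have s2 := hsub d
    have p1 : (0 : ℝ) ≤ (fib τ a).card := by positivity
    have p2 : (0 : ℝ) ≤ (fib τ b).card := by positivity
    linarith
  have hx := hR _ _ (lt_of_lt_of_le q1 (by linarith)) (lt_of_lt_of_le q2 (by linarith))
  rw [cross_union G (dj hne) (dj hcdne) (dj nca) (dj nda) (dj ncb) (dj ndb)] at hx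
  have b1 := hZ1 a c nca pac
  have b2 := hZ1 a d nda pad
  have b3 := hZ1 b c ncb pbc
  have b4 := hZ1 b d ndb pbd
  have n1 := S_nonneg G ho (fib τ a \ Z) (fib τ c \ Z)
  have n2 := S_nonneg G ho (fib τ a \ Z) (fib τ d \ Z)
  have n3 := S_nonneg G ho (fib τ b \ Z) (fib τ c \ Z)
  have n4 := S_nonneg G ho (fib τ b \ Z) (fib τ d \ Z)
  set n : ℝ := (Fintype.card ι : ℝ) with hn
  set σ : ℝ := S G (fib τ a \ Z) (fib τ c \ Z) + S G (fib τ a \ Z) (fib τ d \ Z) +
    S G (fib τ b \ Z) (fib τ c \ Z) + S G (fib τ b \ Z) (fib τ d \ Z) with hσ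
  have hσ0 : 0 ≤ σ := by linarith
  have hσn : σ ≤ n := by linarith
  have hsq : (-σ) ^ 2 ≤ n ^ 2 := by
    rw [neg_sq]
    exact pow_le_pow_left₀ hσ0 hσn 2
  have hprod : n ^ 2 < QF G (ind ((fib τ a \ Z) ∪ (fib τ b \ Z))) (ind ((fib τ a \ Z) ∪ (fib τ b \ Z))) *
      QF G (ind ((fib τ c \ Z) ∪ (fib τ d \ Z))) (ind ((fib τ c \ Z) ∪ (fib τ d \ Z))) := by
    nlinarith [q1, q2, hnn]
  linarith

/-- STEPS (3), (4), (4'), (5). -/
theorem steps_3_4_5 (τ : ι → T) (G : Matrix ι ι ℝ) (hs : ∀ x y, G x y = G y x)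
    (hd : ∀ x, G x x = 1) (ho : ∀ x y, x ≠ y → G x y ≤ 0)
    (hR : ∀ c d, QF G c c < 0 → QF G d d < 0 → QF G c c * QF G d d ≤ (QF G c d) ^ 2)
    (J P : T → T → Prop) (hPs : ∀ a b, P a b → P b a)
    (hJ : ∀ x y, J (τ x) (τ y) → G x y = 0) (hPa : ∀ a, ¬ P a a)
    (k1 k2 r : ℝ) (hk2 : 0 ≤ k2) (hr : 0 < r)
    (h1 : ∀ PP : Finset (ι × ι),
      (∀ p ∈ PP, p.1 ≠ p.2 ∧ ¬ J (τ p.1) (τ p.2) ∧ ¬ P (τ p.1) (τ p.2)) →
      (∀ p ∈ PP, ∀ p' ∈ PP, p ≠ p' → p.1 ≠ p'.1 ∧ p.1 ≠ p'.2 ∧ p.2 ≠ p'.1 ∧ p.2 ≠ p'.2) →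
      (∀ p ∈ PP, ∀ p' ∈ PP, p ≠ p' → ¬ (J (τ p.1) (τ p'.1) ∧ J (τ p.1) (τ p'.2) ∧
        J (τ p.2) (τ p'.1) ∧ J (τ p.2) (τ p'.2))) →
      (PP.card : ℝ) ≤ k1)
    (h2 : ∀ (a : T) (A : Finset ι), (∀ y ∈ A, P (τ y) a) → (A.card : ℝ) ≤ k2) :
    ∃ Z : Finset ι, (Z.card : ℝ) ≤ 2 * k1 + 2 * k2 + r ∧
      ∀ x ∉ Z, ∑ y ∈ Zᶜ.erase x, (- G x y) ≤
        (Fintype.card T : ℝ) ^ 2 * Fintype.card ι / r := by
  classical
  obtain ⟨Z, hZ, hZS⟩ := stepP τ G hs hd ho hR J P hPs hJ hPa k1 k2 hk2 h1 h2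
  set R : ℝ := (Fintype.card T : ℝ) ^ 2 * Fintype.card ι / r with hRdef
  have hR0 : 0 ≤ R := by positivity
  -- total sum
  have hfibre : ∀ (A : Finset ι) (f : ι → ℝ), ∑ x ∈ A, f x = ∑ a : T, ∑ x ∈ fib τ a ∩ A, f x := by
    intro A f
    rw [← Finset.sum_fiberwise A τ f]
    refine Finset.sum_congr rfl fun a _ => ?_
    refine Finset.sum_congr ?_ fun _ _ => rfl
    ext x
    simp [mem_fib, and_comm]
  have htot : ∑ x ∈ Zᶜ, ∑ y ∈ Zᶜ.erase x, (- G x y) ≤
      (Fintype.card T : ℝ) ^ 2 * Fintype.card ι := by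
    have e1 : ∑ x ∈ Zᶜ, ∑ y ∈ Zᶜ.erase x, (- G x y) =
        ∑ a : T, ∑ b : T, S G (fib τ a \ Z) (fib τ b \ Z) := by
      rw [hfibre Zᶜ]
      refine Finset.sum_congr rfl fun a _ => ?_
      unfold S
      rw [Finset.sum_comm]
      have hset : fib τ a ∩ Zᶜ = fib τ a \ Z := by
        ext x; simp
      rw [hset]
      refine Finset.sum_congr rfl fun x _ => ?_
      rw [hfibre (Zᶜ.erase x)]
      refine Finset.sum_congr rfl fun b _ => ?_
      refine Finset.sum_congr ?_ fun _ _ => rfl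
      ext y
      simp only [Finset.mem_inter, Finset.mem_erase, Finset.mem_compl, Finset.mem_sdiff]
      tauto
    rw [e1]
    calc ∑ a : T, ∑ b : T, S G (fib τ a \ Z) (fib τ b \ Z)
        ≤ ∑ a : T, ∑ b : T, (Fintype.card ι : ℝ) :=
          Finset.sum_le_sum fun a _ => Finset.sum_le_sum fun b _ => hZS a b
      _ = _ := by
          simp only [Finset.sum_const, Finset.card_univ, nsmul_eq_mul]
          ring
  let Z3 : Finset ι := Zᶜ.filter fun x => R < ∑ y ∈ Zᶜ.erase x, (- G x y)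
  have hrow : ∀ x, 0 ≤ ∑ y ∈ Zᶜ.erase x, (- G x y) := by
    intro x
    refine Finset.sum_nonneg fun y hy => ?_
    have := ho x y (Finset.ne_of_mem_erase hy).symm
    linarith
  have hZ3 : (Z3.card : ℝ) ≤ r := by
    by_contra hcon
    push Not at hcon
    have c1 : (Z3.card : ℝ) * R ≤ ∑ x ∈ Z3, ∑ y ∈ Zᶜ.erase x, (- G x y) := by
      rw [← nsmul_eq_mul, ← Finset.sum_const]
      exact Finset.sum_le_sum fun x hx => (Finset.mem_filter.mp hx).2.le
    have c2 : ∑ x ∈ Z3, ∑ y ∈ Zᶜ.erase x, (- G x y) ≤ ∑ x ∈ Zᶜ, ∑ y ∈ Zᶜ.erase x, (- G x y) :=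
      Finset.sum_le_sum_of_subset_of_nonneg (Finset.filter_subset _ _) fun x _ _ => hrow x
    have c3 : R * r = (Fintype.card T : ℝ) ^ 2 * Fintype.card ι := by
      rw [hRdef]; field_simp
    have hpos : (0 : ℝ) < Z3.card := lt_trans hr hcon
    have hne : Z3.Nonempty := by
      rw [← Finset.card_pos]; exact_mod_cast hpos
    obtain ⟨x0, hx0⟩ := hne
    have hT : 0 < Fintype.card T := Fintype.card_pos_iff.mpr ⟨τ x0⟩
    have hI : 0 < Fintype.card ι := Fintype.card_pos_iff.mpr ⟨x0⟩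
    have hRpos : 0 < R := by
      rw [hRdef]; positivity
    nlinarith [mul_lt_mul_of_pos_right hcon hRpos]
  refine ⟨Z ∪ Z3, ?_, ?_⟩
  · have a1 : ((Z ∪ Z3).card : ℝ) ≤ Z.card + Z3.card := by
      exact_mod_cast Finset.card_union_le _ _
    linarith
  · intro x hx
    have hxZ : x ∉ Z := fun h => hx (Finset.mem_union_left _ h)
    have hxZ3 : x ∉ Z3 := fun h => hx (Finset.mem_union_right _ h)
    have hle : ∑ y ∈ Zᶜ.erase x, (- G x y) ≤ R := by
      by_contra h
      push Not at h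
      exact hxZ3 (Finset.mem_filter.mpr ⟨Finset.mem_compl.mpr hxZ, h⟩)
    refine le_trans ?_ hle
    refine Finset.sum_le_sum_of_subset_of_nonneg ?_ ?_
    · refine Finset.erase_subset_erase _ ?_
      intro y hy
      rw [Finset.mem_compl] at hy ⊢
      exact fun h => hy (Finset.mem_union_left _ h)
    · intro y hy _
      have := ho x y (Finset.ne_of_mem_erase hy).symm
      linarith

end Crest.Agent.R042.S60Four269
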