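import Crest.Agent.R042.HJK_883

/-! Row 42 / S0059, kind `c = true` (same types): the deterministic end, and the glue to `PairConfK`. -/

set_option autoImplicit false
set_option linter.unusedSectionVars false

namespace Crest.Agent.R042.SameEnd220

open Finset Crest.Agent.R042.S59Spine883

/-- a same-type matching with many pairs meets many types -/
theorem many_types {n r C s m : ℕ} {F : SimpleGraph (Fin n)} {tp : Fin n → Fin r}
    (hcl : ∀ i, (univ.filter fun a => tp a = i).card ≤ C) (M : Finset (Fin n × Fin n))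
    (hM : IsMat F M) (hm : m ≤ M.card) (hs : C * s ≤ m) (hC : 0 < C) :
    s ≤ (M.image fun z => tp z.1).card := by
  classical
  have h1 : M.card ≤ (M.image fun z => tp z.1).card * C := by
    have hinj : (M.image Prod.fst).card = M.card := by
      apply card_image_of_injOn
      intro z hz z' hz' h
      by_contra hne
      exact (hM.2 z hz z' hz' hne).1 h
    rw [← hinj]
    have hsub : M.image Prod.fst ⊆ (M.image fun z => tp z.1).biUnion fun i => univ.filter fun a => tp a = i := by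
      intro a ha
      obtain ⟨z, hz, rfl⟩ := mem_image.1 ha
      exact mem_biUnion.2 ⟨tp z.1, mem_image.2 ⟨z, hz, rfl⟩, mem_filter.2 ⟨mem_univ _, rfl⟩⟩
    refine (card_le_card hsub).trans (card_biUnion_le.trans ?_)
    calc ∑ i ∈ M.image fun z => tp z.1, (univ.filter fun a => tp a = i).card
        ≤ ∑ _i ∈ M.image fun z => tp z.1, C := sum_le_sum fun i _ => hcl i
      _ = _ := by rw [sum_const, smul_eq_mul]
  by_contra hlt
  push Not at hlt
  have h2 : (M.image fun z => tp z.1).card * C + C ≤ C * s := by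
    have : (M.image fun z => tp z.1).card + 1 ≤ s := hlt
    calc _ = C * ((M.image fun z => tp z.1).card + 1) := by ring
      _ ≤ C * s := Nat.mul_le_mul_left _ this
  omega

/-- kind `c = true`: a graph `Γ` on the types with an edge between any two sets of at least `s`
types, whose edges are complete bipartite in `F`. -/
theorem same_end {n r K C s : ℕ} {F : SimpleGraph (Fin n)} {tp : Fin n → Fin r}
    (Γ : Fin r → Fin r → Prop) (hΓF : ∀ a b, Γ (tp a) (tp b) → F.Adj a b)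
    (hcl : ∀ i, (univ.filter fun a => tp a = i).card ≤ C) (hC : 0 < C) (hs : 4 * K * C * s ≤ n)
    (hK : 0 < K)
    (hΓ : ∀ A B : Finset (Fin r), s ≤ A.card → s ≤ B.card → ∃ i ∈ A, ∃ j ∈ B, Γ i j) :
    ∀ M₁ M₂ : Finset (Fin n × Fin n), IsMat F M₁ → IsMat F M₂ →
      (∀ z ∈ M₁ ∪ M₂, decide (tp z.1 = tp z.2) = true) → n ≤ 4 * K * M₁.card →
      n ≤ 4 * K * M₂.card → ∃ z ∈ M₁, ∃ z' ∈ M₂, Conf F z z' := by
  classical
  intro M₁ M₂ h1 h2 hk hn1 hn2
  have hcs : ∀ M : Finset (Fin n × Fin n), n ≤ 4 * K * M.card → C * s ≤ M.card := by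
    intro M hM
    have : 4 * K * (C * s) ≤ 4 * K * M.card := by
      calc 4 * K * (C * s) = 4 * K * C * s := by ring
        _ ≤ n := hs
        _ ≤ _ := hM
    exact Nat.le_of_mul_le_mul_left this (by omega)
  have t1 := many_types (C := C) (s := s) (F := F) hcl M₁ h1 le_rfl (hcs M₁ hn1) hC
  have t2 := many_types (C := C) (s := s) (F := F) hcl M₂ h2 le_rfl (hcs M₂ hn2) hC
  obtain ⟨i, hi, j, hj, hij⟩ := hΓ _ _ t1 t2
  obtain ⟨z, hz, rfl⟩ := mem_image.1 hi
  obtain ⟨z', hz', rfl⟩ := mem_image.1 hj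
  have e1 : tp z.1 = tp z.2 := by simpa using hk z (mem_union_left _ hz)
  have e2 : tp z'.1 = tp z'.2 := by simpa using hk z' (mem_union_right _ hz')
  refine ⟨z, hz, z', hz', ?_⟩
  refine ⟨hΓF _ _ hij, hΓF _ _ (e2 ▸ hij), hΓF _ _ (e1 ▸ hij), hΓF _ _ (by rw [← e1, ← e2]; exact hij)⟩

/-- glue: `PairConfK K` from the two kinds. -/
theorem pairConfK_of {n r K C s : ℕ} (hn : 0 < n) (hK : 0 < K) {F : SimpleGraph (Fin n)}
    (hF : F.CliqueFree 3) {tp : Fin n → Fin r} (htp : ∀ a b, tp a = tp b → ¬ F.Adj a b)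
    (hr : 16 * K * r ≤ n) (hC : 0 < C) (hCn : 16 * K * C ≤ n)
    (hcl : ∀ i, (univ.filter fun a => tp a = i).card ≤ C) (hs : 4 * K * C * s ≤ n)
    (Γ : Fin r → Fin r → Prop) (hΓF : ∀ a b, Γ (tp a) (tp b) → F.Adj a b)
    (hΓ : ∀ A B : Finset (Fin r), s ≤ A.card → s ≤ B.card → ∃ i ∈ A, ∃ j ∈ B, Γ i j)
    (hcross : ∀ M₁ M₂ : Finset (Fin n × Fin n), IsMat F M₁ → IsMat F M₂ →
      (∀ z ∈ M₁ ∪ M₂, tp z.1 ≠ tp z.2) → n ≤ 4 * K * M₁.card → n ≤ 4 * K * M₂.card →
      ∃ z ∈ M₁, ∃ z' ∈ M₂, Conf F z z') : PairConfK K := by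
  refine ⟨n, hn, F, hF, r, tp, htp, hr, fun i => ?_, ?_⟩
  · exact (Nat.mul_le_mul_left _ (hcl i)).trans hCn
  · intro c M₁ M₂ h1 h2 hk hn1 hn2
    cases c
    · exact hcross M₁ M₂ h1 h2 (fun z hz => by simpa using hk z hz) hn1 hn2
    · exact same_end Γ hΓF hcl hC hs hK hΓ M₁ M₂ h1 h2 hk hn1 hn2

end Crest.Agent.R042.SameEnd220
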