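import Mathlib

/-! Row 42 / S0059, T-level: choice of the fingerprint size `ℓ` and of the threshold `r`. -/

set_option autoImplicit false

namespace Crest.Agent.R042.TLev333

/-- parameters of Theorem T: `M = 1/d`, `m = M/N`, `card σ + 1 ≤ 2 ^ B`. -/
theorem params (M η ρ : ℝ) (B N : ℕ) (hM : 1 ≤ M) (hη0 : 0 < η) (hη : 6656 * M * η ≤ 1)
    (hρ0 : 0 < ρ) (hρ1 : ρ ≤ 1) (hB1 : 1 ≤ B) (hB : 52 * M ≤ B * ρ ^ 4)
    (hN : 100 * (B : ℝ) ^ 2 ≤ N * (η ^ 5 * ρ ^ 8)) :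
    ∃ ℓ r : ℕ, 1 ≤ η * ℓ * ρ ^ 4 ∧ 1024 ≤ η * (η * ℓ * ρ ^ 4) ^ 2 ∧ 12 * η * N ≤ r ∧
      10000 * (N : ℝ) ^ 2 ≤ r * (η * ℓ * ρ ^ 4) ^ 2 ∧ 16 * (2 ^ B) ^ ℓ ≤ 2 ^ r ∧
      ℓ ≤ N ∧ η * ℓ * ρ ^ 4 ≤ N ∧ 4 * ℓ * (M / N) ≤ η * ρ ^ 4 ∧ 256 * (ℓ + r) * (M / N) ≤ 1 := by
  have hη1 : η ≤ 1 / 6656 := by
    rw [le_div_iff₀ (by norm_num)]
    nlinarith
  have hB1' : (1 : ℝ) ≤ B := by exact_mod_cast hB1
  have hη5 : η ^ 5 ≤ η := by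
    have : η ^ 4 ≤ 1 := pow_le_one₀ hη0.le (by linarith)
    calc η ^ 5 = η ^ 4 * η := by ring
      _ ≤ 1 * η := mul_le_mul_of_nonneg_right this hη0.le
      _ = η := one_mul _
  have hρ8 : ρ ^ 8 ≤ 1 := pow_le_one₀ hρ0.le hρ1
  have hρ4 : ρ ^ 4 ≤ 1 := pow_le_one₀ hρ0.le hρ1
  have hρ40 : 0 < ρ ^ 4 := by positivity
  have hN0' : (0 : ℝ) ≤ N := by positivity
  have hηN : 100 * (B : ℝ) ^ 2 ≤ N * η := by
    refine hN.trans (mul_le_mul_of_nonneg_left ?_ hN0')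
    calc η ^ 5 * ρ ^ 8 ≤ η * 1 := mul_le_mul hη5 hρ8 (by positivity) hη0.le
      _ = η := mul_one _
  have hBB : (B : ℝ) ≤ (B : ℝ) ^ 2 := by nlinarith
  have hN0 : (0 : ℝ) < N := by
    by_contra h
    push Not at h
    have : (N : ℝ) * η ≤ 0 := mul_nonpos_of_nonpos_of_nonneg h hη0.le
    nlinarith
  set r : ℕ := ⌈12 * η * N⌉₊ with hr
  have r1 : 12 * η * N ≤ r := Nat.le_ceil _
  have r2 : (r : ℝ) < 12 * η * N + 1 := Nat.ceil_lt_add_one (by positivity)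
  have r3 : (r : ℝ) ≤ 13 * η * N := by nlinarith
  have r4 : 2 * (B : ℝ) + 8 ≤ r := by nlinarith
  have r4' : 2 * B + 8 ≤ r := by exact_mod_cast r4
  set ℓ : ℕ := (r - 4) / B with hℓ
  have l1 : B * ℓ ≤ r - 4 := Nat.mul_div_le _ _
  have l1' : B * ℓ + 4 ≤ r := by omega
  have l1'' : (B : ℝ) * ℓ + 4 ≤ r := by exact_mod_cast l1'
  have l2 : r - 4 < B * ℓ + B := by
    have := Nat.lt_mul_div_succ (r - 4) (show 0 < B by omega)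
    rw [← hℓ] at this
    linarith
  have l2' : r < B * ℓ + B + 4 := by omega
  have l2'' : (r : ℝ) < B * ℓ + B + 4 := by exact_mod_cast l2'
  have l3 : (r : ℝ) / 2 ≤ B * ℓ := by linarith
  have l4 : 6 * η * N ≤ B * ℓ := by linarith
  have hℓ0 : (0 : ℝ) ≤ ℓ := by positivity
  -- `E * B ≥ 6 η² N ρ⁴`
  set E : ℝ := η * ℓ * ρ ^ 4 with hE
  have e1 : 6 * η ^ 2 * N * ρ ^ 4 ≤ E * B := by
    calc 6 * η ^ 2 * N * ρ ^ 4 = (η * ρ ^ 4) * (6 * η * N) := by ring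
      _ ≤ (η * ρ ^ 4) * (B * ℓ) := mul_le_mul_of_nonneg_left l4 (by positivity)
      _ = E * B := by rw [hE]; ring
  have e0 : 0 ≤ E := by positivity
  -- `E² B² ≥ 36 η⁴ N² ρ⁸ ≥ 3600 B² N / η`
  have e2 : 36 * η ^ 4 * N ^ 2 * ρ ^ 8 ≤ E ^ 2 * B ^ 2 := by
    calc 36 * η ^ 4 * (N : ℝ) ^ 2 * ρ ^ 8 = (6 * η ^ 2 * N * ρ ^ 4) ^ 2 := by ring
      _ ≤ (E * B) ^ 2 := pow_le_pow_left₀ (by positivity) e1 2
      _ = _ := by ring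
  have e3 : 3600 * (N : ℝ) * B ^ 2 ≤ η * E ^ 2 * B ^ 2 := by
    calc 3600 * (N : ℝ) * B ^ 2 = 36 * N * (100 * B ^ 2) := by ring
      _ ≤ 36 * N * (N * (η ^ 5 * ρ ^ 8)) := mul_le_mul_of_nonneg_left hN (by positivity)
      _ = η * (36 * η ^ 4 * N ^ 2 * ρ ^ 8) := by ring
      _ ≤ η * (E ^ 2 * B ^ 2) := mul_le_mul_of_nonneg_left e2 hη0.le
      _ = _ := by ring
  have hB2 : (0 : ℝ) < (B : ℝ) ^ 2 := by positivity
  have e4 : 3600 * (N : ℝ) ≤ η * E ^ 2 := le_of_mul_le_mul_right e3 hB2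
  have hN1 : (1 : ℝ) ≤ N := by
    have : 0 < N := by exact_mod_cast hN0
    exact_mod_cast this
  have e5 : 1024 ≤ η * E ^ 2 := by linarith
  have e6 : 1 ≤ E := by
    by_contra h
    push Not at h
    have : E ^ 2 ≤ 1 := pow_le_one₀ e0 h.le
    nlinarith
  have hηρ : η * ρ ^ 4 ≤ 1 := by
    calc η * ρ ^ 4 ≤ 1 * 1 := mul_le_mul (by linarith) hρ4 hρ40.le (by norm_num)
      _ = 1 := one_mul _
  have l5 : (ℓ : ℝ) ≤ B * ℓ := le_mul_of_one_le_left hℓ0 hB1'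
  have l6 : (ℓ : ℝ) ≤ N := by
    have : 13 * η * N ≤ 1 * N := mul_le_mul_of_nonneg_right (by linarith) hN0'
    linarith
  refine ⟨ℓ, r, e6, e5, r1, ?_, ?_, by exact_mod_cast l6, ?_, ?_, ?_⟩
  · have hN2 : 0 ≤ (N : ℝ) ^ 2 := sq_nonneg _
    calc (10000 : ℝ) * (N : ℝ) ^ 2 ≤ 43200 * (N : ℝ) ^ 2 := by linarith
      _ = 12 * (N : ℝ) * (3600 * (N : ℝ)) := by ring
      _ ≤ 12 * (N : ℝ) * (η * E ^ 2) := mul_le_mul_of_nonneg_left e4 (by positivity)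
      _ = (12 * η * (N : ℝ)) * E ^ 2 := by ring
      _ ≤ r * E ^ 2 := mul_le_mul_of_nonneg_right r1 (by positivity)
  · calc 16 * (2 ^ B) ^ ℓ = 2 ^ (B * ℓ + 4) := by rw [← pow_mul, pow_add]; ring
      _ ≤ 2 ^ r := Nat.pow_le_pow_right (by norm_num) l1'
  · calc E = (η * ρ ^ 4) * ℓ := by rw [hE]; ring
      _ ≤ 1 * ℓ := mul_le_mul_of_nonneg_right hηρ hℓ0
      _ ≤ N := by linarith
  · -- `4 ℓ M / N ≤ η ρ⁴`
    rw [← mul_div_assoc, div_le_iff₀ hN0]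
    have h1 : (B : ℝ) * ℓ ≤ 13 * η * N := by linarith
    have h2 : 52 * M * ℓ ≤ 13 * η * N * ρ ^ 4 := by
      calc 52 * M * ℓ ≤ (B * ρ ^ 4) * ℓ := mul_le_mul_of_nonneg_right hB hℓ0
        _ = (B * ℓ) * ρ ^ 4 := by ring
        _ ≤ (13 * η * N) * ρ ^ 4 := mul_le_mul_of_nonneg_right h1 hρ40.le
    have h3 : 4 * (ℓ : ℝ) * M = (52 * M * ℓ) / 13 := by ring
    rw [h3, div_le_iff₀ (by norm_num)]
    linarith
  · rw [← mul_div_assoc, div_le_iff₀ hN0]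
    have h1 : (ℓ : ℝ) ≤ r := by linarith
    have h2 : (ℓ : ℝ) + r ≤ 26 * η * N := by linarith
    calc 256 * ((ℓ : ℝ) + r) * M ≤ 256 * (26 * η * N) * M := by gcongr
      _ = (6656 * M * η) * N := by ring
      _ ≤ 1 * N := mul_le_mul_of_nonneg_right hη hN0.le

end Crest.Agent.R042.TLev333
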