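import Crest.Agent.R042.Exist_592
import Crest.Agent.R042.TLevG_333
import Crest.Agent.R042.TLevP_333
import Crest.Agent.R042.GamInst_664

/-! Row 42 / S0059: THE ONE SAMPLE. One sample of types with all properties that the two kinds
(cross kind, same kind) consume: `m`-genericity, richness, goodness for the system of pieces, the
gadget graph, and finitely many further properties. -/

set_option autoImplicit false
set_option linter.unusedSectionVars false

namespace Crest.Agent.R042.SampAll592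

open Finset Function
open scoped Classical
open Crest.Agent.R042.TLev333 Crest.Agent.R042.Fam543 Crest.Agent.R042.Gen592
open Crest.Agent.R042.Inst592 Crest.Agent.R042.Facts592 Crest.Agent.R042.RichOm592
open Crest.Agent.R042.Exist592 Crest.Agent.R042.Rich380

section GenM

variable {K W Ω I : Type*} [Field K] [Fintype K] [AddCommGroup W] [Module K W] [Fintype W]
  [Fintype Ω]

lemma li_mono {v : Ω → W} {m n : ℕ} (h : n ≤ m) {x : I → Ω} (hx : LI K v m x) : LI K v n x :=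
  fun J hJ => hx J (hJ.trans h)

/-- `m`-genericity from span conditions. -/
lemma li_of_notMem_m {v : Ω → W} [Fintype I] (m : ℕ) (hI : 2 ≤ Fintype.card I) {x : I → Ω}
    (h : ∀ (f : Fin m → I) (i : I), (∀ j, f j ≠ i) →
      v (x i) ∉ Submodule.span K (Set.range fun j => v (x (f j)))) : LI K v (m + 1) x := by
  classical
  intro J hJ
  rw [linearIndependent_iff_notMem_span]
  rintro ⟨i, hi⟩ hmem
  obtain ⟨d, hd⟩ := Fintype.exists_ne_of_one_lt_card (show 1 < Fintype.card I by omega) i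
  have hcard : (J.erase i).card ≤ m := by
    rw [Finset.card_erase_of_mem hi]
    omega
  refine h (fun k => ((J.erase i).toList[(k : ℕ)]?).getD d) i ?_ ?_
  · intro k
    rcases hk : ((J.erase i).toList[(k : ℕ)]?) with _ | j
    · simpa [hk] using hd
    · have hj : j ∈ J.erase i := by
        rw [← Finset.mem_toList]
        exact List.mem_of_getElem? hk
      simp only [Option.getD_some]
      exact (Finset.mem_erase.mp hj).1
  · refine Submodule.span_mono ?_ hmem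
    rintro _ ⟨⟨j, hj⟩, hji, rfl⟩
    have hji' : j ≠ i := fun hh => hji.2 (by simp [hh])
    have hj' : j ∈ (J.erase i).toList := by
      rw [Finset.mem_toList]
      exact Finset.mem_erase.mpr ⟨hji', hj⟩
    obtain ⟨k, hk, hk'⟩ := List.mem_iff_getElem.mp hj'
    rw [Finset.length_toList] at hk
    refine ⟨⟨k, by omega⟩, ?_⟩
    have hk2 : (J.erase i).toList[k]? = some j := by
      rw [List.getElem?_eq_some_iff]
      exact ⟨by rw [Finset.length_toList]; exact hk, hk'⟩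
    simp only [hk2, Option.getD_some]

lemma card_span_le_m {v : Ω → W} {c : ℕ} (hv : Fib v c) (m : ℕ) (u : Fin m → W) :
    (univ.filter fun Q : Ω => v Q ∈ Submodule.span K (Set.range u)).card ≤
      Fintype.card K ^ m * c := by
  classical
  rw [card_pre hv (fun w => w ∈ Submodule.span K (Set.range u))]
  refine Nat.mul_le_mul_right _ ?_
  have hsub : (univ.filter fun w : W => w ∈ Submodule.span K (Set.range u)) ⊆
      (univ : Finset (Fin m → K)).image (fun a => ∑ i, a i • u i) := by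
    intro w hw
    rw [Finset.mem_filter] at hw
    obtain ⟨a, ha⟩ := (Submodule.mem_span_range_iff_exists_fun K).mp hw.2
    rw [Finset.mem_image]
    exact ⟨a, Finset.mem_univ _, ha⟩
  calc _ ≤ _ := Finset.card_le_card hsub
    _ ≤ _ := Finset.card_image_le
    _ = _ := by rw [Finset.card_univ, Fintype.card_fun, Fintype.card_fin]

/-- all but `N^(m+1) K^m / |W|` of the samples are `(m+1)`-generic. -/
theorem card_not_li_m_le [Fintype I] [Nonempty Ω] {v : Ω → W} {c : ℕ} (hv : Fib v c)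
    (hI : 2 ≤ Fintype.card I) (m : ℕ) :
    (((univ.filter fun x : I → Ω => ¬ LI K v (m + 1) x).card : ℕ) : ℝ) ≤
      (Fintype.card I : ℝ) ^ (m + 1) * ((Fintype.card K : ℝ) ^ m / Fintype.card W) *
        (Fintype.card Ω : ℝ) ^ Fintype.card I := by
  classical
  set κ : ℝ := (Fintype.card K : ℝ) ^ m / Fintype.card W with hκ
  have hW : (0 : ℝ) < Fintype.card W := by exact_mod_cast Fintype.card_pos
  have hκ0 : 0 ≤ κ := by positivity
  set D : (Fin m → I) × I → Finset (I → Ω) := fun p =>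
    univ.filter fun x => (∀ j, p.1 j ≠ p.2) ∧
      v (x p.2) ∈ Submodule.span K (Set.range fun j => v (x (p.1 j))) with hD
  have hsub : (univ.filter fun x : I → Ω => ¬ LI K v (m + 1) x) ⊆ univ.biUnion D := by
    intro x hx
    rw [Finset.mem_filter] at hx
    by_contra hcon
    apply hx.2
    refine li_of_notMem_m m hI (fun f i hf hmem => hcon ?_)
    rw [Finset.mem_biUnion]
    refine ⟨(f, i), Finset.mem_univ _, ?_⟩
    rw [hD, Finset.mem_filter]
    exact ⟨Finset.mem_univ _, hf, hmem⟩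
  have hDc : ∀ p, ((D p).card : ℝ) ≤ κ * (Fintype.card Ω : ℝ) ^ Fintype.card I := by
    rintro ⟨f, i⟩
    by_cases hf : ∀ j, f j ≠ i
    · have h := count_one (I := I) (Ω := Ω) {i}
        (fun x => univ.filter fun Q : Ω => v Q ∈ Submodule.span K (Set.range fun j => v (x (f j))))
        κ hκ0 (by
          intro x j hj a
          rw [Finset.mem_singleton] at hj
          subst hj
          have : (fun k => v (update x j a (f k))) = fun k => v (x (f k)) := by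
            funext k
            rw [update_of_ne (hf k)]
          rw [this]) (by
          intro x
          have h1 := card_span_le_m (K := K) hv m (fun j => v (x (f j)))
          have h2 : (Fintype.card Ω : ℝ) = Fintype.card W * c := by
            rw [card_Om hv]; push_cast; rfl
          have h3 : ((univ.filter fun Q : Ω => v Q ∈
              Submodule.span K (Set.range fun j => v (x (f j)))).card : ℝ) ≤
              (Fintype.card K : ℝ) ^ m * c := by exact_mod_cast h1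
          refine h3.trans (le_of_eq ?_)
          rw [h2, hκ]
          field_simp)
      rw [Finset.card_singleton, pow_one] at h
      refine le_trans ?_ h
      refine Nat.cast_le.mpr (Finset.card_le_card ?_)
      intro x hx
      rw [hD, Finset.mem_filter] at hx
      rw [Finset.mem_filter]
      refine ⟨Finset.mem_univ _, ?_⟩
      intro j hj
      rw [Finset.mem_singleton] at hj
      subst hj
      rw [Finset.mem_filter]
      exact ⟨Finset.mem_univ _, hx.2.2⟩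
    · have : D (f, i) = ∅ := by
        rw [hD]
        refine Finset.filter_eq_empty_iff.mpr ?_
        intro x _ hx
        exact hf hx.1
      rw [this, Finset.card_empty]
      push_cast
      positivity
  calc (((univ.filter fun x : I → Ω => ¬ LI K v (m + 1) x).card : ℕ) : ℝ)
      ≤ ∑ p, ((D p).card : ℝ) := by
        have h := (Finset.card_le_card hsub).trans Finset.card_biUnion_le
        exact_mod_cast h
    _ ≤ ∑ _p : (Fin m → I) × I, κ * (Fintype.card Ω : ℝ) ^ Fintype.card I :=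
        Finset.sum_le_sum (fun p _ => hDc p)
    _ = _ := by
        rw [Finset.sum_const, Finset.card_univ, Fintype.card_prod, Fintype.card_fun,
          Fintype.card_fin, nsmul_eq_mul]
        push_cast
        ring

end GenM

section Numbers

/-- the numbers of a system from `params`. -/
theorem num_of {I Ω σ : Type*} [Fintype I] [Fintype Ω] [Fintype σ] (S : Sys I Ω σ)
    (M : ℝ) (B : ℕ) (hM : 1 ≤ M) (hη : 6656 * M * S.η ≤ 1)
    (hB1 : 1 ≤ B) (hB : 52 * M ≤ B * S.ρ ^ 4)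
    (hN : 100 * (B : ℝ) ^ 2 ≤ Fintype.card I * (S.η ^ 5 * S.ρ ^ 8))
    (hσ : Fintype.card σ + 1 ≤ 2 ^ B) (hθ : S.θ * (Fintype.card I : ℝ) ^ 3 ≤ 1) :
    ∃ ℓ r : ℕ, Num S ℓ r ∧ 4 * ℓ * (M / Fintype.card I) ≤ S.η * S.ρ ^ 4 ∧
      256 * (ℓ + r) * (M / Fintype.card I) ≤ 1 := by
  obtain ⟨ℓ, r, h1, h2, h3, h4, h5, h6, h7, h8, h9⟩ := params M S.η S.ρ B (Fintype.card I) hM
    S.η0 hη S.ρ0 S.ρ1 hB1 hB hN
  refine ⟨ℓ, r, ⟨h1, h2, h3, h4, ?_, ?_⟩, h8, h9⟩
  · exact (Nat.mul_le_mul_left 16 (Nat.pow_le_pow_left hσ ℓ)).trans h5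
  · have hE0 : 0 ≤ S.η * ℓ * S.ρ ^ 4 := by linarith
    have e1 : (S.η * ℓ * S.ρ ^ 4) ^ 2 ≤ (Fintype.card I : ℝ) ^ 2 := pow_le_pow_left₀ hE0 h7 2
    have e2 : (ℓ : ℝ) ≤ Fintype.card I := by exact_mod_cast h6
    have h0 := S.θ0
    calc ℓ * S.θ * (S.η * ℓ * S.ρ ^ 4) ^ 2 ≤
        Fintype.card I * S.θ * (Fintype.card I : ℝ) ^ 2 := by
          refine mul_le_mul (mul_le_mul_of_nonneg_right e2 h0) e1 (by positivity) (by positivity)
      _ = S.θ * (Fintype.card I : ℝ) ^ 3 := by ring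
      _ ≤ 1 := hθ

end Numbers

section Main

variable {k0 KK : Type} [Field k0] [Field KK] [Algebra k0 KK] [Fintype k0] [Fintype KK]

/-- 831's sample event. -/
def Ev {I Ω : Type} [Fintype I] [Fintype Ω] (perp : Ω → Ω → Prop) (ρ : ℝ) (x : I → Ω) : Prop :=
  ∀ J : Finset I, 1 ≤ J.card → J.card ≤ 2 →
    ((univ.filter fun Q => ∀ j ∈ J, perp (x j) Q).card : ℝ) ≤ ρ ^ J.card * Fintype.card Ω →
    (GamS831.cntJ perp J x : ℝ) ≤ 2 * ρ ^ J.card * Fintype.card I

theorem bad_ev {I Ω : Type} [Fintype I] [Fintype Ω] (perp : Ω → Ω → Prop) (ρ : ℝ) (hρ : 0 < ρ)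
    (hρ1 : ρ ≤ 1) (hN : 250 ≤ ρ ^ 4 * Fintype.card I) :
    (((univ.filter fun x : I → Ω => ¬ Ev perp ρ x).card : ℕ) : ℝ) ≤
      1 / 16 * (Fintype.card Ω : ℝ) ^ Fintype.card I := by
  have h := GamS831.sample (ι := I) perp ρ hρ hρ1 hN
  refine le_trans (le_of_eq ?_) h
  unfold Ev
  congr!

theorem bad_li {K : Set k0} (h1 : (1 : k0) ∈ K) (d L : ℕ) {I : Type} [Fintype I]
    (hI : 2 ≤ Fintype.card I) (m : ℕ) (hgen : (Fintype.card I : ℝ) ^ (m + 1) *
          ((Fintype.card KK : ℝ) ^ m / (Fintype.card KK : ℝ) ^ (2 * d)) ≤ 1 / 16) :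
    (((univ.filter fun x : I → Om KK K d L => ¬ LI KK vv (m + 1) x).card : ℕ) : ℝ) ≤
      1 / 16 * (Fintype.card (Om KK K d L) : ℝ) ^ Fintype.card I := by
  have := nonempty_Om (KK := KK) h1 d L
  have h := card_not_li_m_le (K := KK) (I := I) (fib (KK := KK) K d L) hI m
  rw [card_WW] at h
  push_cast at h
  refine le_trans ?_ (h.trans (mul_le_mul_of_nonneg_right hgen (by positivity)))
  exact le_of_eq (by congr!)

/-- existence of the sample, two systems, `LI (m+1)`, 831's event, finitely many further bad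
sets (total `≤ 1/2`). -/
theorem exists_x {K : Set k0} (h1 : (1 : k0) ∈ K) {d L : ℕ} {I σ σ' : Type}
    [Fintype I] [DecidableEq I] [Fintype σ] [DecidableEq σ] [Fintype σ'] [DecidableEq σ']
    (hI : 2 ≤ Fintype.card I) (m : ℕ)
    (hgen : (Fintype.card I : ℝ) ^ (m + 1) *
          ((Fintype.card KK : ℝ) ^ m / (Fintype.card KK : ℝ) ^ (2 * d)) ≤ 1 / 16)
    (ρ : ℝ) (hρ0 : 0 < ρ) (hρ1 : ρ ≤ 1) (hN : 250 ≤ ρ ^ 4 * Fintype.card I)
    (S : Sys I (Om KK K d L) σ) (ℓ r : ℕ) (hS : Num S ℓ r)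
    (T : Sys I (Om KK K d L) σ') (ℓ' r' : ℕ) (hT : Num T ℓ' r')
    {ι : Type*} (s : Finset ι) (bad : ι → (I → Om KK K d L) → Prop) (c : ι → ℝ)
    (hbad : ∀ i ∈ s, (((univ.filter fun x => bad i x).card : ℕ) : ℝ) ≤
      c i * (Fintype.card (Om KK K d L) : ℝ) ^ Fintype.card I)
    (hc : ∑ i ∈ s, c i ≤ 1 / 2) :
    ∃ x : I → Om KK K d L, LI KK vv (m + 1) x ∧ Ev (perp K d L) ρ x ∧ S.Good ℓ r x ∧
      T.Good ℓ' r' x ∧ ∀ i ∈ s, ¬ bad i x := by
  have hne := nonempty_Om (KK := KK) h1 d L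
  set W : ℝ := (Fintype.card (Om KK K d L) : ℝ) ^ Fintype.card I with hW
  have hWc : (Fintype.card (I → Om KK K d L) : ℝ) = W := by
    rw [Fintype.card_fun]; push_cast; rfl
  have b1 : (((univ.filter fun x : I → Om KK K d L => ¬ LI KK vv (m + 1) x).card : ℕ) : ℝ) ≤
      1 / 16 * W := by
    have h := bad_li (KK := KK) h1 d L hI m hgen
    convert h
  have b2 : (((univ.filter fun x : I → Om KK K d L => ¬ Ev (perp K d L) ρ x).card : ℕ) : ℝ) ≤
      1 / 16 * W := by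
    have h := bad_ev (I := I) (perp (KK := KK) K d L) ρ hρ0 hρ1 hN
    convert h
  have b3 := Sys.card_bad_le (S := S) ℓ r hS.hE hS.hE' hS.hr1 hS.hr2 hS.hr3 hS.hθ
  have b4 := Sys.card_bad_le (S := T) ℓ' r' hT.hE hT.hE' hT.hr1 hT.hr2 hT.hr3 hT.hθ
  have hbad' : ∀ i ∈ s, (((univ.filter fun x => bad i x).card : ℕ) : ℝ) ≤
      c i * Fintype.card (I → Om KK K d L) := by
    intro i hi
    rw [hWc]
    exact hbad i hi
  rw [← hWc] at b1 b2
  rw [← hW, ← hWc] at b3 b4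
  exact exists5 _ _ _ _ (1 / 16) (1 / 16) (1 / 8) (1 / 8) b1 b2 b3 b4 s bad c hbad'
    (by linarith)

/-- the mass inequality for one-index laws. -/
theorem mass_of {I Ω : Type} [Fintype I] [DecidableEq I] [Fintype Ω] (perp : Ω → Ω → Prop)
    (hsym : ∀ P Q, perp P Q → perp Q P) (ρ η : ℝ) (hρ0 : 0 < ρ) (hρ1 : ρ ≤ 1) (hη0 : 0 < η)
    (hη1 : η ≤ 1) {ℓ r : ℕ} {x : I → Ω}
    (hG : (Quasi664.triv (I := I) perp ρ η hρ0 hρ1 hη0 hη1).Good ℓ r x)
    (hgen : Gen perp ρ x univ) (hE : 1 ≤ η * ℓ * ρ ^ 4) (hη : η ≤ 1 / 4096)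
    (m : ℝ) (hm0 : 0 ≤ m) (hℓm : 4 * ℓ * m ≤ η * ρ ^ 4) (hrm : 256 * (ℓ + r) * m ≤ 1)
    (τ τ' : I → ℝ) (t0 : ∀ s, 0 ≤ τ s) (t1 : ∑ s, τ s = 1) (t2 : ∀ i, τ i ≤ m)
    (t0' : ∀ s, 0 ≤ τ' s) (t1' : ∑ s, τ' s = 1) (t2' : ∀ i, τ' i ≤ m) :
    ρ / 32 ≤ ∑ s, ∑ s', (if perp (x s) (x s') then τ s * τ' s' else 0) := by
  set T : Sys I Ω I := Quasi664.triv (I := I) perp ρ η hρ0 hρ1 hη0 hη1 with hT
  have hidx : ∀ (u : I → ℝ) (i : I),
      ∑ j ∈ univ.filter (fun j => i ∈ T.idx j), u j = u i := by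
    intro u i
    have h1 : (univ.filter fun j : I => i ∈ T.idx j) = {i} := by
      ext j
      simp only [hT, Quasi664.triv, Finset.mem_filter, Finset.mem_univ, true_and,
        Finset.mem_singleton, eq_comm]
    rw [h1, Finset.sum_singleton]
  obtain ⟨G, G', -, -, -, -, h⟩ := Sys.theoremT T T rfl rfl rfl hsym hG hG
    hgen hE hη m hm0 hℓm hrm τ t0 t1 (fun i => by rw [hidx]; exact t2 i) τ' t0' t1'
    (fun i => by rw [hidx]; exact t2' i)
  have hTρ : T.ρ ^ (T.a * T.a) = ρ := by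
    show ρ ^ (1 * 1) = ρ
    rw [mul_one, pow_one]
  rw [hTρ] at h
  refine h.trans ?_
  refine (Finset.sum_le_sum_of_subset_of_nonneg (Finset.subset_univ G) ?_).trans
    (Finset.sum_le_sum fun a _ => (Finset.sum_le_sum_of_subset_of_nonneg
      (Finset.subset_univ G') ?_).trans (Finset.sum_le_sum fun b _ => ?_))
  · intro a _ _
    refine Finset.sum_nonneg fun b _ => ?_
    split_ifs
    · exact mul_nonneg (t0 a) (t0' b)
    · exact le_rfl
  · intro b _ _
    split_ifs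
    · exact mul_nonneg (t0 a) (t0' b)
    · exact le_rfl
  · by_cases hL : Sys.Live T T x a b
    · have h6 : perp (x a) (x b) := hL.1 a (Finset.mem_singleton_self a) b
        (Finset.mem_singleton_self b)
      rw [if_pos hL, if_pos h6]
    · rw [if_neg hL]
      split_ifs
      · exact mul_nonneg (t0 a) (t0' b)
      · exact le_rfl

theorem perp_irr [CharP KK 2] {K : Set k0} {d L : ℕ} (P : Om KK K d L) :
    ¬ perp K d L P P := by
  intro h
  have h2 := (perp_iff P P).mp h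
  rw [om_self] at h2
  exact neg_ne_zero.mpr one_ne_zero h2.symm

/-- 831's size condition from the numbers. -/
theorem size_of (ε : ℝ) (hε : 0 < ε) (hε1 : ε ≤ 1) (ρ N : ℝ) (hρ0 : 0 < ρ) (hρ1 : ρ ≤ 1)
    (hN0 : 0 < N) (B : ℕ) (hB1 : 1 ≤ B)
    (hN' : 100 * (B : ℝ) ^ 2 ≤ N * ((ε / 6656) ^ 5 * ρ ^ 8)) : 250 ≤ ρ ^ 4 * N := by
  have hη'0 : 0 < ε / 6656 := by positivity
  have hη'1 : ε / 6656 ≤ 1 / 6656 := by
    rw [div_le_div_iff₀ (by norm_num) (by norm_num)]; linarith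
  have a1 : (1 : ℝ) ≤ (B : ℝ) ^ 2 := by
    have : (1 : ℝ) ≤ B := by exact_mod_cast hB1
    nlinarith
  have a2 : (ε / 6656) ^ 5 ≤ (1 / 6656 : ℝ) ^ 5 := pow_le_pow_left₀ hη'0.le hη'1 5
  have a3 : ρ ^ 8 ≤ ρ ^ 4 := pow_le_pow_of_le_one hρ0.le hρ1 (by norm_num)
  have a4 : (ε / 6656) ^ 5 * ρ ^ 8 ≤ (1 / 6656 : ℝ) ^ 5 * ρ ^ 4 :=
    mul_le_mul a2 a3 (by positivity) (by positivity)
  have a5 : N * ((ε / 6656) ^ 5 * ρ ^ 8) ≤
      N * ((1 / 6656 : ℝ) ^ 5 * ρ ^ 4) := mul_le_mul_of_nonneg_left a4 hN0.le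
  have a6 : (100 : ℝ) ≤ N * ((1 / 6656 : ℝ) ^ 5 * ρ ^ 4) := by linarith
  have a7 : N * ((1 / 6656 : ℝ) ^ 5 * ρ ^ 4) =
    (1 / 6656 : ℝ) ^ 5 * (ρ ^ 4 * N) := by ring
  rw [a7] at a6
  have a8 : (1 / 6656 : ℝ) ^ 5 ≤ 1 / 250 := by norm_num
  have a9 : (1 / 6656 : ℝ) ^ 5 * (ρ ^ 4 * N) ≤
      1 / 250 * (ρ ^ 4 * N) := mul_le_mul_of_nonneg_right a8 (by positivity)
  linarith

/-- **THE SAMPLE THEOREM** (no richness; `bad` = finitely many further bad sets). -/
theorem sample_all (ε : ℝ) (hε : 0 < ε) (hε1 : ε ≤ 1) :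
    ∃ (D : ℕ) (ρ0 : ℝ), 0 < ρ0 ∧
      ∀ (k0 KK : Type) [Field k0] [Field KK] [Algebra k0 KK] [Fintype k0] [Fintype KK]
        [CharP KK 2] (K : Set k0) (_h1 : (1 : k0) ∈ K) (d L : ℕ) (I σ : Type)
        [Fintype I] [DecidableEq I] [Fintype σ] [DecidableEq σ]
        (_hρ : (Fintype.card KK : ℝ)⁻¹ ≤ ρ0) (_hI : 2 ≤ Fintype.card I)
        (m : ℕ) (_hm : 7 ≤ m)
        (_hgen : (Fintype.card I : ℝ) ^ (m + 1) *
          ((Fintype.card KK : ℝ) ^ m / (Fintype.card KK : ℝ) ^ (2 * d)) ≤ 1 / 16)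
        (S : Sys I (Om KK K d L) σ) (_hSρ : S.ρ = (Fintype.card KK : ℝ)⁻¹)
        (M : ℝ) (B : ℕ) (_hM : 1 ≤ M) (_hη : 6656 * M * S.η ≤ 1) (_hB1 : 1 ≤ B)
        (_hB : 52 * M ≤ B * ((Fintype.card KK : ℝ)⁻¹) ^ 4)
        (_hN : 100 * (B : ℝ) ^ 2 ≤ Fintype.card I * (S.η ^ 5 * ((Fintype.card KK : ℝ)⁻¹) ^ 8))
        (_hσ : Fintype.card σ + 1 ≤ 2 ^ B) (_hθ : S.θ * (Fintype.card I : ℝ) ^ 3 ≤ 1)
        (_hIB : Fintype.card I + 1 ≤ 2 ^ B)
        (_hB' : 52 * (1 / ε) ≤ B * ((Fintype.card KK : ℝ)⁻¹) ^ 4)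
        (_hN' : 100 * (B : ℝ) ^ 2 ≤
          Fintype.card I * ((ε / 6656) ^ 5 * ((Fintype.card KK : ℝ)⁻¹) ^ 8))
        (ι : Type) (s : Finset ι) (bad : ι → (I → Om KK K d L) → Prop) (c : ι → ℝ)
        (_hbad : ∀ i ∈ s, (((univ.filter fun x => bad i x).card : ℕ) : ℝ) ≤
          c i * (Fintype.card (Om KK K d L) : ℝ) ^ Fintype.card I)
        (_hc : ∑ i ∈ s, c i ≤ 1 / 2),
        ∃ (ℓ r : ℕ) (x : I → Om KK K d L),
          LI KK vv (m + 1) x ∧ LI KK vv 8 x ∧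
          Gen (perp K d L) ((Fintype.card KK : ℝ)⁻¹) x univ ∧
          Injective (fun i => (x i).1.b) ∧
          S.Good ℓ r x ∧ 1 ≤ S.η * ℓ * S.ρ ^ 4 ∧ S.η ≤ 1 / 4096 ∧
          4 * ℓ * (M / Fintype.card I) ≤ S.η * S.ρ ^ 4 ∧
          256 * (ℓ + r) * (M / Fintype.card I) ≤ 1 ∧
          (∀ i ∈ s, ¬ bad i x) ∧
          ∃ Γ : SimpleGraph I, (∀ i j, Γ.Adj i j → Perp (x i).1 (x j).1) ∧
            (∀ i, (univ.filter fun j => Γ.Adj i j).card ≤ D) ∧
            (∀ i j k, Γ.Adj i j → Γ.Adj i k → j ≠ k → ¬ Perp (x j).1 (x k).1) ∧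
            (∀ A A' : Finset I, ε * Fintype.card I ≤ A.card → ε * Fintype.card I ≤ A'.card →
              ∃ a ∈ A, ∃ b ∈ A', Γ.Adj a b) ∧
            (D ≤ m + 1 → ∀ i, LinearIndependent KK
              (fun j : {j // Γ.Adj i j} => (x j.1).1.b)) := by
  obtain ⟨D, ρ0, h0, hgam⟩ := GamInst664.gamma_sample ε hε hε1
  refine ⟨D, ρ0, h0, ?_⟩
  intro k0 KK _ _ _ _ _ _ K h1 d L I σ _ _ _ _ hρ hI m hm hgen S hSρ M B hM hη hB1 hB hN hσ hθ
    hIB hB' hN' ι s bad c hbad hc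
  have hneI : Nonempty I := Fintype.card_pos_iff.mp (by omega)
  have hK2 : (1 : ℝ) < Fintype.card KK := by exact_mod_cast Fintype.one_lt_card
  have hN0 : (0 : ℝ) < Fintype.card I := by exact_mod_cast Fintype.card_pos
  have hρ0 : (0 : ℝ) < (Fintype.card KK : ℝ)⁻¹ := by
    have : (0 : ℝ) < Fintype.card KK := by linarith
    positivity
  have hρ1 : (Fintype.card KK : ℝ)⁻¹ ≤ 1 := (inv_lt_one_of_one_lt₀ hK2).le
  have hη'0 : 0 < ε / 6656 := by positivity
  have hη'1 : ε / 6656 ≤ 1 / 6656 := by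
    rw [div_le_div_iff₀ (by norm_num) (by norm_num)]; linarith
  obtain ⟨ℓ, r, hS, e1, e2⟩ := num_of S M B hM hη hB1 (by rw [hSρ]; exact hB)
    (by rw [hSρ]; exact hN) hσ hθ
  obtain ⟨ℓ', r', hT', f1, f2⟩ := num_of (Quasi664.triv (I := I) (perp (KK := KK) K d L)
    ((Fintype.card KK : ℝ)⁻¹) (ε / 6656) hρ0 hρ1 hη'0 (by linarith)) (1 / ε) B
    (by rw [le_div_iff₀ hε]; linarith)
    (by
      show 6656 * (1 / ε) * (ε / 6656) ≤ 1
      field_simp
      exact le_rfl) hB1 hB' hN' hIB (by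
      show (0 : ℝ) * _ ≤ 1
      rw [zero_mul]; exact zero_le_one)
  obtain ⟨x, y1, y2, y3, y4, y5⟩ := exists_x h1 hI m hgen _ hρ0 hρ1
    (size_of ε hε hε1 _ _ hρ0 hρ1 hN0 B hB1 hN') S ℓ r hS _ ℓ' r' hT' s bad c hbad hc
  have x1 : LI KK vv 8 x := li_mono (by omega) y1
  have hGen : Gen (perp K d L) ((Fintype.card KK : ℝ)⁻¹) x univ := gen x1 univ
  refine ⟨ℓ, r, x, y1, x1, hGen, b_injective x1, y3, hS.hE, ?_, e1, e2, y5, ?_⟩
  · have h0 := S.η0
    have : 6656 * S.η ≤ 6656 * M * S.η := by nlinarith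
    rw [le_div_iff₀ (by norm_num)]
    linarith
  · obtain ⟨Γ, g1, g2, g3, g4⟩ := hgam I (Om KK K d L) (perp K d L) (fun P Q => perp_symm)
      perp_irr _ hρ0 hρ x hGen y2 (by
        intro τ τ' t0 t1 t2 t0' t1' t2'
        have hmm : (1 / ε / Fintype.card I : ℝ) = 1 / (ε * Fintype.card I) := by
          rw [div_div]
        rw [hmm] at f1 f2
        exact mass_of (perp K d L) (fun P Q => perp_symm) _ (ε / 6656) hρ0 hρ1 hη'0
          (by linarith) y4 hGen hT'.hE (by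
            have : (1 : ℝ) / 6656 ≤ 1 / 4096 := by norm_num
            linarith) (1 / (ε * Fintype.card I)) (by positivity) f1 f2 τ τ' t0 t1 t2 t0' t1' t2')
    refine ⟨Γ, fun i j h => (g1 i j h).2, g2, g3, g4, ?_⟩
    intro hD i
    have h1 := y1 (univ.filter fun j => Γ.Adj i j) ((g2 i).trans hD)
    have h2 : LinearIndependent KK (fun j : {j // Γ.Adj i j} => vv (x j.1)) :=
      h1.comp (fun j : {j // Γ.Adj i j} =>
        (⟨j.1, by rw [Finset.mem_filter]; exact ⟨Finset.mem_univ _, j.2⟩⟩ :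
          {k // k ∈ univ.filter fun j => Γ.Adj i j}))
        (fun a b hab => Subtype.ext (congrArg (fun z => z.1) hab))
    let f : (Ix d → KK) →ₗ[KK] WW KK d := LinearMap.funLeft KK KK some
    exact LinearIndependent.of_comp f h2

/-- **THE SAMPLE THEOREM, rich form** (plan A). -/
theorem sample_rich (ε : ℝ) (hε : 0 < ε) (hε1 : ε ≤ 1) :
    ∃ (D : ℕ) (ρ0 : ℝ), 0 < ρ0 ∧
      ∀ (k0 KK : Type) [Field k0] [Field KK] [Algebra k0 KK] [Fintype k0] [Fintype KK]
        [CharP KK 2] (K : Set k0) (_hK : Fam543.Alph K) (d L : ℕ) (I σ : Type)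
        [Fintype I] [DecidableEq I] [Fintype σ] [DecidableEq σ]
        (_hρ : (Fintype.card KK : ℝ)⁻¹ ≤ ρ0) (_hI : 2 ≤ Fintype.card I)
        (m : ℕ) (_hm : 7 ≤ m)
        (_hgen : (Fintype.card I : ℝ) ^ (m + 1) *
          ((Fintype.card KK : ℝ) ^ m / (Fintype.card KK : ℝ) ^ (2 * d)) ≤ 1 / 16)
        (_hL : (Fintype.card K : ℝ) *
          (2 * Real.log (Fintype.card I) + Real.log (Fintype.card K) + 4) ≤ L)
        (S : Sys I (Om KK K d L) σ) (_hSρ : S.ρ = (Fintype.card KK : ℝ)⁻¹)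
        (M : ℝ) (B : ℕ) (_hM : 1 ≤ M) (_hη : 6656 * M * S.η ≤ 1) (_hB1 : 1 ≤ B)
        (_hB : 52 * M ≤ B * ((Fintype.card KK : ℝ)⁻¹) ^ 4)
        (_hN : 100 * (B : ℝ) ^ 2 ≤ Fintype.card I * (S.η ^ 5 * ((Fintype.card KK : ℝ)⁻¹) ^ 8))
        (_hσ : Fintype.card σ + 1 ≤ 2 ^ B) (_hθ : S.θ * (Fintype.card I : ℝ) ^ 3 ≤ 1)
        (_hIB : Fintype.card I + 1 ≤ 2 ^ B)
        (_hB' : 52 * (1 / ε) ≤ B * ((Fintype.card KK : ℝ)⁻¹) ^ 4)
        (_hN' : 100 * (B : ℝ) ^ 2 ≤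
          Fintype.card I * ((ε / 6656) ^ 5 * ((Fintype.card KK : ℝ)⁻¹) ^ 8))
        (ι : Type) (s : Finset ι) (bad : ι → (I → Om KK K d L) → Prop) (c : ι → ℝ)
        (_hbad : ∀ i ∈ s, (((univ.filter fun x => bad i x).card : ℕ) : ℝ) ≤
          c i * (Fintype.card (Om KK K d L) : ℝ) ^ Fintype.card I)
        (_hc : ∑ i ∈ s, c i ≤ 1 / 4),
        ∃ (ℓ r : ℕ) (x : I → Om KK K d L),
          RichF K (fun i => (x i).1.E) ∧
          LI KK vv (m + 1) x ∧ LI KK vv 8 x ∧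
          Gen (perp K d L) ((Fintype.card KK : ℝ)⁻¹) x univ ∧
          Injective (fun i => (x i).1.b) ∧
          S.Good ℓ r x ∧ 1 ≤ S.η * ℓ * S.ρ ^ 4 ∧ S.η ≤ 1 / 4096 ∧
          4 * ℓ * (M / Fintype.card I) ≤ S.η * S.ρ ^ 4 ∧
          256 * (ℓ + r) * (M / Fintype.card I) ≤ 1 ∧
          (∀ i ∈ s, ¬ bad i x) ∧
          ∃ Γ : SimpleGraph I, (∀ i j, Γ.Adj i j → Perp (x i).1 (x j).1) ∧
            (∀ i, (univ.filter fun j => Γ.Adj i j).card ≤ D) ∧
            (∀ i j k, Γ.Adj i j → Γ.Adj i k → j ≠ k → ¬ Perp (x j).1 (x k).1) ∧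
            (∀ A A' : Finset I, ε * Fintype.card I ≤ A.card → ε * Fintype.card I ≤ A'.card →
              ∃ a ∈ A, ∃ b ∈ A', Γ.Adj a b) ∧
            (D ≤ m + 1 → ∀ i, LinearIndependent KK
              (fun j : {j // Γ.Adj i j} => (x j.1).1.b)) := by
  obtain ⟨D, ρ0, h0, h⟩ := sample_all ε hε hε1
  refine ⟨D, ρ0, h0, ?_⟩
  intro k0 KK _ _ _ _ _ _ K hK d L I σ _ _ _ _ hρ hI m hm hgen hL S hSρ M B hM hη hB1 hB hN hσ hθ
    hIB hB' hN' ι s bad c hbad hc
  have hneI : Nonempty I := Fintype.card_pos_iff.mp (by omega)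
  let bad' : Unit ⊕ ι → (I → Om KK K d L) → Prop := fun i x =>
    Sum.elim (fun _ => ¬ RichF K (fun i => (x i).1.E)) (fun i => bad i x) i
  let c' : Unit ⊕ ι → ℝ := Sum.elim (fun _ => Real.exp (-4)) c
  have he : Real.exp (-4) ≤ 1 / 16 := by
    have h1 : (1 : ℝ) + 1 ≤ Real.exp 1 := by linarith [Real.add_one_le_exp (1 : ℝ)]
    have h2 : (2 : ℝ) ^ 4 ≤ Real.exp 4 := by
      have : Real.exp 4 = Real.exp 1 ^ 4 := by rw [← Real.exp_nat_mul]; norm_num
      rw [this]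
      exact pow_le_pow_left₀ (by norm_num) (by linarith) 4
    rw [Real.exp_neg, one_div]
    exact inv_anti₀ (by norm_num) (by linarith)
  have b2 : (((univ.filter fun x : I → Om KK K d L =>
      ¬ RichF K (fun i => (x i).1.E)).card : ℕ) : ℝ) ≤
        Real.exp (-4) * (Fintype.card (Om KK K d L) : ℝ) ^ Fintype.card I := by
    have h := rich_bad (KK := KK) hK d L hL
    convert h
  obtain ⟨ℓ, r, x, x1, x2, x3, x4, x5, x6, x7, x8, x9, x10, x11⟩ := h k0 KK K hK.one d L I σ hρ hI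
    m hm hgen S hSρ M B hM hη hB1 hB hN hσ hθ hIB hB' hN' (Unit ⊕ ι)
    ((univ : Finset Unit).disjSum s) bad' c' (by
      intro i hi
      rcases i with i | i
      · refine le_trans (le_of_eq ?_) b2
        congr!
      · exact hbad i (by simpa using hi)) (by
      rw [Finset.sum_disjSum]
      have h2 : ∑ i ∈ s, c' (Sum.inr i) = ∑ i ∈ s, c i := rfl
      have h3 : ∑ i : Unit, c' (Sum.inl i) = Real.exp (-4) := by
        rw [Finset.univ_unique, Finset.sum_singleton]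
        rfl
      rw [h2, h3]
      linarith)
  refine ⟨ℓ, r, x, ?_, x1, x2, x3, x4, x5, x6, x7, x8, x9, fun i hi => ?_, x11⟩
  · have := x10 (Sum.inl ()) (by simp)
    exact not_not.mp this
  · exact x10 (Sum.inr i) (by simpa using hi)

end Main

end Crest.Agent.R042.SampAll592
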