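import Mathlib
import Crest.Agent.R042.Conn_353

/-! Row 42, S0058, (10.7f): the schedule of the chain of hubs.  `p` disjoint connected tokens,
one pair of tokens becomes adjacent in each of the `p * p` stages. -/

set_option autoImplicit false

namespace Crest.Agent.R042.Sched387

open Finset Crest.Agent.R042.Conn353

variable {V : Type*} [DecidableEq V] {G : SimpleGraph V}

theorem schedule {W : Finset V} {p : ℕ} (Inv : ℕ → (Fin p → Finset V) → Prop)
    (hInv : ∀ b T, Inv b T → (∀ i, T i ⊆ W ∧ Conn G (T i)) ∧ ∀ i j, i ≠ j → Disjoint (T i) (T j))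
    (h0 : ∃ T, Inv 0 T)
    (step : ∀ b, b < p * p → ∀ x y : Fin p, x ≠ y → ∀ T, Inv b T → ∃ T', Inv (b + 1) T' ∧
      (∀ i, T i ⊆ T' i) ∧ ∃ u ∈ T' x, ∃ v ∈ T' y, G.Adj u v)
    (skip : ∀ b, b < p * p → ∀ T, Inv b T → ∃ T', Inv (b + 1) T' ∧ (∀ i, T i ⊆ T' i)) :
    ∃ T : Fin p → Finset V, (∀ i, T i ⊆ W ∧ (T i).Nonempty ∧ Conn G (T i)) ∧
      (∀ i j, i ≠ j → Disjoint (T i) (T j)) ∧
      (∀ i j, i ≠ j → ∃ x ∈ T i, ∃ y ∈ T j, G.Adj x y) := by
  classical
  have key : ∀ b, b ≤ p * p → ∃ T, Inv b T ∧ ∀ i j : Fin p, i ≠ j → i.1 * p + j.1 < b →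
      ∃ x ∈ T i, ∃ y ∈ T j, G.Adj x y := by
    intro b
    induction b with
    | zero =>
      intro _
      obtain ⟨T, hT⟩ := h0
      exact ⟨T, hT, fun i j _ h => absurd h (by omega)⟩
    | succ b ih =>
      intro hb
      obtain ⟨T, hT, hadj⟩ := ih (by omega)
      have hp : 0 < p := by
        rcases Nat.eq_zero_or_pos p with h | h
        · subst h; simp at hb
        · exact h
      have hx : b / p < p := Nat.div_lt_of_lt_mul (by omega)
      have hy : b % p < p := Nat.mod_lt _ hp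
      have hdm : b / p * p + b % p = b := Nat.div_add_mod' b p
      -- the pair treated in stage `b`
      have huniq : ∀ i j : Fin p, i.1 * p + j.1 = b → i = ⟨b / p, hx⟩ ∧ j = ⟨b % p, hy⟩ := by
        intro i j hij
        have h1 : b / p = i.1 := by
          rw [← hij, mul_comm, Nat.mul_add_div hp, Nat.div_eq_of_lt j.2, add_zero]
        have h2 : b % p = j.1 := by
          rw [← hij, mul_comm, Nat.mul_add_mod, Nat.mod_eq_of_lt j.2]
        exact ⟨Fin.ext h1.symm, Fin.ext h2.symm⟩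
      by_cases hxy : (⟨b / p, hx⟩ : Fin p) = ⟨b % p, hy⟩
      · obtain ⟨T', hT', hsub⟩ := skip b (by omega) T hT
        refine ⟨T', hT', ?_⟩
        intro i j hij hlt
        rcases Nat.lt_succ_iff_lt_or_eq.1 hlt with h | h
        · obtain ⟨x, hx', y, hy', hxy'⟩ := hadj i j hij h
          exact ⟨x, hsub i hx', y, hsub j hy', hxy'⟩
        · obtain ⟨h1, h2⟩ := huniq i j h
          exact absurd (h1.trans (hxy.trans h2.symm)) hij
      · obtain ⟨T', hT', hsub, hnew⟩ := step b (by omega) _ _ hxy T hT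
        refine ⟨T', hT', ?_⟩
        intro i j hij hlt
        rcases Nat.lt_succ_iff_lt_or_eq.1 hlt with h | h
        · obtain ⟨x, hx', y, hy', hxy'⟩ := hadj i j hij h
          exact ⟨x, hsub i hx', y, hsub j hy', hxy'⟩
        · obtain ⟨h1, h2⟩ := huniq i j h
          rw [h1, h2]
          exact hnew
  obtain ⟨T, hT, hadj⟩ := key (p * p) le_rfl
  obtain ⟨h1, h2⟩ := hInv _ T hT
  refine ⟨T, fun i => ⟨(h1 i).1, (h1 i).2.nonempty, (h1 i).2⟩, h2, ?_⟩
  intro i j hij
  apply hadj i j hij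
  have hi := i.2
  have hj := j.2
  calc i.1 * p + j.1 < i.1 * p + p := by omega
    _ = (i.1 + 1) * p := by ring
    _ ≤ p * p := Nat.mul_le_mul_right p (by omega)

end Crest.Agent.R042.Sched387
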