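import Mathlib

/-!
# Row 42: product measures, resampling, sequential bounds (helper477)
-/

namespace Crest.Agent.R042.Seq477

open Finset Function
open scoped Classical

noncomputable section

variable {Ω : Type*} [Fintype Ω]

/-- expectation of `f` for an i.i.d. family with law `τ` -/
def Ex {ι : Type*} [Fintype ι] (τ : Ω → ℝ) (f : (ι → Ω) → ℝ) : ℝ :=
  ∑ ω : ι → Ω, (∏ i, τ (ω i)) * f ω

/-- indicator -/
def ind (p : Prop) : ℝ := if p then 1 else 0

lemma ind_true {p : Prop} (h : p) : ind p = 1 := by simp [ind, h]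
lemma ind_false {p : Prop} (h : ¬ p) : ind p = 0 := by simp [ind, h]
lemma ind_nonneg (p : Prop) : 0 ≤ ind p := by unfold ind; split_ifs <;> norm_num
lemma ind_le_one (p : Prop) : ind p ≤ 1 := by unfold ind; split_ifs <;> norm_num
lemma ind_mono {p q : Prop} (h : p → q) : ind p ≤ ind q := by
  by_cases hp : p
  · rw [ind_true hp, ind_true (h hp)]
  · rw [ind_false hp]; exact ind_nonneg q
lemma ind_and (p q : Prop) : ind (p ∧ q) = ind p * ind q := by
  by_cases hp : p <;> by_cases hq : q <;> simp [ind, hp, hq]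
lemma ind_or_le (p q : Prop) : ind (p ∨ q) ≤ ind p + ind q := by
  by_cases hp : p <;> by_cases hq : q <;> simp [ind, hp, hq]

/-- probability of `p` under the weight `τ` -/
def pr (τ : Ω → ℝ) (p : Ω → Prop) : ℝ := ∑ x, τ x * ind (p x)

lemma pr_nonneg {τ : Ω → ℝ} (h0 : ∀ x, 0 ≤ τ x) (p : Ω → Prop) : 0 ≤ pr τ p :=
  Finset.sum_nonneg fun x _ => mul_nonneg (h0 x) (ind_nonneg _)

lemma pr_mono {τ : Ω → ℝ} (h0 : ∀ x, 0 ≤ τ x) {p q : Ω → Prop} (h : ∀ x, p x → q x) :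
    pr τ p ≤ pr τ q :=
  Finset.sum_le_sum fun x _ => mul_le_mul_of_nonneg_left (ind_mono (h x)) (h0 x)

lemma pr_or {τ : Ω → ℝ} (h0 : ∀ x, 0 ≤ τ x) (p q : Ω → Prop) :
    pr τ (fun x => p x ∨ q x) ≤ pr τ p + pr τ q := by
  unfold pr
  rw [← Finset.sum_add_distrib]
  refine Finset.sum_le_sum fun x _ => ?_
  rw [← mul_add]
  exact mul_le_mul_of_nonneg_left (ind_or_le _ _) (h0 x)

lemma pr_le_one {τ : Ω → ℝ} (h0 : ∀ x, 0 ≤ τ x) (h1 : ∑ x, τ x = 1) (p : Ω → Prop) :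
    pr τ p ≤ 1 := by
  rw [← h1]
  refine Finset.sum_le_sum fun x _ => ?_
  have := mul_le_mul_of_nonneg_left (ind_le_one (p x)) (h0 x)
  simpa using this

section
variable {ι : Type*} [Fintype ι]

lemma prod_update (τ : Ω → ℝ) (ω : ι → Ω) (i : ι) (x : Ω) :
    (∏ j, τ (update ω i x j)) * τ (ω i) = (∏ j, τ (ω j)) * τ x := by
  have h1 : ∏ j, τ (update ω i x j) = τ x * ∏ j ∈ univ \ {i}, τ (ω j) := by
    have := Finset.prod_update_of_mem (mem_univ i) (fun j => τ (ω j)) (τ x)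
    rw [← this]
    refine Finset.prod_congr rfl fun j _ => ?_
    by_cases hj : j = i
    · subst hj; simp
    · simp [hj]
  have h2 : ∏ j, τ (ω j) = τ (ω i) * ∏ j ∈ univ \ {i}, τ (ω j) := by
    have := Finset.prod_update_of_mem (mem_univ i) (fun j => τ (ω j)) (τ (ω i))
    rw [← this]
    refine Finset.prod_congr rfl fun j _ => ?_
    by_cases hj : j = i
    · subst hj; simp
    · simp [hj]
  rw [h1, h2]; ring

lemma Ex_resample (τ : Ω → ℝ) (h1 : ∑ x, τ x = 1) (i : ι) (f : (ι → Ω) → ℝ) :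
    Ex τ f = Ex τ (fun ω => ∑ x, τ x * f (update ω i x)) := by
  unfold Ex
  have hR : ∑ ω : ι → Ω, (∏ j, τ (ω j)) * ∑ x, τ x * f (update ω i x)
      = ∑ p : (ι → Ω) × Ω, (∏ j, τ (p.1 j)) * τ p.2 * f (update p.1 i p.2) := by
    rw [Fintype.sum_prod_type]
    refine Finset.sum_congr rfl fun ω _ => ?_
    rw [Finset.mul_sum]
    exact Finset.sum_congr rfl fun x _ => by ring
  have hL : ∑ ω : ι → Ω, (∏ j, τ (ω j)) * f ω
      = ∑ p : (ι → Ω) × Ω, (∏ j, τ (p.1 j)) * τ p.2 * f p.1 := by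
    rw [Fintype.sum_prod_type]
    refine Finset.sum_congr rfl fun ω _ => ?_
    have : ∑ x, (∏ j, τ (ω j)) * τ x * f ω = ((∏ j, τ (ω j)) * f ω) * ∑ x, τ x := by
      rw [Finset.mul_sum]
      exact Finset.sum_congr rfl fun x _ => by ring
    rw [this, h1, mul_one]
  rw [hR, hL]
  refine Finset.sum_nbij' (fun p => (update p.1 i p.2, p.1 i)) (fun p => (update p.1 i p.2, p.1 i))
    (fun _ _ => mem_univ _) (fun _ _ => mem_univ _) ?_ ?_ ?_
  · rintro ⟨ω, x⟩ _; simp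
  · rintro ⟨ω, x⟩ _; simp
  · rintro ⟨ω, x⟩ _
    simp only [update_idem, update_eq_self]
    rw [prod_update]

lemma Ex_mono {τ : Ω → ℝ} (h0 : ∀ x, 0 ≤ τ x) {f g : (ι → Ω) → ℝ} (h : ∀ ω, f ω ≤ g ω) :
    Ex τ f ≤ Ex τ g :=
  Finset.sum_le_sum fun ω _ => mul_le_mul_of_nonneg_left (h ω) (Finset.prod_nonneg fun i _ => h0 _)

lemma Ex_smul (τ : Ω → ℝ) (c : ℝ) (f : (ι → Ω) → ℝ) :
    Ex τ (fun ω => c * f ω) = c * Ex τ f := by
  unfold Ex
  rw [Finset.mul_sum]
  exact Finset.sum_congr rfl fun ω _ => by ring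

lemma Ex_add (τ : Ω → ℝ) (f g : (ι → Ω) → ℝ) :
    Ex τ (fun ω => f ω + g ω) = Ex τ f + Ex τ g := by
  unfold Ex
  rw [← Finset.sum_add_distrib]
  exact Finset.sum_congr rfl fun ω _ => by ring

lemma Ex_sum (τ : Ω → ℝ) {κ : Type*} (s : Finset κ) (f : κ → (ι → Ω) → ℝ) :
    Ex τ (fun ω => ∑ k ∈ s, f k ω) = ∑ k ∈ s, Ex τ (f k) := by
  unfold Ex
  rw [Finset.sum_comm]
  exact Finset.sum_congr rfl fun ω _ => by rw [Finset.mul_sum]

lemma Ex_one (τ : Ω → ℝ) (h1 : ∑ x, τ x = 1) : Ex (ι := ι) τ (fun _ => 1) = 1 := by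
  unfold Ex
  simp only [mul_one]
  have := Finset.prod_univ_sum (fun _ : ι => (univ : Finset Ω)) (fun _ x => τ x)
  simp only [h1, Finset.prod_const_one, Fintype.piFinset_univ] at this
  exact this.symm

/-- sequential bound: `m` steps, each resampling the two coordinates `κ₀ r`, `κ₁ r`. -/
theorem seq_bound {τ : Ω → ℝ} (h0 : ∀ x, 0 ≤ τ x) (h1 : ∑ x, τ x = 1) (δ : ℝ) (hδ : 0 ≤ δ) :
    ∀ (m : ℕ) (κ₀ κ₁ : Fin m → ι) (A : Fin m → (ι → Ω) → Prop)
      (_ : ∀ r t, r < t → ∀ ω x, (A r (update ω (κ₀ t) x) ↔ A r ω) ∧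
        (A r (update ω (κ₁ t) x) ↔ A r ω))
      (_ : ∀ r ω, ∑ x, τ x * ∑ y, τ y *
        ind (A r (update (update ω (κ₀ r) x) (κ₁ r) y)) ≤ δ),
      Ex τ (fun ω => ind (∀ r, A r ω)) ≤ δ ^ m := by
  intro m
  induction m with
  | zero =>
    intro κ₀ κ₁ A _ _
    simp [ind, Ex_one τ h1]
  | succ m ih =>
    intro κ₀ κ₁ A hind hstep
    set f : (ι → Ω) → ℝ := fun ω => ind (∀ r : Fin m, A r.castSucc ω) with hf
    set g : (ι → Ω) → ℝ := fun ω => ind (A (Fin.last m) ω) with hg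
    have hfg : (fun ω => ind (∀ r, A r ω)) = fun ω => f ω * g ω := by
      funext ω
      simp only [hf, hg]
      rw [← ind_and]
      congr 1
      refine propext ⟨fun h => ⟨fun r => h _, h _⟩, fun h r => Fin.lastCases h.2 h.1 r⟩
    have hinv : ∀ ω x y, f (update (update ω (κ₀ (Fin.last m)) x) (κ₁ (Fin.last m)) y) = f ω := by
      intro ω x y
      simp only [hf]
      have : (∀ r : Fin m, A r.castSucc (update (update ω (κ₀ (Fin.last m)) x)
          (κ₁ (Fin.last m)) y)) ↔ (∀ r : Fin m, A r.castSucc ω) := by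
        refine forall_congr' fun r => ?_
        rw [(hind r.castSucc (Fin.last m) (Fin.castSucc_lt_last r) _ y).2,
          (hind r.castSucc (Fin.last m) (Fin.castSucc_lt_last r) _ x).1]
      simp only [this]
    rw [hfg, Ex_resample τ h1 (κ₁ (Fin.last m)), Ex_resample τ h1 (κ₀ (Fin.last m))]
    have hle : ∀ ω, ∑ x, τ x * ∑ y, τ y *
        (f (update (update ω (κ₀ (Fin.last m)) x) (κ₁ (Fin.last m)) y) *
         g (update (update ω (κ₀ (Fin.last m)) x) (κ₁ (Fin.last m)) y)) ≤ δ * f ω := by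
      intro ω
      have e1 : ∑ x, τ x * ∑ y, τ y *
        (f (update (update ω (κ₀ (Fin.last m)) x) (κ₁ (Fin.last m)) y) *
         g (update (update ω (κ₀ (Fin.last m)) x) (κ₁ (Fin.last m)) y)) =
         f ω * ∑ x, τ x * ∑ y, τ y * g (update (update ω (κ₀ (Fin.last m)) x)
          (κ₁ (Fin.last m)) y) := by
        rw [Finset.mul_sum]
        refine Finset.sum_congr rfl fun x _ => ?_
        rw [Finset.mul_sum, Finset.mul_sum, Finset.mul_sum]
        refine Finset.sum_congr rfl fun y _ => ?_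
        rw [hinv]; ring
      rw [e1, mul_comm]
      refine mul_le_mul_of_nonneg_right (hstep (Fin.last m) ω) ?_
      exact ind_nonneg _
    refine (Ex_mono h0 hle).trans ?_
    rw [Ex_smul, pow_succ, mul_comm]
    refine mul_le_mul_of_nonneg_right (ih (fun r => κ₀ r.castSucc) (fun r => κ₁ r.castSucc)
      (fun r => A r.castSucc) ?_ ?_) hδ
    · intro r t hrt ω x
      exact hind r.castSucc t.castSucc (by simpa using hrt) ω x
    · intro r ω
      exact hstep r.castSucc ω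

end

end

end Crest.Agent.R042.Seq477
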