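import Crest.Agent.R042.Small_333

/-! Row 42 / S0058, (10.0): the numbers.  `B0` = block B0 of the spine, from the four leaf
statements. -/

set_option autoImplicit false
set_option linter.unusedSectionVars false

namespace Crest.Agent.R042.Small333

open Finset Crest.Agent.R042.Conn353 Crest.Agent.R042.Menger353 Crest.Agent.R042.Crit374
open Crest.Agent.R042.Mader375 (Model)
open Crest.Agent.R042.Asm220 (Woven HubLinked Pr)
open Crest.Agent.R042.Link870 (Linked)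

/-- induction hypothesis of the main induction (model form). -/
def IHypM (F h : ℕ) : Prop :=
  ∀ h', h' < h → ∀ {V : Type} [DecidableEq V] (G : SimpleGraph V) (W : Finset V),
    ¬ Model G W (h' + 1) → Choos G W (F * h')

/-- sets of small order are cheap (model form). -/
def SmallSetsM (F h C s : ℕ) : Prop :=
  ∀ {V : Type} [DecidableEq V] (G : SimpleGraph V) (X : Finset V),
    ¬ Model G X (h + 1) → X.card ≤ 2 ^ (C * h) → Choos G X (F * h / s)

lemma four_mul_two_pow_lt (n : ℕ) {x : ℝ} (hx : (n : ℝ) + 3 ≤ x) :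
    4 * (2 : ℝ) ^ n < Real.exp x := by
  have h1 : (2 : ℝ) ^ n ≤ Real.exp n := by
    have h2 : (2 : ℝ) ≤ Real.exp 1 := by
      have := Real.add_one_le_exp (1 : ℝ)
      linarith
    calc (2 : ℝ) ^ n ≤ (Real.exp 1) ^ n := by gcongr
      _ = Real.exp n := by rw [← Real.exp_nat_mul, mul_one]
  have h3 : (4 : ℝ) < Real.exp 3 := by
    have := Real.add_one_lt_exp (x := (3 : ℝ)) (by norm_num)
    linarith
  have h4 : Real.exp (n + 3) ≤ Real.exp x := Real.exp_le_exp.2 hx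
  have h5 : 0 < Real.exp (n : ℝ) := Real.exp_pos _
  calc 4 * (2 : ℝ) ^ n ≤ 4 * Real.exp n := by linarith
    _ < Real.exp 3 * Real.exp n := by nlinarith
    _ = Real.exp (n + 3) := by rw [← Real.exp_add, add_comm]
    _ ≤ Real.exp x := h4

/-- block B0 of the spine: (10.0), small sets are cheap. -/
theorem B0M {D0 : ℕ} (hKR : KRStmt) (hHub : HubStmt D0) (hAsm : AsmStmt)
    (hSW : SmallWovenStmt D0) (C s0 : ℕ) (hs0 : 1 ≤ s0) :
    ∃ F1 : ℕ, ∀ F, F1 ≤ F → ∀ h, 1 ≤ h → IHypM F h → SmallSetsM F h C s0 := by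
  classical
  obtain ⟨S, hS⟩ : ∃ S : ℕ, S = 1536 * s0 := ⟨_, rfl⟩
  obtain ⟨m, hm⟩ : ∃ m : ℕ, m = Fintype.card (Pr S) := ⟨_, rfl⟩
  obtain ⟨K1, hK1⟩ : ∃ K1 : ℕ, K1 = 64 * (4 * (m + 1)) +
    48 * (8 + (8 + D0) * (4 * (m + 1)) + 13 + 4 * C) +
    2 * (4 * m + 32 * m * (m + 1)) := ⟨_, rfl⟩
  refine ⟨2 * s0 * K1 + S * (32 * (m + 1) ^ 2) + s0 * (2 ^ (S + 1) + 1), ?_⟩
  intro F hF h hh IH V _ G X hX hXc
  have hF1 : 2 * s0 * K1 ≤ F := by omega
  have hF2 : S * (32 * (m + 1) ^ 2) ≤ F := by omega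
  have hF3 : s0 * (2 ^ (S + 1) + 1) ≤ F := by omega
  by_cases hhS : h < S
  · -- small `h`: Mader
    refine (choos_of_no_model hX).mono_card ?_
    rw [Nat.le_div_iff_mul_le (by omega)]
    have h1 : 2 ^ (h + 1) ≤ 2 ^ (S + 1) := Nat.pow_le_pow_right (by norm_num) (by omega)
    calc (2 ^ (h + 1) + 1) * s0 ≤ (2 ^ (S + 1) + 1) * s0 := Nat.mul_le_mul_right _ (by omega)
      _ = s0 * (2 ^ (S + 1) + 1) := Nat.mul_comm _ _
      _ ≤ F := hF3
      _ = F * 1 := (Nat.mul_one F).symm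
      _ ≤ F * h := Nat.mul_le_mul_left _ hh
  push Not at hhS
  obtain ⟨g, hg⟩ : ∃ g : ℕ, g = h / S + 1 := ⟨_, rfl⟩
  have hSpos : 0 < S := by omega
  have hg1 : 1 ≤ g := by rw [hg]; exact Nat.le_add_left 1 _
  have hSg : h + 1 ≤ S * g := by
    have := Nat.lt_mul_div_succ h hSpos
    rw [hg]
    exact this
  have hSg2 : S * g ≤ 2 * h := by
    have h1 : S * (h / S) ≤ h := Nat.mul_div_le h S
    rw [hg, Nat.mul_add, Nat.mul_one]
    omega
  have hgh : g ≤ h := by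
    have h1 : 1536 * g ≤ S * g := Nat.mul_le_mul_right _ (by omega)
    omega
  obtain ⟨κ, hκ⟩ : ∃ κ : ℕ, κ = 4 * g + 4 * g * m := ⟨_, rfl⟩
  obtain ⟨k', hk'⟩ : ∃ k' : ℕ, k' = F * (8 * g - 1) + 8 * g + 4 * κ := ⟨_, rfl⟩
  obtain ⟨q1, hq1⟩ : ∃ q1 : ℕ, q1 = k' + D0 * κ + 4 * κ + 1 + (4 * (C * h) + 12) := ⟨_, rfl⟩
  obtain ⟨kH, hkH⟩ : ∃ kH : ℕ, kH = 8 * κ + 6 * q1 := ⟨_, rfl⟩
  obtain ⟨θ, hθ⟩ : ∃ θ : ℕ, θ = 4 * g * m + m * (8 * κ) := ⟨_, rfl⟩
  obtain ⟨k, hk⟩ : ∃ k : ℕ, k = F * h / s0 := ⟨_, rfl⟩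
  rw [← hk]
  -- bounds
  have hκh : κ ≤ 4 * (m + 1) * h := by
    calc κ = 4 * (m + 1) * g := by rw [hκ]; ring
      _ ≤ 4 * (m + 1) * h := Nat.mul_le_mul_left _ hgh
  have hθh : θ ≤ (4 * m + 32 * m * (m + 1)) * h := by
    calc θ = 4 * m * g + 8 * m * κ := by rw [hθ]; ring
      _ ≤ 4 * m * h + 8 * m * (4 * (m + 1) * h) :=
        Nat.add_le_add (Nat.mul_le_mul_left _ hgh) (Nat.mul_le_mul_left _ hκh)
      _ = (4 * m + 32 * m * (m + 1)) * h := by ring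
  have hF8 : F * (8 * g - 1) ≤ 8 * (F * g) := by
    calc F * (8 * g - 1) ≤ F * (8 * g) := Nat.mul_le_mul_left _ (Nat.sub_le _ _)
      _ = 8 * (F * g) := by ring
  obtain ⟨R, hR⟩ : ∃ R : ℕ, R = 64 * κ + 48 * (8 * g + (8 + D0) * κ + 13 + 4 * (C * h)) +
    2 * θ := ⟨_, rfl⟩
  have hRh : R ≤ K1 * h := by
    have e1 : (8 + D0) * κ ≤ (8 + D0) * (4 * (m + 1) * h) := Nat.mul_le_mul_left _ hκh
    calc R ≤ 64 * (4 * (m + 1) * h) +
          48 * (8 * h + (8 + D0) * (4 * (m + 1) * h) + 13 * h + 4 * (C * h)) +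
          2 * ((4 * m + 32 * m * (m + 1)) * h) := by
            rw [hR]
            have e2 : 13 ≤ 13 * h := by omega
            omega
      _ = K1 * h := by rw [hK1]; ring
  have hmain : 8 * kH + 2 * θ ≤ 384 * (F * g) + R := by
    rw [hkH, hq1, hk', hR]
    have e1 : (8 + D0) * κ = 8 * κ + D0 * κ := by ring
    rw [e1]
    omega
  have hkey : s0 * (8 * kH + 2 * θ) ≤ F * h := by
    have e1 : 2 * (s0 * (8 * kH + 2 * θ)) ≤ 2 * (F * h) := by
      calc 2 * (s0 * (8 * kH + 2 * θ)) ≤ 2 * (s0 * (384 * (F * g) + R)) :=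
            Nat.mul_le_mul_left _ (Nat.mul_le_mul_left _ hmain)
        _ = F * (768 * s0 * g) + 2 * s0 * R := by ring
        _ ≤ F * h + F * h := by
            refine Nat.add_le_add (Nat.mul_le_mul_left _ ?_) ?_
            · have e2 : 2 * (768 * s0 * g) = S * g := by rw [hS]; ring
              omega
            · calc 2 * s0 * R ≤ 2 * s0 * (K1 * h) := Nat.mul_le_mul_left _ hRh
                _ = (2 * s0 * K1) * h := by ring
                _ ≤ F * h := Nat.mul_le_mul_right _ hF1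
        _ = 2 * (F * h) := by ring
    omega
  have hkk : 8 * kH + 2 * θ ≤ k := by
    rw [hk, Nat.le_div_iff_mul_le (by omega)]
    rw [Nat.mul_comm] at hkey
    exact hkey
  have hk8 : 8 * kH ≤ k - 2 * θ := by omega
  have hq48 : 48 * q1 ≤ k - 2 * θ := by omega
  have hq48R : (48 : ℝ) * q1 ≤ ((k - 2 * θ : ℕ) : ℝ) := by exact_mod_cast hq48
  have hXR : (X.card : ℝ) ≤ (2 : ℝ) ^ (C * h) := by exact_mod_cast hXc
  have hq1C : 4 * (C * h) + 13 ≤ q1 := by omega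
  have hq1CR : (4 : ℝ) * ((C * h : ℕ) : ℝ) + 13 ≤ (q1 : ℝ) := by exact_mod_cast hq1C
  have hCh0 : (0 : ℝ) ≤ ((C * h : ℕ) : ℝ) := Nat.cast_nonneg _
  refine core G hKR hHub hAsm hSW (s := S) (g := g) (m := m) (κ := κ) (k' := k') (q1 := q1)
    (kH := kH) (θ := θ) (h := h) (F := F) (by omega) hg1 hh hm hκ hk' hkH (by omega) (by omega)
    hθ hSg (by omega) X hX ?_ ?_ ?_ ?_
  · -- induction hypothesis
    intro W hW
    have h1 : 8 * g - 1 < h := by
      have h2 : 1536 * g ≤ S * g := Nat.mul_le_mul_right _ (by omega)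
      omega
    refine IH (8 * g - 1) h1 G W ?_
    have h3 : 8 * g - 1 + 1 = 8 * g := by omega
    rw [h3]
    exact hW
  · have h1 := four_mul_two_pow_lt (C * h) (x := ((k - 2 * θ : ℕ) : ℝ) / 32) (by
      rw [le_div_iff₀ (by norm_num)]
      nlinarith)
    linarith
  · have h24 : (0 : ℝ) < 24 * h := by
      have : (1 : ℝ) ≤ h := by exact_mod_cast hh
      linarith
    have hx : (32 : ℝ) * ((m + 1 : ℕ) : ℝ) ^ 2 ≤ ((k - 2 * θ : ℕ) : ℝ) / (24 * h) := by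
      rw [le_div_iff₀ h24]
      have e0 : 32 * (m + 1) ^ 2 * (24 * h) ≤ k - 2 * θ := by
        have e1 : 32 * (m + 1) ^ 2 * (24 * h) ≤ 24 * (F * g) := by
          calc 32 * (m + 1) ^ 2 * (24 * h) ≤ 32 * (m + 1) ^ 2 * (24 * (S * g)) :=
                Nat.mul_le_mul_left _ (Nat.mul_le_mul_left _ (by omega))
            _ = 24 * ((S * (32 * (m + 1) ^ 2)) * g) := by ring
            _ ≤ 24 * (F * g) :=
                Nat.mul_le_mul_left _ (Nat.mul_le_mul_right _ hF2)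
        have e2 : F * g ≤ q1 := by
          have e3 : F * g ≤ F * (8 * g - 1) := Nat.mul_le_mul_left _ (by omega)
          omega
        omega
      exact_mod_cast e0
    have he2 : Real.exp 2 ≤ 8 := by
      have h1 := Real.exp_one_lt_d9
      have h2 : Real.exp 2 = Real.exp 1 * Real.exp 1 := by
        rw [← Real.exp_add]; norm_num
      have h3 : 0 < Real.exp 1 := Real.exp_pos _
      rw [h2]
      nlinarith
    have hsq : (0 : ℝ) ≤ ((m + 1 : ℕ) : ℝ) ^ 2 := by positivity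
    calc 4 * Real.exp 2 * ((m + 1 : ℕ) : ℝ) ^ 2 ≤ 32 * ((m + 1 : ℕ) : ℝ) ^ 2 := by nlinarith
      _ ≤ ((k - 2 * θ : ℕ) : ℝ) / (24 * h) := hx
      _ ≤ Real.exp (((k - 2 * θ : ℕ) : ℝ) / (24 * h)) := by
          have := Real.add_one_le_exp (((k - 2 * θ : ℕ) : ℝ) / (24 * h))
          linarith
  · have h1 := four_mul_two_pow_lt (C * h) (x := (q1 : ℝ) / 4) (by
      rw [le_div_iff₀ (by norm_num)]
      nlinarith)
    have h2 : (0 : ℝ) ≤ (2 : ℝ) ^ (C * h) := by positivity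
    linarith

end Crest.Agent.R042.Small333
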