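import Crest.Agent.R042.SspG_375
import Crest.Agent.R042.SampK_666

/-!
# The cross kind of `SSK` from 375's supersaturation (row 42 / S0059)

`AdmK .. false` (666) on `V = ι × 𝓕`, `tp = Prod.fst` is `AdmX` (375); the two conflict sums agree.
-/

set_option autoImplicit false
set_option linter.unusedSectionVars false

namespace Crest.Agent.R042.SskB543

open Finset Crest.Agent.R042.SspFin375 Crest.Agent.R042.Cont666
open scoped Classical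

variable {ι 𝓕 : Type*} [Fintype ι] [DecidableEq ι] [Fintype 𝓕]

/-- admissible weights of kind `false` are admissible weights of the cross kind -/
theorem admX_of_admK {n : ℕ} {d : ℝ} {E : ι × 𝓕 → ι × 𝓕 → Prop}
    {w : (ι × 𝓕) × (ι × 𝓕) → ℝ} [DecidableEq (ι × 𝓕)]
    (h : AdmK n d E (Prod.fst : ι × 𝓕 → ι) false w) : AdmX n d E w where
  nonneg := h.nonneg
  supp := by
    rintro ⟨a, b⟩ hz
    obtain ⟨h1, h2⟩ := h.supp a b hz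
    exact ⟨of_decide_eq_false h2, h1⟩
  marg := h.row
  cap := h.cap
  tot := h.mass

/-- the two forms of the conflict sum -/
theorem conf_sum (E : ι × 𝓕 → ι × 𝓕 → Prop) (w₁ w₂ : (ι × 𝓕) × (ι × 𝓕) → ℝ) :
    ∑ z, ∑ z', w₁ z * w₂ z' * (if Cf E z z' then 1 else 0) =
      ∑ z : (ι × 𝓕) × (ι × 𝓕), ∑ z' : (ι × 𝓕) × (ι × 𝓕),
        if (E z.1 z'.1 ∧ E z.1 z'.2 ∧ E z.2 z'.1 ∧ E z.2 z'.2) then w₁ z * w₂ z' else 0 := by
  refine sum_congr rfl fun z _ => sum_congr rfl fun z' _ => ?_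
  by_cases h : Cf E z z'
  · rw [if_pos h, mul_one]
    exact (if_pos h).symm
  · rw [if_neg h, mul_zero]
    exact (if_neg h).symm

/-- **the `c = false` half of `SSK`** from a supersaturation statement of 375 (any plan) -/
theorem ssk_false {n : ℕ} {d M κ : ℝ} (E : ι × 𝓕 → ι × 𝓕 → Prop) (hd : 0 ≤ d)
    (hκ : κ ≤ d * M)
    (hS : ∀ w₁ w₂, AdmX n d E w₁ → AdmX n d E w₂ →
      d * M * Fintype.card (ι × 𝓕) * (d * Fintype.card (ι × 𝓕)) ≤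
        ∑ z, ∑ z', w₁ z * w₂ z' * (if Cf E z z' then 1 else 0)) :
    ∀ w₁ w₂ : (ι × 𝓕) × (ι × 𝓕) → ℝ, AdmK n d E (Prod.fst : ι × 𝓕 → ι) false w₁ →
      AdmK n d E (Prod.fst : ι × 𝓕 → ι) false w₂ →
      κ * (Fintype.card (ι × 𝓕) : ℝ) * (d * (Fintype.card (ι × 𝓕) : ℝ)) ≤
        ∑ z : (ι × 𝓕) × (ι × 𝓕), ∑ z' : (ι × 𝓕) × (ι × 𝓕),
          if (E z.1 z'.1 ∧ E z.1 z'.2 ∧ E z.2 z'.1 ∧ E z.2 z'.2) then w₁ z * w₂ z' else 0 := by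
  intro w₁ w₂ h1 h2
  have h3 := hS w₁ w₂ (admX_of_admK h1) (admX_of_admK h2)
  rw [conf_sum] at h3
  refine le_trans ?_ h3
  have hc : (0 : ℝ) ≤ Fintype.card (ι × 𝓕) := Nat.cast_nonneg _
  exact mul_le_mul_of_nonneg_right (mul_le_mul_of_nonneg_right hκ hc) (mul_nonneg hd hc)

/-- `SSK` from its two halves -/
theorem ssk_of_halves {V T : Type*} [Fintype V] [DecidableEq V] [Fintype T] [DecidableEq T]
    {n : ℕ} {δ κ : ℝ} {E : V → V → Prop} {tp : V → T}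
    (ht : ∀ w₁ w₂ : V × V → ℝ, AdmK n δ E tp true w₁ → AdmK n δ E tp true w₂ →
      κ * (Fintype.card V : ℝ) * (δ * (Fintype.card V : ℝ)) ≤ ∑ z : V × V, ∑ z' : V × V,
        if (E z.1 z'.1 ∧ E z.1 z'.2 ∧ E z.2 z'.1 ∧ E z.2 z'.2) then w₁ z * w₂ z' else 0)
    (hf : ∀ w₁ w₂ : V × V → ℝ, AdmK n δ E tp false w₁ → AdmK n δ E tp false w₂ →
      κ * (Fintype.card V : ℝ) * (δ * (Fintype.card V : ℝ)) ≤ ∑ z : V × V, ∑ z' : V × V,
        if (E z.1 z'.1 ∧ E z.1 z'.2 ∧ E z.2 z'.1 ∧ E z.2 z'.2) then w₁ z * w₂ z' else 0) :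
    SSK n δ κ E tp := by
  intro c w₁ w₂ h1 h2
  cases c
  · exact hf w₁ w₂ h1 h2
  · exact ht w₁ w₂ h1 h2

/-- **the last step**: a typed graph on `ι × 𝓕` with both halves of `SSK` gives `PairConfK` -/
theorem pairConfK_glue (K : ℕ) (hK : 0 < K) : ∃ n0 : ℕ, ∀ n : ℕ, n0 ≤ n →
    ∀ (ι 𝓕 : Type) [Fintype ι] [DecidableEq ι] [Nonempty ι] [Fintype 𝓕] [DecidableEq 𝓕]
      [Nonempty 𝓕] (E : ι × 𝓕 → ι × 𝓕 → Prop),
      (∀ a b, E a b → E b a) → (∀ a b c, E a b → E b c → E a c → False) →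
      (∀ a b, a.1 = b.1 → ¬ E a b) →
      16 * K * Fintype.card ι ≤ n → 64 * K ≤ Fintype.card ι →
      (∀ w₁ w₂ : (ι × 𝓕) × (ι × 𝓕) → ℝ,
        AdmK n (1 / (16 * (K : ℝ))) E (Prod.fst : ι × 𝓕 → ι) true w₁ →
        AdmK n (1 / (16 * (K : ℝ))) E (Prod.fst : ι × 𝓕 → ι) true w₂ →
        ((n : ℝ) ^ (-(99 : ℝ) / 100)) * (Fintype.card (ι × 𝓕) : ℝ) *
          ((1 / (16 * (K : ℝ))) * (Fintype.card (ι × 𝓕) : ℝ)) ≤
        ∑ z : (ι × 𝓕) × (ι × 𝓕), ∑ z' : (ι × 𝓕) × (ι × 𝓕),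
          if (E z.1 z'.1 ∧ E z.1 z'.2 ∧ E z.2 z'.1 ∧ E z.2 z'.2) then w₁ z * w₂ z' else 0) →
      (∀ w₁ w₂ : (ι × 𝓕) × (ι × 𝓕) → ℝ,
        AdmK n (1 / (16 * (K : ℝ))) E (Prod.fst : ι × 𝓕 → ι) false w₁ →
        AdmK n (1 / (16 * (K : ℝ))) E (Prod.fst : ι × 𝓕 → ι) false w₂ →
        ((n : ℝ) ^ (-(99 : ℝ) / 100)) * (Fintype.card (ι × 𝓕) : ℝ) *
          ((1 / (16 * (K : ℝ))) * (Fintype.card (ι × 𝓕) : ℝ)) ≤
        ∑ z : (ι × 𝓕) × (ι × 𝓕), ∑ z' : (ι × 𝓕) × (ι × 𝓕),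
          if (E z.1 z'.1 ∧ E z.1 z'.2 ∧ E z.2 z'.1 ∧ E z.2 z'.2) then w₁ z * w₂ z' else 0) →
      S59Spine883.PairConfK K := by
  obtain ⟨n0, hn0⟩ := pairConfK_of K hK
  refine ⟨n0, ?_⟩
  intro n hn ι 𝓕 _ _ _ _ _ _ E hsymm htri htp hι hK64 ht hf
  refine hn0 n hn (ι × 𝓕) ι E Prod.fst hsymm (fun a => htp a a rfl) htri (fun a b => htp a b)
    hι ?_ (ssk_of_halves ht hf)
  intro i
  have h1 : (univ.filter fun v : ι × 𝓕 => v.1 = i).card = Fintype.card 𝓕 := by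
    have : (univ.filter fun v : ι × 𝓕 => v.1 = i) = univ.image (fun f : 𝓕 => (i, f)) := by
      ext ⟨a, b⟩
      simp only [mem_filter, mem_univ, true_and, mem_image, Prod.mk.injEq]
      exact ⟨fun h => ⟨b, h.symm, rfl⟩, fun ⟨_, h, _⟩ => h.symm⟩
    rw [this, card_image_of_injective _ (fun a b h => (Prod.mk.inj h).2), card_univ]
  rw [h1, Fintype.card_prod]
  exact Nat.mul_le_mul_right _ hK64

end Crest.Agent.R042.SskB543
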