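import Mathlib

/-! Row 42 / S0059: assembly of the supersaturation statement (cross kind) from the type level
theorem and the local conflict bound.  Abstract: `J` = ordered pairs of types, `Y` = pairs of
labels, `dl : J → Y → Δ` the difference word, `Θ` the data attached to a conditional law. -/

set_option autoImplicit false
set_option linter.unusedSectionVars false

namespace Crest.Agent.R042.SspAsm375

open Finset
open scoped Classical

/-- relative entropy of `μ` with respect to the uniform law on `Y`. -/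
noncomputable def KL {Y : Type*} [Fintype Y] (μ : Y → ℝ) : ℝ :=
  ∑ y, μ y * Real.log (Fintype.card Y * μ y)

/-- probability laws. -/
structure IsP {Y : Type*} [Fintype Y] (μ : Y → ℝ) : Prop where
  nonneg : ∀ y, 0 ≤ μ y
  sum : ∑ y, μ y = 1

lemma one_sub_inv_le_log {x : ℝ} (hx : 0 < x) : 1 - 1 / x ≤ Real.log x := by
  have h := Real.add_one_le_exp (-Real.log x)
  rw [Real.exp_neg, Real.exp_log hx] at h
  rw [one_div]
  linarith

theorem KL_nonneg {Y : Type*} [Fintype Y] {μ : Y → ℝ} (h : IsP μ) : 0 ≤ KL μ := by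
  have hY : (0 : ℝ) < Fintype.card Y := by
    have : Nonempty Y := by
      by_contra hne
      rw [not_nonempty_iff] at hne
      have := h.sum
      simp at this
    exact_mod_cast Fintype.card_pos
  have key : ∀ y, μ y - 1 / Fintype.card Y ≤ μ y * Real.log (Fintype.card Y * μ y) := by
    intro y
    rcases (h.nonneg y).eq_or_lt with h0 | h0
    · rw [← h0]
      simp
    · have h1 := one_sub_inv_le_log (x := Fintype.card Y * μ y) (by positivity)
      have h2 := mul_le_mul_of_nonneg_left h1 h0.le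
      have h3 : μ y * (1 - 1 / (Fintype.card Y * μ y)) = μ y - 1 / Fintype.card Y := by
        field_simp
      rw [h3] at h2
      exact h2
  have hs := Finset.sum_le_sum (fun y (_ : y ∈ (univ : Finset Y)) => key y)
  rw [Finset.sum_sub_distrib, h.sum] at hs
  simp only [Finset.sum_const, Finset.card_univ, nsmul_eq_mul] at hs
  rw [mul_one_div_cancel hY.ne'] at hs
  unfold KL
  linarith

/-- entropy of a law on `C` is at most `log |C|`. -/
theorem ent_le {C : Type*} [Fintype C] {p : C → ℝ} (h : IsP p) :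
    - ∑ c, p c * Real.log (p c) ≤ Real.log (Fintype.card C) := by
  have h1 := KL_nonneg h
  have hC : (0 : ℝ) < Fintype.card C := by
    have : Nonempty C := by
      by_contra hne
      rw [not_nonempty_iff] at hne
      have := h.sum
      simp at this
    exact_mod_cast Fintype.card_pos
  have h2 : KL p = Real.log (Fintype.card C) + ∑ c, p c * Real.log (p c) := by
    unfold KL
    have : ∀ c, p c * Real.log (Fintype.card C * p c)
        = p c * Real.log (Fintype.card C) + p c * Real.log (p c) := by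
      intro c
      rcases (h.nonneg c).eq_or_lt with h0 | h0
      · rw [← h0]
        simp
      · rw [Real.log_mul hC.ne' h0.ne']
        ring
    rw [Finset.sum_congr rfl (fun c _ => this c), Finset.sum_add_distrib, ← Finset.sum_mul, h.sum]
    ring
  linarith

section dis

variable {J Y Δ : Type*} [Fintype J] [Fintype Y] [Fintype Δ]

/-- sub-law of the class `c = (j, d)`. -/
noncomputable def sub (dl : J → Y → Δ) (τ : J × Y → ℝ) (c : J × Δ) (y : Y) : ℝ :=
  if dl c.1 y = c.2 then τ (c.1, y) else 0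

noncomputable def cm (dl : J → Y → Δ) (τ : J × Y → ℝ) (c : J × Δ) : ℝ := ∑ y, sub dl τ c y

noncomputable def cond (dl : J → Y → Δ) (τ : J × Y → ℝ) (c : J × Δ) (y : Y) : ℝ :=
  sub dl τ c y / cm dl τ c

variable {dl : J → Y → Δ} {τ : J × Y → ℝ}

lemma sub_nonneg (hτ : ∀ x, 0 ≤ τ x) (c : J × Δ) (y : Y) : 0 ≤ sub dl τ c y := by
  unfold sub
  split_ifs
  · exact hτ _
  · exact le_rfl

lemma cm_nonneg (hτ : ∀ x, 0 ≤ τ x) (c : J × Δ) : 0 ≤ cm dl τ c :=
  Finset.sum_nonneg fun y _ => sub_nonneg hτ c y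

lemma sum_sub (j : J) (y : Y) : ∑ d, sub dl τ (j, d) y = τ (j, y) := by
  unfold sub
  simp

lemma sum_cm_fst (j : J) : ∑ d, cm dl τ (j, d) = ∑ y, τ (j, y) := by
  unfold cm
  rw [Finset.sum_comm]
  exact Finset.sum_congr rfl fun y _ => sum_sub j y

lemma isP_cm (h : IsP τ) : IsP (cm dl τ) := by
  refine ⟨cm_nonneg h.nonneg, ?_⟩
  rw [Fintype.sum_prod_type]
  rw [Finset.sum_congr rfl (fun j _ => sum_cm_fst j), ← Fintype.sum_prod_type (f := τ)]
  exact h.sum

lemma isP_cond (h : IsP τ) {c : J × Δ} (hc : 0 < cm dl τ c) : IsP (cond dl τ c) := by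
  refine ⟨fun y => div_nonneg (sub_nonneg h.nonneg c y) hc.le, ?_⟩
  unfold cond
  rw [← Finset.sum_div]
  exact div_self hc.ne'

lemma cm_mul_cond (h : IsP τ) (c : J × Δ) (y : Y) :
    cm dl τ c * cond dl τ c y = sub dl τ c y := by
  rcases (cm_nonneg (dl := dl) h.nonneg c).eq_or_lt with h0 | h0
  · have h1 : sub dl τ c y = 0 := by
      have := (Finset.sum_eq_zero_iff_of_nonneg
        (fun y (_ : y ∈ (univ : Finset Y)) => sub_nonneg (dl := dl) h.nonneg c y)).1 h0.symm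
      exact this y (Finset.mem_univ _)
    rw [h1, ← h0]
    simp
  · unfold cond
    field_simp

/-- the average conditional relative entropy. -/
theorem avg_KL (h : IsP τ) (M : ℝ) (hM : 0 < M) (hτM : ∀ x, τ x * (Fintype.card J * Fintype.card Y) ≤ M) :
    ∑ c, cm dl τ c * KL (cond dl τ c) ≤ Real.log (M * Fintype.card Δ) := by
  have hP := isP_cm (dl := dl) h
  have hC : Nonempty (J × Δ) := by
    by_contra hne
    rw [not_nonempty_iff] at hne
    have := hP.sum
    simp at this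
  have hJ : Nonempty J := ⟨hC.some.1⟩
  have hΔ : Nonempty Δ := ⟨hC.some.2⟩
  have hY : Nonempty Y := by
    by_contra hne
    rw [not_nonempty_iff] at hne
    have := h.sum
    simp at this
  have cJ : (0 : ℝ) < Fintype.card J := by exact_mod_cast Fintype.card_pos
  have cΔ : (0 : ℝ) < Fintype.card Δ := by exact_mod_cast Fintype.card_pos
  have cY : (0 : ℝ) < Fintype.card Y := by exact_mod_cast Fintype.card_pos
  have key : ∀ c, cm dl τ c * KL (cond dl τ c) ≤
      cm dl τ c * Real.log (M / Fintype.card J) - cm dl τ c * Real.log (cm dl τ c) := by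
    intro c
    rcases (cm_nonneg (dl := dl) h.nonneg c).eq_or_lt with h0 | h0
    · rw [← h0]
      simp
    · unfold KL
      rw [Finset.mul_sum]
      have h1 : ∀ y, cm dl τ c * (cond dl τ c y * Real.log (Fintype.card Y * cond dl τ c y)) ≤
          sub dl τ c y * (Real.log (M / Fintype.card J) - Real.log (cm dl τ c)) := by
        intro y
        rw [← mul_assoc, cm_mul_cond h]
        rcases (sub_nonneg (dl := dl) h.nonneg c y).eq_or_lt with h2 | h2
        · rw [← h2]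
          simp
        · refine mul_le_mul_of_nonneg_left ?_ h2.le
          rw [← Real.log_div (by positivity) h0.ne']
          refine Real.log_le_log ?_ ?_
          · unfold cond
            positivity
          · unfold cond
            rw [mul_div_assoc']
            refine div_le_div_of_nonneg_right ?_ h0.le
            have h3 : sub dl τ c y = τ (c.1, y) := by
              unfold sub at h2 ⊢
              split_ifs at h2 ⊢ with h4
              · rfl
              · exact absurd h2 (lt_irrefl _)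
            rw [h3, le_div_iff₀ cJ]
            have := hτM (c.1, y)
            nlinarith
      refine (Finset.sum_le_sum fun y _ => h1 y).trans ?_
      rw [← Finset.sum_mul]
      change cm dl τ c * _ ≤ _
      rw [mul_sub]
  refine (Finset.sum_le_sum fun c _ => key c).trans ?_
  rw [Finset.sum_sub_distrib, ← Finset.sum_mul, hP.sum, one_mul]
  have h5 := ent_le hP
  have h6 : Real.log (M * Fintype.card Δ) =
      Real.log (M / Fintype.card J) + Real.log (Fintype.card (J × Δ)) := by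
    rw [← Real.log_mul (by positivity) (by
      rw [Fintype.card_prod]
      push_cast
      positivity)]
    congr 1
    rw [Fintype.card_prod]
    push_cast
    field_simp
  rw [h6]
  linarith

/-- good classes: positive mass and small conditional entropy. -/
noncomputable def gd (dl : J → Y → Δ) (τ : J × Y → ℝ) (b : ℝ) : Finset (J × Δ) :=
  univ.filter fun c => 0 < cm dl τ c ∧ KL (cond dl τ c) ≤ b

theorem mass_gd (h : IsP τ) (M b : ℝ) (hM : 0 < M)
    (hτM : ∀ x, τ x * (Fintype.card J * Fintype.card Y) ≤ M)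
    (hb : 0 < b) (hbM : 8 * Real.log (M * Fintype.card Δ) ≤ b) :
    7 / 8 ≤ ∑ c ∈ gd dl τ b, cm dl τ c := by
  have hP := isP_cm (dl := dl) h
  have h1 := avg_KL (dl := dl) h M hM hτM
  have h2 : ∑ c ∈ univ.filter (fun c => ¬ (0 < cm dl τ c ∧ KL (cond dl τ c) ≤ b)), cm dl τ c * b ≤
      ∑ c, cm dl τ c * KL (cond dl τ c) := by
    refine (Finset.sum_le_sum (g := fun c => cm dl τ c * KL (cond dl τ c)) ?_).trans ?_
    · intro c hc
      rw [Finset.mem_filter] at hc
      rcases (cm_nonneg (dl := dl) h.nonneg c).eq_or_lt with h0 | h0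
      · rw [← h0]
        simp
      · refine mul_le_mul_of_nonneg_left ?_ h0.le
        by_contra h3
        exact hc.2 ⟨h0, le_of_lt (not_le.1 h3)⟩
    · refine Finset.sum_le_sum_of_subset_of_nonneg (Finset.subset_univ _) ?_
      intro c _ _
      rcases (cm_nonneg (dl := dl) h.nonneg c).eq_or_lt with h0 | h0
      · rw [← h0]
        simp
      · exact mul_nonneg h0.le (KL_nonneg (isP_cond h h0))
  have h3 : (∑ c ∈ gd dl τ b, cm dl τ c) +
      ∑ c ∈ univ.filter (fun c => ¬ (0 < cm dl τ c ∧ KL (cond dl τ c) ≤ b)), cm dl τ c = 1 := by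
    rw [← hP.sum]
    exact Finset.sum_filter_add_sum_filter_not _ _ _
  rw [← Finset.sum_mul] at h2
  have h4 : (∑ c ∈ univ.filter (fun c => ¬ (0 < cm dl τ c ∧ KL (cond dl τ c) ≤ b)), cm dl τ c) * 8 ≤ 1 := by
    by_contra h5
    have h5 := lt_of_not_ge h5
    have h6 : b < (∑ c ∈ univ.filter (fun c => ¬ (0 < cm dl τ c ∧ KL (cond dl τ c) ≤ b)), cm dl τ c) * 8 * b := by
      have := mul_lt_mul_of_pos_right h5 hb
      linarith
    nlinarith
  linarith

/-- law on classes with data. -/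
noncomputable def tt {Θ : Type*} (dl : J → Y → Δ) (τ : J × Y → ℝ) (b : ℝ) (θ : J × Δ → Θ)
    (x : J × Δ × Θ) : ℝ :=
  if (x.1, x.2.1) ∈ gd dl τ b ∧ θ (x.1, x.2.1) = x.2.2 then
    cm dl τ (x.1, x.2.1) / ∑ c ∈ gd dl τ b, cm dl τ c else 0

end dis

section main

variable {J Y Δ Θ κ : Type*} [Fintype J] [Fintype Y] [Fintype Δ] [Fintype Θ]

lemma sum_tt (dl : J → Y → Δ) (τ : J × Y → ℝ) (b : ℝ) (θ : J × Δ → Θ) (g : J × Δ × Θ → ℝ) :
    ∑ x, tt dl τ b θ x * g x = ∑ c ∈ gd dl τ b,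
      cm dl τ c / (∑ c ∈ gd dl τ b, cm dl τ c) * g (c.1, c.2, θ c) := by
  have e1 : ∑ x, tt dl τ b θ x * g x =
      ∑ c : J × Δ, ∑ t, tt dl τ b θ (c.1, c.2, t) * g (c.1, c.2, t) := by
    rw [Fintype.sum_prod_type, Fintype.sum_prod_type]
    refine Finset.sum_congr rfl fun j _ => ?_
    rw [Fintype.sum_prod_type]
  rw [e1, ← Finset.sum_filter_add_sum_filter_not univ (fun c => c ∈ gd dl τ b)]
  have e2 : ∑ c ∈ univ.filter (fun c => ¬ c ∈ gd dl τ b),
      ∑ t, tt dl τ b θ (c.1, c.2, t) * g (c.1, c.2, t) = 0 := by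
    refine Finset.sum_eq_zero fun c hc => Finset.sum_eq_zero fun t _ => ?_
    rw [Finset.mem_filter] at hc
    unfold tt
    rw [if_neg, zero_mul]
    rintro ⟨h, _⟩
    exact hc.2 h
  have e3 : univ.filter (fun c => c ∈ gd dl τ b) = gd dl τ b := by
    ext c
    simp
  rw [e2, add_zero, e3]
  refine Finset.sum_congr rfl fun c hc => ?_
  have e4 : ∀ t, tt dl τ b θ (c.1, c.2, t) * g (c.1, c.2, t) =
      if θ c = t then cm dl τ c / (∑ c ∈ gd dl τ b, cm dl τ c) * g (c.1, c.2, t) else 0 := by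
    intro t
    unfold tt
    by_cases h : θ c = t
    · rw [if_pos ⟨hc, h⟩, if_pos h]
    · rw [if_neg, if_neg h, zero_mul]
      rintro ⟨_, h'⟩
      exact h h'
  rw [Finset.sum_congr rfl (fun t _ => e4 t), Finset.sum_ite_eq]
  simp

lemma isP_tt (dl : J → Y → Δ) (τ : J × Y → ℝ) (h : IsP τ) (b : ℝ) (θ : J × Δ → Θ)
    (hB : 7 / 8 ≤ ∑ c ∈ gd dl τ b, cm dl τ c) : IsP (tt dl τ b θ) := by
  have hB0 : 0 < ∑ c ∈ gd dl τ b, cm dl τ c := by linarith
  refine ⟨fun x => ?_, ?_⟩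
  · unfold tt
    split_ifs
    · exact div_nonneg (cm_nonneg h.nonneg _) hB0.le
    · exact le_rfl
  · have := sum_tt dl τ b θ (fun _ => 1)
    simp only [mul_one] at this
    rw [this, ← Finset.sum_div]
    exact div_self hB0.ne'

lemma marg_tt (dl : J → Y → Δ) (τ : J × Y → ℝ) (h : IsP τ) (b : ℝ) (θ : J × Δ → Θ)
    (hB : 7 / 8 ≤ ∑ c ∈ gd dl τ b, cm dl τ c) (A : Finset J) (m : ℝ)
    (hm : ∑ j ∈ A, ∑ y, τ (j, y) ≤ m) :
    ∑ j ∈ A, ∑ x : Δ × Θ, tt dl τ b θ (j, x) ≤ 2 * m := by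
  have hB0 : 0 < ∑ c ∈ gd dl τ b, cm dl τ c := by linarith
  have h0 : ∀ j, 0 ≤ ∑ y, τ (j, y) := fun j => Finset.sum_nonneg fun y _ => h.nonneg _
  have hm0 : 0 ≤ m := (Finset.sum_nonneg fun j _ => h0 j).trans hm
  have e1 : ∀ j, ∑ x : Δ × Θ, tt dl τ b θ (j, x) ≤
      (∑ y, τ (j, y)) / ∑ c ∈ gd dl τ b, cm dl τ c := by
    intro j
    rw [Fintype.sum_prod_type, ← sum_cm_fst (dl := dl) j, Finset.sum_div]
    refine Finset.sum_le_sum fun d _ => ?_
    have e2 : ∀ t, tt dl τ b θ (j, d, t) ≤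
        if θ (j, d) = t then cm dl τ (j, d) / (∑ c ∈ gd dl τ b, cm dl τ c) else 0 := by
      intro t
      unfold tt
      by_cases ht : θ (j, d) = t
      · rw [if_pos ht]
        split_ifs
        · exact le_rfl
        · exact div_nonneg (cm_nonneg h.nonneg _) hB0.le
      · rw [if_neg ht, if_neg]
        rintro ⟨_, h'⟩
        exact ht h'
    refine (Finset.sum_le_sum fun t _ => e2 t).trans ?_
    rw [Finset.sum_ite_eq]
    simp
  refine (Finset.sum_le_sum fun j _ => e1 j).trans ?_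
  rw [← Finset.sum_div, div_le_iff₀ hB0]
  nlinarith

/-- **assembly.** -/
theorem asm (dl : J → Y → Δ) (τ₁ τ₂ : J × Y → ℝ) (h1 : IsP τ₁) (h2 : IsP τ₂)
    (M : ℝ) (hM : 0 < M)
    (hM1 : ∀ x, τ₁ x * (Fintype.card J * Fintype.card Y) ≤ M)
    (hM2 : ∀ x, τ₂ x * (Fintype.card J * Fintype.card Y) ≤ M)
    (b : ℝ) (hb : 0 < b) (hbM : 8 * Real.log (M * Fintype.card Δ) ≤ b)
    -- marginals
    (A : κ → Finset J) (m : ℝ)
    (hm1 : ∀ k, ∑ j ∈ A k, ∑ y, τ₁ (j, y) ≤ m)
    (hm2 : ∀ k, ∑ j ∈ A k, ∑ y, τ₂ (j, y) ≤ m)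
    -- support
    (Adm : J → Y → Prop)
    (hA1 : ∀ j y, τ₁ (j, y) ≠ 0 → Adm j y) (hA2 : ∀ j y, τ₂ (j, y) ≠ 0 → Adm j y)
    -- local statement
    (Conf : J × Y → J × Y → Prop)
    (G : J × Δ → (Y → ℝ) → Θ → Prop)
    (hG : ∀ c μ, IsP μ → (∀ y, μ y ≠ 0 → dl c.1 y = c.2 ∧ Adm c.1 y) → KL μ ≤ b → ∃ θ, G c μ θ)
    (Live : J × Δ × Θ → J × Δ × Θ → Prop)
    (c₀ : ℝ) (hc₀ : 0 ≤ c₀)
    (hLoc : ∀ (c : J × Δ) (μ : Y → ℝ) (θ : Θ) (c' : J × Δ) (μ' : Y → ℝ) (θ' : Θ),
      IsP μ → (∀ y, μ y ≠ 0 → dl c.1 y = c.2 ∧ Adm c.1 y) → KL μ ≤ b → G c μ θ →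
      IsP μ' → (∀ y, μ' y ≠ 0 → dl c'.1 y = c'.2 ∧ Adm c'.1 y) → KL μ' ≤ b → G c' μ' θ' →
      Live (c.1, c.2, θ) (c'.1, c'.2, θ') →
      c₀ ≤ ∑ y, ∑ y', μ y * μ' y' * (if Conf (c.1, y) (c'.1, y') then 1 else 0))
    -- type level statement
    (M₀ : ℝ)
    (hT : ∀ t₁ t₂ : J × Δ × Θ → ℝ, IsP t₁ → IsP t₂ →
      (∀ k, ∑ j ∈ A k, ∑ x : Δ × Θ, t₁ (j, x) ≤ 2 * m) →
      (∀ k, ∑ j ∈ A k, ∑ x : Δ × Θ, t₂ (j, x) ≤ 2 * m) →
      M₀ ≤ ∑ x, ∑ x', t₁ x * t₂ x' * (if Live x x' then 1 else 0)) :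
    49 / 64 * M₀ * c₀ ≤
      ∑ x, ∑ x', τ₁ x * τ₂ x' * (if Conf x x' then 1 else 0) := by
  have hB1 := mass_gd (dl := dl) h1 M b hM hM1 hb hbM
  have hB2 := mass_gd (dl := dl) h2 M b hM hM2 hb hbM
  -- data
  have supp : ∀ (τ : J × Y → ℝ), (∀ j y, τ (j, y) ≠ 0 → Adm j y) → ∀ c y,
      cond dl τ c y ≠ 0 → dl c.1 y = c.2 ∧ Adm c.1 y := by
    intro τ hA c y hy
    have h3 : sub dl τ c y ≠ 0 := by
      intro h4
      apply hy
      unfold cond
      rw [h4, zero_div]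
    unfold sub at h3
    split_ifs at h3 with h4
    · exact ⟨h4, hA _ _ h3⟩
    · exact absurd rfl h3
  have data : ∀ (τ : J × Y → ℝ), IsP τ → (∀ j y, τ (j, y) ≠ 0 → Adm j y) →
      7 / 8 ≤ ∑ c ∈ gd dl τ b, cm dl τ c →
      ∃ θ : J × Δ → Θ, ∀ c ∈ gd dl τ b, G c (cond dl τ c) (θ c) := by
    intro τ hτ hA hB
    have h5 : ∀ c ∈ gd dl τ b, ∃ θ, G c (cond dl τ c) θ := by
      intro c hc
      unfold gd at hc
      rw [Finset.mem_filter] at hc
      exact hG c _ (isP_cond hτ hc.2.1) (supp τ hA c) hc.2.2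
    have hne : (gd dl τ b).Nonempty := by
      rw [Finset.nonempty_iff_ne_empty]
      intro h0
      rw [h0] at hB
      norm_num at hB
    obtain ⟨c0, hc0⟩ := hne
    obtain ⟨θ0, -⟩ := h5 c0 hc0
    refine ⟨fun c => if hc : c ∈ gd dl τ b then (h5 c hc).choose else θ0, fun c hc => ?_⟩
    simp only [dif_pos hc]
    exact (h5 c hc).choose_spec
  obtain ⟨θ₁, hθ1⟩ := data τ₁ h1 hA1 hB1
  obtain ⟨θ₂, hθ2⟩ := data τ₂ h2 hA2 hB2
  set B1 := ∑ c ∈ gd dl τ₁ b, cm dl τ₁ c with hB1def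
  set B2 := ∑ c ∈ gd dl τ₂ b, cm dl τ₂ c with hB2def
  have hB10 : 0 < B1 := by linarith
  have hB20 : 0 < B2 := by linarith
  have hTT := hT (tt dl τ₁ b θ₁) (tt dl τ₂ b θ₂) (isP_tt dl τ₁ h1 b θ₁ hB1)
    (isP_tt dl τ₂ h2 b θ₂ hB2) (fun k => marg_tt dl τ₁ h1 b θ₁ hB1 _ m (hm1 k))
    (fun k => marg_tt dl τ₂ h2 b θ₂ hB2 _ m (hm2 k))
  -- rewrite the live mass
  have e1 : ∑ x, ∑ x', tt dl τ₁ b θ₁ x * tt dl τ₂ b θ₂ x' * (if Live x x' then 1 else 0) =
      (1 / (B1 * B2)) * ∑ c ∈ gd dl τ₁ b, ∑ c' ∈ gd dl τ₂ b, cm dl τ₁ c * cm dl τ₂ c' *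
        (if Live (c.1, c.2, θ₁ c) (c'.1, c'.2, θ₂ c') then 1 else 0) := by
    have e2 : ∀ x, ∑ x', tt dl τ₁ b θ₁ x * tt dl τ₂ b θ₂ x' * (if Live x x' then (1 : ℝ) else 0) =
        tt dl τ₁ b θ₁ x * ∑ c' ∈ gd dl τ₂ b, cm dl τ₂ c' / B2 *
          (if Live x (c'.1, c'.2, θ₂ c') then 1 else 0) := by
      intro x
      rw [hB2def, ← sum_tt dl τ₂ b θ₂ (fun x' => if Live x x' then (1 : ℝ) else 0), Finset.mul_sum]
      exact Finset.sum_congr rfl fun x' _ => by ring
    rw [Finset.sum_congr rfl (fun x _ => e2 x), sum_tt dl τ₁ b θ₁, ← hB1def, Finset.mul_sum]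
    refine Finset.sum_congr rfl fun c _ => ?_
    rw [Finset.mul_sum, Finset.mul_sum]
    refine Finset.sum_congr rfl fun c' _ => ?_
    field_simp
  set S := ∑ c ∈ gd dl τ₁ b, ∑ c' ∈ gd dl τ₂ b, cm dl τ₁ c * cm dl τ₂ c' *
        (if Live (c.1, c.2, θ₁ c) (c'.1, c'.2, θ₂ c') then (1 : ℝ) else 0) with hS
  have hS0 : 0 ≤ S := by
    refine Finset.sum_nonneg fun c _ => Finset.sum_nonneg fun c' _ => ?_
    refine mul_nonneg (mul_nonneg (cm_nonneg h1.nonneg _) (cm_nonneg h2.nonneg _)) ?_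
    split_ifs
    · exact zero_le_one
    · exact le_rfl
  rw [e1] at hTT
  have hS1 : 49 / 64 * M₀ ≤ S := by
    have hBB : 49 / 64 ≤ B1 * B2 := by nlinarith
    have h6 : M₀ * (B1 * B2) ≤ S := by
      have h7 : 1 / (B1 * B2) * S = S / (B1 * B2) := by ring
      rw [h7, le_div_iff₀ (by positivity)] at hTT
      exact hTT
    rcases le_or_gt M₀ 0 with h8 | h8
    · nlinarith
    · nlinarith
  -- lower bound of the conflict mass
  have e3 : ∑ x, ∑ x', τ₁ x * τ₂ x' * (if Conf x x' then (1 : ℝ) else 0) =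
      ∑ c, ∑ c', ∑ y, ∑ y', sub dl τ₁ c y * sub dl τ₂ c' y' *
        (if Conf (c.1, y) (c'.1, y') then 1 else 0) := by
    have f1 : ∀ (τ : J × Y → ℝ) (g : J × Y → ℝ), ∑ x, τ x * g x =
        ∑ c : J × Δ, ∑ y, sub dl τ c y * g (c.1, y) := by
      intro τ g
      rw [Fintype.sum_prod_type, Fintype.sum_prod_type]
      refine Finset.sum_congr rfl fun j _ => ?_
      rw [Finset.sum_comm]
      refine Finset.sum_congr rfl fun y _ => ?_
      change τ (j, y) * g (j, y) = ∑ x, sub dl τ (j, x) y * g (j, y)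
      rw [← Finset.sum_mul, sum_sub]
    have f2 : ∀ x, ∑ x', τ₁ x * τ₂ x' * (if Conf x x' then (1 : ℝ) else 0) =
        τ₁ x * ∑ c' : J × Δ, ∑ y', sub dl τ₂ c' y' * (if Conf x (c'.1, y') then 1 else 0) := by
      intro x
      rw [← f1 τ₂ (fun x' => if Conf x x' then (1 : ℝ) else 0), Finset.mul_sum]
      exact Finset.sum_congr rfl fun x' _ => by ring
    rw [Finset.sum_congr rfl (fun x _ => f2 x), f1 τ₁]
    refine Finset.sum_congr rfl fun c _ => ?_
    rw [Finset.sum_comm' (s := univ) (t := fun _ => univ) (t' := univ) (s' := fun _ => univ)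
      (by simp)]
    refine Finset.sum_congr rfl fun y _ => ?_
    rw [Finset.mul_sum]
    refine Finset.sum_congr rfl fun c' _ => ?_
    rw [Finset.mul_sum]
    exact Finset.sum_congr rfl fun y' _ => by ring
  rw [e3]
  have e4 : c₀ * S ≤ ∑ c ∈ gd dl τ₁ b, ∑ c' ∈ gd dl τ₂ b, ∑ y, ∑ y',
      sub dl τ₁ c y * sub dl τ₂ c' y' * (if Conf (c.1, y) (c'.1, y') then 1 else 0) := by
    rw [hS, Finset.mul_sum]
    refine Finset.sum_le_sum fun c hc => ?_
    rw [Finset.mul_sum]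
    refine Finset.sum_le_sum fun c' hc' => ?_
    have g1 : ∑ y, ∑ y', sub dl τ₁ c y * sub dl τ₂ c' y' *
        (if Conf (c.1, y) (c'.1, y') then (1 : ℝ) else 0) =
        cm dl τ₁ c * cm dl τ₂ c' * ∑ y, ∑ y', cond dl τ₁ c y * cond dl τ₂ c' y' *
          (if Conf (c.1, y) (c'.1, y') then 1 else 0) := by
      rw [Finset.mul_sum]
      refine Finset.sum_congr rfl fun y _ => ?_
      rw [Finset.mul_sum]
      refine Finset.sum_congr rfl fun y' _ => ?_
      rw [← cm_mul_cond h1 c y, ← cm_mul_cond h2 c' y']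
      ring
    rw [g1]
    have g2 : 0 ≤ cm dl τ₁ c * cm dl τ₂ c' :=
      mul_nonneg (cm_nonneg h1.nonneg _) (cm_nonneg h2.nonneg _)
    have hc1 := hc
    have hc2 := hc'
    unfold gd at hc1 hc2
    rw [Finset.mem_filter] at hc1 hc2
    split_ifs with hL
    · have := hLoc c (cond dl τ₁ c) (θ₁ c) c' (cond dl τ₂ c') (θ₂ c') (isP_cond h1 hc1.2.1)
        (supp τ₁ hA1 c) hc1.2.2 (hθ1 c hc) (isP_cond h2 hc2.2.1) (supp τ₂ hA2 c') hc2.2.2
        (hθ2 c' hc') hL
      have := mul_le_mul_of_nonneg_left this g2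
      linarith
    · have : 0 ≤ ∑ y, ∑ y', cond dl τ₁ c y * cond dl τ₂ c' y' *
          (if Conf (c.1, y) (c'.1, y') then (1 : ℝ) else 0) := by
        refine Finset.sum_nonneg fun y _ => Finset.sum_nonneg fun y' _ => ?_
        refine mul_nonneg (mul_nonneg ((isP_cond h1 hc1.2.1).nonneg _)
          ((isP_cond h2 hc2.2.1).nonneg _)) ?_
        split_ifs
        · exact zero_le_one
        · exact le_rfl
      have := mul_nonneg g2 this
      linarith
  have e5 : ∑ c ∈ gd dl τ₁ b, ∑ c' ∈ gd dl τ₂ b, ∑ y, ∑ y',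
      sub dl τ₁ c y * sub dl τ₂ c' y' * (if Conf (c.1, y) (c'.1, y') then (1 : ℝ) else 0) ≤
      ∑ c, ∑ c', ∑ y, ∑ y', sub dl τ₁ c y * sub dl τ₂ c' y' *
        (if Conf (c.1, y) (c'.1, y') then 1 else 0) := by
    have pos : ∀ c c', 0 ≤ ∑ y, ∑ y', sub dl τ₁ c y * sub dl τ₂ c' y' *
        (if Conf (c.1, y) (c'.1, y') then (1 : ℝ) else 0) := by
      intro c c'
      refine Finset.sum_nonneg fun y _ => Finset.sum_nonneg fun y' _ => ?_
      refine mul_nonneg (mul_nonneg (sub_nonneg h1.nonneg _ _) (sub_nonneg h2.nonneg _ _)) ?_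
      split_ifs
      · exact zero_le_one
      · exact le_rfl
    refine (Finset.sum_le_sum fun c _ => Finset.sum_le_sum_of_subset_of_nonneg
      (Finset.subset_univ _) (fun c' _ _ => pos c c')).trans ?_
    exact Finset.sum_le_sum_of_subset_of_nonneg (Finset.subset_univ _)
      (fun c _ _ => Finset.sum_nonneg fun c' _ => pos c c')
  have e6 : 49 / 64 * M₀ * c₀ ≤ c₀ * S := by nlinarith
  linarith

end main

end Crest.Agent.R042.SspAsm375
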