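import Crest.Agent.R042.SspFin_375
import Crest.Agent.R042.TLevG_333

/-! Row 42 / S0059: `ssp_cross` with the type level input discharged by 333's Theorem T. -/

set_option autoImplicit false
set_option linter.unusedSectionVars false

namespace Crest.Agent.R042.SspT375

open Finset SspAsm375 SspFin375 TLev333
open scoped Classical

variable {ι 𝓕 Ω : Type*} [Fintype ι] [DecidableEq ι] [Fintype 𝓕] [Fintype Ω]
  {Δ Θ : Type*} [Fintype Δ] [Fintype Θ]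

/-- the index set of a piece. -/
def idx2 (s : Jx ι × Δ × Θ) : Finset ι := {s.1.1.1, s.1.1.2}

lemma card_idx2 (s : Jx ι × Δ × Θ) : (idx2 s).card = 2 := Finset.card_pair s.1.2

lemma mem_idx2 (i : ι) (s : Jx ι × Δ × Θ) : i ∈ idx2 s ↔ s.1 ∈ Ai i := by
  unfold idx2 Ai
  rw [Finset.mem_filter, Finset.mem_insert, Finset.mem_singleton]
  constructor
  · rintro (h | h)
    · exact ⟨Finset.mem_univ _, Or.inl h.symm⟩
    · exact ⟨Finset.mem_univ _, Or.inr h.symm⟩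
  · rintro ⟨_, h | h⟩
    · exact Or.inl h.symm
    · exact Or.inr h.symm

lemma sum_idx2 (t : Jx ι × Δ × Θ → ℝ) (i : ι) :
    ∑ s ∈ univ.filter (fun s => i ∈ idx2 s), t s = ∑ j ∈ Ai i, ∑ x : Δ × Θ, t (j, x) := by
  rw [Finset.sum_filter, Fintype.sum_prod_type]
  rw [← Finset.sum_filter_add_sum_filter_not univ (fun j : Jx ι => j ∈ Ai i)]
  have e2 : univ.filter (fun j : Jx ι => j ∈ Ai i) = Ai i := by
    ext j
    simp
  rw [e2]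
  have e3 : ∑ j ∈ univ.filter (fun j : Jx ι => ¬ j ∈ Ai i), ∑ y : Δ × Θ,
      (if i ∈ idx2 ((j, y) : Jx ι × Δ × Θ) then t (j, y) else 0) = 0 := by
    refine Finset.sum_eq_zero fun j hj => Finset.sum_eq_zero fun y _ => ?_
    rw [Finset.mem_filter] at hj
    rw [if_neg]
    rw [mem_idx2]
    exact hj.2
  rw [e3, add_zero]
  refine Finset.sum_congr rfl fun j hj => Finset.sum_congr rfl fun y _ => ?_
  rw [if_pos]
  rw [mem_idx2]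
  exact hj

/-- type level mass of the live pairs. -/
theorem liveMass [DecidableEq Δ] [DecidableEq Θ] (S : Sys ι Ω (Jx ι × Δ × Θ)) (hidx : S.idx = idx2) (ha : S.a = 2)
    (hsymm : ∀ P Q, S.perp P Q → S.perp Q P) {ℓ r : ℕ} {x : ι → Ω} (hGood : S.Good ℓ r x)
    (hgen : Gen S.perp S.ρ x univ) (hE : 1 ≤ S.η * ℓ * S.ρ ^ 4) (hη : S.η ≤ 1 / 4096)
    (m : ℝ) (hm0 : 0 ≤ m) (hℓm : 4 * ℓ * m ≤ S.η * S.ρ ^ 4) (hrm : 256 * (ℓ + r) * m ≤ 1)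
    (t₁ t₂ : Jx ι × Δ × Θ → ℝ) (h1 : IsP t₁) (h2 : IsP t₂)
    (hm1 : ∀ i, ∑ j ∈ Ai i, ∑ x : Δ × Θ, t₁ (j, x) ≤ m)
    (hm2 : ∀ i, ∑ j ∈ Ai i, ∑ x : Δ × Θ, t₂ (j, x) ≤ m) :
    S.ρ ^ 4 / 32 ≤ ∑ s, ∑ s', t₁ s * t₂ s' * (if Sys.Live S S x s s' then 1 else 0) := by
  obtain ⟨G, G', -, -, -, -, h⟩ := Sys.theoremT S S rfl rfl rfl hsymm hGood hGood hgen hE hη m hm0
    hℓm hrm t₁ h1.nonneg h1.sum (fun i => by
      rw [hidx, sum_idx2]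
      exact hm1 i) t₂ h2.nonneg h2.sum (fun i => by
      rw [hidx, sum_idx2]
      exact hm2 i)
  rw [ha] at h
  norm_num at h
  refine h.trans ?_
  have pos : ∀ s s', 0 ≤ t₁ s * t₂ s' * (if Sys.Live S S x s s' then (1 : ℝ) else 0) := by
    intro s s'
    refine mul_nonneg (mul_nonneg (h1.nonneg _) (h2.nonneg _)) ?_
    split_ifs
    · exact zero_le_one
    · exact le_rfl
  have e : ∀ s s', (if Sys.Live S S x s s' then t₁ s * t₂ s' else 0) =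
      t₁ s * t₂ s' * (if Sys.Live S S x s s' then (1 : ℝ) else 0) := by
    intro s s'
    split_ifs <;> simp
  refine (le_of_eq (Finset.sum_congr rfl fun s _ => Finset.sum_congr rfl fun s' _ => e s s')).trans ?_
  refine (Finset.sum_le_sum fun s _ => Finset.sum_le_sum_of_subset_of_nonneg
      (Finset.subset_univ _) (fun s' _ _ => pos s s')).trans ?_
  exact Finset.sum_le_sum_of_subset_of_nonneg (Finset.subset_univ _)
      (fun s _ _ => Finset.sum_nonneg fun s' _ => pos s s')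

/-- **supersaturation of the cross kind, type level discharged.** -/
theorem ssp_crossT [Nonempty ι] [Nonempty 𝓕] [DecidableEq Δ] [DecidableEq Θ]
    {n : ℕ} {d : ℝ} {E : ι × 𝓕 → ι × 𝓕 → Prop} (hn : 0 < n) (hd : 0 < d)
    (S : Sys ι Ω (Jx ι × Δ × Θ)) (hidx : S.idx = idx2) (ha : S.a = 2)
    (hsymm : ∀ P Q, S.perp P Q → S.perp Q P) {ℓ r : ℕ} {x : ι → Ω} (hGood : S.Good ℓ r x)
    (hgen : Gen S.perp S.ρ x univ) (hE : 1 ≤ S.η * ℓ * S.ρ ^ 4) (hη : S.η ≤ 1 / 4096)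
    (hℓm : 4 * ℓ * (2 * (1 / (d * Fintype.card ι))) ≤ S.η * S.ρ ^ 4)
    (hrm : 256 * (ℓ + r) * (2 * (1 / (d * Fintype.card ι))) ≤ 1)
    (dl : Jx ι → 𝓕 × 𝓕 → Δ) (w₁ w₂ : (ι × 𝓕) × (ι × 𝓕) → ℝ)
    (h1 : AdmX n d E w₁) (h2 : AdmX n d E w₂)
    (b : ℝ) (hb : 0 < b) (hbM : 8 * Real.log (n / d * Fintype.card Δ) ≤ b)
    (G : Jx ι × Δ → (𝓕 × 𝓕 → ℝ) → Θ → Prop)
    (hG : ∀ (c : Jx ι × Δ) (μ : 𝓕 × 𝓕 → ℝ), IsP μ →
      (∀ y, μ y ≠ 0 → dl c.1 y = c.2 ∧ ¬ E (c.1.1.1, y.1) (c.1.1.2, y.2)) → KL μ ≤ b →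
      ∃ θ, G c μ θ)
    (c₀ : ℝ) (hc₀ : 0 ≤ c₀)
    (hLoc : ∀ (c : Jx ι × Δ) (μ : 𝓕 × 𝓕 → ℝ) (θ : Θ) (c' : Jx ι × Δ) (μ' : 𝓕 × 𝓕 → ℝ) (θ' : Θ),
      IsP μ → (∀ y, μ y ≠ 0 → dl c.1 y = c.2 ∧ ¬ E (c.1.1.1, y.1) (c.1.1.2, y.2)) → KL μ ≤ b →
      G c μ θ →
      IsP μ' → (∀ y, μ' y ≠ 0 → dl c'.1 y = c'.2 ∧ ¬ E (c'.1.1.1, y.1) (c'.1.1.2, y.2)) →
      KL μ' ≤ b → G c' μ' θ' →
      Sys.Live S S x (c.1, c.2, θ) (c'.1, c'.2, θ') →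
      c₀ ≤ ∑ y, ∑ y', μ y * μ' y' * (if Cf E (ph (c.1, y)) (ph (c'.1, y')) then 1 else 0)) :
    d * (49 / 64 * (S.ρ ^ 4 / 32) * c₀) * Fintype.card (ι × 𝓕) * (d * Fintype.card (ι × 𝓕)) ≤
      ∑ z, ∑ z', w₁ z * w₂ z' * (if Cf E z z' then 1 else 0) := by
  have hι : (0 : ℝ) < Fintype.card ι := by exact_mod_cast Fintype.card_pos
  refine ssp_cross hn hd dl w₁ w₂ h1 h2 b hb hbM G hG (Sys.Live S S x) c₀ hc₀ hLoc _ ?_
  intro t₁ t₂ p1 p2 q1 q2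
  exact liveMass S hidx ha hsymm hGood hgen hE hη _ (by positivity) hℓm hrm t₁ t₂ p1 p2 q1 q2

end Crest.Agent.R042.SspT375
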