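import Crest.Agent.R042.Rel_477
import Crest.Agent.R042.Seq_477

/-!
# Row 42: pair step, pattern bound, end-homogeneous sequences (helper477)
-/

namespace Crest.Agent.R042.Step477

open Finset Function Rel477 Seq477
open scoped Classical

noncomputable section

variable {F W Ω : Type*} [Field F] [AddCommGroup W] [Module F W] [Fintype Ω]

/-- the functional `f ↦ f u₀ e₀ + f u₁ e₁` vanishes on symmetric forms -/
def Triv (F : Type*) {W : Type*} [Field F] [AddCommGroup W] [Module F W] (u e : Bool → W) : Prop :=
  ∀ f : W →ₗ[F] W →ₗ[F] F, (∀ x y, f x y = f y x) → ∑ j, f (u j) (e j) = 0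

/-- the structure of block laws -/
structure Law (τ : Ω → ℝ) (u : Ω → Bool → W) (D : Ω → Bool → Submodule F W) (δ : ℝ) : Prop where
  nonneg : ∀ x, 0 ≤ τ x
  sum_one : ∑ x, τ x = 1
  t1 : ∀ (x : W) (α : Bool → F), α ≠ 0 → pr τ (fun ω => ∑ j, α j • u ω j = x) ≤ δ
  t2 : ∀ (Y : W) (α : Bool → F) (j : Bool), Y ≠ 0 →
    pr τ (fun ω => Y + ∑ i, α i • u ω i ∈ D ω j) ≤ δ
  t3 : ∀ (ω : Ω) (α : Bool → F) (j : Bool), ∑ i, α i • u ω i ∈ D ω j → α j = 0

variable {τ : Ω → ℝ} {u : Ω → Bool → W} {D : Ω → Bool → Submodule F W} {δ : ℝ}

/-- the character at the current block -/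
def ch (u : Ω → Bool → W) (M : Bool → Bool → F) (Z : Bool → W) (x y : Ω) (j : Bool) : W :=
  Z j + ∑ i, (M j i + M i j) • u x i + ∑ i, M j i • u y i

theorem pair_step (H : Law τ u D δ) (M : Bool → Bool → F) (Z : Bool → W) :
    ∑ x, τ x * ∑ y, τ y * ind ((∀ j, ch u M Z x y j ∈ D y j) ∧ ¬ Triv F (u y) (ch u M Z x y))
      ≤ 2 * δ := by
  have hδ : 0 ≤ δ := (pr_nonneg H.nonneg _).trans (H.t1 0 (fun _ => 1) (by
    intro h; have := congrFun h true; simp at this))
  set Y : Ω → Bool → W := fun x j => Z j + ∑ i, (M j i + M i j) • u x i with hY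
  have inner : ∀ x, ∑ y, τ y * ind ((∀ j, ch u M Z x y j ∈ D y j) ∧
      ¬ Triv F (u y) (ch u M Z x y)) ≤
      δ + ind (Y x false = 0 ∧ M true false + M false true ≠ 0) := by
    intro x
    by_cases hx : ∃ j, Y x j ≠ 0
    · obtain ⟨j, hj⟩ := hx
      have h1 : ∑ y, τ y * ind ((∀ j, ch u M Z x y j ∈ D y j) ∧
        ¬ Triv F (u y) (ch u M Z x y)) ≤
          pr τ (fun ω => Y x j + ∑ i, M j i • u ω i ∈ D ω j) := by
        unfold pr
        refine Finset.sum_le_sum fun y _ => mul_le_mul_of_nonneg_left (ind_mono ?_) (H.nonneg y)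
        intro hc
        exact hc.1 j
      have h2 := H.t2 (Y x j) (M j) j hj
      have h3 := ind_nonneg (Y x false = 0 ∧ M true false + M false true ≠ 0)
      linarith
    · push Not at hx
      by_cases hM : M true false + M false true ≠ 0
      · have h1 : ∑ y, τ y * ind ((∀ j, ch u M Z x y j ∈ D y j) ∧
          ¬ Triv F (u y) (ch u M Z x y)) ≤ 1 := pr_le_one H.nonneg H.sum_one _
        rw [ind_true ⟨hx false, hM⟩]
        linarith
      · push Not at hM
        have h1 : ∑ y, τ y * ind ((∀ j, ch u M Z x y j ∈ D y j) ∧
          ¬ Triv F (u y) (ch u M Z x y)) = 0 := by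
          refine Finset.sum_eq_zero fun y _ => ?_
          rw [ind_false, mul_zero]
          rintro ⟨hv, hn⟩
          apply hn
          have hch : ∀ j, ch u M Z x y j = ∑ i, M j i • u y i := by
            intro j
            have := hx j
            simp only [hY] at this
            simp only [ch, this, zero_add]
          have hjj : ∀ j, M j j = 0 := by
            intro j
            have h := hv j
            rw [hch j] at h
            exact H.t3 y (M j) j h
          intro f hf
          simp only [hch, Fintype.sum_bool, map_add, map_smul, hjj, smul_eq_mul, zero_mul,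
            zero_add, add_zero]
          have e1 : M true false = - M false true := by
            linear_combination hM
          rw [e1, hf (u y false) (u y true)]
          ring
        rw [h1]
        have h3 := ind_nonneg (Y x false = 0 ∧ M true false + M false true ≠ 0)
        linarith
  have hsum : ∑ x, τ x * (δ + ind (Y x false = 0 ∧ M true false + M false true ≠ 0))
      ≤ 2 * δ := by
    have e1 : ∑ x, τ x * (δ + ind (Y x false = 0 ∧ M true false + M false true ≠ 0))
        = δ + pr τ (fun x => Y x false = 0 ∧ M true false + M false true ≠ 0) := by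
      simp only [mul_add, Finset.sum_add_distrib]
      rw [← Finset.sum_mul, H.sum_one, one_mul]
      rfl
    rw [e1]
    have e2 : pr τ (fun x => Y x false = 0 ∧ M true false + M false true ≠ 0) ≤ δ := by
      by_cases hM : M true false + M false true ≠ 0
      · refine le_trans (pr_mono H.nonneg (q := fun x => ∑ i, (M false i + M i false) • u x i
          = - Z false) ?_) (H.t1 _ (fun i => M false i + M i false) ?_)
        · rintro x ⟨h, -⟩
          simp only [hY] at h
          rw [eq_neg_iff_add_eq_zero, add_comm]; exact h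
        · intro h
          have := congrFun h true
          simp only [Pi.zero_apply] at this
          exact hM (by rw [add_comm]; exact this)
      · have : pr τ (fun x => Y x false = 0 ∧ M true false + M false true ≠ 0) = 0 := by
          unfold pr
          refine Finset.sum_eq_zero fun x _ => ?_
          rw [ind_false, mul_zero]
          rintro ⟨-, h⟩; exact hM h
        rw [this]; exact hδ
    linarith
  refine le_trans (Finset.sum_le_sum fun x _ => mul_le_mul_of_nonneg_left (inner x) (H.nonneg x)) hsum

/-- bound for one pattern -/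
theorem pattern_bound {ι : Type*} [Fintype ι] (H : Law τ u D δ) (hδ : 0 ≤ δ) (n : ℕ)
    (κ : Fin n → Bool → ι)
    (hκ : ∀ r t, r < t → ∀ i j, κ t i ≠ κ r j) (hκ' : ∀ r, κ r false ≠ κ r true)
    (M : Bool → Bool → F) (Z : Fin n → (ι → Ω) → Bool → W)
    (hZ : ∀ r t, r ≤ t → ∀ i ω x, Z r (update ω (κ t i) x) = Z r ω) :
    Ex τ (fun ω => ind (∀ r, ((∀ j, ch u M (Z r ω) (ω (κ r false)) (ω (κ r true)) j ∈
        D (ω (κ r true)) j) ∧ ¬ Triv F (u (ω (κ r true)))
        (ch u M (Z r ω) (ω (κ r false)) (ω (κ r true)))))) ≤ (2 * δ) ^ n := by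
  refine seq_bound H.nonneg H.sum_one (2 * δ) (by linarith) n (fun r => κ r false)
    (fun r => κ r true) (fun r ω => ((∀ j, ch u M (Z r ω) (ω (κ r false)) (ω (κ r true)) j ∈
        D (ω (κ r true)) j) ∧ ¬ Triv F (u (ω (κ r true)))
        (ch u M (Z r ω) (ω (κ r false)) (ω (κ r true))))) ?_ ?_
  · intro r t hrt ω x
    constructor
    · simp only [hZ r t hrt.le]
      rw [update_of_ne (hκ r t hrt false false).symm, update_of_ne (hκ r t hrt false true).symm]
    · simp only [hZ r t hrt.le]
      rw [update_of_ne (hκ r t hrt true false).symm, update_of_ne (hκ r t hrt true true).symm]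
  · intro r ω
    have e : ∀ x y, Z r (update (update ω (κ r false) x) (κ r true) y) = Z r ω := by
      intro x y
      rw [hZ r r le_rfl, hZ r r le_rfl]
    have e2 : ∀ x y, update (update ω (κ r false) x) (κ r true) y (κ r false) = x := by
      intro x y
      rw [update_of_ne (hκ' r), update_self]
    have e3 : ∀ x y, update (update ω (κ r false) x) (κ r true) y (κ r true) = y := by
      intro x y
      rw [update_self]
    simp only [e, e2, e3]
    exact pair_step H M (Z r ω)

/-- end-homogeneous sequences -/
def EHN (Q : ℕ) : ℕ → ℕ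
  | 0 => 0
  | n + 1 => Q * EHN Q n + 1

theorem exists_endhom {ι K : Type*} [Fintype K] (Q : ℕ) (hQ : Fintype.card K ≤ Q)
    [Nonempty K] (col : ι → ι → K) :
    ∀ (n : ℕ) (J : Finset ι), EHN Q n ≤ J.card → ∃ (v : Fin n → ι) (g : Fin n → K),
      Injective v ∧ (∀ s, v s ∈ J) ∧ ∀ s t, s < t → col (v s) (v t) = g s := by
  intro n
  induction n with
  | zero =>
    intro J _
    exact ⟨Fin.elim0, Fin.elim0, fun a => a.elim0, fun a => a.elim0, fun a => a.elim0⟩
  | succ n ih =>
    intro J hJ
    simp only [EHN] at hJ
    have hne : J.Nonempty := by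
      rw [← Finset.card_pos]; omega
    obtain ⟨a, ha⟩ := hne
    have hcard : (Finset.univ : Finset K).card * EHN Q n ≤ (J.erase a).card := by
      rw [Finset.card_erase_of_mem ha, Finset.card_univ]
      have : Fintype.card K * EHN Q n ≤ Q * EHN Q n := Nat.mul_le_mul_right _ hQ
      omega
    obtain ⟨y, -, hy⟩ := Finset.exists_le_card_fiber_of_mul_le_card_of_maps_to
      (s := J.erase a) (t := Finset.univ) (f := fun x => col a x) (fun x _ => Finset.mem_univ _)
      Finset.univ_nonempty hcard
    obtain ⟨v, g, hv, hvJ, hcol⟩ := ih _ hy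
    refine ⟨Fin.cons a v, Fin.cons y g, ?_, ?_, ?_⟩
    · rw [Fin.cons_injective_iff]
      refine ⟨?_, hv⟩
      rintro ⟨s, hs⟩
      have := hvJ s
      rw [hs] at this
      simp at this
    · intro s
      refine Fin.cases ?_ (fun s => ?_) s
      · simpa using ha
      · have := hvJ s
        simp only [Finset.mem_filter, Finset.mem_erase] at this
        simpa using this.1.2
    · intro s t hst
      induction s using Fin.cases with
      | zero =>
        induction t using Fin.cases with
        | zero => exact absurd hst (lt_irrefl _)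
        | succ t =>
          have := hvJ t
          simp only [Finset.mem_filter] at this
          simpa using this.2
      | succ s =>
        induction t using Fin.cases with
        | zero => exact absurd hst (by simp)
        | succ t =>
          simpa using hcol s t (by simpa using hst)

end

end Crest.Agent.R042.Step477
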