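import Crest.Agent.R042.SspB_375
import Crest.Agent.R042.IsoD_543
import Crest.Agent.R042.RichB_763
import Crest.Agent.R042.PBOne_342
import Crest.Agent.R042.PBDead2_96
import Crest.Agent.R042.SysFam_333

/-!
# Row 42 / S0059, PLAN B: the type level data (`TData`)

One-end dead sets: isolation, richness, `deadX` for the points of the list; two-end dead sets:
`deadX2` for the points of the list.  `one_out`, `live_out`: what an alive pair knows.
-/

set_option autoImplicit false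
set_option linter.unusedSectionVars false

namespace Crest.Agent.R042.SysB333

open Finset SspAsm375 SspFin375 SspT375 SspB375 TLev333 SysOf333
open Crest.Agent.R042.Fam543 Crest.Agent.R042.RowWin543 Crest.Agent.R042.Inst592
open Crest.Agent.R042.IsoD543 Crest.Agent.R042.RichB763 Crest.Agent.R042.PB
open Crest.Agent.R042.PBOne342 Crest.Agent.R042.PBDead96
open scoped Classical

/-- one of two ends (`false` is the first one) -/
def en {T : Type*} (P P' : T) (a : Bool) : T := bif a then P' else P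

@[simp] lemma en_false {T : Type*} (P P' : T) : en P P' false = P := rfl
@[simp] lemma en_true {T : Type*} (P P' : T) : en P P' true = P' := rfl

lemma en_eq {T : Type*} {P P' : T} {X : Bool → T} (h0 : X false = P) (h1 : X true = P')
    (a : Bool) : en P P' a = X a := by
  cases a
  · exact h0.symm
  · exact h1.symm

variable {k0 KK : Type} [Field k0] [Field KK] [Algebra k0 KK] {d L J : ℕ} {Δ : Type}

/-- the points of the list -/
abbrev Pts (KK : Type) (d L J : ℕ) := Fin J → Bool × U KK d 2 L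

/-- the one-end dead set of the list -/
def DX (e : ℕ) (P P' : Ty k0 KK d L) (y : Bool × U KK d 2 L) (R : Ty k0 KK d L) : Prop :=
  y.2 ∉ Sp2 (2 ^ e) (en P P' y.1) (en P P' (!y.1)) ∧ deadX (2 ^ e) (en P P' y.1) y.2 R

/-- the one-end dead sets -/
def D1B (K : Set k0) (e : ℕ) (wd : Δ → (U KK d 2 L →ₗ[k0] k0)) (P P' : Ty k0 KK d L) (w : Δ)
    (y : Pts KK d L J) (R : Ty k0 KK d L) : Prop :=
  Diso K (2 ^ e) 2 P P' (wd w) R ∨ ¬ RichP K P.E R.E ∨ ¬ RichP K P'.E R.E ∨
    ∃ i, DX e P P' (y i) R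

/-- the two-end dead sets -/
def D2B (e : ℕ) (P P' : Ty k0 KK d L) (y : Pts KK d L J) (R R' : Ty k0 KK d L) : Prop :=
  ∃ i, deadX2 (2 ^ e) (en P P' (y i).1) (y i).2 R R'

variable [Fintype k0] [Fintype KK] [CharP KK 2]

/-- monotonicity of a count, any decidability -/
lemma fc {Ω : Type*} [Fintype Ω] {p q : Ω → Prop} {i1 : DecidablePred p} {i2 : DecidablePred q}
    (h : ∀ x, p x → q x) : (((@filter _ p i1 univ).card : ℕ) : ℝ) ≤
      (((@filter _ q i2 univ).card : ℕ) : ℝ) := by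
  refine Nat.cast_le.2 (card_le_card ?_)
  intro x hx
  exact (@Finset.mem_filter _ _ (_) _ _).2 ⟨mem_univ _, h x ((@Finset.mem_filter _ _ (_) _ _).1 hx).2⟩

/-- the number of types with a condition given by a finite union -/
lemma card_ex_le {Ω : Type*} [Fintype Ω] {J : ℕ} (A : Ω → Prop) (p : Fin J → Ω → Prop) (c : ℝ)
    (h : ∀ i, (((univ.filter fun R => A R ∧ p i R).card : ℕ) : ℝ) ≤ c) :
    (((univ.filter fun R => A R ∧ ∃ i, p i R).card : ℕ) : ℝ) ≤ J * c := by
  have h1 : (univ.filter fun R => A R ∧ ∃ i, p i R) ⊆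
      univ.biUnion fun i : Fin J => univ.filter fun R => A R ∧ p i R := by
    intro R hR
    obtain ⟨_, h2, i, h3⟩ := mem_filter.1 hR
    exact mem_biUnion.2 ⟨i, mem_univ _, mem_filter.2 ⟨mem_univ _, h2, h3⟩⟩
  have h2 : (((univ.filter fun R => A R ∧ ∃ i, p i R).card : ℕ) : ℝ) ≤
      ∑ i : Fin J, (((univ.filter fun R => A R ∧ p i R).card : ℕ) : ℝ) := by
    exact_mod_cast (card_le_card h1).trans card_biUnion_le
  refine h2.trans ((sum_le_sum fun i _ => h i).trans (le_of_eq ?_))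
  rw [sum_const, card_univ, Fintype.card_fin, nsmul_eq_mul]

/-- one point, density -/
theorem dx_le {K : Set k0} (h1 : (1 : k0) ∈ K) (e : ℕ) (P P' : Om KK K d L)
    (hc : Cnt (perp K d L) ((Fintype.card KK : ℝ)⁻¹) P P') (y : Bool × U KK d 2 L) :
    (((univ.filter fun R : Om KK K d L =>
      (perp K d L P R ∧ perp K d L P' R) ∧ DX e P.1 P'.1 y R.1).card : ℕ) : ℝ) ≤
      ((Fintype.card k0 : ℝ) ^ 2 + 1) / Fintype.card KK * ((Fintype.card KK : ℝ)⁻¹) ^ 2 *
        Fintype.card (Om KK K d L) := by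
  have hKK : (0 : ℝ) < Fintype.card KK := by exact_mod_cast Fintype.card_pos
  by_cases hy : y.2 ∈ Sp2 (2 ^ e) (en P.1 P'.1 y.1) (en P.1 P'.1 (!y.1))
  · have h2 : (univ.filter fun R : Om KK K d L =>
        (perp K d L P R ∧ perp K d L P' R) ∧ DX e P.1 P'.1 y R.1) = ∅ :=
      filter_eq_empty_iff.2 fun R _ h5 => h5.2.1 hy
    rw [h2, card_empty, Nat.cast_zero]
    positivity
  · have hne : P.1.b ≠ P'.1.b := by
      intro h
      have h2 := li_b_of_cnt h1 hc
      have h3 := h2.injective.ne (show (0 : Fin 2) ≠ 1 by decide)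
      exact h3 h
    have key : Fintype.card KK * ((comm (K := K) P.1 P'.1).filter fun R =>
        deadX (2 ^ e) (en P.1 P'.1 y.1) y.2 R.1).card ≤
        (Fintype.card k0 ^ 2 + 1) * (comm (K := K) P.1 P'.1).card := by
      rcases hy1 : y.1 with _ | _
      · rw [hy1] at hy
        exact card_deadX e P.2 P'.2 hne hy
      · rw [hy1] at hy
        have h2 := card_deadX e P'.2 P.2 hne.symm hy
        have h3 : comm (K := K) P'.1 P.1 = comm (K := K) P.1 P'.1 := by
          ext R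
          rw [mem_comm, mem_comm, and_comm]
        rw [h3] at h2
        exact h2
    have h2 : (((comm (K := K) P.1 P'.1).card : ℕ) : ℝ) =
        ((Fintype.card KK : ℝ)⁻¹) ^ 2 * Fintype.card (Om KK K d L) := by
      rw [← hc.c12]
      exact le_antisymm (fc fun R h => h) (fc fun R h => h)
    have h3 : (((univ.filter fun R : Om KK K d L =>
      (perp K d L P R ∧ perp K d L P' R) ∧ DX e P.1 P'.1 y R.1).card : ℕ) : ℝ) ≤
        ((((comm (K := K) P.1 P'.1).filter fun R =>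
        deadX (2 ^ e) (en P.1 P'.1 y.1) y.2 R.1).card : ℕ) : ℝ) := by
      refine Nat.cast_le.2 (card_le_card ?_)
      intro R hR
      obtain ⟨_, h4, h5⟩ := mem_filter.1 hR
      exact mem_filter.2 ⟨mem_comm.2 h4, h5.2⟩
    refine h3.trans ?_
    rw [mul_assoc, ← h2, div_mul_eq_mul_div, le_div_iff₀ hKK, mul_comm]
    exact_mod_cast key

/-- richness against one end, density -/
theorem rich_le {K : Finset k0} (hK : Alph (K : Set k0)) {t : ℝ}
    (hL : (K.card : ℝ) * (Real.log K.card + t) ≤ L) (P P' P₀ : Om KK (K : Set k0) d L)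
    (hc : Cnt (perp (K : Set k0) d L) ((Fintype.card KK : ℝ)⁻¹) P P') :
    (((univ.filter fun R : Om KK (K : Set k0) d L =>
      (perp (K : Set k0) d L P R ∧ perp (K : Set k0) d L P' R) ∧
        ¬ RichP (K : Set k0) P₀.1.E R.1.E).card : ℕ) : ℝ) ≤
      Real.exp (-t) * ((Fintype.card KK : ℝ)⁻¹) ^ 2 * Fintype.card (Om KK (K : Set k0) d L) := by
  have hcard : ∀ i : Fintype (K : Set k0), @Fintype.card _ i = K.card := by
    intro i
    rw [← @Nat.card_eq_fintype_card _ i]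
    simp
  have h := card_not_rich_le (KK := KK) (d := d) hK P₀.1.E P₀.2.E
    (fun u => om d (vv P) u = -1 ∧ om d (vv P') u = -1) (t := t) (by
      rw [hcard]; exact hL)
  rw [mul_assoc, ← hc.c12]
  refine le_trans (fc ?_) (le_trans h (mul_le_mul_of_nonneg_left (fc ?_) (Real.exp_pos _).le))
  · intro R h
    exact ⟨⟨(perp_iff P R).1 h.1.1, (perp_iff P' R).1 h.1.2⟩, h.2⟩
  · intro R h
    exact ⟨(perp_iff P R).2 h.1, (perp_iff P' R).2 h.2⟩

variable [DecidableEq k0]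

/-- all one-end dead sets, density -/
theorem d1_le {K : Finset k0} {β : ℝ} (hK : Alph767.Alph k0 K β) (e : ℕ) (he : 0 < e)
    (hcard : Fintype.card KK = (2 ^ e) ^ 2)
    (hQ : (Fintype.card k0 : ℝ) ≤ β * ((2 : ℝ) ^ e - 1))
    {t : ℝ} (hL : (K.card : ℝ) * (Real.log K.card + t) ≤ L)
    (wd : Δ → (U KK d 2 L →ₗ[k0] k0)) {η : ℝ}
    (hD1 : 3 * β + (Real.exp (-t) + (Real.exp (-t) +
      J * (((Fintype.card k0 : ℝ) ^ 2 + 1) / Fintype.card KK))) ≤ η ^ 2)
    (P P' : Om KK (K : Set k0) d L) (w : Δ) (y : Pts KK d L J)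
    (hc : Cnt (perp (K : Set k0) d L) ((Fintype.card KK : ℝ)⁻¹) P P') :
    (((univ.filter fun R : Om KK (K : Set k0) d L =>
      (perp (K : Set k0) d L P R ∧ perp (K : Set k0) d L P' R) ∧
        D1B (K : Set k0) e wd P.1 P'.1 w y R.1).card : ℕ) : ℝ) ≤
      η ^ 2 * ((Fintype.card KK : ℝ)⁻¹) ^ 2 * Fintype.card (Om KK (K : Set k0) d L) := by
  have hc12 : (0 : ℝ) ≤ ((Fintype.card KK : ℝ)⁻¹) ^ 2 *
      Fintype.card (Om KK (K : Set k0) d L) := by positivity
  have i1 := diso_le hK e he hcard hQ P P' (wd w) hc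
  have i2 := rich_le (Iso543.famAlph hK) hL P P' P hc
  have i3 := rich_le (Iso543.famAlph hK) hL P P' P' hc
  have i4 := card_ex_le (fun R : Om KK (K : Set k0) d L =>
    perp (K : Set k0) d L P R ∧ perp (K : Set k0) d L P' R)
    (fun i R => DX e P.1 P'.1 (y i) R.1) _
    (fun i => le_trans (fc fun R h => h) (dx_le hK.one e P P' hc (y i)))
  have i5 := card_or_le (perp (K : Set k0) d L) P P' _ _ _ _ (le_trans (fc fun R h => h) i3)
    (le_trans (fc fun R h => h) i4)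
  have i6 := card_or_le (perp (K : Set k0) d L) P P' _ _ _ _ (le_trans (fc fun R h => h) i2)
    (le_trans (fc fun R h => h) i5)
  have i7 := card_or_le (perp (K : Set k0) d L) P P' _ _ _ _ (le_trans (fc fun R h => h) i1)
    (le_trans (fc fun R h => h) i6)
  have h8 := mul_le_mul_of_nonneg_right hD1 hc12
  refine le_trans (fc fun R h => h) (i7.trans ?_)
  nlinarith

/-- all two-end dead sets, density -/
theorem d2_le {K : Set k0} (hK : Alph K) (hL0 : 0 < L) (e : ℕ) {θ : ℝ}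
    (hD2 : J * ((Fintype.card k0 : ℝ) / (Fintype.card KK : ℝ) ^ (2 * d)) ≤ θ)
    (P P' : Om KK K d L) (y : Pts KK d L J) (R : Om KK K d L) :
    (((univ.filter fun R' : Om KK K d L => D2B e P.1 P'.1 y R.1 R'.1).card : ℕ) : ℝ) ≤
      θ * Fintype.card (Om KK K d L) := by
  have i1 := card_ex_le (fun _ : Om KK K d L => True)
    (fun i R' => deadX2 (2 ^ e) (en P.1 P'.1 (y i).1) (y i).2 R.1 R'.1)
    ((Fintype.card k0 : ℝ) / (Fintype.card KK : ℝ) ^ (2 * d) * Fintype.card (Om KK K d L))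
    (fun i => card_deadX2_real e hK hL0 (en P.1 P'.1 (y i).1) R.1 (y i).2
        _ (fun R' hR' => ((@Finset.mem_filter _ _ (_) _ _).1 hR').2.2))
  refine le_trans (fc fun R h => ⟨trivial, h⟩) (le_trans i1 ?_)
  rw [← mul_assoc]
  exact mul_le_mul_of_nonneg_right hD2 (by positivity)

/-- **type level data of PLAN B.** -/
noncomputable def sysB {K : Finset k0} {β : ℝ} (hK : Alph767.Alph k0 K β) (e : ℕ) (he : 0 < e)
    (hcard : Fintype.card KK = (2 ^ e) ^ 2)
    (hQ : (Fintype.card k0 : ℝ) ≤ β * ((2 : ℝ) ^ e - 1))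
    (hL0 : 0 < L) (t : ℝ) (hL : (K.card : ℝ) * (Real.log K.card + t) ≤ L)
    (J : ℕ) (wd : Δ → (U KK d 2 L →ₗ[k0] k0)) (η θ : ℝ) (η0 : 0 < η) (η1 : η ≤ 1)
    (hD1 : 3 * β + (Real.exp (-t) + (Real.exp (-t) +
      J * (((Fintype.card k0 : ℝ) ^ 2 + 1) / Fintype.card KK))) ≤ η ^ 2)
    (hD2 : J * ((Fintype.card k0 : ℝ) / (Fintype.card KK : ℝ) ^ (2 * d)) ≤ θ) :
    TData (Om KK (K : Set k0) d L) Δ (Pts KK d L J) where
  perp := perp (K : Set k0) d L
  ρ := (Fintype.card KK : ℝ)⁻¹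
  η := η
  θ := θ
  ρ0 := inv_pos.2 (by exact_mod_cast Fintype.card_pos)
  ρ1 := inv_le_one_of_one_le₀ (by exact_mod_cast Fintype.card_pos)
  η0 := η0
  η1 := η1
  θ0 := le_trans (by positivity) hD2
  D1 := fun P P' w y R => D1B (K : Set k0) e wd P.1 P'.1 w y R.1
  D2 := fun P P' _ y R R' => D2B e P.1 P'.1 y R.1 R'.1
  D1_le := fun P P' w y hc => le_trans (fc fun R h => h)
    (d1_le hK e he hcard hQ hL wd hD1 P P' w y hc)
  D2_le := fun P P' _ y _ R => le_trans (fc fun R h => h)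
    (d2_le (Iso543.famAlph hK) hL0 e hD2 P P' y R)

section out

variable {K : Finset k0} {β : ℝ} {hK : Alph767.Alph k0 K β} {e : ℕ} {he : 0 < e}
  {hcard : Fintype.card KK = (2 ^ e) ^ 2} {hQ : (Fintype.card k0 : ℝ) ≤ β * ((2 : ℝ) ^ e - 1)}
  {hL0 : 0 < L} {t : ℝ} {hL : (K.card : ℝ) * (Real.log K.card + t) ≤ L}
  {wd : Δ → (U KK d 2 L →ₗ[k0] k0)} {η θ : ℝ} {η0 : 0 < η} {η1 : η ≤ 1}
  {hD1 : 3 * β + (Real.exp (-t) + (Real.exp (-t) +
      J * (((Fintype.card k0 : ℝ) ^ 2 + 1) / Fintype.card KK))) ≤ η ^ 2}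
  {hD2 : J * ((Fintype.card k0 : ℝ) / (Fintype.card KK : ℝ) ^ (2 * d)) ≤ θ}

@[simp] lemma sysB_perp : (sysB hK e he hcard hQ hL0 t hL J wd η θ η0 η1 hD1 hD2).perp =
    perp (K : Set k0) d L := rfl
@[simp] lemma sysB_ρ : (sysB hK e he hcard hQ hL0 t hL J wd η θ η0 η1 hD1 hD2).ρ =
    (Fintype.card KK : ℝ)⁻¹ := rfl
@[simp] lemma sysB_η : (sysB hK e he hcard hQ hL0 t hL J wd η θ η0 η1 hD1 hD2).η = η := rfl
@[simp] lemma sysB_θ : (sysB hK e he hcard hQ hL0 t hL J wd η θ η0 η1 hD1 hD2).θ = θ := rfl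

/-- what one side of an alive pair knows. -/
structure OneB (K : Set k0) (e : ℕ) (w : U KK d 2 L →ₗ[k0] k0) (y : Pts KK d L J)
    (X Y : Bool → Ty k0 KK d L) : Prop where
  /-- all four cross pairs are perpendicular -/
  perp : ∀ a b, Perp (X a) (Y b)
  /-- the four cross pairs are rich -/
  rich : ∀ a b, RichP K (X a).E (Y b).E
  /-- isolation -/
  iso : ∀ b, ¬ Diso K (2 ^ e) 2 (X false) (X true) w (Y b)
  /-- no point of the list kills the block -/
  kill : ∀ i, ¬ ((y i).2 ∉ Sp2 (2 ^ e) (X (y i).1) (X (!(y i).1)) ∧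
    kill (2 ^ e) (X (y i).1) (y i).2 (Y false) (Y true))

theorem oneB_of {K : Set k0} {e : ℕ} {wd : Δ → (U KK d 2 L →ₗ[k0] k0)} {w : Δ}
    {y : Pts KK d L J} {X Y : Bool → Ty k0 KK d L}
    (hp : ∀ a b, Perp (X a) (Y b))
    (h1 : ∀ b, ¬ D1B K e wd (X false) (X true) w y (Y b))
    (h2 : ∀ b, ¬ D2B e (X false) (X true) y (Y b) (Y (!b))) : OneB K e (wd w) y X Y := by
  have hen : ∀ a, en (X false) (X true) a = X a := fun a => by cases a <;> rfl
  refine ⟨hp, ?_, ?_, ?_⟩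
  · intro a b
    by_contra h
    cases a
    · exact h1 b (Or.inr (Or.inl h))
    · exact h1 b (Or.inr (Or.inr (Or.inl h)))
  · intro b h
    exact h1 b (Or.inl h)
  · rintro i ⟨hy, hk⟩
    have n1 : ∀ b, ¬ deadX (2 ^ e) (X (y i).1) (y i).2 (Y b) := by
      intro b h
      refine h1 b (Or.inr (Or.inr (Or.inr ⟨i, ?_⟩)))
      unfold DX
      rw [hen, hen]
      exact ⟨hy, h⟩
    have n2 : ∀ b, ¬ deadX2 (2 ^ e) (X (y i).1) (y i).2 (Y b) (Y (!b)) := by
      intro b h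
      refine h2 b ⟨i, ?_⟩
      rw [hen]
      exact h
    rcases hk with h | h | h | h
    · exact n1 false h
    · exact n1 true h
    · exact n2 false h
    · exact n2 true h

/-- the word of a label pair and its digits -/
theorem dlt_of_dword {X : Bool → Ty k0 KK d L} {v : LocFam958.VV k0 KK d 2 L}
    {w : U KK d 2 L →ₗ[k0] k0} (hw : dword (2 ^ e) 2 (X false) (X true) v.1 v.2 = w)
    (z : U KK d 2 L) : LocFam958.dlt (2 ^ e) 2 X v z = w z := by
  rw [← hw, dword_apply]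
  rfl

/-- `hμK` / `hνK` of `locBP` -/
theorem OneB.digit {K : Set k0} {e : ℕ} {w : U KK d 2 L →ₗ[k0] k0} {y : Pts KK d L J}
    {X Y : Bool → Ty k0 KK d L} (h : OneB K e w y X Y) (hPP : Perp (X false) (X true))
    {v : LocFam958.VV k0 KK d 2 L} (hw : dword (2 ^ e) 2 (X false) (X true) v.1 v.2 = w)
    (hr : ¬ Rel K (2 ^ e) 2 (X false) (X true) v.1 v.2) (b : Bool) :
    LocFam958.dlt (2 ^ e) 2 X v (uvec (2 ^ e) 2 (Y b)) ∉ K := by
  have h1 := digit_notMem K (2 ^ e) 2 (X false) (X true) (Y b) v.1 v.2 hPP hr (by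
    rw [hw]; exact h.iso b)
  exact h1

/-- `hμc` / `hνc` of `locBP` -/
theorem dlt_const {X : Bool → Ty k0 KK d L} {v v' : LocFam958.VV k0 KK d 2 L}
    {w : U KK d 2 L →ₗ[k0] k0} (hw : dword (2 ^ e) 2 (X false) (X true) v.1 v.2 = w)
    (hw' : dword (2 ^ e) 2 (X false) (X true) v'.1 v'.2 = w) (z : U KK d 2 L) :
    LocFam958.dlt (2 ^ e) 2 X v z = LocFam958.dlt (2 ^ e) 2 X v' z := by
  rw [dlt_of_dword hw, dlt_of_dword hw']

/-- **what `Alive` knows**, both sides (any `Fintype` instances). -/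
theorem alive_out {ι : Type*} [Fintype ι] [DecidableEq ι] [Fintype Δ] [Fintype (Pts KK d L J)]
    {x : ι → Om KK (K : Set k0) d L} {s s' : Jx ι × Δ × Pts KK d L J}
    (h : (sysB hK e he hcard hQ hL0 t hL J wd η θ η0 η1 hD1 hD2).Alive x s s')
    {X Y : Bool → Ty k0 KK d L} (hX0 : X false = (x s.1.1.1).1) (hX1 : X true = (x s.1.1.2).1)
    (hY0 : Y false = (x s'.1.1.1).1) (hY1 : Y true = (x s'.1.1.2).1) :
    OneB (K : Set k0) e (wd s.2.1) s.2.2 X Y ∧ OneB (K : Set k0) e (wd s'.2.1) s'.2.2 Y X := by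
  have hp : ∀ a b, Perp (X a) (Y b) := by
    intro a b
    cases a <;> cases b
    · rw [hX0, hY0]; exact h.p11
    · rw [hX0, hY1]; exact h.p12
    · rw [hX1, hY0]; exact h.p21
    · rw [hX1, hY1]; exact h.p22
  refine ⟨oneB_of hp ?_ ?_, oneB_of (fun a b => (hp b a).symm) ?_ ?_⟩
  · intro b
    rw [hX0, hX1]
    cases b
    · rw [hY0]; exact h.a1
    · rw [hY1]; exact h.a2
  · intro b
    rw [hX0, hX1]
    cases b
    · rw [Bool.not_false, hY0, hY1]; exact h.a12
    · rw [Bool.not_true, hY0, hY1]; exact h.a21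
  · intro b
    rw [hY0, hY1]
    cases b
    · rw [hX0]; exact h.b1
    · rw [hX1]; exact h.b2
  · intro b
    rw [hY0, hY1]
    cases b
    · rw [Bool.not_false, hX0, hX1]; exact h.b12
    · rw [Bool.not_true, hX0, hX1]; exact h.b21

variable {ι : Type*} [Fintype ι] [DecidableEq ι] [Fintype Δ] [Fintype (Pts KK d L J)]

/-- **what `One` knows** (375's `hG₁`, `hG₂` of `ssp_gadgetB`). -/
theorem one_out {x : ι → Om KK (K : Set k0) d L} {s : Jx ι × Δ × Pts KK d L J} {j : Jx ι}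
    (h : One (sysB hK e he hcard hQ hL0 t hL J wd η θ η0 η1 hD1 hD2).sys x s j)
    {X Y : Bool → Ty k0 KK d L} (hX0 : X false = (x s.1.1.1).1) (hX1 : X true = (x s.1.1.2).1)
    (hY0 : Y false = (x j.1.1).1) (hY1 : Y true = (x j.1.2).1) :
    OneB (K : Set k0) e (wd s.2.1) s.2.2 X Y := by
  obtain ⟨hp, hd⟩ := h
  have m1 : s.1.1.1 ∈ idx2 s := by unfold idx2; simp
  have m2 : s.1.1.2 ∈ idx2 s := by unfold idx2; simp
  have n1 : j.1.1 ∈ ({j.1.1, j.1.2} : Finset ι) := by simp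
  have n2 : j.1.2 ∈ ({j.1.1, j.1.2} : Finset ι) := by simp
  unfold Sys.Dead at hd
  push Not at hd
  refine oneB_of ?_ ?_ ?_
  · intro a b
    cases a <;> cases b
    · rw [hX0, hY0]; exact hp _ m1 _ n1
    · rw [hX0, hY1]; exact hp _ m1 _ n2
    · rw [hX1, hY0]; exact hp _ m2 _ n1
    · rw [hX1, hY1]; exact hp _ m2 _ n2
  · intro b
    rw [hX0, hX1]
    cases b
    · rw [hY0]; exact hd.1 _ n1
    · rw [hY1]; exact hd.1 _ n2
  · intro b
    rw [hX0, hX1]
    cases b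
    · rw [Bool.not_false, hY0, hY1]; exact hd.2 _ n1 _ n2 j.2
    · rw [Bool.not_true, hY0, hY1]; exact hd.2 _ n2 _ n1 (Ne.symm j.2)

/-- **what `Live` knows**, both sides (375's `hLoc` of `ssp_gadgetB`). -/
theorem live_out {x : ι → Om KK (K : Set k0) d L} {s s' : Jx ι × Δ × Pts KK d L J}
    (h : Sys.Live (sysB hK e he hcard hQ hL0 t hL J wd η θ η0 η1 hD1 hD2).sys
      (sysB hK e he hcard hQ hL0 t hL J wd η θ η0 η1 hD1 hD2).sys x s s')
    {X Y : Bool → Ty k0 KK d L} (hX0 : X false = (x s.1.1.1).1) (hX1 : X true = (x s.1.1.2).1)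
    (hY0 : Y false = (x s'.1.1.1).1) (hY1 : Y true = (x s'.1.1.2).1) :
    OneB (K : Set k0) e (wd s.2.1) s.2.2 X Y ∧ OneB (K : Set k0) e (wd s'.2.1) s'.2.2 Y X :=
  ⟨one_out (one_left rfl h) hX0 hX1 hY0 hY1,
    one_out (one_right rfl (fun _ _ h => perp_symm h) h) hY0 hY1 hX0 hX1⟩

end out

end Crest.Agent.R042.SysB333
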