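import Crest.Agent.R042.SysBData_333
import Crest.Agent.R042.FinB_713
import Crest.Agent.R042.HG_365

/-!
# Row 42 / S0059, PLAN B: `hLab` of `pair_of_level` for the type level data `sysB`
-/

set_option autoImplicit false
set_option linter.unusedSectionVars false

namespace Crest.Agent.R042.SysB333

open Finset SspAsm375 SspFin375 SspT375 SspB375 TLev333 SysOf333
open Crest.Agent.R042.Fam543 Crest.Agent.R042.RowWin543 Crest.Agent.R042.Inst592
open Crest.Agent.R042.IsoD543 Crest.Agent.R042.RichB763 Crest.Agent.R042.PB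
open Crest.Agent.R042.FinB713 Crest.Agent.R042.HG365
open Crest.Agent.R042.LocFam958 (VV)
open scoped Classical

variable {k0 KK : Type} [Field k0] [Field KK] [Algebra k0 KK] {d L J : ℕ}
variable [Fintype k0] [Fintype KK] [CharP KK 2] [DecidableEq k0]
variable {K : Finset k0} {β : ℝ} {hK : Alph767.Alph k0 K β} {e : ℕ} {he : 0 < e}
  {hcard : Fintype.card KK = (2 ^ e) ^ 2} {hQ : (Fintype.card k0 : ℝ) ≤ β * ((2 : ℝ) ^ e - 1)}
  {hL0 : 0 < L} {t : ℝ} {hL : (K.card : ℝ) * (Real.log K.card + t) ≤ L}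
  {wd : Dl k0 KK d L → (U KK d 2 L →ₗ[k0] k0)} {η θ : ℝ} {η0 : 0 < η} {η1 : η ≤ 1}
  {hD1 : 3 * β + (Real.exp (-t) + (Real.exp (-t) +
      J * (((Fintype.card k0 : ℝ) ^ 2 + 1) / Fintype.card KK))) ≤ η ^ 2}
  {hD2 : J * ((Fintype.card k0 : ℝ) / (Fintype.card KK : ℝ) ^ (2 * d)) ≤ θ}

/-- **`hLab`** of `pair_of_level` -/
theorem hLab_of {ι : Type} [Fintype ι] [DecidableEq ι] (x : ι → Om KK (K : Set k0) d L)
    (kX K₀ η' θ' m1 : ℝ) (c : Jx ι × Dl k0 KK d L) (μ : VV k0 KK d 2 L → ℝ)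
    (hlab : LabelConcl (2 ^ e) (fun i => (x i).1) J kX K₀ η' θ' m1
      (fun a => bif a then c.1.1.2 else c.1.1.1) μ)
    (τ : Jx ι × Dl k0 KK d L → ℝ) (hτ : IsP τ)
    (hm : ∀ i, ∑ j ∈ Ai i, ∑ δ, τ (j, δ) ≤ m1) :
    ∃ ϑ : TH KK d L J, ∑ c', τ c' *
      (if One (sysB hK e he hcard hQ hL0 t hL J wd η θ η0 η1 hD1 hD2).sys x (c.1, c.2, ϑ) c'.1 ∧
        BadE (2 ^ e) kX K₀ η' (pj (fun i => (x i).1) c.1) (pj (fun i => (x i).1) c'.1) μ
        then 1 else 0) ≤ θ' := by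
  refine hG (2 ^ e) x J (sysB hK e he hcard hQ hL0 t hL J wd η θ η0 η1 hD1 hD2).sys
    (fun P R h => h) ?_ ?_ kX K₀ η' θ' m1 c μ hlab τ hτ hm
  · intro s i R h
    have hen : ∀ a, en (x s.1.1.1).1 (x s.1.1.2).1 a = XJ (fun i => (x i).1) s.1 a :=
      en_eq rfl rfl
    refine Or.inr (Or.inr (Or.inr ⟨i, ?_⟩))
    unfold SysB333.DX
    rw [hen, hen]
    exact h
  · intro s i R R' h
    have hen : ∀ a, en (x s.1.1.1).1 (x s.1.1.2).1 a = XJ (fun i => (x i).1) s.1 a :=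
      en_eq rfl rfl
    refine ⟨i, ?_⟩
    rw [hen]
    exact h.2

end Crest.Agent.R042.SysB333
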