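import Crest.Agent.R042.ParamD_766

/-! Row 42 / S0059, PLAN B: the numeric hypotheses of `SysB333.sysB`. -/

set_option autoImplicit false

namespace Crest.Agent.R042.ParamB766

open Filter Topology

/-- constants before `j`: `β`, `t`, `L` from `η` and the alphabet size. -/
theorem tdata_consts {η : ℝ} (hη : 0 < η) : ∃ (β0 t : ℝ), 0 < β0 ∧ 3 * β0 ≤ η ^ 2 / 4 ∧
    Real.exp (-t) ≤ η ^ 2 / 4 ∧ ∀ (a L0 : ℕ), ∃ L : ℕ, 0 < L ∧ L0 ≤ L ∧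
      (a : ℝ) * (Real.log a + t) ≤ L := by
  have h4 : 0 < η ^ 2 / 4 := by positivity
  refine ⟨η ^ 2 / 12, -Real.log (η ^ 2 / 4), by positivity, by linarith, ?_, ?_⟩
  · rw [neg_neg, Real.exp_log h4]
  · intro a L0
    refine ⟨max (max L0 1) ⌈(a : ℝ) * (Real.log a + -Real.log (η ^ 2 / 4))⌉₊, ?_, ?_, ?_⟩
    · exact lt_of_lt_of_le one_pos ((le_max_right _ _).trans (le_max_left _ _))
    · exact (le_max_left _ _).trans (le_max_left _ _)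
    · refine (Nat.le_ceil _).trans ?_
      exact_mod_cast le_max_right _ _

/-- **hQ, hD1, hD2** of `SysB333.sysB` for `card k0 = q`, `card KK = X = q ^ (2 j)`,
`2 ^ e = Q = q ^ j`, `J = q ^ j`, `θ = q * q ^ j / X ^ (2 d)`. -/
theorem tdata_numbers (q : ℕ) (hq : 2 ≤ q) {β η t : ℝ} (hβ : 0 < β) (hη : 0 < η)
    (hβη : 3 * β ≤ η ^ 2 / 4) (ht : Real.exp (-t) ≤ η ^ 2 / 4) (d : ℕ) :
    ∀ᶠ j : ℕ in atTop, 0 < j ∧ (q : ℝ) ≤ β * (((q ^ j : ℕ) : ℝ) - 1) ∧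
      3 * β + (Real.exp (-t) + (Real.exp (-t) +
        ((q ^ j : ℕ) : ℝ) * (((q : ℝ) ^ 2 + 1) / ((q ^ (2 * j) : ℕ) : ℝ)))) ≤ η ^ 2 ∧
      ((q ^ j : ℕ) : ℝ) * ((q : ℝ) / ((q ^ (2 * j) : ℕ) : ℝ) ^ (2 * d)) ≤
        (q : ℝ) * (q : ℝ) ^ j / ((q : ℝ) ^ (2 * j)) ^ (2 * d) := by
  have h4 : 0 < η ^ 2 / 4 := by positivity
  filter_upwards [dead_terms q hq ((q : ℝ) ^ 2 + 1) (by positivity) h4,
    transfer_j q hq (const_le ((q : ℝ) / β + 1) (b := 1) one_pos), eventually_gt_atTop 0]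
    with j h1 h2 hj
  have a1 := (h1 (q ^ j) le_rfl).1
  refine ⟨hj, ?_, ?_, ?_⟩
  · rw [pow_one] at h2
    have h3 : (q : ℝ) / β ≤ ((q ^ j : ℕ) : ℝ) - 1 := by linarith
    rw [div_le_iff₀ hβ] at h3
    linarith
  · have e : (((q ^ (2 * j) : ℕ) : ℝ)) = (q : ℝ) ^ (2 * j) := by push_cast; rfl
    rw [e]
    linarith
  · push_cast
    refine le_of_eq ?_
    ring

end Crest.Agent.R042.ParamB766
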