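import Mathlib

/-!
Row 42, S0059, label level.  LEMMA TE (two-end rows), helper755.

`k` field, `M` finite-dimensional (space spanned by the tensors `b_Q`), labels of third types are
`u_Q = E(Q) ⊗ b_Q ∈ Fin L → M`, `E(Q) ∈ K^L`.  `Z` a subspace of `Fin L → M` (span of earlier rows).
`X Z b = {x | x ⊗ b ∈ Z}`.

* `dead_card`  : if every nonzero functional of `M` kills at most `B` of the points `b t`, and
  `dim Z < r * dim M`, then at most `B` points have `dim X ≥ r`  (one-end dead set).
* `coset_card` : a coset of an `r`-dimensional subspace of `k^L` has at most `|K|^r` points of `K^L`.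
* `one_end`, `two_end` : for a point with `dim X < r` few `E ∈ K^L` give `E ⊗ b ∈ Z + v`,
  resp. `E ⊗ b ∈ Z + k u`.
-/

set_option autoImplicit false

namespace Crest.Agent.R042.TwoEnd755

open Finset

variable {k M : Type*} [Field k] [AddCommGroup M] [Module k M] {L : ℕ}

/-- `x ⊗ b` -/
def ten (b : M) : (Fin L → k) →ₗ[k] (Fin L → M) where
  toFun x := fun i => x i • b
  map_add' x y := by funext i; simp [add_smul]
  map_smul' c x := by funext i; simp [mul_smul]

@[simp] theorem ten_apply (b : M) (x : Fin L → k) (i : Fin L) : ten b x i = x i • b := rfl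

/-- `X_b = {x | x ⊗ b ∈ Z}` -/
def X (Z : Submodule k (Fin L → M)) (b : M) : Submodule k (Fin L → k) := Z.comap (ten b)

theorem mem_X (Z : Submodule k (Fin L → M)) (b : M) (x : Fin L → k) :
    x ∈ X Z b ↔ ten b x ∈ Z := Iff.rfl

/-- (1) the one-end dead set is small. -/
theorem exists_basis_of_span {ι : Type*} [FiniteDimensional k M] (b : ι → M) (S : Set ι)
    (hS : Submodule.span k (b '' S) = ⊤) :
    ∃ c : Fin (Module.finrank k M) → ι, (∀ j, c j ∈ S) ∧ LinearIndependent k (fun j => b (c j)) := by
  classical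
  obtain ⟨t, ht, hspan, hli⟩ := exists_linearIndependent k (b '' S)
  have hspan' : Submodule.span k t = ⊤ := by rw [hspan, hS]
  let B : Module.Basis t k M := Module.Basis.mk hli (by
    rw [Subtype.range_coe, hspan'])
  have : Fintype t := (Module.Basis.fintypeIndexOfRankLtAleph0 B
    (Module.rank_lt_aleph0 k M))
  have hcard : Fintype.card t = Module.finrank k M := (Module.finrank_eq_card_basis B).symm
  let e : Fin (Module.finrank k M) ≃ t := (Fintype.equivFinOfCardEq hcard).symm
  have hch : ∀ x : t, ∃ i, i ∈ S ∧ b i = x := fun x => by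
    obtain ⟨i, hi, h⟩ := ht x.2
    exact ⟨i, hi, h⟩
  choose g hg1 hg2 using hch
  refine ⟨fun j => g (e j), fun j => hg1 _, ?_⟩
  have : (fun j => b (g (e j))) = (fun x : t => (x : M)) ∘ e := by
    funext j; simp [hg2]
  rw [this]
  exact hli.comp e e.injective

theorem sum_le_finrank [FiniteDimensional k M] (Z : Submodule k (Fin L → M)) {m : ℕ}
    (b : Fin m → M) (hli : LinearIndependent k b) :
    ∑ j, Module.finrank k (X Z (b j)) ≤ Module.finrank k Z := by
  classical
  -- the map ⊕ X_{b_j} → Z, (x_j) ↦ ∑ x_j ⊗ b_j is injective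
  let φ : ((j : Fin m) → X Z (b j)) →ₗ[k] Z :=
    LinearMap.codRestrict Z
      (∑ j, (ten (b j)) ∘ₗ (X Z (b j)).subtype ∘ₗ (LinearMap.proj j))
      (fun x => by
        rw [LinearMap.sum_apply]
        refine Submodule.sum_mem _ fun j _ => ?_
        exact (x j).2)
  have hφ : Function.Injective φ := by
    rw [← LinearMap.ker_eq_bot, LinearMap.ker_eq_bot']
    intro x hx
    have h1 : ∀ i : Fin L, ∑ j, ((x j : Fin L → k) i) • b j = 0 := by
      intro i
      have h2 := congrArg (fun z : Z => (z : Fin L → M) i) hx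
      simpa [φ, LinearMap.sum_apply, Finset.sum_apply] using h2
    funext j
    apply Subtype.ext
    funext i
    have := Fintype.linearIndependent_iff.1 hli (fun j => (x j : Fin L → k) i) (h1 i) j
    simpa using this
  have h3 := LinearMap.finrank_le_finrank_of_injective hφ
  rwa [Module.finrank_pi_fintype] at h3

theorem dead_card {ι : Type*} [FiniteDimensional k M] (Z : Submodule k (Fin L → M)) (r : ℕ)
    (hZ : Module.finrank k Z < r * Module.finrank k M) (b : ι → M) (T : Finset ι) (B : ℕ)
    [DecidablePred fun t => r ≤ Module.finrank k (X Z (b t))]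
    (hB : ∀ (ω : M →ₗ[k] k), ω ≠ 0 → ∀ S ⊆ T, (∀ t ∈ S, ω (b t) = 0) → S.card ≤ B) :
    (T.filter fun t => r ≤ Module.finrank k (X Z (b t))).card ≤ B := by
  classical
  by_contra hcon
  rw [not_le] at hcon
  set S := T.filter fun t => r ≤ Module.finrank k (X Z (b t)) with hS
  have hspan : Submodule.span k (b '' (S : Set ι)) = ⊤ := by
    by_contra hne
    obtain ⟨ω, hω, hker⟩ := Submodule.exists_le_ker_of_lt_top _ (lt_top_iff_ne_top.2 hne)
    have := hB ω hω S (Finset.filter_subset _ _) (fun t ht => by
      have : b t ∈ Submodule.span k (b '' (S : Set ι)) :=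
        Submodule.subset_span ⟨t, by exact_mod_cast ht, rfl⟩
      exact LinearMap.mem_ker.1 (hker this))
    omega
  obtain ⟨c, hc, hli⟩ := exists_basis_of_span b (S : Set ι) hspan
  have h1 := sum_le_finrank Z (fun j => b (c j)) hli
  have h2 : Module.finrank k M * r ≤ ∑ j : Fin (Module.finrank k M),
      Module.finrank k (X Z (b (c j))) := by
    calc Module.finrank k M * r = ∑ _j : Fin (Module.finrank k M), r := by simp
      _ ≤ _ := Finset.sum_le_sum fun j _ => by
        have := hc j
        rw [hS, Finset.mem_coe, Finset.mem_filter] at this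
        exact this.2
  rw [mul_comm] at h2
  omega

/-- (2) a coset of a subspace `Y` of `k^L` has at most `|K|^(dim Y)` points in `K^L`. -/
theorem coset_card [DecidableEq k] (Y : Submodule k (Fin L → k)) (K : Finset k) (c : Fin L → k)
    (A : Finset (Fin L → k)) (hA : ∀ E ∈ A, (∀ i, E i ∈ K) ∧ E - c ∈ Y) :
    A.card ≤ K.card ^ Module.finrank k Y := by
  classical
  -- coordinate functionals on `Y`
  let b : Fin L → Module.Dual k Y := fun i => (LinearMap.proj i).comp Y.subtype
  have hspan : Submodule.span k (b '' (Set.univ : Set (Fin L))) = ⊤ := by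
    by_contra hne
    obtain ⟨ω, hω, hker⟩ := Submodule.exists_le_ker_of_lt_top _ (lt_top_iff_ne_top.2 hne)
    -- ω is evaluation at some y
    obtain ⟨y, rfl⟩ := (Module.evalEquiv k Y).surjective ω
    have hy : y = 0 := by
      apply Subtype.ext
      funext i
      have h1 : b i ∈ LinearMap.ker (Module.evalEquiv k Y y) :=
        hker (Submodule.subset_span ⟨i, Set.mem_univ _, rfl⟩)
      simpa [b] using h1
    exact hω (by rw [hy]; simp)
  obtain ⟨e, -, hli⟩ := exists_basis_of_span b Set.univ hspan
  have htop : Submodule.span k (Set.range fun j => b (e j)) = ⊤ :=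
    hli.span_eq_top_of_card_eq_finrank' (by simp)
  have hinj : ∀ y : Y, (∀ j, (y : Fin L → k) (e j) = 0) → y = 0 := by
    intro y hy
    apply Subtype.ext
    funext i
    have h1 : b i ∈ Submodule.span k (Set.range fun j => b (e j)) := by rw [htop]; trivial
    have h2 : Submodule.span k (Set.range fun j => b (e j)) ≤
        LinearMap.ker (Module.evalEquiv k Y y) := by
      rw [Submodule.span_le]
      rintro _ ⟨j, rfl⟩
      simpa [b] using hy j
    simpa [b] using h2 h1
  have hdual : Module.finrank k (Module.Dual k Y) = Module.finrank k Y :=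
    Subspace.dual_finrank_eq
  rw [← hdual]
  have hcard : (Fintype.piFinset fun _ : Fin (Module.finrank k (Module.Dual k Y)) => K).card =
      K.card ^ Module.finrank k (Module.Dual k Y) := by simp
  rw [← hcard]
  refine Finset.card_le_card_of_injOn (fun E j => E (e j)) ?_ ?_
  · intro E hE
    exact Finset.mem_coe.2 (Fintype.mem_piFinset.2 fun j => (hA E hE).1 _)
  · intro E hE E' hE' h
    have hm : E - E' ∈ Y := by
      have := Y.sub_mem (hA E hE).2 (hA E' hE').2
      simpa using this
    have h0 := hinj ⟨E - E', hm⟩ (fun j => by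
      have := congrFun h j
      simp only at this
      simp [this])
    have : E - E' = 0 := congrArg Subtype.val h0
    exact sub_eq_zero.1 this

/-- (3a) one point: for a point `b` with `dim X_b < r`, few `E ∈ K^L` have `E ⊗ b ∈ Z + v`. -/
theorem one_end [DecidableEq k] (Z : Submodule k (Fin L → M)) (b : M) (r : ℕ)
    (hb : Module.finrank k (X Z b) < r) (K : Finset k) (hK : K.Nonempty) (v : Fin L → M)
    (A : Finset (Fin L → k)) (hA : ∀ E ∈ A, (∀ i, E i ∈ K) ∧ ten b E - v ∈ Z) :
    A.card ≤ K.card ^ (r - 1) := by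
  classical
  rcases A.eq_empty_or_nonempty with rfl | ⟨E₀, hE₀⟩
  · simp
  refine (coset_card (X Z b) K E₀ A fun E hE => ⟨(hA E hE).1, ?_⟩).trans
    (Nat.pow_le_pow_right hK.card_pos (by omega))
  rw [mem_X, map_sub]
  have := Z.sub_mem (hA E hE).2 (hA E₀ hE₀).2
  simpa using this

/-- (3b) two points: for every fixed row `u` few `E ∈ K^L` have `E ⊗ b ∈ Z + k u`. -/
theorem two_end [Fintype k] [DecidableEq k] (Z : Submodule k (Fin L → M)) (b : M) (r : ℕ)
    (hb : Module.finrank k (X Z b) < r) (K : Finset k) (hK : K.Nonempty) (u : Fin L → M)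
    (A : Finset (Fin L → k)) (hA : ∀ E ∈ A, (∀ i, E i ∈ K) ∧ ∃ a : k, ten b E - a • u ∈ Z) :
    A.card ≤ Fintype.card k * K.card ^ (r - 1) := by
  classical
  have h1 : A ⊆ Finset.univ.biUnion fun a : k => A.filter fun E => ten b E - a • u ∈ Z := by
    intro E hE
    obtain ⟨a, ha⟩ := (hA E hE).2
    exact Finset.mem_biUnion.2 ⟨a, Finset.mem_univ _, Finset.mem_filter.2 ⟨hE, ha⟩⟩
  refine (Finset.card_le_card h1).trans (Finset.card_biUnion_le.trans ?_)
  refine (Finset.sum_le_card_nsmul _ _ (K.card ^ (r - 1)) fun a _ => ?_).trans (by simp)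
  exact one_end Z b r hb K hK (a • u) _ fun E hE => by
    rw [Finset.mem_filter] at hE
    exact ⟨(hA E hE.1).1, hE.2⟩

/-- consequence for the span: both new rows are independent modulo `Z`. -/
theorem indep_of (Z : Submodule k (Fin L → M)) (u v : Fin L → M) (hu : u ∉ Z)
    (hv : ∀ a : k, v - a • u ∉ Z) (α β : k) (h : α • u + β • v ∈ Z) : α = 0 ∧ β = 0 := by
  have hβ : β = 0 := by
    by_contra hne
    apply hv (-(β⁻¹ * α))
    have := Z.smul_mem β⁻¹ h
    have h2 : v - (-(β⁻¹ * α)) • u = β⁻¹ • (α • u + β • v) := by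
      rw [smul_add, smul_smul, smul_smul, inv_mul_cancel₀ hne, one_smul, neg_smul, sub_neg_eq_add,
        add_comm]
    rwa [h2]
  refine ⟨?_, hβ⟩
  by_contra hne
  apply hu
  rw [hβ, zero_smul, add_zero] at h
  have := Z.smul_mem α⁻¹ h
  rwa [smul_smul, inv_mul_cancel₀ hne, one_smul] at this

end Crest.Agent.R042.TwoEnd755
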