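import Crest.Agent.R042.Inst_592
import Crest.Agent.R042.DigitSZ_853
import Crest.Agent.R042.Spec_730
import Crest.Agent.R042.TwoEnd_755

/-!
# Row 42 / S0059: Lemma TE for the frozen family

Dead sets of a subspace `Z` of the big space `U`: `TEdead`, `TEdead2`, and their densities.
-/

set_option autoImplicit false
set_option linter.unusedSectionVars false

namespace Crest.Agent.R042.TEInst755

open Finset Function

section Tensor

open Crest.Agent.R042.Spec730

variable {F ι : Type*} [Field F] [Fintype ι] [DecidableEq ι] {k : ℕ}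

/-- contraction of the block `i` with `φ` -/
def ctr (φ : (ι → F) →ₗ[F] F) (i : Fin k) (t : (Fin k → ι) → F) : (Fin k → ι) → F :=
  fun al => ∑ j, φ (Pi.single j 1) * t (Function.update al i j)

theorem op_eq_zero (A : Fin k → (ι → F) →ₗ[F] (ι → F)) (i0 : Fin k) (φ : (ι → F) →ₗ[F] F)
    (p : ι → F) (hA : ∀ x, A i0 x = φ x • p) (t : (Fin k → ι) → F) (ht : ctr φ i0 t = 0) :
    op A t = 0 := by
  classical
  funext al
  show ∑ be : Fin k → ι, (∏ i, A i (Pi.single (be i) 1) (al i)) * t be = 0
  rw [← Equiv.sum_comp (Equiv.funSplitAt i0 ι).symm, Fintype.sum_prod_type_right]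
  refine Finset.sum_eq_zero fun r _ => ?_
  -- a reference point of the fibre
  have hup : ∀ a a' : ι, (Equiv.funSplitAt i0 ι).symm (a, r) =
      Function.update ((Equiv.funSplitAt i0 ι).symm (a', r)) i0 a := by
    intro a a'
    funext i
    by_cases h : i = i0
    · subst h; simp [Equiv.funSplitAt, Equiv.piSplitAt]
    · rw [Function.update_of_ne h]; simp [Equiv.funSplitAt, Equiv.piSplitAt, h]
  rcases isEmpty_or_nonempty ι with hι | ⟨⟨a0⟩⟩
  · exact Fintype.sum_empty _
  set be0 := (Equiv.funSplitAt i0 ι).symm (a0, r) with hbe0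
  have h1 : ∀ a : ι, (∏ i, A i (Pi.single ((Equiv.funSplitAt i0 ι).symm (a, r) i) 1) (al i)) =
      φ (Pi.single a 1) * (p (al i0) *
        ∏ i ∈ univ.erase i0, A i (Pi.single (be0 i) 1) (al i)) := by
    intro a
    rw [hup a a0, ← mul_prod_erase univ _ (mem_univ i0), Function.update_self, hA]
    rw [Pi.smul_apply, smul_eq_mul, mul_assoc]
    congr 2
    refine prod_congr rfl fun i hi => ?_
    rw [Function.update_of_ne (ne_of_mem_erase hi)]
  have h2 : ∀ a : ι, (∏ i, A i (Pi.single ((Equiv.funSplitAt i0 ι).symm (a, r) i) 1) (al i)) *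
      t ((Equiv.funSplitAt i0 ι).symm (a, r)) =
      (p (al i0) * ∏ i ∈ univ.erase i0, A i (Pi.single (be0 i) 1) (al i)) *
        (φ (Pi.single a 1) * t (Function.update be0 i0 a)) := by
    intro a
    rw [h1 a, hup a a0]; ring
  rw [Finset.sum_congr rfl fun a _ => h2 a, ← Finset.mul_sum]
  have h3 := congrFun ht be0
  unfold ctr at h3
  rw [h3]; simp

/-- a tensor killed by the contractions with `φ i`, `ψ i` in all blocks is in the span of the pure
tensors of the common kernels. -/
theorem mem_span_pure (φ ψ : Fin k → (ι → F) →ₗ[F] F) (p p' : Fin k → ι → F)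
    (h1 : ∀ i, φ i (p i) = 1) (h2 : ∀ i, φ i (p' i) = 0) (h3 : ∀ i, ψ i (p i) = 0)
    (h4 : ∀ i, ψ i (p' i) = 1) (t : (Fin k → ι) → F) (ht : ∀ i, ctr (φ i) i t = 0)
    (ht' : ∀ i, ctr (ψ i) i t = 0) :
    t ∈ Submodule.span F {x | ∃ c : Fin k → ι → F, (∀ i, φ i (c i) = 0 ∧ ψ i (c i) = 0) ∧
      x = Spec730.pure c} := by
  classical
  let A : Fin 3 → Fin k → (ι → F) →ₗ[F] (ι → F) := fun c i =>
    if c = 0 then LinearMap.id - ((LinearMap.toSpanSingleton F _ (p i)).comp (φ i) +
      (LinearMap.toSpanSingleton F _ (p' i)).comp (ψ i))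
    else if c = 1 then (LinearMap.toSpanSingleton F _ (p i)).comp (φ i)
    else (LinearMap.toSpanSingleton F _ (p' i)).comp (ψ i)
  have hA : ∀ i, ∑ c, A c i = LinearMap.id := by
    intro i
    rw [Fin.sum_univ_three]
    simp only [A]
    simp
    abel
  have hs := sum_op (Fin 3) A hA t
  rw [← hs]
  refine Submodule.sum_mem _ fun χ _ => ?_
  by_cases hχ : ∀ i, χ i = 0
  · -- the projection
    have h5 : op (fun i => A (χ i) i) t =
        ∑ be : Fin k → ι, t be • Spec730.pure (fun i => A 0 i (Pi.single (be i) 1)) := by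
      funext al
      simp only [Finset.sum_apply, Pi.smul_apply, smul_eq_mul]
      show ∑ be : Fin k → ι, (∏ i, A (χ i) i (Pi.single (be i) 1) (al i)) * t be = _
      refine Finset.sum_congr rfl fun be _ => ?_
      rw [mul_comm]
      simp only [hχ]
      rfl
    rw [h5]
    refine Submodule.sum_mem _ fun be _ => Submodule.smul_mem _ _ (Submodule.subset_span ?_)
    refine ⟨_, fun i => ?_, rfl⟩
    have h6 : ∀ x, A 0 i x = x - (φ i x • p i + ψ i x • p' i) := by
      intro x
      simp [A]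
    rw [h6]
    constructor
    · rw [map_sub, map_add, map_smul, map_smul, h1, h2]; simp
    · rw [map_sub, map_add, map_smul, map_smul, h3, h4]; simp
  · push Not at hχ
    obtain ⟨i0, hi0⟩ := hχ
    have h7 : op (fun i => A (χ i) i) t = 0 := by
      by_cases h8 : χ i0 = 1
      · refine op_eq_zero _ i0 (φ i0) (p i0) (fun x => ?_) t (ht i0)
        simp [A, h8]
      · refine op_eq_zero _ i0 (ψ i0) (p' i0) (fun x => ?_) t (ht' i0)
        simp [A, h8, hi0]
    rw [h7]
    exact Submodule.zero_mem _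

/-- extension from an affine hyperplane to the whole kernel, blockwise. -/
theorem ext_pure (G : ((Fin k → ι) → F) →ₗ[F] F) (φ ψ : Fin k → (ι → F) →ₗ[F] F) (o : ι)
    (b0 : Fin k → ι → F) (hb0 : ∀ i, φ i (b0 i) = 0 ∧ ψ i (b0 i) = 0 ∧ b0 i o = 1)
    (hG : ∀ c : Fin k → ι → F, (∀ i, φ i (c i) = 0 ∧ ψ i (c i) = 0 ∧ c i o = 1) → G (Spec730.pure c) = 0)
    (c : Fin k → ι → F) (hc : ∀ i, φ i (c i) = 0 ∧ ψ i (c i) = 0) : G (Spec730.pure c) = 0 := by
  classical
  have hadd : ∀ (c : Fin k → ι → F) (i : Fin k) (x y : ι → F),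
      Spec730.pure (Function.update c i (x + y)) = Spec730.pure (Function.update c i x) + Spec730.pure (Function.update c i y) := by
    intro c i x y
    funext al
    simp only [Spec730.pure, Pi.add_apply]
    rw [← mul_prod_erase univ _ (mem_univ i), ← mul_prod_erase univ (fun i' => update c i x i' (al i')) (mem_univ i),
      ← mul_prod_erase univ (fun i' => update c i y i' (al i')) (mem_univ i)]
    simp only [update_self, Pi.add_apply]
    have e1 : ∀ z : ι → F, ∏ i' ∈ univ.erase i, update c i z i' (al i') = ∏ i' ∈ univ.erase i, c i' (al i') := by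
      intro z
      exact prod_congr rfl fun i' hi' => by rw [update_of_ne (ne_of_mem_erase hi')]
    rw [e1, e1, e1]; ring
  have hsmul : ∀ (c : Fin k → ι → F) (i : Fin k) (a : F) (x : ι → F),
      Spec730.pure (Function.update c i (a • x)) = a • Spec730.pure (Function.update c i x) := by
    intro c i a x
    funext al
    simp only [Spec730.pure, Pi.smul_apply, smul_eq_mul]
    rw [← mul_prod_erase univ _ (mem_univ i), ← mul_prod_erase univ (fun i' => update c i x i' (al i')) (mem_univ i)]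
    simp only [update_self, Pi.smul_apply, smul_eq_mul]
    have e1 : ∀ z : ι → F, ∏ i' ∈ univ.erase i, update c i z i' (al i') = ∏ i' ∈ univ.erase i, c i' (al i') := by
      intro z
      exact prod_congr rfl fun i' hi' => by rw [update_of_ne (ne_of_mem_erase hi')]
    rw [e1, e1]; ring
  have key : ∀ S : Finset (Fin k), ∀ c : Fin k → ι → F, (∀ i, φ i (c i) = 0 ∧ ψ i (c i) = 0) →
      (∀ i, i ∉ S → c i o = 1) → G (Spec730.pure c) = 0 := by
    intro S
    induction S using Finset.induction_on with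
    | empty =>
      intro c hc ho
      exact hG c fun i => ⟨(hc i).1, (hc i).2, ho i (notMem_empty i)⟩
    | insert i S hi ih =>
      intro c hc ho
      have hval : ∀ z : ι → F, φ i z = 0 → ψ i z = 0 → z o = 1 → G (Spec730.pure (update c i z)) = 0 := by
        intro z hz hz' hz1
        apply ih
        · intro i'
          by_cases h : i' = i
          · subst h; rw [update_self]; exact ⟨hz, hz'⟩
          · rw [update_of_ne h]; exact hc i'
        · intro i' hi'
          by_cases h : i' = i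
          · subst h; rw [update_self]; exact hz1
          · rw [update_of_ne h]; exact ho i' (by simp [h, hi'])
      have hcu : c = update c i (c i) := (update_eq_self i c).symm
      by_cases h0 : c i o = 0
      · have h1 : c i = (c i + b0 i) + (-1 : F) • b0 i := by
          funext j; simp
        rw [hcu, h1, hadd, hsmul, map_add, map_smul]
        rw [hval _ (by rw [map_add, (hc i).1, (hb0 i).1, add_zero])
          (by rw [map_add, (hc i).2, (hb0 i).2.1, add_zero])
          (by rw [Pi.add_apply, h0, (hb0 i).2.2, zero_add]),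
          hval _ (hb0 i).1 (hb0 i).2.1 (hb0 i).2.2]
        simp
      · have h1 : c i = (c i o) • ((c i o)⁻¹ • c i) := by
          rw [smul_smul, mul_inv_cancel₀ h0, one_smul]
        rw [hcu, h1, hsmul, map_smul]
        rw [hval _ (by rw [map_smul, (hc i).1, smul_zero]) (by rw [map_smul, (hc i).2, smul_zero])
          (by rw [Pi.smul_apply, smul_eq_mul, inv_mul_cancel₀ h0])]
        simp
  exact key univ c hc fun i hi => absurd (mem_univ i) hi

end Tensor

section Poly

open MvPolynomial Crest.Agent.R042.DigitSZ_853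

variable {V : Type*} [Fintype V] [DecidableEq V] {K : Type*} [Field K] {k : ℕ}

/-- block degrees at most `D` -/
def BD (D : Fin k → ℕ) (h : MvPolynomial (V × Fin k) K) : Prop :=
  ∀ m ∈ h.support, ∀ i, ∑ v, m (v, i) ≤ D i

theorem BD.add {D : Fin k → ℕ} {g h : MvPolynomial (V × Fin k) K} (hg : BD D g) (hh : BD D h) :
    BD D (g + h) := by
  classical
  intro m hm i
  rcases Finset.mem_union.1 (support_add hm) with h1 | h1
  · exact hg m h1 i
  · exact hh m h1 i

theorem BD.zero (D : Fin k → ℕ) : BD D (0 : MvPolynomial (V × Fin k) K) := by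
  intro m hm; simp at hm

theorem BD.sum {D : Fin k → ℕ} {α : Type*} (s : Finset α) (g : α → MvPolynomial (V × Fin k) K)
    (hg : ∀ a ∈ s, BD D (g a)) : BD D (∑ a ∈ s, g a) := by
  classical
  induction s using Finset.induction_on with
  | empty => rw [Finset.sum_empty]; exact BD.zero D
  | insert a s ha ih =>
    rw [Finset.sum_insert ha]
    exact (hg a (mem_insert_self _ _)).add (ih fun b hb => hg b (mem_insert_of_mem hb))

theorem BD.mul {D D' : Fin k → ℕ} {g h : MvPolynomial (V × Fin k) K} (hg : BD D g)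
    (hh : BD D' h) : BD (D + D') (g * h) := by
  classical
  intro m hm i
  obtain ⟨a, ha, b, hb, rfl⟩ := Finset.mem_add.1 (support_mul g h hm)
  have h1 := hg a ha i
  have h2 := hh b hb i
  have h3 : ∑ v, (a + b) (v, i) = ∑ v, a (v, i) + ∑ v, b (v, i) := by
    simp only [Finsupp.add_apply, sum_add_distrib]
  rw [h3, Pi.add_apply]
  omega

theorem BD.C (c : K) : BD (0 : Fin k → ℕ) (C c : MvPolynomial (V × Fin k) K) := by
  classical
  intro m hm i
  rw [support_C] at hm
  split_ifs at hm with h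
  · simp at hm
  · rw [mem_singleton] at hm
    subst hm; simp

theorem BD.mono {D D' : Fin k → ℕ} {g : MvPolynomial (V × Fin k) K} (hg : BD D g)
    (h : D ≤ D') : BD D' g := fun m hm i => (hg m hm i).trans (h i)

theorem BD.X (v : V) (i : Fin k) :
    BD (Pi.single i 1 : Fin k → ℕ) (X (v, i) : MvPolynomial (V × Fin k) K) := by
  classical
  intro m hm i'
  rw [support_X, mem_singleton] at hm
  subst hm
  by_cases h : i' = i
  · subst h
    rw [Pi.single_eq_same, Finset.sum_eq_single v]
    · simp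
    · intro b _ hb
      rw [Finsupp.single_apply, if_neg]
      intro h; exact hb (congrArg Prod.fst h).symm
    · intro h; exact absurd (mem_univ v) h
  · rw [Finset.sum_eq_zero]
    · exact Nat.zero_le _
    · intro v' _
      rw [Finsupp.single_apply, if_neg]
      intro h'; exact h (congrArg Prod.snd h').symm

theorem BD.prod (s : Finset (Fin k)) (g : Fin k → MvPolynomial (V × Fin k) K)
    (hg : ∀ i, BD (Pi.single i 1 : Fin k → ℕ) (g i)) :
    BD (fun i => if i ∈ s then 1 else 0) (∏ i ∈ s, g i) := by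
  classical
  induction s using Finset.induction_on with
  | empty =>
    rw [Finset.prod_empty, ← C_1]
    exact (BD.C 1).mono fun i => by simp
  | insert a s ha ih =>
    rw [Finset.prod_insert ha]
    refine ((hg a).mul ih).mono fun i => ?_
    rw [Pi.add_apply]
    by_cases h : i = a
    · subst h; simp [ha]
    · simp [h]

end Poly

section Zeros

open MvPolynomial Crest.Agent.R042.DigitSZ_853 Crest.Agent.R042.Fam543

variable {V : Type*} [Fintype V] [DecidableEq V] {KK : Type} [Field KK] [Fintype KK]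
  [DecidableEq KK] [CharP KK 2] {d kp : ℕ}

theorem functional_eq (G : U0 KK d kp →ₗ[KK] KK) (t : U0 KK d kp) :
    G t = ∑ al, G (Pi.single al 1) * t al := by
  classical
  have h : t = ∑ al, t al • (Pi.single al (1 : KK) : U0 KK d kp) := by
    funext y
    simp [Finset.sum_apply, Pi.single_apply]
  conv_lhs => rw [h]
  rw [map_sum]
  exact Finset.sum_congr rfl fun al _ => by rw [map_smul, smul_eq_mul, mul_comm]

/-- **digit Schwartz–Zippel for the Segre–Frobenius points of an affine subspace** -/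
theorem phi_zeros (e : ℕ) (he : 1 ≤ e) (hKK : Fintype.card KK = (2 ^ e) ^ kp)
    (G : U0 KK d kp →ₗ[KK] KK) (b0 : Ix d → KK) (c : V → Ix d → KK)
    (hne : ∃ y : V × Fin kp → KK, G (fun al => ∏ i, (b0 (al i) ^ ((2 ^ e) ^ (i : ℕ)) +
      ∑ v, y (v, i) * (c v (al i)) ^ ((2 ^ e) ^ (i : ℕ)))) ≠ 0) :
    (univ.filter fun x : V → KK => G (Phi (2 ^ e) fun j => b0 j + ∑ v, x v * c v j) = 0).card *
      (2 ^ e - 1) ≤ Fintype.card KK ^ Fintype.card V := by
  classical
  set H : MvPolynomial (V × Fin kp) KK := ∑ al : Fin kp → Ix d, C (G (Pi.single al 1)) *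
    ∏ i : Fin kp, (C (b0 (al i) ^ ((2 ^ e) ^ (i : ℕ))) +
      ∑ v, X (v, i) * C ((c v (al i)) ^ ((2 ^ e) ^ (i : ℕ)))) with hH
  have hev : ∀ y : V × Fin kp → KK, eval y H = G (fun al => ∏ i,
      (b0 (al i) ^ ((2 ^ e) ^ (i : ℕ)) +
        ∑ v, y (v, i) * (c v (al i)) ^ ((2 ^ e) ^ (i : ℕ)))) := by
    intro y
    rw [functional_eq G]
    simp [hH, map_sum, map_mul, map_prod]
  have hH0 : H ≠ 0 := by
    obtain ⟨y, hy⟩ := hne
    intro h
    apply hy
    rw [← hev, h, map_zero]
  have hdeg : BD (fun _ => 1) H := by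
    refine BD.sum _ _ fun al _ => ?_
    have h1 := (BD.C (V := V) (k := kp) (G (Pi.single al 1))).mul (BD.prod (V := V) univ
      (fun i : Fin kp => (MvPolynomial.C (b0 (al i) ^ ((2 ^ e) ^ (i : ℕ))) +
      ∑ v, MvPolynomial.X (v, i) * MvPolynomial.C ((c v (al i)) ^ ((2 ^ e) ^ (i : ℕ))))) (fun i => ?_))
    · refine h1.mono fun i => ?_
      simp
    · refine ((BD.C _).mono ?_).add (BD.sum _ _ fun v _ => ?_)
      · intro j; exact Nat.zero_le _
      · exact ((BD.X v i).mul (BD.C _)).mono (by rw [add_zero])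
  have hQ : 1 < 2 ^ e := Nat.one_lt_two_pow (by omega)
  have h2 := digit_sz (Q := 2 ^ e) (D := 1) hQ hKK H hH0 hdeg
  rw [one_mul] at h2
  refine le_trans (Nat.mul_le_mul_right _ (Finset.card_le_card ?_)) h2
  intro x hx
  rw [mem_filter] at hx ⊢
  refine ⟨mem_univ _, ?_⟩
  rw [hev, ← hx.2]
  congr 1
  funext al
  unfold Phi
  refine prod_congr rfl fun i _ => ?_
  have h3 : (2 ^ e) ^ (i : ℕ) = 2 ^ (e * i) := by rw [pow_mul]
  rw [h3, add_pow_char_pow, sum_pow_char_pow]
  congr 1
  exact sum_congr rfl fun v _ => by rw [mul_pow, ← h3]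

end Zeros

section Fam

open Crest.Agent.R042.Fam543 Crest.Agent.R042.Inst592 Crest.Agent.R042.Gen592

variable {k0 KK : Type} [Field k0] [Field KK] [Algebra k0 KK] [Fintype k0] [Fintype KK]
  [CharP KK 2]

/-- add the coordinate `none` -/
def ext {d : ℕ} (a : KK) (v : WW KK d) : Ix d → KK := fun o => o.elim a v

theorem ext_vv {K : Set k0} {d L : ℕ} (R : Om KK K d L) : ext 1 (vv R) = R.1.b := by
  funext o
  rcases o with _ | j
  · exact R.2.b0.symm
  · rfl

theorem B_ext {d : ℕ} (a a' : KK) (v v' : WW KK d) : B (ext a v) (ext a' v') = a * a' + om d v v' := by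
  rw [B_eq]; rfl

/-- the form of a block -/
noncomputable def phiB (Q : ℕ) {d : ℕ} (h : Ix d → KK) (i : ℕ) : (Ix d → KK) →ₗ[KK] KK :=
  ∑ j, ((h (sw j)) ^ (Q ^ i)) • LinearMap.proj j

theorem phiB_apply (Q : ℕ) {d : ℕ} (h : Ix d → KK) (i : ℕ) (x : Ix d → KK) :
    phiB Q h i x = ∑ j, (h (sw j)) ^ (Q ^ i) * x j := by
  simp [phiB, LinearMap.sum_apply]

theorem phiB_pow (e : ℕ) {d : ℕ} (h : Ix d → KK) (i : ℕ) (x : Ix d → KK) :
    phiB (2 ^ e) h i (fun j => x j ^ ((2 ^ e) ^ i)) = (B h x) ^ ((2 ^ e) ^ i) := by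
  rw [phiB_apply]
  unfold B
  rw [← pow_mul, sum_pow_char_pow]
  exact sum_congr rfl fun j _ => by rw [mul_pow]

theorem ctr_phiB (Q : ℕ) {d kp : ℕ} (h : Ix d → KK) (i : Fin kp) (t : U0 KK d kp) :
    ctr (phiB Q h i) i t = contr Q h i t := by
  classical
  funext al
  unfold ctr
  show _ = ∑ j, (h (sw j)) ^ (Q ^ (i : ℕ)) * t (Function.update al i j)
  refine sum_congr rfl fun j _ => ?_
  congr 1
  rw [phiB_apply, Finset.sum_eq_single j]
  · simp
  · intro j' _ hj'; rw [Pi.single_eq_of_ne hj', mul_zero]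
  · intro h; exact absurd (mem_univ j) h

/-- roots exist -/
theorem exists_root (e i : ℕ) (y : KK) : ∃ x : KK, x ^ ((2 ^ e) ^ i) = y := by
  have h1 : Function.Injective fun x : KK => x ^ ((2 ^ e) ^ i) := by
    intro x y h
    have h2 : (2 ^ e) ^ i = 2 ^ (e * i) := by rw [pow_mul]
    simp only [h2] at h
    have h3 : (x - y) ^ (2 ^ (e * i)) = 0 := by
      rw [sub_pow_char_pow, h, sub_self]
    exact sub_eq_zero.1 (pow_eq_zero_iff (pow_ne_zero _ two_ne_zero) |>.1 h3)
  exact (Finite.injective_iff_surjective.1 h1) y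

open scoped Classical in
theorem G_zeros (e : ℕ) (he : 1 ≤ e) {K : Set k0} {d kp L : ℕ}
    (hKK : Fintype.card KK = (2 ^ e) ^ kp) (P P' : Om KK K d L)
    (hli : LinearIndependent KK ![vv P, vv P']) (G : U0 KK d kp →ₗ[KK] KK)
    (hG : ∃ t ∈ T1 (2 ^ e) P.1.b ⊓ T1 (2 ^ e) P'.1.b, G t ≠ 0) :
    (univ.filter fun v : WW KK d => (om d (vv P) v = -1 ∧ om d (vv P') v = -1) ∧
      G (Phi (2 ^ e) (ext 1 v)) = 0).card * (2 ^ e - 1) ≤
      (univ.filter fun v : WW KK d => om d (vv P) v = -1 ∧ om d (vv P') v = -1).card := by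
  -- the two functionals
  have hli2 : LinearIndependent KK ![om d (vv P), om d (vv P')] := by
    have h := hli.map' (om d) (ker_om d)
    have h0 : (⇑(om d) ∘ ![vv P, vv P']) = ![om d (vv P), om d (vv P')] := by
      funext i
      fin_cases i <;> rfl
    rw [h0] at h
    exact h
  have hsurj := surj_of_indep _ hli2
  have hex : ∀ a b : KK, ∃ v : WW KK d, om d (vv P) v = a ∧ om d (vv P') v = b := by
    intro a b
    obtain ⟨v, hv⟩ := hsurj ![a, b]
    exact ⟨v, by simpa using congrFun hv 0, by simpa using congrFun hv 1⟩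
  obtain ⟨v0, hv0, hv0'⟩ := hex (-1) (-1)
  obtain ⟨w, hw, hw'⟩ := hex 1 0
  obtain ⟨w', hw1, hw1'⟩ := hex 0 1
  let W0 : Submodule KK (WW KK d) := LinearMap.ker (om d (vv P)) ⊓ LinearMap.ker (om d (vv P'))
  let be := Module.finBasis KK W0
  let c : Fin (Module.finrank KK W0) → Ix d → KK := fun v => ext 0 (be v : WW KK d)
  have hcn : ∀ v, c v none = 0 := fun v => rfl
  let pt : (Fin (Module.finrank KK W0) → KK) → WW KK d := fun x => v0 + ∑ v, x v • (be v : WW KK d)
  have hpt_aff : ∀ x, om d (vv P) (pt x) = -1 ∧ om d (vv P') (pt x) = -1 := by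
    intro x
    have h1 : ∀ v, om d (vv P) (be v : WW KK d) = 0 := fun v => (Submodule.mem_inf.1 (be v).2).1
    have h2 : ∀ v, om d (vv P') (be v : WW KK d) = 0 := fun v => (Submodule.mem_inf.1 (be v).2).2
    constructor
    · simp only [pt, map_add, map_sum, map_smul, h1, hv0, smul_zero, sum_const_zero, add_zero]
    · simp only [pt, map_add, map_sum, map_smul, h2, hv0', smul_zero, sum_const_zero, add_zero]
  have hpt_inj : Function.Injective pt := by
    intro x y hxy
    have h1 : ∑ v, x v • (be v : WW KK d) = ∑ v, y v • (be v : WW KK d) := add_left_cancel hxy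
    have h2 : ∑ v, x v • be v = ∑ v, y v • be v := by
      apply Subtype.ext
      simpa using h1
    have h3 := be.linearIndependent
    rw [Fintype.linearIndependent_iff] at h3
    funext v
    have h4 := h3 (fun v => x v - y v) (by simp only [sub_smul, sum_sub_distrib, h2, sub_self]) v
    exact sub_eq_zero.1 h4
  have hpt_surj : ∀ v, om d (vv P) v = -1 ∧ om d (vv P') v = -1 → ∃ x, pt x = v := by
    intro v hv
    have h1 : v - v0 ∈ W0 := by
      refine Submodule.mem_inf.2 ⟨?_, ?_⟩
      · rw [LinearMap.mem_ker, map_sub, hv.1, hv0, sub_self]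
      · rw [LinearMap.mem_ker, map_sub, hv.2, hv0', sub_self]
    refine ⟨fun j => be.repr ⟨v - v0, h1⟩ j, ?_⟩
    have h2 := be.sum_repr ⟨v - v0, h1⟩
    have h3 := congrArg (W0.subtype) h2
    have h4 : ∑ j, be.repr ⟨v - v0, h1⟩ j • (be j : WW KK d) = v - v0 := by
      rw [map_sum] at h3
      simp only [map_smul, Submodule.subtype_apply] at h3
      exact h3
    show v0 + _ = v
    rw [h4]; abel
  have hext : ∀ x, ext 1 (pt x) = fun j => ext 1 v0 j + ∑ v, x v * c v j := by
    intro x
    funext o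
    rcases o with _ | j
    · show (1 : KK) = 1 + ∑ v, x v * 0
      simp
    · show (v0 + ∑ v, x v • (be v : WW KK d)) j = v0 j + ∑ v, x v * (be v : WW KK d) j
      simp [Finset.sum_apply]
  have hne : ∃ y : Fin (Module.finrank KK W0) × Fin kp → KK, G (fun al => ∏ i,
      (ext 1 v0 (al i) ^ ((2 ^ e) ^ (i : ℕ)) +
        ∑ v, y (v, i) * (c v (al i)) ^ ((2 ^ e) ^ (i : ℕ)))) ≠ 0 := by
    by_contra hcon
    push Not at hcon
    obtain ⟨t, ht, hGt⟩ := hG
    apply hGt
    rw [Submodule.mem_inf, mem_T1, mem_T1] at ht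
    have hmem := mem_span_pure (fun i : Fin kp => phiB (2 ^ e) P.1.b i)
      (fun i : Fin kp => phiB (2 ^ e) P'.1.b i)
      (fun i j => (ext 0 w j) ^ ((2 ^ e) ^ (i : ℕ))) (fun i j => (ext 0 w' j) ^ ((2 ^ e) ^ (i : ℕ)))
      (fun i => by
        rw [phiB_pow, ← ext_vv P, B_ext, hw]; simp)
      (fun i => by
        rw [phiB_pow, ← ext_vv P, B_ext, hw1]; simp)
      (fun i => by
        rw [phiB_pow, ← ext_vv P', B_ext, hw']; simp)
      (fun i => by
        rw [phiB_pow, ← ext_vv P', B_ext, hw1']; simp)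
      t (fun i => by rw [ctr_phiB]; exact ht.1 i) (fun i => by rw [ctr_phiB]; exact ht.2 i)
    have hle : Submodule.span KK {x | ∃ c : Fin kp → Ix d → KK,
        (∀ i : Fin kp, phiB (2 ^ e) P.1.b i (c i) = 0 ∧ phiB (2 ^ e) P'.1.b i (c i) = 0) ∧
          x = Spec730.pure c} ≤ LinearMap.ker G := by
      rw [Submodule.span_le]
      rintro _ ⟨cc, hcc, rfl⟩
      show G _ = 0
      refine ext_pure G (fun i : Fin kp => phiB (2 ^ e) P.1.b i)
        (fun i : Fin kp => phiB (2 ^ e) P'.1.b i) none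
        (fun i j => (ext 1 v0 j) ^ ((2 ^ e) ^ (i : ℕ))) (fun i => ⟨?_, ?_, ?_⟩) ?_ cc hcc
      · rw [phiB_pow, ← ext_vv P, B_ext, hv0]; simp
      · rw [phiB_pow, ← ext_vv P', B_ext, hv0']; simp
      · exact one_pow _
      · intro c' hc'
        -- untwist
        have hroot : ∀ i : Fin kp, ∃ x : Fin (Module.finrank KK W0) → KK, ∀ j, c' i j =
            ext 1 v0 j ^ ((2 ^ e) ^ (i : ℕ)) +
              ∑ v, (x v) ^ ((2 ^ e) ^ (i : ℕ)) * (c v j) ^ ((2 ^ e) ^ (i : ℕ)) := by
          intro i
          obtain ⟨z, hz⟩ : ∃ z : Ix d → KK, ∀ j, z j ^ ((2 ^ e) ^ (i : ℕ)) = c' i j := by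
            choose z hz using fun j => exists_root e i (c' i j)
            exact ⟨z, hz⟩
          have hci : c' i = fun j => z j ^ ((2 ^ e) ^ (i : ℕ)) := by
            funext j; exact (hz j).symm
          have hpos : (2 ^ e) ^ (i : ℕ) ≠ 0 := pow_ne_zero _ (pow_ne_zero _ two_ne_zero)
          have hBP : B P.1.b z = 0 := by
            have h := (hc' i).1
            rw [hci, phiB_pow] at h
            exact (pow_eq_zero_iff hpos).1 h
          have hBP' : B P'.1.b z = 0 := by
            have h := (hc' i).2.1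
            rw [hci, phiB_pow] at h
            exact (pow_eq_zero_iff hpos).1 h
          have hz1 : z none = 1 := by
            have h := (hc' i).2.2
            rw [hci] at h
            obtain ⟨r, hr⟩ : ∃ r, (2 ^ e) ^ (i : ℕ) = 2 ^ r := ⟨e * i, by rw [pow_mul]⟩
            simp only [hr] at h
            have h3 : (z none - 1) ^ (2 ^ r) = 0 := by
              rw [sub_pow_char_pow, h, one_pow, sub_self]
            exact sub_eq_zero.1 (pow_eq_zero_iff (pow_ne_zero _ two_ne_zero) |>.1 h3)
          have hzext : z = ext 1 (fun j => z (some j)) := by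
            funext o
            rcases o with _ | j
            · exact hz1
            · rfl
          have haff : om d (vv P) (fun j => z (some j)) = -1 ∧
              om d (vv P') (fun j => z (some j)) = -1 := by
            rw [hzext, ← ext_vv P, B_ext] at hBP
            rw [hzext, ← ext_vv P', B_ext] at hBP'
            constructor
            · linear_combination hBP
            · linear_combination hBP'
          obtain ⟨x, hx⟩ := hpt_surj _ haff
          refine ⟨x, fun j => ?_⟩
          have h5 : z = fun j => ext 1 v0 j + ∑ v, x v * c v j := by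
            rw [← hext x, hx]; exact hzext
          rw [← hz j, h5]
          have h6 : (2 ^ e) ^ (i : ℕ) = 2 ^ (e * i) := by rw [pow_mul]
          rw [h6, add_pow_char_pow, sum_pow_char_pow]
          congr 1
          exact sum_congr rfl fun v _ => by rw [mul_pow]
        choose x hx using hroot
        have h7 := hcon fun z => (x z.2 z.1) ^ ((2 ^ e) ^ (z.2 : ℕ))
        have h8 : Spec730.pure c' = fun al => ∏ i : Fin kp, (ext 1 v0 (al i) ^ ((2 ^ e) ^ (i : ℕ)) +
            ∑ v, x i v ^ ((2 ^ e) ^ (i : ℕ)) * (c v (al i)) ^ ((2 ^ e) ^ (i : ℕ))) := by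
          funext al
          unfold Spec730.pure
          exact prod_congr rfl fun i _ => hx i (al i)
        rw [h8]
        exact h7
    exact hle hmem
  have hz := phi_zeros e he hKK G (ext 1 v0) c hne
  -- transport
  have hc1 : (univ.filter fun v : WW KK d => (om d (vv P) v = -1 ∧ om d (vv P') v = -1) ∧
      G (Phi (2 ^ e) (ext 1 v)) = 0).card = (univ.filter fun x : Fin (Module.finrank KK W0) → KK =>
        G (Phi (2 ^ e) fun j => ext 1 v0 j + ∑ v, x v * c v j) = 0).card := by
    symm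
    refine Finset.card_bij (fun x _ => pt x) ?_ ?_ ?_
    · intro x hx
      rw [mem_filter] at hx ⊢
      refine ⟨mem_univ _, hpt_aff x, ?_⟩
      rw [hext]; exact hx.2
    · intro x _ y _ h; exact hpt_inj h
    · intro v hv
      rw [mem_filter] at hv
      obtain ⟨x, rfl⟩ := hpt_surj v hv.2.1
      refine ⟨x, ?_, rfl⟩
      rw [mem_filter]
      refine ⟨mem_univ _, ?_⟩
      rw [← hext]; exact hv.2.2
  have hc2 : (univ.filter fun v : WW KK d => om d (vv P) v = -1 ∧ om d (vv P') v = -1).card =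
      Fintype.card KK ^ Fintype.card (Fin (Module.finrank KK W0)) := by
    rw [← Fintype.card_fun, ← Finset.card_univ]
    symm
    refine Finset.card_bij (fun x _ => pt x) ?_ ?_ ?_
    · intro x _
      rw [mem_filter]
      exact ⟨mem_univ _, hpt_aff x⟩
    · intro x _ y _ h; exact hpt_inj h
    · intro v hv
      rw [mem_filter] at hv
      obtain ⟨x, rfl⟩ := hpt_surj v hv.2
      exact ⟨x, mem_univ _, rfl⟩
  rw [hc1, hc2]
  exact hz

/-- `k0`-functionals of a `KK`-space are traces of `KK`-functionals. -/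
theorem exists_G {d kp : ℕ} (S : Submodule KK (U0 KK d kp)) (ω : S →ₗ[k0] k0) :
    ∃ G : U0 KK d kp →ₗ[KK] KK, ∀ t : S, ω t = Algebra.trace k0 KK (G t) := by
  classical
  have hnd := traceForm_nondegenerate k0 KK
  let D := LinearMap.BilinForm.toDual (Algebra.traceForm k0 KK) hnd
  have hD : ∀ x y : KK, D x y = Algebra.trace k0 KK (x * y) := fun x y => rfl
  let g : S → KK := fun t =>
    D.symm (ω.comp ((LinearMap.toSpanSingleton KK S t).restrictScalars k0))
  have hg : ∀ (t : S) (c : KK), Algebra.trace k0 KK (g t * c) = ω (c • t) := by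
    intro t c
    rw [← hD]
    show D (D.symm _) c = _
    rw [LinearEquiv.apply_symm_apply]
    rfl
  have hinj : ∀ x y : KK, (∀ c, Algebra.trace k0 KK (x * c) = Algebra.trace k0 KK (y * c)) →
      x = y := by
    intro x y h
    apply D.injective
    refine LinearMap.ext fun c => ?_
    rw [hD, hD]; exact h c
  let G0 : S →ₗ[KK] KK :=
    { toFun := g
      map_add' := by
        intro s t
        apply hinj
        intro c
        rw [hg, smul_add, map_add, add_mul, map_add, hg, hg]
      map_smul' := by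
        intro a t
        apply hinj
        intro c
        rw [hg, RingHom.id_apply, smul_eq_mul, smul_smul, ← hg]
        congr 1; ring }
  obtain ⟨G, hG⟩ := LinearMap.exists_extend G0
  refine ⟨G, fun t => ?_⟩
  have h1 : G (t : U0 KK d kp) = g t := by
    have := LinearMap.congr_fun hG t
    exact this
  rw [h1]
  have h2 := hg t 1
  rw [mul_one, one_smul] at h2
  exact h2.symm

open scoped Classical in
/-- the `lam`-part of a type kills a nonzero trace functional with density at most `1/|k0|`. -/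
theorem lam_count (g : KK) (hg : g ≠ 0) :
    (univ.filter fun l : {l : KK // Algebra.trace k0 KK l = 1} =>
      Algebra.trace k0 KK (g * l.1) = 0).card * Fintype.card k0 ≤
      Fintype.card {l : KK // Algebra.trace k0 KK l = 1} := by
  have hnd := traceForm_nondegenerate k0 KK
  have hinj : ∀ x : KK, (∀ c, Algebra.trace k0 KK (x * c) = 0) → x = 0 := by
    intro x h
    exact hnd.1 x h
  by_cases hk : ∃ mu : KK, Algebra.trace k0 KK mu = 0 ∧ Algebra.trace k0 KK (g * mu) = 1
  · obtain ⟨mu, h0, h1⟩ := hk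
    rw [← Finset.card_univ (α := k0), ← Finset.card_product, ← Finset.card_univ]
    refine Finset.card_le_card_of_injOn
      (fun z => ⟨z.1.1 + z.2 • mu, by rw [map_add, map_smul, h0, z.1.2, smul_zero, add_zero]⟩)
      (fun _ _ => mem_coe.2 (mem_univ _)) ?_
    rintro ⟨l, a⟩ hz ⟨l', a'⟩ hz' h
    rw [Finset.mem_coe, mem_product, mem_filter] at hz hz'
    have h2 : l.1 + a • mu = l'.1 + a' • mu := congrArg Subtype.val h
    have h3 := congrArg (fun x => Algebra.trace k0 KK (g * x)) h2
    simp only [mul_add, mul_smul_comm, map_add, map_smul, h1, hz.1.2, hz'.1.2] at h3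
    have h4 : a = a' := by simpa using h3
    subst h4
    have h5 : l = l' := Subtype.ext (add_right_cancel h2)
    rw [h5]
  · -- then `g` is a nonzero constant and the set is empty
    push Not at hk
    have hk' : ∀ mu : KK, Algebra.trace k0 KK mu = 0 → Algebra.trace k0 KK (g * mu) = 0 := by
      intro mu hmu
      by_contra hne
      apply hk ((Algebra.trace k0 KK (g * mu))⁻¹ • mu)
      · rw [map_smul, hmu, smul_zero]
      · rw [mul_smul_comm, map_smul, smul_eq_mul, inv_mul_cancel₀ hne]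
    obtain ⟨l1, hl1⟩ := Algebra.trace_surjective k0 KK 1
    set a := Algebra.trace k0 KK (g * l1) with ha
    have hga : g = algebraMap k0 KK a := by
      rw [← sub_eq_zero]
      apply hinj
      intro x
      have h1 : Algebra.trace k0 KK (g * (x - Algebra.trace k0 KK x • l1)) = 0 := by
        apply hk'
        rw [map_sub, map_smul, hl1, smul_eq_mul, mul_one, sub_self]
      rw [mul_sub, map_sub, mul_smul_comm, map_smul, ← ha, smul_eq_mul] at h1
      rw [sub_mul, map_sub, ← Algebra.smul_def, map_smul, smul_eq_mul, mul_comm a]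
      exact h1
    have ha0 : a ≠ 0 := by
      intro h
      rw [h, map_zero] at hga
      exact hg hga
    rw [Finset.filter_eq_empty_iff.2, Finset.card_empty, zero_mul]
    · exact Nat.zero_le _
    · intro l _
      rw [hga, ← Algebra.smul_def, map_smul, l.2, smul_eq_mul, mul_one]
      exact ha0

open scoped Classical in
/-- counting in a product -/
theorem count_prod {α β : Type*} [Fintype α] [Fintype β] (p : α → Prop) (A : α → β → Prop)
    [DecidablePred p] [∀ a, DecidablePred (A a)] (x y : ℕ) (h : ∀ a, p a → (univ.filter fun b => A a b).card * x ≤ y * Fintype.card β) :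
    (univ.filter fun z : α × β => p z.1 ∧ A z.1 z.2).card * x ≤
      y * (univ.filter fun z : α × β => p z.1).card := by
  have h1 : (univ.filter fun z : α × β => p z.1 ∧ A z.1 z.2).card =
      ∑ a ∈ univ.filter p, (univ.filter fun b => A a b).card := by
    rw [Finset.card_eq_sum_card_fiberwise (f := Prod.fst) (t := univ.filter p)
      (fun z hz => by
        rw [Finset.mem_coe, mem_filter] at *
        exact ⟨mem_univ _, hz.2.1⟩)]
    refine sum_congr rfl fun a ha => ?_
    rw [mem_filter] at ha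
    refine Finset.card_bij (fun z _ => z.2) ?_ ?_ ?_
    · intro z hz
      simp only [mem_filter, mem_univ, true_and] at hz ⊢
      rw [← hz.2]; exact hz.1.2
    · intro z hz z' hz' hh
      simp only [mem_filter, mem_univ, true_and] at hz hz'
      exact Prod.ext (hz.2.trans hz'.2.symm) hh
    · intro b hb
      simp only [mem_filter, mem_univ, true_and] at hb
      exact ⟨(a, b), by simp only [mem_filter, mem_univ, true_and]; exact ⟨⟨ha.2, hb⟩, trivial⟩, rfl⟩
  have h2 : (univ.filter fun z : α × β => p z.1).card =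
      ∑ a ∈ univ.filter p, Fintype.card β := by
    rw [sum_const, smul_eq_mul, ← Finset.card_univ (α := β), ← Finset.card_product]
    congr 1
    ext z; simp
  rw [h1, h2, Finset.sum_mul, Finset.mul_sum]
  refine sum_le_sum fun a ha => h a (mem_filter.1 ha).2

open scoped Classical in
/-- counting in the sample space -/
theorem card_om {K : Set k0} {d L : ℕ} (pr : WW KK d × Zz KK K L → Prop) [DecidablePred pr] :
    (univ.filter fun R : Om KK K d L => pr (omEquiv K d L R)).card = (univ.filter pr).card := by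
  refine Finset.card_bij (fun R _ => omEquiv K d L R) ?_ ?_ ?_
  · intro R hR
    simp only [mem_filter, mem_univ, true_and] at hR ⊢
    exact hR
  · intro R _ R' _ h
    exact (omEquiv K d L).injective h
  · intro z hz
    simp only [mem_filter, mem_univ, true_and] at hz
    refine ⟨(omEquiv K d L).symm z, ?_, Equiv.apply_symm_apply _ _⟩
    simp only [mem_filter, mem_univ, true_and]
    rw [Equiv.apply_symm_apply]; exact hz

/-- the one-point dead set of a subspace `Z` -/
def TEdead (Q kp : ℕ) {d L : ℕ} (Z : Submodule k0 (U KK d kp L)) (th : ℕ)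
    (R : Ty k0 KK d L) : Prop :=
  th ≤ Module.finrank k0 (TwoEnd755.X Z (R.lam • (Phi Q R.b : U0 KK d kp))) ∨ uvec Q kp R ∈ Z

/-- the two-point dead set of a subspace `Z` -/
def TEdead2 (Q kp : ℕ) {d L : ℕ} (Z : Submodule k0 (U KK d kp L)) (th : ℕ)
    (R R' : Ty k0 KK d L) : Prop :=
  ¬ TEdead Q kp Z th R' ∧ ∃ a : k0, uvec Q kp R' - a • uvec Q kp R ∈ Z

theorem ten_eq {Q kp d L : ℕ} (R : Ty k0 KK d L) :
    TwoEnd755.ten (R.lam • (Phi Q R.b : U0 KK d kp)) R.E = uvec Q kp R := by
  funext l
  rw [TwoEnd755.ten_apply]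
  unfold uvec
  rw [mul_smul, algebraMap_smul]

/-- outside the dead sets the two rows are independent modulo `Z` -/
theorem out {Q kp d L : ℕ} {Z : Submodule k0 (U KK d kp L)} {th : ℕ} {R R' : Ty k0 KK d L}
    (hR : ¬ TEdead Q kp Z th R) (hR' : ¬ TEdead Q kp Z th R')
    (hRR' : ¬ TEdead2 Q kp Z th R R') :
    uvec Q kp R ∉ Z ∧ ∀ a : k0, uvec Q kp R' - a • uvec Q kp R ∉ Z := by
  refine ⟨fun h => hR (Or.inr h), fun a h => hRR' ⟨hR', a, h⟩⟩

theorem out_indep {Q kp d L : ℕ} {Z : Submodule k0 (U KK d kp L)} {th : ℕ} {R R' : Ty k0 KK d L}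
    (hR : ¬ TEdead Q kp Z th R) (hR' : ¬ TEdead Q kp Z th R')
    (hRR' : ¬ TEdead2 Q kp Z th R R') (α β : k0)
    (h : α • uvec Q kp R + β • uvec Q kp R' ∈ Z) : α = 0 ∧ β = 0 :=
  TwoEnd755.indep_of Z _ _ (out hR hR' hRR').1 (out hR hR' hRR').2 α β h

open scoped Classical in
/-- **the dead `(b, lam)`-parts**: `Z` with `dim (Z ⊓ U_{P,P'}) < th * dim (T_P ⊓ T_{P'})`. -/
theorem dead_count (e : ℕ) (he : 1 ≤ e) {K : Set k0} {d kp L : ℕ}
    (hKK : Fintype.card KK = (2 ^ e) ^ kp) (P P' : Om KK K d L)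
    (hli : LinearIndependent KK ![vv P, vv P']) (Z : Submodule k0 (U KK d kp L)) (th : ℕ)
    (hZ : Module.finrank k0 ↥(Z ⊓ UPQ (2 ^ e) kp P.1 P'.1) <
      th * Module.finrank k0 ↥(T1 (KK := KK) (kp := kp) (2 ^ e) P.1.b ⊓ T1 (2 ^ e) P'.1.b)) :
    (univ.filter fun R : Om KK K d L => (Perp P.1 R.1 ∧ Perp P'.1 R.1) ∧
      th ≤ Module.finrank k0 (TwoEnd755.X Z (R.1.lam • (Phi (2 ^ e) R.1.b : U0 KK d kp)))).card *
        (Fintype.card k0 * (2 ^ e - 1)) ≤
      (Fintype.card k0 + (2 ^ e - 1)) *
        (univ.filter fun R : Om KK K d L => Perp P.1 R.1 ∧ Perp P'.1 R.1).card := by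
  set MM : Submodule KK (U0 KK d kp) := T1 (2 ^ e) P.1.b ⊓ T1 (2 ^ e) P'.1.b with hMM
  set T : Finset (Om KK K d L) := univ.filter fun R => Perp P.1 R.1 ∧ Perp P'.1 R.1 with hT
  -- the points in `MM`
  let b : Om KK K d L → MM := fun R =>
    if h : R.1.lam • (Phi (2 ^ e) R.1.b : U0 KK d kp) ∈ MM then ⟨_, h⟩ else 0
  have hb : ∀ R ∈ T, (b R : U0 KK d kp) = R.1.lam • (Phi (2 ^ e) R.1.b : U0 KK d kp) := by
    intro R hR
    rw [hT, mem_filter] at hR
    have h : R.1.lam • (Phi (2 ^ e) R.1.b : U0 KK d kp) ∈ MM :=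
      Submodule.smul_mem _ _ (Submodule.mem_inf.2 ⟨Phi_mem_T1 e hR.2.1, Phi_mem_T1 e hR.2.2⟩)
    simp only [b, dif_pos h]
  -- the inclusion
  let incl : (Fin L → MM) →ₗ[k0] U KK d kp L :=
    LinearMap.pi fun l => (MM.subtype.restrictScalars k0).comp (LinearMap.proj l)
  have hincl : ∀ x l, incl x l = (x l : U0 KK d kp) := fun x l => rfl
  have hincl_inj : Function.Injective incl := by
    intro x y h
    funext l
    apply Subtype.ext
    rw [← hincl, ← hincl, h]
  let Z' : Submodule k0 (Fin L → MM) := Z.comap incl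
  have hZ' : Module.finrank k0 Z' ≤ Module.finrank k0 ↥(Z ⊓ UPQ (2 ^ e) kp P.1 P'.1) := by
    let f : Z' →ₗ[k0] ↥(Z ⊓ UPQ (2 ^ e) kp P.1 P'.1) :=
      LinearMap.codRestrict _ (incl.comp Z'.subtype) (fun x => by
        refine Submodule.mem_inf.2 ⟨x.2, Submodule.mem_inf.2 ⟨fun l => ?_, fun l => ?_⟩⟩
        · exact (Submodule.mem_inf.1 ((x : Fin L → MM) l).2).1
        · exact (Submodule.mem_inf.1 ((x : Fin L → MM) l).2).2)
    refine LinearMap.finrank_le_finrank_of_injective (f := f) ?_
    intro x y h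
    apply Subtype.ext
    apply hincl_inj
    exact congrArg Subtype.val h
  have hX : ∀ R ∈ T, TwoEnd755.X Z' (b R) =
      TwoEnd755.X Z (R.1.lam • (Phi (2 ^ e) R.1.b : U0 KK d kp)) := by
    intro R hR
    ext x
    rw [TwoEnd755.mem_X, TwoEnd755.mem_X]
    show incl _ ∈ Z ↔ _
    have h : incl (TwoEnd755.ten (b R) x) =
        TwoEnd755.ten (R.1.lam • (Phi (2 ^ e) R.1.b : U0 KK d kp)) x := by
      funext l
      rw [hincl, TwoEnd755.ten_apply, TwoEnd755.ten_apply]
      show x l • (b R : U0 KK d kp) = _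
      rw [hb R hR]
    rw [h]
  set q := Fintype.card k0 with hq
  have hq0 : 0 < q := Fintype.card_pos
  have hQ : 1 < 2 ^ e := Nat.one_lt_two_pow (by omega)
  have hQ1 : 0 < 2 ^ e - 1 := by omega
  have hpos : 0 < q * (2 ^ e - 1) := Nat.mul_pos hq0 hQ1
  -- the two counts
  have hmain : ∀ (ω : MM →ₗ[k0] k0), ω ≠ 0 → ∀ S ⊆ T, (∀ R ∈ S, ω (b R) = 0) →
      S.card ≤ ((q + (2 ^ e - 1)) * T.card) / (q * (2 ^ e - 1)) := by
    intro ω hω S hST hS
    rw [Nat.le_div_iff_mul_le hpos]
    obtain ⟨G, hG⟩ := exists_G MM ω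
    have hG0 : ∃ t ∈ MM, G t ≠ 0 := by
      by_contra hcon
      push Not at hcon
      apply hω
      refine LinearMap.ext fun t => ?_
      rw [hG, hcon t t.2, map_zero]; rfl
    have hz := G_zeros e he hKK P P' hli G hG0
    set S1 := T.filter fun R => G (Phi (2 ^ e) R.1.b) = 0 with hS1
    set S2 := T.filter fun R => G (Phi (2 ^ e) R.1.b) ≠ 0 ∧
      Algebra.trace k0 KK (G (Phi (2 ^ e) R.1.b) * R.1.lam) = 0 with hS2
    have hsub : S ⊆ S1 ∪ S2 := by
      intro R hR
      have hRT := hST hR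
      have h1 := hS R hR
      rw [hG, hb R hRT, map_smul, smul_eq_mul, mul_comm] at h1
      by_cases h0 : G (Phi (2 ^ e) R.1.b) = 0
      · exact mem_union_left _ (mem_filter.2 ⟨hRT, h0⟩)
      · exact mem_union_right _ (mem_filter.2 ⟨hRT, h0, h1⟩)
    -- first count
    have hc1 : S1.card * (2 ^ e - 1) ≤ T.card := by
      have e1 : S1.card = (univ.filter fun z : WW KK d × Zz KK K L =>
          (om d (vv P) z.1 = -1 ∧ om d (vv P') z.1 = -1) ∧
            G (Phi (2 ^ e) (ext 1 z.1)) = 0).card := by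
        rw [← card_om]
        congr 1
        ext R
        rw [hS1, hT, filter_filter]
        simp only [mem_filter, mem_univ, true_and]
        rw [perp_iff, perp_iff]
        show _ ↔ (om d (vv P) (vv R) = -1 ∧ om d (vv P') (vv R) = -1) ∧
            G (Phi (2 ^ e) (ext 1 (vv R))) = 0
        rw [ext_vv]
      have e2 : T.card = (univ.filter fun z : WW KK d × Zz KK K L =>
          (om d (vv P) z.1 = -1 ∧ om d (vv P') z.1 = -1)).card := by
        rw [← card_om]
        congr 1
        ext R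
        rw [hT]
        simp only [mem_filter, mem_univ, true_and]
        rw [perp_iff, perp_iff]
        exact Iff.rfl
      have e3 : ∀ (p : WW KK d → Prop) [DecidablePred p],
          (univ.filter fun z : WW KK d × Zz KK K L => p z.1).card =
          (univ.filter p).card * Fintype.card (Zz KK K L) := by
        intro p _
        rw [← Finset.card_univ, ← Finset.card_product]
        congr 1
        ext z; simp
      rw [e1, e2, e3 (fun v => (om d (vv P) v = -1 ∧ om d (vv P') v = -1) ∧
            G (Phi (2 ^ e) (ext 1 v)) = 0), e3 (fun v => om d (vv P) v = -1 ∧ om d (vv P') v = -1)]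
      calc _ = ((univ.filter fun v : WW KK d => (om d (vv P) v = -1 ∧ om d (vv P') v = -1) ∧
            G (Phi (2 ^ e) (ext 1 v)) = 0).card * (2 ^ e - 1)) * Fintype.card (Zz KK K L) := by ring
        _ ≤ _ := Nat.mul_le_mul_right _ hz
    -- second count
    have hc2 : S2.card * q ≤ T.card := by
      have e1 : S2.card = (univ.filter fun z : WW KK d × Zz KK K L =>
          (om d (vv P) z.1 = -1 ∧ om d (vv P') z.1 = -1) ∧
            (G (Phi (2 ^ e) (ext 1 z.1)) ≠ 0 ∧
              Algebra.trace k0 KK (G (Phi (2 ^ e) (ext 1 z.1)) * z.2.1.1) = 0)).card := by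
        rw [← card_om]
        congr 1
        ext R
        rw [hS2, hT, filter_filter]
        simp only [mem_filter, mem_univ, true_and]
        rw [perp_iff, perp_iff]
        show _ ↔ (om d (vv P) (vv R) = -1 ∧ om d (vv P') (vv R) = -1) ∧
            (G (Phi (2 ^ e) (ext 1 (vv R))) ≠ 0 ∧
              Algebra.trace k0 KK (G (Phi (2 ^ e) (ext 1 (vv R))) * R.1.lam) = 0)
        rw [ext_vv]
      have e2 : T.card = (univ.filter fun z : WW KK d × Zz KK K L =>
          (om d (vv P) z.1 = -1 ∧ om d (vv P') z.1 = -1)).card := by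
        rw [← card_om]
        congr 1
        ext R
        rw [hT]
        simp only [mem_filter, mem_univ, true_and]
        rw [perp_iff, perp_iff]
        exact Iff.rfl
      rw [e1, e2]
      have h5 := count_prod (α := WW KK d) (β := Zz KK K L)
        (fun v => om d (vv P) v = -1 ∧ om d (vv P') v = -1)
        (fun v z => G (Phi (2 ^ e) (ext 1 v)) ≠ 0 ∧
              Algebra.trace k0 KK (G (Phi (2 ^ e) (ext 1 v)) * z.1.1) = 0) q 1 (by
          intro v _
          rw [one_mul]
          by_cases h0 : G (Phi (2 ^ e) (ext 1 v)) = 0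
          · rw [Finset.filter_eq_empty_iff.2]
            · simp
            · intro z _ h; exact h.1 h0
          · have h6 : (univ.filter fun z : Zz KK K L => G (Phi (2 ^ e) (ext 1 v)) ≠ 0 ∧
              Algebra.trace k0 KK (G (Phi (2 ^ e) (ext 1 v)) * z.1.1) = 0).card =
                (univ.filter fun l : {l : KK // Algebra.trace k0 KK l = 1} =>
                  Algebra.trace k0 KK (G (Phi (2 ^ e) (ext 1 v)) * l.1) = 0).card *
                  Fintype.card (Fin L → K) := by
              rw [← Finset.card_univ (α := Fin L → K), ← Finset.card_product]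
              congr 1
              ext z; simp [h0]
            rw [h6, Fintype.card_prod]
            have h7 := lam_count (k0 := k0) (G (Phi (2 ^ e) (ext 1 v))) h0
            calc _ = ((univ.filter fun l : {l : KK // Algebra.trace k0 KK l = 1} =>
                  Algebra.trace k0 KK (G (Phi (2 ^ e) (ext 1 v)) * l.1) = 0).card * q) *
                  Fintype.card (Fin L → K) := by ring
              _ ≤ _ := Nat.mul_le_mul_right _ h7)
      rw [one_mul] at h5
      exact h5
    have h8 : S.card ≤ S1.card + S2.card := (card_le_card hsub).trans (card_union_le _ _)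
    calc S.card * (q * (2 ^ e - 1)) ≤ (S1.card + S2.card) * (q * (2 ^ e - 1)) :=
          Nat.mul_le_mul_right _ h8
      _ = q * (S1.card * (2 ^ e - 1)) + (2 ^ e - 1) * (S2.card * q) := by ring
      _ ≤ q * T.card + (2 ^ e - 1) * T.card :=
          Nat.add_le_add (Nat.mul_le_mul_left _ hc1) (Nat.mul_le_mul_left _ hc2)
      _ = _ := by ring
  have hd := TwoEnd755.dead_card Z' th (hZ'.trans_lt hZ) b T _ hmain
  have hset : (univ.filter fun R : Om KK K d L => (Perp P.1 R.1 ∧ Perp P'.1 R.1) ∧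
      th ≤ Module.finrank k0 (TwoEnd755.X Z (R.1.lam • (Phi (2 ^ e) R.1.b : U0 KK d kp)))) =
      T.filter fun R => th ≤ Module.finrank k0 (TwoEnd755.X Z' (b R)) := by
    ext R
    rw [hT, filter_filter]
    simp only [mem_filter, mem_univ, true_and]
    constructor
    · rintro ⟨h1, h2⟩
      refine ⟨h1, ?_⟩
      rw [hX R (by rw [hT, mem_filter]; exact ⟨mem_univ _, h1⟩)]; exact h2
    · rintro ⟨h1, h2⟩
      refine ⟨h1, ?_⟩
      rw [hX R (by rw [hT, mem_filter]; exact ⟨mem_univ _, h1⟩)] at h2; exact h2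
  rw [hset]
  exact (Nat.le_div_iff_mul_le hpos).1 hd

/-- the fibres of the `E`-part -/
theorem count_om_E {K : Set k0} {d L : ℕ} (p : WW KK d → Prop) (A : Om KK K d L → Prop)
    [DecidablePred p] [DecidablePred A] [Fintype K] (c : ℕ)
    (h : ∀ (v : WW KK d) (l : {l : KK // Algebra.trace k0 KK l = 1}), p v →
      (univ.filter fun E : Fin L → K => A ((omEquiv K d L).symm (v, l, E))).card ≤ c) :
    (univ.filter fun R : Om KK K d L => p (vv R) ∧ A R).card * Fintype.card K ^ L ≤
      c * (univ.filter fun R : Om KK K d L => p (vv R)).card := by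
  classical
  let eqv : Om KK K d L ≃ (WW KK d × {l : KK // Algebra.trace k0 KK l = 1}) × (Fin L → K) :=
    (omEquiv K d L).trans (Equiv.prodAssoc _ _ _).symm
  have h1 := count_prod (α := WW KK d × {l : KK // Algebra.trace k0 KK l = 1})
    (β := Fin L → K) (fun a => p a.1) (fun a E => A (eqv.symm (a, E)))
    (Fintype.card K ^ L) c (by
      intro a ha
      rw [Fintype.card_fun, Fintype.card_fin]
      exact Nat.mul_le_mul_right _ (h a.1 a.2 ha))
  have e1 : (univ.filter fun R : Om KK K d L => p (vv R) ∧ A R).card =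
      (univ.filter fun z : (WW KK d × {l : KK // Algebra.trace k0 KK l = 1}) × (Fin L → K) =>
        p z.1.1 ∧ A (eqv.symm (z.1, z.2))).card := by
    refine Finset.card_bij (fun R _ => eqv R) ?_ ?_ ?_
    · intro R hR
      simp only [mem_filter, mem_univ, true_and] at hR ⊢
      refine ⟨hR.1, ?_⟩
      rw [Prod.mk.eta, Equiv.symm_apply_apply]; exact hR.2
    · intro R _ R' _ h; exact eqv.injective h
    · intro z hz
      simp only [mem_filter, mem_univ, true_and] at hz
      refine ⟨eqv.symm z, ?_, eqv.apply_symm_apply z⟩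
      simp only [mem_filter, mem_univ, true_and]
      exact hz
  have e2 : (univ.filter fun R : Om KK K d L => p (vv R)).card =
      (univ.filter fun z : (WW KK d × {l : KK // Algebra.trace k0 KK l = 1}) × (Fin L → K) =>
        p z.1.1).card := by
    refine Finset.card_bij (fun R _ => eqv R) ?_ ?_ ?_
    · intro R hR
      simp only [mem_filter, mem_univ, true_and] at hR ⊢
      exact hR
    · intro R _ R' _ h; exact eqv.injective h
    · intro z hz
      simp only [mem_filter, mem_univ, true_and] at hz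
      refine ⟨eqv.symm z, ?_, eqv.apply_symm_apply z⟩
      simp only [mem_filter, mem_univ, true_and]
      exact hz
  rw [e1, e2]
  exact h1

theorem symm_b {K : Set k0} {d L : ℕ} (v : WW KK d) (l : {l : KK // Algebra.trace k0 KK l = 1})
    (E : Fin L → K) : ((omEquiv K d L).symm (v, l, E)).1.b = ext 1 v := rfl

theorem symm_lam {K : Set k0} {d L : ℕ} (v : WW KK d) (l : {l : KK // Algebra.trace k0 KK l = 1})
    (E : Fin L → K) : ((omEquiv K d L).symm (v, l, E)).1.lam = l.1 := rfl

theorem symm_E {K : Set k0} {d L : ℕ} (v : WW KK d) (l : {l : KK // Algebra.trace k0 KK l = 1})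
    (E : Fin L → K) : ((omEquiv K d L).symm (v, l, E)).1.E = fun i => (E i).1 := rfl

open scoped Classical in
/-- the `E`-parts of a fixed `(b, lam)` hitting `Z + k0 w` -/
theorem fibre_E {K : Set k0} (h1 : (1 : k0) ∈ K) {Q kp d L : ℕ} (Z : Submodule k0 (U KK d kp L))
    (th : ℕ) (w : U KK d kp L) (v : WW KK d) (l : {l : KK // Algebra.trace k0 KK l = 1}) :
    (univ.filter fun E : Fin L → K =>
      Module.finrank k0 (TwoEnd755.X Z (((omEquiv K d L).symm (v, l, E)).1.lam •
        (Phi Q ((omEquiv K d L).symm (v, l, E)).1.b : U0 KK d kp))) < th ∧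
      ∃ a : k0, uvec Q kp ((omEquiv K d L).symm (v, l, E)).1 - a • w ∈ Z).card ≤
      Fintype.card k0 * Fintype.card K ^ (th - 1) := by
  by_cases hlt : Module.finrank k0 (TwoEnd755.X Z (l.1 • (Phi Q (ext 1 v) : U0 KK d kp))) < th
  · set Kf : Finset k0 := univ.filter fun a => a ∈ K with hKf
    have hcK : Kf.card = Fintype.card K := by
      rw [hKf, Fintype.card_subtype]
    have h2 := TwoEnd755.two_end Z (l.1 • (Phi Q (ext 1 v) : U0 KK d kp)) th hlt Kf
      ⟨1, by simp [hKf, h1]⟩ w
      ((univ.filter fun E : Fin L → K => Module.finrank k0 (TwoEnd755.X Z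
        (((omEquiv K d L).symm (v, l, E)).1.lam •
        (Phi Q ((omEquiv K d L).symm (v, l, E)).1.b : U0 KK d kp))) < th ∧
        ∃ a : k0, uvec Q kp ((omEquiv K d L).symm (v, l, E)).1 - a • w ∈ Z).image
          fun E i => (E i).1) (by
        intro E hE
        rw [mem_image] at hE
        obtain ⟨E0, hE0, rfl⟩ := hE
        rw [mem_filter] at hE0
        refine ⟨fun i => by rw [hKf, mem_filter]; exact ⟨mem_univ _, (E0 i).2⟩, ?_⟩
        obtain ⟨a, ha⟩ := hE0.2.2
        refine ⟨a, ?_⟩
        have h3 := ten_eq (Q := Q) (kp := kp) ((omEquiv K d L).symm (v, l, E0)).1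
        rw [symm_b, symm_lam, symm_E] at h3
        rw [h3]; exact ha)
    rw [Finset.card_image_of_injective _ (fun E E' h => by
      funext i; exact Subtype.ext (congrFun h i)), hcK] at h2
    exact h2
  · rw [Finset.filter_eq_empty_iff.2, Finset.card_empty]
    · exact Nat.zero_le _
    · intro E _ h
      exact hlt h.1

open scoped Classical in
/-- rows in `Z`, outside the dead `(b, lam)`-parts -/
theorem mem_count {K : Set k0} (h1 : (1 : k0) ∈ K) {Q kp d L : ℕ} (P P' : Om KK K d L)
    (Z : Submodule k0 (U KK d kp L)) (th : ℕ) :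
    (univ.filter fun R : Om KK K d L => (Perp P.1 R.1 ∧ Perp P'.1 R.1) ∧
      (Module.finrank k0 (TwoEnd755.X Z (R.1.lam • (Phi Q R.1.b : U0 KK d kp))) < th ∧
        ∃ a : k0, uvec Q kp R.1 - a • (0 : U KK d kp L) ∈ Z)).card * Fintype.card K ^ L ≤
      (Fintype.card k0 * Fintype.card K ^ (th - 1)) *
        (univ.filter fun R : Om KK K d L => Perp P.1 R.1 ∧ Perp P'.1 R.1).card := by
  have h2 := count_om_E (K := K) (d := d) (L := L)
    (fun v => om d (vv P) v = -1 ∧ om d (vv P') v = -1)
    (fun R => Module.finrank k0 (TwoEnd755.X Z (R.1.lam • (Phi Q R.1.b : U0 KK d kp))) < th ∧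
        ∃ a : k0, uvec Q kp R.1 - a • (0 : U KK d kp L) ∈ Z)
    (Fintype.card k0 * Fintype.card K ^ (th - 1)) (fun v l _ => fibre_E h1 Z th 0 v l)
  have e1 : (univ.filter fun R : Om KK K d L => (Perp P.1 R.1 ∧ Perp P'.1 R.1) ∧
      (Module.finrank k0 (TwoEnd755.X Z (R.1.lam • (Phi Q R.1.b : U0 KK d kp))) < th ∧
        ∃ a : k0, uvec Q kp R.1 - a • (0 : U KK d kp L) ∈ Z)) =
      (univ.filter fun R : Om KK K d L => (om d (vv P) (vv R) = -1 ∧ om d (vv P') (vv R) = -1) ∧
      (Module.finrank k0 (TwoEnd755.X Z (R.1.lam • (Phi Q R.1.b : U0 KK d kp))) < th ∧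
        ∃ a : k0, uvec Q kp R.1 - a • (0 : U KK d kp L) ∈ Z)) := by
    ext R
    simp only [mem_filter, mem_univ, true_and]
    rw [perp_iff, perp_iff]
  have e2 : (univ.filter fun R : Om KK K d L => Perp P.1 R.1 ∧ Perp P'.1 R.1) =
      (univ.filter fun R : Om KK K d L => om d (vv P) (vv R) = -1 ∧ om d (vv P') (vv R) = -1) := by
    ext R
    simp only [mem_filter, mem_univ, true_and]
    rw [perp_iff, perp_iff]
  rw [e1, e2]
  exact h2

open scoped Classical in
/-- **(one end)** -/
theorem one_end_card (e : ℕ) (he : 1 ≤ e) {K : Set k0} (h1 : (1 : k0) ∈ K) {d kp L : ℕ}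
    (hKK : Fintype.card KK = (2 ^ e) ^ kp) (P P' : Om KK K d L)
    (hli : LinearIndependent KK ![vv P, vv P']) (Z : Submodule k0 (U KK d kp L)) (th : ℕ)
    (hZ : Module.finrank k0 ↥(Z ⊓ UPQ (2 ^ e) kp P.1 P'.1) <
      th * Module.finrank k0 ↥(T1 (KK := KK) (kp := kp) (2 ^ e) P.1.b ⊓ T1 (2 ^ e) P'.1.b)) :
    (((univ.filter fun R : Om KK K d L => (Perp P.1 R.1 ∧ Perp P'.1 R.1) ∧
      TEdead (2 ^ e) kp Z th R.1).card : ℕ) : ℝ) ≤
      (1 / (Fintype.card k0 : ℝ) + 1 / ((2 : ℝ) ^ e - 1) +
        Fintype.card k0 * (Fintype.card K : ℝ) ^ (th - 1) / (Fintype.card K : ℝ) ^ L) *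
        (((univ.filter fun R : Om KK K d L => Perp P.1 R.1 ∧ Perp P'.1 R.1).card : ℕ) : ℝ) := by
  have hA := dead_count e he hKK P P' hli Z th hZ
  have hB := mem_count (Q := 2 ^ e) h1 P P' Z th
  set T := univ.filter fun R : Om KK K d L => Perp P.1 R.1 ∧ Perp P'.1 R.1 with hT
  set S1 := univ.filter fun R : Om KK K d L => (Perp P.1 R.1 ∧ Perp P'.1 R.1) ∧
      th ≤ Module.finrank k0 (TwoEnd755.X Z (R.1.lam • (Phi (2 ^ e) R.1.b : U0 KK d kp))) with hS1
  set S2 := univ.filter fun R : Om KK K d L => (Perp P.1 R.1 ∧ Perp P'.1 R.1) ∧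
      (Module.finrank k0 (TwoEnd755.X Z (R.1.lam • (Phi (2 ^ e) R.1.b : U0 KK d kp))) < th ∧
        ∃ a : k0, uvec (2 ^ e) kp R.1 - a • (0 : U KK d kp L) ∈ Z) with hS2
  have hsub : (univ.filter fun R : Om KK K d L => (Perp P.1 R.1 ∧ Perp P'.1 R.1) ∧
      TEdead (2 ^ e) kp Z th R.1) ⊆ S1 ∪ S2 := by
    intro R hR
    rw [mem_filter] at hR
    by_cases h0 : th ≤ Module.finrank k0 (TwoEnd755.X Z (R.1.lam • (Phi (2 ^ e) R.1.b : U0 KK d kp)))
    · exact mem_union_left _ (mem_filter.2 ⟨mem_univ _, hR.2.1, h0⟩)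
    · refine mem_union_right _ (mem_filter.2 ⟨mem_univ _, hR.2.1, not_le.1 h0, 0, ?_⟩)
      rcases hR.2.2 with h | h
      · exact absurd h h0
      · rw [smul_zero, sub_zero]; exact h
  have hq : (0 : ℝ) < Fintype.card k0 := by exact_mod_cast Fintype.card_pos
  have hK : (0 : ℝ) < Fintype.card K := by
    have : Nonempty K := ⟨⟨1, h1⟩⟩
    exact_mod_cast Fintype.card_pos
  have hQn : 1 < 2 ^ e := Nat.one_lt_two_pow (by omega)
  have hQ : (0 : ℝ) < (2 : ℝ) ^ e - 1 := by
    have : (1 : ℝ) < (2 : ℝ) ^ e := by exact_mod_cast hQn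
    linarith
  have hcast : (((2 ^ e - 1 : ℕ)) : ℝ) = (2 : ℝ) ^ e - 1 := by
    rw [Nat.cast_sub hQn.le]; push_cast; ring
  have hA' : ((S1.card : ℕ) : ℝ) * (Fintype.card k0 * ((2 : ℝ) ^ e - 1)) ≤
      (Fintype.card k0 + ((2 : ℝ) ^ e - 1)) * ((T.card : ℕ) : ℝ) := by
    rw [← hcast]
    exact_mod_cast hA
  have hB' : ((S2.card : ℕ) : ℝ) * (Fintype.card K : ℝ) ^ L ≤
      (Fintype.card k0 * (Fintype.card K : ℝ) ^ (th - 1)) * ((T.card : ℕ) : ℝ) := by
    exact_mod_cast hB
  have hA2 : ((S1.card : ℕ) : ℝ) ≤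
      (1 / (Fintype.card k0 : ℝ) + 1 / ((2 : ℝ) ^ e - 1)) * ((T.card : ℕ) : ℝ) := by
    have h5 : (1 / (Fintype.card k0 : ℝ) + 1 / ((2 : ℝ) ^ e - 1)) =
        (Fintype.card k0 + ((2 : ℝ) ^ e - 1)) / (Fintype.card k0 * ((2 : ℝ) ^ e - 1)) := by
      field_simp
      ring
    rw [h5, div_mul_eq_mul_div, le_div_iff₀ (by positivity)]
    exact hA'
  have hB2 : ((S2.card : ℕ) : ℝ) ≤ (Fintype.card k0 * (Fintype.card K : ℝ) ^ (th - 1) /
      (Fintype.card K : ℝ) ^ L) * ((T.card : ℕ) : ℝ) := by
    rw [div_mul_eq_mul_div, le_div_iff₀ (by positivity)]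
    exact hB'
  have hle : (((univ.filter fun R : Om KK K d L => (Perp P.1 R.1 ∧ Perp P'.1 R.1) ∧
      TEdead (2 ^ e) kp Z th R.1).card : ℕ) : ℝ) ≤ S1.card + S2.card := by
    exact_mod_cast (card_le_card hsub).trans (card_union_le _ _)
  rw [add_mul]
  linarith

open scoped Classical in
/-- **(two end)** -/
theorem two_end_card {K : Set k0} (h1 : (1 : k0) ∈ K) {Q d kp L : ℕ}
    (Z : Submodule k0 (U KK d kp L)) (th : ℕ) (R0 : Ty k0 KK d L) :
    (((univ.filter fun R : Om KK K d L => TEdead2 Q kp Z th R0 R.1).card : ℕ) : ℝ) ≤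
      Fintype.card k0 * (Fintype.card K : ℝ) ^ (th - 1) / (Fintype.card K : ℝ) ^ L *
        Fintype.card (Om KK K d L) := by
  have h2 := count_om_E (K := K) (d := d) (L := L) (fun _ => True)
    (fun R => Module.finrank k0 (TwoEnd755.X Z (R.1.lam • (Phi Q R.1.b : U0 KK d kp))) < th ∧
        ∃ a : k0, uvec Q kp R.1 - a • (uvec Q kp R0) ∈ Z)
    (Fintype.card k0 * Fintype.card K ^ (th - 1))
    (fun v l _ => fibre_E h1 Z th (uvec Q kp R0) v l)
  have hK : (0 : ℝ) < Fintype.card K := by
    have : Nonempty K := ⟨⟨1, h1⟩⟩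
    exact_mod_cast Fintype.card_pos
  have hle : (univ.filter fun R : Om KK K d L => TEdead2 Q kp Z th R0 R.1) ⊆
      (univ.filter fun R : Om KK K d L => True ∧
      (Module.finrank k0 (TwoEnd755.X Z (R.1.lam • (Phi Q R.1.b : U0 KK d kp))) < th ∧
        ∃ a : k0, uvec Q kp R.1 - a • (uvec Q kp R0) ∈ Z)) := by
    intro R hR
    rw [mem_filter] at hR ⊢
    refine ⟨mem_univ _, trivial, ?_, hR.2.2⟩
    by_contra h
    exact hR.2.1 (Or.inl (not_lt.1 h))
  have e2 : (univ.filter fun _ : Om KK K d L => True).card = Fintype.card (Om KK K d L) := by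
    rw [Finset.filter_true, Finset.card_univ]
  rw [e2] at h2
  rw [div_mul_eq_mul_div, le_div_iff₀ (by positivity)]
  have h3 := (Nat.mul_le_mul_right (Fintype.card K ^ L) (card_le_card hle)).trans h2
  exact_mod_cast h3

/-- `dim U_{P,P'} = L * dim (T_P ⊓ T_P')`. -/
theorem finrank_UPQ {Q d kp L : ℕ} (P P' : Ty k0 KK d L) :
    Module.finrank k0 ↥(UPQ Q kp P P') =
      L * Module.finrank k0 ↥(T1 (KK := KK) (kp := kp) Q P.b ⊓ T1 Q P'.b) := by
  set MM : Submodule KK (U0 KK d kp) := T1 Q P.b ⊓ T1 Q P'.b with hMM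
  let eqv : ↥(UPQ Q kp P P') ≃ₗ[k0] (Fin L → MM) :=
    { toFun := fun x l => ⟨x.1 l, Submodule.mem_inf.2
        ⟨(Submodule.mem_inf.1 x.2).1 l, (Submodule.mem_inf.1 x.2).2 l⟩⟩
      map_add' := fun x y => rfl
      map_smul' := fun c x => rfl
      invFun := fun y => ⟨fun l => (y l).1, Submodule.mem_inf.2
        ⟨fun l => (Submodule.mem_inf.1 (y l).2).1, fun l => (Submodule.mem_inf.1 (y l).2).2⟩⟩
      left_inv := fun x => rfl
      right_inv := fun y => rfl }
  rw [eqv.finrank_eq, Module.finrank_pi_fintype]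
  simp

/-- modular law: adding rows to `Z0`. -/
theorem finrank_add_rows {Q d kp L : ℕ} (P P' : Ty k0 KK d L) (Z0 : Submodule k0 (U KK d kp L))
    {ι : Type*} [Fintype ι] (u : ι → U KK d kp L) (hu : ∀ i, u i ∈ UPQ Q kp P P') :
    Module.finrank k0 ↥((Z0 ⊔ Submodule.span k0 (Set.range u)) ⊓ UPQ Q kp P P') ≤
      Module.finrank k0 ↥(Z0 ⊓ UPQ Q kp P P') + Fintype.card ι := by
  have h1 : Submodule.span k0 (Set.range u) ≤ UPQ Q kp P P' := by
    rw [Submodule.span_le]
    rintro _ ⟨i, rfl⟩
    exact hu i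
  rw [sup_comm, sup_inf_assoc_of_le _ h1]
  refine (Submodule.finrank_add_le_finrank_add_finrank _ _).trans ?_
  rw [add_comm]
  exact Nat.add_le_add_left (finrank_range_le_card u) _

end Fam

end Crest.Agent.R042.TEInst755
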