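import Mathlib

/-! Row 42 / S0059, T-level, part A: counting lemmas (product counting, fourth moment of 4-wise
independent events, binomial tail). -/

set_option autoImplicit false
set_option linter.unusedSectionVars false

namespace Crest.Agent.R042.TLev333

open Finset Function

/-! ### product counting -/

section Count

variable {I Ω : Type*} [Fintype I] [DecidableEq I] [Fintype Ω] [DecidableEq Ω]

/-- resampling one coordinate. -/
lemma sum_update (j : I) (f : (I → Ω) → ℝ) :
    ∑ x, ∑ a, f (update x j a) = Fintype.card Ω * ∑ x, f x := by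
  classical
  -- involution-like bijection `(x, a) ↦ (update x j a, x j)`
  have h1 : ∑ x : I → Ω, ∑ a : Ω, f (update x j a)
      = ∑ z : (I → Ω) × Ω, f (update z.1 j z.2) := by
    rw [Fintype.sum_prod_type]
  have h2 : ∑ z : (I → Ω) × Ω, f (update z.1 j z.2) = ∑ z : (I → Ω) × Ω, f z.1 := by
    refine Fintype.sum_bijective (fun z : (I → Ω) × Ω => (update z.1 j z.2, z.1 j)) ?_ _ _ ?_
    · refine Function.Involutive.bijective ?_
      rintro ⟨x, a⟩
      simp
    · rintro ⟨x, a⟩
      rfl
  rw [h1, h2, Fintype.sum_prod_type]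
  simp only [Finset.sum_const, Finset.card_univ, nsmul_eq_mul]
  rw [Finset.mul_sum]

variable [Nonempty Ω]

lemma cardΩ_pos : (0 : ℝ) < Fintype.card Ω := by
  exact_mod_cast Fintype.card_pos

/-- one conditional coordinate. -/
lemma sum_one (j : I) (S : (I → Ω) → Finset Ω) (g : (I → Ω) → ℝ) (c : ℝ)
    (hS : ∀ x a, S (update x j a) = S x) (hg : ∀ x a, g (update x j a) = g x)
    (hg0 : ∀ x, 0 ≤ g x) (hc : ∀ x, ((S x).card : ℝ) ≤ c * Fintype.card Ω) :
    ∑ x, (if x j ∈ S x then g x else 0) ≤ c * ∑ x, g x := by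
  classical
  have h1 := sum_update j (fun x : I → Ω => if x j ∈ S x then g x else 0)
  have h2 : ∀ x : I → Ω, ∑ a : Ω, (if (update x j a) j ∈ S (update x j a) then
      g (update x j a) else 0) = (S x).card * g x := by
    intro x
    simp only [update_self, hS, hg]
    rw [← Finset.sum_filter]
    simp
  have h3 : ∑ x : I → Ω, ((S x).card : ℝ) * g x ≤ ∑ x : I → Ω, c * Fintype.card Ω * g x :=
    Finset.sum_le_sum (fun x _ => mul_le_mul_of_nonneg_right (hc x) (hg0 x))
  have h4 : (Fintype.card Ω : ℝ) * ∑ x : I → Ω, (if x j ∈ S x then g x else 0) ≤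
      Fintype.card Ω * (c * ∑ x, g x) := by
    rw [← h1]
    calc _ = ∑ x : I → Ω, ((S x).card : ℝ) * g x := Finset.sum_congr rfl (fun x _ => h2 x)
      _ ≤ _ := h3
      _ = _ := by rw [← Finset.mul_sum]; ring
  exact le_of_mul_le_mul_left h4 cardΩ_pos

/-- two conditional coordinates. -/
lemma sum_two (i j : I) (hij : i ≠ j) (A : (I → Ω) → Finset (Ω × Ω)) (g : (I → Ω) → ℝ) (c : ℝ)
    (hAi : ∀ x a, A (update x i a) = A x) (hAj : ∀ x a, A (update x j a) = A x)
    (hgi : ∀ x a, g (update x i a) = g x) (hgj : ∀ x a, g (update x j a) = g x)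
    (hg0 : ∀ x, 0 ≤ g x) (hc : ∀ x, ((A x).card : ℝ) ≤ c * (Fintype.card Ω) ^ 2) :
    ∑ x, (if (x i, x j) ∈ A x then g x else 0) ≤ c * ∑ x, g x := by
  classical
  set f : (I → Ω) → ℝ := fun x => if (x i, x j) ∈ A x then g x else 0 with hf
  have h1 := sum_update i f
  have h1' := sum_update j (fun x => ∑ a, f (update x i a))
  have h2 : ∀ x : I → Ω, ∑ b : Ω, ∑ a : Ω, f (update (update x j b) i a) =
      (A x).card * g x := by
    intro x
    have h3 : ∀ b a : Ω, f (update (update x j b) i a) = if (a, b) ∈ A x then g x else 0 := by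
      intro b a
      simp only [hf, hAi, hAj, hgi, hgj, update_self, update_of_ne hij.symm]
    simp only [h3]
    have h4 : ∑ b : Ω, ∑ a : Ω, (if (a, b) ∈ A x then g x else 0) =
        ∑ z : Ω × Ω, (if z ∈ A x then g x else 0) := by
      rw [Fintype.sum_prod_type, Finset.sum_comm]
    rw [h4, ← Finset.sum_filter]
    simp
  have h3 : ∑ x : I → Ω, ((A x).card : ℝ) * g x ≤
      ∑ x : I → Ω, c * (Fintype.card Ω) ^ 2 * g x :=
    Finset.sum_le_sum (fun x _ => mul_le_mul_of_nonneg_right (hc x) (hg0 x))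
  have h5 : ((Fintype.card Ω : ℝ)) ^ 2 * ∑ x, f x ≤ (Fintype.card Ω : ℝ) ^ 2 * (c * ∑ x, g x) := by
    calc ((Fintype.card Ω : ℝ)) ^ 2 * ∑ x, f x
        = Fintype.card Ω * ((Fintype.card Ω) * ∑ x, f x) := by ring
      _ = Fintype.card Ω * ∑ x, ∑ a, f (update x i a) := by rw [h1]
      _ = ∑ x : I → Ω, ∑ b : Ω, ∑ a : Ω, f (update (update x j b) i a) := by rw [← h1']
      _ = ∑ x : I → Ω, ((A x).card : ℝ) * g x := Finset.sum_congr rfl (fun x _ => h2 x)
      _ ≤ _ := h3
      _ = _ := by rw [← Finset.mul_sum]; ring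
  exact le_of_mul_le_mul_left h5 (by have := cardΩ_pos (Ω := Ω); positivity)

/-- many conditional coordinates. -/
lemma count_one (J : Finset I) (S : (I → Ω) → Finset Ω) (c : ℝ) (hc0 : 0 ≤ c)
    (hS : ∀ x, ∀ j ∈ J, ∀ a, S (update x j a) = S x)
    (hc : ∀ x, ((S x).card : ℝ) ≤ c * Fintype.card Ω) :
    ((Finset.univ.filter fun x : I → Ω => ∀ j ∈ J, x j ∈ S x).card : ℝ) ≤
      c ^ J.card * (Fintype.card Ω : ℝ) ^ Fintype.card I := by
  classical
  induction J using Finset.induction_on with
  | empty => simp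
  | insert j J hj ih =>
    have ih' := ih (fun x i hi a => hS x i (Finset.mem_insert_of_mem hi) a)
    set g : (I → Ω) → ℝ := fun x => if ∀ i ∈ J, x i ∈ S x then 1 else 0 with hg
    have h1 := sum_one j S g c (fun x a => hS x j (Finset.mem_insert_self _ _) a) (by
      intro x a
      have : (∀ i ∈ J, update x j a i ∈ S (update x j a)) ↔ ∀ i ∈ J, x i ∈ S x := by
        rw [hS x j (Finset.mem_insert_self _ _) a]
        refine forall₂_congr ?_
        intro i hi
        have : i ≠ j := fun h => hj (h ▸ hi)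
        rw [update_of_ne this]
      simp only [hg, this]) (fun x => by simp only [hg]; split_ifs <;> norm_num) hc
    have h2 : ((Finset.univ.filter fun x : I → Ω => ∀ i ∈ insert j J, x i ∈ S x).card : ℝ) =
        ∑ x, (if x j ∈ S x then g x else 0) := by
      rw [Finset.card_filter]
      push_cast
      refine Finset.sum_congr rfl (fun x _ => ?_)
      simp only [hg, Finset.forall_mem_insert]
      by_cases h : x j ∈ S x <;> simp [h]
    have h3 : ((Finset.univ.filter fun x : I → Ω => ∀ i ∈ J, x i ∈ S x).card : ℝ) =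
        ∑ x, g x := by
      rw [Finset.card_filter]
      push_cast
      rfl
    rw [h2, Finset.card_insert_of_notMem hj, pow_succ]
    rw [h3] at ih'
    calc _ ≤ c * ∑ x, g x := h1
      _ ≤ c * (c ^ J.card * (Fintype.card Ω : ℝ) ^ Fintype.card I) :=
        mul_le_mul_of_nonneg_left ih' hc0
      _ = _ := by ring

/-- many conditional pairs of coordinates. -/
lemma count_two (P : Finset (I × I)) (A : (I → Ω) → Finset (Ω × Ω)) (c : ℝ) (hc0 : 0 ≤ c)
    (hne : ∀ p ∈ P, p.1 ≠ p.2)
    (hdis : ∀ p ∈ P, ∀ p' ∈ P, p ≠ p' → p.1 ≠ p'.1 ∧ p.1 ≠ p'.2 ∧ p.2 ≠ p'.1 ∧ p.2 ≠ p'.2)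
    (hA : ∀ x, ∀ p ∈ P, ∀ a, A (update x p.1 a) = A x ∧ A (update x p.2 a) = A x)
    (hc : ∀ x, ((A x).card : ℝ) ≤ c * (Fintype.card Ω) ^ 2) :
    ((Finset.univ.filter fun x : I → Ω => ∀ p ∈ P, (x p.1, x p.2) ∈ A x).card : ℝ) ≤
      c ^ P.card * (Fintype.card Ω : ℝ) ^ Fintype.card I := by
  classical
  induction P using Finset.induction_on with
  | empty => simp
  | insert q P hq ih =>
    have ih' := ih (fun p hp => hne p (Finset.mem_insert_of_mem hp))
      (fun p hp p' hp' => hdis p (Finset.mem_insert_of_mem hp) p' (Finset.mem_insert_of_mem hp'))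
      (fun x p hp a => hA x p (Finset.mem_insert_of_mem hp) a)
    set g : (I → Ω) → ℝ := fun x => if ∀ p ∈ P, (x p.1, x p.2) ∈ A x then 1 else 0 with hg
    have hq' := Finset.mem_insert_self q P
    have hgi : ∀ x a, g (update x q.1 a) = g x := by
      intro x a
      have : (∀ p ∈ P, (update x q.1 a p.1, update x q.1 a p.2) ∈ A (update x q.1 a)) ↔
          ∀ p ∈ P, (x p.1, x p.2) ∈ A x := by
        rw [(hA x q hq' a).1]
        refine forall₂_congr ?_
        intro p hp
        have hpq : p ≠ q := fun h => hq (h ▸ hp)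
        have := hdis p (Finset.mem_insert_of_mem hp) q hq' hpq
        rw [update_of_ne this.1, update_of_ne this.2.2.1]
      simp only [hg, this]
    have hgj : ∀ x a, g (update x q.2 a) = g x := by
      intro x a
      have : (∀ p ∈ P, (update x q.2 a p.1, update x q.2 a p.2) ∈ A (update x q.2 a)) ↔
          ∀ p ∈ P, (x p.1, x p.2) ∈ A x := by
        rw [(hA x q hq' a).2]
        refine forall₂_congr ?_
        intro p hp
        have hpq : p ≠ q := fun h => hq (h ▸ hp)
        have := hdis p (Finset.mem_insert_of_mem hp) q hq' hpq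
        rw [update_of_ne this.2.1, update_of_ne this.2.2.2]
      simp only [hg, this]
    have h1 := sum_two q.1 q.2 (hne q hq') A g c (fun x a => (hA x q hq' a).1)
      (fun x a => (hA x q hq' a).2) hgi hgj
      (fun x => by simp only [hg]; split_ifs <;> norm_num) hc
    have h2 : ((Finset.univ.filter fun x : I → Ω =>
        ∀ p ∈ insert q P, (x p.1, x p.2) ∈ A x).card : ℝ) =
        ∑ x, (if (x q.1, x q.2) ∈ A x then g x else 0) := by
      rw [Finset.card_filter]
      push_cast
      refine Finset.sum_congr rfl (fun x _ => ?_)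
      simp only [hg, Finset.forall_mem_insert]
      by_cases h : (x q.1, x q.2) ∈ A x <;> simp [h]
    have h3 : ((Finset.univ.filter fun x : I → Ω => ∀ p ∈ P, (x p.1, x p.2) ∈ A x).card : ℝ) =
        ∑ x, g x := by
      rw [Finset.card_filter]
      push_cast
      rfl
    rw [h2, Finset.card_insert_of_notMem hq, pow_succ]
    rw [h3] at ih'
    calc _ ≤ c * ∑ x, g x := h1
      _ ≤ c * (c ^ P.card * (Fintype.card Ω : ℝ) ^ Fintype.card I) :=
        mul_le_mul_of_nonneg_left ih' hc0
      _ = _ := by ring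

end Count

/-- `C(n,r) p^r ≤ 2^{-r}` if `6 n p ≤ r`. -/
lemma choose_mul_pow_le (n r : ℕ) (p : ℝ) (hp : 0 ≤ p) (h : 6 * n * p ≤ r) :
    (n.choose r : ℝ) * p ^ r ≤ (1 / 2) ^ r := by
  rcases Nat.eq_zero_or_pos r with rfl | hr
  · simp
  have hr' : (0 : ℝ) < r := by exact_mod_cast hr
  have h1 : (n.choose r : ℝ) ≤ (n : ℝ) ^ r / r.factorial := Nat.choose_le_pow_div r n
  have h2 : (r : ℝ) ^ r / r.factorial ≤ Real.exp r :=
    Real.pow_div_factorial_le_exp (r : ℝ) hr'.le r
  have h3 : (n : ℝ) ^ r / r.factorial * p ^ r = ((n * p) / r) ^ r * ((r : ℝ) ^ r / r.factorial) := by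
    rw [div_pow, mul_pow]
    field_simp
  have h4 : (n * p) / r ≤ 1 / 6 := by
    rw [div_le_div_iff₀ hr' (by norm_num)]
    linarith
  have h5 : 0 ≤ (n * p) / r := by positivity
  have h6 : Real.exp r = (Real.exp 1) ^ r := by rw [← Real.exp_nat_mul, mul_one]
  calc (n.choose r : ℝ) * p ^ r ≤ (n : ℝ) ^ r / r.factorial * p ^ r :=
        mul_le_mul_of_nonneg_right h1 (pow_nonneg hp r)
    _ = ((n * p) / r) ^ r * ((r : ℝ) ^ r / r.factorial) := h3
    _ ≤ (1 / 6) ^ r * (Real.exp 1) ^ r := by
        refine mul_le_mul (pow_le_pow_left₀ h5 h4 r) (h2.trans (le_of_eq h6)) (by positivity)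
          (by positivity)
    _ = (Real.exp 1 / 6) ^ r := by rw [← mul_pow]; ring
    _ ≤ (1 / 2) ^ r := by
        refine pow_le_pow_left₀ (by positivity) ?_ r
        have := Real.exp_one_lt_d9
        linarith

end Crest.Agent.R042.TLev333
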