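import Crest.Agent.R042.TLevA_333

/-! Row 42 / S0059, T-level, part B: the fourth moment of 4-wise independent events. -/

set_option autoImplicit false
set_option linter.unusedSectionVars false

namespace Crest.Agent.R042.TLev333

open Finset Function

lemma cast_desc (n k : ℕ) :
    ((n.descFactorial (k + 1) : ℕ) : ℝ) = ((n : ℝ) - k) * (n.descFactorial k : ℕ) := by
  rw [Nat.descFactorial_succ]
  push_cast
  rcases le_or_gt k n with h | h
  · rw [Nat.cast_sub h]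
  · rw [Nat.descFactorial_eq_zero_iff_lt.2 h]; simp

lemma cast_desc1 (n : ℕ) : ((n.descFactorial 1 : ℕ) : ℝ) = n := by simp
lemma cast_desc2 (n : ℕ) : ((n.descFactorial 2 : ℕ) : ℝ) = ((n : ℝ) - 1) * n := by
  rw [cast_desc, cast_desc1]; push_cast; ring
lemma cast_desc3 (n : ℕ) : ((n.descFactorial 3 : ℕ) : ℝ) = ((n : ℝ) - 2) * ((n - 1) * n) := by
  rw [cast_desc, cast_desc2]; push_cast; ring
lemma cast_desc4 (n : ℕ) :
    ((n.descFactorial 4 : ℕ) : ℝ) = ((n : ℝ) - 3) * ((n - 2) * ((n - 1) * n)) := by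
  rw [cast_desc, cast_desc3]; push_cast; ring

section Mom

variable {Ω σ : Type*} [Fintype Ω] [DecidableEq Ω] [DecidableEq σ]

/-- factorial moments of `k`-wise independent events. -/
lemma fact_mom (Φ : Finset σ) (R : σ → Ω → Prop) [∀ s Q, Decidable (R s Q)] (p : ℝ) (k : ℕ)
    (hgen : ∀ A ⊆ Φ, A.card = k →
      (((Finset.univ.filter fun Q => ∀ s ∈ A, R s Q).card : ℕ) : ℝ) = p ^ k * Fintype.card Ω) :
    ∑ Q : Ω, (((Φ.filter fun s => R s Q).card.descFactorial k : ℕ) : ℝ) =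
      (Φ.card.descFactorial k : ℕ) * p ^ k * Fintype.card Ω := by
  classical
  have h1 : ∀ Q : Ω, ((Φ.filter fun s => R s Q).card.choose k : ℕ) =
      ((Φ.powersetCard k).filter fun A => ∀ s ∈ A, R s Q).card := by
    intro Q
    rw [← Finset.card_powersetCard]
    congr 1
    ext A
    simp only [Finset.mem_powersetCard, Finset.mem_filter, Finset.subset_iff]
    constructor
    · rintro ⟨h, h'⟩
      exact ⟨⟨fun s hs => (h hs).1, h'⟩, fun s hs => (h hs).2⟩
    · rintro ⟨⟨h, h'⟩, h''⟩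
      exact ⟨fun s hs => ⟨h hs, h'' s hs⟩, h'⟩
  have h2 : ∑ Q : Ω, (((Φ.filter fun s => R s Q).card.choose k : ℕ) : ℝ) =
      (Φ.card.choose k : ℕ) * p ^ k * Fintype.card Ω := by
    calc ∑ Q : Ω, (((Φ.filter fun s => R s Q).card.choose k : ℕ) : ℝ)
        = ∑ Q : Ω, ∑ A ∈ Φ.powersetCard k, (if ∀ s ∈ A, R s Q then (1 : ℝ) else 0) := by
          refine Finset.sum_congr rfl (fun Q _ => ?_)
          rw [h1 Q, Finset.card_filter]
          push_cast
          rfl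
      _ = ∑ A ∈ Φ.powersetCard k, ∑ Q : Ω, (if ∀ s ∈ A, R s Q then (1 : ℝ) else 0) :=
          Finset.sum_comm
      _ = ∑ A ∈ Φ.powersetCard k, p ^ k * Fintype.card Ω := by
          refine Finset.sum_congr rfl (fun A hA => ?_)
          rw [Finset.mem_powersetCard] at hA
          rw [← hgen A hA.1 hA.2, Finset.card_filter]
          push_cast
          rfl
      _ = _ := by rw [Finset.sum_const, Finset.card_powersetCard, nsmul_eq_mul]; ring
  calc ∑ Q : Ω, (((Φ.filter fun s => R s Q).card.descFactorial k : ℕ) : ℝ)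
      = ∑ Q : Ω, (k.factorial : ℝ) * (((Φ.filter fun s => R s Q).card.choose k : ℕ) : ℝ) := by
        refine Finset.sum_congr rfl (fun Q _ => ?_)
        rw [Nat.descFactorial_eq_factorial_mul_choose]; push_cast; rfl
    _ = (k.factorial : ℝ) * ((Φ.card.choose k : ℕ) * p ^ k * Fintype.card Ω) := by
        rw [← Finset.mul_sum, h2]
    _ = _ := by rw [Nat.descFactorial_eq_factorial_mul_choose]; push_cast; ring

/-- fourth central moment of 4-wise independent events. -/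
theorem mom4 (Φ : Finset σ) (R : σ → Ω → Prop) [∀ s Q, Decidable (R s Q)] (p : ℝ) (hp0 : 0 ≤ p)
    (hp1 : p ≤ 1)
    (hgen : ∀ A ⊆ Φ, A.card ≤ 4 →
      (((Finset.univ.filter fun Q => ∀ s ∈ A, R s Q).card : ℕ) : ℝ) =
        p ^ A.card * Fintype.card Ω) :
    ∑ Q : Ω, (((Φ.filter fun s => R s Q).card : ℝ) - Φ.card * p) ^ 4 ≤
      (Φ.card * p + 3 * (Φ.card * p) ^ 2) * Fintype.card Ω := by
  classical
  have hm : ∀ k ≤ 4, _ := fun k hk => fact_mom Φ R p k (fun A hA hAk => by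
    rw [hgen A hA (hAk.le.trans hk), hAk])
  have m1 := hm 1 (by norm_num)
  have m2 := hm 2 (by norm_num)
  have m3 := hm 3 (by norm_num)
  have m4 := hm 4 (by norm_num)
  set n : ℝ := ((Φ.card : ℕ) : ℝ) with hn
  simp only [cast_desc1, cast_desc2, cast_desc3, cast_desc4] at m1 m2 m3 m4
  rw [← hn] at m1 m2 m3 m4
  set X : Ω → ℝ := fun Q => ((Φ.filter fun s => R s Q).card : ℝ) with hX
  have e : ∑ Q : Ω, (X Q - n * p) ^ 4 =
      (∑ Q, (X Q - 3) * ((X Q - 2) * ((X Q - 1) * X Q))) +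
      (6 - 4 * (n * p)) * (∑ Q, (X Q - 2) * ((X Q - 1) * X Q)) +
      (7 - 12 * (n * p) + 6 * (n * p) ^ 2) * (∑ Q, (X Q - 1) * X Q) +
      (1 - 4 * (n * p) + 6 * (n * p) ^ 2 - 4 * (n * p) ^ 3) * (∑ Q, X Q) +
      ∑ Q : Ω, (n * p) ^ 4 := by
    rw [Finset.mul_sum, Finset.mul_sum, Finset.mul_sum, ← Finset.sum_add_distrib,
      ← Finset.sum_add_distrib, ← Finset.sum_add_distrib, ← Finset.sum_add_distrib]
    refine Finset.sum_congr rfl (fun Q _ => ?_)
    ring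
  have hn0 : 0 ≤ n := by rw [hn]; positivity
  have e2 : ∑ Q : Ω, (X Q - n * p) ^ 4 =
      (n * p * (1 - p) * (1 + 3 * (n - 2) * (p * (1 - p)))) * Fintype.card Ω := by
    rw [e, m1, m2, m3, m4, Finset.sum_const, Finset.card_univ, nsmul_eq_mul]
    ring
  change ∑ Q : Ω, (X Q - n * p) ^ 4 ≤ _
  rw [e2]
  refine mul_le_mul_of_nonneg_right ?_ (by positivity)
  have hq0 : 0 ≤ 1 - p := by linarith
  have hq1 : 1 - p ≤ 1 := by linarith
  have hnp : 0 ≤ n * p := mul_nonneg hn0 hp0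
  have h1 : p * (1 - p) ≤ p := by nlinarith
  have h1' : 0 ≤ p * (1 - p) := mul_nonneg hp0 hq0
  have h2 : 1 + 3 * (n - 2) * (p * (1 - p)) ≤ 1 + 3 * (n * p) := by nlinarith
  have h3 : 0 ≤ n * p * (1 - p) := mul_nonneg hnp hq0
  have h4 : n * p * (1 - p) ≤ n * p := by nlinarith
  calc n * p * (1 - p) * (1 + 3 * (n - 2) * (p * (1 - p)))
      ≤ n * p * (1 - p) * (1 + 3 * (n * p)) := mul_le_mul_of_nonneg_left h2 h3
    _ ≤ n * p * (1 + 3 * (n * p)) := mul_le_mul_of_nonneg_right h4 (by positivity)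
    _ = _ := by ring

/-- fourth moment tail. -/
theorem tail4 (Φ : Finset σ) (R : σ → Ω → Prop) [∀ s Q, Decidable (R s Q)] (p : ℝ) (hp0 : 0 ≤ p)
    (hp1 : p ≤ 1)
    (hgen : ∀ A ⊆ Φ, A.card ≤ 4 →
      (((Finset.univ.filter fun Q => ∀ s ∈ A, R s Q).card : ℕ) : ℝ) =
        p ^ A.card * Fintype.card Ω) (t M : ℝ) (ht : 0 < t) (hM : Φ.card * p ≤ M) (hM1 : 1 ≤ M) :
    (((Finset.univ.filter fun Q : Ω =>
      t ≤ |((Φ.filter fun s => R s Q).card : ℝ) - Φ.card * p|).card : ℕ) : ℝ) ≤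
      4 * M ^ 2 / t ^ 4 * Fintype.card Ω := by
  classical
  have h := mom4 Φ R p hp0 hp1 hgen
  have hnp : 0 ≤ (Φ.card : ℝ) * p := by positivity
  have h1 : (((Finset.univ.filter fun Q : Ω =>
      t ≤ |((Φ.filter fun s => R s Q).card : ℝ) - Φ.card * p|).card : ℕ) : ℝ) * t ^ 4 ≤
      ∑ Q : Ω, (((Φ.filter fun s => R s Q).card : ℝ) - Φ.card * p) ^ 4 := by
    rw [← nsmul_eq_mul, ← Finset.sum_const]
    refine le_trans (Finset.sum_le_sum (fun Q hQ => ?_))
      (Finset.sum_le_sum_of_subset_of_nonneg (Finset.subset_univ _) (fun Q _ _ => by positivity))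
    rw [Finset.mem_filter] at hQ
    have : t ^ 4 ≤ |((Φ.filter fun s => R s Q).card : ℝ) - Φ.card * p| ^ 4 :=
      pow_le_pow_left₀ ht.le hQ.2 4
    rwa [← abs_pow, abs_of_nonneg (by positivity)] at this
  have h2 : Φ.card * p + 3 * (Φ.card * p) ^ 2 ≤ 4 * M ^ 2 := by nlinarith
  rw [div_mul_eq_mul_div, le_div_iff₀ (by positivity)]
  calc _ ≤ _ := h1
    _ ≤ _ := h
    _ ≤ _ := mul_le_mul_of_nonneg_right h2 (by positivity)

end Mom

end Crest.Agent.R042.TLev333
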