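import Crest.Agent.R042.TLevB_333

/-! Row 42 / S0059, T-level, part C: exceptional points and exceptional pairs of a fingerprint. -/

set_option autoImplicit false
set_option linter.unusedSectionVars false

namespace Crest.Agent.R042.TLev333

open Finset Function
open scoped Classical

lemma card_filter_or_le' {α : Type*} [Fintype α] (p q : α → Prop) {d1 : DecidablePred p}
    {d2 : DecidablePred q} {d3 : DecidablePred fun x => p x ∨ q x} :
    (univ.filter fun Q => p Q ∨ q Q).card ≤ (univ.filter p).card + (univ.filter q).card := by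
  refine (Finset.card_le_card ?_).trans (Finset.card_union_le _ _)
  intro Q hQ
  rw [Finset.mem_filter] at hQ
  rw [Finset.mem_union, Finset.mem_filter, Finset.mem_filter]
  exact hQ.2.imp (fun h => ⟨Finset.mem_univ _, h⟩) (fun h => ⟨Finset.mem_univ _, h⟩)

lemma card_filter_or_le {α : Type*} [Fintype α] (p q : α → Prop) :
    (univ.filter fun Q => p Q ∨ q Q).card ≤ (univ.filter p).card + (univ.filter q).card :=
  card_filter_or_le' p q

/-- genericity of the sample `x` on the index set `T` (at most 8 equations). -/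
def Gen {I Ω : Type*} [Fintype Ω] (perp : Ω → Ω → Prop) (ρ : ℝ) (x : I → Ω) (T : Finset I) :
    Prop :=
  ∀ J ⊆ T, J.card ≤ 8 →
    (((univ.filter fun Q => ∀ i ∈ J, perp (x i) Q).card : ℕ) : ℝ) = ρ ^ J.card * Fintype.card Ω

/-- a system of pieces: every piece `s` has `a ∈ {1,2}` indices `idx s`, a dead set
`dead s x` of one-point type (density `η²` among the common neighbours), and a dead set
`dead2 s x` of two-point type (density `θ` in the second point), both depending only on the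
sample on `idx s`. -/
structure Sys (I Ω σ : Type*) [Fintype Ω] where
  perp : Ω → Ω → Prop
  idx : σ → Finset I
  dead : σ → (I → Ω) → Ω → Prop
  dead2 : σ → (I → Ω) → Ω → Ω → Prop
  a : ℕ
  ρ : ℝ
  η : ℝ
  θ : ℝ
  θ0 : 0 ≤ θ
  a1 : 1 ≤ a
  a2 : a ≤ 2
  ρ0 : 0 < ρ
  ρ1 : ρ ≤ 1
  η0 : 0 < η
  η1 : η ≤ 1
  card_idx : ∀ s, (idx s).card = a
  loc : ∀ s x y, (∀ i ∈ idx s, x i = y i) → dead s x = dead s y
  loc2 : ∀ s x y, (∀ i ∈ idx s, x i = y i) → dead2 s x = dead2 s y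
  dead_le : ∀ s x, Gen perp ρ x (idx s) →
    (((univ.filter fun Q => (∀ i ∈ idx s, perp (x i) Q) ∧ dead s x Q).card : ℕ) : ℝ) ≤
      η ^ 2 * ρ ^ a * Fintype.card Ω
  dead2_le : ∀ s x, Gen perp ρ x (idx s) → ∀ Q,
    (((univ.filter fun Q' => dead2 s x Q Q').card : ℕ) : ℝ) ≤ θ * Fintype.card Ω

namespace Sys

variable {I Ω σ : Type*} [Fintype Ω] [DecidableEq I] [DecidableEq σ] (S : Sys I Ω σ)

/-- the point `Q` is perpendicular to all points of the piece `s`. -/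
def Sp (x : I → Ω) (s : σ) (Q : Ω) : Prop := ∀ i ∈ S.idx s, S.perp (x i) Q

/-- pairwise disjoint pieces. -/
def PD (Φ : Finset σ) : Prop := ∀ s ∈ Φ, ∀ s' ∈ Φ, s ≠ s' → Disjoint (S.idx s) (S.idx s')

/-- all indices of a fingerprint. -/
def U (Φ : Finset σ) : Finset I := Φ.biUnion S.idx

/-- exceptional points of the fingerprint `Φ`. -/
noncomputable def Z (ℓ : ℕ) (Φ : Finset σ) (x : I → Ω) : Finset Ω :=
  if Gen S.perp S.ρ x (S.U Φ) then
    univ.filter fun Q =>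
      S.η * (ℓ * S.ρ ^ S.a) < ((Φ.filter fun s => S.Sp x s Q ∧ S.dead s x Q).card : ℝ) ∨
      ℓ * S.ρ ^ S.a / 4 ≤ |((Φ.filter fun s => S.Sp x s Q).card : ℝ) - Φ.card * S.ρ ^ S.a|
  else ∅

/-- exceptional pairs of the fingerprint `Φ`. -/
noncomputable def A (ℓ : ℕ) (Φ : Finset σ) (x : I → Ω) : Finset (Ω × Ω) :=
  if Gen S.perp S.ρ x (S.U Φ) then
    univ.filter fun z => (z.1 ∉ S.Z ℓ Φ x ∧
      (2 * (S.η * (ℓ * S.ρ ^ (2 * S.a))) ≤
        ((Φ.filter fun s => (S.Sp x s z.1 ∧ S.dead s x z.1) ∧ S.Sp x s z.2).card : ℝ) ∨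
      ℓ * S.ρ ^ (2 * S.a) / 4 ≤
        |((Φ.filter fun s => S.Sp x s z.1 ∧ S.Sp x s z.2).card : ℝ) -
          ((Φ.filter fun s => S.Sp x s z.1).card : ℝ) * S.ρ ^ S.a|)) ∨
      ∃ s ∈ Φ, S.dead2 s x z.1 z.2
  else ∅

variable {S}

lemma ρa0 : 0 < S.ρ ^ S.a := pow_pos S.ρ0 _
lemma ρa1 : S.ρ ^ S.a ≤ 1 := pow_le_one₀ S.ρ0.le S.ρ1

lemma ρ4_le : S.ρ ^ 4 ≤ S.ρ ^ (2 * S.a) :=
  pow_le_pow_of_le_one S.ρ0.le S.ρ1 (by have := S.a2; omega)

lemma ρ4_le' : S.ρ ^ 4 ≤ S.ρ ^ S.a :=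
  pow_le_pow_of_le_one S.ρ0.le S.ρ1 (by have := S.a2; omega)

lemma card_U (Φ : Finset σ) (hΦ : S.PD Φ) : (S.U Φ).card = Φ.card * S.a := by
  rw [U, Finset.card_biUnion (fun s hs s' hs' h => hΦ s hs s' hs' h)]
  simp [S.card_idx]

lemma card_U_le (Φ : Finset σ) : (S.U Φ).card ≤ Φ.card * S.a := by
  refine Finset.card_biUnion_le_card_mul _ _ _ (fun s _ => (S.card_idx s).le)

lemma gen_sub (Φ : Finset σ) (hΦ : S.PD Φ) (x : I → Ω) (hG : Gen S.perp S.ρ x (S.U Φ))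
    (A : Finset σ) (hA : A ⊆ Φ) (hA4 : A.card ≤ 4) :
    (((univ.filter fun Q => ∀ s ∈ A, S.Sp x s Q).card : ℕ) : ℝ) =
      (S.ρ ^ S.a) ^ A.card * Fintype.card Ω := by
  have hA' : S.PD A := fun s hs s' hs' h => hΦ s (hA hs) s' (hA hs') h
  have h1 := hG (S.U A) (Finset.biUnion_subset_biUnion_of_subset_left _ hA) (by
    rw [card_U A hA']
    have := S.a2
    nlinarith)
  rw [card_U A hA'] at h1
  have h2 : (univ.filter fun Q => ∀ i ∈ S.U A, S.perp (x i) Q) =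
      (univ.filter fun Q => ∀ s ∈ A, S.Sp x s Q) := by
    ext Q
    rw [Finset.mem_filter, Finset.mem_filter]
    refine and_congr_right (fun _ => ?_)
    simp only [U, Sp, Finset.mem_biUnion]
    constructor
    · intro h s hs i hi
      exact h i ⟨s, hs, hi⟩
    · rintro h i ⟨s, hs, hi⟩
      exact h s hs i hi
  rw [← h2, h1, ← pow_mul, mul_comm S.a]

/-- locality of `Sp`. -/
lemma Sp_congr {x y : I → Ω} {s : σ} (h : ∀ i ∈ S.idx s, x i = y i) (Q : Ω) :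
    S.Sp x s Q ↔ S.Sp y s Q := by
  unfold Sp
  exact forall₂_congr (fun i hi => by rw [h i hi])

lemma Gen_congr {x y : I → Ω} {T : Finset I} (h : ∀ i ∈ T, x i = y i) :
    Gen S.perp S.ρ x T ↔ Gen S.perp S.ρ y T := by
  unfold Gen
  refine forall₂_congr (fun J hJ => ?_)
  have h2 : (univ.filter fun Q => ∀ i ∈ J, S.perp (x i) Q) =
      (univ.filter fun Q => ∀ i ∈ J, S.perp (y i) Q) := by
    refine Finset.filter_congr (fun Q _ => forall₂_congr (fun i hi => ?_))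
    rw [h i (hJ hi)]
  rw [h2]

lemma Z_congr {x y : I → Ω} {Φ : Finset σ} (ℓ : ℕ) (h : ∀ i ∈ S.U Φ, x i = y i) :
    S.Z ℓ Φ x = S.Z ℓ Φ y := by
  have h' : ∀ s ∈ Φ, ∀ i ∈ S.idx s, x i = y i := fun s hs i hi =>
    h i (Finset.mem_biUnion.2 ⟨s, hs, hi⟩)
  have e1 : ∀ Q, (Φ.filter fun s => S.Sp x s Q ∧ S.dead s x Q) =
      (Φ.filter fun s => S.Sp y s Q ∧ S.dead s y Q) := by
    intro Q
    refine Finset.filter_congr (fun s hs => ?_)
    rw [Sp_congr (h' s hs), S.loc s x y (h' s hs)]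
  have e2 : ∀ Q, (Φ.filter fun s => S.Sp x s Q) = (Φ.filter fun s => S.Sp y s Q) := by
    intro Q
    refine Finset.filter_congr (fun s hs => ?_)
    rw [Sp_congr (h' s hs)]
  unfold Z
  simp only [e1, e2, Gen_congr h]

lemma A_congr {x y : I → Ω} {Φ : Finset σ} (ℓ : ℕ) (h : ∀ i ∈ S.U Φ, x i = y i) :
    S.A ℓ Φ x = S.A ℓ Φ y := by
  have h' : ∀ s ∈ Φ, ∀ i ∈ S.idx s, x i = y i := fun s hs i hi =>
    h i (Finset.mem_biUnion.2 ⟨s, hs, hi⟩)
  have e1 : ∀ Q Q', (Φ.filter fun s => (S.Sp x s Q ∧ S.dead s x Q) ∧ S.Sp x s Q') =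
      (Φ.filter fun s => (S.Sp y s Q ∧ S.dead s y Q) ∧ S.Sp y s Q') := by
    intro Q Q'
    refine Finset.filter_congr (fun s hs => ?_)
    rw [Sp_congr (h' s hs), Sp_congr (h' s hs), S.loc s x y (h' s hs)]
  have e2 : ∀ Q, (Φ.filter fun s => S.Sp x s Q) = (Φ.filter fun s => S.Sp y s Q) := by
    intro Q
    refine Finset.filter_congr (fun s hs => ?_)
    rw [Sp_congr (h' s hs)]
  have e3 : ∀ Q Q', (Φ.filter fun s => S.Sp x s Q ∧ S.Sp x s Q') =
      (Φ.filter fun s => S.Sp y s Q ∧ S.Sp y s Q') := by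
    intro Q Q'
    refine Finset.filter_congr (fun s hs => ?_)
    rw [Sp_congr (h' s hs), Sp_congr (h' s hs)]
  have e4 : ∀ Q Q', (∃ s ∈ Φ, S.dead2 s x Q Q') ↔ (∃ s ∈ Φ, S.dead2 s y Q Q') := by
    intro Q Q'
    constructor
    · rintro ⟨s, hs, hd⟩
      rw [S.loc2 s x y (h' s hs)] at hd
      exact ⟨s, hs, hd⟩
    · rintro ⟨s, hs, hd⟩
      rw [← S.loc2 s x y (h' s hs)] at hd
      exact ⟨s, hs, hd⟩
  unfold A
  simp only [e1, e2, e3, e4, Gen_congr h, Z_congr ℓ h]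

/-- density of the exceptional points. -/
lemma card_Z_le (ℓ : ℕ) (Φ : Finset σ) (hΦ : S.PD Φ) (hℓ : Φ.card ≤ ℓ) (x : I → Ω)
    (hE : 1 ≤ S.η * ℓ * S.ρ ^ 4) (hE' : 1024 ≤ S.η * (S.η * ℓ * S.ρ ^ 4) ^ 2) :
    ((S.Z ℓ Φ x).card : ℝ) ≤ 2 * S.η * Fintype.card Ω := by
  have hη0 := S.η0
  have hη1 := S.η1
  have hρ := ρa0 (S := S)
  have hΩ : (0 : ℝ) ≤ Fintype.card Ω := by positivity
  unfold Z
  split_ifs with hG
  swap
  · simp only [Finset.card_empty, Nat.cast_zero]; positivity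
  set E : ℝ := S.η * ℓ * S.ρ ^ 4 with hEdef
  have hℓ0 : (0 : ℝ) ≤ ℓ := by positivity
  have hM : E ≤ S.η * (ℓ * S.ρ ^ S.a) := by
    rw [hEdef, mul_assoc]
    exact mul_le_mul_of_nonneg_left (mul_le_mul_of_nonneg_left ρ4_le' hℓ0) hη0.le
  have hM' : E ≤ ℓ * S.ρ ^ S.a := by
    refine hM.trans ?_
    have : 0 ≤ ℓ * S.ρ ^ S.a := by positivity
    nlinarith
  have c1 : (((univ.filter fun Q : Ω =>
      S.η * (ℓ * S.ρ ^ S.a) <
        ((Φ.filter fun s => S.Sp x s Q ∧ S.dead s x Q).card : ℝ)).card : ℕ) : ℝ) ≤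
      S.η * Fintype.card Ω := by
    have h1 : (((univ.filter fun Q : Ω =>
      S.η * (ℓ * S.ρ ^ S.a) <
        ((Φ.filter fun s => S.Sp x s Q ∧ S.dead s x Q).card : ℝ)).card : ℕ) : ℝ) *
        (S.η * (ℓ * S.ρ ^ S.a)) ≤
        ∑ Q : Ω, ((Φ.filter fun s => S.Sp x s Q ∧ S.dead s x Q).card : ℝ) := by
      rw [← nsmul_eq_mul, ← Finset.sum_const]
      calc _ ≤ ∑ Q ∈ (univ.filter fun Q : Ω => S.η * (ℓ * S.ρ ^ S.a) <
            ((Φ.filter fun s => S.Sp x s Q ∧ S.dead s x Q).card : ℝ)),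
            ((Φ.filter fun s => S.Sp x s Q ∧ S.dead s x Q).card : ℝ) :=
            Finset.sum_le_sum (fun Q hQ => (Finset.mem_filter.1 hQ).2.le)
        _ ≤ _ := Finset.sum_le_sum_of_subset_of_nonneg (Finset.subset_univ _)
            (fun Q _ _ => by positivity)
    have h2 : ∑ Q : Ω, ((Φ.filter fun s => S.Sp x s Q ∧ S.dead s x Q).card : ℝ) =
        ∑ s ∈ Φ, ((univ.filter fun Q => S.Sp x s Q ∧ S.dead s x Q).card : ℝ) := by
      simp only [Finset.card_filter, Nat.cast_sum]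
      rw [Finset.sum_comm]
    have h3 : ∑ s ∈ Φ, ((univ.filter fun Q => S.Sp x s Q ∧ S.dead s x Q).card : ℝ) ≤
        ∑ s ∈ Φ, S.η ^ 2 * S.ρ ^ S.a * Fintype.card Ω := by
      refine Finset.sum_le_sum (fun s hs => ?_)
      have h0 := S.dead_le s x (by
        intro J hJ hJ8
        exact hG J (hJ.trans (Finset.subset_biUnion_of_mem _ hs)) hJ8)
      refine le_trans (le_of_eq ?_) h0
      congr!
    rw [h2] at h1
    rw [Finset.sum_const, nsmul_eq_mul] at h3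
    have h4 : (Φ.card : ℝ) * (S.η ^ 2 * S.ρ ^ S.a * Fintype.card Ω) ≤
        (S.η * Fintype.card Ω) * (S.η * (ℓ * S.ρ ^ S.a)) := by
      have : (Φ.card : ℝ) ≤ ℓ := by exact_mod_cast hℓ
      have h5 : 0 ≤ S.η ^ 2 * S.ρ ^ S.a * Fintype.card Ω := by positivity
      nlinarith
    exact le_of_mul_le_mul_right ((h1.trans h3).trans h4) (by linarith)
  have c2 : (((univ.filter fun Q : Ω => ℓ * S.ρ ^ S.a / 4 ≤
      |((Φ.filter fun s => S.Sp x s Q).card : ℝ) - Φ.card * S.ρ ^ S.a|).card : ℕ) : ℝ) ≤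
      S.η * Fintype.card Ω := by
    have h1 := tail4 Φ (fun s Q => S.Sp x s Q) (S.ρ ^ S.a) hρ.le ρa1
      (fun A hA hA4 => gen_sub Φ hΦ x hG A hA hA4) (ℓ * S.ρ ^ S.a / 4) (ℓ * S.ρ ^ S.a)
      (by linarith) (by
        have : (Φ.card : ℝ) ≤ ℓ := by exact_mod_cast hℓ
        gcongr) (by linarith)
    refine h1.trans (mul_le_mul_of_nonneg_right ?_ hΩ)
    set M : ℝ := ℓ * S.ρ ^ S.a with hMdef
    have hM0 : 0 < M := by linarith
    rw [div_le_iff₀ (by positivity)]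
    have h2 : 1024 ≤ S.η * M ^ 2 := by
      refine hE'.trans ?_
      have : E ^ 2 ≤ M ^ 2 := pow_le_pow_left₀ (by linarith) hM' 2
      nlinarith
    have h3 : S.η * (M / 4) ^ 4 = S.η * M ^ 2 * M ^ 2 / 256 := by ring
    rw [h3]
    have : 0 ≤ M ^ 2 := by positivity
    nlinarith
  calc _ ≤ ((((univ.filter fun Q : Ω =>
      S.η * (ℓ * S.ρ ^ S.a) <
        ((Φ.filter fun s => S.Sp x s Q ∧ S.dead s x Q).card : ℝ)).card +
        (univ.filter fun Q : Ω => ℓ * S.ρ ^ S.a / 4 ≤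
      |((Φ.filter fun s => S.Sp x s Q).card : ℝ) - Φ.card * S.ρ ^ S.a|).card : ℕ) : ℝ)) := by
        exact_mod_cast card_filter_or_le _ _
    _ ≤ _ := by push_cast; linarith

/-- density of the exceptional pairs. -/
lemma card_A_le (ℓ : ℕ) (Φ : Finset σ) (hΦ : S.PD Φ) (hℓ : Φ.card ≤ ℓ) (x : I → Ω)
    (hE : 1 ≤ S.η * ℓ * S.ρ ^ 4) (hθ : ℓ * S.θ * (S.η * ℓ * S.ρ ^ 4) ^ 2 ≤ 1) :
    ((S.A ℓ Φ x).card : ℝ) ≤ 1605 / (S.η * ℓ * S.ρ ^ 4) ^ 2 * (Fintype.card Ω : ℝ) ^ 2 := by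
  have hη0 := S.η0
  have hη1 := S.η1
  have hρ := ρa0 (S := S)
  have hΩ : (0 : ℝ) ≤ Fintype.card Ω := by positivity
  have hE0 : 0 < S.η * ℓ * S.ρ ^ 4 := by linarith
  unfold A
  split_ifs with hG
  swap
  · simp only [Finset.card_empty, Nat.cast_zero]; positivity
  set E : ℝ := S.η * ℓ * S.ρ ^ 4 with hEdef
  have hℓ0 : (0 : ℝ) ≤ ℓ := by positivity
  have hρρ : S.ρ ^ (2 * S.a) = S.ρ ^ S.a * S.ρ ^ S.a := by rw [← pow_add]; congr 1; ring
  set K : ℝ := ℓ * S.ρ ^ (2 * S.a) with hK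
  have hK0 : 0 ≤ K := mul_nonneg hℓ0 (pow_pos S.ρ0 _).le
  have hM : E ≤ S.η * K := by
    rw [hEdef, hK, mul_assoc]
    exact mul_le_mul_of_nonneg_left (mul_le_mul_of_nonneg_left ρ4_le hℓ0) hη0.le
  have hM' : E ≤ K := hM.trans (by nlinarith)
  have hcardΦ : (Φ.card : ℝ) ≤ ℓ := by exact_mod_cast hℓ
  -- one fibre
  have fib : ∀ Q : Ω, (((univ.filter fun Q' : Ω => Q ∉ S.Z ℓ Φ x ∧
      (2 * (S.η * K) ≤
        ((Φ.filter fun s => (S.Sp x s Q ∧ S.dead s x Q) ∧ S.Sp x s Q').card : ℝ) ∨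
      K / 4 ≤ |((Φ.filter fun s => S.Sp x s Q ∧ S.Sp x s Q').card : ℝ) -
          ((Φ.filter fun s => S.Sp x s Q).card : ℝ) * S.ρ ^ S.a|)).card : ℕ) : ℝ) ≤
      1604 / E ^ 2 * Fintype.card Ω := by
    intro Q
    by_cases hQ : Q ∈ S.Z ℓ Φ x
    · have : (univ.filter fun Q' : Ω => Q ∉ S.Z ℓ Φ x ∧
      (2 * (S.η * K) ≤
        ((Φ.filter fun s => (S.Sp x s Q ∧ S.dead s x Q) ∧ S.Sp x s Q').card : ℝ) ∨
      K / 4 ≤ |((Φ.filter fun s => S.Sp x s Q ∧ S.Sp x s Q').card : ℝ) -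
          ((Φ.filter fun s => S.Sp x s Q).card : ℝ) * S.ρ ^ S.a|)) = ∅ := by
        refine Finset.filter_eq_empty_iff.2 (fun Q' _ h => h.1 hQ)
      rw [this]
      simp only [Finset.card_empty, Nat.cast_zero]
      positivity
    · have hQ' := hQ
      unfold Z at hQ'
      rw [if_pos hG, Finset.mem_filter] at hQ'
      simp only [Finset.mem_univ, true_and, not_or, not_lt, not_le] at hQ'
      obtain ⟨q1, q2⟩ := hQ'
      set Ψ1 := Φ.filter fun s => S.Sp x s Q ∧ S.dead s x Q with hΨ1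
      set Ψ2 := Φ.filter fun s => S.Sp x s Q with hΨ2
      have hs1 : Ψ1 ⊆ Φ := Finset.filter_subset _ _
      have hs2 : Ψ2 ⊆ Φ := Finset.filter_subset _ _
      have m1 : (Ψ1.card : ℝ) * S.ρ ^ S.a ≤ S.η * K := by
        rw [hK, hρρ]
        calc (Ψ1.card : ℝ) * S.ρ ^ S.a ≤ (S.η * (ℓ * S.ρ ^ S.a)) * S.ρ ^ S.a :=
              mul_le_mul_of_nonneg_right q1 hρ.le
          _ = _ := by ring
      have m2 : (Ψ2.card : ℝ) * S.ρ ^ S.a ≤ 5 / 4 * K := by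
        rw [hK, hρρ]
        have h1 := (abs_lt.1 q2).2
        have h2 : (Φ.card : ℝ) * S.ρ ^ S.a ≤ ℓ * S.ρ ^ S.a :=
          mul_le_mul_of_nonneg_right hcardΦ hρ.le
        calc (Ψ2.card : ℝ) * S.ρ ^ S.a ≤ (5 / 4 * (ℓ * S.ρ ^ S.a)) * S.ρ ^ S.a :=
              mul_le_mul_of_nonneg_right (by linarith) hρ.le
          _ = _ := by ring
      have t1 := tail4 Ψ1 (fun s Q => S.Sp x s Q) (S.ρ ^ S.a) hρ.le ρa1
        (fun A hA hA4 => gen_sub Φ hΦ x hG A (hA.trans hs1) hA4) (S.η * K) (S.η * K)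
        (by linarith) m1 (by linarith)
      have t2 := tail4 Ψ2 (fun s Q => S.Sp x s Q) (S.ρ ^ S.a) hρ.le ρa1
        (fun A hA hA4 => gen_sub Φ hΦ x hG A (hA.trans hs2) hA4) (K / 4) (5 / 4 * K)
        (by linarith) m2 (by linarith)
      have c1 : 4 * (S.η * K) ^ 2 / (S.η * K) ^ 4 ≤ 4 / E ^ 2 := by
        have h0 : 0 < S.η * K := by linarith
        have : 4 * (S.η * K) ^ 2 / (S.η * K) ^ 4 = 4 / (S.η * K) ^ 2 := by
          field_simp
        rw [this]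
        have : E ^ 2 ≤ (S.η * K) ^ 2 := pow_le_pow_left₀ hE0.le hM 2
        gcongr
      have c2 : 4 * (5 / 4 * K) ^ 2 / (K / 4) ^ 4 ≤ 1600 / E ^ 2 := by
        have h0 : 0 < K := by linarith
        have : 4 * (5 / 4 * K) ^ 2 / (K / 4) ^ 4 = 1600 / K ^ 2 := by
          field_simp
          norm_num
        rw [this]
        have : E ^ 2 ≤ K ^ 2 := pow_le_pow_left₀ hE0.le hM' 2
        gcongr
      have u1 : (univ.filter fun Q' : Ω => Q ∉ S.Z ℓ Φ x ∧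
      (2 * (S.η * K) ≤
        ((Φ.filter fun s => (S.Sp x s Q ∧ S.dead s x Q) ∧ S.Sp x s Q').card : ℝ) ∨
      K / 4 ≤ |((Φ.filter fun s => S.Sp x s Q ∧ S.Sp x s Q').card : ℝ) -
          (Ψ2.card : ℝ) * S.ρ ^ S.a|)).card ≤
          (univ.filter fun Q' : Ω => S.η * K ≤ |((Ψ1.filter fun s => S.Sp x s Q').card : ℝ) -
            Ψ1.card * S.ρ ^ S.a|).card +
          (univ.filter fun Q' : Ω => K / 4 ≤ |((Ψ2.filter fun s => S.Sp x s Q').card : ℝ) -
            Ψ2.card * S.ρ ^ S.a|).card := by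
        refine le_trans (Finset.card_le_card ?_) (card_filter_or_le _ _)
        intro Q' hh
        rw [Finset.mem_filter] at hh ⊢
        refine ⟨Finset.mem_univ _, ?_⟩
        rcases hh.2.2 with h | h
        · left
          rw [hΨ1, Finset.filter_filter, ← hΨ1]
          rw [le_abs]
          left
          linarith
        · right
          rw [hΨ2, Finset.filter_filter, ← hΨ2]
          exact h
      calc _ ≤ _ := by exact_mod_cast u1
        _ ≤ 4 * (S.η * K) ^ 2 / (S.η * K) ^ 4 * Fintype.card Ω +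
            4 * (5 / 4 * K) ^ 2 / (K / 4) ^ 4 * Fintype.card Ω := add_le_add t1 t2
        _ ≤ 4 / E ^ 2 * Fintype.card Ω + 1600 / E ^ 2 * Fintype.card Ω := by
            gcongr
        _ = _ := by ring
  have fib2 : ∀ Q : Ω, (((univ.filter fun Q' : Ω => ∃ s ∈ Φ, S.dead2 s x Q Q').card : ℕ) : ℝ) ≤
      1 / E ^ 2 * Fintype.card Ω := by
    intro Q
    have h1 : (univ.filter fun Q' : Ω => ∃ s ∈ Φ, S.dead2 s x Q Q') ⊆
        Φ.biUnion fun s => univ.filter fun Q' => S.dead2 s x Q Q' := by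
      intro Q' hQ'
      rw [Finset.mem_filter] at hQ'
      obtain ⟨s, hs, hd⟩ := hQ'.2
      rw [Finset.mem_biUnion]
      exact ⟨s, hs, Finset.mem_filter.2 ⟨Finset.mem_univ _, hd⟩⟩
    have h2 := (Finset.card_le_card h1).trans Finset.card_biUnion_le
    have h3 : (((univ.filter fun Q' : Ω => ∃ s ∈ Φ, S.dead2 s x Q Q').card : ℕ) : ℝ) ≤
        ∑ s ∈ Φ, (((univ.filter fun Q' => S.dead2 s x Q Q').card : ℕ) : ℝ) := by
      exact_mod_cast h2
    have h4 : ∑ s ∈ Φ, (((univ.filter fun Q' => S.dead2 s x Q Q').card : ℕ) : ℝ) ≤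
        ∑ s ∈ Φ, S.θ * Fintype.card Ω := by
      refine Finset.sum_le_sum (fun s hs => S.dead2_le s x ?_ Q)
      intro J hJ hJ8
      exact hG J (hJ.trans (Finset.subset_biUnion_of_mem _ hs)) hJ8
    rw [Finset.sum_const, nsmul_eq_mul] at h4
    refine (h3.trans h4).trans ?_
    have hθ0 := S.θ0
    have h5 : (Φ.card : ℝ) * (S.θ * Fintype.card Ω) ≤ ℓ * (S.θ * Fintype.card Ω) :=
      mul_le_mul_of_nonneg_right hcardΦ (by positivity)
    refine h5.trans ?_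
    rw [← mul_assoc]
    refine mul_le_mul_of_nonneg_right ?_ hΩ
    rw [le_div_iff₀ (by positivity)]
    exact hθ
  calc _ = ∑ Q : Ω, (((univ.filter fun Q' : Ω => (Q ∉ S.Z ℓ Φ x ∧
      (2 * (S.η * K) ≤
        ((Φ.filter fun s => (S.Sp x s Q ∧ S.dead s x Q) ∧ S.Sp x s Q').card : ℝ) ∨
      K / 4 ≤ |((Φ.filter fun s => S.Sp x s Q ∧ S.Sp x s Q').card : ℝ) -
          ((Φ.filter fun s => S.Sp x s Q).card : ℝ) * S.ρ ^ S.a|)) ∨
          ∃ s ∈ Φ, S.dead2 s x Q Q').card : ℕ) : ℝ) := by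
        rw [Finset.card_filter, Nat.cast_sum, Fintype.sum_prod_type]
        refine Finset.sum_congr rfl (fun Q _ => ?_)
        rw [Finset.card_filter, Nat.cast_sum]
    _ ≤ ∑ Q : Ω, (1604 / E ^ 2 * Fintype.card Ω + 1 / E ^ 2 * Fintype.card Ω) := by
        refine Finset.sum_le_sum (fun Q _ => le_trans ?_ (add_le_add (fib Q) (fib2 Q)))
        rw [← Nat.cast_add]
        exact Nat.cast_le.2 (card_filter_or_le' _ _)
    _ = _ := by rw [Finset.sum_const, Finset.card_univ, nsmul_eq_mul]; ring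

end Sys

end Crest.Agent.R042.TLev333
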