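import Crest.Agent.R042.TLevD_333

/-! Row 42 / S0059, T-level, part E: laws, the sampling step, exceptional mass. -/

set_option autoImplicit false
set_option linter.unusedSectionVars false

namespace Crest.Agent.R042.TLev333

open Finset Function
open scoped Classical


/-- disjoint sets, each with an element of `J`. -/
lemma card_meet_le {I : Type*} [DecidableEq I] (B : Finset (Finset I))
    (hBd : ∀ T ∈ B, ∀ T' ∈ B, T ≠ T' → Disjoint T T') (J : Finset I)
    (hJ : ∀ T ∈ B, ∃ j ∈ T, j ∈ J) : B.card ≤ J.card := by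
  have h1 : (B.biUnion fun T => T ∩ J).card = ∑ T ∈ B, (T ∩ J).card := by
    refine Finset.card_biUnion ?_
    intro T hT T' hT' hne
    exact Finset.disjoint_of_subset_left Finset.inter_subset_left
      (Finset.disjoint_of_subset_right Finset.inter_subset_left (hBd T hT T' hT' hne))
  have h2 : B.card ≤ ∑ T ∈ B, (T ∩ J).card := by
    rw [Finset.card_eq_sum_ones]
    refine Finset.sum_le_sum (fun T hT => ?_)
    obtain ⟨j, hj, hpj⟩ := hJ T hT
    exact Finset.card_pos.2 ⟨j, Finset.mem_inter.2 ⟨hj, hpj⟩⟩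
  rw [← h1] at h2
  refine h2.trans (Finset.card_le_card ?_)
  intro j hj
  rw [Finset.mem_biUnion] at hj
  obtain ⟨T, hT, hj⟩ := hj
  exact (Finset.mem_inter.1 hj).2

/-- disjoint families and mass. -/
lemma mass_le {I σ' : Type*} [DecidableEq I] [Fintype σ'] (idx : σ' → Finset I)
    (hc1 : ∀ s, 1 ≤ (idx s).card) (hc2 : ∀ s, (idx s).card ≤ 2) (τ : σ' → ℝ) (h0 : ∀ s, 0 ≤ τ s)
    (m : ℝ) (hm0 : 0 ≤ m) (hm : ∀ i, ∑ s ∈ univ.filter (fun s => i ∈ idx s), τ s ≤ m)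
    (Bad : Finset σ') (R : ℝ)
    (hR : ∀ B : Finset (Finset I), (∀ T ∈ B, ∃ s ∈ Bad, idx s = T) →
      (∀ T ∈ B, ∀ T' ∈ B, T ≠ T' → Disjoint T T') → (B.card : ℝ) ≤ R) :
    ∑ s ∈ Bad, τ s ≤ 2 * R * m := by
  -- maximal disjoint subfamily
  set C : Finset (Finset (Finset I)) := (Bad.image idx).powerset.filter fun B =>
    ∀ T ∈ B, ∀ T' ∈ B, T ≠ T' → Disjoint T T' with hC
  have hne : C.Nonempty := ⟨∅, by simp [hC]⟩
  obtain ⟨B, hB, hmax⟩ := Finset.exists_max_image C Finset.card hne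
  rw [hC, Finset.mem_filter, Finset.mem_powerset] at hB
  have hBR : (B.card : ℝ) ≤ R := by
    refine hR B (fun T hT => ?_) hB.2
    have := hB.1 hT
    rw [Finset.mem_image] at this
    exact this
  set V : Finset I := B.biUnion id with hV
  have hVc : (V.card : ℝ) ≤ 2 * R := by
    have h1 : V.card ≤ B.card * 2 := by
      refine Finset.card_biUnion_le_card_mul _ _ _ (fun T hT => ?_)
      have := hB.1 hT
      rw [Finset.mem_image] at this
      obtain ⟨s, _, rfl⟩ := this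
      exact hc2 s
    have : (V.card : ℝ) ≤ B.card * 2 := by exact_mod_cast h1
    linarith
  have hcov : ∀ s ∈ Bad, ∃ i ∈ V, i ∈ idx s := by
    intro s hs
    by_contra hcon
    push Not at hcon
    have hdis : ∀ T ∈ B, Disjoint (idx s) T := by
      intro T hT
      rw [Finset.disjoint_left]
      intro i hi hiT
      exact hcon i (Finset.mem_biUnion.2 ⟨T, hT, hiT⟩) hi
    have hnot : idx s ∉ B := by
      intro h
      have := hdis _ h
      rw [Finset.disjoint_self_iff_empty] at this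
      have h1 := hc1 s
      rw [this] at h1
      simp at h1
    have h2 : insert (idx s) B ∈ C := by
      rw [hC, Finset.mem_filter, Finset.mem_powerset]
      refine ⟨Finset.insert_subset (Finset.mem_image_of_mem _ hs) hB.1, ?_⟩
      intro T hT T' hT' hne
      rw [Finset.mem_insert] at hT hT'
      rcases hT with rfl | hT
      · rcases hT' with rfl | hT'
        · exact absurd rfl hne
        · exact hdis _ hT'
      · rcases hT' with rfl | hT'
        · exact (hdis _ hT).symm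
        · exact hB.2 T hT T' hT' hne
    have h3 := hmax _ h2
    rw [Finset.card_insert_of_notMem hnot] at h3
    omega
  calc ∑ s ∈ Bad, τ s ≤ ∑ s ∈ Bad, ∑ i ∈ V, (if i ∈ idx s then τ s else 0) := by
        refine Finset.sum_le_sum (fun s hs => ?_)
        obtain ⟨i, hi, his⟩ := hcov s hs
        calc τ s = (if i ∈ idx s then τ s else 0) := by rw [if_pos his]
          _ ≤ _ := Finset.single_le_sum (f := fun i => if i ∈ idx s then τ s else 0)
              (fun i _ => by split_ifs; exacts [h0 s, le_rfl]) hi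
    _ = ∑ i ∈ V, ∑ s ∈ Bad, (if i ∈ idx s then τ s else 0) := Finset.sum_comm
    _ ≤ ∑ i ∈ V, m := by
        refine Finset.sum_le_sum (fun i _ => ?_)
        refine le_trans ?_ (hm i)
        rw [Finset.sum_filter]
        exact Finset.sum_le_sum_of_subset_of_nonneg (Finset.subset_univ _)
          (fun s _ _ => by split_ifs; exacts [h0 s, le_rfl])
    _ = V.card * m := by rw [Finset.sum_const, nsmul_eq_mul]
    _ ≤ 2 * R * m := mul_le_mul_of_nonneg_right hVc hm0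

namespace Sys

variable {I Ω σ : Type*} [Fintype Ω] [Fintype I] [DecidableEq I] [Fintype σ] [DecidableEq σ]
  (S : Sys I Ω σ)

/-- the test set `T` is dead for the piece `s`. -/
def Dead (x : I → Ω) (s : σ) (T : Finset I) : Prop :=
  (∃ j ∈ T, S.dead s x (x j)) ∨ ∃ j ∈ T, ∃ j' ∈ T, j ≠ j' ∧ S.dead2 s x (x j) (x j')

/-- pieces perpendicular to the test set `T`, for which `T` is dead. -/
noncomputable def FA (x : I → Ω) (T : Finset I) : Finset σ :=
  univ.filter fun s => (∀ j ∈ T, S.Sp x s (x j)) ∧ S.Dead x s T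

/-- pieces perpendicular to the test set `T`. -/
noncomputable def GA (x : I → Ω) (T : Finset I) : Finset σ :=
  univ.filter fun s => ∀ j ∈ T, S.Sp x s (x j)

variable {S}

/-- the test sets which meet `U Φ` or contain an exceptional point or pair are few. -/
lemma few_exceptional {ℓ r : ℕ} {x : I → Ω} (hG : S.Good ℓ r x) (Φ : Finset σ) (hℓ : Φ.card ≤ ℓ)
    (hΦ : S.PD Φ) (B : Finset (Finset I))
    (hBd : ∀ T ∈ B, ∀ T' ∈ B, T ≠ T' → Disjoint T T')
    (hB : ∀ T ∈ B, (∃ j ∈ T, j ∈ S.U Φ) ∨ (∃ j ∈ T, x j ∈ S.Z ℓ Φ x) ∨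
      (∃ j ∈ T, ∃ j' ∈ T, j ≠ j' ∧ (x j, x j') ∈ S.A ℓ Φ x)) :
    B.card ≤ 2 * ℓ + r + r := by
  set B0 := B.filter fun T => ∃ j ∈ T, j ∈ S.U Φ with hB0
  set B1 := B.filter fun T => (∀ j ∈ T, j ∉ S.U Φ) ∧ ∃ j ∈ T, x j ∈ S.Z ℓ Φ x with hB1
  set B2 := B.filter fun T => (∀ j ∈ T, j ∉ S.U Φ) ∧
    ∃ j ∈ T, ∃ j' ∈ T, j ≠ j' ∧ (x j, x j') ∈ S.A ℓ Φ x with hB2
  have hsub : B ⊆ B0 ∪ B1 ∪ B2 := by
    intro T hT
    rw [Finset.mem_union, Finset.mem_union, hB0, hB1, hB2, Finset.mem_filter, Finset.mem_filter,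
      Finset.mem_filter]
    by_cases h : ∃ j ∈ T, j ∈ S.U Φ
    · exact Or.inl (Or.inl ⟨hT, h⟩)
    · have h' : ∀ j ∈ T, j ∉ S.U Φ := fun j hj hjU => h ⟨j, hj, hjU⟩
      rcases hB T hT with h1 | h1 | h1
      · exact absurd h1 h
      · exact Or.inl (Or.inr ⟨hT, h', h1⟩)
      · exact Or.inr ⟨hT, h', h1⟩
  have c0 : B0.card ≤ 2 * ℓ := by
    refine (card_meet_le B0 (fun T hT T' hT' => hBd T (Finset.mem_filter.1 hT).1 T'
        (Finset.mem_filter.1 hT').1) (S.U Φ) (fun T hT => (Finset.mem_filter.1 hT).2)).trans ?_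
    refine (card_U_le Φ).trans ?_
    have := S.a2
    nlinarith
  have c1 : B1.card ≤ r := by
    by_contra hcon
    push Not at hcon
    set J : Finset I := (univ : Finset I).filter fun j => j ∉ S.U Φ ∧ x j ∈ S.Z ℓ Φ x with hJ
    have h1 : B1.card ≤ J.card := by
      refine card_meet_le B1 (fun T hT T' hT' => hBd T (Finset.mem_filter.1 hT).1 T'
        (Finset.mem_filter.1 hT').1) J ?_
      intro T hT
      obtain ⟨j, hj, hz⟩ := (Finset.mem_filter.1 hT).2.2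
      refine ⟨j, hj, ?_⟩
      rw [hJ, Finset.mem_filter]
      exact ⟨Finset.mem_univ _, (Finset.mem_filter.1 hT).2.1 j hj, hz⟩
    obtain ⟨J', hJ', hJc⟩ := Finset.exists_subset_card_eq (hcon.le.trans h1)
    obtain ⟨j, hj, hjz⟩ := (hG Φ hℓ hΦ).1 J' hJc (fun j hj => by
      have := hJ' hj
      rw [hJ, Finset.mem_filter] at this
      exact this.2.1)
    have := hJ' hj
    rw [hJ, Finset.mem_filter] at this
    exact hjz this.2.2
  have c2 : B2.card ≤ r := by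
    by_contra hcon
    push Not at hcon
    have hne : B2.Nonempty := Finset.card_pos.1 (by omega)
    obtain ⟨T0, hT0⟩ := hne
    obtain ⟨j0, _⟩ := (Finset.mem_filter.1 hT0).2.2
    have : Nonempty (I × I) := ⟨(j0, j0)⟩
    have hch : ∀ T ∈ B2, ∃ p : I × I, p.1 ∈ T ∧ p.2 ∈ T ∧ p.1 ≠ p.2 ∧
        (x p.1, x p.2) ∈ S.A ℓ Φ x := by
      intro T hT
      obtain ⟨j, hj, j', hj', hne, hA⟩ := (Finset.mem_filter.1 hT).2.2
      exact ⟨(j, j'), hj, hj', hne, hA⟩
    choose! f hf using hch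
    obtain ⟨B', hB', hB'c⟩ := Finset.exists_subset_card_eq hcon.le
    have hinj : Set.InjOn f (B' : Set (Finset I)) := by
      intro T hT T' hT' h
      by_contra hne
      have hd := hBd T (Finset.mem_filter.1 (hB' hT)).1 T' (Finset.mem_filter.1 (hB' hT')).1 hne
      have h1 := (hf T (hB' hT)).1
      have h2 := (hf T' (hB' hT')).1
      rw [← h] at h2
      exact Finset.disjoint_left.1 hd h1 h2
    obtain ⟨p, hp, hpA⟩ := (hG Φ hℓ hΦ).2 (B'.image f) (by
        rw [Finset.card_image_of_injOn hinj, hB'c]) (by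
        intro p hp
        rw [Finset.mem_image] at hp
        obtain ⟨T, hT, rfl⟩ := hp
        have h1 := hf T (hB' hT)
        have h2 := (Finset.mem_filter.1 (hB' hT)).2.1
        exact ⟨h1.2.2.1, h2 _ h1.1, h2 _ h1.2.1⟩) (by
        intro p hp p' hp' hne
        rw [Finset.mem_image] at hp hp'
        obtain ⟨T, hT, rfl⟩ := hp
        obtain ⟨T', hT', rfl⟩ := hp'
        have hne' : T ≠ T' := fun h => hne (by rw [h])
        have hd := hBd T (Finset.mem_filter.1 (hB' hT)).1 T' (Finset.mem_filter.1 (hB' hT')).1 hne'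
        rw [Finset.disjoint_left] at hd
        have h1 := hf T (hB' hT)
        have h2 := hf T' (hB' hT')
        exact ⟨fun h => hd h1.1 (h ▸ h2.1), fun h => hd h1.1 (h ▸ h2.2.1),
          fun h => hd h1.2.1 (h ▸ h2.1), fun h => hd h1.2.1 (h ▸ h2.2.1)⟩)
    rw [Finset.mem_image] at hp
    obtain ⟨T, hT, rfl⟩ := hp
    exact hpA (hf T (hB' hT)).2.2.2
  calc B.card ≤ (B0 ∪ B1 ∪ B2).card := Finset.card_le_card hsub
    _ ≤ (B0 ∪ B1).card + B2.card := Finset.card_union_le _ _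
    _ ≤ B0.card + B1.card + B2.card := Nat.add_le_add_right (Finset.card_union_le _ _) _
    _ ≤ _ := by omega

lemma of_notMem_Z {ℓ : ℕ} {Φ : Finset σ} {x : I → Ω} (hgen : Gen S.perp S.ρ x (S.U Φ)) {Q : Ω}
    (hQ : Q ∉ S.Z ℓ Φ x) :
    ((Φ.filter fun s => S.Sp x s Q ∧ S.dead s x Q).card : ℝ) ≤ S.η * (ℓ * S.ρ ^ S.a) ∧
      |((Φ.filter fun s => S.Sp x s Q).card : ℝ) - Φ.card * S.ρ ^ S.a| < ℓ * S.ρ ^ S.a / 4 := by
  unfold Z at hQ
  rw [if_pos hgen, Finset.mem_filter] at hQ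
  simp only [Finset.mem_univ, true_and, not_or, not_lt, not_le] at hQ
  exact hQ

lemma of_notMem_A {ℓ : ℕ} {Φ : Finset σ} {x : I → Ω} (hgen : Gen S.perp S.ρ x (S.U Φ)) {Q Q' : Ω}
    (hQ : Q ∉ S.Z ℓ Φ x) (hA : (Q, Q') ∉ S.A ℓ Φ x) :
    ((Φ.filter fun s => (S.Sp x s Q ∧ S.dead s x Q) ∧ S.Sp x s Q').card : ℝ) <
      2 * (S.η * (ℓ * S.ρ ^ (2 * S.a))) ∧
      |((Φ.filter fun s => S.Sp x s Q ∧ S.Sp x s Q').card : ℝ) -
          ((Φ.filter fun s => S.Sp x s Q).card : ℝ) * S.ρ ^ S.a| < ℓ * S.ρ ^ (2 * S.a) / 4 := by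
  unfold A at hA
  rw [if_pos hgen, Finset.mem_filter] at hA
  simp only [Finset.mem_univ, true_and, hQ, not_false_eq_true, not_or, not_le] at hA
  exact hA.1

lemma of_notMem_A2 {ℓ : ℕ} {Φ : Finset σ} {x : I → Ω} (hgen : Gen S.perp S.ρ x (S.U Φ))
    {Q Q' : Ω} (hA : (Q, Q') ∉ S.A ℓ Φ x) : ∀ s ∈ Φ, ¬ S.dead2 s x Q Q' := by
  intro s hs hd
  apply hA
  unfold A
  rw [if_pos hgen, Finset.mem_filter]
  exact ⟨Finset.mem_univ _, Or.inr ⟨s, hs, hd⟩⟩

lemma FA_small {ℓ b : ℕ} {x : I → Ω} (Φ : Finset σ) (hgen : Gen S.perp S.ρ x (S.U Φ))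
    (hℓ : 0 < ℓ) (T : Finset I) (hTb : T.card = b) (hb1 : 1 ≤ b) (hb2 : b ≤ 2)
    (hZ : ∀ j ∈ T, x j ∉ S.Z ℓ Φ x)
    (hA : ∀ j ∈ T, ∀ j' ∈ T, j ≠ j' → (x j, x j') ∉ S.A ℓ Φ x) :
    ((Φ ∩ S.FA x T).card : ℝ) < 4 * (S.η * (ℓ * S.ρ ^ (S.a * b))) := by
  have hη0 := S.η0
  have hρ0 := S.ρ0
  have hℓ0 : (0 : ℝ) < ℓ := by exact_mod_cast hℓ
  have hb : b = 1 ∨ b = 2 := by omega
  rcases hb with rfl | rfl
  · rw [Finset.card_eq_one] at hTb
    obtain ⟨j, rfl⟩ := hTb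
    have h1 := (of_notMem_Z hgen (hZ j (Finset.mem_singleton_self j))).1
    have h2 : Φ ∩ S.FA x {j} ⊆ Φ.filter fun s => S.Sp x s (x j) ∧ S.dead s x (x j) := by
      intro s hs
      rw [Finset.mem_inter, FA, Finset.mem_filter] at hs
      rw [Finset.mem_filter]
      obtain ⟨hs1, _, hs2, hd⟩ := hs
      rcases hd with ⟨j', hj', hs3⟩ | ⟨j', hj', j'', hj'', hne, _⟩
      · rw [Finset.mem_singleton] at hj'
        subst hj'
        exact ⟨hs1, hs2 _ (Finset.mem_singleton_self _), hs3⟩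
      · rw [Finset.mem_singleton] at hj' hj''
        exact absurd (hj'.trans hj''.symm) hne
    have h3 : ((Φ ∩ S.FA x {j}).card : ℝ) ≤
        ((Φ.filter fun s => S.Sp x s (x j) ∧ S.dead s x (x j)).card : ℝ) := by
      exact_mod_cast Finset.card_le_card h2
    rw [mul_one]
    have : 0 < S.η * (ℓ * S.ρ ^ S.a) := by positivity
    linarith
  · rw [Finset.card_eq_two] at hTb
    obtain ⟨j, j', hne, rfl⟩ := hTb
    have hj : j ∈ ({j, j'} : Finset I) := by simp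
    have hj' : j' ∈ ({j, j'} : Finset I) := by simp
    have h1 := (of_notMem_A hgen (hZ j hj) (hA j hj j' hj' hne)).1
    have h1' := (of_notMem_A hgen (hZ j' hj') (hA j' hj' j hj hne.symm)).1
    have h2 : Φ ∩ S.FA x {j, j'} ⊆
        (Φ.filter fun s => (S.Sp x s (x j) ∧ S.dead s x (x j)) ∧ S.Sp x s (x j')) ∪
        (Φ.filter fun s => (S.Sp x s (x j') ∧ S.dead s x (x j')) ∧ S.Sp x s (x j)) := by
      intro s hs
      rw [Finset.mem_inter, FA, Finset.mem_filter] at hs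
      rw [Finset.mem_union, Finset.mem_filter, Finset.mem_filter]
      obtain ⟨hs1, _, hs2, hd⟩ := hs
      rcases hd with ⟨j'', hj'', hs3⟩ | ⟨i, hi, i', hi', hii, hd⟩
      · rw [Finset.mem_insert, Finset.mem_singleton] at hj''
        rcases hj'' with rfl | rfl
        · exact Or.inl ⟨hs1, ⟨hs2 _ hj, hs3⟩, hs2 _ hj'⟩
        · exact Or.inr ⟨hs1, ⟨hs2 _ hj', hs3⟩, hs2 _ hj⟩
      · exact absurd hd (of_notMem_A2 hgen (hA i hi i' hi' hii) s hs1)
    have h3 : ((Φ ∩ S.FA x {j, j'}).card : ℝ) ≤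
        ((Φ.filter fun s => (S.Sp x s (x j) ∧ S.dead s x (x j)) ∧ S.Sp x s (x j')).card : ℝ) +
        ((Φ.filter fun s => (S.Sp x s (x j') ∧ S.dead s x (x j')) ∧ S.Sp x s (x j)).card : ℝ) := by
      exact_mod_cast (Finset.card_le_card h2).trans (Finset.card_union_le _ _)
    rw [mul_comm S.a 2]
    linarith

lemma GA_large {ℓ b : ℕ} {x : I → Ω} (Φ : Finset σ) (hgen : Gen S.perp S.ρ x (S.U Φ))
    (hℓ : 0 < ℓ) (hΦ : (7 / 8 : ℝ) * ℓ ≤ Φ.card) (T : Finset I) (hTb : T.card = b)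
    (hb1 : 1 ≤ b) (hb2 : b ≤ 2)
    (hZ : ∀ j ∈ T, x j ∉ S.Z ℓ Φ x)
    (hA : ∀ j ∈ T, ∀ j' ∈ T, j ≠ j' → (x j, x j') ∉ S.A ℓ Φ x) :
    3 / 8 * (ℓ * S.ρ ^ (S.a * b)) < ((Φ ∩ S.GA x T).card : ℝ) := by
  have hρ0 := S.ρ0
  have hρa := ρa0 (S := S)
  have hℓ0 : (0 : ℝ) < ℓ := by exact_mod_cast hℓ
  have hb : b = 1 ∨ b = 2 := by omega
  have hlow : ∀ j ∈ T, 5 / 8 * (ℓ * S.ρ ^ S.a) <
      ((Φ.filter fun s => S.Sp x s (x j)).card : ℝ) := by
    intro j hj
    have h1 := (abs_lt.1 (of_notMem_Z hgen (hZ j hj)).2).1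
    have h2 : (7 / 8 * ℓ) * S.ρ ^ S.a ≤ Φ.card * S.ρ ^ S.a :=
      mul_le_mul_of_nonneg_right hΦ hρa.le
    linarith
  rcases hb with rfl | rfl
  · rw [Finset.card_eq_one] at hTb
    obtain ⟨j, rfl⟩ := hTb
    have h1 := hlow j (Finset.mem_singleton_self j)
    have h2 : (Φ.filter fun s => S.Sp x s (x j)) ⊆ Φ ∩ S.GA x {j} := by
      intro s hs
      rw [Finset.mem_filter] at hs
      rw [Finset.mem_inter, GA, Finset.mem_filter]
      refine ⟨hs.1, Finset.mem_univ _, ?_⟩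
      intro i hi
      rw [Finset.mem_singleton] at hi
      rw [hi]
      exact hs.2
    have h3 : ((Φ.filter fun s => S.Sp x s (x j)).card : ℝ) ≤ ((Φ ∩ S.GA x {j}).card : ℝ) := by
      exact_mod_cast Finset.card_le_card h2
    rw [mul_one]
    have : 0 < ℓ * S.ρ ^ S.a := by positivity
    linarith
  · rw [Finset.card_eq_two] at hTb
    obtain ⟨j, j', hne, rfl⟩ := hTb
    have hj : j ∈ ({j, j'} : Finset I) := by simp
    have hj' : j' ∈ ({j, j'} : Finset I) := by simp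
    have h0 := hlow j hj
    have h1 := (abs_lt.1 (of_notMem_A hgen (hZ j hj) (hA j hj j' hj' hne)).2).1
    have h2 : (Φ.filter fun s => S.Sp x s (x j) ∧ S.Sp x s (x j')) ⊆ Φ ∩ S.GA x {j, j'} := by
      intro s hs
      rw [Finset.mem_filter] at hs
      rw [Finset.mem_inter, GA, Finset.mem_filter]
      refine ⟨hs.1, Finset.mem_univ _, ?_⟩
      intro i hi
      rw [Finset.mem_insert, Finset.mem_singleton] at hi
      rcases hi with rfl | rfl
      · exact hs.2.1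
      · exact hs.2.2
    have h3 : ((Φ.filter fun s => S.Sp x s (x j) ∧ S.Sp x s (x j')).card : ℝ) ≤
        ((Φ ∩ S.GA x {j, j'}).card : ℝ) := by
      exact_mod_cast Finset.card_le_card h2
    have h4 : 5 / 8 * (ℓ * S.ρ ^ S.a) * S.ρ ^ S.a ≤
        ((Φ.filter fun s => S.Sp x s (x j)).card : ℝ) * S.ρ ^ S.a :=
      mul_le_mul_of_nonneg_right h0.le hρa.le
    have h5 : 5 / 8 * (ℓ * S.ρ ^ S.a) * S.ρ ^ S.a = 5 / 8 * (ℓ * S.ρ ^ (2 * S.a)) := by
      rw [two_mul, pow_add]; ring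
    rw [mul_comm S.a 2]
    linarith

end Sys

end Crest.Agent.R042.TLev333
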