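import Mathlib

/-! Row 42 / S0059, T-level: sampling a fingerprint from a law. -/

set_option autoImplicit false
set_option linter.unusedSectionVars false

namespace Crest.Agent.R042.TLev333

open Finset Function
open scoped Classical

section Samp

variable {σ I : Type*} [Fintype σ] [DecidableEq σ] [Fintype I] [DecidableEq I]

/-- product formula. -/
lemma prodE (ℓ : ℕ) (τ : σ → ℝ) (h : Fin ℓ → σ → ℝ) :
    ∑ F : Fin ℓ → σ, (∏ k, τ (F k)) * ∏ k, h k (F k) = ∏ k, ∑ s, τ s * h k s := by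
  rw [Finset.prod_univ_sum, Fintype.piFinset_univ]
  refine Finset.sum_congr rfl (fun F _ => ?_)
  rw [← Finset.prod_mul_distrib]

/-- total mass. -/
lemma E_one (ℓ : ℕ) (τ : σ → ℝ) (h1 : ∑ s, τ s = 1) :
    ∑ F : Fin ℓ → σ, ∏ k, τ (F k) = 1 := by
  have := prodE ℓ τ (fun _ _ => 1)
  simp only [Finset.prod_const_one, mul_one, h1] at this
  exact this

lemma E_single (ℓ : ℕ) (τ : σ → ℝ) (h1 : ∑ s, τ s = 1) (k : Fin ℓ) (g : σ → ℝ) :
    ∑ F : Fin ℓ → σ, (∏ k, τ (F k)) * g (F k) = ∑ s, τ s * g s := by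
  have := prodE ℓ τ (fun k' s => if k' = k then g s else 1)
  rw [Fintype.prod_eq_single k (fun k' hk' => by simp [hk', h1])] at this
  simp only [if_true] at this
  rw [← this]
  refine Finset.sum_congr rfl (fun F _ => ?_)
  congr 1
  rw [Fintype.prod_eq_single k (fun k' hk' => by simp [hk'])]
  simp

lemma E_pair (ℓ : ℕ) (τ : σ → ℝ) (h1 : ∑ s, τ s = 1) (k k' : Fin ℓ) (hkk : k ≠ k')
    (g g' : σ → ℝ) :
    ∑ F : Fin ℓ → σ, (∏ k, τ (F k)) * (g (F k) * g' (F k')) =
      (∑ s, τ s * g s) * (∑ s, τ s * g' s) := by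
  have := prodE ℓ τ (fun j s => if j = k then g s else if j = k' then g' s else 1)
  rw [Fintype.prod_eq_mul k k' hkk (fun j hj => by simp [hj.1, hj.2, h1])] at this
  simp only [if_true, hkk.symm, if_false] at this
  rw [← this]
  refine Finset.sum_congr rfl (fun F _ => ?_)
  congr 1
  rw [Fintype.prod_eq_mul k k' hkk (fun j hj => by simp [hj.1, hj.2])]
  simp [hkk.symm]

/-- colliding entries. -/
noncomputable def coll (idx : σ → Finset I) {ℓ : ℕ} (F : Fin ℓ → σ) : Finset (Fin ℓ) :=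
  univ.filter fun k => ∃ k', k' ≠ k ∧ ¬ Disjoint (idx (F k)) (idx (F k'))

lemma E_coll (idx : σ → Finset I) (a : ℕ) (hidx : ∀ s, (idx s).card = a)
    (τ : σ → ℝ) (h0 : ∀ s, 0 ≤ τ s) (h1 : ∑ s, τ s = 1)
    (m : ℝ) (hm : ∀ i, ∑ s ∈ univ.filter (fun s => i ∈ idx s), τ s ≤ m) (ℓ : ℕ) :
    ∑ F : Fin ℓ → σ, (∏ k, τ (F k)) * ((coll idx F).card : ℝ) ≤ (ℓ : ℝ) ^ 2 * a * m := by
  set g : I → σ → ℝ := fun i s => if i ∈ idx s then 1 else 0 with hg
  have hgm : ∀ i, ∑ s, τ s * g i s ≤ m := by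
    intro i
    refine le_trans (le_of_eq ?_) (hm i)
    rw [Finset.sum_filter]
    refine Finset.sum_congr rfl (fun s _ => ?_)
    simp only [hg]
    split_ifs <;> simp
  have hg0 : ∀ i, 0 ≤ ∑ s, τ s * g i s := by
    intro i
    refine Finset.sum_nonneg (fun s _ => mul_nonneg (h0 s) ?_)
    simp only [hg]
    split_ifs <;> norm_num
  have hga : ∑ i, ∑ s, τ s * g i s = a := by
    rw [Finset.sum_comm]
    have : ∀ s, ∑ i, τ s * g i s = τ s * a := by
      intro s
      rw [← Finset.mul_sum]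
      congr 1
      simp only [hg]
      rw [Finset.sum_ite_mem, Finset.univ_inter, Finset.sum_const, hidx s]
      simp
    simp only [this]
    rw [← Finset.sum_mul, h1, one_mul]
  -- pointwise bound
  have hpt : ∀ F : Fin ℓ → σ, ((coll idx F).card : ℝ) ≤
      ∑ k, ∑ k', if k' ≠ k then ∑ i, g i (F k) * g i (F k') else 0 := by
    intro F
    unfold coll
    rw [Finset.card_filter]
    push_cast
    refine Finset.sum_le_sum (fun k _ => ?_)
    have hnn : ∀ k' : Fin ℓ, 0 ≤ (if k' ≠ k then ∑ i, g i (F k) * g i (F k') else 0) := by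
      intro k'
      split_ifs
      · refine Finset.sum_nonneg (fun i _ => mul_nonneg ?_ ?_)
        · simp only [hg]; split_ifs <;> norm_num
        · simp only [hg]; split_ifs <;> norm_num
      · exact le_rfl
    split_ifs with h
    · obtain ⟨k', hk', hd⟩ := h
      rw [Finset.not_disjoint_iff] at hd
      obtain ⟨i, hi, hi'⟩ := hd
      refine le_trans ?_ (Finset.single_le_sum
        (f := fun k' => if k' ≠ k then ∑ i, g i (F k) * g i (F k') else 0)
        (fun k' _ => hnn k') (Finset.mem_univ k'))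
      rw [if_pos hk']
      refine le_trans (le_of_eq ?_) (Finset.single_le_sum
        (f := fun i => g i (F k) * g i (F k')) (fun i _ => ?_) (Finset.mem_univ i))
      · simp only [hg]
        rw [if_pos hi, if_pos hi', mul_one]
      · refine mul_nonneg ?_ ?_
        · simp only [hg]; split_ifs <;> norm_num
        · simp only [hg]; split_ifs <;> norm_num
    · exact Finset.sum_nonneg (fun k' _ => hnn k')
  have hw : ∀ F : Fin ℓ → σ, 0 ≤ ∏ k, τ (F k) := fun F => Finset.prod_nonneg (fun k _ => h0 _)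
  calc ∑ F : Fin ℓ → σ, (∏ k, τ (F k)) * ((coll idx F).card : ℝ)
      ≤ ∑ F : Fin ℓ → σ, (∏ k, τ (F k)) *
          (∑ k, ∑ k', if k' ≠ k then ∑ i, g i (F k) * g i (F k') else 0) :=
        Finset.sum_le_sum (fun F _ => mul_le_mul_of_nonneg_left (hpt F) (hw F))
    _ = ∑ k, ∑ k', ∑ F : Fin ℓ → σ, (∏ k, τ (F k)) *
          (if k' ≠ k then ∑ i, g i (F k) * g i (F k') else 0) := by
        simp only [Finset.mul_sum]
        rw [Finset.sum_comm]
        refine Finset.sum_congr rfl (fun k _ => ?_)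
        rw [Finset.sum_comm]
    _ ≤ ∑ k : Fin ℓ, ∑ k' : Fin ℓ, a * m := by
        refine Finset.sum_le_sum (fun k _ => Finset.sum_le_sum (fun k' _ => ?_))
        have ham : 0 ≤ (a : ℝ) * m := by
          rcases isEmpty_or_nonempty I with hI | hI
          · have : (a : ℝ) = 0 := by rw [← hga]; simp
            rw [this, zero_mul]
          · obtain ⟨i⟩ := hI
            exact mul_nonneg (by positivity) ((hg0 i).trans (hgm i))
        by_cases hk : k' = k
        · simp only [hk, ne_eq, not_true_eq_false, if_false, mul_zero, Finset.sum_const_zero]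
          exact ham
        · simp only [ne_eq, hk, not_false_eq_true, if_true, Finset.mul_sum]
          rw [Finset.sum_comm]
          calc ∑ i, ∑ F : Fin ℓ → σ, (∏ k, τ (F k)) * (g i (F k) * g i (F k'))
              = ∑ i, (∑ s, τ s * g i s) * (∑ s, τ s * g i s) :=
                Finset.sum_congr rfl (fun i _ =>
                  E_pair ℓ τ h1 k k' (fun h => hk h.symm) (g i) (g i))
            _ ≤ ∑ i, (∑ s, τ s * g i s) * m :=
                Finset.sum_le_sum (fun i _ => mul_le_mul_of_nonneg_left (hgm i) (hg0 i))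
            _ = a * m := by rw [← Finset.sum_mul, hga]
    _ = _ := by
        simp only [Finset.sum_const, Finset.card_univ, Fintype.card_fin, nsmul_eq_mul]
        ring

/-- the core of the sampling argument. -/
lemma samp_core {β : Type*} [DecidableEq β] (idx : σ → Finset I) (a : ℕ)
    (hidx : ∀ s, (idx s).card = a)
    (τ : σ → ℝ) (h0 : ∀ s, 0 ≤ τ s) (h1 : ∑ s, τ s = 1)
    (m : ℝ) (hm : ∀ i, ∑ s ∈ univ.filter (fun s => i ∈ idx s), τ s ≤ m)
    (ℓ : ℕ) (κ : ℝ) (hκ0 : 0 < κ) (hκ : 8 * (ℓ : ℝ) ^ 2 * a * m ≤ κ)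
    (B : Finset β) (ok : β → (Fin ℓ → σ) → Prop)
    (hok : ∀ b ∈ B, ∑ F : Fin ℓ → σ, (∏ k, τ (F k)) * (if ok b F then 0 else 1) ≤ 1 / 2) :
    ∃ F : Fin ℓ → σ, ((coll idx F).card : ℝ) ≤ κ ∧
      (B.card : ℝ) ≤ 4 * ((B.filter fun b => ok b F).card : ℝ) := by
  have hw : ∀ F : Fin ℓ → σ, 0 ≤ ∏ k, τ (F k) := fun F => Finset.prod_nonneg (fun k _ => h0 _)
  by_contra hcon
  push Not at hcon
  have hcoll := E_coll idx a hidx τ h0 h1 m hm ℓ
  -- probability of many collisions
  have p1 : ∑ F : Fin ℓ → σ, (∏ k, τ (F k)) *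
      (if ((coll idx F).card : ℝ) ≤ κ then 0 else 1) ≤ 1 / 8 := by
    have h2 : (∑ F : Fin ℓ → σ, (∏ k, τ (F k)) *
        (if ((coll idx F).card : ℝ) ≤ κ then 0 else 1)) * κ ≤
        ∑ F : Fin ℓ → σ, (∏ k, τ (F k)) * ((coll idx F).card : ℝ) := by
      rw [Finset.sum_mul]
      refine Finset.sum_le_sum (fun F _ => ?_)
      rw [mul_assoc]
      refine mul_le_mul_of_nonneg_left ?_ (hw F)
      split_ifs with h
      · rw [zero_mul]; positivity
      · rw [one_mul]
        push Not at h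
        exact h.le
    have h3 := h2.trans hcoll
    by_contra h4
    push Not at h4
    nlinarith
  -- the average of `1[good] (4 #ok + 1)`
  have p2 : ∑ F : Fin ℓ → σ, (∏ k, τ (F k)) *
      (if ((coll idx F).card : ℝ) ≤ κ then ((B.filter fun b => ok b F).card : ℝ) else 0) ≥
      B.card * (3 / 8) := by
    have h2 : ∀ b ∈ B, 3 / 8 ≤ ∑ F : Fin ℓ → σ, (∏ k, τ (F k)) *
        (if ((coll idx F).card : ℝ) ≤ κ then (if ok b F then 1 else 0) else 0) := by
      intro b hb
      have h3 : ∑ F : Fin ℓ → σ, (∏ k, τ (F k)) ≤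
          ∑ F : Fin ℓ → σ, ((∏ k, τ (F k)) *
          (if ((coll idx F).card : ℝ) ≤ κ then (if ok b F then 1 else 0) else 0) +
          (∏ k, τ (F k)) * (if ((coll idx F).card : ℝ) ≤ κ then 0 else 1) +
          (∏ k, τ (F k)) * (if ok b F then 0 else 1)) := by
        refine Finset.sum_le_sum (fun F _ => ?_)
        have := hw F
        split_ifs <;> simp <;> linarith
      rw [Finset.sum_add_distrib, Finset.sum_add_distrib, E_one ℓ τ h1] at h3
      have := hok b hb
      linarith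
    have h3 := Finset.sum_le_sum h2
    rw [Finset.sum_const, nsmul_eq_mul, Finset.sum_comm] at h3
    refine h3.trans (le_of_eq ?_)
    refine Finset.sum_congr rfl (fun F _ => ?_)
    rw [← Finset.mul_sum]
    congr 1
    split_ifs
    · rw [Finset.card_filter]
      push_cast
      rfl
    · simp
  -- pointwise bound from `hcon`
  have p3 : ∀ F : Fin ℓ → σ, (∏ k, τ (F k)) *
      (if ((coll idx F).card : ℝ) ≤ κ then ((B.filter fun b => ok b F).card : ℝ) else 0) ≤
      (∏ k, τ (F k)) * ((B.card : ℝ) / 4) := by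
    intro F
    refine mul_le_mul_of_nonneg_left ?_ (hw F)
    split_ifs with h
    · have := hcon F h
      linarith
    · positivity
  have p4 := Finset.sum_le_sum (fun (F : Fin ℓ → σ) (_ : F ∈ univ) => p3 F)
  rw [← Finset.sum_mul, E_one ℓ τ h1, one_mul] at p4
  have hBc : (0 : ℝ) ≤ B.card := by positivity
  have hB0 : (B.card : ℝ) = 0 := by nlinarith
  -- then nobody is good
  have p5 : ∀ F : Fin ℓ → σ, ¬ ((coll idx F).card : ℝ) ≤ κ := by
    intro F h
    have := hcon F h
    rw [hB0] at this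
    have h' : (0 : ℝ) ≤ ((B.filter fun b => ok b F).card : ℝ) := by positivity
    linarith
  have p6 : ∑ F : Fin ℓ → σ, (∏ k, τ (F k)) *
      (if ((coll idx F).card : ℝ) ≤ κ then (0 : ℝ) else 1) = 1 := by
    refine (Finset.sum_congr rfl (fun F _ => ?_)).trans (E_one ℓ τ h1)
    rw [if_neg (p5 F), mul_one]
  linarith

/-- the fingerprint of a sample. -/
noncomputable def fp (idx : σ → Finset I) {ℓ : ℕ} (F : Fin ℓ → σ) : Finset σ :=
  (univ \ coll idx F).image F

lemma fp_inj (idx : σ → Finset I) (hne : ∀ s, (idx s).Nonempty) {ℓ : ℕ} (F : Fin ℓ → σ) :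
    Set.InjOn F ((univ \ coll idx F : Finset (Fin ℓ)) : Set (Fin ℓ)) := by
  intro k hk k' hk' h
  by_contra hne'
  have hk2 : k ∉ coll idx F := (Finset.mem_sdiff.1 (Finset.mem_coe.1 hk)).2
  apply hk2
  unfold coll
  rw [Finset.mem_filter]
  refine ⟨Finset.mem_univ _, k', fun h => hne' h.symm, ?_⟩
  rw [← h, Finset.disjoint_self_iff_empty]
  exact (hne (F k)).ne_empty

lemma fp_card (idx : σ → Finset I) (hne : ∀ s, (idx s).Nonempty) {ℓ : ℕ} (F : Fin ℓ → σ) :
    (fp idx F).card + (coll idx F).card = ℓ := by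
  unfold fp
  rw [Finset.card_image_of_injOn (fp_inj idx hne F),
    Finset.card_sdiff_add_card_eq_card (Finset.subset_univ _), Finset.card_univ,
    Fintype.card_fin]

lemma fp_disj (idx : σ → Finset I) {ℓ : ℕ} (F : Fin ℓ → σ) :
    ∀ s ∈ fp idx F, ∀ s' ∈ fp idx F, s ≠ s' → Disjoint (idx s) (idx s') := by
  intro s hs s' hs' hne
  unfold fp at hs hs'
  rw [Finset.mem_image] at hs hs'
  obtain ⟨k, hk, rfl⟩ := hs
  obtain ⟨k', hk', rfl⟩ := hs'
  by_contra hd
  have hk2 := (Finset.mem_sdiff.1 hk).2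
  apply hk2
  unfold coll
  rw [Finset.mem_filter]
  refine ⟨Finset.mem_univ _, k', ?_, hd⟩
  rintro rfl
  exact hne rfl

lemma fp_inter_le (idx : σ → Finset I) {ℓ : ℕ} (F : Fin ℓ → σ) (A : Finset σ) :
    (fp idx F ∩ A).card ≤ (univ.filter fun k => F k ∈ A).card := by
  have h1 : fp idx F ∩ A ⊆ (univ.filter fun k => F k ∈ A).image F := by
    intro s hs
    unfold fp at hs
    rw [Finset.mem_inter, Finset.mem_image] at hs
    obtain ⟨⟨k, _, rfl⟩, hA⟩ := hs
    exact Finset.mem_image_of_mem _ (Finset.mem_filter.2 ⟨Finset.mem_univ _, hA⟩)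
  exact (Finset.card_le_card h1).trans Finset.card_image_le

lemma le_fp_inter (idx : σ → Finset I) (hne : ∀ s, (idx s).Nonempty) {ℓ : ℕ} (F : Fin ℓ → σ)
    (A : Finset σ) :
    (univ.filter fun k => F k ∈ A).card ≤ (fp idx F ∩ A).card + (coll idx F).card := by
  have h1 : (univ.filter fun k => F k ∈ A) ⊆
      ((univ \ coll idx F).filter fun k => F k ∈ A) ∪ coll idx F := by
    intro k hk
    rw [Finset.mem_union, Finset.mem_filter, Finset.mem_sdiff]
    by_cases h : k ∈ coll idx F
    · exact Or.inr h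
    · exact Or.inl ⟨⟨Finset.mem_univ _, h⟩, (Finset.mem_filter.1 hk).2⟩
  refine (Finset.card_le_card h1).trans ((Finset.card_union_le _ _).trans ?_)
  refine Nat.add_le_add_right ?_ _
  have h2 : (((univ \ coll idx F).filter fun k => F k ∈ A).image F) ⊆ fp idx F ∩ A := by
    intro s hs
    rw [Finset.mem_image] at hs
    obtain ⟨k, hk, rfl⟩ := hs
    rw [Finset.mem_filter] at hk
    exact Finset.mem_inter.2 ⟨Finset.mem_image_of_mem _ hk.1, hk.2⟩
  refine le_trans (le_of_eq ?_) (Finset.card_le_card h2)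
  rw [Finset.card_image_of_injOn]
  exact (fp_inj idx hne F).mono (by
    intro k hk
    exact (Finset.mem_filter.1 (Finset.mem_coe.1 hk)).1)

end Samp

theorem samp_up {σ I β : Type*} [Fintype σ] [DecidableEq σ] [Fintype I] [DecidableEq I]
    [DecidableEq β] (idx : σ → Finset I) (a : ℕ) (ha : 1 ≤ a) (hidx : ∀ s, (idx s).card = a)
    (τ : σ → ℝ) (h0 : ∀ s, 0 ≤ τ s) (h1 : ∑ s, τ s = 1)
    (m : ℝ) (hm : ∀ i, ∑ s ∈ Finset.univ.filter (fun s => i ∈ idx s), τ s ≤ m)
    (ℓ : ℕ) (κ : ℝ) (hκ0 : 0 < κ) (hκ : 8 * (ℓ : ℝ) ^ 2 * a * m ≤ κ)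
    (B : Finset β) (A : β → Finset σ) (t : ℝ) (ht : 16 ≤ t)
    (hA : ∀ b ∈ B, 2 * t ≤ ℓ * ∑ s ∈ A b, τ s) :
    ∃ Φ : Finset σ, Φ.card ≤ ℓ ∧ (ℓ : ℝ) - κ ≤ Φ.card ∧
      (∀ s ∈ Φ, ∀ s' ∈ Φ, s ≠ s' → Disjoint (idx s) (idx s')) ∧
      (B.card : ℝ) ≤ 4 * ((B.filter (fun b => t - κ ≤ ((Φ ∩ A b).card : ℝ))).card : ℝ) := by
  have hne : ∀ s, (idx s).Nonempty := fun s => Finset.card_pos.1 (by rw [hidx s]; omega)
  have hw : ∀ F : Fin ℓ → σ, 0 ≤ ∏ k, τ (F k) := fun F => Finset.prod_nonneg (fun k _ => h0 _)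
  obtain ⟨F, f1, f2⟩ := samp_core idx a hidx τ h0 h1 m hm ℓ κ hκ0 hκ B
    (fun b F => t ≤ ((univ.filter fun k => F k ∈ A b).card : ℝ)) (by
      intro b hb
      set p : ℝ := ∑ s ∈ A b, τ s with hp
      have hp1 : p ≤ 1 := by
        rw [← h1, hp]
        exact Finset.sum_le_sum_of_subset_of_nonneg (Finset.subset_univ _) (fun s _ _ => h0 s)
      -- exponential moment
      have e1 : ∑ F : Fin ℓ → σ, (∏ k, τ (F k)) * ∏ k, (if F k ∈ A b then (1 / 2 : ℝ) else 1) =
          (1 - p / 2) ^ ℓ := by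
        rw [prodE ℓ τ (fun _ s => if s ∈ A b then (1 / 2 : ℝ) else 1)]
        have : ∑ s, τ s * (if s ∈ A b then (1 / 2 : ℝ) else 1) = 1 - p / 2 := by
          have e : ∀ s, τ s * (if s ∈ A b then (1 / 2 : ℝ) else 1) =
              τ s - (if s ∈ A b then τ s else 0) / 2 := by
            intro s
            split_ifs <;> ring
          simp only [e]
          rw [Finset.sum_sub_distrib, h1, ← Finset.sum_div, Finset.sum_ite_mem,
            Finset.univ_inter]
        simp only [this, Finset.prod_const, Finset.card_univ, Fintype.card_fin]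
      have e2 : (1 - p / 2) ^ ℓ ≤ Real.exp (-t) := by
        have h3 : 1 - p / 2 ≤ Real.exp (-(p / 2)) := by
          have := Real.add_one_le_exp (-(p / 2))
          linarith
        calc (1 - p / 2) ^ ℓ ≤ (Real.exp (-(p / 2))) ^ ℓ :=
              pow_le_pow_left₀ (by linarith) h3 ℓ
          _ = Real.exp (ℓ * (-(p / 2))) := by rw [← Real.exp_nat_mul]
          _ ≤ Real.exp (-t) := by
              refine Real.exp_le_exp.2 ?_
              have := hA b hb
              linarith
      have e3 : ∀ F : Fin ℓ → σ, (if t ≤ ((univ.filter fun k => F k ∈ A b).card : ℝ) then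
          (0 : ℝ) else 1) ≤ Real.exp (t * Real.log 2) *
            ∏ k, (if F k ∈ A b then (1 / 2 : ℝ) else 1) := by
        intro F
        have h3 : ∏ k, (if F k ∈ A b then (1 / 2 : ℝ) else 1) =
            (1 / 2) ^ (univ.filter fun k => F k ∈ A b).card := by
          rw [Finset.prod_ite, Finset.prod_const, Finset.prod_const_one, mul_one]
        rw [h3]
        split_ifs with h
        · positivity
        · push Not at h
          have h4 : ((1 : ℝ) / 2) ^ (univ.filter fun k => F k ∈ A b).card =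
              Real.exp (-(((univ.filter fun k => F k ∈ A b).card : ℝ) * Real.log 2)) := by
            rw [Real.exp_neg, Real.exp_nat_mul, Real.exp_log (by norm_num)]
            rw [one_div, inv_pow]
          rw [h4, ← Real.exp_add]
          refine Real.one_le_exp ?_
          have h5 : 0 < Real.log 2 := Real.log_pos (by norm_num)
          nlinarith
      calc ∑ F : Fin ℓ → σ, (∏ k, τ (F k)) *
            (if t ≤ ((univ.filter fun k => F k ∈ A b).card : ℝ) then (0 : ℝ) else 1)
          ≤ ∑ F : Fin ℓ → σ, (∏ k, τ (F k)) * (Real.exp (t * Real.log 2) *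
            ∏ k, (if F k ∈ A b then (1 / 2 : ℝ) else 1)) :=
            Finset.sum_le_sum (fun F _ => mul_le_mul_of_nonneg_left (e3 F) (hw F))
        _ = Real.exp (t * Real.log 2) * ∑ F : Fin ℓ → σ, (∏ k, τ (F k)) *
            ∏ k, (if F k ∈ A b then (1 / 2 : ℝ) else 1) := by
            rw [Finset.mul_sum]
            refine Finset.sum_congr rfl (fun F _ => ?_)
            ring
        _ ≤ Real.exp (t * Real.log 2) * Real.exp (-t) := by
            rw [e1]
            exact mul_le_mul_of_nonneg_left e2 (Real.exp_pos _).le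
        _ = Real.exp (-(t * (1 - Real.log 2))) := by
            rw [← Real.exp_add]
            congr 1
            ring
        _ ≤ Real.exp (-1) := by
            refine Real.exp_le_exp.2 ?_
            have := Real.log_two_lt_d9
            nlinarith
        _ ≤ 1 / 2 := by
            rw [Real.exp_neg, ← one_div]
            refine one_div_le_one_div_of_le (by norm_num) ?_
            have := Real.add_one_le_exp (1 : ℝ)
            linarith)
  refine ⟨fp idx F, ?_, ?_, fp_disj idx F, ?_⟩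
  · have := fp_card idx hne F
    omega
  · have h2 := fp_card idx hne F
    have h3 : ((fp idx F).card : ℝ) + (coll idx F).card = ℓ := by exact_mod_cast h2
    linarith
  · refine f2.trans ?_
    have h2 : (B.filter fun b => t ≤ ((univ.filter fun k => F k ∈ A b).card : ℝ)).card ≤
        (B.filter (fun b => t - κ ≤ ((fp idx F ∩ A b).card : ℝ))).card := by
      refine Finset.card_le_card ?_
      intro b hb
      rw [Finset.mem_filter] at hb ⊢
      refine ⟨hb.1, ?_⟩
      have h3 := le_fp_inter idx hne F (A b)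
      have h4 : ((univ.filter fun k => F k ∈ A b).card : ℝ) ≤
          ((fp idx F ∩ A b).card : ℝ) + ((coll idx F).card : ℝ) := by exact_mod_cast h3
      linarith [hb.2]
    have h3 : ((B.filter fun b => t ≤ ((univ.filter fun k => F k ∈ A b).card : ℝ)).card : ℝ) ≤
        ((B.filter (fun b => t - κ ≤ ((fp idx F ∩ A b).card : ℝ))).card : ℝ) := by
      exact_mod_cast h2
    linarith

theorem samp_low {σ I β : Type*} [Fintype σ] [DecidableEq σ] [Fintype I] [DecidableEq I]
    [DecidableEq β] (idx : σ → Finset I) (a : ℕ) (ha : 1 ≤ a) (hidx : ∀ s, (idx s).card = a)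
    (τ : σ → ℝ) (h0 : ∀ s, 0 ≤ τ s) (h1 : ∑ s, τ s = 1)
    (m : ℝ) (hm : ∀ i, ∑ s ∈ Finset.univ.filter (fun s => i ∈ idx s), τ s ≤ m)
    (ℓ : ℕ) (κ : ℝ) (hκ0 : 0 < κ) (hκ : 8 * (ℓ : ℝ) ^ 2 * a * m ≤ κ)
    (B : Finset β) (A : β → Finset σ) (t : ℝ) (ht : 0 < t)
    (hA : ∀ b ∈ B, ℓ * ∑ s ∈ A b, τ s ≤ t) :
    ∃ Φ : Finset σ, Φ.card ≤ ℓ ∧ (ℓ : ℝ) - κ ≤ Φ.card ∧
      (∀ s ∈ Φ, ∀ s' ∈ Φ, s ≠ s' → Disjoint (idx s) (idx s')) ∧
      (B.card : ℝ) ≤ 4 * ((B.filter (fun b => ((Φ ∩ A b).card : ℝ) ≤ 2 * t)).card : ℝ) := by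
  have hne : ∀ s, (idx s).Nonempty := fun s => Finset.card_pos.1 (by rw [hidx s]; omega)
  have hw : ∀ F : Fin ℓ → σ, 0 ≤ ∏ k, τ (F k) := fun F => Finset.prod_nonneg (fun k _ => h0 _)
  obtain ⟨F, f1, f2⟩ := samp_core idx a hidx τ h0 h1 m hm ℓ κ hκ0 hκ B
    (fun b F => ((univ.filter fun k => F k ∈ A b).card : ℝ) ≤ 2 * t) (by
      intro b hb
      set p : ℝ := ∑ s ∈ A b, τ s with hp
      have e1 : ∑ F : Fin ℓ → σ, (∏ k, τ (F k)) * ((univ.filter fun k => F k ∈ A b).card : ℝ) =
          ℓ * p := by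
        have h2 : ∀ F : Fin ℓ → σ, ((univ.filter fun k => F k ∈ A b).card : ℝ) =
            ∑ k, (if F k ∈ A b then (1 : ℝ) else 0) := by
          intro F
          rw [Finset.card_filter]
          push_cast
          rfl
        simp only [h2, Finset.mul_sum]
        rw [Finset.sum_comm]
        have h3 : ∀ k : Fin ℓ, ∑ F : Fin ℓ → σ, (∏ k, τ (F k)) *
            (if F k ∈ A b then (1 : ℝ) else 0) = p := by
          intro k
          rw [E_single ℓ τ h1 k (fun s => if s ∈ A b then (1 : ℝ) else 0)]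
          simp only [mul_ite, mul_one, mul_zero]
          rw [Finset.sum_ite_mem, Finset.univ_inter]
        rw [Finset.sum_congr rfl (fun k _ => h3 k), Finset.sum_const, Finset.card_univ,
          Fintype.card_fin, nsmul_eq_mul]
      have e2 : (∑ F : Fin ℓ → σ, (∏ k, τ (F k)) *
          (if ((univ.filter fun k => F k ∈ A b).card : ℝ) ≤ 2 * t then (0 : ℝ) else 1)) * (2 * t) ≤
          ℓ * p := by
        rw [← e1, Finset.sum_mul]
        refine Finset.sum_le_sum (fun F _ => ?_)
        rw [mul_assoc]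
        refine mul_le_mul_of_nonneg_left ?_ (hw F)
        split_ifs with h
        · rw [zero_mul]; positivity
        · rw [one_mul]
          push Not at h
          exact h.le
      have e3 := e2.trans (hA b hb)
      by_contra h4
      push Not at h4
      nlinarith)
  refine ⟨fp idx F, ?_, ?_, fp_disj idx F, ?_⟩
  · have := fp_card idx hne F
    omega
  · have h2 := fp_card idx hne F
    have h3 : ((fp idx F).card : ℝ) + (coll idx F).card = ℓ := by exact_mod_cast h2
    linarith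
  · refine f2.trans ?_
    have h2 : (B.filter fun b => ((univ.filter fun k => F k ∈ A b).card : ℝ) ≤ 2 * t).card ≤
        (B.filter (fun b => ((fp idx F ∩ A b).card : ℝ) ≤ 2 * t)).card := by
      refine Finset.card_le_card ?_
      intro b hb
      rw [Finset.mem_filter] at hb ⊢
      refine ⟨hb.1, ?_⟩
      have h3 := fp_inter_le idx F (A b)
      have h4 : ((fp idx F ∩ A b).card : ℝ) ≤
          ((univ.filter fun k => F k ∈ A b).card : ℝ) := by exact_mod_cast h3
      linarith [hb.2]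
    have h3 : ((B.filter fun b => ((univ.filter fun k => F k ∈ A b).card : ℝ) ≤ 2 * t).card : ℝ) ≤
        ((B.filter (fun b => ((fp idx F ∩ A b).card : ℝ) ≤ 2 * t)).card : ℝ) := by
      exact_mod_cast h2
    linarith

end Crest.Agent.R042.TLev333
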