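import Crest.Agent.R042.TLevE_333
import Crest.Agent.R042.TLevS_333

/-! Row 42 / S0059, T-level, part F: the sampling step (exceptional mass of a law). -/

set_option autoImplicit false
set_option linter.unusedSectionVars false

namespace Crest.Agent.R042.TLev333

open Finset Function
open scoped Classical


namespace Sys

variable {I Ω σ : Type*} [Fintype Ω] [Fintype I] [DecidableEq I] [Fintype σ] [DecidableEq σ]
  {S : Sys I Ω σ}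

lemma E_le {ℓ b : ℕ} (hb2 : b ≤ 2) :
    S.η * ℓ * S.ρ ^ 4 ≤ S.η * (ℓ * S.ρ ^ (S.a * b)) := by
  have hη0 := S.η0
  rw [mul_assoc]
  refine mul_le_mul_of_nonneg_left (mul_le_mul_of_nonneg_left ?_ (by positivity)) hη0.le
  refine pow_le_pow_of_le_one S.ρ0.le S.ρ1 ?_
  have := S.a2
  nlinarith

/-- disjoint test sets with much dead mass are few. -/
theorem ts_up {ℓ r b : ℕ} {x : I → Ω} (hG : S.Good ℓ r x) (hgen : Gen S.perp S.ρ x univ)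
    (hE : 1 ≤ S.η * ℓ * S.ρ ^ 4) (hb1 : 1 ≤ b) (hb2 : b ≤ 2)
    (τ : σ → ℝ) (h0 : ∀ s, 0 ≤ τ s) (h1 : ∑ s, τ s = 1)
    (m : ℝ) (hm0 : 0 ≤ m) (hm : ∀ i, ∑ s ∈ univ.filter (fun s => i ∈ S.idx s), τ s ≤ m)
    (hℓm : 2 * ℓ * m ≤ S.η * S.ρ ^ 4)
    (B : Finset (Finset I)) (hBc : ∀ T ∈ B, T.card = b)
    (hBd : ∀ T ∈ B, ∀ T' ∈ B, T ≠ T' → Disjoint T T')
    (hB : ∀ T ∈ B, 32 * S.η * S.ρ ^ (S.a * b) ≤ ∑ s ∈ S.FA x T, τ s) :
    (B.card : ℝ) ≤ 8 * (ℓ + r) := by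
  have hη0 := S.η0
  have hρ0 := S.ρ0
  have hEb := E_le (S := S) (ℓ := ℓ) hb2
  set W : ℝ := S.η * (ℓ * S.ρ ^ (S.a * b)) with hW
  have hℓ : 0 < ℓ := by
    rcases Nat.eq_zero_or_pos ℓ with rfl | h
    · simp at hE; linarith
    · exact h
  have hℓ0 : (0 : ℝ) < ℓ := by exact_mod_cast hℓ
  have ha2 : (S.a : ℝ) ≤ 2 := by exact_mod_cast S.a2
  obtain ⟨Φ, f1, f2, f3, f4⟩ := samp_up S.idx S.a S.a1 S.card_idx τ h0 h1 m hm ℓ (8 * W)
    (by linarith) (by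
      calc 8 * (ℓ : ℝ) ^ 2 * S.a * m ≤ 8 * (ℓ : ℝ) ^ 2 * 2 * m := by gcongr
        _ = 8 * ℓ * (2 * ℓ * m) := by ring
        _ ≤ 8 * ℓ * (S.η * S.ρ ^ 4) := by gcongr
        _ = 8 * (S.η * ℓ * S.ρ ^ 4) := by ring
        _ ≤ 8 * W := by linarith) B (fun T => S.FA x T) (16 * W) (by linarith) (by
      intro T hT
      have := mul_le_mul_of_nonneg_left (hB T hT) hℓ0.le
      calc 2 * (16 * W) = ℓ * (32 * S.η * S.ρ ^ (S.a * b)) := by rw [hW]; ring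
        _ ≤ _ := this)
  have hgU : Gen S.perp S.ρ x (S.U Φ) := fun J _ hJ8 => hgen J (Finset.subset_univ _) hJ8
  have h5 := few_exceptional hG Φ f1 f3
    (B.filter (fun b => 16 * W - 8 * W ≤ ((Φ ∩ S.FA x b).card : ℝ)))
    (fun T hT T' hT' => hBd T (Finset.mem_filter.1 hT).1 T' (Finset.mem_filter.1 hT').1) (by
      intro T hT
      rw [Finset.mem_filter] at hT
      by_contra hcon
      push Not at hcon
      obtain ⟨_, c2, c3⟩ := hcon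
      have h6 := FA_small Φ hgU hℓ T (hBc T hT.1) hb1 hb2 c2 c3
      rw [← hW] at h6
      have := hT.2
      linarith)
  have h6 : (((B.filter (fun b => 16 * W - 8 * W ≤ ((Φ ∩ S.FA x b).card : ℝ))).card : ℕ) : ℝ) ≤
      2 * ℓ + r + r := by exact_mod_cast h5
  linarith

/-- disjoint test sets with little perpendicular mass are few. -/
theorem ts_low {ℓ r b : ℕ} {x : I → Ω} (hG : S.Good ℓ r x) (hgen : Gen S.perp S.ρ x univ)
    (hE : 1 ≤ S.η * ℓ * S.ρ ^ 4) (hη : S.η ≤ 1 / 64) (hb1 : 1 ≤ b) (hb2 : b ≤ 2)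
    (τ : σ → ℝ) (h0 : ∀ s, 0 ≤ τ s) (h1 : ∑ s, τ s = 1)
    (m : ℝ) (hm0 : 0 ≤ m) (hm : ∀ i, ∑ s ∈ univ.filter (fun s => i ∈ S.idx s), τ s ≤ m)
    (hℓm : 2 * ℓ * m ≤ S.η * S.ρ ^ 4)
    (B : Finset (Finset I)) (hBc : ∀ T ∈ B, T.card = b)
    (hBd : ∀ T ∈ B, ∀ T' ∈ B, T ≠ T' → Disjoint T T')
    (hB : ∀ T ∈ B, ∑ s ∈ S.GA x T, τ s ≤ 1 / 16 * S.ρ ^ (S.a * b)) :
    (B.card : ℝ) ≤ 8 * (ℓ + r) := by
  have hη0 := S.η0
  have hρ0 := S.ρ0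
  have hρ1 := S.ρ1
  have hℓ : 0 < ℓ := by
    rcases Nat.eq_zero_or_pos ℓ with rfl | h
    · simp at hE; linarith
    · exact h
  have hℓ0 : (0 : ℝ) < ℓ := by exact_mod_cast hℓ
  have ha2 : (S.a : ℝ) ≤ 2 := by exact_mod_cast S.a2
  have hρ4 : S.ρ ^ 4 ≤ 1 := pow_le_one₀ hρ0.le hρ1
  obtain ⟨Φ, f1, f2, f3, f4⟩ := samp_low S.idx S.a S.a1 S.card_idx τ h0 h1 m hm ℓ (ℓ / 8)
    (by linarith) (by
      calc 8 * (ℓ : ℝ) ^ 2 * S.a * m ≤ 8 * (ℓ : ℝ) ^ 2 * 2 * m := by gcongr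
        _ = 8 * ℓ * (2 * ℓ * m) := by ring
        _ ≤ 8 * ℓ * (S.η * S.ρ ^ 4) := by gcongr
        _ ≤ 8 * ℓ * (1 / 64 * 1) := by gcongr
        _ = ℓ / 8 := by ring) B (fun T => S.GA x T) (ℓ * S.ρ ^ (S.a * b) / 16)
        (by positivity) (by
      intro T hT
      have := mul_le_mul_of_nonneg_left (hB T hT) hℓ0.le
      calc _ ≤ _ := this
        _ = _ := by ring)
  have hgU : Gen S.perp S.ρ x (S.U Φ) := fun J _ hJ8 => hgen J (Finset.subset_univ _) hJ8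
  have h5 := few_exceptional hG Φ f1 f3
    (B.filter (fun b' => ((Φ ∩ S.GA x b').card : ℝ) ≤ 2 * (ℓ * S.ρ ^ (S.a * b) / 16)))
    (fun T hT T' hT' => hBd T (Finset.mem_filter.1 hT).1 T' (Finset.mem_filter.1 hT').1) (by
      intro T hT
      rw [Finset.mem_filter] at hT
      by_contra hcon
      push Not at hcon
      obtain ⟨_, c2, c3⟩ := hcon
      have h6 := GA_large Φ hgU hℓ (by linarith) T (hBc T hT.1) hb1 hb2 c2 c3
      have := hT.2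
      have h7 : 0 < ℓ * S.ρ ^ (S.a * b) := by positivity
      linarith)
  have h6 : (((B.filter (fun b' => ((Φ ∩ S.GA x b').card : ℝ) ≤
      2 * (ℓ * S.ρ ^ (S.a * b) / 16))).card : ℕ) : ℝ) ≤
      2 * ℓ + r + r := by exact_mod_cast h5
  linarith

end Sys

end Crest.Agent.R042.TLev333
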