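import Mathlib
import Crest.Agent.R042.Conn_353
import Crest.Agent.R042.Menger_353

/-! Row 42, S0058, sec 05: definitions for the Thomas-Wollan theorem (linked sets, edge counts,
massed pairs) and the basic lemmas about linked sets (monotonicity, indexed families,
extension along disjoint paths, rerouting through a linked separation). -/

set_option autoImplicit false
set_option linter.unusedSectionVars false

namespace Crest.Agent.R042.TW113

open Finset
open Crest.Agent.R042.Conn353 (Conn Reach)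
open Crest.Agent.R042.Menger353

variable {V : Type*} [DecidableEq V]

/-- `(G[W], X)` is linked: any disjoint pairs `{a, t a}` (`a ∈ D`) of vertices of `X` can be joined
by disjoint connected subsets of `W`, the set joining `a` and `t a` avoiding all other vertices
of `X`. -/
def Linked (G : SimpleGraph V) (W X : Finset V) : Prop :=
  ∀ (D : Finset V) (t : V → V), D ⊆ X → (∀ a ∈ D, t a ∈ X ∧ t a ∉ D) →
    (∀ a ∈ D, ∀ b ∈ D, t a = t b → a = b) →
    ∃ P : V → Finset V,
      (∀ a ∈ D, Conn G (P a) ∧ a ∈ P a ∧ t a ∈ P a ∧ P a ⊆ W ∧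
        (∀ x ∈ P a, x ∈ X → x = a ∨ x = t a)) ∧
      (∀ a ∈ D, ∀ b ∈ D, a ≠ b → Disjoint (P a) (P b))

open scoped Classical in
/-- number of ordered pairs of adjacent vertices of `W` with at least one member in `S`: twice the
number of edges of `G[W]` with an end in `S`. -/
noncomputable def rho (G : SimpleGraph V) (W S : Finset V) : ℕ :=
  ((W ×ˢ W).filter (fun p => G.Adj p.1 p.2 ∧ (p.1 ∈ S ∨ p.2 ∈ S))).card

/-- massed pairs (the factor `2` because `rho` counts ordered pairs). -/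
structure Massed (G : SimpleGraph V) (W X : Finset V) (lam : ℕ) : Prop where
  m1 : 2 * lam * (W \ X).card < rho G W (W \ X)
  m2 : ∀ A B, Sep G W A B → X ⊆ A → (A ∩ B).card < X.card →
    rho G W (B \ A) ≤ 2 * lam * (B \ A).card

open scoped Classical in
/-- the statement of LEMMA D (sec 05) for a given `k`. -/
def LemmaD (V : Type*) [DecidableEq V] (k : ℕ) : Prop :=
  ∀ (G : SimpleGraph V) (L : Finset V), L.Nonempty →
    (∀ v ∈ L, 8 * k ≤ (L.filter (fun w => G.Adj v w)).card) → L.card ≤ 16 * k + 1 →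
    ∃ C ⊆ L, 2 * k ≤ C.card ∧ ∀ X ⊆ C, X.card ≤ 2 * k → Linked G C X

/-- `G` plus all edges inside `S`. -/
def addClique (G : SimpleGraph V) (S : Finset V) : SimpleGraph V where
  Adj x y := G.Adj x y ∨ (x ≠ y ∧ x ∈ S ∧ y ∈ S)
  symm := ⟨by
    rintro x y (h | ⟨h1, h2, h3⟩)
    · exact Or.inl h.symm
    · exact Or.inr ⟨h1.symm, h3, h2⟩⟩
  loopless := ⟨by
    rintro x (h | ⟨h1, _, _⟩)
    · exact G.loopless.irrefl x h
    · exact h1 rfl⟩

lemma addClique_adj {G : SimpleGraph V} {S : Finset V} {x y : V} :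
    (addClique G S).Adj x y ↔ G.Adj x y ∨ (x ≠ y ∧ x ∈ S ∧ y ∈ S) := Iff.rfl

variable {G : SimpleGraph V} {W X : Finset V}

lemma Linked.mono_X {X' : Finset V} (h : Linked G W X) (hX : X' ⊆ X) : Linked G W X' := by
  intro D t hD ht hinj
  obtain ⟨P, h1, h2⟩ := h D t (hD.trans hX) (fun a ha => ⟨hX (ht a ha).1, (ht a ha).2⟩) hinj
  exact ⟨P, fun a ha => ⟨(h1 a ha).1, (h1 a ha).2.1, (h1 a ha).2.2.1, (h1 a ha).2.2.2.1,
    fun x hx hxX => (h1 a ha).2.2.2.2 x hx (hX hxX)⟩, h2⟩

lemma Linked.mono_W {W' : Finset V} (h : Linked G W X) (hW : W ⊆ W') : Linked G W' X := by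
  intro D t hD ht hinj
  obtain ⟨P, h1, h2⟩ := h D t hD ht hinj
  exact ⟨P, fun a ha => ⟨(h1 a ha).1, (h1 a ha).2.1, (h1 a ha).2.2.1,
    (h1 a ha).2.2.2.1.trans hW, (h1 a ha).2.2.2.2⟩, h2⟩

lemma Linked.mono_graph {H : SimpleGraph V} (hGH : ∀ x y, G.Adj x y → H.Adj x y)
    (h : Linked G W X) : Linked H W X := by
  intro D t hD ht hinj
  obtain ⟨P, h1, h2⟩ := h D t hD ht hinj
  exact ⟨P, fun a ha => ⟨(h1 a ha).1.mono_graph hGH, (h1 a ha).2⟩, h2⟩

/-- family version of `Linked` with an arbitrary index type. -/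
theorem Linked.family (h : Linked G W X) {ι : Type*} (I : Finset ι) (s t : ι → V)
    (hs : ∀ i ∈ I, s i ∈ X) (ht : ∀ i ∈ I, t i ∈ X)
    (hsi : ∀ i ∈ I, ∀ j ∈ I, s i = s j → i = j) (hti : ∀ i ∈ I, ∀ j ∈ I, t i = t j → i = j)
    (hst : ∀ i ∈ I, ∀ j ∈ I, s i ≠ t j) :
    ∃ P : ι → Finset V,
      (∀ i ∈ I, Conn G (P i) ∧ s i ∈ P i ∧ t i ∈ P i ∧ P i ⊆ W ∧
        (∀ x ∈ P i, x ∈ X → x = s i ∨ x = t i)) ∧
      (∀ i ∈ I, ∀ j ∈ I, i ≠ j → Disjoint (P i) (P j)) := by
  classical
  have hex : ∀ a, ∃ b, ∀ i ∈ I, s i = a → b = t i := by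
    intro a
    by_cases ha : ∃ i ∈ I, s i = a
    · obtain ⟨i, hi, hia⟩ := ha
      refine ⟨t i, fun j hj hja => ?_⟩
      rw [hsi i hi j hj (hia.trans hja.symm)]
    · exact ⟨a, fun i hi hia => absurd ⟨i, hi, hia⟩ ha⟩
  choose t' ht' using hex
  obtain ⟨P, h1, h2⟩ := h (I.image s) t' (by
      intro a ha
      obtain ⟨i, hi, rfl⟩ := Finset.mem_image.1 ha
      exact hs i hi) (by
      intro a ha
      obtain ⟨i, hi, rfl⟩ := Finset.mem_image.1 ha
      rw [ht' (s i) i hi rfl]
      refine ⟨ht i hi, fun hmem => ?_⟩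
      obtain ⟨j, hj, hj'⟩ := Finset.mem_image.1 hmem
      exact hst j hj i hi hj') (by
      intro a ha b hb hab
      obtain ⟨i, hi, rfl⟩ := Finset.mem_image.1 ha
      obtain ⟨j, hj, rfl⟩ := Finset.mem_image.1 hb
      rw [ht' (s i) i hi rfl, ht' (s j) j hj rfl] at hab
      rw [hti i hi j hj hab])
  refine ⟨fun i => P (s i), ?_, ?_⟩
  · intro i hi
    have h3 := h1 (s i) (Finset.mem_image_of_mem s hi)
    rw [ht' (s i) i hi rfl] at h3
    exact h3
  · intro i hi j hj hij
    exact h2 _ (Finset.mem_image_of_mem s hi) _ (Finset.mem_image_of_mem s hj)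
      (fun hc => hij (hsi i hi j hj hc))

/-- extension of a linked set along disjoint paths: `P` is a system of disjoint `T`-`C` paths of
`G[W1]`, one for every vertex of `T`, and the ends of the paths are linked in `G[W2]`, where
`W1 ∩ W2 ⊆ C`. -/
theorem Linked.ext {W1 W2 T C : Finset V} {P : Finset (List V)} (hP : Linkage G W1 T C P)
    (hT : T ⊆ verts P) (hC : Linked G W2 (verts P ∩ C)) (hW : ∀ x ∈ W1, x ∈ W2 → x ∈ C) :
    Linked G (W1 ∪ W2) T := by
  classical
  obtain ⟨f, g, h1, h2, -, -, h5⟩ := hP.family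
  have hm : ∀ a ∈ T, a ∈ verts P ∩ T := fun a ha => Finset.mem_inter.2 ⟨hT ha, ha⟩
  intro D t hD ht hinj
  have hDt : ∀ a ∈ D, a ∈ verts P ∩ T := fun a ha => hm a (hD ha)
  have hDt' : ∀ a ∈ D, t a ∈ verts P ∩ T := fun a ha => hm _ (ht a ha).1
  have hgC : ∀ a ∈ verts P ∩ T, g a ∈ verts P ∩ C := by
    intro a ha
    obtain ⟨e1, e2, e3, e4, e5, e6, e7, e8, e9⟩ := h1 a ha
    exact Finset.mem_inter.2 ⟨mem_verts.2 ⟨f a, e1, e7⟩, e5⟩
  obtain ⟨Q, q1, q2⟩ := hC.family D g (fun a => g (t a))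
    (fun a ha => hgC a (hDt a ha)) (fun a ha => hgC _ (hDt' a ha))
    (fun a ha b hb hab => h5 a (hDt a ha) b (hDt b hb) hab)
    (fun a ha b hb hab => hinj a ha b hb (h5 _ (hDt' a ha) _ (hDt' b hb) hab))
    (fun a ha b hb hab => (ht b hb).2 (by
      rw [← h5 a (hDt a ha) _ (hDt' b hb) hab]; exact ha))
  -- key facts
  have hfW : ∀ a ∈ verts P ∩ T, ∀ x ∈ f a, x ∈ W1 := fun a ha x hx => (h1 a ha).2.1.sub x hx
  have hTW : ∀ x ∈ T, x ∈ W1 := fun x hx => hfW x (hm x hx) x (h1 x (hm x hx)).2.2.2.2.2.1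
  have hfQ : ∀ a ∈ D, ∀ x ∈ Q a, x ∈ W1 → x ∈ verts P → x ∈ f a ∨ x ∈ f (t a) := by
    intro a ha x hx hxW hxP
    obtain ⟨_, _, _, e4, e5⟩ := q1 a ha
    have hxC : x ∈ C := hW x hxW (e4 hx)
    rcases e5 x hx (Finset.mem_inter.2 ⟨hxP, hxC⟩) with h | h
    · left; rw [h]; exact (h1 a (hDt a ha)).2.2.2.2.2.2.1
    · right; rw [h]; exact (h1 _ (hDt' a ha)).2.2.2.2.2.2.1
  have hdisf : ∀ a ∈ D, ∀ b ∈ D, a ≠ b → ∀ x, (x ∈ f a ∨ x ∈ f (t a)) →
      (x ∈ f b ∨ x ∈ f (t b)) → False := by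
    intro a ha b hb hab x hx hx'
    have n1 : a ≠ t b := by rintro rfl; exact (ht b hb).2 ha
    have n2 : t a ≠ b := by rintro rfl; exact (ht a ha).2 hb
    have n3 : t a ≠ t b := fun h => hab (hinj a ha b hb h)
    rcases hx with hx | hx <;> rcases hx' with hx' | hx'
    · exact h2 a (hDt a ha) b (hDt b hb) hab x hx hx'
    · exact h2 a (hDt a ha) _ (hDt' b hb) n1 x hx hx'
    · exact h2 _ (hDt' a ha) b (hDt b hb) n2 x hx hx'
    · exact h2 _ (hDt' a ha) _ (hDt' b hb) n3 x hx hx'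
  refine ⟨fun a => ((f a).toFinset ∪ Q a) ∪ (f (t a)).toFinset, ?_, ?_⟩
  · intro a ha
    obtain ⟨e1, e2, e3, e4, e5, e6, e7, e8, e9⟩ := h1 a (hDt a ha)
    obtain ⟨e1', e2', e3', e4', e5', e6', e7', e8', e9'⟩ := h1 _ (hDt' a ha)
    obtain ⟨c1, c2, c3, c4, c5⟩ := q1 a ha
    refine ⟨?_, ?_, ?_, ?_, ?_⟩
    · refine Conn353.Conn.union (Conn353.Conn.union e2.conn c1 (List.mem_toFinset.2 e7) c2)
        e2'.conn (x := g (t a)) ?_ (List.mem_toFinset.2 e7')
      exact Finset.mem_union_right _ c3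
    · simp [e6]
    · simp [e6']
    · intro x hx
      simp only [Finset.mem_union, List.mem_toFinset] at hx ⊢
      rcases hx with (hx | hx) | hx
      · exact Or.inl (e2.sub x hx)
      · exact Or.inr (c4 hx)
      · exact Or.inl (e2'.sub x hx)
    · intro x hx hxT
      simp only [Finset.mem_union, List.mem_toFinset] at hx
      have hx' : x ∈ f a ∨ x ∈ f (t a) := by
        rcases hx with (hx | hx) | hx
        · exact Or.inl hx
        · exact hfQ a ha x hx (hTW x hxT) (hT hxT)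
        · exact Or.inr hx
      rcases hx' with h | h
      · exact Or.inl (e8 x h hxT)
      · exact Or.inr (e8' x h hxT)
  · intro a ha b hb hab
    rw [Finset.disjoint_left]
    intro x hx hx'
    simp only [Finset.mem_union, List.mem_toFinset] at hx hx'
    have key : ∀ a ∈ D, ∀ b ∈ D, (x ∈ f b ∨ x ∈ f (t b)) → x ∈ Q a →
        (x ∈ f a ∨ x ∈ f (t a)) := by
      intro a ha b hb hb' hxQ
      have hxP : x ∈ verts P := by
        rcases hb' with h | h
        · exact mem_verts.2 ⟨f b, (h1 b (hDt b hb)).1, h⟩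
        · exact mem_verts.2 ⟨f (t b), (h1 _ (hDt' b hb)).1, h⟩
      have hxW : x ∈ W1 := by
        rcases hb' with h | h
        · exact hfW b (hDt b hb) x h
        · exact hfW _ (hDt' b hb) x h
      exact hfQ a ha x hxQ hxW hxP
    have hA : (x ∈ f a ∨ x ∈ f (t a)) ∨ x ∈ Q a := by tauto
    have hB : (x ∈ f b ∨ x ∈ f (t b)) ∨ x ∈ Q b := by tauto
    rcases hA with hA | hA <;> rcases hB with hB | hB
    · exact hdisf a ha b hb hab x hA hB
    · exact hdisf a ha b hb hab x hA (key b hb a ha hA hB)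
    · exact hdisf a ha b hb hab x (key a ha b hb hB hA) hB
    · exact Finset.disjoint_left.1 (q2 a ha b hb hab) hA hB

/-- a chain of `addClique G S` all of whose vertices are outside `S` is a chain of `G`. -/
lemma chain_of_addClique {S : Finset V} : ∀ (l : List V), l.IsChain (addClique G S).Adj →
    (∀ x ∈ l, x ∉ S) → l.IsChain G.Adj
  | [], _, _ => by simp
  | [a], _, _ => by simp
  | a :: b :: l, h, hS => by
      rw [List.isChain_cons_cons] at h ⊢
      refine ⟨?_, chain_of_addClique (b :: l) h.2 (fun x hx => hS x (by simp [hx]))⟩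
      rcases h.1 with h1 | h1
      · exact h1
      · exact absurd h1.2.1 (hS a (by simp))

/-- same, the last vertex may be in `S`. -/
lemma chain_of_addClique_last {S : Finset V} : ∀ (l : List V) (x : V),
    (l ++ [x]).IsChain (addClique G S).Adj → (∀ x ∈ l, x ∉ S) → (l ++ [x]).IsChain G.Adj
  | [], x, _, _ => by simp
  | [a], x, h, hS => by
      simp only [List.singleton_append, List.isChain_cons_cons, List.isChain_singleton,
        and_true] at h ⊢
      rcases h with h1 | h1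
      · exact h1
      · exact absurd h1.2.1 (hS a (by simp))
  | a :: b :: l, x, h, hS => by
      rw [List.cons_append, List.cons_append, List.isChain_cons_cons] at h ⊢
      refine ⟨?_, ?_⟩
      · rcases h.1 with h1 | h1
        · exact h1
        · exact absurd h1.2.1 (hS a (by simp))
      · exact chain_of_addClique_last (b :: l) x h.2 (fun x hx => hS x (by simp [hx]))

/-- same, the first vertex may be in `S`. -/
lemma chain_of_addClique_first {S : Finset V} (l : List V) (x : V)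
    (h : (x :: l).IsChain (addClique G S).Adj) (hS : ∀ x ∈ l, x ∉ S) :
    (x :: l).IsChain G.Adj := by
  cases l with
  | nil => simp
  | cons a l =>
    rw [List.isChain_cons_cons] at h ⊢
    refine ⟨?_, chain_of_addClique _ h.2 hS⟩
    rcases h.1 with h1 | h1
    · exact h1
    · exact absurd h1.2.2 (hS a (by simp))

/-- decomposition of a connected set of `addClique G S`. -/
lemma addClique_split {S C : Finset V} {a b : V} (hC : Conn (addClique G S) C) (ha : a ∈ C)
    (hb : b ∈ C) :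
    (∃ U, U ⊆ C ∧ Conn G U ∧ a ∈ U ∧ b ∈ U ∧ ∀ x ∈ U, x ∈ S → ∀ y ∈ U, y ∈ S → x = y) ∨
    (∃ x y U1 U2, x ≠ y ∧ x ∈ S ∧ y ∈ S ∧ U1 ⊆ C ∧ U2 ⊆ C ∧ Conn G U1 ∧ Conn G U2 ∧ a ∈ U1 ∧
      x ∈ U1 ∧ b ∈ U2 ∧ y ∈ U2 ∧ (∀ z ∈ U1, z ∈ S → z = x) ∧ (∀ z ∈ U2, z ∈ S → z = y)) := by
  classical
  obtain ⟨l, h1, h2, s, h3⟩ := (hC.reach ha hb).exists_chain
  have hlC : ∀ z ∈ a :: l, z ∈ C := by
    intro z hz
    rcases List.mem_cons.1 hz with rfl | hz
    · exact ha
    · exact h2 z hz
  have hbl : b ∈ a :: l := by rw [h3]; simp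
  by_cases hS : ∃ z ∈ a :: l, z ∈ S
  · obtain ⟨l1, x, l2, e1, e2, e3⟩ := split_first (fun z => z ∈ S) (a :: l) hS
    obtain ⟨m1, y, m2, f1, f2, f3⟩ := split_last (fun z => z ∈ S) (a :: l) hS
    have c1 : (l1 ++ [x]).IsChain G.Adj := by
      apply chain_of_addClique_last l1 x _ e3
      have := h1
      rw [e1, List.isChain_split] at this
      exact this.1
    have c2 : (y :: m2).IsChain G.Adj := by
      apply chain_of_addClique_first m2 y _ f3
      have := h1
      rw [f1, List.isChain_split] at this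
      exact this.2
    have k1 : Conn G (l1 ++ [x]).toFinset := Conn353.chain_conn _ (by simp) c1
    have k2 : Conn G (y :: m2).toFinset := Conn353.chain_conn _ (by simp) c2
    have ha1 : a ∈ l1 ++ [x] := by
      cases l1 with
      | nil =>
        simp only [List.nil_append, List.cons.injEq] at e1
        simp [e1.1]
      | cons c l1 =>
        simp only [List.cons_append, List.cons.injEq] at e1
        simp [e1.1]
    have hb1 : b ∈ y :: m2 := by
      rcases List.eq_nil_or_concat m2 with rfl | ⟨m2', c, rfl⟩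
      · have : s ++ [b] = m1 ++ [y] := by rw [← h3, f1]
        have := (last_unique this).2
        simp [this]
      · have : s ++ [b] = (m1 ++ y :: m2') ++ [c] := by rw [← h3, f1]; simp
        have := (last_unique this).2
        simp [this]
    have s1 : ∀ z ∈ l1 ++ [x], z ∈ C := by
      intro z hz
      apply hlC
      rw [e1]
      simp only [List.mem_append, List.mem_cons] at hz ⊢
      tauto
    have s2 : ∀ z ∈ y :: m2, z ∈ C := by
      intro z hz
      apply hlC
      rw [f1]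
      simp only [List.mem_append, List.mem_cons] at hz ⊢
      tauto
    have t1 : ∀ z ∈ l1 ++ [x], z ∈ S → z = x := by
      intro z hz hzS
      simp only [List.mem_append, List.mem_cons, List.not_mem_nil, or_false] at hz
      rcases hz with hz | hz
      · exact absurd hzS (e3 z hz)
      · exact hz
    have t2 : ∀ z ∈ y :: m2, z ∈ S → z = y := by
      intro z hz hzS
      rcases List.mem_cons.1 hz with hz | hz
      · exact hz
      · exact absurd hzS (f3 z hz)
    by_cases hxy : x = y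
    · left
      refine ⟨(l1 ++ [x]).toFinset ∪ (y :: m2).toFinset, ?_, ?_, ?_, ?_, ?_⟩
      · intro z hz
        rcases Finset.mem_union.1 hz with h | h
        · exact s1 z (List.mem_toFinset.1 h)
        · exact s2 z (List.mem_toFinset.1 h)
      · exact k1.union k2 (x := x) (by simp) (by simp [hxy])
      · exact Finset.mem_union_left _ (List.mem_toFinset.2 ha1)
      · exact Finset.mem_union_right _ (List.mem_toFinset.2 hb1)
      · have hall : ∀ z ∈ (l1 ++ [x]).toFinset ∪ (y :: m2).toFinset, z ∈ S → z = x := by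
          intro z hz hzS
          rcases Finset.mem_union.1 hz with h | h
          · exact t1 z (List.mem_toFinset.1 h) hzS
          · rw [hxy]; exact t2 z (List.mem_toFinset.1 h) hzS
        intro z hz hzS w hw hwS
        rw [hall z hz hzS, hall w hw hwS]
    · right
      refine ⟨x, y, (l1 ++ [x]).toFinset, (y :: m2).toFinset, hxy, e2, f2, ?_, ?_, k1, k2,
        List.mem_toFinset.2 ha1, by simp, List.mem_toFinset.2 hb1, by simp, ?_, ?_⟩
      · intro z hz; exact s1 z (List.mem_toFinset.1 hz)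
      · intro z hz; exact s2 z (List.mem_toFinset.1 hz)
      · intro z hz; exact t1 z (List.mem_toFinset.1 hz)
      · intro z hz; exact t2 z (List.mem_toFinset.1 hz)
  · push Not at hS
    left
    refine ⟨(a :: l).toFinset, ?_, ?_, by simp, List.mem_toFinset.2 hbl, ?_⟩
    · intro z hz; exact hlC z (List.mem_toFinset.1 hz)
    · exact Conn353.chain_conn _ (by simp) (chain_of_addClique _ h1 hS)
    · intro x hx hxS
      exact absurd hxS (hS x (List.mem_toFinset.1 hx))

/-- rerouting: if `(G[B], A ∩ B)` is linked and `(G[A] + clique on A ∩ B, X)` is linked, then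
`(G[A ∪ B], X)` is linked. -/
theorem Linked.reroute {A B : Finset V} (hX : X ⊆ A) (hB : Linked G B (A ∩ B))
    (hA : Linked (addClique G (A ∩ B)) A X) : Linked G (A ∪ B) X := by
  classical
  intro D t hD ht hinj
  obtain ⟨P, h1, h2⟩ := hA D t hD ht hinj
  -- which pairs need a link
  have hex : ∀ a, ∃ (b : Bool) (x y : V) (U1 U2 : Finset V), a ∈ D →
      (b = true → x ≠ y ∧ x ∈ A ∩ B ∧ y ∈ A ∩ B ∧ U1 ⊆ P a ∧ U2 ⊆ P a ∧ Conn G U1 ∧ Conn G U2 ∧
        a ∈ U1 ∧ x ∈ U1 ∧ t a ∈ U2 ∧ y ∈ U2 ∧ (∀ z ∈ U1, z ∈ A ∩ B → z = x) ∧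
        (∀ z ∈ U2, z ∈ A ∩ B → z = y)) ∧
      (b = false → U1 ⊆ P a ∧ Conn G U1 ∧ a ∈ U1 ∧ t a ∈ U1) := by
    intro a
    by_cases ha : a ∈ D
    · obtain ⟨c1, c2, c3, c4, c5⟩ := h1 a ha
      rcases addClique_split c1 c2 c3 with ⟨U, u1, u2, u3, u4, u5⟩ |
        ⟨x, y, U1, U2, u0, u1, u2, u3, u4, u5, u6, u7, u8, u9, u10, u11, u12⟩
      · exact ⟨false, a, a, U, U, fun _ => ⟨by simp, fun _ => ⟨u1, u2, u3, u4⟩⟩⟩
      · exact ⟨true, x, y, U1, U2, fun _ =>
          ⟨fun _ => ⟨u0, u1, u2, u3, u4, u5, u6, u7, u8, u9, u10, u11, u12⟩, by simp⟩⟩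
    · exact ⟨false, a, a, ∅, ∅, fun h => absurd h ha⟩
  choose b x y U1 U2 hU using hex
  set I : Finset V := D.filter (fun a => b a = true) with hI
  have hIm : ∀ a ∈ I, a ∈ D ∧ b a = true := fun a ha => Finset.mem_filter.1 ha
  have hxP : ∀ a ∈ I, x a ∈ P a ∧ y a ∈ P a := by
    intro a ha
    obtain ⟨e1, e2⟩ := hIm a ha
    obtain ⟨u0, u1, u2, u3, u4, u5, u6, u7, u8, u9, u10, u11, u12⟩ := (hU a e1).1 e2
    exact ⟨u3 u8, u4 u10⟩
  obtain ⟨Q, q1, q2⟩ := hB.family I x y
    (fun a ha => ((hU a (hIm a ha).1).1 (hIm a ha).2).2.1)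
    (fun a ha => ((hU a (hIm a ha).1).1 (hIm a ha).2).2.2.1)
    (fun a ha c hc hac => by
      by_contra hne
      exact Finset.disjoint_left.1 (h2 a (hIm a ha).1 c (hIm c hc).1 hne) (hxP a ha).1
        (by rw [hac]; exact (hxP c hc).1))
    (fun a ha c hc hac => by
      by_contra hne
      exact Finset.disjoint_left.1 (h2 a (hIm a ha).1 c (hIm c hc).1 hne) (hxP a ha).2
        (by rw [hac]; exact (hxP c hc).2))
    (fun a ha c hc hac => by
      by_cases hne : a = c
      · subst hne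
        exact ((hU a (hIm a ha).1).1 (hIm a ha).2).1 hac
      · exact Finset.disjoint_left.1 (h2 a (hIm a ha).1 c (hIm c hc).1 hne) (hxP a ha).1
          (by rw [hac]; exact (hxP c hc).2))
  -- the new connected sets
  set R : V → Finset V := fun a => if b a = true then (U1 a ∪ Q a) ∪ U2 a else U1 a with hR
  have hRA : ∀ a ∈ D, ∀ z ∈ R a, z ∈ A → z ∈ P a := by
    intro a ha z hz hzA
    by_cases hb : b a = true
    · obtain ⟨u0, u1, u2, u3, u4, u5, u6, u7, u8, u9, u10, u11, u12⟩ := (hU a ha).1 hb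
      have haI : a ∈ I := Finset.mem_filter.2 ⟨ha, hb⟩
      obtain ⟨c1, c2, c3, c4, c5⟩ := q1 a haI
      simp only [hR, hb, if_true, Finset.mem_union] at hz
      rcases hz with (hz | hz) | hz
      · exact u3 hz
      · rcases c5 z hz (Finset.mem_inter.2 ⟨hzA, c4 hz⟩) with h | h
        · rw [h]; exact (hxP a haI).1
        · rw [h]; exact (hxP a haI).2
      · exact u4 hz
    · have hb' : b a = false := by simpa using hb
      simp only [hR, hb] at hz
      exact ((hU a ha).2 hb').1 (by simpa using hz)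
  have hRQ : ∀ a ∈ D, ∀ z ∈ R a, z ∉ A → a ∈ I ∧ z ∈ Q a := by
    intro a ha z hz hzA
    have hPA : ∀ z ∈ P a, z ∈ A := fun z hz => (h1 a ha).2.2.2.1 hz
    by_cases hb : b a = true
    · obtain ⟨u0, u1, u2, u3, u4, u5, u6, u7, u8, u9, u10, u11, u12⟩ := (hU a ha).1 hb
      have haI : a ∈ I := Finset.mem_filter.2 ⟨ha, hb⟩
      simp only [hR, hb, if_true, Finset.mem_union] at hz
      rcases hz with (hz | hz) | hz
      · exact absurd (hPA z (u3 hz)) hzA
      · exact ⟨haI, hz⟩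
      · exact absurd (hPA z (u4 hz)) hzA
    · have hb' : b a = false := by simpa using hb
      simp only [hR, hb] at hz
      exact absurd (hPA z (((hU a ha).2 hb').1 (by simpa using hz))) hzA
  refine ⟨R, ?_, ?_⟩
  · intro a ha
    have hsub : R a ⊆ A ∪ B := by
      intro z hz
      by_cases hzA : z ∈ A
      · exact Finset.mem_union_left _ hzA
      · obtain ⟨e1, e2⟩ := hRQ a ha z hz hzA
        exact Finset.mem_union_right _ ((q1 a e1).2.2.2.1 e2)
    have hXR : ∀ z ∈ R a, z ∈ X → z = a ∨ z = t a := fun z hz hzX =>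
      (h1 a ha).2.2.2.2 z (hRA a ha z hz (hX hzX)) hzX
    by_cases hb : b a = true
    · obtain ⟨u0, u1, u2, u3, u4, u5, u6, u7, u8, u9, u10, u11, u12⟩ := (hU a ha).1 hb
      have haI : a ∈ I := Finset.mem_filter.2 ⟨ha, hb⟩
      obtain ⟨c1, c2, c3, c4, c5⟩ := q1 a haI
      have hRa : R a = (U1 a ∪ Q a) ∪ U2 a := by simp [hR, hb]
      refine ⟨?_, ?_, ?_, hsub, hXR⟩
      · rw [hRa]
        exact (u5.union c1 u8 c2).union u6 (x := y a) (Finset.mem_union_right _ c3) u10
      · rw [hRa]; simp [u7]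
      · rw [hRa]; simp [u9]
    · have hb' : b a = false := by simpa using hb
      obtain ⟨u1, u2, u3, u4⟩ := (hU a ha).2 hb'
      have hRa : R a = U1 a := by simp [hR, hb]
      refine ⟨?_, ?_, ?_, hsub, hXR⟩
      · rw [hRa]; exact u2
      · rw [hRa]; exact u3
      · rw [hRa]; exact u4
  · intro a ha c hc hac
    rw [Finset.disjoint_left]
    intro z hz hz'
    by_cases hzA : z ∈ A
    · exact Finset.disjoint_left.1 (h2 a ha c hc hac) (hRA a ha z hz hzA) (hRA c hc z hz' hzA)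
    · obtain ⟨e1, e2⟩ := hRQ a ha z hz hzA
      obtain ⟨e3, e4⟩ := hRQ c hc z hz' hzA
      exact Finset.disjoint_left.1 (q2 a e1 c e3 hac) e2 e4

end Crest.Agent.R042.TW113
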