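import Mathlib
import Crest.Agent.R042.TWDefs_113

/-! Row 42, S0058, sec 05: edge count lemmas, composition of separations, minimal violations of
(M2). -/

set_option autoImplicit false
set_option linter.unusedSectionVars false

namespace Crest.Agent.R042.TW113

open Finset
open Crest.Agent.R042.Conn353 (Conn Reach)
open Crest.Agent.R042.Menger353

variable {V : Type*} [DecidableEq V]
variable {G : SimpleGraph V} {W X A B : Finset V} {lam : ℕ}

lemma rho_mono {W' S S' : Finset V} (hW : W ⊆ W') (hS : S ⊆ S') : rho G W S ≤ rho G W' S' := by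
  classical
  unfold rho
  apply Finset.card_le_card
  intro p hp
  simp only [Finset.mem_filter, Finset.mem_product] at hp ⊢
  refine ⟨⟨hW hp.1.1, hW hp.1.2⟩, hp.2.1, ?_⟩
  rcases hp.2.2 with h | h
  · exact Or.inl (hS h)
  · exact Or.inr (hS h)

lemma rho_mono_graph {H : SimpleGraph V} {S : Finset V}
    (hGH : ∀ x y, x ∈ W → y ∈ W → (x ∈ S ∨ y ∈ S) → G.Adj x y → H.Adj x y) :
    rho G W S ≤ rho H W S := by
  classical
  unfold rho
  apply Finset.card_le_card
  intro p hp
  simp only [Finset.mem_filter, Finset.mem_product] at hp ⊢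
  exact ⟨hp.1, hGH _ _ hp.1.1 hp.1.2 hp.2.2 hp.2.1, hp.2.2⟩

/-- general comparison. -/
lemma rho_le_of {H : SimpleGraph V} {W' S S' : Finset V}
    (h : ∀ x y, x ∈ W → y ∈ W → (x ∈ S ∨ y ∈ S) → G.Adj x y →
      x ∈ W' ∧ y ∈ W' ∧ H.Adj x y ∧ (x ∈ S' ∨ y ∈ S')) : rho G W S ≤ rho H W' S' := by
  classical
  unfold rho
  apply Finset.card_le_card
  intro p hp
  simp only [Finset.mem_filter, Finset.mem_product] at hp ⊢
  obtain ⟨h1, h2, h3, h4⟩ := h _ _ hp.1.1 hp.1.2 hp.2.2 hp.2.1
  exact ⟨⟨h1, h2⟩, h3, h4⟩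

lemma sep_rho_eq (h : Sep G W A B) : rho G W (B \ A) = rho G B (B \ A) := by
  apply le_antisymm
  · apply rho_le_of
    intro x y hx hy hxy hadj
    simp only [Finset.mem_sdiff] at hxy ⊢
    have hW : ∀ z ∈ W, z ∉ B → z ∈ A := by
      intro z hz hzB
      rw [← h.union, Finset.mem_union] at hz
      tauto
    rcases hxy with hxy | hxy
    · refine ⟨hxy.1, ?_, hadj, Or.inl hxy⟩
      by_contra hyB
      exact h.nadj y (hW y hy hyB) hyB x hxy.1 hxy.2 hadj.symm
    · refine ⟨?_, hxy.1, hadj, Or.inr hxy⟩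
      by_contra hxB
      exact h.nadj x (hW x hx hxB) hxB y hxy.1 hxy.2 hadj
  · exact rho_mono h.right_sub (le_refl _)

/-- composition: a separation of the right side which has the intersection on its left. -/
lemma sep_comp_right {P Q : Finset V} (h : Sep G W A B) (h' : Sep G B P Q) (hP : A ∩ B ⊆ P) :
    Sep G W (A ∪ P) Q := by
  refine ⟨?_, ?_⟩
  · rw [Finset.union_assoc, h'.union, h.union]
  · intro a ha haQ b hb hbA hadj
    simp only [Finset.mem_union, not_or] at ha hbA
    rcases ha with ha | ha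
    · by_cases haB : a ∈ B
      · exact h'.nadj a (hP (Finset.mem_inter.2 ⟨ha, haB⟩)) haQ b hb hbA.2 hadj
      · exact h.nadj a ha haB b (h'.right_sub hb) hbA.1 hadj
    · exact h'.nadj a ha haQ b hb hbA.2 hadj

lemma comp_right_inter {P Q : Finset V} (hQ : Q ⊆ B) (hP : A ∩ B ⊆ P) :
    (A ∪ P) ∩ Q = P ∩ Q := by
  ext x
  simp only [Finset.mem_inter, Finset.mem_union]
  constructor
  · rintro ⟨h1 | h1, h2⟩
    · exact ⟨hP (Finset.mem_inter.2 ⟨h1, hQ h2⟩), h2⟩
    · exact ⟨h1, h2⟩
  · rintro ⟨h1, h2⟩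
    exact ⟨Or.inr h1, h2⟩

lemma comp_right_sdiff {P Q : Finset V} (hQ : Q ⊆ B) (hP : A ∩ B ⊆ P) :
    Q \ (A ∪ P) = Q \ P := by
  ext x
  simp only [Finset.mem_sdiff, Finset.mem_union, not_or]
  constructor
  · rintro ⟨h1, h2, h3⟩
    exact ⟨h1, h3⟩
  · rintro ⟨h1, h2⟩
    exact ⟨h1, fun h3 => h2 (hP (Finset.mem_inter.2 ⟨h3, hQ h1⟩)), h2⟩

/-- composition: a separation of the left side which has the intersection on its right. -/
lemma sep_comp_left {P Q : Finset V} (h : Sep G W A B) (h' : Sep G A P Q) (hQ : A ∩ B ⊆ Q) :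
    Sep G W P (Q ∪ B) := by
  have h1 := (sep_comp_right h.symm h'.symm (by rwa [Finset.inter_comm])).symm
  rwa [Finset.union_comm] at h1

/-- a violation of (M2). -/
structure Viol (G : SimpleGraph V) (W X : Finset V) (lam : ℕ) (A B : Finset V) : Prop where
  sep : Sep G W A B
  sub : X ⊆ A
  ord : (A ∩ B).card < X.card
  big : 2 * lam * (B \ A).card < rho G W (B \ A)

lemma Viol.nonempty (h : Viol G W X lam A B) : (B \ A).Nonempty := by
  classical
  by_contra hne
  rw [Finset.not_nonempty_iff_eq_empty] at hne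
  have := h.big
  rw [hne] at this
  unfold rho at this
  simp at this

/-- a violation with `|B|` minimal gives a massed pair `(G[B], A ∩ B)`. -/
theorem massed_of_min_violation (h : Viol G W X lam A B)
    (hmin : ∀ A' B', Viol G W X lam A' B' → B.card ≤ B'.card) : Massed G B (A ∩ B) lam := by
  have hBA : B \ (A ∩ B) = B \ A := by
    ext x
    simp only [Finset.mem_sdiff, Finset.mem_inter]
    tauto
  refine ⟨?_, ?_⟩
  · rw [hBA, ← sep_rho_eq h.sep]
    exact h.big
  · intro P Q hPQ hP hord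
    by_contra hcon
    push Not at hcon
    have hQB : Q ⊆ B := hPQ.right_sub
    have hv : Viol G W X lam (A ∪ P) Q := by
      refine ⟨sep_comp_right h.sep hPQ hP, h.sub.trans Finset.subset_union_left, ?_, ?_⟩
      · rw [comp_right_inter hQB hP]
        exact hord.trans h.ord
      · rw [comp_right_sdiff hQB hP]
        exact lt_of_lt_of_le hcon (rho_mono h.sep.right_sub (le_refl _))
    have hQ : Q = B := Finset.eq_of_subset_of_card_le hQB (hmin _ _ hv)
    have hPB : P ⊆ B := hPQ.left_sub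
    rw [hQ, Finset.inter_eq_left.2 hPB] at hord
    exact absurd (Finset.card_le_card hP) (by omega)

/-- if (M2) fails there is a violation with `|B|` minimal. -/
theorem exists_min_violation (h : ∃ A B, Viol G W X lam A B) :
    ∃ A B, Viol G W X lam A B ∧ ∀ A' B', Viol G W X lam A' B' → B.card ≤ B'.card := by
  classical
  obtain ⟨A0, B0, h0⟩ := h
  have hex : ∃ n, ∃ A B, Viol G W X lam A B ∧ B.card = n := ⟨_, A0, B0, h0, rfl⟩
  obtain ⟨A, B, h1, h2⟩ := Nat.find_spec hex
  refine ⟨A, B, h1, fun A' B' h' => ?_⟩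
  rw [h2]
  exact Nat.find_min' hex ⟨A', B', h', rfl⟩

theorem m2_or_violation (G : SimpleGraph V) (W X : Finset V) (lam : ℕ) :
    (∀ A B, Sep G W A B → X ⊆ A → (A ∩ B).card < X.card →
      rho G W (B \ A) ≤ 2 * lam * (B \ A).card) ∨
    ∃ A B, Viol G W X lam A B ∧ ∀ A' B', Viol G W X lam A' B' → B.card ≤ B'.card := by
  by_cases h : ∃ A B, Viol G W X lam A B
  · exact Or.inr (exists_min_violation h)
  · left
    intro A B h1 h2 h3
    by_contra hcon
    push Not at hcon
    exact h ⟨A, B, h1, h2, h3, hcon⟩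

end Crest.Agent.R042.TW113
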