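import Mathlib
import Crest.Agent.R042.TWViol_113

/-! Row 42, S0058, sec 05: Theorem TW, CLAIM A (no rigid separation of order `≤ |X|` in a minimal
counterexample). -/

set_option autoImplicit false
set_option linter.unusedSectionVars false

namespace Crest.Agent.R042.TW113

open Finset
open Crest.Agent.R042.Conn353 (Conn Reach)
open Crest.Agent.R042.Menger353

variable {V : Type*} [DecidableEq V]
variable {G : SimpleGraph V} {W X A B : Finset V} {lam : ℕ}

lemma rho_le_add {H1 H2 : SimpleGraph V} {W1 W2 S S1 S2 : Finset V}
    (h : ∀ x y, x ∈ W → y ∈ W → (x ∈ S ∨ y ∈ S) → G.Adj x y →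
      (x ∈ W1 ∧ y ∈ W1 ∧ H1.Adj x y ∧ (x ∈ S1 ∨ y ∈ S1)) ∨
      (x ∈ W2 ∧ y ∈ W2 ∧ H2.Adj x y ∧ (x ∈ S2 ∨ y ∈ S2))) :
    rho G W S ≤ rho H1 W1 S1 + rho H2 W2 S2 := by
  classical
  unfold rho
  refine le_trans ?_ (Finset.card_union_le _ _)
  apply Finset.card_le_card
  intro p hp
  simp only [Finset.mem_union, Finset.mem_filter, Finset.mem_product] at hp ⊢
  rcases h _ _ hp.1.1 hp.1.2 hp.2.2 hp.2.1 with ⟨h1, h2, h3, h4⟩ | ⟨h1, h2, h3, h4⟩
  · exact Or.inl ⟨⟨h1, h2⟩, h3, h4⟩
  · exact Or.inr ⟨⟨h1, h2⟩, h3, h4⟩

lemma subset_verts_of_card {W T C : Finset V} {P : Finset (List V)} (hP : Linkage G W T C P)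
    (hc : P.card = T.card) : T ⊆ verts P := by
  have h1 := hP.verts_inter_card_left
  have h2 : verts P ∩ T = T :=
    Finset.eq_of_subset_of_card_le Finset.inter_subset_right (by rw [h1, hc])
  rw [← h2]
  exact Finset.inter_subset_left

lemma sep_mono_graph {H : SimpleGraph V} (hGH : ∀ x y, G.Adj x y → H.Adj x y)
    (h : Sep H W A B) : Sep G W A B :=
  ⟨h.union, fun a ha ha' b hb hb' hadj => h.nadj a ha ha' b hb hb' (hGH _ _ hadj)⟩

/-- from a linkage or a minimal separation: `(G[B], A ∩ B)` linked, `A` containing `X` and `B`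
containing the target `C`. -/
theorem exists_linked_sep {W X C W2 : Finset V} (hX : X ⊆ W) (hC : C ⊆ W)
    (hL : ∀ C' ⊆ C, C'.card ≤ X.card → Linked G W2 C') (hW2 : ∀ x ∈ W, x ∈ W2 → x ∈ C) :
    Linked G (W ∪ W2) X ∨ ∃ A B, Sep G W A B ∧ X ⊆ A ∧ C ⊆ B ∧ (A ∩ B).card < X.card ∧
      Linked G (B ∪ W2) (A ∩ B) := by
  classical
  rcases menger_sep (G := G) hX hC X.card with ⟨Q, hQ, hQc⟩ | ⟨A0, B0, h1, h2, h3, h4⟩
  · left
    refine Linked.ext hQ (subset_verts_of_card hQ hQc) (hL _ Finset.inter_subset_right ?_) hW2
    rw [hQ.verts_inter_card, hQc]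
  · right
    have hex : ∃ n, ∃ A B, Sep G W A B ∧ X ⊆ A ∧ C ⊆ B ∧ (A ∩ B).card = n :=
      ⟨_, A0, B0, h1, h2, h3, rfl⟩
    obtain ⟨A, B, e1, e2, e3, e4⟩ := Nat.find_spec hex
    have hlt : (A ∩ B).card < X.card := by
      rw [e4]
      exact lt_of_le_of_lt (Nat.find_min' hex ⟨A0, B0, h1, h2, h3, rfl⟩) h4
    refine ⟨A, B, e1, e2, e3, hlt, ?_⟩
    rcases menger_sep (G := G) (W := B) (A := A ∩ B) (B := C) Finset.inter_subset_right e3
      (A ∩ B).card with ⟨Q, hQ, hQc⟩ | ⟨P, Q, f1, f2, f3, f4⟩
    · refine Linked.ext hQ (subset_verts_of_card hQ hQc)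
        (hL _ Finset.inter_subset_right ?_) ?_
      · rw [hQ.verts_inter_card, hQc]; exact hlt.le
      · intro x hx hx2
        exact hW2 x (e1.right_sub hx) hx2
    · exfalso
      have g1 := sep_comp_right e1 f1 f2
      have g2 : ((A ∪ P) ∩ Q).card < (A ∩ B).card := by
        rw [comp_right_inter f1.right_sub f2]; exact f4
      have := Nat.find_min' hex ⟨A ∪ P, Q, g1, e2.trans Finset.subset_union_left, f3, rfl⟩
      omega

theorem claimA {k : ℕ}
    (IH : ∀ (G' : SimpleGraph V) (W' X' : Finset V), W'.card < W.card → X' ⊆ W' →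
      X'.card ≤ 2 * k → Massed G' W' X' lam → Linked G' W' X')
    (hXk : X.card ≤ 2 * k) (hM : Massed G W X lam) (hno : ¬ Linked G W X) :
    ∀ A B, Sep G W A B → X ⊆ A → (A ∩ B).card ≤ X.card → (B \ A).Nonempty →
      ¬ Linked G B (A ∩ B) := by
  classical
  intro A
  induction hn : A.card using Nat.strong_induction_on generalizing A with
  | _ n ihn =>
  intro B hsep hXA hord hne hL
  have hmin : ∀ A' B', A'.card < A.card → Sep G W A' B' → X ⊆ A' → (A' ∩ B').card ≤ X.card →
      (B' \ A').Nonempty → ¬ Linked G B' (A' ∩ B') := by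
    intro A' B' hlt h1 h2 h3 h4
    exact ihn A'.card (hn ▸ hlt) A' rfl B' h1 h2 h3 h4
  clear ihn
  have hAW : A ⊆ W := hsep.left_sub
  have hcardA : A.card < W.card := by
    apply Finset.card_lt_card
    refine ⟨hAW, fun h => ?_⟩
    obtain ⟨x, hx⟩ := hne
    rw [Finset.mem_sdiff] at hx
    exact hx.2 (h (hsep.right_sub hx.1))
  have hG : ∀ x y, G.Adj x y → (addClique G (A ∩ B)).Adj x y := fun x y h => Or.inl h
  have hmass : Massed (addClique G (A ∩ B)) A X lam := by
    constructor
    · -- (M1)
      rcases lt_or_eq_of_le hord with hlt | heq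
      · have e1 := hM.m2 A B hsep hXA hlt
        have e2 := hM.m1
        have e3 : rho G W (W \ X) ≤ rho G W (B \ A) + rho (addClique G (A ∩ B)) A (A \ X) := by
          apply rho_le_add
          intro x y hx hy hxy hadj
          by_cases hxA : x ∈ A
          · by_cases hyA : y ∈ A
            · right
              refine ⟨hxA, hyA, Or.inl hadj, ?_⟩
              simp only [Finset.mem_sdiff] at hxy ⊢
              tauto
            · left
              have : y ∈ B := by
                rw [← hsep.union, Finset.mem_union] at hy; tauto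
              exact ⟨hx, hy, hadj, Or.inr (Finset.mem_sdiff.2 ⟨this, hyA⟩)⟩
          · left
            have : x ∈ B := by
              rw [← hsep.union, Finset.mem_union] at hx; tauto
            exact ⟨hx, hy, hadj, Or.inl (Finset.mem_sdiff.2 ⟨this, hxA⟩)⟩
        have e4 : (W \ X).card = (A \ X).card + (B \ A).card := by
          rw [← Finset.card_union_of_disjoint]
          · congr 1
            ext x
            simp only [Finset.mem_sdiff, Finset.mem_union]
            rw [← hsep.union, Finset.mem_union]
            constructor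
            · rintro ⟨h1 | h1, h2⟩
              · exact Or.inl ⟨h1, h2⟩
              · by_cases hxA : x ∈ A
                · exact Or.inl ⟨hxA, h2⟩
                · exact Or.inr ⟨h1, hxA⟩
            · rintro (⟨h1, h2⟩ | ⟨h1, h2⟩)
              · exact ⟨Or.inl h1, h2⟩
              · exact ⟨Or.inr h1, fun h => h2 (hXA h)⟩
          · rw [Finset.disjoint_left]
            intro x hx hx'
            rw [Finset.mem_sdiff] at hx hx'
            exact hx'.2 hx.1
        rw [e4, Nat.mul_add] at e2
        omega
      · exfalso
        rcases exists_linked_sep (G := G) (W := A) (X := X) (C := A ∩ B) (W2 := B) hXA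
          Finset.inter_subset_left (fun C' hC' _ => hL.mono_X hC')
          (fun x h1 h2 => Finset.mem_inter.2 ⟨h1, h2⟩) with h1 | ⟨A1, A2, h1, h2, h3, h4, h5⟩
        · rw [hsep.union] at h1
          exact hno h1
        · have hA2 : A2 ⊆ A := h1.right_sub
          have hint : A1 ∩ (A2 ∪ B) = A1 ∩ A2 := by
            ext x
            simp only [Finset.mem_inter, Finset.mem_union]
            constructor
            · rintro ⟨c1, c2 | c2⟩
              · exact ⟨c1, c2⟩
              · exact ⟨c1, h3 (Finset.mem_inter.2 ⟨h1.left_sub c1, c2⟩)⟩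
            · rintro ⟨c1, c2⟩
              exact ⟨c1, Or.inl c2⟩
          refine hmin A1 (A2 ∪ B) ?_ (sep_comp_left hsep h1 h3) h2 ?_ ?_ ?_
          · apply Finset.card_lt_card
            refine ⟨h1.left_sub, fun hh => ?_⟩
            have : A ∩ B ⊆ A1 ∩ A2 := fun x hx =>
              Finset.mem_inter.2 ⟨hh (Finset.mem_inter.1 hx).1, h3 hx⟩
            have := Finset.card_le_card this
            omega
          · rw [hint]; exact h4.le
          · obtain ⟨x, hx⟩ := hne
            rw [Finset.mem_sdiff] at hx
            refine ⟨x, Finset.mem_sdiff.2 ⟨Finset.mem_union_right _ hx.1, fun h => hx.2 ?_⟩⟩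
            exact h1.left_sub h
          · rw [hint]; exact h5
    · -- (M2)
      rcases m2_or_violation (addClique G (A ∩ B)) A X lam with h | ⟨A', B', hv, hvmin⟩
      · exact h
      · exfalso
        have hsG : Sep G A A' B' := sep_mono_graph hG hv.sep
        have hA'A : A' ⊆ A := hv.sep.left_sub
        have hB'A : B' ⊆ A := hv.sep.right_sub
        by_cases hSA : A ∩ B ⊆ A'
        · -- the clique is on the left
          have s1 : Sep G W (A' ∪ B) B' := (sep_comp_left hsep hsG.symm hSA).symm
          have hint : (A' ∪ B) ∩ B' = A' ∩ B' := by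
            ext x
            simp only [Finset.mem_inter, Finset.mem_union]
            constructor
            · rintro ⟨c1 | c1, c2⟩
              · exact ⟨c1, c2⟩
              · exact ⟨hSA (Finset.mem_inter.2 ⟨hB'A c2, c1⟩), c2⟩
            · rintro ⟨c1, c2⟩
              exact ⟨Or.inl c1, c2⟩
          have hsd : B' \ (A' ∪ B) = B' \ A' := by
            ext x
            simp only [Finset.mem_sdiff, Finset.mem_union, not_or]
            constructor
            · rintro ⟨c1, c2, c3⟩; exact ⟨c1, c2⟩
            · rintro ⟨c1, c2⟩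
              exact ⟨c1, c2, fun c3 => c2 (hSA (Finset.mem_inter.2 ⟨hB'A c1, c3⟩))⟩
          have e1 := hM.m2 (A' ∪ B) B' s1 (hv.sub.trans Finset.subset_union_left)
            (by rw [hint]; exact hv.ord)
          rw [hsd] at e1
          have e2 := hv.big
          have e3 : rho (addClique G (A ∩ B)) A (B' \ A') ≤ rho G W (B' \ A') := by
            apply rho_le_of
            intro x y hx hy hxy hadj
            refine ⟨hAW hx, hAW hy, ?_, hxy⟩
            rcases hadj with h | ⟨_, h1, h2⟩
            · exact h
            · simp only [Finset.mem_sdiff] at hxy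
              rcases hxy with h | h
              · exact absurd (hSA h1) h.2
              · exact absurd (hSA h2) h.2
          omega
        · have hSB : A ∩ B ⊆ B' := by
            intro y hy
            by_contra hyB
            obtain ⟨x, hx, hxA⟩ := Finset.not_subset.1 hSA
            have hxB : x ∈ B' := by
              have : x ∈ A' ∪ B' := by
                rw [hv.sep.union]; exact (Finset.mem_inter.1 hx).1
              rcases Finset.mem_union.1 this with h | h
              · exact absurd h hxA
              · exact h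
            have hyA : y ∈ A' := by
              have : y ∈ A' ∪ B' := by
                rw [hv.sep.union]; exact (Finset.mem_inter.1 hy).1
              rcases Finset.mem_union.1 this with h | h
              · exact h
              · exact absurd h hyB
            refine hv.sep.nadj y hyA hyB x hxB hxA (Or.inr ⟨?_, hy, hx⟩)
            rintro rfl
            exact hyB hxB
          have hl1 : Linked (addClique G (A ∩ B)) B' (A' ∩ B') := by
            apply IH _ _ _ _ Finset.inter_subset_right _ (massed_of_min_violation hv hvmin)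
            · exact lt_of_le_of_lt (Finset.card_le_card hB'A) hcardA
            · exact (hv.ord.le).trans hXk
          have hBB : B' ∩ B = A ∩ B := by
            ext x
            simp only [Finset.mem_inter]
            constructor
            · rintro ⟨c1, c2⟩; exact ⟨hB'A c1, c2⟩
            · rintro ⟨c1, c2⟩; exact ⟨hSB (Finset.mem_inter.2 ⟨c1, c2⟩), c2⟩
          have hl2 : Linked G (B' ∪ B) (A' ∩ B') := by
            apply Linked.reroute Finset.inter_subset_right
            · rw [hBB]; exact hL
            · rw [hBB]; exact hl1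
          have hint : A' ∩ (B' ∪ B) = A' ∩ B' := by
            ext x
            simp only [Finset.mem_inter, Finset.mem_union]
            constructor
            · rintro ⟨c1, c2 | c2⟩
              · exact ⟨c1, c2⟩
              · exact ⟨c1, hSB (Finset.mem_inter.2 ⟨hA'A c1, c2⟩)⟩
            · rintro ⟨c1, c2⟩
              exact ⟨c1, Or.inl c2⟩
          refine hmin A' (B' ∪ B) ?_ (sep_comp_left hsep hsG hSB) hv.sub ?_ ?_ ?_
          · apply Finset.card_lt_card
            exact ⟨hA'A, fun hh => hSA (Finset.inter_subset_left.trans hh)⟩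
          · rw [hint]; exact hv.ord.le
          · obtain ⟨x, hx⟩ := hne
            rw [Finset.mem_sdiff] at hx
            refine ⟨x, Finset.mem_sdiff.2 ⟨Finset.mem_union_right _ hx.1, fun h => hx.2 ?_⟩⟩
            exact hA'A h
          · rw [hint]; exact hl2
  have hl := IH _ A X hcardA hXA hXk hmass
  have := Linked.reroute hXA hL hl
  rw [hsep.union] at this
  exact hno this

end Crest.Agent.R042.TW113
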