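import Mathlib
import Crest.Agent.R042.Contr_831
import Crest.Agent.R042.TWDefs_113

/-! Row 42, sec 05: CLAIM B of the Thomas-Wollan theorem (in the forms of `TWDefs_113`). -/

set_option autoImplicit false
set_option linter.unusedSectionVars false
set_option linter.unusedVariables false

namespace Crest.Agent.R042.TWB831

open Finset Crest.Agent.R042.Menger353 Crest.Agent.R042.TW113
open Crest.Agent.R042.Conn353 (Conn Reach conn_iff)
open Crest.Agent.R042.Contr831 (contr lift)

variable {V : Type*} [DecidableEq V] {G : SimpleGraph V} {u v : V} {W X A B P Q : Finset V}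

/-! ### linked sets and contraction -/

/-- a linked set of the contraction is linked in the graph. -/
theorem linked_lift (huv : G.Adj u v) (hv : v ∈ W) (hvX : v ∉ X)
    (h : Linked (contr G u v) (W.erase v) X) : Linked G W X := by
  intro D t hD ht hinj
  obtain ⟨P, h1, h2⟩ := h D t hD ht hinj
  have hvP : ∀ a ∈ D, v ∉ P a := fun a ha hi => by
    have := (h1 a ha).2.2.2.1 hi
    simp at this
  refine ⟨fun a => lift u v (P a), ?_, ?_⟩
  · intro a ha
    obtain ⟨e1, e2, e3, e4, e5⟩ := h1 a ha
    refine ⟨Contr831.conn_lift huv e1, Contr831.subset_lift e2, Contr831.subset_lift e3, ?_, ?_⟩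
    · intro x hx
      rcases Contr831.mem_lift.1 hx with hx | ⟨hx, _⟩
      · exact Finset.mem_of_mem_erase (e4 hx)
      · rw [hx]; exact hv
    · intro x hx hX
      rcases Contr831.mem_lift.1 hx with hx | ⟨hx, _⟩
      · exact e5 x hx hX
      · rw [hx] at hX; exact absurd hX hvX
  · intro a ha b hb hab
    rw [Finset.disjoint_left]
    intro x hx hx'
    have hd := Finset.disjoint_left.1 (h2 a ha b hb hab)
    rcases Contr831.mem_lift.1 hx with k1 | ⟨k0, k1⟩
    · rcases Contr831.mem_lift.1 hx' with k2 | ⟨k3, k2⟩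
      · exact hd k1 k2
      · exact hvP a ha (k3 ▸ k1)
    · rcases Contr831.mem_lift.1 hx' with k2 | ⟨_, k2⟩
      · exact hvP b hb (k0 ▸ k2)
      · exact hd k1 k2

lemma conn_contr_of_notMem {S : Finset V} (hu : u ∉ S) (h : Conn (contr G u v) S) : Conn G S := by
  rw [conn_iff] at h ⊢
  refine ⟨h.1, fun a ha b hb => ?_⟩
  have key : ∀ {x y : V}, Reach (contr G u v) S x y → x ∈ S → Reach G S x y := by
    intro x y h hx
    induction h with
    | refl => exact Reach.refl _
    | tail h9 h10 ih =>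
      rename_i b c
      obtain ⟨⟨_, hb, hc, h11⟩, hcS⟩ := h10
      have hbS : b ∈ S := Reach.mem h9 hx
      rcases h11 with h11 | h11 | h11
      · exact ih.step h11 hcS
      · exact absurd hbS (h11.1 ▸ hu)
      · exact absurd hcS (h11.1 ▸ hu)
  exact key (h.2 a ha b hb) ha

theorem linked_of_notMem (hu : u ∉ W) (h : Linked (contr G u v) W X) : Linked G W X := by
  intro D t hD ht hinj
  obtain ⟨P, h1, h2⟩ := h D t hD ht hinj
  refine ⟨P, fun a ha => ⟨conn_contr_of_notMem (fun hi => hu ((h1 a ha).2.2.2.1 hi)) (h1 a ha).1,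
    (h1 a ha).2⟩, h2⟩

/-- linkedness of the lift of a side, if the new vertex is not in the separator. -/
theorem linked_side (huv : G.Adj u v) (hvA : v ∉ A) (hvB : v ∉ B)
    (hu : ¬ (u ∈ A ∧ u ∈ B)) (h : Linked (contr G u v) B (A ∩ B)) :
    Linked G (lift u v B) (lift u v A ∩ lift u v B) := by
  have hu' : u ∉ A ∩ B := fun h => hu ⟨(Finset.mem_inter.1 h).1, (Finset.mem_inter.1 h).2⟩
  rw [Contr831.lift_inter hvA hvB, Contr831.lift_of_notMem hu']
  by_cases hB : u ∈ B
  · rw [Contr831.lift_of_mem hB]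
    refine linked_lift huv (Finset.mem_insert_self _ _)
      (fun hx => hvA (Finset.mem_inter.1 hx).1) ?_
    rwa [Finset.erase_insert hvB]
  · rw [Contr831.lift_of_notMem hB]
    exact linked_of_notMem hB h

/-! ### edge counts and separations -/

lemma rho_eq (S : Finset V) : Contr831.rho G W S = TW113.rho G W S := rfl

lemma rho_mono_W {W' S : Finset V} (h : W ⊆ W') : rho G W S ≤ rho G W' S := by
  classical
  unfold rho
  apply Finset.card_le_card
  intro p hp
  rw [Finset.mem_filter, Finset.mem_product] at hp ⊢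
  exact ⟨⟨h hp.1.1, h hp.1.2⟩, hp.2⟩

lemma rho_empty : rho G W ∅ = 0 := by
  classical
  unfold rho
  rw [Finset.card_eq_zero, Finset.filter_eq_empty_iff]
  intro p _ h
  simp at h

/-- all the edges at `B \ A` are inside `B`. -/
lemma rho_side_le (h : Sep G W A B) : rho G W (B \ A) ≤ rho G B (B \ A) := by
  classical
  unfold rho
  apply Finset.card_le_card
  rintro ⟨x, y⟩ hp
  rw [Finset.mem_filter, Finset.mem_product] at hp ⊢
  obtain ⟨⟨hx, hy⟩, h1, h2⟩ := hp
  simp only at hx hy h1 h2 ⊢
  have key : ∀ a b, G.Adj a b → a ∈ B \ A → b ∈ W → b ∈ B := by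
    intro a b hab ha hb
    rw [Finset.mem_sdiff] at ha
    rw [← h.union, Finset.mem_union] at hb
    rcases hb with hb | hb
    · by_contra hbB
      exact h.nadj b hb hbB a ha.1 ha.2 hab.symm
    · exact hb
  rcases h2 with h2 | h2
  · exact ⟨⟨(Finset.mem_sdiff.1 h2).1, key x y h1 h2 hy⟩, h1, Or.inl h2⟩
  · exact ⟨⟨key y x h1.symm h2 hx, (Finset.mem_sdiff.1 h2).1⟩, h1, Or.inr h2⟩

lemma sdiff_inter_self' : B \ (A ∩ B) = B \ A := by
  ext x
  simp only [Finset.mem_sdiff, Finset.mem_inter]
  tauto

/-- a separation of `G[B]` extends to a separation of `G[W]`. -/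
lemma sep_combine (h : Sep G W A B) (h' : Sep G B P Q) (hP : A ∩ B ⊆ P) :
    Sep G W (A ∪ P) Q ∧ (A ∪ P) ∩ Q = P ∩ Q ∧ Q \ (A ∪ P) = Q \ P := by
  have hPB := h'.left_sub
  have hQB := h'.right_sub
  have hAQ : ∀ x, x ∈ A → x ∈ Q → x ∈ P := fun x h1 h2 =>
    hP (Finset.mem_inter.2 ⟨h1, hQB h2⟩)
  refine ⟨⟨?_, ?_⟩, ?_, ?_⟩
  · rw [Finset.union_assoc, h'.union, h.union]
  · intro a ha haQ b hbQ hb hab
    rw [Finset.mem_union, not_or] at hb
    by_cases haP : a ∈ P
    · exact h'.nadj a haP haQ b hbQ hb.2 hab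
    · have haA : a ∈ A := by
        rcases Finset.mem_union.1 ha with h1 | h1
        · exact h1
        · exact absurd h1 haP
      have haB : a ∉ B := fun h1 => haP (hP (Finset.mem_inter.2 ⟨haA, h1⟩))
      exact h.nadj a haA haB b (hQB hbQ) hb.1 hab
  · ext x
    simp only [Finset.mem_inter, Finset.mem_union]
    constructor
    · rintro ⟨h1 | h1, h2⟩
      · exact ⟨hAQ x h1 h2, h2⟩
      · exact ⟨h1, h2⟩
    · rintro ⟨h1, h2⟩
      exact ⟨Or.inr h1, h2⟩
  · ext x
    simp only [Finset.mem_sdiff, Finset.mem_union, not_or]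
    constructor
    · rintro ⟨h1, h2, h3⟩
      exact ⟨h1, h3⟩
    · rintro ⟨h1, h2⟩
      exact ⟨h1, fun h3 => h2 (hAQ x h3 h1), h2⟩

/-- if `(A, B)` has many edges at `B \ A` and every separation of order `< |A ∩ B|` behind it is
small, then `(G[B], A ∩ B)` is massed. -/
theorem massed_side {lam : ℕ} (hs : Sep G W A B)
    (hv : 2 * lam * (B \ A).card < rho G W (B \ A))
    (hm : ∀ P Q, Sep G B P Q → A ∩ B ⊆ P → (P ∩ Q).card < (A ∩ B).card →
      rho G W (Q \ P) ≤ 2 * lam * (Q \ P).card) : Massed G B (A ∩ B) lam := by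
  refine ⟨?_, ?_⟩
  · rw [sdiff_inter_self']
    exact hv.trans_le (rho_side_le hs)
  · intro P Q h1 h2 h3
    exact (rho_mono_W hs.right_sub).trans (hm P Q h1 h2 h3)

theorem massed_of_min_violation {lam : ℕ} (hs : Sep G W A B) (hXA : X ⊆ A)
    (ho : (A ∩ B).card < X.card) (hv : 2 * lam * (B \ A).card < rho G W (B \ A))
    (hmin : ∀ A' B', Sep G W A' B' → X ⊆ A' → (A' ∩ B').card < X.card →
      2 * lam * (B' \ A').card < rho G W (B' \ A') → B.card ≤ B'.card) :
    Massed G B (A ∩ B) lam := by
  refine massed_side hs hv ?_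
  intro P Q h1 h2 h3
  by_contra h4
  push Not at h4
  obtain ⟨c1, c2, c3⟩ := sep_combine hs h1 h2
  have h5 := hmin (A ∪ P) Q c1 (hXA.trans Finset.subset_union_left) (by rw [c2]; omega)
    (by rw [c3]; exact h4)
  have h6 : Q = B := Finset.eq_of_subset_of_card_le h1.right_sub h5
  have h7 : P ∩ Q = P := by
    rw [h6]
    exact Finset.inter_eq_left.2 h1.left_sub
  rw [h7] at h3
  have := Finset.card_le_card h2
  omega

/-- a violation of `m2` with `|B|` minimal. -/
theorem exists_min_violation {lam : ℕ} (h : ¬ ∀ A B, Sep G W A B → X ⊆ A →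
      (A ∩ B).card < X.card → rho G W (B \ A) ≤ 2 * lam * (B \ A).card) :
    ∃ A B, Sep G W A B ∧ X ⊆ A ∧ (A ∩ B).card < X.card ∧
      2 * lam * (B \ A).card < rho G W (B \ A) ∧
      ∀ A' B', Sep G W A' B' → X ⊆ A' → (A' ∩ B').card < X.card →
        2 * lam * (B' \ A').card < rho G W (B' \ A') → B.card ≤ B'.card := by
  classical
  have hex : ∃ n, ∃ A B, Sep G W A B ∧ X ⊆ A ∧ (A ∩ B).card < X.card ∧
      2 * lam * (B \ A).card < rho G W (B \ A) ∧ B.card = n := by
    push Not at h
    obtain ⟨A, B, h1, h2, h3, h4⟩ := h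
    exact ⟨_, A, B, h1, h2, h3, h4, rfl⟩
  obtain ⟨A, B, h1, h2, h3, h4, h5⟩ := Nat.find_spec hex
  refine ⟨A, B, h1, h2, h3, h4, ?_⟩
  intro A' B' e1 e2 e3 e4
  rw [h5]
  exact Nat.find_min' hex ⟨A', B', e1, e2, e3, e4, rfl⟩

open Classical in
/-- CLAIM B of the Thomas-Wollan theorem. -/
theorem claimB {k lam : ℕ} {G : SimpleGraph V} {W X : Finset V}
    (IH : ∀ (G' : SimpleGraph V) (W' X' : Finset V), W'.card < W.card → X' ⊆ W' →
      X'.card ≤ 2 * k → Massed G' W' X' lam → Linked G' W' X')
    (hX : X ⊆ W) (hXk : X.card ≤ 2 * k) (hM : Massed G W X lam) (hno : ¬ Linked G W X)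
    (hA : ∀ A B, Sep G W A B → X ⊆ A → (A ∩ B).card ≤ X.card → (B \ A).Nonempty →
      ¬ Linked G B (A ∩ B))
    (hclq : ∀ u ∈ X, ∃ z, ∀ y ∈ X, y ≠ u → y ≠ z → G.Adj u y) :
    ∀ u ∈ W, ∀ v ∈ W, v ∉ X → G.Adj u v →
      lam ≤ (W.filter (fun w => G.Adj u w ∧ G.Adj v w)).card + (if u ∈ X then 1 else 0) := by
  intro u hu v hv hvX huv
  by_contra hlt
  push Not at hlt
  have hne : u ≠ v := huv.ne
  have hWc : (W.erase v).card < W.card := Finset.card_erase_lt_of_mem hv
  have hXW : X ⊆ W.erase v := fun x hx =>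
    Finset.mem_erase.2 ⟨fun h => hvX (h ▸ hx), hX hx⟩
  -- the contraction satisfies (M1)
  have hcard : (W \ X).card = (W.erase v \ X).card + 1 := by
    have h1 : W \ X = insert v (W.erase v \ X) := by
      ext x
      simp only [Finset.mem_sdiff, Finset.mem_insert, Finset.mem_erase]
      constructor
      · rintro ⟨h1, h2⟩
        by_cases hx : x = v
        · exact Or.inl hx
        · exact Or.inr ⟨⟨hx, h1⟩, h2⟩
      · rintro (h1 | h1)
        · rw [h1]; exact ⟨hv, hvX⟩
        · exact ⟨h1.1.2, h1.2⟩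
    rw [h1, Finset.card_insert_of_notMem (by simp)]
  have hloss : rho G W (W \ X) ≤ rho (contr G u v) (W.erase v) (W.erase v \ X) +
      2 * (1 + (W.filter (fun w => G.Adj u w ∧ G.Adj v w)).card + (if u ∈ X then 1 else 0)) := by
    by_cases huX : u ∈ X
    · obtain ⟨z, hz⟩ := hclq u huX
      have h := Contr831.rho_loss_in (W := W) (X := X) huv hu hv hvX z hz
      rw [if_pos huX]
      refine le_trans h ?_
      have e2 : rho (contr G u v) (W.erase v) (W.erase v \ X) =
        Contr831.rho (contr G u v) (W.erase v) (W.erase v \ X) := rfl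
      rw [e2]
      apply Nat.add_le_add_left
      omega
    · have h := Contr831.rho_loss_out (W := W) (X := X) huv hu hv hvX huX
      rw [if_neg huX]
      refine le_trans h ?_
      have e2 : rho (contr G u v) (W.erase v) (W.erase v \ X) =
        Contr831.rho (contr G u v) (W.erase v) (W.erase v \ X) := rfl
      rw [e2]
      apply Nat.add_le_add_left
      omega
  have hM1 : 2 * lam * (W.erase v \ X).card <
      rho (contr G u v) (W.erase v) (W.erase v \ X) := by
    have h1 := hM.m1
    rw [hcard, Nat.mul_add, Nat.mul_one] at h1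
    omega
  have hnoC : ¬ Linked (contr G u v) (W.erase v) X := fun h => hno (linked_lift huv hv hvX h)
  -- so (M2) fails for the contraction
  have hM2 : ¬ ∀ A B, Sep (contr G u v) (W.erase v) A B → X ⊆ A →
      (A ∩ B).card < X.card →
      rho (contr G u v) (W.erase v) (B \ A) ≤ 2 * lam * (B \ A).card := fun h =>
    hnoC (IH _ _ _ hWc hXW hXk ⟨hM1, h⟩)
  obtain ⟨A, B, h1, h2, h3, h4, h5⟩ := exists_min_violation hM2
  have hvA : v ∉ A := fun hx => by
    have := h1.left_sub hx; simp at this
  have hvB : v ∉ B := fun hx => by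
    have := h1.right_sub hx; simp at this
  have hBc : B.card ≤ (W.erase v).card := Finset.card_le_card h1.right_sub
  have hne' : (B \ A).Nonempty := by
    rw [Finset.nonempty_iff_ne_empty]
    intro h6
    rw [h6, rho_empty] at h4
    omega
  have hlinked : Linked (contr G u v) B (A ∩ B) :=
    IH _ _ _ (by omega) Finset.inter_subset_right (by omega)
      (massed_of_min_violation h1 h2 h3 h4 h5)
  have hsep := Contr831.sep_lift hu hv hne h1
  have hsd : lift u v B \ lift u v A = lift u v (B \ A) := Contr831.lift_sdiff' hvA hvB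
  by_cases huAB : u ∈ A ∧ u ∈ B
  · -- the new vertex is in the separator
    have hint : lift u v A ∩ lift u v B = lift u v (A ∩ B) := Contr831.lift_inter hvA hvB
    have hsd' : lift u v B \ lift u v A = B \ A := by
      rw [hsd, Contr831.lift_of_notMem]
      exact fun h => (Finset.mem_sdiff.1 h).2 huAB.1
    have hrho : rho (contr G u v) (W.erase v) (B \ A) ≤ rho G W (lift u v B \ lift u v A) := by
      rw [hsd]
      exact Contr831.rho_contr_le hv (fun h => hvB (Finset.mem_sdiff.1 h).1)
    have hbig : 2 * lam * (lift u v B \ lift u v A).card <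
        rho G W (lift u v B \ lift u v A) := by
      refine lt_of_lt_of_le ?_ hrho
      rw [hsd']
      exact h4
    have hle : (lift u v A ∩ lift u v B).card ≤ X.card := by
      rw [hint]
      have := Contr831.card_lift_le (u := u) (v := v) (S := A ∩ B)
        (fun h => hvA (Finset.mem_inter.1 h).1)
      omega
    have hXA : X ⊆ lift u v A := h2.trans Contr831.subset_lift
    have heq : (lift u v A ∩ lift u v B).card = X.card := by
      refine le_antisymm hle ?_
      by_contra hlt'
      push Not at hlt'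
      exact absurd (hM.m2 _ _ hsep hXA hlt') (not_le.2 hbig)
    have hmass : Massed G (lift u v B) (lift u v A ∩ lift u v B) lam := by
      refine massed_side hsep hbig ?_
      intro P Q k1 k2 k3
      obtain ⟨c1, c2, c3⟩ := sep_combine hsep k1 k2
      have := hM.m2 _ _ c1 (hXA.trans Finset.subset_union_left) (by rw [c2, ← heq]; exact k3)
      rwa [c3] at this
    have hBlt : (lift u v B).card < W.card := by
      refine Finset.card_lt_card ⟨hsep.right_sub, fun hWB => ?_⟩
      have h6 : lift u v A ∩ lift u v B = lift u v A :=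
        Finset.inter_eq_left.2 (hsep.left_sub.trans hWB)
      rw [h6] at heq
      have h7 : X = lift u v A := Finset.eq_of_subset_of_card_le hXA (by omega)
      apply hvX
      rw [h7, Contr831.lift_of_mem huAB.1]
      exact Finset.mem_insert_self _ _
    refine hA _ _ hsep hXA hle ?_ (IH _ _ _ hBlt Finset.inter_subset_right (by omega) hmass)
    rw [hsd']
    exact hne'
  · refine hA _ _ hsep (h2.trans Contr831.subset_lift) ?_ ?_ (linked_side huv hvA hvB huAB hlinked)
    · rw [Contr831.lift_inter hvA hvB, Contr831.lift_of_notMem (fun h =>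
        huAB ⟨(Finset.mem_inter.1 h).1, (Finset.mem_inter.1 h).2⟩)]
      omega
    · rw [hsd]
      exact hne'.mono Contr831.subset_lift

end Crest.Agent.R042.TWB831
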