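import Mathlib
import Crest.Agent.R042.Conn_353
import Crest.Agent.R042.Menger_353

/-! Row 42, (10.7): extension of the token sets in one stage of the chain of hubs
(glue of the batch `S`, the wiring in the hub `J` and the batch `E`). -/

set_option autoImplicit false
set_option linter.unusedSectionVars false

namespace Crest.Agent.R042.TokExt375

open Finset Crest.Agent.R042.Conn353 Crest.Agent.R042.Menger353

variable {V : Type*} [DecidableEq V]

/-- token sets: disjoint connected sets `T i ∋ y i`, outside `Γ` except for `y i`. -/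
structure Tok (G : SimpleGraph V) (Γ : Finset V) {p : ℕ} (T : Fin p → Finset V)
    (y : Fin p → V) : Prop where
  conn : ∀ i, Conn G (T i)
  disj : ∀ i j, i ≠ j → Disjoint (T i) (T j)
  mem : ∀ i, y i ∈ T i
  meet : ∀ i, ∀ x ∈ T i, x ∈ Γ → x = y i

lemma Tok.inj {G : SimpleGraph V} {Γ : Finset V} {p : ℕ} {T : Fin p → Finset V}
    {y : Fin p → V} (h : Tok G Γ T y) : Function.Injective y := by
  intro i j hij
  by_contra hne
  exact Finset.disjoint_left.1 (h.disj i j hne) (h.mem i) (hij ▸ h.mem j)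

lemma Tok.mono {G : SimpleGraph V} {Γ Γ' : Finset V} {p : ℕ} {T : Fin p → Finset V}
    {y : Fin p → V} (h : Tok G Γ T y) (hΓ : Γ' ⊆ Γ) : Tok G Γ' T y :=
  ⟨h.conn, h.disj, h.mem, fun i x hx hxΓ => h.meet i x hx (hΓ hxΓ)⟩

/-- the family of paths of a linkage with `|A|` paths, indexed by `A`. -/
lemma full_family {G : SimpleGraph V} {W A B : Finset V} {P : Finset (List V)}
    (h : Linkage G W A B P) :
    ∃ (F : V → Finset V) (g : V → V),
      (∀ a ∈ verts P ∩ A, F a ⊆ W ∧ F a ⊆ verts P ∧ Conn G (F a) ∧ a ∈ F a ∧ g a ∈ F a ∧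
        g a ∈ B ∧ (∀ x ∈ F a, x ∈ A → x = a) ∧ (∀ x ∈ F a, x ∈ B → x = g a)) ∧
      (∀ a ∈ verts P ∩ A, ∀ a' ∈ verts P ∩ A, a ≠ a' → Disjoint (F a) (F a')) ∧
      (∀ a ∈ verts P ∩ A, ∀ a' ∈ verts P ∩ A, g a = g a' → a = a') ∧
      (verts P ∩ A).card = P.card := by
  obtain ⟨f, g, h1, h2, _, _, h5⟩ := h.family
  refine ⟨fun a => (f a).toFinset, g, ?_, ?_, h5, h.verts_inter_card_left⟩
  · intro a ha
    obtain ⟨k1, k2, _, _, k5, k6, k7, k8, k9⟩ := h1 a ha
    refine ⟨?_, ?_, k2.conn, List.mem_toFinset.2 k6, List.mem_toFinset.2 k7, k5, ?_, ?_⟩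
    · intro x hx
      exact k2.sub x (List.mem_toFinset.1 hx)
    · intro x hx
      rw [mem_verts]
      exact ⟨f a, k1, List.mem_toFinset.1 hx⟩
    · intro x hx
      exact k8 x (List.mem_toFinset.1 hx)
    · intro x hx
      exact k9 x (List.mem_toFinset.1 hx)
  · intro a ha a' ha' hne
    rw [Finset.disjoint_left]
    intro x hx hx'
    exact h2 a ha a' ha' hne x (List.mem_toFinset.1 hx) (List.mem_toFinset.1 hx')

/-- **extension of the tokens in one stage of (10.7)**. -/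
theorem extend (G : SimpleGraph V) {p : ℕ} (Γ J B : Finset V) (T : Fin p → Finset V)
    (y : Fin p → V) (hT : Tok G Γ T y) (hJ : J ⊆ Γ) (hB : B ⊆ Γ)
    {W1 : Finset V} (hW1 : W1 ⊆ Γ) {S : Finset (List V)}
    (hS : Linkage G W1 (Finset.univ.image y) J S) (hSc : S.card = p)
    {W2 : Finset V} (hW2 : W2 ⊆ Γ) (hW2S : Disjoint W2 (verts S)) {E : Finset (List V)}
    (hE : Linkage G W2 (J \ verts S) B E) (hEc : E.card = p)
    (hBJ : Disjoint B J) (hBS : Disjoint B (verts S)) (i0 j0 : Fin p)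
    (wire : ∀ e f : Fin p → V, Function.Injective e → Function.Injective f →
      (∀ i j, e i ≠ f j) → (∀ i, e i ∈ J) → (∀ i, f i ∈ J) →
      ∃ Q : Fin p → Finset V, (∀ i, Q i ⊆ J ∧ Conn G (Q i) ∧ e i ∈ Q i ∧ f i ∈ Q i) ∧
        (∀ i j, i ≠ j → Disjoint (Q i) (Q j)) ∧ ∃ a ∈ Q i0, ∃ b ∈ Q j0, G.Adj a b) :
    ∃ (T' : Fin p → Finset V) (y' : Fin p → V),
      (∀ i, Conn G (T' i)) ∧ (∀ i j, i ≠ j → Disjoint (T' i) (T' j)) ∧ (∀ i, T i ⊆ T' i) ∧
      (∀ i, T' i ⊆ T i ∪ verts S ∪ J ∪ verts E) ∧ Function.Injective y' ∧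
      (∀ i, y' i ∈ T' i ∧ y' i ∈ B) ∧ (∀ i, ∀ v ∈ T' i, v ∈ B → v = y' i) ∧
      ∃ a ∈ T' i0, ∃ b ∈ T' j0, G.Adj a b := by
  classical
  obtain ⟨F, g, hF, hFd, hgi, hFc⟩ := full_family hS
  obtain ⟨F', g', hF', hFd', hgi', hFc'⟩ := full_family hE
  have hyi := hT.inj
  have hYc : (Finset.univ.image y).card = p := by
    rw [Finset.card_image_of_injective _ hyi, Finset.card_univ, Fintype.card_fin]
  have hYe : verts S ∩ Finset.univ.image y = Finset.univ.image y := by
    refine Finset.eq_of_subset_of_card_le Finset.inter_subset_right ?_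
    rw [hYc, hFc, hSc]
  have hy : ∀ i, y i ∈ verts S ∩ Finset.univ.image y := by
    intro i
    rw [hYe]
    exact Finset.mem_image_of_mem _ (Finset.mem_univ _)
  have hyS : ∀ i, y i ∈ verts S := fun i => (Finset.mem_inter.1 (hy i)).1
  have hyY : ∀ i, y i ∈ Finset.univ.image y := fun i => (Finset.mem_inter.1 (hy i)).2
  -- the starts of the exit paths
  have hcard : Fintype.card {a // a ∈ verts E ∩ (J \ verts S)} = p := by
    rw [Fintype.card_coe, hFc', hEc]
  let eqv := Fintype.equivFinOfCardEq hcard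
  let f : Fin p → V := fun i => (eqv.symm i).1
  have hf : ∀ i, f i ∈ verts E ∩ (J \ verts S) := fun i => (eqv.symm i).2
  have hfi : Function.Injective f := by
    intro i j hij
    exact eqv.symm.injective (Subtype.ext hij)
  have hfJ : ∀ i, f i ∈ J := fun i =>
    (Finset.mem_sdiff.1 (Finset.mem_inter.1 (hf i)).2).1
  have hfS : ∀ i, f i ∉ verts S := fun i =>
    (Finset.mem_sdiff.1 (Finset.mem_inter.1 (hf i)).2).2
  let e : Fin p → V := fun i => g (y i)
  have heJ : ∀ i, e i ∈ J := fun i => (hF _ (hy i)).2.2.2.2.2.1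
  have heF : ∀ i, e i ∈ F (y i) := fun i => (hF _ (hy i)).2.2.2.2.1
  have hei : Function.Injective e := by
    intro i j hij
    exact hyi (hgi _ (hy i) _ (hy j) hij)
  have hef : ∀ i j, e i ≠ f j := by
    intro i j hij
    exact hfS j (hij ▸ (hF _ (hy i)).2.1 (heF i))
  obtain ⟨Q, hQ, hQd, a0, ha0, b0, hb0, hab0⟩ := wire e f hei hfi hef heJ hfJ
  -- pieces
  have d2 : ∀ i j, i ≠ j → Disjoint (T i) (F (y j)) := by
    intro i j hij
    rw [Finset.disjoint_left]
    intro x hx hx'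
    have h1 := hT.meet i x hx (hW1 ((hF _ (hy j)).1 hx'))
    subst h1
    exact hij (hyi ((hF _ (hy j)).2.2.2.2.2.2.1 _ hx' (hyY i)))
  have d3 : ∀ i j, i ≠ j → Disjoint (T i) (Q j) := by
    intro i j hij
    rw [Finset.disjoint_left]
    intro x hx hx'
    have hxJ := (hQ j).1 hx'
    have h1 := hT.meet i x hx (hJ hxJ)
    subst h1
    have h2 : y i = e i := (hF _ (hy i)).2.2.2.2.2.2.2 _ (hF _ (hy i)).2.2.2.1 hxJ
    exact Finset.disjoint_left.1 (hQd i j hij) (hQ i).2.2.1 (h2 ▸ hx')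
  have d4 : ∀ i j, Disjoint (T i) (F' (f j)) := by
    intro i j
    rw [Finset.disjoint_left]
    intro x hx hx'
    have hxW := (hF' _ (hf j)).1 hx'
    have h1 := hT.meet i x hx (hW2 hxW)
    subst h1
    exact Finset.disjoint_left.1 hW2S hxW (hyS i)
  have d5 : ∀ i j, i ≠ j → Disjoint (F (y i)) (F (y j)) := fun i j hij =>
    hFd _ (hy i) _ (hy j) (fun h => hij (hyi h))
  have d6 : ∀ i j, i ≠ j → Disjoint (F (y i)) (Q j) := by
    intro i j hij
    rw [Finset.disjoint_left]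
    intro x hx hx'
    have h1 : x = e i := (hF _ (hy i)).2.2.2.2.2.2.2 _ hx ((hQ j).1 hx')
    subst h1
    exact Finset.disjoint_left.1 (hQd i j hij) (hQ i).2.2.1 hx'
  have d7 : ∀ i j, Disjoint (F (y i)) (F' (f j)) := by
    intro i j
    rw [Finset.disjoint_left]
    intro x hx hx'
    exact Finset.disjoint_left.1 hW2S ((hF' _ (hf j)).1 hx') ((hF _ (hy i)).2.1 hx)
  have d9 : ∀ i j, i ≠ j → Disjoint (Q i) (F' (f j)) := by
    intro i j hij
    rw [Finset.disjoint_left]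
    intro x hx hx'
    have h0 : x ∉ verts S := fun h =>
      Finset.disjoint_left.1 hW2S ((hF' _ (hf j)).1 hx') h
    have h1 : x = f j := (hF' _ (hf j)).2.2.2.2.2.2.1 _ hx'
      (Finset.mem_sdiff.2 ⟨(hQ i).1 hx, h0⟩)
    subst h1
    exact Finset.disjoint_left.1 (hQd i j hij) hx (hQ j).2.2.2
  have d10 : ∀ i j, i ≠ j → Disjoint (F' (f i)) (F' (f j)) := fun i j hij =>
    hFd' _ (hf i) _ (hf j) (fun h => hij (hfi h))
  refine ⟨fun i => T i ∪ F (y i) ∪ Q i ∪ F' (f i), fun i => g' (f i), ?_, ?_, ?_, ?_, ?_, ?_,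
    ?_, ?_⟩
  · intro i
    have c1 := (hT.conn i).union (hF _ (hy i)).2.2.1 (hT.mem i) (hF _ (hy i)).2.2.2.1
    have c2 := c1.union (hQ i).2.1 (Finset.mem_union_right _ (heF i)) (hQ i).2.2.1
    exact c2.union (hF' _ (hf i)).2.2.1 (Finset.mem_union_right _ (hQ i).2.2.2)
      (hF' _ (hf i)).2.2.2.1
  · intro i j hij
    simp only [Finset.disjoint_union_left, Finset.disjoint_union_right]
    refine ⟨⟨⟨⟨⟨⟨hT.disj i j hij, ?_⟩, ?_⟩, ?_⟩, ⟨⟨?_, ?_⟩, ?_⟩, ?_⟩, ⟨⟨?_, ?_⟩, ?_⟩, ?_⟩,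
      ⟨⟨?_, ?_⟩, ?_⟩, ?_⟩
    all_goals first
      | exact d2 i j hij | exact d3 i j hij | exact d4 i j | exact (d2 j i hij.symm).symm
      | exact d5 i j hij | exact d6 i j hij | exact d7 i j | exact (d3 j i hij.symm).symm
      | exact (d6 j i hij.symm).symm | exact hQd i j hij | exact d9 i j hij
      | exact (d4 j i).symm | exact (d7 j i).symm | exact (d9 j i hij.symm).symm
      | exact d10 i j hij
  · intro i x hx
    simp only [Finset.mem_union]
    exact Or.inl (Or.inl (Or.inl hx))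
  · intro i x hx
    simp only [Finset.mem_union] at hx ⊢
    rcases hx with ((h | h) | h) | h
    · exact Or.inl (Or.inl (Or.inl h))
    · exact Or.inl (Or.inl (Or.inr ((hF _ (hy i)).2.1 h)))
    · exact Or.inl (Or.inr ((hQ i).1 h))
    · exact Or.inr ((hF' _ (hf i)).2.1 h)
  · intro i j hij
    exact hfi (hgi' _ (hf i) _ (hf j) hij)
  · intro i
    exact ⟨Finset.mem_union_right _ (hF' _ (hf i)).2.2.2.2.1, (hF' _ (hf i)).2.2.2.2.2.1⟩
  · intro i v hv hvB
    simp only [Finset.mem_union] at hv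
    rcases hv with ((h | h) | h) | h
    · have h1 := hT.meet i v h (hB hvB)
      subst h1
      exact absurd (hyS i) (fun h' => Finset.disjoint_left.1 hBS hvB h')
    · exact absurd ((hF _ (hy i)).2.1 h) (fun h' => Finset.disjoint_left.1 hBS hvB h')
    · exact absurd ((hQ i).1 h) (fun h' => Finset.disjoint_left.1 hBJ hvB h')
    · exact (hF' _ (hf i)).2.2.2.2.2.2.2 v h hvB
  · refine ⟨a0, ?_, b0, ?_, hab0⟩
    · simp only [Finset.mem_union]
      exact Or.inl (Or.inr ha0)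
    · simp only [Finset.mem_union]
      exact Or.inl (Or.inr hb0)

end Crest.Agent.R042.TokExt375
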