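import Crest.Agent.R042.PBAsy_713
import Crest.Agent.R042.SampB_592
import Crest.Agent.R042.ExtF_377

/-!
# Row 42 / S0059, plan B: order of the constants and `PairConfK K₀`
-/

set_option autoImplicit false
set_option linter.unusedSectionVars false

namespace Crest.Agent.R042.FinB713

open Finset Filter Crest.Agent.R042.RowWin543 Crest.Agent.R042.Fam543
  Crest.Agent.R042.LocFam958 Crest.Agent.R042.SspAsm375 Crest.Agent.R042.SspFin375
  Crest.Agent.R042.Inst592 Crest.Agent.R042.SysOf333 Crest.Agent.R042.TLev333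
  Crest.Agent.R042.FamV220 Crest.Agent.R042.IsoD543 Crest.Agent.R042.SspG375
open scoped Classical

/-- what the top theorem needs from the type level data of one level -/
structure TDok {k0 KK : Type} [Field k0] [Fintype k0] [Field KK] [Fintype KK] [Algebra k0 KK]
    {d L : ℕ} (K : Set k0) (e J : ℕ) (η θ c₀ : ℝ)
    (TD : TData (Om KK K d L) (Dl k0 KK d L) (TH KK d L J)) : Prop where
  perp : TD.perp = perp K d L
  rho : TD.ρ = (Fintype.card KK : ℝ)⁻¹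
  eta : TD.η = η
  theta : TD.θ ≤ θ
  dx : ∀ (P P' : Om KK K d L) (δ : Dl k0 KK d L) (ϑ : TH KK d L J) (i : Fin J)
    (R : Om KK K d L), HG365.DX (2 ^ e) (fun a => bif a then P'.1 else P.1) (ϑ i) R.1 →
      TD.D1 P P' δ ϑ R
  dx2 : ∀ (P P' : Om KK K d L) (δ : Dl k0 KK d L) (ϑ : TH KK d L J) (i : Fin J)
    (R R' : Om KK K d L), HG365.DX2 (2 ^ e) (fun a => bif a then P'.1 else P.1) (ϑ i) R.1 R'.1 →
      TD.D2 P P' δ ϑ R R'
  loc : ∀ (K1 : ℝ), 1 ≤ K1 → ∀ (N : ℕ) (x : Fin N → Om KK K d L), Gen592.LI KK vv 8 x →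
    ∀ (s s' : Jx (Fin N) × Dl k0 KK d L × TH KK d L J) (μ μ' : VV k0 KK d 2 L → ℝ),
      IsP μ → (∀ v, μ v ≠ 0 → dword (2 ^ e) 2 (x s.1.1.1).1 (x s.1.1.2).1 v.1 v.2 = s.2.1 ∧
        ¬ Rel K (2 ^ e) 2 (x s.1.1.1).1 (x s.1.1.2).1 v.1 v.2) →
      IsP μ' → (∀ v, μ' v ≠ 0 → dword (2 ^ e) 2 (x s'.1.1.1).1 (x s'.1.1.2).1 v.1 v.2 = s'.2.1 ∧
        ¬ Rel K (2 ^ e) 2 (x s'.1.1.1).1 (x s'.1.1.2).1 v.1 v.2) →
      TD.Alive x s s' →
      ¬ HG365.BadE (2 ^ e) (1 / (8 * K1)) K1 (1 / 8) (pj (fun i => (x i).1) s.1)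
        (pj (fun i => (x i).1) s'.1) μ →
      ¬ HG365.BadE (2 ^ e) (1 / (8 * K1)) K1 (1 / 8) (pj (fun i => (x i).1) s'.1)
        (pj (fun i => (x i).1) s.1) μ' →
      c₀ ≤ ∑ v, ∑ v', μ v * μ' v' *
        (if CfR (relF K e 2 fun i => (x i).1) s.1 s'.1 v v' then 1 else 0)

/-- **TYPE LEVEL, asymptotic form**: `L` is chosen after the alphabet, everything else holds for
large `j`, for every dimension `d`. -/
def TypeAsy (η β : ℝ) : Prop :=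
  ∀ (k0 : Type) [Field k0] [Fintype k0] [DecidableEq k0] [CharP k0 2] (K : Finset k0),
    Alph767.Alph k0 K β → ∃ L : ℕ, 0 < L ∧ ∀ d : ℕ, 2 ≤ d → ∀ᶠ j : ℕ in atTop,
    ∀ (KK : Type) [Field KK] [Fintype KK] [Algebra k0 KK] [CharP KK 2] (e : ℕ),
      2 ^ e = Fintype.card k0 ^ j → Fintype.card KK = Fintype.card k0 ^ (2 * j) →
      ∃ TD : TData (Om KK (K : Set k0) d L) (Dl k0 KK d L) (TH KK d L (Fintype.card k0 ^ j)),
        TDok (K : Set k0) e (Fintype.card k0 ^ j) η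
          (4 * Fintype.card k0 * (Fintype.card k0 : ℝ) ^ j /
            ((Fintype.card k0 : ℝ) ^ (2 * j)) ^ (2 * d))
          (1 / 8 / (Fintype.card KK : ℝ) ^ (4 * (L * (2 * d - 1) ^ 2))) TD

theorem rpow_99 (X k : ℕ) (hX : 0 < X) :
    (((X ^ (100 * k) : ℕ) : ℝ)) ^ (-(99 : ℝ) / 100) = ((X : ℝ) ^ (99 * k))⁻¹ := by
  have hX0 : (0 : ℝ) ≤ X := by positivity
  rw [Nat.cast_pow, ← Real.rpow_natCast, ← Real.rpow_mul hX0, ← Real.rpow_natCast,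
    ← Real.rpow_neg hX0]
  congr 1
  push_cast
  ring

/-- the numbers of `pair_of_level` in powers of `X = card KK` -/
theorem nums_level (K₀ n0 a u g X : ℕ) (hK₀ : 0 < K₀) (hX : n0 + 9600 * K₀ ≤ X) :
    n0 ≤ X ^ (100 * (a + 1)) ∧ 64 * K₀ ≤ X ^ 17 ∧
    16 * (16 * (K₀ : ℝ) * ((X ^ (100 * (a + 1)) : ℕ) : ℝ) * (X : ℝ) ^ u) * ((X : ℝ) ^ (g * a)) ^ 2 ≤
      (X : ℝ) ^ (100 * (a + 1) + u + 2 * (g * a) + 1) ∧
    64 * (K₀ : ℝ) * (((X ^ 17 : ℕ) : ℝ)) ^ 2 *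
      (((X ^ (100 * (a + 1)) : ℕ) : ℝ)) ^ (-(99 : ℝ) / 100) ≤ 1 ∧
    16 * K₀ * X ^ 17 ≤ X ^ (100 * (a + 1)) ∧
    (((X ^ (100 * (a + 1)) : ℕ) : ℝ)) ^ (-(99 : ℝ) / 100) ≤ 1 / (16 * (K₀ : ℝ)) *
      (225 / 256 * (((X : ℝ)⁻¹) ^ 4 / 32 - 2 * (1 / 128 * ((X : ℝ)⁻¹) ^ 4)) *
        (1 / 8 / (X : ℝ) ^ (4 * a))) := by
  have hX1 : 1 ≤ X := by omega
  have hXr : (1 : ℝ) ≤ X := by exact_mod_cast hX1
  have hX0 : (0 : ℝ) < X := by linarith
  have hKr : (1 : ℝ) ≤ K₀ := by exact_mod_cast hK₀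
  have hXK : 9600 * (K₀ : ℝ) ≤ X := by exact_mod_cast (by omega : 9600 * K₀ ≤ X)
  have hp1 : X ≤ X ^ (100 * (a + 1)) := by
    calc X = X ^ 1 := (pow_one _).symm
      _ ≤ _ := Nat.pow_le_pow_right hX1 (by omega)
  refine ⟨by omega, ?_, ?_, ?_, ?_, ?_⟩
  · calc 64 * K₀ ≤ X := by omega
      _ = X ^ 1 := (pow_one _).symm
      _ ≤ _ := Nat.pow_le_pow_right hX1 (by omega)
  · push_cast
    have e1 : 16 * (16 * (K₀ : ℝ) * (X : ℝ) ^ (100 * (a + 1)) * (X : ℝ) ^ u) *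
        ((X : ℝ) ^ (g * a)) ^ 2 = 256 * K₀ * (X : ℝ) ^ (100 * (a + 1) + u + 2 * (g * a)) := by
      ring
    rw [e1, pow_succ, mul_comm]
    exact mul_le_mul_of_nonneg_left (by linarith) (by positivity)
  · rw [rpow_99 X (a + 1) (by omega), ← div_eq_mul_inv, div_le_one (by positivity)]
    push_cast
    calc 64 * (K₀ : ℝ) * ((X : ℝ) ^ 17) ^ 2 ≤ X * ((X : ℝ) ^ 17) ^ 2 :=
          mul_le_mul_of_nonneg_right (by linarith) (by positivity)
      _ = (X : ℝ) ^ 35 := by ring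
      _ ≤ _ := pow_le_pow_right₀ hXr (by omega)
  · calc 16 * K₀ * X ^ 17 ≤ X * X ^ 17 := Nat.mul_le_mul_right _ (by omega)
      _ = X ^ 18 := by ring
      _ ≤ _ := Nat.pow_le_pow_right hX1 (by omega)
  · rw [rpow_99 X (a + 1) (by omega)]
    have e1 : 1 / (16 * (K₀ : ℝ)) *
      (225 / 256 * (((X : ℝ)⁻¹) ^ 4 / 32 - 2 * (1 / 128 * ((X : ℝ)⁻¹) ^ 4)) *
        (1 / 8 / (X : ℝ) ^ (4 * a))) = 225 / (256 * 16 * 64 * 8 * K₀ * (X : ℝ) ^ (4 * a + 4)) := by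
      rw [pow_add]
      field_simp
      ring
    rw [e1, inv_eq_one_div, div_le_div_iff₀ (by positivity) (by positivity)]
    have e2 : (X : ℝ) ^ (4 * a + 5) ≤ (X : ℝ) ^ (99 * (a + 1)) :=
      pow_le_pow_right₀ hXr (by omega)
    have e3 : 1 * (256 * 16 * 64 * 8 * (K₀ : ℝ) * (X : ℝ) ^ (4 * a + 4)) ≤
        225 * (X : ℝ) ^ (4 * a + 5) := by
      rw [pow_succ (X : ℝ) (4 * a + 4)]
      have : 256 * 16 * 64 * 8 * (K₀ : ℝ) ≤ 225 * X := by nlinarith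
      nlinarith [pow_pos hX0 (4 * a + 4)]
    linarith

theorem fin_card {k0 KK : Type} [Field k0] [Fintype k0] [Field KK] [Fintype KK] [Algebra k0 KK]
    (d L : ℕ) : Fintype.card (U KK d 2 L) = Fintype.card KK ^ (L * (2 * d + 1) ^ 2) := by
  have e1 : Fintype.card (U KK d 2 L) = (Fintype.card KK ^ ((2 * d + 1) ^ 2)) ^ L := by
    rw [Fintype.card_fun, Fintype.card_fun, Fintype.card_fun]
    simp only [Fintype.card_fin, Fintype.card_option, Fintype.card_prod, Fintype.card_bool]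
    ring_nf
  rw [e1, ← pow_mul]
  ring_nf

theorem card_sig {k0 KK : Type} [Field k0] [Fintype k0] [Field KK] [Fintype KK] [Algebra k0 KK]
    (d L J N : ℕ) :
    Fintype.card (Jx (Fin N) × Dl k0 KK d L × TH KK d L J) ≤
      N ^ 2 * Fintype.card KK ^ (L * (2 * d + 1) ^ 2) *
        (2 * Fintype.card KK ^ (L * (2 * d + 1) ^ 2)) ^ J := by
  have h1 : Fintype.card (Jx (Fin N)) ≤ N ^ 2 := by
    refine (Fintype.card_subtype_le _).trans (le_of_eq ?_)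
    rw [Fintype.card_prod, Fintype.card_fin, pow_two]
  have h2 : Fintype.card (Dl k0 KK d L) = Fintype.card KK ^ (L * (2 * d + 1) ^ 2) := by
    rw [card_Dl, ← fin_card (k0 := k0) d L]
    exact (Module.card_eq_pow_finrank (K := k0) (V := U KK d 2 L)).symm
  have h3 : Fintype.card (TH KK d L J) =
      (2 * Fintype.card KK ^ (L * (2 * d + 1) ^ 2)) ^ J := by
    rw [← Nat.card_eq_fintype_card, Nat.card_fun, Nat.card_prod, Nat.card_eq_fintype_card,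
      Nat.card_eq_fintype_card, Nat.card_eq_fintype_card, Fintype.card_bool, Fintype.card_fin,
      fin_card (k0 := k0) d L]
  rw [Fintype.card_prod, Fintype.card_prod, h2, h3, ← mul_assoc]
  exact Nat.mul_le_mul_right _ (Nat.mul_le_mul_right _ h1)

/-- **PLAN B, TOP THEOREM**: label theorem + type level data give `PairConfK K₀`. -/
theorem pairConfK_of_asy (K₀ : ℕ) (hK₀ : 0 < K₀)
    (hLab : ∀ (q d L m1 : ℕ) (cm : ℝ), 2 ≤ q → 0 ≤ cm → LabelAsy q d L m1 cm)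
    (hT : ∀ η β : ℝ, 0 < η → η ≤ 1 / 4096 → 0 < β → β ≤ 1 → 12 * β ≤ η ^ 2 → TypeAsy η β) :
    S59Spine883.PairConfK K₀ := by
  obtain ⟨n0, HL⟩ := pair_of_level K₀ hK₀
  have hKr : (1 : ℝ) ≤ K₀ := by exact_mod_cast hK₀
  have hε : (0 : ℝ) < 1 / (64 * (K₀ : ℝ)) := by positivity
  obtain ⟨DΓ, ρ0, hρ0, HS⟩ := SampB592.sampleB (1 / (64 * (K₀ : ℝ))) hε (by
    rw [div_le_one (by positivity)]; nlinarith)
  set m : ℕ := max 7 DΓ with hm
  set d : ℕ := 9 * (m + 1) with hd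
  have hm7 : 7 ≤ m := le_max_left _ _
  set M : ℝ := 32 * K₀ with hM
  have hM1 : 1 ≤ M := by rw [hM]; linarith
  set η : ℝ := 1 / (6656 * M) with hη
  have hη0 : 0 < η := by positivity
  have hη1 : η ≤ 1 / 4096 := by
    rw [hη]
    exact one_div_le_one_div_of_le (by norm_num) (by linarith)
  have hηM : 6656 * M * η ≤ 1 := by
    rw [hη]
    exact le_of_eq (mul_one_div_cancel (by positivity))
  set β : ℝ := η ^ 2 / 12 with hβ
  have hβ0 : 0 < β := by positivity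
  have hβ1 : β ≤ 1 := by
    rw [hβ]
    have : η ^ 2 ≤ 1 := pow_le_one₀ hη0.le (by linarith)
    linarith
  obtain ⟨k0, i1, i2, i3, Kf, hchar, hA⟩ := Alph767.exists_alph β hβ0 hβ1
  haveI := hchar
  obtain ⟨L, hL, HT⟩ := hT η β hη0 hη1 hβ0 hβ1 (by rw [hβ]; linarith) k0 Kf hA
  have hd2 : 2 ≤ d := by omega
  have hAf : Fam543.Alph (Kf : Set k0) := Iso543.famAlph hA
  set q : ℕ := Fintype.card k0 with hq
  have hq2 : 2 ≤ q := Fintype.one_lt_card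
  obtain ⟨a0, -, ha0⟩ := FiniteField.card k0 2
  set a1 : ℕ := L * (2 * d - 1) ^ 2 with ha1
  set u1 : ℕ := L * (2 * d + 1) ^ 2 with hu1
  set m1 : ℕ := 100 * (a1 + 1) + u1 + 2 * (DΓ * a1) + 1 with hm1
  obtain ⟨K1, hK1, HLab⟩ := hLab q d L m1 (32 * K₀) hq2 (by positivity)
  -- the level
  have t1 : Tendsto (fun j : ℕ => q ^ (2 * j)) atTop atTop :=
    (tendsto_pow_atTop_atTop_of_one_lt (by omega)).comp
      (tendsto_id.const_mul_atTop' (by norm_num))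
  have ev1 : ∀ᶠ j : ℕ in atTop, n0 + 9600 * K₀ ≤ q ^ (2 * j) :=
    t1.eventually (eventually_ge_atTop _)
  have ev2 := SampNum592.nums q hq2 (1 / (64 * (K₀ : ℝ))) M η ρ0 hε hM1 hη0 hρ0 u1 u1 (4 * q) m d
    (by omega) (by omega)
  obtain ⟨j, e1, e2, e3, e4, e5⟩ := (ev1.and (ev2.and ((HT d hd2).and (HLab.and
    (eventually_ge_atTop 1))))).exists
  obtain ⟨B, hB⟩ := e2
  obtain ⟨KK, f1, f2, f3, f4, f5, hcharK, hfin, hcardK⟩ := ExtF377.exists_ext k0 (2 * j)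
    (by omega)
  haveI := hcharK
  set e : ℕ := (a0 : ℕ) * j with he
  have he2 : 2 ^ e = q ^ j := by rw [he, pow_mul, ← ha0]
  obtain ⟨TD, hTD⟩ := e3 KK e he2 hcardK
  set X : ℕ := Fintype.card KK with hX
  have hXq : q ^ (2 * j) = X := hcardK.symm
  rw [hXq] at e1 hB
  have hcast : ((q : ℝ) ^ (2 * j)) = (X : ℝ) := by
    rw [← hXq]; push_cast; rfl
  obtain ⟨n1, n2, n3, n4, n5, n6⟩ := nums_level K₀ n0 a1 u1 DΓ X hK₀ e1
  -- the sample
  have hnum : SampNum592.Nums (1 / (64 * (K₀ : ℝ))) M (TD.sys (ι := Fin (X ^ 17))).η ρ0 m d X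
      (Fintype.card (Fin (X ^ 17))) B
      (Fintype.card (Jx (Fin (X ^ 17)) × Dl k0 KK d L × TH KK d L (q ^ j)))
      (TD.sys (ι := Fin (X ^ 17))).θ := by
    rw [TData.sys_η, TData.sys_θ, hTD.eta, Fintype.card_fin]
    refine hB _ _ ?_ ?_
    · refine (card_sig (k0 := k0) (KK := KK) d L (q ^ j) (X ^ 17)).trans ?_
      have hq4 : 1 ≤ 4 * q := by omega
      have hX1 : 1 ≤ X := Fintype.card_pos
      have g1 : X ^ u1 ≤ 4 * q * X ^ u1 := Nat.le_mul_of_pos_left _ (by omega)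
      have g2 : 2 * X ^ u1 ≤ 4 * q * X ^ u1 := Nat.mul_le_mul_right _ (by omega)
      have g3 : (2 * X ^ u1) ^ (q ^ j) ≤ (4 * q * X ^ u1) ^ (4 * q * q ^ j) := by
        calc (2 * X ^ u1) ^ (q ^ j) ≤ (4 * q * X ^ u1) ^ (q ^ j) := Nat.pow_le_pow_left g2 _
          _ ≤ _ := Nat.pow_le_pow_right (Nat.mul_pos (by omega) (pow_pos (by omega) _))
            (Nat.le_mul_of_pos_left _ (by omega))
      exact Nat.mul_le_mul (Nat.mul_le_mul_left _ g1) g3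
    · refine hTD.theta.trans (le_of_eq ?_)
      push_cast
      rfl
  obtain ⟨ℓ, r, x, xLI, xLI8, xgen, xinj, xGood, xE, xη, xℓ, xr, -, Γ, Γp, Γd, Γc, Γx, Γli⟩ :=
    HS k0 KK (Kf : Set k0) hAf.one d L (Fin (X ^ 17)) _ m hm7 TD.sys (by
      rw [TData.sys_ρ]; exact hTD.rho) M B hM1 (by rw [TData.sys_η, hTD.eta]; exact hηM) hnum
      PEmpty ∅ (fun _ _ => False) (fun _ => 0) (by simp) (by simp)
  rw [TData.sys_η, TData.sys_ρ, hTD.rho] at xE xℓ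
  rw [TData.sys_η] at xη
  rw [Fintype.card_fin] at xℓ xr Γx
  refine HL (X ^ (100 * (a1 + 1))) n1 hAf e d L (X ^ 17) (q ^ j) ℓ r hL x xinj TD hTD.perp
    hTD.rho xGood xgen xE xη xℓ xr Γ DΓ Γp Γd Γc (Γli (by omega)) Γx n2
    (HG365.BadE (2 ^ e) (1 / (8 * K1)) K1 (1 / 8)) ((X : ℝ) ^ m1)
    (1 / 128 * ((X : ℝ)⁻¹) ^ 4) (1 / 8 / (X : ℝ) ^ (4 * a1)) (by positivity) n3 ?_ ?_ n4 n5 n6
  · intro c μ hμ hdens t ht hmarg
    have hXJ : ∀ c : Jx (Fin (X ^ 17)), HG365.XJ (fun i => (x i).1) c =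
        fun a => bif a then (x c.1.2).1 else (x c.1.1).1 := by
      intro c
      funext a
      cases a <;> rfl
    refine HG365.hG (2 ^ e) x (q ^ j) TD.sys ?_ ?_ ?_ (1 / (8 * K1)) K1 (1 / 8)
      (1 / 128 * ((X : ℝ)⁻¹) ^ 4) (32 * K₀ / (X : ℝ) ^ 17) c μ ?_ t ht ?_
    · intro P R h
      rw [TData.sys_perp, hTD.perp] at h
      exact h
    · intro s i R h
      rw [hXJ] at h
      exact hTD.dx (x s.1.1.1) (x s.1.1.2) s.2.1 s.2.2 i R h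
    · intro s i R R' h
      rw [hXJ] at h
      exact hTD.dx2 (x s.1.1.1) (x s.1.1.2) s.2.1 s.2.2 i R R' h
    · exact e4 k0 KK e rfl he2 hcardK (Kf : Set k0) hAf hL (Fin (X ^ 17)) x xLI8 _
        (fun h => c.1.2 h) μ hμ hdens
    · intro i
      refine (hmarg i).trans (le_of_eq ?_)
      push_cast
      rfl
  · intro s s' μ μ' hμ hs hμ' hs' hal h1 h2
    exact hTD.loc K1 hK1 (X ^ 17) x xLI8 s s' μ μ' hμ hs hμ' hs' hal h1 h2

end Crest.Agent.R042.FinB713
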