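import Crest.Agent.R042.ParamD_766

/-! Row 42 / S0059, PLAN B: the numbers of `FinB713.pair_of_level`, letters `card KK = q ^ (2 j)`,
`N = (card KK) ^ 17`, `n = (card KK) ^ m2`, `D = (card KK) ^ m1`. -/

set_option autoImplicit false

namespace Crest.Agent.R042.ParamB766

open Filter Topology

/-- **all numbers of `n`, `N`, `D`, `κ` in `pair_of_level`.**  `m2`, `m1` are explicit. -/
theorem top_numbers (q : ℕ) (hq : 2 ≤ q) (K₀ n0 L d Dg m2 m1 : ℕ) (hK₀ : 0 < K₀)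
    (hm2 : 100 * (4 * (L * (2 * d - 1) ^ 2) + 40) < 99 * m2)
    (hm1 : m2 + L * (2 * d + 1) ^ 2 + 2 * (Dg * (L * (2 * d - 1) ^ 2)) < m1) :
    ∀ᶠ j : ℕ in atTop, ∀ X : ℕ, X = q ^ (2 * j) →
      n0 ≤ X ^ m2 ∧ 64 * K₀ ≤ X ^ 17 ∧ 16 * K₀ * X ^ 17 ≤ X ^ m2 ∧ 2 ≤ X ^ 17 ∧
      64 * (K₀ : ℝ) * ((X ^ 17 : ℕ) : ℝ) ^ 2 * ((X ^ m2 : ℕ) : ℝ) ^ (-(99 : ℝ) / 100) ≤ 1 ∧
      16 * (16 * (K₀ : ℝ) * ((X ^ m2 : ℕ) : ℝ) * (X : ℝ) ^ (L * (2 * d + 1) ^ 2)) *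
        ((X : ℝ) ^ (Dg * (L * (2 * d - 1) ^ 2))) ^ 2 ≤ (X : ℝ) ^ m1 ∧
      ∀ c₀ : ℝ, 1 / (8 * (X : ℝ) ^ (4 * (L * (2 * d - 1) ^ 2))) ≤ c₀ →
        ((X ^ m2 : ℕ) : ℝ) ^ (-(99 : ℝ) / 100) ≤ 1 / (16 * (K₀ : ℝ)) *
          (225 / 256 * (((X : ℝ)⁻¹) ^ 4 / 32 - 2 * (1 / 128 * ((X : ℝ)⁻¹) ^ 4)) * c₀) := by
  obtain ⟨a, ha⟩ : ∃ a : ℕ, a = L * (2 * d - 1) ^ 2 := ⟨_, rfl⟩
  obtain ⟨u, hu⟩ : ∃ u : ℕ, u = L * (2 * d + 1) ^ 2 := ⟨_, rfl⟩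
  rw [← ha] at hm2 hm1
  rw [← hu] at hm1
  have hKr : (0 : ℝ) < K₀ := by exact_mod_cast hK₀
  filter_upwards [sizes_j q hq K₀ n0 m2 (by omega),
    kappa_j q hq (κ := 1 / (64 * (K₀ : ℝ))) (by positivity) 34 m2 (by omega),
    kappa_j q hq (κ := 1 / (16 * (K₀ : ℝ)) * (225 / 256 * (1 / 64)) * (1 / 8)) (by positivity)
      (4 * a + 4) m2 (by omega),
    budget_j q hq (δ := 1 / (16 * (K₀ : ℝ))) (by positivity) m2 u (2 * (Dg * a)) m1 hm1]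
    with j h1 h2 h3 h4 X hX
  rw [← ha, ← hu]
  rw [← hX] at h1 h2 h3 h4
  have hX0 : 0 < X := by rw [hX]; exact Nat.pow_pos (by omega)
  have hXr : (0 : ℝ) < X := by exact_mod_cast hX0
  obtain ⟨s1, s2, s3, s4⟩ := h1
  refine ⟨s3, s1, s2, s4, ?_, ?_, ?_⟩
  · have e1 : ((X ^ 17 : ℕ) : ℝ) ^ 2 = (X : ℝ) ^ 34 := by push_cast; ring
    rw [e1]
    have h5 : (0 : ℝ) < (X : ℝ) ^ 34 := by positivity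
    calc 64 * (K₀ : ℝ) * (X : ℝ) ^ 34 * ((X ^ m2 : ℕ) : ℝ) ^ (-(99 : ℝ) / 100)
        ≤ 64 * (K₀ : ℝ) * (X : ℝ) ^ 34 * (1 / (64 * (K₀ : ℝ)) * ((X : ℝ) ^ 34)⁻¹) :=
          mul_le_mul_of_nonneg_left h2 (by positivity)
      _ = 1 := by field_simp
  · have h5 := h4 ((X : ℝ) ^ u) ((X : ℝ) ^ (2 * (Dg * a))) (by positivity) (by positivity)
      le_rfl le_rfl
    refine le_trans (le_of_eq ?_) h5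
    rw [← pow_mul, mul_comm (Dg * a) 2]
    field_simp
  · intro c₀ hc
    have h5 : ((X : ℝ)⁻¹) ^ 4 / 32 - 2 * (1 / 128 * ((X : ℝ)⁻¹) ^ 4) = 1 / 64 * ((X : ℝ)⁻¹) ^ 4 := by
      ring
    rw [h5]
    refine h3.trans ?_
    have h6 : 1 / (16 * (K₀ : ℝ)) * (225 / 256 * (1 / 64 * ((X : ℝ)⁻¹) ^ 4) *
        (1 / (8 * (X : ℝ) ^ (4 * a)))) ≤
        1 / (16 * (K₀ : ℝ)) * (225 / 256 * (1 / 64 * ((X : ℝ)⁻¹) ^ 4) * c₀) := by gcongr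
    refine le_trans (le_of_eq ?_) h6
    rw [pow_add]
    field_simp

end Crest.Agent.R042.ParamB766
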