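import Crest.Agent.R042.TopB_713
import Crest.Agent.R042.SysBData_333
import Crest.Agent.R042.LocSysB_303
import Crest.Agent.R042.TDNum_766
import Crest.Agent.R042.LabAsy_375

/-!
# Row 42 / S0059, plan B: `TypeAsy` and `PairConfK`
-/

set_option autoImplicit false
set_option linter.unusedSectionVars false

namespace Crest.Agent.R042.FinB713

open Finset Filter Crest.Agent.R042.RowWin543 Crest.Agent.R042.Fam543
  Crest.Agent.R042.LocFam958 Crest.Agent.R042.SspAsm375 Crest.Agent.R042.SspFin375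
  Crest.Agent.R042.Inst592 Crest.Agent.R042.SysOf333 Crest.Agent.R042.TLev333
  Crest.Agent.R042.FamV220 Crest.Agent.R042.IsoD543 Crest.Agent.R042.SspG375
open scoped Classical

theorem typeAsy (η β : ℝ) (hη : 0 < η) (hη1 : η ≤ 1 / 4096) (hβ : 0 < β)
    (hβη : 12 * β ≤ η ^ 2) : TypeAsy η β := by
  intro k0 _ _ _ _ K hA
  obtain ⟨_, t, -, -, ht, hLt⟩ := ParamB766.tdata_consts hη
  obtain ⟨L, hL0, -, hL⟩ := hLt K.card 1
  refine ⟨L, hL0, fun d _ => ?_⟩
  have hq2 : 2 ≤ Fintype.card k0 := Fintype.one_lt_card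
  filter_upwards [ParamB766.tdata_numbers (Fintype.card k0) hq2 hβ hη (by linarith) ht d]
    with j hj
  obtain ⟨hj0, hQ, hD1, hD2⟩ := hj
  intro KK _ _ _ _ e he hcard
  have hAf : Fam543.Alph (K : Set k0) := Iso543.famAlph hA
  have he0 : 0 < e := by
    rcases Nat.eq_zero_or_pos e with h | h
    · exfalso
      rw [h, pow_zero] at he
      have : 2 ≤ Fintype.card k0 ^ j := by
        calc 2 ≤ Fintype.card k0 := hq2
          _ = Fintype.card k0 ^ 1 := (pow_one _).symm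
          _ ≤ _ := Nat.pow_le_pow_right (by omega) hj0
      omega
    · exact h
  have hcard2 : Fintype.card KK = (2 ^ e) ^ 2 := by rw [hcard, he, ← pow_mul, mul_comm]
  have hQ' : (Fintype.card k0 : ℝ) ≤ β * ((2 : ℝ) ^ e - 1) := by
    have : ((2 : ℝ) ^ e) = ((Fintype.card k0 ^ j : ℕ) : ℝ) := by
      rw [← he]; push_cast; rfl
    rw [this]
    exact hQ
  rw [← hcard] at hD1
  have hD2' : ((Fintype.card k0 ^ j : ℕ) : ℝ) *
      ((Fintype.card k0 : ℝ) / (Fintype.card KK : ℝ) ^ (2 * d)) ≤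
      4 * Fintype.card k0 * (Fintype.card k0 : ℝ) ^ j /
        ((Fintype.card k0 : ℝ) ^ (2 * j)) ^ (2 * d) := by
    rw [hcard]
    refine hD2.trans ?_
    have h0 : (0 : ℝ) ≤ Fintype.card k0 * (Fintype.card k0 : ℝ) ^ j := by positivity
    refine div_le_div_of_nonneg_right ?_ (by positivity)
    nlinarith
  refine ⟨SysB333.sysB hA e he0 hcard2 hQ' hL0 t hL (Fintype.card k0 ^ j) (fun w => w) η
    (4 * Fintype.card k0 * (Fintype.card k0 : ℝ) ^ j /
      ((Fintype.card k0 : ℝ) ^ (2 * j)) ^ (2 * d)) hη (by linarith) hD1 hD2', ?_⟩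
  refine ⟨rfl, rfl, rfl, le_rfl, ?_, ?_, ?_⟩
  · intro P P' δ ϑ i R h
    exact Or.inr (Or.inr (Or.inr ⟨i, h⟩))
  · intro P P' δ ϑ i R R' h
    exact ⟨i, h.2⟩
  · intro K1 hK1 N x hx s s' μ μ' hμ hs hμ' hs' hal h1 h2
    refine le_trans (le_of_eq ?_) (LocSysB303.hLoc hAf e (m := 8) (by norm_num) hL0 x hx _ rfl
      (fun P P' δ ϑ R h => Or.inl h) (fun P P' δ ϑ R h => Or.inr (Or.inl h))
      (fun P P' δ ϑ R h => Or.inr (Or.inr (Or.inl h))) K1 (by linarith) s s' μ μ' hμ hs hμ' hs'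
      hal h1 h2)
    rw [div_div]

/-- **PLAN B.** -/
theorem pairConfK (K₀ : ℕ) (hK₀ : 0 < K₀) : S59Spine883.PairConfK K₀ :=
  pairConfK_of_asy K₀ hK₀ (fun q d L m1 cm hq hcm => LabAsy375.labelAsy q hq d L m1 cm hcm)
    (fun η β h1 h2 h3 _ h5 => typeAsy η β h1 h2 h3 h5)

end Crest.Agent.R042.FinB713
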