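import Crest.Agent.R042.Fin3_822
import Crest.Agent.R042.TypeB_713

/-!
# Row 42: the closed input of S0057, S0059 and S0060
-/

set_option autoImplicit false

namespace Crest.Agent.R042.Top822

/-- the pair construction with constant `100000`, in the form used by the three statements -/
theorem hjk : S59Spine883.HJK 100000 :=
  Fin3_822.hjk_of (FinB713.pairConfK 100000 (by norm_num))

end Crest.Agent.R042.Top822
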