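import Mathlib

/-!
Row 42, S0059: the tower of alphabets of helper332 (#26575).  `Q j = 2^(4^j)`,
`kk (j+1) = kk j * (Q j ^ 2 + 1)`.  In every field `F` with `Q j` elements the group
`{x | x ^ kk j = 1}` is sum-free and complete.
-/

set_option autoImplicit false

namespace Crest.Agent.R042.Tower767

section step
variable {L : Type*} [Field L] [Fintype L] [CharP L 2] (n : ℕ)

/-- `x ↦ x^(2^n)` -/
noncomputable def ph : L →+* L := iterateFrobenius L 2 n

lemma ph_apply (x : L) : ph n x = x ^ 2 ^ n := iterateFrobenius_def 2 n x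

/-- the norm of `L / E` -/
noncomputable def Nm (x : L) : L := x * ph n (ph n x)

lemma Nm_pow (x : L) : Nm n x = x ^ ((2 ^ n) ^ 2 + 1) := by
  have h : (2 ^ n) ^ 2 = 2 ^ n * 2 ^ n := pow_two _
  rw [Nm, ph_apply, ph_apply, ← pow_mul, h, pow_succ x (2 ^ n * 2 ^ n), mul_comm]

lemma Nm_mul (x y : L) : Nm n (x * y) = Nm n x * Nm n y := by
  simp only [Nm, map_mul]; ring

variable (hL : Fintype.card L = 2 ^ (4 * n))

include hL in
lemma ph4 (x : L) : ph n (ph n (ph n (ph n x))) = x := by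
  rw [ph_apply, ph_apply, ph_apply, ph_apply, ← pow_mul, ← pow_mul, ← pow_mul]
  have : 2 ^ n * (2 ^ n * (2 ^ n * 2 ^ n)) = Fintype.card L := by rw [hL]; ring
  rw [this, FiniteField.pow_card]

include hL in
lemma ph_Nm (x : L) : ph n (ph n (Nm n x)) = Nm n x := by
  rw [Nm, map_mul, map_mul, ph4 n hL, mul_comm]

variable (k : ℕ) (hk : k ∣ 2 ^ n - 1)

include hk in
lemma fix_of {x : L} (hx : x ^ k = 1) : ph n x = x := by
  obtain ⟨m, hm⟩ := hk
  have h1 : 2 ^ n = k * m + 1 := by have := Nat.one_le_two_pow (n := n); omega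
  rw [ph_apply, h1, pow_succ, pow_mul, hx, one_pow, one_mul]

variable (hS : ∀ x y : L, x ^ k = 1 → y ^ k = 1 → (x + y) ^ k ≠ 1)

include hL hk hS in
/-- **step, sum-free** -/
theorem step_sumfree (x y : L) (hx : Nm n x ^ k = 1) (hy : Nm n y ^ k = 1) :
    Nm n (x + y) ^ k ≠ 1 := by
  intro hc
  have h2 : (2 : L) = 0 := CharTwo.two_eq_zero
  have ha' := fix_of n k hk hx
  have hb' := fix_of n k hk hy
  have hc' := fix_of n k hk hc
  obtain ⟨a, ha⟩ : ∃ a, a = Nm n x := ⟨_, rfl⟩
  obtain ⟨b, hb⟩ : ∃ b, b = Nm n y := ⟨_, rfl⟩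
  obtain ⟨c, hcd⟩ : ∃ c, c = Nm n (x + y) := ⟨_, rfl⟩
  rw [← ha] at hx ha'
  rw [← hb] at hy hb'
  rw [← hcd] at hc hc'
  obtain ⟨ξ, hξ⟩ : ∃ ξ, ξ = x * ph n (ph n y) := ⟨_, rfl⟩
  have hξ' : ph n (ph n ξ) = ph n (ph n x) * y := by
    rw [hξ, map_mul, map_mul, ph4 n hL]
  have hsum : ξ + ph n (ph n ξ) = a + b + c := by
    rw [hξ', hξ, ha, hb, hcd]
    simp only [Nm, map_add]
    linear_combination (-(x * ph n (ph n x)) - y * ph n (ph n y)) * h2
  have hprod : ξ * ph n (ph n ξ) = a * b := by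
    rw [hξ', hξ, ha, hb]; simp only [Nm]; ring
  have hroot : ξ ^ 2 + (a + b + c) * ξ + a * b = 0 := by
    rw [← hsum, ← hprod]
    linear_combination (ξ ^ 2 + ξ * ph n (ph n ξ)) * h2
  have hroot2 : (ph n ξ) ^ 2 + (a + b + c) * ph n ξ + a * b = 0 := by
    have := congrArg (ph n) hroot
    simp only [map_add, map_mul, map_pow, map_zero, ha', hb', hc'] at this
    exact this
  have hmul : (ξ + ph n ξ) * (ξ + ph n ξ + (a + b + c)) = 0 := by
    linear_combination hroot + hroot2 + (ξ * ph n ξ - a * b) * h2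
  have hfix : ph n (ph n ξ) = ξ := by
    rcases mul_eq_zero.mp hmul with h | h
    · have h3 : ph n ξ = ξ := by linear_combination h - ξ * h2
      rw [h3, h3]
    · have h3 : ph n ξ = ξ + (a + b + c) := by linear_combination h - (ξ + (a + b + c)) * h2
      rw [h3, map_add, map_add, map_add, ha', hb', hc', h3]
      linear_combination (a + b + c) * h2
  rw [hfix] at hsum
  have h4 : a + b = c := by linear_combination (ξ - c) * h2 - hsum
  exact hS a b hx hy (by rw [h4]; exact hc)

/-- `℘ t = t^2 + t` -/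
def wp (t : L) : L := t ^ 2 + t

lemma wp_add (s t : L) : wp (s + t) = wp s + wp t := by
  have h2 : (2 : L) = 0 := CharTwo.two_eq_zero
  simp only [wp]; linear_combination (s * t) * h2

lemma wp_eq {s t : L} (h : wp s = wp t) : s = t ∨ s = t + 1 := by
  have h2 : (2 : L) = 0 := CharTwo.two_eq_zero
  have h3 : (s + t) * (s + t + 1) = 0 := by
    simp only [wp] at h
    linear_combination h + (s * t + t ^ 2 + t) * h2
  rcases mul_eq_zero.mp h3 with h | h
  · left; linear_combination h - t * h2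
  · right; linear_combination h - (t + 1) * h2

/-- the fixed points of `ψ` -/
def fixAdd (ψ : L →+* L) : AddSubgroup L where
  carrier := {x | ψ x = x}
  add_mem' := fun {a b} ha hb => by
    show ψ (a + b) = a + b
    rw [map_add, show ψ a = a from ha, show ψ b = b from hb]
  zero_mem' := map_zero ψ
  neg_mem' := fun {a} ha => by show ψ (-a) = -a; rw [map_neg, show ψ a = a from ha]

/-- `℘` on the fixed points of `ψ` -/
noncomputable def wpH (ψ : L →+* L) : fixAdd ψ →+ fixAdd ψ where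
  toFun := fun x => ⟨wp x.1, by
    show ψ (wp x.1) = wp x.1
    have hx : ψ x.1 = x.1 := x.2
    simp only [wp, map_add, map_pow, hx]⟩
  map_zero' := Subtype.ext (by simp [wp])
  map_add' := fun x y => Subtype.ext (wp_add x.1 y.1)

lemma wpH_index (ψ : L →+* L) : (wpH ψ).range.index = 2 := by
  rw [AddSubgroup.index_range]
  have h1 : ψ (1 : L) = 1 := map_one ψ
  have hset : ((wpH ψ).ker : Set (fixAdd ψ)) = {0, ⟨1, h1⟩} := by
    ext x
    rw [SetLike.mem_coe, AddMonoidHom.mem_ker, Set.mem_insert_iff, Set.mem_singleton_iff]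
    constructor
    · intro h
      have h3 : wp x.1 = wp (0 : L) := by
        have := congrArg Subtype.val h
        rw [show ((wpH ψ) x).1 = wp x.1 from rfl] at this
        rw [this]; simp [wp]
      rcases wp_eq h3 with h4 | h4
      · left; exact Subtype.ext h4
      · right; exact Subtype.ext (by rw [h4, zero_add])
    · rintro (h | h)
      · rw [h, map_zero]
      · apply Subtype.ext
        rw [show ((wpH ψ) x).1 = wp x.1 from rfl, h]
        show (1 : L) ^ 2 + 1 = 0
        have h2 : (2 : L) = 0 := CharTwo.two_eq_zero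
        linear_combination h2
  have hne : (0 : fixAdd ψ) ≠ ⟨1, h1⟩ := by
    intro h
    have := congrArg Subtype.val h
    exact zero_ne_one this
  have : Nat.card (wpH ψ).ker = Set.ncard ((wpH ψ).ker : Set (fixAdd ψ)) := rfl
  rw [this, hset, Set.ncard_pair hne]

include hL in
/-- there is `t` with `t + conj t = 1` -/
lemma exists_tr_one : ∃ t : L, t + ph n (ph n t) = 1 := by
  -- the trace map and its kernel
  let T : L →+ L := AddMonoidHom.id L + ((ph n).comp (ph n)).toAddMonoidHom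
  have hT : ∀ t : L, T t = t + ph n (ph n t) := fun t => rfl
  have hpsi : ∀ t : L, ph n (ph n t) = t ^ ((2 ^ n) ^ 2) := fun t => by
    rw [ph_apply, ph_apply, ← pow_mul, ← pow_two]
  have hbound : Nat.card (fixAdd ((ph n).comp (ph n) : L →+* L)) ≤ (2 ^ n) ^ 2 := by
    classical
    have hq : 1 < (2 ^ n) ^ 2 ∨ n = 0 := by
      rcases Nat.eq_zero_or_pos n with h | h
      · right; exact h
      · left; rw [← pow_mul]; exact Nat.one_lt_two_pow (by omega)
    rcases hq with hq | hq
    · let p : Polynomial L := Polynomial.X ^ ((2 ^ n) ^ 2) - Polynomial.X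
      have hp : p.natDegree = (2 ^ n) ^ 2 := FiniteField.X_pow_card_sub_X_natDegree_eq L hq
      have hp0 : p ≠ 0 := FiniteField.X_pow_card_sub_X_ne_zero L hq
      have hsub : ((fixAdd ((ph n).comp (ph n) : L →+* L) : Set L)) ⊆ (p.roots.toFinset : Set L) := by
        intro x hx
        rw [Finset.mem_coe, Multiset.mem_toFinset, Polynomial.mem_roots hp0]
        have hx' : x ^ ((2 ^ n) ^ 2) = x := by rw [← hpsi]; exact hx
        simp [p, hx']
      have h1 : Nat.card (fixAdd ((ph n).comp (ph n) : L →+* L))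
          = Set.ncard ((fixAdd ((ph n).comp (ph n) : L →+* L) : Set L)) := rfl
      rw [h1]
      refine (Set.ncard_le_ncard hsub (Finset.finite_toSet _)).trans ?_
      rw [Set.ncard_coe_finset]
      refine (Multiset.toFinset_card_le _).trans ?_
      rw [← hp]; exact Polynomial.card_roots' p
    · exfalso
      rw [hq] at hL
      have := Fintype.one_lt_card (α := L)
      rw [hL] at this
      norm_num at this
  -- the kernel of `T` is the fixed field
  have hker : T.ker = fixAdd ((ph n).comp (ph n) : L →+* L) := by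
    ext x
    rw [AddMonoidHom.mem_ker, hT]
    constructor
    · intro h
      show ph n (ph n x) = x
      have h2 : (2 : L) = 0 := CharTwo.two_eq_zero
      linear_combination h - x * h2
    · intro h
      have h' : ph n (ph n x) = x := h
      rw [h']; exact CharTwo.add_self_eq_zero x
  have hrange : T.range ≤ fixAdd ((ph n).comp (ph n) : L →+* L) := by
    rintro _ ⟨x, rfl⟩
    show ph n (ph n (T x)) = T x
    rw [hT, map_add, map_add, ph4 n hL, add_comm]
  have hcard : Nat.card T.ker * Nat.card T.range = 2 ^ (4 * n) := by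
    rw [← hL, ← Nat.card_eq_fintype_card, ← AddSubgroup.card_mul_index T.ker,
      AddSubgroup.index_ker]
  have hge : (2 ^ n) ^ 2 ≤ Nat.card T.range := by
    rw [hker] at hcard
    have h1 : 2 ^ (4 * n) = (2 ^ n) ^ 2 * (2 ^ n) ^ 2 := by ring
    rw [h1] at hcard
    have h2 : 0 < (2 ^ n) ^ 2 := by positivity
    by_contra hcon
    push Not at hcon
    have h3 : Nat.card (fixAdd ((ph n).comp (ph n) : L →+* L)) * Nat.card T.range
        ≤ (2 ^ n) ^ 2 * Nat.card T.range := Nat.mul_le_mul_right _ hbound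
    have h4 : (2 ^ n) ^ 2 * Nat.card T.range < (2 ^ n) ^ 2 * (2 ^ n) ^ 2 :=
      Nat.mul_lt_mul_of_pos_left hcon h2
    omega
  have heq : T.range = fixAdd ((ph n).comp (ph n) : L →+* L) := by
    apply AddSubgroup.eq_of_le_of_card_ge hrange
    exact hbound.trans hge
  have h1 : (1 : L) ∈ fixAdd ((ph n).comp (ph n) : L →+* L) := by
    show ph n (ph n (1 : L)) = 1
    rw [map_one, map_one]
  rw [← heq] at h1
  obtain ⟨t, ht⟩ := h1
  exact ⟨t, by rw [← hT]; exact ht⟩

variable (hC : ∀ z : L, ph n z = z → z ^ k ≠ 1 → ∃ x y, x ^ k = 1 ∧ y ^ k = 1 ∧ x + y = z)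

include hL hk hC in
/-- for `h ∈ E \ F0` some `a ∈ K0` has `a h ∉ ℘ E` -/
lemma exists_a (hn : 1 ≤ n) (h : L) (hE : ph n (ph n h) = h) (hF : ph n h ≠ h) :
    ∃ a : L, a ^ k = 1 ∧ ∀ s : L, ph n (ph n s) = s → wp s ≠ a * h := by
  by_contra hcon
  push Not at hcon
  have h2 : (2 : L) = 0 := CharTwo.two_eq_zero
  -- then every `x ∈ F0` has `x h ∈ ℘ E`
  have key : ∀ x : L, ph n x = x → ∃ s : L, ph n (ph n s) = s ∧ wp s = x * h := by
    intro x hx
    by_cases hxk : x ^ k = 1
    · exact hcon x hxk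
    · obtain ⟨u, v, hu, hv, huv⟩ := hC x hx hxk
      obtain ⟨s, hs, hs'⟩ := hcon u hu
      obtain ⟨s1, hs1, hs1'⟩ := hcon v hv
      refine ⟨s + s1, by rw [map_add, map_add, hs, hs1], ?_⟩
      rw [wp_add, hs', hs1', ← huv]; ring
  -- apply `φ` and add
  have hd : h + ph n h ≠ 0 := by
    intro h0; apply hF; linear_combination h0 - h * h2
  have hdF : ph n (h + ph n h) = h + ph n h := by rw [map_add, hE, add_comm]
  have surj : ∀ y : L, ph n y = y → ∃ s : L, ph n s = s ∧ wp s = y := by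
    intro y hy
    obtain ⟨s, hs, hs'⟩ := key (y / (h + ph n h)) (by rw [map_div₀, hy, hdF])
    refine ⟨s + ph n s, by rw [map_add, hs, add_comm], ?_⟩
    have e1 : wp (ph n s) = y / (h + ph n h) * ph n h := by
      have := congrArg (ph n) hs'
      rw [map_mul, map_div₀, hy, hdF] at this
      rw [← this]; simp only [wp, map_add, map_pow]
    rw [wp_add, hs', e1, ← mul_add]
    field_simp
  -- but the range of `℘` on `F0` has index two
  have hidx := wpH_index (ph n : L →+* L)
  have htop : (wpH (ph n : L →+* L)).range = ⊤ := by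
    rw [eq_top_iff]
    rintro ⟨y, hy⟩ _
    obtain ⟨s, hs, hs'⟩ := surj y hy
    exact ⟨⟨s, hs⟩, Subtype.ext hs'⟩
  rw [htop, AddSubgroup.index_top] at hidx
  norm_num at hidx

include hL hk hC in
/-- **step, complete** -/
theorem step_complete (hn : 1 ≤ n) (z : L) (hz : Nm n z ^ k ≠ 1) :
    ∃ x y : L, Nm n x ^ k = 1 ∧ Nm n y ^ k = 1 ∧ x + y = z := by
  have h2 : (2 : L) = 0 := CharTwo.two_eq_zero
  by_cases hz0 : z = 0
  · refine ⟨1, 1, ?_, ?_, by rw [hz0]; exact CharTwo.add_self_eq_zero 1⟩ <;> simp [Nm]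
  have hg0 : Nm n z ≠ 0 := by
    rw [Nm_pow]; exact pow_ne_zero _ hz0
  by_cases hF : ph n (Nm n z) = Nm n z
  · obtain ⟨a, b, ha, hb, hab⟩ := hC _ hF hz
    have root : ∀ w : L, ph n w = w → ∃ u : L, ph n u = u ∧ u ^ 2 = w := by
      intro w hw
      refine ⟨w ^ 2 ^ (n - 1), by rw [map_pow, hw], ?_⟩
      rw [← pow_mul, ← pow_succ, Nat.sub_add_cancel hn, ← ph_apply]; exact hw
    have ha' := fix_of n k hk ha
    have hb' := fix_of n k hk hb
    obtain ⟨u, hu, hu2⟩ := root (a / Nm n z) (by rw [map_div₀, ha', hF])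
    obtain ⟨v, hv, hv2⟩ := root (b / Nm n z) (by rw [map_div₀, hb', hF])
    have huN : Nm n (u * z) = a := by
      rw [Nm_mul]
      have : Nm n u = u ^ 2 := by rw [Nm, hu, hu, pow_two]
      rw [this, hu2]; field_simp
    have hvN : Nm n (v * z) = b := by
      rw [Nm_mul]
      have : Nm n v = v ^ 2 := by rw [Nm, hv, hv, pow_two]
      rw [this, hv2]; field_simp
    have huv : (u + v + 1) ^ 2 = 0 := by
      have e : a / Nm n z + b / Nm n z = 1 := by rw [← add_div, hab, div_self hg0]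
      linear_combination hu2 + hv2 + e + (u * v + u + v + 1) * h2
    have huv' : u + v = 1 := by
      have := pow_eq_zero_iff (two_ne_zero) |>.mp huv
      linear_combination this - h2
    refine ⟨u * z, v * z, by rw [huN]; exact ha, by rw [hvN]; exact hb, ?_⟩
    rw [← add_mul, huv', one_mul]
  · have hE := ph_Nm n hL z
    obtain ⟨a, ha, hna⟩ := exists_a n hL k hk hC hn (Nm n z)⁻¹ (by rw [map_inv₀, map_inv₀, hE])
      (by rw [map_inv₀]; intro h; exact hF (inv_injective h))
    have ha' := fix_of n k hk ha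
    obtain ⟨t1, ht1⟩ := exists_tr_one n hL
    -- γ = ℘ t1 ∈ E \ ℘ E
    have ht1' : ph n (ph n t1) = t1 + 1 := by linear_combination ht1 - t1 * h2
    have hγE : ph n (ph n (wp t1)) = wp t1 := by
      simp only [wp, map_add, map_pow, ht1']
      linear_combination (t1 + 1) * h2
    have hγ : ∀ s : L, ph n (ph n s) = s → wp s ≠ wp t1 := by
      intro s hs h
      rcases wp_eq h with h' | h'
      · rw [h', ht1'] at hs
        exact one_ne_zero (α := L) (by linear_combination hs)
      · rw [h', map_add, map_add, map_one, map_one, ht1'] at hs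
        exact one_ne_zero (α := L) (by linear_combination hs)
    have hidx := wpH_index ((ph n).comp (ph n) : L →+* L)
    have hβE : ph n (ph n (a * (Nm n z)⁻¹)) = a * (Nm n z)⁻¹ := by
      rw [map_mul, map_mul, ha', ha', map_inv₀, map_inv₀, hE]
    have hmem := AddSubgroup.add_mem_iff_of_index_two hidx
      (a := (⟨a * (Nm n z)⁻¹, hβE⟩ : fixAdd ((ph n).comp (ph n) : L →+* L)))
      (b := ⟨wp t1, hγE⟩)
    have h3 : (⟨a * (Nm n z)⁻¹, hβE⟩ : fixAdd ((ph n).comp (ph n) : L →+* L))
        ∉ (wpH ((ph n).comp (ph n) : L →+* L)).range := by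
      rintro ⟨s, hs⟩
      exact hna s.1 s.2 (congrArg Subtype.val hs)
    have h4 : (⟨wp t1, hγE⟩ : fixAdd ((ph n).comp (ph n) : L →+* L))
        ∉ (wpH ((ph n).comp (ph n) : L →+* L)).range := by
      rintro ⟨s, hs⟩
      exact hγ s.1 s.2 (congrArg Subtype.val hs)
    obtain ⟨e, he⟩ := hmem.mpr (iff_of_false h3 h4)
    have he1 : wp e.1 = a * (Nm n z)⁻¹ + wp t1 := congrArg Subtype.val he
    have he2 : ph n (ph n e.1) = e.1 := e.2
    obtain ⟨t, ht⟩ : ∃ t, t = t1 + e.1 := ⟨_, rfl⟩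
    have htr : ph n (ph n t) = t + 1 := by
      rw [ht, map_add, map_add, ht1', he2]; ring
    have hwt : wp t = a * (Nm n z)⁻¹ := by
      rw [ht, wp_add, he1]; linear_combination (wp t1) * h2
    have hN1 : Nm n (t * z) = a := by
      rw [Nm_mul]
      have : Nm n t = wp t := by rw [Nm, htr, wp]; ring
      rw [this, hwt]; field_simp
    have hN2 : Nm n ((t + 1) * z) = a := by
      rw [Nm_mul]
      have : Nm n (t + 1) = wp t := by
        rw [Nm, map_add, map_add, map_one, map_one, htr, wp]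
        linear_combination (t + 1) * h2
      rw [this, hwt]; field_simp
    refine ⟨t * z, (t + 1) * z, by rw [hN1]; exact ha, by rw [hN2]; exact ha, ?_⟩
    linear_combination (t * z) * h2

end step

/-- the field sizes -/
def Q (j : ℕ) : ℕ := 2 ^ 4 ^ j

/-- the group orders -/
def kk : ℕ → ℕ
  | 0 => 1
  | j + 1 => kk j * (Q j ^ 2 + 1)

lemma Q_succ (j : ℕ) : Q (j + 1) = Q j ^ 4 := by
  rw [Q, Q, ← pow_mul, ← pow_succ]

lemma two_le_Q (j : ℕ) : 2 ≤ Q j := by
  rw [Q]
  calc 2 = 2 ^ 1 := rfl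
    _ ≤ 2 ^ 4 ^ j := Nat.pow_le_pow_right (by norm_num) (Nat.one_le_pow _ _ (by norm_num))

lemma kk_dvd (j : ℕ) : kk j ∣ Q j - 1 := by
  induction j with
  | zero => exact one_dvd _
  | succ j ih =>
    have h : Q (j + 1) - 1 = (Q j - 1) * ((Q j ^ 2 + 1) * (Q j + 1)) := by
      rw [Q_succ]
      obtain ⟨a, ha⟩ : ∃ a, Q j = a + 1 := ⟨Q j - 1, by have := two_le_Q j; omega⟩
      rw [ha]
      simp only [Nat.add_sub_cancel]
      have : (a + 1) ^ 4 = a * (((a + 1) ^ 2 + 1) * (a + 1 + 1)) + 1 := by ring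
      omega
    rw [h, kk, ← mul_assoc]
    exact Dvd.dvd.mul_right (mul_dvd_mul ih dvd_rfl) _

lemma kk_pos (j : ℕ) : 0 < kk j := by
  induction j with
  | zero => exact Nat.one_pos
  | succ j ih => rw [kk]; positivity

lemma kk_cube (j : ℕ) : kk j ^ 3 ≤ Q j * (Q j - 1) := by
  rcases j with _ | j
  · decide
  induction j with
  | zero => decide
  | succ j ih =>
    have h16 : 16 ≤ Q (j + 1) := by
      rw [Q_succ]
      calc 16 = 2 ^ 4 := by norm_num
        _ ≤ Q j ^ 4 := Nat.pow_le_pow_left (two_le_Q j) 4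
    rw [Q_succ (j + 1), kk, mul_pow]
    obtain ⟨a, ha⟩ : ∃ a, Q (j + 1) = a + 1 := ⟨Q (j + 1) - 1, by omega⟩
    rw [ha] at ih h16 ⊢
    simp only [Nat.add_sub_cancel] at ih
    have e1 : (a + 1) ^ 4 - 1 = a * (((a + 1) ^ 2 + 1) * (a + 1 + 1)) := by
      have : (a + 1) ^ 4 = a * (((a + 1) ^ 2 + 1) * (a + 1 + 1)) + 1 := by ring
      omega
    rw [e1]
    have e2 : ((a + 1) ^ 2 + 1) ^ 2 ≤ (a + 1) ^ 3 * (a + 1 + 1) := by nlinarith
    calc kk (j + 1) ^ 3 * ((a + 1) ^ 2 + 1) ^ 3
        ≤ ((a + 1) * a) * ((a + 1) ^ 2 + 1) ^ 3 := Nat.mul_le_mul_right _ ih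
      _ = (a + 1) * a * ((a + 1) ^ 2 + 1) * ((a + 1) ^ 2 + 1) ^ 2 := by ring
      _ ≤ (a + 1) * a * ((a + 1) ^ 2 + 1) * ((a + 1) ^ 3 * (a + 1 + 1)) :=
          Nat.mul_le_mul_left _ e2
      _ = (a + 1) ^ 4 * (a * (((a + 1) ^ 2 + 1) * (a + 1 + 1))) := by ring

/-- the two properties of the group of `k`-th roots of unity -/
def Good (F : Type) [Field F] (k : ℕ) : Prop :=
  (∀ x y : F, x ^ k = 1 → y ^ k = 1 → (x + y) ^ k ≠ 1) ∧
    ∀ z : F, z ^ k ≠ 1 → ∃ x y : F, x ^ k = 1 ∧ y ^ k = 1 ∧ x + y = z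

/-- **the tower** -/
theorem tower (j : ℕ) : ∀ (F : Type) [Field F] [Fintype F], Fintype.card F = Q j →
    Good F (kk j) := by
  induction j with
  | zero =>
    intro F _ _ hF
    have hF2 : Fintype.card F = 2 ^ 1 := by rw [hF]; rfl
    have : CharP F 2 := charP_of_card_eq_prime_pow hF2
    constructor
    · intro x y hx hy h
      rw [kk, pow_one] at hx hy h
      rw [hx, hy, CharTwo.add_self_eq_zero] at h
      exact zero_ne_one h
    · intro z hz
      rw [kk, pow_one] at hz
      refine ⟨1, 1, one_pow _, one_pow _, ?_⟩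
      rw [CharTwo.add_self_eq_zero]
      by_contra h0
      classical
      have h3 : ({0, 1, z} : Finset F).card = 3 := by
        rw [Finset.card_eq_three]
        exact ⟨0, 1, z, zero_ne_one, h0, fun h => hz h.symm, rfl⟩
      have := Finset.card_le_univ ({0, 1, z} : Finset F)
      rw [h3, hF2] at this
      norm_num at this
  | succ j ih =>
    intro L _ _ hL
    obtain ⟨n, hn⟩ : ∃ n, n = 4 ^ j := ⟨_, rfl⟩
    have hn1 : 1 ≤ n := by rw [hn]; exact Nat.one_le_pow _ _ (by norm_num)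
    have hQn : Q j = 2 ^ n := by rw [hn]; rfl
    have hL' : Fintype.card L = 2 ^ (4 * n) := by
      rw [hL, Q_succ, hQn, ← pow_mul, mul_comm]
    have : CharP L 2 := charP_of_card_eq_prime_pow hL'
    letI : Algebra (ZMod 2) L := ZMod.algebra L 2
    letI : Fintype (GaloisField 2 n) := Fintype.ofFinite _
    have hcard0 : Fintype.card (GaloisField 2 n) = 2 ^ n := by
      rw [← Nat.card_eq_fintype_card, GaloisField.card 2 n (by omega)]
    have hG := ih (GaloisField 2 n) (by rw [hcard0, hQn])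
    have hfr : Module.finrank (ZMod 2) (GaloisField 2 n) ∣ Module.finrank (ZMod 2) L := by
      rw [GaloisField.finrank 2 (by omega)]
      have h1 : Fintype.card L = 2 ^ Module.finrank (ZMod 2) L := by
        rw [Module.card_eq_pow_finrank (K := ZMod 2) (V := L), ZMod.card]
      rw [hL'] at h1
      rw [← Nat.pow_right_injective (le_refl 2) h1]
      exact dvd_mul_left _ _
    obtain ⟨i⟩ := FiniteField.nonempty_algHom_of_finrank_dvd hfr
    have hinj : Function.Injective i := i.injective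
    have hk : kk j ∣ 2 ^ n - 1 := by rw [← hQn]; exact kk_dvd j
    -- the fixed points of `x ↦ x^(2^n)` are the image
    have hfix : ∀ x : L, ph n x = x → ∃ y, i y = x := by
      classical
      intro x hx
      have hq : 1 < 2 ^ n := Nat.one_lt_two_pow (by omega)
      let p : Polynomial L := Polynomial.X ^ (2 ^ n) - Polynomial.X
      have hp : p.natDegree = 2 ^ n := FiniteField.X_pow_card_sub_X_natDegree_eq L hq
      have hp0 : p ≠ 0 := FiniteField.X_pow_card_sub_X_ne_zero L hq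
      have hsub : (Finset.univ.image i) ⊆ p.roots.toFinset := by
        intro z hz
        rw [Finset.mem_image] at hz
        obtain ⟨y, _, rfl⟩ := hz
        rw [Multiset.mem_toFinset, Polynomial.mem_roots hp0]
        have : (i y) ^ 2 ^ n = i y := by rw [← map_pow, ← hcard0, FiniteField.pow_card]
        simp [p, this]
      have heq : Finset.univ.image i = p.roots.toFinset := by
        apply Finset.eq_of_subset_of_card_le hsub
        rw [Finset.card_image_of_injective _ hinj, Finset.card_univ, hcard0]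
        refine (Multiset.toFinset_card_le _).trans ?_
        rw [← hp]; exact Polynomial.card_roots' p
      have hxm : x ∈ p.roots.toFinset := by
        rw [Multiset.mem_toFinset, Polynomial.mem_roots hp0]
        rw [ph_apply] at hx
        simp [p, hx]
      rw [← heq, Finset.mem_image] at hxm
      obtain ⟨y, _, hy⟩ := hxm
      exact ⟨y, hy⟩
    have hS : ∀ x y : L, x ^ kk j = 1 → y ^ kk j = 1 → (x + y) ^ kk j ≠ 1 := by
      intro x y hx hy hxy
      obtain ⟨a, rfl⟩ := hfix x (fix_of n _ hk hx)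
      obtain ⟨b, rfl⟩ := hfix y (fix_of n _ hk hy)
      refine hG.1 a b (hinj ?_) (hinj ?_) (hinj ?_)
      · rw [map_pow, hx, map_one]
      · rw [map_pow, hy, map_one]
      · rw [map_pow, map_add, hxy, map_one]
    have hC : ∀ z : L, ph n z = z → z ^ kk j ≠ 1 →
        ∃ x y, x ^ kk j = 1 ∧ y ^ kk j = 1 ∧ x + y = z := by
      intro z hz hzk
      obtain ⟨c, rfl⟩ := hfix z hz
      obtain ⟨a, b, ha, hb, hab⟩ := hG.2 c (fun h => hzk (by rw [← map_pow, h, map_one]))
      exact ⟨i a, i b, by rw [← map_pow, ha, map_one], by rw [← map_pow, hb, map_one],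
        by rw [← map_add, hab]⟩
    have hN : ∀ x : L, x ^ kk (j + 1) = Nm n x ^ kk j := by
      intro x
      rw [Nm_pow, kk, hQn, ← pow_mul x, mul_comm]
    constructor
    · intro x y hx hy
      rw [hN] at hx hy ⊢
      exact step_sumfree n hL' _ hk hS x y hx hy
    · intro z hz
      rw [hN] at hz
      obtain ⟨x, y, hx, hy, hxy⟩ := step_complete n hL' _ hk hC hn1 z hz
      exact ⟨x, y, by rw [hN]; exact hx, by rw [hN]; exact hy, hxy⟩

/-- **final form** for `F` with `q^2` elements, `q = Q j ^ 2`, `k = kk j`: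
the group `{x | (x^(q+1))^k = 1}` is sum-free and complete. -/
theorem alphabet (j : ℕ) (F : Type) [Field F] [Fintype F] (hF : Fintype.card F = Q (j + 1)) :
    Fintype.card F = (Q j ^ 2) ^ 2 ∧ kk j ∣ Q j ^ 2 - 1 ∧
    (∀ x y : F, (x ^ (Q j ^ 2 + 1)) ^ kk j = 1 → (y ^ (Q j ^ 2 + 1)) ^ kk j = 1 →
      ((x + y) ^ (Q j ^ 2 + 1)) ^ kk j ≠ 1) ∧
    ∀ z : F, (z ^ (Q j ^ 2 + 1)) ^ kk j ≠ 1 →
      ∃ x y : F, (x ^ (Q j ^ 2 + 1)) ^ kk j = 1 ∧ (y ^ (Q j ^ 2 + 1)) ^ kk j = 1 ∧ x + y = z := by
  have e : ∀ x : F, (x ^ (Q j ^ 2 + 1)) ^ kk j = x ^ kk (j + 1) := fun x => by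
    rw [kk, ← pow_mul, mul_comm]
  obtain ⟨h1, h2⟩ := tower (j + 1) F hF
  refine ⟨by rw [hF, Q_succ, ← pow_mul], ?_, ?_, ?_⟩
  · refine (kk_dvd j).trans ⟨Q j + 1, ?_⟩
    obtain ⟨a, ha⟩ : ∃ a, Q j = a + 1 := ⟨Q j - 1, by have := two_le_Q j; omega⟩
    rw [ha]
    simp only [Nat.add_sub_cancel]
    have : (a + 1) ^ 2 = a * (a + 1 + 1) + 1 := by ring
    omega
  · intro x y hx hy
    rw [e] at hx hy ⊢
    exact h1 x y hx hy
  · intro z hz
    rw [e] at hz
    obtain ⟨x, y, hx, hy, hxy⟩ := h2 z hz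
    exact ⟨x, y, by rw [e]; exact hx, by rw [e]; exact hy, hxy⟩

/-- fields of these sizes exist -/
theorem exists_field (j : ℕ) : ∃ (F : Type) (_ : Field F) (_ : Fintype F), Fintype.card F = Q j := by
  letI : Fintype (GaloisField 2 (4 ^ j)) := Fintype.ofFinite _
  refine ⟨GaloisField 2 (4 ^ j), inferInstance, inferInstance, ?_⟩
  rw [← Nat.card_eq_fintype_card, GaloisField.card 2 _ (by positivity)]
  rfl

end Crest.Agent.R042.Tower767
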