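import Mathlib

/-!
# Tower alphabet (S0059, helper991): complete sum-free multiplicative subgroups of arbitrarily small density

`Ω` is a field of characteristic 2, `Q = 2 ^ e`, `F_Q = {x | x ^ Q = x}`, `μ_k = {x | x ^ k = 1}`.
If `μ_k ⊆ F_Q^*` is sum-free and complete in `F_Q` then `μ_{k (Q^2+1)}` is sum-free and complete in
`F_{Q^4}`.
-/

set_option autoImplicit false

open Finset Polynomial

namespace Crest.Agent.R042.Tower991

section trace

variable {Ω : Type*} [Field Ω] [CharP Ω 2]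

theorem frob (x y : Ω) (n : ℕ) : (x + y) ^ 2 ^ n = x ^ 2 ^ n + y ^ 2 ^ n :=
  add_pow_char_pow x y 2 n

/-- absolute trace polynomial `x + x^2 + ... + x^(2^(e-1))` -/
def T (e : ℕ) (x : Ω) : Ω := ∑ i ∈ range e, x ^ 2 ^ i

theorem T_add (e : ℕ) (x y : Ω) : T e (x + y) = T e x + T e y := by
  unfold T
  rw [← Finset.sum_add_distrib]
  exact Finset.sum_congr rfl fun i _ => frob x y i

theorem T_sq (e : ℕ) (x : Ω) : T e x ^ 2 = T e x + x + x ^ 2 ^ e := by
  induction e with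
  | zero =>
    simp only [T, Finset.range_zero, Finset.sum_empty, pow_zero, pow_one, zero_add]
    rw [CharTwo.add_self_eq_zero]; simp
  | succ n ih =>
    have h : T (n + 1) x = T n x + x ^ 2 ^ n := by
      unfold T; rw [Finset.sum_range_succ]
    rw [h, show (T n x + x ^ 2 ^ n) ^ 2 = T n x ^ 2 + (x ^ 2 ^ n) ^ 2 from by simpa using frob (T n x) (x ^ 2 ^ n) 1, ih, ← pow_mul, ← pow_succ]
    have h2 : x ^ 2 ^ n + x ^ 2 ^ n = 0 := CharTwo.add_self_eq_zero _
    linear_combination h2 - h2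

omit [CharP Ω 2] in
theorem T_split (e f : ℕ) (x : Ω) : T (e + f) x = T e x + T f (x ^ 2 ^ e) := by
  unfold T
  rw [Finset.sum_range_add]
  congr 1
  refine Finset.sum_congr rfl fun i _ => ?_
  rw [← pow_mul, pow_add]

/-- if `u ^ 2 = u + c` then `u ^ (2 ^ e) = u + T e c` -/
theorem pow_of_artin (e : ℕ) {u c : Ω} (h : u ^ 2 = u + c) : u ^ 2 ^ e = u + T e c := by
  induction e with
  | zero => simp [T]
  | succ n ih =>
    have h1 : u ^ 2 ^ (n + 1) = (u ^ 2) ^ 2 ^ n := by rw [← pow_mul, pow_succ']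
    rw [h1, h, frob, ih]
    unfold T
    rw [Finset.sum_range_succ, add_assoc]

end trace

section lift

variable {Ω : Type*} [Field Ω] [CharP Ω 2] [IsAlgClosed Ω]

/-- an element of `F_Q` with absolute trace one -/
theorem exists_T_one {e : ℕ} (he : 1 ≤ e) : ∃ w : Ω, w ^ 2 ^ e = w ∧ T e w = 1 := by
  set P : Polynomial Ω := (∑ i ∈ range e, X ^ 2 ^ i) - 1 with hP
  have hdeg : P.degree ≠ 0 := by
    intro h0
    have hc := Polynomial.eq_C_of_degree_eq_zero h0
    have h1 : P.coeff (2 ^ 0) = 1 := by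
      rw [hP, Polynomial.coeff_sub, Polynomial.finsetSum_coeff]
      rw [Finset.sum_eq_single 0]
      · simp [Polynomial.coeff_one]
      · intro i _ hi
        rw [Polynomial.coeff_X_pow, if_neg]
        intro h
        exact hi (Nat.pow_right_injective (le_refl 2) h).symm
      · intro h
        exact absurd (Finset.mem_range.2 (by omega)) h
    rw [hc] at h1
    simp [Polynomial.coeff_C] at h1
  obtain ⟨w, hw⟩ := IsAlgClosed.exists_root P hdeg
  have hT : T e w = 1 := by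
    have : P.eval w = T e w - 1 := by
      rw [hP]; simp [T, Polynomial.eval_finsetSum]
    rw [Polynomial.IsRoot.def, this] at hw
    exact sub_eq_zero.1 hw
  refine ⟨w, ?_, hT⟩
  have := T_sq e w
  rw [hT] at this
  have h2 : w + w = 0 := CharTwo.add_self_eq_zero w
  linear_combination -this - h2

/-- **lifting lemma**, in an algebraically closed field of characteristic two -/
theorem lift {e k : ℕ} (he : 1 ≤ e) (hk0 : 0 < k) (hk : k ∣ 2 ^ e - 1)
    (hsf : ∀ x y : Ω, x ^ k = 1 → y ^ k = 1 → (x + y) ^ k ≠ 1)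
    (hc : ∀ z : Ω, z ^ 2 ^ e = z → z ^ k ≠ 1 → ∃ x y : Ω, x ^ k = 1 ∧ y ^ k = 1 ∧ x + y = z) :
    (∀ x y : Ω, (x ^ ((2 ^ e) ^ 2 + 1)) ^ k = 1 → (y ^ ((2 ^ e) ^ 2 + 1)) ^ k = 1 →
        ((x + y) ^ ((2 ^ e) ^ 2 + 1)) ^ k ≠ 1) ∧
    (∀ z : Ω, z ^ (2 ^ e) ^ 4 = z → (z ^ ((2 ^ e) ^ 2 + 1)) ^ k ≠ 1 →
      ∃ x y : Ω, (x ^ ((2 ^ e) ^ 2 + 1)) ^ k = 1 ∧ (y ^ ((2 ^ e) ^ 2 + 1)) ^ k = 1 ∧ x + y = z) := by
  have h2 : ∀ a : Ω, a + a = 0 := fun a => CharTwo.add_self_eq_zero a
  -- elements of μ_k are fixed by the Q-power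
  have hfix : ∀ a : Ω, a ^ k = 1 → a ^ 2 ^ e = a := by
    intro a ha
    obtain ⟨c, hc'⟩ := hk
    have h1 : 1 ≤ 2 ^ e := Nat.one_le_two_pow
    have : 2 ^ e = k * c + 1 := by omega
    rw [this, pow_succ, pow_mul, ha, one_pow, one_mul]
  have hQ2 : (2 ^ e) ^ 2 = 2 ^ (e + e) := by rw [← pow_mul]; congr 1; ring
  have hQ4 : (2 ^ e) ^ 4 = 2 ^ (e + e) * 2 ^ (e + e) := by rw [← pow_add, ← pow_mul]; congr 1; ring
  set q : ℕ := 2 ^ (e + e) with hq
  have hqQ : q = 2 ^ e * 2 ^ e := by rw [hq, pow_add]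
  -- Frobenius additivity
  have hadd : ∀ a b : Ω, (a + b) ^ q = a ^ q + b ^ q := fun a b => by
    rw [hq]; exact frob a b _
  have haddQ : ∀ a b : Ω, (a + b) ^ 2 ^ e = a ^ 2 ^ e + b ^ 2 ^ e := fun a b => frob a b e
  have hpowq : ∀ b : Ω, b ^ q = (b ^ 2 ^ e) ^ 2 ^ e := fun b => by rw [hqQ, pow_mul]
  rw [hQ2, hQ4]
  -- membership: N a ∈ μ_k implies a ^ (q*q) = a
  have hmem : ∀ a : Ω, (a ^ (q + 1)) ^ k = 1 → a ≠ 0 ∧ a ^ (q * q) = a := by
    intro a ha
    have ha0 : a ≠ 0 := by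
      rintro rfl
      rw [zero_pow (by omega), zero_pow hk0.ne'] at ha
      exact zero_ne_one ha
    refine ⟨ha0, ?_⟩
    have h1 := hfix _ ha
    -- (a^(q+1))^q = a^(q+1)
    have h3 : (a ^ (q + 1)) ^ q = a ^ (q + 1) := by rw [hpowq, h1, h1]
    have h4 : a ^ (q * q) * a ^ q = a * a ^ q := by
      rw [← pow_mul] at h3
      calc a ^ (q * q) * a ^ q = a ^ ((q + 1) * q) := by rw [← pow_add]; congr 1; ring
        _ = a ^ (q + 1) := h3
        _ = a * a ^ q := by rw [pow_succ]; ring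
    exact mul_right_cancel₀ (pow_ne_zero _ ha0) h4
  refine ⟨?_, ?_⟩
  · intro x y hx hy hz
    obtain ⟨hx0, hxF⟩ := hmem x hx
    obtain ⟨hy0, hyF⟩ := hmem y hy
    set α := x ^ (q + 1) with hα
    set β := y ^ (q + 1) with hβ
    set γ := (x + y) ^ (q + 1) with hγ
    set ξ := x * y ^ q with hξ
    -- γ = α + β + (ξ + ξ^q)
    have hξq : ξ ^ q = x ^ q * y := by
      rw [hξ, mul_pow, ← pow_mul, hyF]
    have hsum : γ = α + β + (ξ + ξ ^ q) := by
      rw [hγ, pow_succ, hadd, hξq, hα, hβ, hξ, pow_succ, pow_succ]; ring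
    have hprod : ξ * ξ ^ q = α * β := by
      rw [hξq, hξ, hα, hβ, pow_succ, pow_succ]; ring
    set τ := ξ + ξ ^ q with hτ
    have hτγ : τ = α + β + γ := by
      rw [hsum]; linear_combination -(h2 α) - (h2 β)
    have hτQ : τ ^ 2 ^ e = τ := by
      rw [hτγ, haddQ, haddQ, hfix α hx, hfix β hy, hfix γ hz]
    have hνQ : (α * β) ^ 2 ^ e = α * β := by rw [mul_pow, hfix α hx, hfix β hy]
    -- ξ is a root of X^2 + τ X + αβ
    have hroot : ξ ^ 2 + τ * ξ + α * β = 0 := by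
      rw [← hprod, hτ]; linear_combination (h2 (ξ ^ 2)) + (h2 (ξ * ξ ^ q))
    -- apply Frobenius: ξ^Q is a root as well
    have hroot' : (ξ ^ 2 ^ e) ^ 2 + τ * ξ ^ 2 ^ e + α * β = 0 := by
      have := congrArg (fun t => t ^ 2 ^ e) hroot
      simp only [haddQ, mul_pow, hτQ] at this
      rw [← mul_pow, hνQ, zero_pow (by positivity)] at this
      rw [show (ξ ^ 2 ^ e) ^ 2 = (ξ ^ 2) ^ 2 ^ e by rw [← pow_mul, ← pow_mul, mul_comm]]
      exact this
    -- so ξ^Q = ξ or ξ^Q = ξ + τ; in both cases ξ^q = ξ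
    have hcase : ξ ^ 2 ^ e = ξ ∨ ξ ^ 2 ^ e = ξ + τ := by
      have hfac : (ξ ^ 2 ^ e + ξ) * (ξ ^ 2 ^ e + ξ + τ) = 0 := by
        linear_combination hroot' + hroot + (h2 (ξ ^ 2 ^ e * ξ)) - (h2 (α * β))
      rcases mul_eq_zero.1 hfac with h | h
      · left; linear_combination h - h2 ξ
      · right; linear_combination h - h2 ξ - h2 τ
    have hξfix : ξ ^ q = ξ := by
      rw [hqQ, pow_mul]
      rcases hcase with h | h
      · rw [h, h]
      · rw [h, haddQ, h, hτQ]; linear_combination h2 τ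
    have hτ0 : τ = 0 := by rw [hτ, hξfix]; exact h2 ξ
    have hγ' : γ = α + β := by
      rw [hsum, hτ0, add_zero]
    exact hsf α β hx hy (hγ' ▸ hz)
  · intro z hzF hzK
    rcases eq_or_ne z 0 with rfl | hz0
    · exact ⟨1, 1, by simp, by simp, h2 1⟩
    set γ := z ^ (q + 1) with hγ
    have hγ0 : γ ≠ 0 := pow_ne_zero _ hz0
    have hγq : γ ^ q = γ := by
      rw [hγ, ← pow_mul]
      calc z ^ ((q + 1) * q) = z ^ (q * q) * z ^ q := by rw [← pow_add]; congr 1; ring
        _ = z ^ (q + 1) := by rw [hzF, pow_succ]; ring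
    by_cases hγQ : γ ^ 2 ^ e = γ
    · -- case A
      obtain ⟨α, β, hα, hβ, hαβ⟩ := hc γ hγQ hzK
      have hc1 : (α / γ) ^ 2 ^ e = α / γ := by rw [div_pow, hfix α hα, hγQ]
      obtain ⟨f, rfl⟩ : ∃ f, e = f + 1 := ⟨e - 1, by omega⟩
      set u := (α / γ) ^ 2 ^ f with hu
      have hu2 : u ^ 2 = α / γ := by rw [hu, ← pow_mul, ← pow_succ, hc1]
      have huQ : u ^ 2 ^ (f + 1) = u := by
        rw [hu, ← pow_mul, mul_comm, pow_mul, hc1]
      have huq : u ^ q = u := by rw [hqQ, pow_mul, huQ, huQ]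
      have hNx : (z * u) ^ (q + 1) = α := by
        rw [mul_pow, ← hγ, pow_succ u, huq, ← pow_two, hu2]
        field_simp
      have hNy : (z * (1 + u)) ^ (q + 1) = β := by
        rw [mul_pow, ← hγ, pow_succ (1 + u), hadd, one_pow, huq]
        have : (1 + u) * (1 + u) = 1 + α / γ := by
          linear_combination hu2 + h2 u
        rw [this, mul_add, mul_one, mul_div_cancel₀ _ hγ0]
        linear_combination h2 α - hαβ
      refine ⟨z * u, z * (1 + u), ?_, ?_, ?_⟩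
      · rw [hNx]; exact hα
      · rw [hNy]; exact hβ
      · linear_combination h2 (z * u)
    · -- case B
      set d := 1 / γ + (1 / γ) ^ 2 ^ e with hd
      have hd0 : d ≠ 0 := by
        intro h
        apply hγQ
        have h1 : (1 / γ) ^ 2 ^ e = 1 / γ := by
          linear_combination h - h2 (1 / γ)
        rw [div_pow, one_pow] at h1
        have h3 : γ ^ 2 ^ e ≠ 0 := pow_ne_zero _ hγ0
        field_simp at h1
        exact h1.symm
      have hdQ : d ^ 2 ^ e = d := by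
        rw [hd, haddQ, ← pow_mul, ← hqQ]
        rw [show (1 / γ) ^ q = 1 / γ by rw [div_pow, one_pow, hγq]]
        ring
      obtain ⟨w, hwQ, hwT⟩ := exists_T_one (Ω := Ω) he
      -- an element α of μ_k with T(α d) = 1
      have hTfix : ∀ a : Ω, a ^ 2 ^ e = a → T e a = 0 ∨ T e a = 1 := by
        intro a ha
        have := T_sq e a
        rw [ha] at this
        have h3 : T e a * (T e a + 1) = 0 := by
          linear_combination this + h2 a + h2 (T e a)
        rcases mul_eq_zero.1 h3 with h | h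
        · exact Or.inl h
        · right; linear_combination h - h2 1
      have hexα : ∃ α : Ω, α ^ k = 1 ∧ T e (α * d) = 1 := by
        have hwd : (w / d) ^ 2 ^ e = w / d := by rw [div_pow, hwQ, hdQ]
        by_cases hK : (w / d) ^ k = 1
        · exact ⟨w / d, hK, by rw [div_mul_cancel₀ _ hd0]; exact hwT⟩
        · obtain ⟨a, b, ha, hb, hab⟩ := hc _ hwd hK
          have h3 : T e (a * d) + T e (b * d) = 1 := by
            rw [← T_add, ← add_mul, hab, div_mul_cancel₀ _ hd0]; exact hwT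
          rcases hTfix (a * d) (by rw [mul_pow, hfix a ha, hdQ]) with h | h
          · refine ⟨b, hb, ?_⟩
            rw [h, zero_add] at h3; exact h3
          · exact ⟨a, ha, h⟩
      obtain ⟨α, hα, hαT⟩ := hexα
      set c := α / γ with hcdef
      have hTc : T (e + e) c = 1 := by
        rw [T_split, ← T_add]
        have : c + c ^ 2 ^ e = α * d := by
          rw [hcdef, div_pow, hfix α hα, hd, div_pow, one_pow]; ring
        rw [this]; exact hαT
      -- root of X^2 + X + c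
      obtain ⟨u, hu⟩ : ∃ u : Ω, u ^ 2 = u + c := by
        have hdeg : (X ^ 2 - X - C c : Polynomial Ω).degree ≠ 0 := by
          intro h0
          have hcst := Polynomial.eq_C_of_degree_eq_zero h0
          have h1 : (X ^ 2 - X - C c : Polynomial Ω).coeff 2 = 1 := by
            simp [Polynomial.coeff_X]
          rw [hcst] at h1
          simp [Polynomial.coeff_C] at h1
        obtain ⟨u, hu⟩ := IsAlgClosed.exists_root _ hdeg
        refine ⟨u, ?_⟩
        rw [Polynomial.IsRoot.def] at hu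
        simp only [eval_sub, eval_pow, eval_X, eval_C] at hu
        linear_combination hu
      have huq : u ^ q = u + 1 := by
        have := pow_of_artin (e + e) hu
        rw [hTc] at this; exact this
      have huN : u ^ (q + 1) = c := by
        rw [pow_succ, huq]; linear_combination hu + h2 u
      have hu1N : (1 + u) ^ (q + 1) = c := by
        rw [pow_succ, hadd, one_pow, huq]
        linear_combination hu + h2 u + (1 + u) * (h2 1)
      refine ⟨z * u, z * (1 + u), ?_, ?_, ?_⟩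
      · rw [mul_pow, ← hγ, huN, hcdef, mul_div_cancel₀ _ hγ0]; exact hα
      · rw [mul_pow, ← hγ, hu1N, hcdef, mul_div_cancel₀ _ hγ0]; exact hα
      · linear_combination h2 (z * u)

end lift

/-! ### the tower -/

/-- `|K_n|`, where `K_n ⊆ F_{2^(4^n)}` -/
def kk : ℕ → ℕ
  | 0 => 1
  | n + 1 => ((2 ^ 4 ^ n) ^ 2 + 1) * kk n

theorem kk_succ (n : ℕ) : kk (n + 1) = ((2 ^ 4 ^ n) ^ 2 + 1) * kk n := rfl

theorem kk_pos (n : ℕ) : 0 < kk n := by
  induction n with
  | zero => exact Nat.one_pos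
  | succ n ih => rw [kk_succ]; positivity

theorem pow_four (n : ℕ) : 2 ^ 4 ^ (n + 1) = (2 ^ 4 ^ n) ^ 4 := by
  rw [← pow_mul, pow_succ]

theorem kk_dvd (n : ℕ) : kk n ∣ 2 ^ 4 ^ n - 1 := by
  induction n with
  | zero => simp [kk]
  | succ n ih =>
    obtain ⟨c, hc⟩ := ih
    rw [kk_succ, pow_four]
    have h1 : 1 ≤ 2 ^ 4 ^ n := Nat.one_le_two_pow
    obtain ⟨Q, hQ⟩ : ∃ Q, 2 ^ 4 ^ n = Q := ⟨_, rfl⟩
    rw [hQ] at hc h1 ⊢
    refine ⟨c * (Q + 1), ?_⟩
    have : (Q ^ 2 + 1) * kk n * (c * (Q + 1)) = (Q ^ 2 + 1) * ((kk n * c) * (Q + 1)) := by ring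
    rw [this, ← hc]
    obtain ⟨P, rfl⟩ : ∃ P, Q = P + 1 := ⟨Q - 1, by omega⟩
    simp only [Nat.add_sub_cancel]
    have : (P + 1) ^ 4 = ((P + 1) ^ 2 + 1) * (P * (P + 1 + 1)) + 1 := by ring
    rw [this, Nat.add_sub_cancel]

theorem kk_lt (n : ℕ) : kk n < 2 ^ 4 ^ n := by
  have h1 : 2 ≤ 2 ^ 4 ^ n := by
    calc 2 = 2 ^ 1 := rfl
      _ ≤ 2 ^ 4 ^ n := Nat.pow_le_pow_right (by norm_num) (Nat.one_le_pow _ _ (by norm_num))
  have := Nat.le_of_dvd (by omega) (kk_dvd n)
  omega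

section tower

variable {Ω : Type*} [Field Ω] [CharP Ω 2] [IsAlgClosed Ω]

/-- `K_n = {x | x ^ kk n = 1}` is sum-free and complete in `F_{2^(4^n)}`. -/
theorem tower_closed (n : ℕ) :
    (∀ x y : Ω, x ^ kk n = 1 → y ^ kk n = 1 → (x + y) ^ kk n ≠ 1) ∧
    (∀ z : Ω, z ^ 2 ^ 4 ^ n = z → z ^ kk n ≠ 1 →
      ∃ x y : Ω, x ^ kk n = 1 ∧ y ^ kk n = 1 ∧ x + y = z) := by
  induction n with
  | zero =>
    have h2 : (1 : Ω) + 1 = 0 := CharTwo.add_self_eq_zero 1
    refine ⟨?_, ?_⟩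
    · intro x y hx hy
      simp only [kk, pow_one] at *
      rw [hx, hy, h2]; exact zero_ne_one
    · intro z hz hz1
      simp only [kk, pow_one, pow_zero] at *
      refine ⟨1, 1, rfl, rfl, ?_⟩
      have : z * (z - 1) = 0 := by linear_combination hz
      rcases mul_eq_zero.1 this with h | h
      · rw [h, h2]
      · exact absurd (sub_eq_zero.1 h) hz1
  | succ n ih =>
    obtain ⟨h1, h2⟩ := lift (Ω := Ω) (e := 4 ^ n) (k := kk n) (Nat.one_le_pow _ _ (by norm_num))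
      (kk_pos n) (kk_dvd n) ih.1 ih.2
    rw [kk_succ, pow_four]
    simp only [pow_mul]
    exact ⟨h1, h2⟩

end tower

section finite

variable {F : Type*} [Field F] [Fintype F]

theorem mem_range_of_pow {Ω : Type*} [Field Ω] [Algebra F Ω] (a : Ω)
    (ha : a ^ Fintype.card F = a) : ∃ b : F, algebraMap F Ω b = a := by
  classical
  have hinj : Function.Injective (algebraMap F Ω) := (algebraMap F Ω).injective
  set N := Fintype.card F with hN
  have hN1 : 1 < N := Fintype.one_lt_card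
  set P : Polynomial Ω := X ^ N - X with hP
  have hP0 : P ≠ 0 := FiniteField.X_pow_card_sub_X_ne_zero Ω hN1
  have hdeg : P.natDegree = N := FiniteField.X_pow_card_sub_X_natDegree_eq Ω hN1
  have hsub : (univ : Finset F).image (algebraMap F Ω) ⊆ P.roots.toFinset := by
    intro x hx
    obtain ⟨b, _, rfl⟩ := Finset.mem_image.1 hx
    rw [Multiset.mem_toFinset, Polynomial.mem_roots hP0, Polynomial.IsRoot.def, hP]
    simp only [eval_sub, eval_pow, eval_X]
    rw [← map_pow, FiniteField.pow_card, sub_self]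
  have hcard : P.roots.toFinset.card ≤ ((univ : Finset F).image (algebraMap F Ω)).card := by
    rw [Finset.card_image_of_injective _ hinj, Finset.card_univ, ← hN]
    calc P.roots.toFinset.card ≤ Multiset.card P.roots := Multiset.toFinset_card_le _
      _ ≤ P.natDegree := Polynomial.card_roots' P
      _ = N := hdeg
  have heq := Finset.eq_of_subset_of_card_le hsub hcard
  have hmem : a ∈ P.roots.toFinset := by
    rw [Multiset.mem_toFinset, Polynomial.mem_roots hP0, Polynomial.IsRoot.def, hP]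
    simp only [eval_sub, eval_pow, eval_X]
    rw [ha, sub_self]
  rw [← heq] at hmem
  obtain ⟨b, _, hb⟩ := Finset.mem_image.1 hmem
  exact ⟨b, hb⟩

theorem charTwo_of_card {j : ℕ} (hF : Fintype.card F = 2 ^ j) : CharP F 2 := by
  obtain ⟨p, hp⟩ := CharP.exists F
  have := hp
  obtain ⟨m, hpp, hcard⟩ := FiniteField.card F p
  rw [hF] at hcard
  have hd : p ∣ 2 ^ j := by rw [hcard]; exact dvd_pow_self _ m.ne_zero
  have h2 : p = 2 := (Nat.prime_dvd_prime_iff_eq hpp Nat.prime_two).1 (hpp.dvd_of_dvd_pow hd)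
  rw [← h2]; exact hp

/-- **the alphabet in any field with `q ^ 2` elements, `q = (2 ^ 4 ^ n) ^ 2`** (sum-freeness) -/
theorem sumfree {n q : ℕ} (hq : q = (2 ^ 4 ^ n) ^ 2) (hF : Fintype.card F = q ^ 2) (x y : F)
    (hx : (x ^ (q + 1)) ^ kk n = 1) (hy : (y ^ (q + 1)) ^ kk n = 1) :
    ((x + y) ^ (q + 1)) ^ kk n ≠ 1 := by
  have : CharP F 2 := charTwo_of_card (j := 4 ^ n * 2 * 2) (by
    rw [hF, hq, ← pow_mul, ← pow_mul, mul_assoc])
  have : CharP (AlgebraicClosure F) 2 :=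
    charP_of_injective_algebraMap (algebraMap F (AlgebraicClosure F)).injective 2
  have h := (tower_closed (Ω := AlgebraicClosure F) (n + 1)).1
    (algebraMap F _ x) (algebraMap F _ y)
  rw [kk_succ, ← hq, pow_mul, pow_mul, pow_mul, ← map_add] at h
  simp only [← map_pow] at h
  intro hz
  exact h (by rw [hx, map_one]) (by rw [hy, map_one]) (by rw [hz, map_one])

/-- **completeness** -/
theorem complete {n q : ℕ} (hq : q = (2 ^ 4 ^ n) ^ 2) (hF : Fintype.card F = q ^ 2) (z : F)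
    (hz : (z ^ (q + 1)) ^ kk n ≠ 1) :
    ∃ x y : F, (x ^ (q + 1)) ^ kk n = 1 ∧ (y ^ (q + 1)) ^ kk n = 1 ∧ x + y = z := by
  have : CharP F 2 := charTwo_of_card (j := 4 ^ n * 2 * 2) (by
    rw [hF, hq, ← pow_mul, ← pow_mul, mul_assoc])
  have : CharP (AlgebraicClosure F) 2 :=
    charP_of_injective_algebraMap (algebraMap F (AlgebraicClosure F)).injective 2
  have hinj : Function.Injective (algebraMap F (AlgebraicClosure F)) :=
    (algebraMap F (AlgebraicClosure F)).injective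
  have hcard : 2 ^ 4 ^ (n + 1) = Fintype.card F := by
    rw [pow_four, hF, hq, ← pow_mul, ← pow_mul, ← pow_mul]
  have h := (tower_closed (Ω := AlgebraicClosure F) (n + 1)).2 (algebraMap F _ z)
  rw [hcard, kk_succ, ← hq, pow_mul] at h
  simp only [pow_mul] at h
  obtain ⟨a, b, ha, hb, hab⟩ := h (by rw [← map_pow, FiniteField.pow_card]) (by
    intro h1
    apply hz
    apply hinj
    rw [map_pow, map_pow, h1, map_one])
  -- both summands lie in `F`
  have hmem : ∀ c : AlgebraicClosure F, (c ^ (q + 1)) ^ kk n = 1 → ∃ b : F, algebraMap F _ b = c := by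
    intro c hc
    apply mem_range_of_pow
    obtain ⟨t, ht⟩ := kk_dvd (n + 1)
    have h1 : 1 ≤ 2 ^ 4 ^ (n + 1) := Nat.one_le_two_pow
    have h3 : Fintype.card F = kk (n + 1) * t + 1 := by rw [← hcard]; omega
    rw [h3, pow_succ, pow_mul, kk_succ, ← hq, pow_mul, hc, one_pow, one_mul]
  obtain ⟨x, rfl⟩ := hmem a ha
  obtain ⟨y, rfl⟩ := hmem b hb
  refine ⟨x, y, ?_, ?_, ?_⟩
  · apply hinj; rw [map_pow, map_pow, ha, map_one]
  · apply hinj; rw [map_pow, map_pow, hb, map_one]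
  · apply hinj; rw [map_add, hab]

/-- bundled form: for every `n` there is a field with `q ^ 2` elements, `q = (2 ^ 4 ^ n) ^ 2`, whose
subgroup `{x | N x ^ k = 1}` (`N x = x ^ (q + 1)`, `k < 2 ^ 4 ^ n = √q`) is sum-free and complete. -/
theorem alphabet (n : ℕ) : ∃ (F : Type) (_ : Field F) (_ : Fintype F) (q k : ℕ),
    q = (2 ^ 4 ^ n) ^ 2 ∧ Fintype.card F = q ^ 2 ∧ CharP F 2 ∧ 0 < k ∧ k < 2 ^ 4 ^ n ∧ k ∣ q - 1 ∧
    (∀ x y : F, (x ^ (q + 1)) ^ k = 1 → (y ^ (q + 1)) ^ k = 1 → ((x + y) ^ (q + 1)) ^ k ≠ 1) ∧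
    (∀ z : F, (z ^ (q + 1)) ^ k ≠ 1 →
      ∃ x y : F, (x ^ (q + 1)) ^ k = 1 ∧ (y ^ (q + 1)) ^ k = 1 ∧ x + y = z) := by
  classical
  have hne : 4 ^ n * 2 * 2 ≠ 0 := by positivity
  have : Fintype (GaloisField 2 (4 ^ n * 2 * 2)) := Fintype.ofFinite _
  have hcard : Fintype.card (GaloisField 2 (4 ^ n * 2 * 2)) = ((2 ^ 4 ^ n) ^ 2) ^ 2 := by
    rw [Fintype.card_eq_nat_card, GaloisField.card 2 _ hne, ← pow_mul, ← pow_mul, mul_assoc]
  refine ⟨GaloisField 2 (4 ^ n * 2 * 2), inferInstance, inferInstance, (2 ^ 4 ^ n) ^ 2, kk n, rfl,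
    hcard, inferInstance, kk_pos n, kk_lt n, ?_, ?_, ?_⟩
  · obtain ⟨c, hc⟩ := kk_dvd n
    obtain ⟨Q, hQ⟩ : ∃ Q, 2 ^ 4 ^ n = Q := ⟨_, rfl⟩
    have h1 : 1 ≤ 2 ^ 4 ^ n := Nat.one_le_two_pow
    rw [hQ] at hc h1 ⊢
    refine ⟨c * (Q + 1), ?_⟩
    rw [← mul_assoc, ← hc]
    obtain ⟨P, rfl⟩ : ∃ P, Q = P + 1 := ⟨Q - 1, by omega⟩
    simp only [Nat.add_sub_cancel]
    have : (P + 1) ^ 2 = P * (P + 1 + 1) + 1 := by ring
    rw [this, Nat.add_sub_cancel]
  · intro x y hx hy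
    exact sumfree rfl hcard x y hx hy
  · intro z hz
    exact complete rfl hcard z hz

end finite

end Crest.Agent.R042.Tower991
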