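import Mathlib

/-!
Row 42, S0059, CONF instance: transversality of the controlled functionals (helper427).
Tensors are functions `(ι → w) → K` (`ι` = blocks); `pt x` is the product tensor of the vectors
`x i`, `ct φ` the contraction with the product functional `φ`.
-/

set_option autoImplicit false
set_option linter.unusedSectionVars false

namespace Crest.Agent.R042.Trans427

open Finset

section Tensor

variable {K : Type*} [Field K] {ι w : Type*} [Fintype ι] [DecidableEq ι] [Fintype w] [DecidableEq w]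

/-- product tensor -/
def pt (x : ι → w → K) : (ι → w) → K := fun α => ∏ i, x i (α i)

/-- contraction with a product functional -/
def ct (φ : ι → w → K) : ((ι → w) → K) →ₗ[K] K where
  toFun t := ∑ α, (∏ i, φ i (α i)) * t α
  map_add' s t := by simp [mul_add, Finset.sum_add_distrib]
  map_smul' c t := by simp [Finset.mul_sum]; exact Finset.sum_congr rfl fun α _ => by ring

theorem ct_apply (φ : ι → w → K) (t : (ι → w) → K) : ct φ t = ∑ α, (∏ i, φ i (α i)) * t α := rfl

theorem ct_pt (φ x : ι → w → K) : ct φ (pt x) = ∏ i, (φ i ⬝ᵥ x i) := by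
  rw [ct_apply]
  simp only [pt, dotProduct, ← Finset.prod_mul_distrib]
  rw [Finset.prod_univ_sum]
  simp

theorem ct_single (α : ι → w) (t : (ι → w) → K) :
    ct (fun i => Pi.single (α i) (1 : K)) t = t α := by
  rw [ct_apply, Finset.sum_eq_single α]
  · simp
  · intro β _ hβ
    obtain ⟨i, hi⟩ := Function.ne_iff.1 hβ
    rw [Finset.prod_eq_zero (Finset.mem_univ i), zero_mul]
    simp [Pi.single_apply, hi]
  · intro h; exact absurd (Finset.mem_univ _) h

/-- tensors with at least `m` blocks equal to `a i` -/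
def Spec (N : ι → Set (w → K)) (a : ι → w → K) (m : ℕ) : Submodule K ((ι → w) → K) :=
  Submodule.span K {t | ∃ x : ι → w → K, (∀ i, x i ∈ N i) ∧
    (∃ J : Finset ι, m ≤ J.card ∧ ∀ i ∈ J, x i = a i) ∧ t = pt x}

theorem Spec_mono {N N' : ι → Set (w → K)} (h : ∀ i, N i ⊆ N' i) (a : ι → w → K) {m m' : ℕ}
    (hm : m' ≤ m) : Spec N a m ≤ Spec N' a m' := by
  apply Submodule.span_mono
  rintro t ⟨x, h1, ⟨J, h2, h3⟩, rfl⟩
  exact ⟨x, fun i => h i (h1 i), ⟨J, hm.trans h2, h3⟩, rfl⟩

theorem pt_mem_Spec {N : ι → Set (w → K)} {a x : ι → w → K} {m : ℕ} (h : ∀ i, x i ∈ N i)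
    (J : Finset ι) (hm : m ≤ J.card) (hJ : ∀ i ∈ J, x i = a i) : pt x ∈ Spec N a m :=
  Submodule.subset_span ⟨x, h, ⟨J, hm, hJ⟩, rfl⟩

theorem pt_self_mem_Spec {N : ι → Set (w → K)} {a : ι → w → K} {m : ℕ} (h : ∀ i, a i ∈ N i)
    (hm : m ≤ Fintype.card ι) : pt a ∈ Spec N a m :=
  pt_mem_Spec h univ (by simpa using hm) fun _ _ => rfl

/-- a product functional killing `a i` in more than `card ι - m` blocks kills `Spec N a m`. -/
theorem ct_Spec {N : ι → Set (w → K)} {a : ι → w → K} {m : ℕ} {φ : ι → w → K} (J : Finset ι)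
    (hJ : ∀ i ∈ J, φ i ⬝ᵥ a i = 0) (h : Fintype.card ι < m + J.card)
    {t : (ι → w) → K} (ht : t ∈ Spec N a m) : ct φ t = 0 := by
  induction ht using Submodule.span_induction with
  | mem t ht =>
    obtain ⟨x, h1, ⟨I, h2, h3⟩, rfl⟩ := ht
    rw [ct_pt]
    have : ∃ i, x i = a i ∧ φ i ⬝ᵥ a i = 0 := by
      by_contra hcon
      push Not at hcon
      have hdisj : Disjoint I J := by
        rw [Finset.disjoint_left]
        intro i hi hi'
        exact hcon i (h3 i hi) (hJ i hi')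
      have := Finset.card_le_univ (I ∪ J)
      rw [Finset.card_union_of_disjoint hdisj] at this
      omega
    obtain ⟨i, hi1, hi2⟩ := this
    exact Finset.prod_eq_zero (Finset.mem_univ i) (by rw [hi1, hi2])
  | zero => simp
  | add s t _ _ hs ht => rw [map_add, hs, ht, add_zero]
  | smul c t _ ht => rw [map_smul, ht, smul_zero]

/-- multilinear expansion of `ct` -/
theorem ct_add (φ φ' : ι → w → K) (t : (ι → w) → K) :
    ct (fun i => φ i + φ' i) t =
      ∑ S : Finset ι, ct (fun i => if i ∈ S then φ i else φ' i) t := by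
  simp only [ct_apply]
  rw [Finset.sum_comm]
  refine Finset.sum_congr rfl fun α _ => ?_
  rw [← Finset.sum_mul]
  congr 1
  simp only [Pi.add_apply]
  rw [Finset.prod_add]
  rw [Finset.powerset_univ]
  refine Finset.sum_congr rfl fun S _ => ?_
  have h1 : ∏ i ∈ S, φ i (α i) = ∏ i ∈ S, (if i ∈ S then φ i else φ' i) (α i) :=
    Finset.prod_congr rfl fun i hi => by rw [if_pos hi]
  have h2 : ∏ i ∈ univ \ S, φ' i (α i) = ∏ i ∈ univ \ S, (if i ∈ S then φ i else φ' i) (α i) :=
    Finset.prod_congr rfl fun i hi => by rw [if_neg (Finset.mem_sdiff.1 hi).2]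
  rw [h1, h2, mul_comm, Finset.prod_sdiff (Finset.subset_univ S)]

/-- **(T1) transversality** in `θ`-form: in every block a functional sees `a` and not `a'`. -/
theorem Spec_inf {N N' : ι → Set (w → K)} {a a' : ι → w → K} {m m' : ℕ}
    (hθ : ∀ i, ∃ θ : w → K, θ ⬝ᵥ a i = 1 ∧ θ ⬝ᵥ a' i = 0)
    (hm : Fintype.card ι < m + m') : Spec N a m ⊓ Spec N' a' m' = ⊥ := by
  rw [eq_bot_iff]
  rintro t ⟨h1, h2⟩
  rw [Submodule.mem_bot]
  choose θ hθ1 hθ2 using hθ
  funext α
  rw [← ct_single α t]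
  -- split every basis functional
  let e : ι → w → K := fun i => Pi.single (α i) (1 : K)
  let φ' : ι → w → K := fun i => (e i ⬝ᵥ a i) • θ i
  let φ : ι → w → K := fun i => e i - φ' i
  have he : (fun i => Pi.single (α i) (1 : K)) = fun i => φ i + φ' i := by
    funext i; simp [φ, e]
  rw [he, ct_add]
  refine Finset.sum_eq_zero fun S _ => ?_
  have hφ : ∀ i, φ i ⬝ᵥ a i = 0 := by
    intro i
    simp [φ, φ', sub_dotProduct, hθ1]
  have hφ' : ∀ i, φ' i ⬝ᵥ a' i = 0 := by
    intro i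
    simp [φ', hθ2]
  by_cases hS : Fintype.card ι < m + S.card
  · refine ct_Spec (a := a) S ?_ hS h1
    intro i hi
    simp [hi, hφ]
  · refine ct_Spec (a := a') Sᶜ ?_ ?_ h2
    · intro i hi
      have : i ∉ S := Finset.mem_compl.1 hi
      simp [this, hφ']
    · rw [Finset.card_compl]
      have h4 : S.card ≤ Fintype.card ι := Finset.card_le_univ S
      omega

/-- the `θ`-form from linear independence -/
theorem exists_theta {a a' : w → K} (h : a ∉ Submodule.span K {a'}) :
    ∃ θ : w → K, θ ⬝ᵥ a = 1 ∧ θ ⬝ᵥ a' = 0 := by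
  obtain ⟨f, hf1, hf2⟩ := Submodule.exists_le_ker_of_notMem h
  refine ⟨fun j => (f a)⁻¹ * f (Pi.single j 1), ?_, ?_⟩
  · have : f a = ∑ j, a j * f (Pi.single j 1) := by
      conv_lhs => rw [pi_eq_sum_univ' a]
      simp [map_sum]
    simp only [dotProduct]
    calc ∑ j, (f a)⁻¹ * f (Pi.single j 1) * a j = (f a)⁻¹ * ∑ j, a j * f (Pi.single j 1) := by
          rw [Finset.mul_sum]; exact Finset.sum_congr rfl fun j _ => by ring
      _ = 1 := by rw [← this]; exact inv_mul_cancel₀ hf1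
  · have h0 : f a' = 0 := hf2 (Submodule.mem_span_singleton_self a')
    have : f a' = ∑ j, a' j * f (Pi.single j 1) := by
      conv_lhs => rw [pi_eq_sum_univ' a']
      simp [map_sum]
    simp only [dotProduct]
    calc ∑ j, (f a)⁻¹ * f (Pi.single j 1) * a' j = (f a)⁻¹ * ∑ j, a' j * f (Pi.single j 1) := by
          rw [Finset.mul_sum]; exact Finset.sum_congr rfl fun j _ => by ring
      _ = 0 := by rw [← this, h0, mul_zero]

/-- the `θ`-form survives a field endomorphism (Frobenius twist) -/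
theorem theta_map {K' : Type*} [Field K'] (σ : K →+* K') {a a' : w → K}
    (h : ∃ θ : w → K, θ ⬝ᵥ a = 1 ∧ θ ⬝ᵥ a' = 0) :
    ∃ θ : w → K', θ ⬝ᵥ (fun j => σ (a j)) = 1 ∧ θ ⬝ᵥ (fun j => σ (a' j)) = 0 := by
  obtain ⟨θ, h1, h2⟩ := h
  refine ⟨fun j => σ (θ j), ?_, ?_⟩
  · simpa [dotProduct, map_sum, map_mul] using congrArg σ h1
  · simpa [dotProduct, map_sum, map_mul] using congrArg σ h2

/-- several copies (`L` coordinates) -/
theorem pi_inf {L : Type*} {M : Type*} [AddCommGroup M] [Module K M] (S T : Submodule K M)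
    (h : S ⊓ T = ⊥) :
    Submodule.pi (Set.univ : Set L) (fun _ => S) ⊓ Submodule.pi (Set.univ : Set L) (fun _ => T) =
      (⊥ : Submodule K (L → M)) := by
  rw [eq_bot_iff]
  rintro x ⟨h1, h2⟩
  rw [Submodule.mem_bot]
  funext l
  have : x l ∈ S ⊓ T := ⟨h1 l trivial, h2 l trivial⟩
  rw [h] at this
  simpa using this

end Tensor

section Abstract

/-- **(T2)** modular law: `DX ≤ SX`, `DY ≤ SY`, `SX ⊓ SY = ⊥`. -/
theorem digits_inf {K M : Type*} [Ring K] [AddCommGroup M] [Module K M]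
    {SX SY DX DY : Submodule K M} (hX : DX ≤ SX) (hY : DY ≤ SY) (h : SX ⊓ SY = ⊥) :
    (SX ⊔ DY) ⊓ (SY ⊔ DX) = DX ⊔ DY := by
  have h1 : (SX ⊔ DY) ⊓ (SY ⊔ DX) = ((SX ⊔ DY) ⊓ SY) ⊔ DX := by
    rw [inf_sup_assoc_of_le]
    exact hX.trans le_sup_left
  have h2 : (SX ⊔ DY) ⊓ SY = DY := by
    rw [sup_comm, sup_inf_assoc_of_le _ hY, h, sup_bot_eq]
  rw [h1, h2, sup_comm]

/-- **(T2)**, dual form over a field: the common kernel of the digits is `E_X ⊔ E_Y`. -/
theorem digits_dual {K M : Type*} [Field K] [AddCommGroup M] [Module K M]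
    {SX SY DX DY : Submodule K M} (hX : DX ≤ SX) (hY : DY ≤ SY) (h : SX ⊓ SY = ⊥) :
    (SX ⊔ DY).dualAnnihilator ⊔ (SY ⊔ DX).dualAnnihilator = (DX ⊔ DY).dualAnnihilator := by
  rw [← Subspace.dualAnnihilator_inf_eq, digits_inf hX hY h]

end Abstract

end Crest.Agent.R042.Trans427
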