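import Mathlib
import Crest.Agent.R042.DigitSZ_853

/-!
Row 42, S0059, label level (helper313).  A polynomial matrix whose partial specialisation is block
triangular and whose diagonal blocks are nonsingular at (different) points has nonzero determinant;
degree bound of the determinant; base-`Q` digit Schwartz-Zippel for it; passage to an affine chart.
-/

set_option autoImplicit false

namespace Crest.Agent.R042.TriDet313

open MvPolynomial Finset

section Deg

variable {V : Type*} [Fintype V] {K : Type*} [CommRing K] {k : ℕ}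

/-- every monomial of `p` has degree at most `d` in block `i` -/
def HasDeg (i : Fin k) (d : ℕ) (p : MvPolynomial (V × Fin k) K) : Prop :=
  ∀ m ∈ p.support, ∑ v, m (v, i) ≤ d

lemma HasDeg.mono {i : Fin k} {d d' : ℕ} {p : MvPolynomial (V × Fin k) K} (h : HasDeg i d p)
    (hd : d ≤ d') : HasDeg i d' p := fun m hm => (h m hm).trans hd

lemma hasDeg_zero (i : Fin k) (d : ℕ) : HasDeg i d (0 : MvPolynomial (V × Fin k) K) := by
  intro m hm; simp at hm

lemma hasDeg_C (i : Fin k) (d : ℕ) (c : K) : HasDeg i d (C c : MvPolynomial (V × Fin k) K) := by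
  classical
  intro m hm
  have : m = 0 := by
    by_contra hne
    rw [mem_support_iff, coeff_C, if_neg (fun h => hne h.symm)] at hm
    exact hm rfl
  subst this
  simp

lemma hasDeg_one (i : Fin k) (d : ℕ) : HasDeg i d (1 : MvPolynomial (V × Fin k) K) := by
  have := hasDeg_C (V := V) i d (1 : K)
  rwa [C_1] at this

lemma hasDeg_X (i : Fin k) (v : V) (i' : Fin k) :
    HasDeg i (if i' = i then 1 else 0) (X (v, i') : MvPolynomial (V × Fin k) K) := by
  classical
  intro m hm
  have : m = Finsupp.single (v, i') 1 := by
    by_contra hne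
    rw [mem_support_iff, coeff_X, if_neg (fun h => hne h.symm)] at hm
    exact hm rfl
  subst this
  split_ifs with h
  · subst h
    refine le_trans (Finset.sum_le_sum (g := fun w => if w = v then 1 else 0) fun w _ => ?_) ?_
    · rw [Finsupp.single_apply]
      split_ifs with h1 h2 h2
      · exact le_rfl
      · exact absurd (congrArg Prod.fst h1).symm h2
      · exact Nat.zero_le _
      · exact le_rfl
    · simp
  · refine le_of_eq (Finset.sum_eq_zero fun w _ => ?_)
    rw [Finsupp.single_apply, if_neg]
    intro h1
    exact h (congrArg Prod.snd h1)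

lemma hasDeg_X_one (i : Fin k) (v : V) (i' : Fin k) :
    HasDeg i 1 (X (v, i') : MvPolynomial (V × Fin k) K) :=
  (hasDeg_X i v i').mono (by split_ifs <;> omega)

lemma HasDeg.add {i : Fin k} {d : ℕ} {p q : MvPolynomial (V × Fin k) K} (hp : HasDeg i d p)
    (hq : HasDeg i d q) : HasDeg i d (p + q) := by
  classical
  intro m hm
  rcases Finset.mem_union.1 (support_add hm) with h | h
  · exact hp m h
  · exact hq m h

lemma HasDeg.neg {i : Fin k} {d : ℕ} {p : MvPolynomial (V × Fin k) K} (hp : HasDeg i d p) :
    HasDeg i d (-p) := by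
  intro m hm
  rw [support_neg] at hm
  exact hp m hm

lemma HasDeg.sub {i : Fin k} {d : ℕ} {p q : MvPolynomial (V × Fin k) K} (hp : HasDeg i d p)
    (hq : HasDeg i d q) : HasDeg i d (p - q) := by
  rw [sub_eq_add_neg]; exact hp.add hq.neg

lemma HasDeg.mul {i : Fin k} {d e : ℕ} {p q : MvPolynomial (V × Fin k) K} (hp : HasDeg i d p)
    (hq : HasDeg i e q) : HasDeg i (d + e) (p * q) := by
  classical
  intro m hm
  have h1 := support_mul p q hm
  obtain ⟨a, ha, b, hb, rfl⟩ := Finset.mem_add.1 h1
  simp only [Finsupp.coe_add, Pi.add_apply, Finset.sum_add_distrib]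
  exact Nat.add_le_add (hp a ha) (hq b hb)

lemma HasDeg.C_mul {i : Fin k} {d : ℕ} {p : MvPolynomial (V × Fin k) K} (hp : HasDeg i d p)
    (c : K) : HasDeg i d (C c * p) := by
  have := (hasDeg_C (V := V) i 0 c).mul hp
  rwa [zero_add] at this

lemma hasDeg_sum {ι : Type*} {i : Fin k} {d : ℕ} (s : Finset ι)
    (f : ι → MvPolynomial (V × Fin k) K) (h : ∀ j ∈ s, HasDeg i d (f j)) :
    HasDeg i d (∑ j ∈ s, f j) := by
  classical
  induction s using Finset.induction_on with
  | empty => simpa using hasDeg_zero i d
  | insert a s ha ih =>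
    rw [Finset.sum_insert ha]
    exact (h a (Finset.mem_insert_self _ _)).add
      (ih fun j hj => h j (Finset.mem_insert_of_mem hj))

lemma hasDeg_prod {ι : Type*} {i : Fin k} (s : Finset ι) (d : ι → ℕ)
    (f : ι → MvPolynomial (V × Fin k) K) (h : ∀ j ∈ s, HasDeg i (d j) (f j)) :
    HasDeg i (∑ j ∈ s, d j) (∏ j ∈ s, f j) := by
  classical
  induction s using Finset.induction_on with
  | empty => simpa using hasDeg_one i 0
  | insert a s ha ih =>
    rw [Finset.prod_insert ha, Finset.sum_insert ha]
    exact (h a (Finset.mem_insert_self _ _)).mul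
      (ih fun j hj => h j (Finset.mem_insert_of_mem hj))

/-- degree of a determinant -/
lemma hasDeg_det {A : Type*} [Fintype A] [DecidableEq A] {i : Fin k} {d : ℕ}
    (M : Matrix A A (MvPolynomial (V × Fin k) K)) (h : ∀ a b, HasDeg i d (M a b)) :
    HasDeg i (Fintype.card A * d) M.det := by
  rw [Matrix.det_apply]
  refine hasDeg_sum _ _ fun σ _ => ?_
  have h1 : HasDeg i (Fintype.card A * d) (∏ a, M (σ a) a) := by
    have := hasDeg_prod (i := i) (Finset.univ : Finset A) (fun _ => d) (fun a => M (σ a) a)
      (fun a _ => h _ _)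
    simpa using this
  rcases Int.units_eq_one_or (Equiv.Perm.sign σ) with hs | hs
  · rw [hs, one_smul]; exact h1
  · rw [hs, Units.neg_smul, one_smul]; exact h1.neg

end Deg

section Tri

/-- general form: a ring hom to a domain, block triangular there, every diagonal block
nonsingular after a further ring hom. -/
theorem tridet {R R' : Type*} [CommRing R] [CommRing R'] [IsDomain R'] (σ : R →+* R')
    {A : Type*} [Fintype A] [DecidableEq A] (M : Matrix A A R) (code : A → ℕ)
    (htri : ∀ a b, code b < code a → σ (M a b) = 0)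
    (hblk : ∀ c ∈ (Finset.univ : Finset A).image code,
      ((M.map σ).toSquareBlock code c).det ≠ 0) : M.det ≠ 0 := by
  intro h0
  have h1 : (M.map σ).det = 0 := by
    have := RingHom.map_det σ M
    rw [h0, map_zero] at this
    exact this.symm
  have hbt : (M.map σ).BlockTriangular code := fun a b hab => htri a b hab
  rw [hbt.det] at h1
  obtain ⟨c, hc, hc0⟩ := Finset.prod_eq_zero_iff.1 h1
  exact hblk c hc hc0

variable {V : Type*} [Fintype V] [DecidableEq V] {K : Type*} [Field K] {k : ℕ}

/-- specialise the variables of block `i0` to the constants `x0` -/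
noncomputable def spec (i0 : Fin k) (x0 : V → K) :
    MvPolynomial (V × Fin k) K →+* MvPolynomial (V × Fin k) K :=
  (aeval (R := K) (fun p : V × Fin k =>
    if p.2 = i0 then (C (x0 p.1) : MvPolynomial (V × Fin k) K) else X p)).toRingHom

omit [Fintype V] [DecidableEq V] in
lemma spec_C (i0 : Fin k) (x0 : V → K) (c : K) : spec i0 x0 (C c) = C c := by
  simp [spec]

omit [Fintype V] [DecidableEq V] in
lemma spec_X_same (i0 : Fin k) (x0 : V → K) (v : V) : spec i0 x0 (X (v, i0)) = C (x0 v) := by
  simp [spec]

omit [Fintype V] [DecidableEq V] in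
lemma spec_X_ne (i0 : Fin k) (x0 : V → K) (v : V) (i : Fin k) (h : i ≠ i0) :
    spec i0 x0 (X (v, i)) = X (v, i) := by
  simp [spec, h]

omit [Fintype V] [DecidableEq V] in
/-- evaluation at a point whose block `i0` is `x0` factors through the specialisation -/
lemma eval_spec (i0 : Fin k) (x0 : V → K) (y : V × Fin k → K) (hy : ∀ v, y (v, i0) = x0 v)
    (p : MvPolynomial (V × Fin k) K) : eval y (spec i0 x0 p) = eval y p := by
  have h : (eval y).comp (spec i0 x0) = eval y := by
    apply MvPolynomial.ringHom_ext
    · intro a; simp [spec]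
    · rintro ⟨v, i⟩
      by_cases h : i = i0
      · subst h
        simp [spec_X_same, hy]
      · simp [spec_X_ne i0 x0 v i h]
  exact congrArg (fun f => f p) h

omit [Fintype V] [DecidableEq V] in
/-- **TRIANGULAR DETERMINANT**: block triangular after specialising block `i0` to `x0`, and every
diagonal block nonsingular at some point with block `i0` equal to `x0`. -/
theorem tridet_poly {A : Type*} [Fintype A] [DecidableEq A]
    (M : Matrix A A (MvPolynomial (V × Fin k) K)) (i0 : Fin k) (x0 : V → K) (code : A → ℕ)
    (htri : ∀ a b, code b < code a → spec i0 x0 (M a b) = 0)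
    (hblk : ∀ c ∈ (Finset.univ : Finset A).image code, ∃ y : V × Fin k → K,
      (∀ v, y (v, i0) = x0 v) ∧ ((M.map (eval y)).toSquareBlock code c).det ≠ 0) :
    M.det ≠ 0 := by
  refine tridet (spec i0 x0) M code htri fun c hc h0 => ?_
  obtain ⟨y, hy, hd⟩ := hblk c hc
  apply hd
  have h1 : (M.map (eval y)).toSquareBlock code c
      = ((M.map (spec i0 x0)).toSquareBlock code c).map (eval y) := by
    ext a b
    simp only [Matrix.toSquareBlock_def, Matrix.map_apply, Matrix.of_apply]
    exact (eval_spec i0 x0 y hy _).symm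
  rw [h1]
  have h2 := RingHom.map_det (eval y) ((M.map (spec i0 x0)).toSquareBlock code c)
  rw [h0, map_zero] at h2
  exact h2.symm

/-- the number of singular points, base-`Q` digits -/
theorem tridet_sz [Fintype K] [DecidableEq K] {Q d : ℕ} {A : Type*} [Fintype A] [DecidableEq A]
    (M : Matrix A A (MvPolynomial (V × Fin k) K)) (hdeg : ∀ a b i, HasDeg i d (M a b))
    (hD : Fintype.card A * d < Q) (hK : Fintype.card K = Q ^ k)
    (i0 : Fin k) (x0 : V → K) (code : A → ℕ)
    (htri : ∀ a b, code b < code a → spec i0 x0 (M a b) = 0)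
    (hblk : ∀ c ∈ (Finset.univ : Finset A).image code, ∃ y : V × Fin k → K,
      (∀ v, y (v, i0) = x0 v) ∧ ((M.map (eval y)).toSquareBlock code c).det ≠ 0) :
    (Finset.univ.filter fun x : V → K =>
        (M.map (eval (fun p : V × Fin k => x p.1 ^ (Q ^ (p.2 : ℕ))))).det = 0).card * (Q - 1)
      ≤ Fintype.card A * d * Fintype.card K ^ Fintype.card V := by
  have hne := tridet_poly M i0 x0 code htri hblk
  have h := DigitSZ_853.digit_sz (D := Fintype.card A * d) hD hK M.det hne
    (fun m hm i => hasDeg_det M (fun a b => hdeg a b i) m hm)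
  have hset : (Finset.univ.filter fun x : V → K =>
        (M.map (eval (fun p : V × Fin k => x p.1 ^ (Q ^ (p.2 : ℕ))))).det = 0)
      = Finset.univ.filter fun x : V → K =>
        eval (fun p : V × Fin k => x p.1 ^ (Q ^ (p.2 : ℕ))) M.det = 0 := by
    ext x
    rw [Finset.mem_filter, Finset.mem_filter]
    have : (M.map (eval (fun p : V × Fin k => x p.1 ^ (Q ^ (p.2 : ℕ))))).det
        = eval (fun p : V × Fin k => x p.1 ^ (Q ^ (p.2 : ℕ))) M.det :=
      (RingHom.map_det (eval (fun p : V × Fin k => x p.1 ^ (Q ^ (p.2 : ℕ)))) M).symm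
    rw [this]
  rw [hset]
  exact h

end Tri

section Chart

open Classical in
/-- **CHART**: a property of `N`-tuples which is invariant under scaling of every point is violated
in the affine chart `ℓ = 1` at most `(|K|-1)^{-N}` times as often as on the whole space. -/
theorem chart_count {K W : Type*} [Field K] [Fintype K] [AddCommGroup W] [Module K W] [Fintype W]
    (ℓ : W →ₗ[K] K) (N : ℕ) (P : (Fin N → W) → Prop)
    (hP : ∀ (c : Fin N → Kˣ) (x : Fin N → W), P x → P (fun j => (c j : K) • x j)) :
    (Finset.univ.filter fun x : Fin N → W => (∀ j, ℓ (x j) = 1) ∧ P x).card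
        * (Fintype.card K - 1) ^ N
      ≤ (Finset.univ.filter fun x : Fin N → W => P x).card := by
  have h1 : (Fintype.card K - 1) ^ N = Fintype.card (Fin N → Kˣ) := by
    rw [Fintype.card_fun, Fintype.card_units, Fintype.card_fin]
  rw [h1, ← Finset.card_univ, ← Finset.card_product]
  refine Finset.card_le_card_of_injOn (fun p => fun j => (p.2 j : K) • p.1 j) ?_ ?_
  · rintro ⟨x, c⟩ h
    simp only [Finset.coe_product, Finset.coe_filter, Finset.mem_univ, true_and, Set.mem_prod,
      Set.mem_ofPred_eq, Finset.coe_univ, Set.mem_univ, and_true] at h ⊢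
    exact hP c x h.2
  · rintro ⟨x, c⟩ h ⟨x', c'⟩ h' heq
    simp only [Finset.coe_product, Finset.coe_filter, Finset.mem_univ, true_and, Set.mem_prod,
      Set.mem_ofPred_eq, Finset.coe_univ, Set.mem_univ, and_true] at h h'
    have hc : c = c' := by
      funext j
      have := congrArg ℓ (congrFun heq j)
      simp only [map_smul, h.1 j, h'.1 j, smul_eq_mul, mul_one] at this
      exact Units.ext this
    subst hc
    have hx : x = x' := by
      funext j
      have := congrFun heq j
      simp only at this
      exact smul_right_injective W (c j).ne_zero this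
    rw [hx]

end Chart

end Crest.Agent.R042.TriDet313
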