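import Crest.Agent.R042.SysBData_333
import Crest.Agent.R042.TopB_713
import Crest.Agent.R042.LocSysB_303
import Crest.Agent.R042.TDNum_766

/-!
# Row 42 / S0059, PLAN B: `TypeAsy`
-/

set_option autoImplicit false
set_option linter.unusedSectionVars false

namespace Crest.Agent.R042.SysB333

open Finset Filter SspAsm375 SspFin375 SspT375 SspB375 TLev333 SysOf333
open Crest.Agent.R042.Fam543 Crest.Agent.R042.RowWin543 Crest.Agent.R042.Inst592
open Crest.Agent.R042.IsoD543 Crest.Agent.R042.RichB763 Crest.Agent.R042.PB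
open Crest.Agent.R042.FinB713
open scoped Classical

theorem typeAsy (η β : ℝ) (hη : 0 < η) (hη1 : η ≤ 1 / 4096) (hβ : 0 < β) (_ : β ≤ 1)
    (h12 : 12 * β ≤ η ^ 2) : TypeAsy η β := by
  intro k0 _ _ _ _ K hK
  obtain ⟨_, t, _, _, ht, hL⟩ := ParamB766.tdata_consts hη
  obtain ⟨L, hL0, -, hLL⟩ := hL K.card 1
  refine ⟨L, hL0, fun d _ => ?_⟩
  have hq : 2 ≤ Fintype.card k0 := Fintype.one_lt_card
  filter_upwards [ParamB766.tdata_numbers (Fintype.card k0) hq hβ hη (by linarith) ht d]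
    with j hj
  obtain ⟨hj0, h1, h2, h3⟩ := hj
  intro KK _ _ _ _ e he hcard
  have he0 : 0 < e := by
    rcases Nat.eq_zero_or_pos e with h0 | h0
    · rw [h0, pow_zero] at he
      have : 1 < Fintype.card k0 ^ j := Nat.one_lt_pow hj0.ne' (by omega)
      omega
    · exact h0
  have hcard' : Fintype.card KK = (2 ^ e) ^ 2 := by
    rw [hcard, he, ← pow_mul, mul_comm]
  have hQ : (Fintype.card k0 : ℝ) ≤ β * ((2 : ℝ) ^ e - 1) := by
    have : ((2 : ℝ) ^ e) = ((Fintype.card k0 ^ j : ℕ) : ℝ) := by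
      rw [← he]; push_cast; rfl
    rw [this]
    exact h1
  have hD1 : 3 * β + (Real.exp (-t) + (Real.exp (-t) + ((Fintype.card k0 ^ j : ℕ) : ℝ) *
      (((Fintype.card k0 : ℝ) ^ 2 + 1) / Fintype.card KK))) ≤ η ^ 2 := by
    rw [hcard]
    exact h2
  have hD2 : ((Fintype.card k0 ^ j : ℕ) : ℝ) *
      ((Fintype.card k0 : ℝ) / (Fintype.card KK : ℝ) ^ (2 * d)) ≤
      4 * Fintype.card k0 * (Fintype.card k0 : ℝ) ^ j /
            ((Fintype.card k0 : ℝ) ^ (2 * j)) ^ (2 * d) := by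
    rw [hcard]
    refine h3.trans ?_
    refine div_le_div_of_nonneg_right ?_ (by positivity)
    have : (0 : ℝ) ≤ (Fintype.card k0 : ℝ) * (Fintype.card k0 : ℝ) ^ j := by positivity
    nlinarith
  have hFK := Iso543.famAlph hK
  refine ⟨sysB hK e he0 hcard' hQ hL0 t hLL (Fintype.card k0 ^ j) (fun w => w) η _ hη
    (by linarith) hD1 hD2, ?_⟩
  have hen : ∀ (P P' : Om KK (K : Set k0) d L) (a : Bool),
      en P.1 P'.1 a = bif a then P'.1 else P.1 := fun P P' a => rfl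
  refine ⟨rfl, rfl, rfl, le_rfl, ?_, ?_, ?_⟩
  · intro P P' δ ϑ i R h
    exact Or.inr (Or.inr (Or.inr ⟨i, h⟩))
  · intro P P' δ ϑ i R R' h
    exact ⟨i, h.2⟩
  · intro K1 hK1 N x hLI s s' μ μ' hμ hs hμ' hs' hA n1 n2
    have key := LocSysB303.hLoc hFK e (by norm_num : 4 ≤ 8) hL0 x hLI
      (sysB hK e he0 hcard' hQ hL0 t hLL (Fintype.card k0 ^ j) (fun w => w) η _ hη
        (by linarith) hD1 hD2) rfl
      (fun P P' δ ϑ R h => Or.inl h) (fun P P' δ ϑ R h => Or.inr (Or.inl h))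
      (fun P P' δ ϑ R h => Or.inr (Or.inr (Or.inl h))) K1 (by linarith) s s' μ μ' hμ hs hμ' hs'
      hA n1 n2
    refine le_trans (le_of_eq ?_) key
    rw [div_div]

end Crest.Agent.R042.SysB333
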