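import Crest.Agent.R042.TopB_713
import Crest.Agent.R042.SysBData_333
import Crest.Agent.R042.LocSysB_303
import Crest.Agent.R042.TDNum_766
import Crest.Agent.R042.LabAsy_375

/-! Row 42 / S0059, PLAN B: the type level, asymptotic form; `PairConfK`. -/

set_option autoImplicit false
set_option linter.unusedSectionVars false

namespace Crest.Agent.R042.TypeAsy375

open Finset Filter Crest.Agent.R042.RowWin543 Crest.Agent.R042.Fam543
  Crest.Agent.R042.LocFam958 Crest.Agent.R042.SspAsm375 Crest.Agent.R042.SspFin375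
  Crest.Agent.R042.Inst592 Crest.Agent.R042.SysOf333 Crest.Agent.R042.TLev333
  Crest.Agent.R042.FamV220 Crest.Agent.R042.IsoD543 Crest.Agent.R042.SspG375
  Crest.Agent.R042.FinB713
open scoped Classical

theorem typeAsy (η β : ℝ) (hη : 0 < η) (hη1 : η ≤ 1 / 4096) (hβ : 0 < β)
    (hβη : 12 * β ≤ η ^ 2) : TypeAsy η β := by
  intro k0 _ _ _ _ K hK
  have hq : 2 ≤ Fintype.card k0 := Fintype.one_lt_card
  have h4 : 0 < η ^ 2 / 4 := by positivity
  set t : ℝ := -Real.log (η ^ 2 / 4) with ht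
  have het : Real.exp (-t) ≤ η ^ 2 / 4 := by
    rw [ht, neg_neg, Real.exp_log h4]
  obtain ⟨L, hL⟩ := exists_nat_ge (max 1 ((K.card : ℝ) * (Real.log K.card + t)))
  have hL0 : 0 < L := by
    have : (1 : ℝ) ≤ L := (le_max_left _ _).trans hL
    exact_mod_cast (by linarith : (0 : ℝ) < L)
  have hL1 : (K.card : ℝ) * (Real.log K.card + t) ≤ L := (le_max_right _ _).trans hL
  refine ⟨L, hL0, ?_⟩
  intro d _
  filter_upwards [ParamB766.tdata_numbers (Fintype.card k0) hq hβ hη (by linarith) het d]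
    with j hj
  obtain ⟨hj0, n1, n2, n3⟩ := hj
  intro KK _ _ _ _ e he hKK
  have he0 : 0 < e := by
    rcases Nat.eq_zero_or_pos e with h | h
    · rw [h, pow_zero] at he
      have : 1 < Fintype.card k0 ^ j := Nat.one_lt_pow hj0.ne' (by omega)
      omega
    · exact h
  have hcard : Fintype.card KK = (2 ^ e) ^ 2 := by
    rw [hKK, he, ← pow_mul, mul_comm]
  have hcast : (2 : ℝ) ^ e = ((Fintype.card k0 ^ j : ℕ) : ℝ) := by
    rw [← he]
    push_cast
    rfl
  have hQ : (Fintype.card k0 : ℝ) ≤ β * ((2 : ℝ) ^ e - 1) := by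
    rw [hcast]
    exact n1
  have hKKr : (Fintype.card KK : ℝ) = ((Fintype.card k0 ^ (2 * j) : ℕ) : ℝ) := by
    rw [hKK]
  have hD1 : 3 * β + (Real.exp (-t) + (Real.exp (-t) +
      ((Fintype.card k0 ^ j : ℕ) : ℝ) * (((Fintype.card k0 : ℝ) ^ 2 + 1) / Fintype.card KK))) ≤
        η ^ 2 := by
    rw [hKKr]
    exact n2
  have hD2 : ((Fintype.card k0 ^ j : ℕ) : ℝ) *
      ((Fintype.card k0 : ℝ) / (Fintype.card KK : ℝ) ^ (2 * d)) ≤
      (Fintype.card k0 : ℝ) * (Fintype.card k0 : ℝ) ^ j /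
        ((Fintype.card k0 : ℝ) ^ (2 * j)) ^ (2 * d) := by
    rw [hKKr]
    exact n3
  set TD := SysB333.sysB (KK := KK) (d := d) (L := L) (Δ := Dl k0 KK d L) hK e he0 hcard hQ hL0 t
    hL1 (Fintype.card k0 ^ j) (fun w => w) η _ hη (by linarith) hD1 hD2 with hTD
  refine ⟨TD, ⟨rfl, rfl, rfl, ?_, ?_, ?_, ?_⟩⟩
  · have e1 : TD.θ = (Fintype.card k0 : ℝ) * (Fintype.card k0 : ℝ) ^ j /
        ((Fintype.card k0 : ℝ) ^ (2 * j)) ^ (2 * d) := rfl
    rw [e1]
    refine div_le_div_of_nonneg_right ?_ (by positivity)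
    have : (0 : ℝ) ≤ (Fintype.card k0 : ℝ) * (Fintype.card k0 : ℝ) ^ j := by positivity
    nlinarith
  · intro P P' δ ϑ i R h
    exact Or.inr (Or.inr (Or.inr ⟨i, h⟩))
  · intro P P' δ ϑ i R R' h
    exact ⟨i, h.2⟩
  · intro K1 hK1 N x hx s s' μ μ' p1 p2 p3 p4 hA h1 h2
    have := LocSysB303.hLoc (Iso543.famAlph hK) e (by norm_num : 4 ≤ 8) hL0 x hx TD rfl
      (fun P P' δ ϑ R h => Or.inl h) (fun P P' δ ϑ R h => Or.inr (Or.inl h))
      (fun P P' δ ϑ R h => Or.inr (Or.inr (Or.inl h))) K1 (by linarith) s s' μ μ' p1 p2 p3 p4 hA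
      h1 h2
    refine le_trans (le_of_eq ?_) this
    have hX : (0 : ℝ) < (Fintype.card KK : ℝ) ^ (4 * (L * (2 * d - 1) ^ 2)) := by
      have : (0 : ℝ) < Fintype.card KK := by exact_mod_cast Fintype.card_pos
      positivity
    field_simp

/-- **`PairConfK` for every constant.** -/
theorem pairConfK (K₀ : ℕ) (hK₀ : 0 < K₀) : S59Spine883.PairConfK K₀ :=
  pairConfK_of_asy K₀ hK₀ (fun q d L m1 cm hq hcm => LabAsy375.labelAsy q hq d L m1 cm hcm)
    (fun η β h1 h2 h3 _ h5 => typeAsy η β h1 h2 h3 h5)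

end Crest.Agent.R042.TypeAsy375
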