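import Crest.Agent.R042.TopB_713
import Crest.Agent.R042.SysBData_333
import Crest.Agent.R042.TDNum_766
import Crest.Agent.R042.LocSysB_303

/-!
# Row 42 / S0059, plan B: `TypeAsy` (the type level, asymptotic form)
-/

set_option autoImplicit false
set_option linter.unusedSectionVars false

namespace Crest.Agent.R042.TypeB303

open Finset Filter Crest.Agent.R042.RowWin543 Crest.Agent.R042.Fam543
  Crest.Agent.R042.LocFam958 Crest.Agent.R042.SspAsm375 Crest.Agent.R042.SspFin375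
  Crest.Agent.R042.Inst592 Crest.Agent.R042.SysOf333 Crest.Agent.R042.TLev333
  Crest.Agent.R042.FamV220 Crest.Agent.R042.IsoD543 Crest.Agent.R042.SspG375
  Crest.Agent.R042.FinB713
open scoped Classical

/-- **the type level of PLAN B** -/
theorem typeAsy (η β : ℝ) (hη : 0 < η) (hη1 : η ≤ 1 / 4096) (hβ : 0 < β) (_hβ1 : β ≤ 1)
    (h12 : 12 * β ≤ η ^ 2) : TypeAsy η β := by
  intro k0 _ _ _ _ K hK
  obtain ⟨_, t, -, -, ht, hLx⟩ := ParamB766.tdata_consts hη
  obtain ⟨L, hL0, -, hL⟩ := hLx K.card 1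
  refine ⟨L, hL0, fun d hd => ?_⟩
  have hq2 : 2 ≤ Fintype.card k0 := Fintype.one_lt_card
  filter_upwards [ParamB766.tdata_numbers (Fintype.card k0) hq2 hβ hη (by linarith) ht d]
    with j hj
  intro KK _ _ _ _ e he2 hcard
  obtain ⟨hj0, hQ, hD1, hD2⟩ := hj
  have he : 0 < e := by
    rcases Nat.eq_zero_or_pos e with h | h
    · exfalso
      rw [h, pow_zero] at he2
      have := Nat.one_lt_pow hj0.ne' hq2
      omega
    · exact h
  have hcard' : Fintype.card KK = (2 ^ e) ^ 2 := by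
    rw [hcard, he2, ← pow_mul, mul_comm]
  have hQ' : (Fintype.card k0 : ℝ) ≤ β * ((2 : ℝ) ^ e - 1) := by
    have h2 : ((Fintype.card k0 ^ j : ℕ) : ℝ) = (2 : ℝ) ^ e := by
      rw [← he2]; push_cast; rfl
    rw [h2] at hQ
    exact hQ
  rw [← hcard] at hD1 hD2
  have hD2' : ((Fintype.card k0 ^ j : ℕ) : ℝ) * ((Fintype.card k0 : ℝ) /
      (Fintype.card KK : ℝ) ^ (2 * d)) ≤ 4 * Fintype.card k0 * (Fintype.card k0 : ℝ) ^ j /
        ((Fintype.card k0 : ℝ) ^ (2 * j)) ^ (2 * d) := by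
    refine hD2.trans ?_
    have hq0 : (0 : ℝ) < Fintype.card k0 := by exact_mod_cast (by omega : 0 < Fintype.card k0)
    refine div_le_div_of_nonneg_right ?_ (by positivity)
    have : (0 : ℝ) ≤ (Fintype.card k0 : ℝ) * (Fintype.card k0 : ℝ) ^ j := by positivity
    linarith
  refine ⟨SysB333.sysB hK e he hcard' hQ' hL0 t hL (Fintype.card k0 ^ j) (fun w => w) η
    (4 * Fintype.card k0 * (Fintype.card k0 : ℝ) ^ j /
        ((Fintype.card k0 : ℝ) ^ (2 * j)) ^ (2 * d)) hη (by linarith) hD1 hD2', ?_⟩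
  refine ⟨rfl, rfl, rfl, le_rfl, ?_, ?_, ?_⟩
  · intro P P' δ ϑ i R h
    exact Or.inr (Or.inr (Or.inr ⟨i, h⟩))
  · intro P P' δ ϑ i R R' h
    exact ⟨i, h.2⟩
  · intro K1 hK1 N x hx s s' μ μ' hμ hs hμ' hs' hA h1 h2
    refine le_trans (le_of_eq ?_) (LocSysB303.hLoc (Iso543.famAlph hK) e (m := 8) (by norm_num)
      hL0 x hx _ rfl ?_ ?_ ?_ K1 (by linarith) s s' μ μ' hμ hs hμ' hs' hA h1 h2)
    · rw [div_div]
    · intro P P' δ ϑ R h
      exact Or.inl h
    · intro P P' δ ϑ R h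
      exact Or.inr (Or.inl h)
    · intro P P' δ ϑ R h
      exact Or.inr (Or.inr (Or.inl h))

end Crest.Agent.R042.TypeB303
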