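import Crest.Agent.R042.TopB_713
import Crest.Agent.R042.SysBData_333
import Crest.Agent.R042.LocSysB_303
import Crest.Agent.R042.TDNum_766

/-!
# Row 42 (S0059, plan B): `TypeAsy` (the type level data of every level)
-/

set_option autoImplicit false
set_option linter.unusedSectionVars false

namespace Crest.Agent.R042.TypeB763

open Finset Filter Crest.Agent.R042.RowWin543 Crest.Agent.R042.Fam543
  Crest.Agent.R042.LocFam958 Crest.Agent.R042.SspAsm375 Crest.Agent.R042.SspFin375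
  Crest.Agent.R042.Inst592 Crest.Agent.R042.SysOf333 Crest.Agent.R042.TLev333
  Crest.Agent.R042.FamV220 Crest.Agent.R042.IsoD543 Crest.Agent.R042.SspG375
  Crest.Agent.R042.FinB713
open scoped Classical

/-- **`TypeAsy`** -/
theorem typeAsy (η β : ℝ) (hη : 0 < η) (hη1 : η ≤ 1 / 4096) (hβ : 0 < β) (h12 : 12 * β ≤ η ^ 2) :
    TypeAsy η β := by
  intro k0 _ _ _ _ K hK
  obtain ⟨-, t, -, -, ht, hLL⟩ := ParamB766.tdata_consts hη
  obtain ⟨L, hL0, -, hL⟩ := hLL K.card 0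
  refine ⟨L, hL0, fun d _ => ?_⟩
  have hq : 2 ≤ Fintype.card k0 := Fintype.one_lt_card
  filter_upwards [ParamB766.tdata_numbers (Fintype.card k0) hq hβ hη (by linarith) ht d]
    with j hj
  obtain ⟨hj0, hj1, hj2, hj3⟩ := hj
  intro KK _ _ _ _ e he hcard
  have he0 : 0 < e := by
    rcases Nat.eq_zero_or_pos e with h | h
    · exfalso
      rw [h, pow_zero] at he
      have : 1 < Fintype.card k0 ^ j := Nat.one_lt_pow hj0.ne' (by omega)
      omega
    · exact h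
  have hcard' : Fintype.card KK = (2 ^ e) ^ 2 := by
    rw [hcard, he, ← pow_mul, mul_comm]
  have hQ : (Fintype.card k0 : ℝ) ≤ β * ((2 : ℝ) ^ e - 1) := by
    have h1 : ((Fintype.card k0 ^ j : ℕ) : ℝ) = (2 : ℝ) ^ e := by
      rw [← he]; push_cast; rfl
    rw [h1] at hj1
    exact hj1
  rw [← hcard] at hj2 hj3
  refine ⟨SysB333.sysB hK e he0 hcard' hQ hL0 t hL (Fintype.card k0 ^ j) (fun w => w) η
    ((Fintype.card k0 : ℝ) * (Fintype.card k0 : ℝ) ^ j /
      ((Fintype.card k0 : ℝ) ^ (2 * j)) ^ (2 * d)) hη (by linarith) hj2 hj3, ?_⟩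
  refine ⟨rfl, rfl, rfl, ?_, ?_, ?_, ?_⟩
  · show (Fintype.card k0 : ℝ) * (Fintype.card k0 : ℝ) ^ j /
      ((Fintype.card k0 : ℝ) ^ (2 * j)) ^ (2 * d) ≤ _
    refine div_le_div_of_nonneg_right ?_ (by positivity)
    have : (0 : ℝ) ≤ (Fintype.card k0 : ℝ) * (Fintype.card k0 : ℝ) ^ j := by positivity
    linarith
  · intro P P' δ ϑ i R h
    exact Or.inr (Or.inr (Or.inr ⟨i, h⟩))
  · intro P P' δ ϑ i R R' h
    exact ⟨i, h.2⟩
  · intro K1 hK1 N x hx s s' μ μ' hμ hs hμ' hs' hA h1 h2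
    have h := LocSysB303.hLoc (Iso543.famAlph hK) e (m := 8) (by norm_num) hL0 x hx
      (SysB333.sysB hK e he0 hcard' hQ hL0 t hL (Fintype.card k0 ^ j) (fun w => w) η
    ((Fintype.card k0 : ℝ) * (Fintype.card k0 : ℝ) ^ j /
      ((Fintype.card k0 : ℝ) ^ (2 * j)) ^ (2 * d)) hη (by linarith) hj2 hj3) rfl
      (fun P P' δ ϑ R h => Or.inl h) (fun P P' δ ϑ R h => Or.inr (Or.inl h))
      (fun P P' δ ϑ R h => Or.inr (Or.inr (Or.inl h))) K1 (by linarith)
      s s' μ μ' hμ hs hμ' hs' hA h1 h2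
    refine le_trans (le_of_eq ?_) h
    rw [div_div]

end Crest.Agent.R042.TypeB763
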