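import Mathlib
import Crest.Agent.R042.Conn_353
import Crest.Agent.R042.LinkDefs_870

/-! Row 42, S0058, 10.7 (e): wiring of the tokens inside a hub `J`: all tokens `i` are linked
`e i -- f i` by disjoint connected sets, and the sets of two prescribed tokens `x`, `y` are
adjacent. -/

set_option autoImplicit false
set_option linter.unusedSectionVars false

namespace Crest.Agent.R042.Wire890

open Finset Crest.Agent.R042.Conn353 Crest.Agent.R042.Link870

variable {V : Type*} [DecidableEq V] {G : SimpleGraph V} {J : Finset V}

lemma pick {v : V} {S : Finset V} {n : ℕ} (h : n ≤ (nb G J v).card) (hS : S.card < n) :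
    ∃ w ∈ J, G.Adj v w ∧ w ∉ S := by
  have : ¬ nb G J v ⊆ S := fun hsub => by
    have := card_le_card hsub
    omega
  obtain ⟨w, hw, hwS⟩ := not_subset.1 this
  exact ⟨w, (mem_nb.1 hw).1, (mem_nb.1 hw).2, hwS⟩

/-- **WIRING inside a hub** (10.7 (e)). -/
theorem wire_nb {p : ℕ} (hlink : ∀ X ⊆ J, X.card ≤ 2 * (p + 2) → Linked G J X)
    (hdeg : ∀ v ∈ J, 2 * p + 4 ≤ (nb G J v).card) (e f : Fin p → V)
    (he : Function.Injective e) (hf : Function.Injective f) (hef : ∀ i j, e i ≠ f j)
    (heJ : ∀ i, e i ∈ J) (hfJ : ∀ i, f i ∈ J) (x y : Fin p) (hxy : x ≠ y) :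
    ∃ Q : Fin p → Finset V,
      (∀ i, Q i ⊆ J ∧ Conn G (Q i) ∧ e i ∈ Q i ∧ f i ∈ Q i) ∧
      (∀ i j, i ≠ j → Disjoint (Q i) (Q j)) ∧
      ∃ a ∈ Q x, ∃ b ∈ Q y, G.Adj a b := by
  classical
  let S0 : Finset V := univ.image e ∪ univ.image f
  have hS0 : S0.card ≤ 2 * p := by
    refine (card_union_le _ _).trans ?_
    have h1 := card_image_le (s := (univ : Finset (Fin p))) (f := e)
    have h2 := card_image_le (s := (univ : Finset (Fin p))) (f := f)
    simp only [card_univ, Fintype.card_fin] at h1 h2
    omega
  have heS : ∀ i, e i ∈ S0 := fun i => mem_union_left _ (mem_image_of_mem _ (mem_univ _))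
  have hfS : ∀ i, f i ∈ S0 := fun i => mem_union_right _ (mem_image_of_mem _ (mem_univ _))
  have hS0J : S0 ⊆ J := by
    intro z hz
    rcases mem_union.1 hz with hz | hz
    · obtain ⟨i, -, rfl⟩ := mem_image.1 hz; exact heJ i
    · obtain ⟨i, -, rfl⟩ := mem_image.1 hz; exact hfJ i
  obtain ⟨u, huJ, -, hu⟩ := pick (S := S0) (hdeg (e x) (heJ x)) (by omega)
  obtain ⟨v, hvJ, huv, hv⟩ := pick (S := S0) (hdeg u huJ) (by omega)
  obtain ⟨u', huJ', huu', hu'⟩ := pick (S := insert v S0) (hdeg u huJ)
    (lt_of_le_of_lt (card_insert_le _ _) (by omega))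
  obtain ⟨v', hvJ', hvv', hv'⟩ := pick (S := insert u (insert u' S0)) (hdeg v hvJ)
    (by
      have h1 := card_insert_le u (insert u' S0)
      have h2 := card_insert_le u' S0
      omega)
  simp only [mem_insert, not_or] at hu' hv'
  obtain ⟨hu'v, hu'S⟩ := hu'
  obtain ⟨hv'u, hv'u', hv'S⟩ := hv'
  have huv_ne : u ≠ v := huv.ne
  have huu_ne : u ≠ u' := huu'.ne
  have hvv_ne : v ≠ v' := hvv'.ne
  have neS : ∀ {z w : V}, z ∉ S0 → w ∈ S0 → w ≠ z := fun h1 h2 h3 => h1 (h3 ▸ h2)
  let X : Finset V := insert u (insert v (insert u' (insert v' S0)))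
  have hX : X ⊆ J := by
    intro z hz
    simp only [X, mem_insert] at hz
    rcases hz with rfl | rfl | rfl | rfl | hz
    · exact huJ
    · exact hvJ
    · exact huJ'
    · exact hvJ'
    · exact hS0J hz
  have hXc : X.card ≤ 2 * (p + 2) := by
    have h1 := card_insert_le u (insert v (insert u' (insert v' S0)))
    have h2 := card_insert_le v (insert u' (insert v' S0))
    have h3 := card_insert_le u' (insert v' S0)
    have h4 := card_insert_le v' S0
    simp only [X]
    omega
  let s : Fin p ⊕ Bool → V := Sum.elim e (fun b => if b then v' else u')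
  let t : Fin p ⊕ Bool → V := Sum.elim (fun i => if i = x then u else if i = y then v else f i)
    (fun b => if b then f y else f x)
  have hS0X : S0 ⊆ X := by
    intro z hz
    simp only [X, mem_insert]
    exact Or.inr (Or.inr (Or.inr (Or.inr hz)))
  obtain ⟨P, hP⟩ := (hlink X hX hXc).family s t
    (by
      rintro (i | b)
      · exact hS0X (heS i)
      · cases b <;> simp [s, X])
    (by
      rintro (i | b)
      · simp only [t, Sum.elim_inl]
        split_ifs
        · simp [X]
        · simp [X]
        · exact hS0X (hfS i)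
      · cases b
        · exact hS0X (hfS x)
        · exact hS0X (hfS y))
    (by
      rintro (i | b) (j | c) h
      · simp only [s, Sum.elim_inl] at h
        rw [he h]
      · exfalso
        cases c <;> simp only [s, Sum.elim_inl, Sum.elim_inr] at h
        · exact neS hu'S (heS i) (by simpa using h)
        · exact neS hv'S (heS i) (by simpa using h)
      · exfalso
        cases b <;> simp only [s, Sum.elim_inl, Sum.elim_inr] at h
        · exact neS hu'S (heS j) (by simpa using h.symm)
        · exact neS hv'S (heS j) (by simpa using h.symm)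
      · cases b <;> cases c <;> simp only [s, Sum.elim_inr] at h
        · rfl
        · exact absurd h (by simpa using fun h' => hv'u' h'.symm)
        · exact absurd h (by simpa using hv'u')
        · rfl)
    (by
      rintro (i | b) (j | c) h
      · simp only [t, Sum.elim_inl] at h
        by_cases h1 : i = x <;> by_cases h2 : j = x
        · rw [h1, h2]
        · rw [if_pos h1, if_neg h2] at h
          split_ifs at h with h3
          · exact absurd h huv_ne
          · exact absurd h.symm (neS hu (hfS j))
        · rw [if_neg h1, if_pos h2] at h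
          split_ifs at h with h3
          · exact absurd h.symm huv_ne
          · exact absurd h (neS hu (hfS i))
        · rw [if_neg h1, if_neg h2] at h
          split_ifs at h with h3 h4 h4
          · rw [h3, h4]
          · exact absurd h.symm (neS hv (hfS j))
          · exact absurd h (neS hv (hfS i))
          · rw [hf h]
      · exfalso
        have hc : t (Sum.inr c) ∈ S0 := by
          cases c
          · exact hfS x
          · exact hfS y
        rw [← h] at hc
        simp only [t, Sum.elim_inl] at hc h
        split_ifs at hc h with h3 h4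
        · exact hu hc
        · exact hv hc
        · cases c <;> simp only [Sum.elim_inr] at h
          · exact h3 (hf (by simpa using h))
          · exact h4 (hf (by simpa using h))
      · exfalso
        have hc : t (Sum.inr b) ∈ S0 := by
          cases b
          · exact hfS x
          · exact hfS y
        rw [h] at hc
        simp only [t, Sum.elim_inl] at hc h
        split_ifs at hc h with h3 h4
        · exact hu hc
        · exact hv hc
        · cases b <;> simp only [Sum.elim_inr] at h
          · exact h3 (hf (by simpa using h.symm))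
          · exact h4 (hf (by simpa using h.symm))
      · cases b <;> cases c <;> simp only [t, Sum.elim_inr] at h
        · rfl
        · exact absurd (hf (by simpa using h)) hxy
        · exact absurd (hf (by simpa using h)) (Ne.symm hxy)
        · rfl)
    (by
      rintro (i | b) (j | c) h
      · simp only [s, t, Sum.elim_inl] at h
        split_ifs at h
        · exact neS hu (heS i) h
        · exact neS hv (heS i) h
        · exact hef i j h
      · cases c <;> simp only [s, t, Sum.elim_inl, Sum.elim_inr] at h
        · exact hef i x (by simpa using h)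
        · exact hef i y (by simpa using h)
      · cases b <;> simp only [s, t, Sum.elim_inl, Sum.elim_inr, Bool.false_eq_true,
          ↓reduceIte] at h
        · split_ifs at h
          · exact huu_ne h.symm
          · exact hu'v h
          · exact neS hu'S (hfS j) h.symm
        · split_ifs at h
          · exact hv'u h
          · exact hvv_ne h.symm
          · exact neS hv'S (hfS j) h.symm
      · cases b <;> cases c <;> simp only [s, t, Sum.elim_inr] at h
        · exact neS hu'S (hfS x) (by simpa using h.symm)
        · exact neS hu'S (hfS y) (by simpa using h.symm)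
        · exact neS hv'S (hfS x) (by simpa using h.symm)
        · exact neS hv'S (hfS y) (by simpa using h.symm))
  have ux : u ∈ P (Sum.inl x) := by simpa [t] using hP.right (Sum.inl x)
  have vy : v ∈ P (Sum.inl y) := by simpa [t, Ne.symm hxy] using hP.right (Sum.inl y)
  have u'x : u' ∈ P (Sum.inr false) := by simpa [s] using hP.left (Sum.inr false)
  have v'y : v' ∈ P (Sum.inr true) := by simpa [s] using hP.left (Sum.inr true)
  have fx : f x ∈ P (Sum.inr false) := by simpa [t] using hP.right (Sum.inr false)
  have fy : f y ∈ P (Sum.inr true) := by simpa [t] using hP.right (Sum.inr true)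
  let R : Fin p → Finset V := fun i =>
    if i = x then P (Sum.inr false) else if i = y then P (Sum.inr true) else ∅
  have hR : ∀ i z, z ∈ R i → (i = x ∧ z ∈ P (Sum.inr false)) ∨ (i = y ∧ z ∈ P (Sum.inr true)) := by
    intro i z hz
    simp only [R] at hz
    split_ifs at hz with h1 h2
    · exact Or.inl ⟨h1, hz⟩
    · exact Or.inr ⟨h2, hz⟩
    · simp at hz
  refine ⟨fun i => P (Sum.inl i) ∪ R i, ?_, ?_, u, mem_union_left _ ux, v,
    mem_union_left _ vy, huv⟩
  · intro i
    have hsub : P (Sum.inl i) ∪ R i ⊆ J := by
      refine union_subset (hP.sub _) ?_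
      intro z hz
      rcases hR i z hz with ⟨-, h⟩ | ⟨-, h⟩
      · exact hP.sub _ h
      · exact hP.sub _ h
    have hei : e i ∈ P (Sum.inl i) := by simpa [s] using hP.left (Sum.inl i)
    by_cases h1 : i = x
    · subst h1
      have hRi : R i = P (Sum.inr false) := by simp [R]
      refine ⟨hsub, ?_, mem_union_left _ hei, ?_⟩
      · show Conn G (P (Sum.inl i) ∪ R i)
        rw [hRi]
        exact (hP.conn _).union_adj (hP.conn _) ux u'x huu'
      · show f i ∈ P (Sum.inl i) ∪ R i
        rw [hRi]
        exact mem_union_right _ fx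
    · by_cases h2 : i = y
      · subst h2
        have hRi : R i = P (Sum.inr true) := by simp [R, h1]
        refine ⟨hsub, ?_, mem_union_left _ hei, ?_⟩
        · show Conn G (P (Sum.inl i) ∪ R i)
          rw [hRi]
          exact (hP.conn _).union_adj (hP.conn _) vy v'y hvv'
        · show f i ∈ P (Sum.inl i) ∪ R i
          rw [hRi]
          exact mem_union_right _ fy
      · have hRi : R i = ∅ := by simp [R, h1, h2]
        have hfi : f i ∈ P (Sum.inl i) := by simpa [t, h1, h2] using hP.right (Sum.inl i)
        refine ⟨hsub, ?_, mem_union_left _ hei, mem_union_left _ hfi⟩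
        show Conn G (P (Sum.inl i) ∪ R i)
        rw [hRi, union_empty]
        exact hP.conn _
  · intro i j hij
    rw [disjoint_left]
    intro z hz hz'
    have dis : ∀ a b, a ≠ b → z ∈ P a → z ∈ P b → False := fun a b hab h1 h2 =>
      disjoint_left.1 (hP.disj a b hab) h1 h2
    rcases mem_union.1 hz with hz | hz <;> rcases mem_union.1 hz' with hz' | hz'
    · exact dis _ _ (by simpa using hij) hz hz'
    · rcases hR j z hz' with ⟨-, h⟩ | ⟨-, h⟩
      · exact dis _ _ (by simp) hz h
      · exact dis _ _ (by simp) hz h
    · rcases hR i z hz with ⟨-, h⟩ | ⟨-, h⟩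
      · exact dis _ _ (by simp) h hz'
      · exact dis _ _ (by simp) h hz'
    · rcases hR i z hz with ⟨h1, h⟩ | ⟨h1, h⟩ <;> rcases hR j z hz' with ⟨h2, h'⟩ | ⟨h2, h'⟩
      · exact hij (h1.trans h2.symm)
      · exact dis _ _ (by simp) h h'
      · exact dis _ _ (by simp) h h'
      · exact hij (h1.trans h2.symm)

/-- the same with a decidable filter. -/
theorem wire [DecidableRel G.Adj] {p : ℕ}
    (hlink : ∀ X ⊆ J, X.card ≤ 2 * (p + 2) → Linked G J X)
    (hdeg : ∀ v ∈ J, 2 * p + 4 ≤ (J.filter (G.Adj v)).card) (e f : Fin p → V)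
    (he : Function.Injective e) (hf : Function.Injective f) (hef : ∀ i j, e i ≠ f j)
    (heJ : ∀ i, e i ∈ J) (hfJ : ∀ i, f i ∈ J) (x y : Fin p) (hxy : x ≠ y) :
    ∃ Q : Fin p → Finset V,
      (∀ i, Q i ⊆ J ∧ Conn G (Q i) ∧ e i ∈ Q i ∧ f i ∈ Q i) ∧
      (∀ i j, i ≠ j → Disjoint (Q i) (Q j)) ∧
      ∃ a ∈ Q x, ∃ b ∈ Q y, G.Adj a b := by
  refine wire_nb hlink ?_ e f he hf hef heJ hfJ x y hxy
  intro v hv
  refine (hdeg v hv).trans (card_le_card ?_)
  intro z hz
  rw [mem_nb]
  exact ⟨(mem_filter.1 hz).1, (mem_filter.1 hz).2⟩

end Crest.Agent.R042.Wire890
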