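import Mathlib
import Crest.Agent.R042.Conn_353
import Crest.Agent.R042.Menger_353

/-! Row 42, S0058, Theorem W / W' (wovenness): the purely graph-theoretic core
(re-flow by the augmentation lemma, linking inside the hub, rooted clique model in the piece). -/

set_option autoImplicit false
set_option linter.unusedSectionVars false

namespace Crest.Agent.R042.Woven981

open Finset Conn353 Menger353

variable {V : Type*} [DecidableEq V]

/-- OUTPUT of Theorem W: a clique model rooted at the `r i` and disjoint connected sets joining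
the pairs `s j`, `t j`; everything is inside `H` and avoids the other vertices of `X`. -/
def Woven (G : SimpleGraph V) (H X : Finset V) {ι κ : Type} (r : ι → V) (s t : κ → V) : Prop :=
  ∃ (B : ι → Finset V) (C : κ → Finset V),
    (∀ i, B i ⊆ H ∧ Conn G (B i) ∧ r i ∈ B i ∧ ∀ x ∈ B i, x ∈ X → x = r i) ∧
    (∀ i j, i ≠ j → Disjoint (B i) (B j)) ∧
    (∀ i j, i ≠ j → ∃ x ∈ B i, ∃ y ∈ B j, G.Adj x y) ∧
    (∀ j, C j ⊆ H ∧ Conn G (C j) ∧ s j ∈ C j ∧ t j ∈ C j ∧ ∀ x ∈ C j, x ∈ X → x = s j ∨ x = t j) ∧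
    (∀ i j, i ≠ j → Disjoint (C i) (C j)) ∧ (∀ i j, Disjoint (B i) (C j))

/-- linkedness with connected sets instead of paths. -/
def LinkS (G : SimpleGraph V) (J Y : Finset V) : Prop :=
  ∀ (n : ℕ) (s t : Fin n → V), Function.Injective s → Function.Injective t →
    (∀ i j, s i ≠ t j) → (∀ i, s i ∈ Y) → (∀ i, t i ∈ Y) →
    ∃ C : Fin n → Finset V, (∀ i, C i ⊆ J ∧ Conn G (C i) ∧ s i ∈ C i ∧ t i ∈ C i ∧
      ∀ x ∈ C i, x ∈ Y → x = s i ∨ x = t i) ∧ ∀ i j, i ≠ j → Disjoint (C i) (C j)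

lemma LinkS.general {G : SimpleGraph V} {J Y : Finset V} (h : LinkS G J Y) {ι : Type}
    [Fintype ι] (s t : ι → V) (hs : Function.Injective s) (ht : Function.Injective t)
    (hst : ∀ i j, s i ≠ t j) (hsY : ∀ i, s i ∈ Y) (htY : ∀ i, t i ∈ Y) :
    ∃ C : ι → Finset V, (∀ i, C i ⊆ J ∧ Conn G (C i) ∧ s i ∈ C i ∧ t i ∈ C i ∧
      ∀ x ∈ C i, x ∈ Y → x = s i ∨ x = t i) ∧ ∀ i j, i ≠ j → Disjoint (C i) (C j) := by
  classical
  let e := Fintype.equivFin ι
  obtain ⟨C, h1, h2⟩ := h (Fintype.card ι) (s ∘ e.symm) (t ∘ e.symm)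
    (hs.comp e.symm.injective) (ht.comp e.symm.injective) (fun i j => hst _ _)
    (fun i => hsY _) (fun i => htY _)
  refine ⟨fun i => C (e i), ?_, ?_⟩
  · intro i
    have := h1 (e i)
    simpa using this
  · intro i j hij
    exact h2 _ _ (fun hh => hij (e.injective hh))

/-- a rooted clique model in `J'`. -/
def Rooted (G : SimpleGraph V) (J' : Finset V) {ι : Type} (y : ι → V) : Prop :=
  ∃ B : ι → Finset V, (∀ i, B i ⊆ J' ∧ Conn G (B i) ∧ y i ∈ B i) ∧
    (∀ i j, i ≠ j → Disjoint (B i) (B j)) ∧ (∀ i j, i ≠ j → ∃ x ∈ B i, ∃ z ∈ B j, G.Adj x z)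

theorem woven_core {G : SimpleGraph V} {H Z X J J' Z' : Finset V} {θ κ a : ℕ}
    {U : Finset (List V)}
    (hsep : ∀ A B, Sep G H A B → (A ∩ B).card ≤ θ → A \ B ⊆ Z ∨ B \ A ⊆ Z)
    (hX : X ⊆ H \ Z) (hJ : J ⊆ H \ Z) (hJX : Disjoint J X)
    (hlink : ∀ Y ⊆ J, Y.card ≤ 2 * κ → LinkS G J Y)
    (hU : Linkage G H X J U) (hUc : U.card = X.card)
    (hJ' : J' ⊆ H \ Z) (hJ'J : Disjoint J' J) (hJ'U : Disjoint J' (verts U))
    (hZ' : Z' ⊆ J') (hZ'c : Z'.card ≤ 2 * a)
    (hJc : 2 * κ ≤ J.card) (hJ'c : 2 * κ ≤ (J' \ Z').card) (hXa : X.card + a ≤ 2 * κ)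
    (hθ : 2 * κ + 2 * a ≤ θ)
    {ι κ' : Type} [Fintype ι] [Fintype κ'] (hι : Fintype.card ι = a)
    (hRC : ∀ y : ι → V, Function.Injective y → (∀ i, y i ∈ J' \ Z') → Rooted G J' y)
    (r : ι → V) (s t : κ' → V) (hr : Function.Injective r) (hs : Function.Injective s)
    (ht : Function.Injective t) (hrX : ∀ i, r i ∈ X) (hsX : ∀ j, s j ∈ X) (htX : ∀ j, t j ∈ X)
    (hrs : ∀ i j, r i ≠ s j) (hrt : ∀ i j, r i ≠ t j) (hst : ∀ i j, s i ≠ t j) :
    Woven G H X r s t := by
  classical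
  -- X is contained in the paths of U
  have hXU : X ⊆ verts U := by
    have h1 := hU.verts_inter_card_left
    have h2 : verts U ∩ X = X :=
      Finset.eq_of_subset_of_card_le Finset.inter_subset_right (by rw [h1, hUc])
    intro x hx
    rw [← h2] at hx
    exact (Finset.mem_inter.1 hx).1
  have hJ'X : ∀ x ∈ J', x ∉ X := fun x hx hxX =>
    (Finset.disjoint_left.1 hJ'U hx) (hXU hxX)
  have hZ'H : Z' ⊆ H := fun x hx => (Finset.mem_sdiff.1 (hJ' (hZ' hx))).1
  set A := X ∪ (J' \ Z') with hA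
  have hAH : A ⊆ H \ Z' := by
    intro x hx
    rw [hA, Finset.mem_union] at hx
    rcases hx with h | h
    · exact Finset.mem_sdiff.2 ⟨(Finset.mem_sdiff.1 (hX h)).1, fun h' => hJ'X x (hZ' h') h⟩
    · rw [Finset.mem_sdiff] at h
      exact Finset.mem_sdiff.2 ⟨(Finset.mem_sdiff.1 (hJ' h.1)).1, h.2⟩
  have hJH : J ⊆ H \ Z' := by
    intro x hx
    exact Finset.mem_sdiff.2 ⟨(Finset.mem_sdiff.1 (hJ hx)).1,
      fun h' => (Finset.disjoint_left.1 hJ'J (hZ' h')) hx⟩
  have hJA : ∀ x ∈ J, x ∉ A := by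
    intro x hx hxA
    rw [hA, Finset.mem_union] at hxA
    rcases hxA with h | h
    · exact (Finset.disjoint_left.1 hJX hx) h
    · exact (Finset.disjoint_left.1 hJ'J (Finset.mem_sdiff.1 h).1) hx
  -- U is a linkage from A to J in H \ Z'
  have hU' : Linkage G (H \ Z') A J U := by
    refine ⟨?_, hU.disj⟩
    intro l hl
    have hp := hU.path l hl
    have hlU : ∀ x ∈ l, x ∉ J' := fun x hx hxJ' =>
      (Finset.disjoint_left.1 hJ'U hxJ') (mem_verts.2 ⟨l, hl, hx⟩)
    obtain ⟨c, u, h1, h2, h3⟩ := hp.start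
    refine ⟨fun x hx => Finset.mem_sdiff.2 ⟨hp.sub x hx, fun h' => hlU x hx (hZ' h')⟩,
      hp.chain, hp.nodup, ⟨c, u, h1, Finset.mem_union_left _ h2, ?_⟩, hp.stop⟩
    intro x hx hxA
    rw [hA, Finset.mem_union] at hxA
    rcases hxA with h | h
    · exact h3 x hx h
    · exact hlU x (by rw [h1]; exact List.mem_cons_of_mem _ hx) (Finset.mem_sdiff.1 h).1
  rcases aug_sep hAH hJH (k := X.card + a) hU' (by omega) with
    ⟨Q, hQ, hQc, hQA, -⟩ | ⟨A', B', hS, hAA', hJB', hc⟩
  swap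
  · -- impossible separation
    exfalso
    have hS' : Sep G H (A' ∪ Z') (B' ∪ Z') := by
      refine ⟨?_, ?_⟩
      · have := hS.union
        ext x
        have hx := Finset.ext_iff.1 this x
        simp only [Finset.mem_union, Finset.mem_sdiff] at hx ⊢
        constructor
        · rintro ((h | h) | (h | h))
          · exact (hx.1 (Or.inl h)).1
          · exact hZ'H h
          · exact (hx.1 (Or.inr h)).1
          · exact hZ'H h
        · intro h
          by_cases hz : x ∈ Z'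
          · exact Or.inl (Or.inr hz)
          · rcases hx.2 ⟨h, hz⟩ with h' | h'
            · exact Or.inl (Or.inl h')
            · exact Or.inr (Or.inl h')
      · intro u hu hu' v hv hv'
        rw [Finset.mem_union] at hu hu' hv hv'
        push Not at hu' hv'
        exact hS.nadj u (hu.resolve_right hu'.2) hu'.1 v (hv.resolve_right hv'.2) hv'.1
    have hc' : ((A' ∪ Z') ∩ (B' ∪ Z')).card ≤ θ := by
      have h1 : (A' ∪ Z') ∩ (B' ∪ Z') = (A' ∩ B') ∪ Z' := by
        ext x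
        simp only [Finset.mem_inter, Finset.mem_union]
        tauto
      rw [h1]
      have := Finset.card_union_le (A' ∩ B') Z'
      omega
    rcases hsep _ _ hS' hc' with h | h
    · have : ∃ x ∈ J' \ Z', x ∉ A' ∩ B' := by
        by_contra hcon
        push Not at hcon
        have := Finset.card_le_card (show J' \ Z' ⊆ A' ∩ B' from fun x hx => hcon x hx)
        omega
      obtain ⟨x, hx, hx'⟩ := this
      have hxA : x ∈ A' := hAA' (Finset.mem_union_right _ hx)
      have hxB : x ∉ B' := fun hb => hx' (Finset.mem_inter.2 ⟨hxA, hb⟩)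
      rw [Finset.mem_sdiff] at hx
      have hxZ : x ∈ Z := h (by
        rw [Finset.mem_sdiff, Finset.mem_union, Finset.mem_union]
        exact ⟨Or.inl hxA, fun hh => hh.elim hxB hx.2⟩)
      exact (Finset.mem_sdiff.1 (hJ' hx.1)).2 hxZ
    · have : ∃ x ∈ J, x ∉ A' ∩ B' := by
        by_contra hcon
        push Not at hcon
        have := Finset.card_le_card (show J ⊆ A' ∩ B' from fun x hx => hcon x hx)
        omega
      obtain ⟨x, hx, hx'⟩ := this
      have hxB : x ∈ B' := hJB' hx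
      have hxA : x ∉ A' := fun hb => hx' (Finset.mem_inter.2 ⟨hb, hxB⟩)
      have hxZ' : x ∉ Z' := fun hz => (Finset.disjoint_left.1 hJ'J (hZ' hz)) hx
      have hxZ : x ∈ Z := h (by
        rw [Finset.mem_sdiff, Finset.mem_union, Finset.mem_union]
        exact ⟨Or.inl hxB, fun hh => hh.elim hxA hxZ'⟩)
      exact (Finset.mem_sdiff.1 (hJ hx)).2 hxZ
  -- the re-flow
  obtain ⟨f, g, hfg, hdis, -, -, hginj⟩ := hQ.family
  set S := verts Q ∩ A with hSdef
  have hSc : S.card = X.card + a := by rw [hSdef, hQ.verts_inter_card_left, hQc]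
  have hXS : X ⊆ S := by
    intro x hx
    exact hQA (Finset.mem_inter.2 ⟨hXU hx, Finset.mem_union_left _ hx⟩)
  have hYc : (S \ X).card = a := by
    rw [Finset.card_sdiff_of_subset hXS, hSc]; omega
  have hYJ' : ∀ x ∈ S \ X, x ∈ J' \ Z' := by
    intro x hx
    rw [Finset.mem_sdiff, hSdef, Finset.mem_inter, hA, Finset.mem_union] at hx
    exact hx.1.2.resolve_left hx.2
  have hcard : Fintype.card ι = Fintype.card {x // x ∈ S \ X} := by
    rw [hι, Fintype.card_coe, hYc]
  let e : ι ≃ {x // x ∈ S \ X} := Fintype.equivOfCardEq hcard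
  set y : ι → V := fun i => (e i : V) with hy
  have hyinj : Function.Injective y := fun i j h => e.injective (Subtype.ext h)
  have hyS : ∀ i, y i ∈ S \ X := fun i => (e i).2
  have hyX : ∀ i, y i ∉ X := fun i => (Finset.mem_sdiff.1 (hyS i)).2
  obtain ⟨B', hB1, hB2, hB3⟩ := hRC y hyinj (fun i => hYJ' _ (hyS i))
  -- the ends of the connections
  set P : ι ⊕ κ' → V := Sum.elim r s with hP
  set T : ι ⊕ κ' → V := Sum.elim y t with hT
  have hPX : ∀ w, P w ∈ X := by rintro (i | j); exacts [hrX i, hsX j]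
  have hPS : ∀ w, P w ∈ S := fun w => hXS (hPX w)
  have hTS : ∀ w, T w ∈ S := by
    rintro (i | j)
    exacts [(Finset.mem_sdiff.1 (hyS i)).1, hXS (htX j)]
  have hPinj : Function.Injective P := by
    rintro (i | i) (j | j) h
    · exact congrArg _ (hr h)
    · exact absurd h (hrs i j)
    · exact absurd h.symm (hrs j i)
    · exact congrArg _ (hs h)
  have hTinj : Function.Injective T := by
    rintro (i | i) (j | j) h
    · exact congrArg _ (hyinj h)
    · exact absurd (by have h' : y i = t j := h; rw [h']; exact htX j : y i ∈ X) (hyX i)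
    · exact absurd (by have h' : t i = y j := h; rw [← h']; exact htX i : y j ∈ X) (hyX j)
    · exact congrArg _ (ht h)
  have hPT : ∀ w w', P w ≠ T w' := by
    rintro (i | i) (j | j) h
    · exact hyX j (by have h' : r i = y j := h; rw [← h']; exact hrX i)
    · exact hrt i j h
    · exact hyX j (by have h' : s i = y j := h; rw [← h']; exact hsX i)
    · exact hst i j h
  have hgS : ∀ p ∈ S, ∀ q ∈ S, p ≠ q → g p ≠ g q := fun p hp q hq hne h =>
    hne (hginj p hp q hq h)
  obtain ⟨K, hK1, hK2⟩ := (hlink (S.image g) (by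
      intro x hx
      obtain ⟨p, hp, rfl⟩ := Finset.mem_image.1 hx
      exact (hfg p hp).2.2.2.2.1) (by
      have := Finset.card_image_le (s := S) (f := g)
      omega)).general (fun w => g (P w)) (fun w => g (T w))
    (fun w w' h => hPinj (by
      by_contra hne; exact hgS _ (hPS w) _ (hPS w') hne h))
    (fun w w' h => hTinj (by
      by_contra hne; exact hgS _ (hTS w) _ (hTS w') hne h))
    (fun w w' h => hgS _ (hPS w) _ (hTS w') (hPT w w') h)
    (fun w => Finset.mem_image_of_mem g (hPS w)) (fun w => Finset.mem_image_of_mem g (hTS w))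
  set E : ι ⊕ κ' → Finset V := fun w => (f (P w)).toFinset ∪ K w ∪ (f (T w)).toFinset with hE
  have hmemE : ∀ w x, x ∈ E w ↔ x ∈ f (P w) ∨ x ∈ K w ∨ x ∈ f (T w) := by
    intro w x
    simp only [hE, Finset.mem_union, List.mem_toFinset]
    tauto
  have hEconn : ∀ w, Conn G (E w) := by
    intro w
    have h1 := (hfg _ (hPS w)).2.1.conn
    have h2 := (hfg _ (hTS w)).2.1.conn
    have h3 := (hK1 w).2.1
    have h4 : Conn G ((f (P w)).toFinset ∪ K w) :=
      h1.union h3 (x := g (P w)) (List.mem_toFinset.2 (hfg _ (hPS w)).2.2.2.2.2.2.1)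
        (hK1 w).2.2.1
    exact h4.union h2 (x := g (T w)) (Finset.mem_union_right _ (hK1 w).2.2.2.1)
      (List.mem_toFinset.2 (hfg _ (hTS w)).2.2.2.2.2.2.1)
  -- a vertex of `f p` in `J` is `g p`
  have hfJ : ∀ p ∈ S, ∀ x ∈ f p, x ∈ J → x = g p := fun p hp x hx hxJ =>
    (hfg p hp).2.2.2.2.2.2.2.2 x hx hxJ
  have hfA : ∀ p ∈ S, ∀ x ∈ f p, x ∈ A → x = p := fun p hp x hx hxA =>
    (hfg p hp).2.2.2.2.2.2.2.1 x hx hxA
  have hfK : ∀ p ∈ S, ∀ w, p ≠ P w → p ≠ T w → ∀ x ∈ f p, x ∉ K w := by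
    intro p hp w h1 h2 x hx hxK
    have hxJ := (hK1 w).1 hxK
    have hxg := hfJ p hp x hx hxJ
    rcases (hK1 w).2.2.2.2 x hxK (by rw [hxg]; exact Finset.mem_image_of_mem g hp) with h | h
    · exact hgS p hp _ (hPS w) h1 (hxg ▸ h)
    · exact hgS p hp _ (hTS w) h2 (hxg ▸ h)
  have hEdisj : ∀ w w', w ≠ w' → Disjoint (E w) (E w') := by
    intro w w' hne
    have n1 : P w ≠ P w' := fun h => hne (hPinj h)
    have n2 : T w ≠ T w' := fun h => hne (hTinj h)
    have n3 : P w ≠ T w' := hPT w w'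
    have n4 : T w ≠ P w' := fun h => hPT w' w h.symm
    rw [Finset.disjoint_left]
    intro x hx hx'
    rw [hmemE] at hx hx'
    rcases hx with h | h | h
    · rcases hx' with h' | h' | h'
      · exact hdis _ (hPS w) _ (hPS w') n1 x h h'
      · exact hfK _ (hPS w) w' n1 n3 x h h'
      · exact hdis _ (hPS w) _ (hTS w') n3 x h h'
    · rcases hx' with h' | h' | h'
      · exact hfK _ (hPS w') w n1.symm n4.symm x h' h
      · exact (Finset.disjoint_left.1 (hK2 w w' hne) h) h'
      · exact hfK _ (hTS w') w n3.symm n2.symm x h' h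
    · rcases hx' with h' | h' | h'
      · exact hdis _ (hTS w) _ (hPS w') n4 x h h'
      · exact hfK _ (hTS w) w' n4 n2 x h h'
      · exact hdis _ (hTS w) _ (hTS w') n2 x h h'
  have hEA : ∀ w, ∀ x ∈ E w, x ∈ A → x = P w ∨ x = T w := by
    intro w x hx hxA
    rw [hmemE] at hx
    rcases hx with h | h | h
    · exact Or.inl (hfA _ (hPS w) x h hxA)
    · exact absurd hxA (hJA x ((hK1 w).1 h))
    · exact Or.inr (hfA _ (hTS w) x h hxA)
  have hEH' : ∀ w, ∀ x ∈ E w, x ∈ H \ Z' := by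
    intro w x hx
    rw [hmemE] at hx
    rcases hx with h | h | h
    · exact (hfg _ (hPS w)).2.1.sub x h
    · exact hJH ((hK1 w).1 h)
    · exact (hfg _ (hTS w)).2.1.sub x h
  have hEH : ∀ w, E w ⊆ H := fun w x hx => (Finset.mem_sdiff.1 (hEH' w x hx)).1
  have hEJ' : ∀ w, ∀ x ∈ E w, x ∈ J' → x = T w ∧ x ∉ X := by
    intro w x hx hxJ'
    have hxA : x ∈ A := Finset.mem_union_right _ (Finset.mem_sdiff.2
      ⟨hxJ', (Finset.mem_sdiff.1 (hEH' w x hx)).2⟩)
    have hxX : x ∉ X := hJ'X x hxJ'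
    rcases hEA w x hx hxA with h | h
    · exact absurd (h ▸ hPX w) hxX
    · exact ⟨h, hxX⟩
  have hPE : ∀ w, P w ∈ E w := fun w => (hmemE w _).2 (Or.inl (hfg _ (hPS w)).2.2.2.2.2.1)
  have hTE : ∀ w, T w ∈ E w := fun w =>
    (hmemE w _).2 (Or.inr (Or.inr (hfg _ (hTS w)).2.2.2.2.2.1))
  refine ⟨fun i => E (Sum.inl i) ∪ B' i, fun j => E (Sum.inr j), ?_, ?_, ?_, ?_, ?_, ?_⟩
  · intro i
    refine ⟨?_, ?_, ?_, ?_⟩
    · refine Finset.union_subset (hEH _) ?_
      intro x hx
      exact (Finset.mem_sdiff.1 (hJ' ((hB1 i).1 hx))).1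
    · exact (hEconn _).union (hB1 i).2.1 (x := y i) (hTE (Sum.inl i)) (hB1 i).2.2
    · exact Finset.mem_union_left _ (hPE (Sum.inl i))
    · intro x hx hxX
      rcases Finset.mem_union.1 hx with h | h
      · rcases hEA _ x h (Finset.mem_union_left _ hxX) with h' | h'
        · exact h'
        · exact absurd (by have h'' : x = y i := h'; rw [← h'']; exact hxX : y i ∈ X) (hyX i)
      · exact absurd hxX (hJ'X x ((hB1 i).1 h))
  · intro i j hij
    rw [Finset.disjoint_left]
    intro x hx hx'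
    rcases Finset.mem_union.1 hx with h | h
    · rcases Finset.mem_union.1 hx' with h' | h'
      · exact (Finset.disjoint_left.1 (hEdisj _ _ (fun hh => hij (Sum.inl.inj hh))) h) h'
      · have := (hEJ' _ x h ((hB1 j).1 h')).1
        have hxi : x ∈ B' i := by rw [this]; exact (hB1 i).2.2
        exact (Finset.disjoint_left.1 (hB2 i j hij) hxi) h'
    · rcases Finset.mem_union.1 hx' with h' | h'
      · have := (hEJ' _ x h' ((hB1 i).1 h)).1
        have hxj : x ∈ B' j := by rw [this]; exact (hB1 j).2.2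
        exact (Finset.disjoint_left.1 (hB2 i j hij) h) hxj
      · exact (Finset.disjoint_left.1 (hB2 i j hij) h) h'
  · intro i j hij
    obtain ⟨x, hx, z, hz, hxz⟩ := hB3 i j hij
    exact ⟨x, Finset.mem_union_right _ hx, z, Finset.mem_union_right _ hz, hxz⟩
  · intro j
    refine ⟨hEH _, hEconn _, hPE (Sum.inr j), hTE (Sum.inr j), ?_⟩
    intro x hx hxX
    exact hEA _ x hx (Finset.mem_union_left _ hxX)
  · intro i j hij
    exact hEdisj _ _ (fun hh => hij (Sum.inr.inj hh))
  · intro i j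
    rw [Finset.disjoint_left]
    intro x hx hx'
    rcases Finset.mem_union.1 hx with h | h
    · exact (Finset.disjoint_left.1 (hEdisj (Sum.inl i) (Sum.inr j) (by simp)) h) hx'
    · have := hEJ' _ x hx' ((hB1 i).1 h)
      exact this.2 (this.1 ▸ htX j)

end Crest.Agent.R042.Woven981
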