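import Mathlib
import Crest.Agent.R042.Woven_981
import Crest.Agent.R042.LinkDefs_870
import Crest.Agent.R042.AsmDefs_220
import Crest.Agent.R042.Mader_375
import Crest.Agent.R042.RC_775

/-! Row 42, S0058, Theorem W / W' (wovenness), final graph-theoretic form: `WovenStmt` (the literal
Prop of helper333, message 24908). -/

set_option autoImplicit false
set_option linter.unusedSectionVars false

namespace Crest.Agent.R042.WovenB981

open Finset Crest.Agent.R042.Conn353 Crest.Agent.R042.Menger353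
open Crest.Agent.R042.Link870 (Linked)
open Crest.Agent.R042.Mader375 (Model)

/-- THEOREM W / W', the graph part: from a hub `J` avoiding `X` and a rich rest `J'` of every minimal
batch from `X` to `J`, the piece `H` is woven. -/
def WovenStmt : Prop :=
  ∀ {V : Type} [DecidableEq V] (G : SimpleGraph V) (H Z : Finset V) (a c κ θ : ℕ), 1 ≤ a →
    Z ⊆ H → (∀ A B, Sep G H A B → (A ∩ B).card ≤ θ → A \ B ⊆ Z ∨ B \ A ⊆ Z) →
    a + c ≤ κ → 2 * κ + 2 * a ≤ θ →
    (∀ X, X ⊆ H \ Z → X.card ≤ 2 * κ → ∃ J, J ⊆ (H \ Z) \ X ∧ 2 * κ ≤ J.card ∧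
      (∀ Y, Y ⊆ J → Y.card ≤ 2 * κ → Linked G J Y) ∧
      ∀ U : Finset (List V), Linkage G H X J U → U.card = X.card →
        (∀ Q, Linkage G H X J Q → Q.card = U.card → (verts U).card ≤ (verts Q).card) →
        ∃ J' Z', J' ⊆ ((H \ Z) \ J) \ verts U ∧ Z' ⊆ J' ∧ Z'.card ≤ 2 * a ∧
          (∀ A B, Sep G J' A B → (A ∩ B).card ≤ a → A \ B ⊆ Z' ∨ B \ A ⊆ Z') ∧
          2 * κ ≤ (J' \ Z').card ∧ Model G (J' \ Z') (2 * a)) →
    Asm220.Woven G H (H \ Z) a c

/-- (b): the minimal batch exists. -/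
lemma exists_batch {V : Type*} [DecidableEq V] {G : SimpleGraph V} {H Z X J : Finset V} {θ : ℕ}
    (hsep : ∀ A B, Sep G H A B → (A ∩ B).card ≤ θ → A \ B ⊆ Z ∨ B \ A ⊆ Z)
    (hX : X ⊆ H \ Z) (hJ : J ⊆ H \ Z) (hJc : X.card ≤ J.card) (hθ : X.card ≤ θ + 1) :
    ∃ U, Linkage G H X J U ∧ U.card = X.card ∧
      ∀ Q, Linkage G H X J Q → Q.card = U.card → (verts U).card ≤ (verts Q).card := by
  have hXs : X ⊆ H := hX.trans Finset.sdiff_subset
  have hJs : J ⊆ H := hJ.trans Finset.sdiff_subset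
  have hex : ∃ U, Linkage G H X J U ∧ U.card = X.card := by
    rcases menger_sep (G := G) hXs hJs X.card with h | ⟨A', B', h1, h2, h3, h4⟩
    · exact h
    · exfalso
      have key : ∀ D : Finset V, D ⊆ H \ Z → X.card ≤ D.card → ∃ x ∈ D, x ∉ A' ∩ B' := by
        intro D _ hc
        by_contra hcon
        push Not at hcon
        have := Finset.card_le_card (show D ⊆ A' ∩ B' from fun x hx => hcon x hx)
        omega
      rcases hsep _ _ h1 (by omega) with h | h
      · obtain ⟨x, hx, hx'⟩ := key X hX le_rfl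
        have hxA := h2 hx
        have hxB : x ∉ B' := fun hb => hx' (Finset.mem_inter.2 ⟨hxA, hb⟩)
        exact (Finset.mem_sdiff.1 (hX hx)).2 (h (Finset.mem_sdiff.2 ⟨hxA, hxB⟩))
      · obtain ⟨x, hx, hx'⟩ := key J hJ hJc
        have hxB := h3 hx
        have hxA : x ∉ A' := fun hb => hx' (Finset.mem_inter.2 ⟨hb, hxB⟩)
        exact (Finset.mem_sdiff.1 (hJ hx)).2 (h (Finset.mem_sdiff.2 ⟨hxB, hxA⟩))
  classical
  have hex2 : ∃ n, ∃ U, Linkage G H X J U ∧ U.card = X.card ∧ (verts U).card = n := by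
    obtain ⟨U, h1, h2⟩ := hex
    exact ⟨_, U, h1, h2, rfl⟩
  obtain ⟨U, h1, h2, h3⟩ := Nat.find_spec hex2
  refine ⟨U, h1, h2, fun U' h1' h2' => ?_⟩
  rw [h3]
  exact Nat.find_min' hex2 ⟨U', h1', by rw [h2', h2], rfl⟩

/-- the rooted clique in `J'` from (C2) of order `a` and a `K_{2a}` model. -/
lemma rooted_of_model {V : Type*} [DecidableEq V] {G : SimpleGraph V} {J' Z' : Finset V} {a : ℕ}
    (hsep : ∀ A B, Sep G J' A B → (A ∩ B).card ≤ a → A \ B ⊆ Z' ∨ B \ A ⊆ Z')
    (hM : Model G (J' \ Z') (2 * a)) (y : Fin a → V) (hy : Function.Injective y)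
    (hyJ : ∀ i, y i ∈ J' \ Z') :
    Woven981.Rooted G J' y := by
  classical
  obtain ⟨A, hA1, hA2, hA3⟩ := hM
  obtain ⟨B, hB1, hB2, hB3⟩ := RC775.rooted_clique a (2 * a) le_rfl G J' y hy
    (fun i => (Finset.mem_sdiff.1 (hyJ i)).1) A
    (fun i => (hA1 i).1.trans Finset.sdiff_subset) (fun i => (hA1 i).2.1) hA2
    (fun i => Or.inl (hA1 i).2.2) (fun i j hij => Or.inr (hA3 i j hij)) (by
      intro P Q hPQ hyP hlt i
      rcases hsep P Q hPQ hlt.le with h | h
      · exfalso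
        have hsub : (Finset.univ.image y) ⊆ P ∩ Q := by
          intro x hx
          obtain ⟨j, -, rfl⟩ := Finset.mem_image.1 hx
          refine Finset.mem_inter.2 ⟨hyP j, ?_⟩
          by_contra hq
          exact (Finset.mem_sdiff.1 (hyJ j)).2 (h (Finset.mem_sdiff.2 ⟨hyP j, hq⟩))
        have h1 := Finset.card_le_card hsub
        rw [Finset.card_image_of_injective _ hy, Finset.card_univ, Fintype.card_fin] at h1
        omega
      · obtain ⟨x, hx⟩ := (hA1 i).2.1
        have hx' := Finset.mem_sdiff.1 ((hA1 i).1 hx)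
        refine ⟨x, Finset.mem_inter.2 ⟨?_, hx⟩⟩
        by_contra hxP
        have hxQ : x ∈ Q := by
          have : x ∈ P ∪ Q := by rw [hPQ.union]; exact hx'.1
          exact (Finset.mem_union.1 this).resolve_left hxP
        exact hx'.2 (h (Finset.mem_sdiff.2 ⟨hxQ, hxP⟩)))
  exact ⟨B, fun i => ⟨(hB1 i).2.1, (hB1 i).2.2, (hB1 i).1⟩, hB2, hB3⟩

lemma linkS_of_linked {V : Type*} [DecidableEq V] {G : SimpleGraph V} {J Y : Finset V}
    (h : Linked G J Y) : Woven981.LinkS G J Y := by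
  intro n s t hs ht hst hsY htY
  obtain ⟨P, hP⟩ := h n s t hsY htY hs ht hst
  exact ⟨P, fun i => ⟨hP.sub i, hP.conn i, hP.left i, hP.right i, hP.meet i⟩, hP.disj⟩

theorem wovenStmt : WovenStmt := by
  classical
  intro V _ G H Z a c κ θ ha hZH hsep hac hθ hyp r m s t Bl hr hs ht hrs hrt hst hrY hsY htY
    hBl hrB hsB htB hcard
  set X : Finset V := ((Finset.univ.image r ∪ Finset.univ.image s) ∪ Finset.univ.image t) ∪ Bl
    with hXdef
  have hmem : ∀ x, x ∈ X ↔ (((∃ i, r i = x) ∨ ∃ i, s i = x) ∨ ∃ i, t i = x) ∨ x ∈ Bl := by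
    intro x
    simp only [hXdef, Finset.mem_union, Finset.mem_image, Finset.mem_univ, true_and]
  have hX : X ⊆ H \ Z := by
    intro x hx
    rcases (hmem x).1 hx with ((⟨i, rfl⟩ | ⟨i, rfl⟩) | ⟨i, rfl⟩) | h
    exacts [hrY i, hsY i, htY i, hBl h]
  have hXc : X.card ≤ a + m + m + Bl.card := by
    have h1 := Finset.card_union_le ((Finset.univ.image r ∪ Finset.univ.image s) ∪
      Finset.univ.image t) Bl
    have h2 := Finset.card_union_le (Finset.univ.image r ∪ Finset.univ.image s)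
      (Finset.univ.image t)
    have h3 := Finset.card_union_le (Finset.univ.image r) (Finset.univ.image s)
    have h4 : (Finset.univ.image r).card ≤ a := by
      simpa using Finset.card_image_le (s := (Finset.univ : Finset (Fin a))) (f := r)
    have h5 : (Finset.univ.image s).card ≤ m := by
      simpa using Finset.card_image_le (s := (Finset.univ : Finset (Fin m))) (f := s)
    have h6 : (Finset.univ.image t).card ≤ m := by
      simpa using Finset.card_image_le (s := (Finset.univ : Finset (Fin m))) (f := t)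
    rw [hXdef]
    omega
  obtain ⟨J, hJ, hJc, hlink, hrest⟩ := hyp X hX (by omega)
  have hJ1 : J ⊆ H \ Z := hJ.trans Finset.sdiff_subset
  have hJX : Disjoint J X := Finset.disjoint_left.2 fun x hx => (Finset.mem_sdiff.1 (hJ hx)).2
  obtain ⟨U, hU, hUc, hUmin⟩ := exists_batch hsep hX hJ1 (by omega) (by omega)
  obtain ⟨J', Z', k1, k2, k3, k4, k5, k6⟩ := hrest U hU hUc hUmin
  have k1' : J' ⊆ H \ Z := (k1.trans Finset.sdiff_subset).trans Finset.sdiff_subset
  obtain ⟨B, C, w1, w2, w3, w4, w5, w6⟩ := Woven981.woven_core (θ := θ) (κ := κ) (a := a) hsep hX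
    hJ1 hJX (fun Y hY hYc => linkS_of_linked (hlink Y hY hYc)) hU hUc k1'
    (Finset.disjoint_left.2 fun x hx =>
      (Finset.mem_sdiff.1 (Finset.mem_sdiff.1 (k1 hx)).1).2)
    (Finset.disjoint_left.2 fun x hx => (Finset.mem_sdiff.1 (k1 hx)).2)
    k2 k3 hJc k5 (by omega) hθ (Fintype.card_fin a)
    (fun y hy hyJ => rooted_of_model k4 k6 y hy hyJ) r s t hr hs ht
    (fun i => (hmem _).2 (Or.inl (Or.inl (Or.inl ⟨i, rfl⟩))))
    (fun i => (hmem _).2 (Or.inl (Or.inl (Or.inr ⟨i, rfl⟩))))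
    (fun i => (hmem _).2 (Or.inl (Or.inr ⟨i, rfl⟩))) hrs hrt hst
  refine ⟨B, C, fun i => ⟨(w1 i).1, (w1 i).2.1, (w1 i).2.2.1⟩,
    fun i => ⟨(w4 i).1, (w4 i).2.1, (w4 i).2.2.1, (w4 i).2.2.2.1⟩, w2, w5, w6, ?_, ?_, w3⟩
  · intro i
    rw [Finset.disjoint_left]
    intro x hx hxB
    have := (w1 i).2.2.2 x hx ((hmem x).2 (Or.inr hxB))
    exact hrB i (this ▸ hxB)
  · intro i
    rw [Finset.disjoint_left]
    intro x hx hxB
    rcases (w4 i).2.2.2.2 x hx ((hmem x).2 (Or.inr hxB)) with h | h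
    · exact hsB i (h ▸ hxB)
    · exact htB i (h ▸ hxB)

end Crest.Agent.R042.WovenB981
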